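import Vale.Agent.Lib.P154.PChain.BX.L

set_option linter.all false

namespace Vale.Agent.Lib.P154.PChain.BX.S0

open Vale.Agent.Lib.P154.Chain

noncomputable def pc0 : PT := (PT.nd (nat_lit 3072966) (PT.nd (nat_lit 2979288) (PT.nd (nat_lit 2885766) (PT.nd (nat_lit 2854488) (PT.nd (nat_lit 2854410) (PT.nd (nat_lit 2823210) PT.nil (PT.lf (nat_lit 76) (nat_lit 3) (nat_lit 1) (nat_lit 1) (nat_lit 105) (nat_lit 90) (nat_lit 105))) (PT.lf (nat_lit 152) (nat_lit 6) (nat_lit 2) (nat_lit 3) (nat_lit 104) (nat_lit 91) (nat_lit 105))) (PT.nd (nat_lit 31122) (PT.lf (nat_lit 152) (nat_lit 6) (nat_lit 2) (nat_lit 1) (nat_lit 105) (nat_lit 91) (nat_lit 104)) (PT.nd (nat_lit 78) (PT.lf (nat_lit 228) (nat_lit 6) (nat_lit 3) (nat_lit 3) (nat_lit 103) (nat_lit 92) (nat_lit 105)) (PT.lf (nat_lit 304) (nat_lit 3) (nat_lit 4) (nat_lit 1) (nat_lit 104) (nat_lit 92) (nat_lit 104))))) (PT.nd (nat_lit 62322)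 (PT.nd (nat_lit 31122) (PT.lf (nat_lit 228) (nat_lit 6) (nat_lit 3) (nat_lit 1) (nat_lit 105) (nat_lit 92) (nat_lit 103)) (PT.nd (nat_lit 78) (PT.lf (nat_lit 380) (nat_lit 6) (nat_lit 5) (nat_lit 3) (nat_lit 103) (nat_lit 93) (nat_lit 104)) (PT.lf (nat_lit 380) (nat_lit 6) (nat_lit 5) (nat_lit 1) (nat_lit 104) (nat_lit 93) (nat_lit 103)))) (PT.nd (nat_lit 78) (PT.lf (nat_lit 456) (nat_lit 6) (nat_lit 6) (nat_lit 3) (nat_lit 102) (nat_lit 94) (nat_lit 104)) (PT.nd (nat_lit 78) (PT.lf (nat_lit 532) (nat_lit 3) (nat_lit 7) (nat_lit 1) (nat_lit 103) (nat_lit 94) (nat_lit 103)) (PT.lf (nat_lit 456) (nat_lit 6) (nat_lit 6) (nat_lit 1) (nat_lit 104) (nat_lit 94) (nat_lit 102)))))) (PT.nd (nat_lit 31356) (PT.nd (nat_lit 156) (PT.nd (nat_lit 78) (PT.lf (nat_lit 608) (nat_lit 6) (nat_lit 8) (nat_lit 3) (nat_lit 101) (nat_lit 95) (nat_lit 104)) (PT.lf (nat_lit 684) (nat_lit 6) (nat_lit 9) (nat_lit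 3) (nat_lit 102) (nat_lit 95) (nat_lit 103))) (PT.nd (nat_lit 78) (PT.lf (nat_lit 684) (nat_lit 6) (nat_lit 9) (nat_lit 1) (nat_lit 103) (nat_lit 95) (nat_lit 102)) (PT.nd (nat_lit 31044) (PT.lf (nat_lit 608) (nat_lit 6) (nat_lit 8) (nat_lit 1) (nat_lit 104) (nat_lit 95) (nat_lit 101)) (PT.lf (nat_lit 760) (nat_lit 6) (nat_lit 10) (nat_lit 3) (nat_lit 101) (nat_lit 96) (nat_lit 103))))) (PT.nd (nat_lit 31200) (PT.nd (nat_lit 78) (PT.lf (nat_lit 836) (nat_lit 3) (nat_lit 11) (nat_lit 1) (nat_lit 102) (nat_lit 96) (nat_lit 102)) (PT.nd (nat_lit 31044) (PT.lf (nat_lit 760) (nat_lit 6) (nat_lit 10) (nat_lit 1) (nat_lit 103) (nat_lit 96) (nat_lit 101)) (PT.lf (nat_lit 988) (nat_lit 6) (nat_lit 13) (nat_lit 3) (nat_lit 100) (nat_lit 97) (nat_lit 103)))) (PT.nd (nat_lit 78) (PT.lf (nat_lit 1064) (nat_lit 6) (nat_lit 14) (nat_lit 3) (nat_lit 101) (nat_lit 97) (nat_lit 102)) (PT.nd (nat_lit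 78) (PT.lf (nat_lit 1064) (nat_lit 6) (nat_lit 14) (nat_lit 1) (nat_lit 102) (nat_lit 97) (nat_lit 101)) (PT.lf (nat_lit 988) (nat_lit 6) (nat_lit 13) (nat_lit 1) (nat_lit 103) (nat_lit 97) (nat_lit 100))))))) (PT.nd (nat_lit 62400) (PT.nd (nat_lit 31200) (PT.nd (nat_lit 156) (PT.nd (nat_lit 78) (PT.lf (nat_lit 912) (nat_lit 6) (nat_lit 12) (nat_lit 3) (nat_lit 99) (nat_lit 98) (nat_lit 103)) (PT.lf (nat_lit 1216) (nat_lit 6) (nat_lit 16) (nat_lit 3) (nat_lit 100) (nat_lit 98) (nat_lit 102))) (PT.nd (nat_lit 78) (PT.lf (nat_lit 1292) (nat_lit 3) (nat_lit 17) (nat_lit 1) (nat_lit 101) (nat_lit 98) (nat_lit 101)) (PT.nd (nat_lit 78) (PT.lf (nat_lit 1216) (nat_lit 6) (nat_lit 16) (nat_lit 1) (nat_lit 102) (nat_lit 98) (nat_lit 100)) (PT.lf (nat_lit 912) (nat_lit 6) (nat_lit 12) (nat_lit 1) (nat_lit 103) (nat_lit 98) (nat_lit 99))))) (PT.nd (nat_lit 234) (PT.nd (nat_lit 78) (PT.lf (nat_lit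 912) (nat_lit 6) (nat_lit 12) (nat_lit 5) (nat_lit 98) (nat_lit 99) (nat_lit 103)) (PT.nd (nat_lit 78) (PT.lf (nat_lit 1140) (nat_lit 3) (nat_lit 15) (nat_lit 3) (nat_lit 99) (nat_lit 99) (nat_lit 102)) (PT.lf (nat_lit 1368) (nat_lit 6) (nat_lit 18) (nat_lit 3) (nat_lit 100) (nat_lit 99) (nat_lit 101)))) (PT.nd (nat_lit 78) (PT.lf (nat_lit 1368) (nat_lit 6) (nat_lit 18) (nat_lit 1) (nat_lit 101) (nat_lit 99) (nat_lit 100)) (PT.nd (nat_lit 78) (PT.lf (nat_lit 1140) (nat_lit 3) (nat_lit 15) (nat_lit 0) (nat_lit 102) (nat_lit 99) (nat_lit 99)) (PT.lf (nat_lit 912) (nat_lit 6) (nat_lit 12) (nat_lit 0) (nat_lit 103) (nat_lit 99) (nat_lit 98)))))) (PT.nd (nat_lit 468) (PT.nd (nat_lit 234) (PT.nd (nat_lit 78) (PT.lf (nat_lit 988) (nat_lit 6) (nat_lit 13) (nat_lit 5) (nat_lit 97) (nat_lit 100) (nat_lit 103)) (PT.nd (nat_lit 78) (PT.lf (nat_lit 1216) (nat_lit 6) (nat_lit 16) (nat_lit 5) (nat_lit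 98) (nat_lit 100) (nat_lit 102)) (PT.lf (nat_lit 1368) (nat_lit 6) (nat_lit 18) (nat_lit 5) (nat_lit 99) (nat_lit 100) (nat_lit 101)))) (PT.nd (nat_lit 78) (PT.lf (nat_lit 1444) (nat_lit 1) (nat_lit 19) (nat_lit 0) (nat_lit 100) (nat_lit 100) (nat_lit 100)) (PT.nd (nat_lit 78) (PT.lf (nat_lit 1368) (nat_lit 6) (nat_lit 18) (nat_lit 0) (nat_lit 101) (nat_lit 100) (nat_lit 99)) (PT.lf (nat_lit 1216) (nat_lit 6) (nat_lit 16) (nat_lit 0) (nat_lit 102) (nat_lit 100) (nat_lit 98))))) (PT.nd (nat_lit 30810) (PT.nd (nat_lit 30654) (PT.lf (nat_lit 988) (nat_lit 6) (nat_lit 13) (nat_lit 0) (nat_lit 103) (nat_lit 100) (nat_lit 97)) (PT.nd (nat_lit 78) (PT.lf (nat_lit 608) (nat_lit 6) (nat_lit 8) (nat_lit 5) (nat_lit 95) (nat_lit 101) (nat_lit 104)) (PT.lf (nat_lit 760) (nat_lit 6) (nat_lit 10) (nat_lit 5) (nat_lit 96) (nat_lit 101) (nat_lit 103)))) (PT.nd (nat_lit 78) (PT.lf (nat_lit 1064)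 (nat_lit 6) (nat_lit 14) (nat_lit 5) (nat_lit 97) (nat_lit 101) (nat_lit 102)) (PT.nd (nat_lit 78) (PT.lf (nat_lit 1292) (nat_lit 3) (nat_lit 17) (nat_lit 4) (nat_lit 98) (nat_lit 101) (nat_lit 101)) (PT.lf (nat_lit 1368) (nat_lit 6) (nat_lit 18) (nat_lit 4) (nat_lit 99) (nat_lit 101) (nat_lit 100))))))))
noncomputable def pc1 : PT := (PT.nd (nat_lit 62478) (PT.nd (nat_lit 31278) (PT.nd (nat_lit 30810) (PT.nd (nat_lit 156) (PT.nd (nat_lit 78) (PT.lf (nat_lit 1368) (nat_lit 6) (nat_lit 18) (nat_lit 2) (nat_lit 100) (nat_lit 101) (nat_lit 99)) (PT.lf (nat_lit 1292) (nat_lit 3) (nat_lit 17) (nat_lit 0) (nat_lit 101) (nat_lit 101) (nat_lit 98))) (PT.nd (nat_lit 78) (PT.lf (nat_lit 1064) (nat_lit 6) (nat_lit 14) (nat_lit 0) (nat_lit 102) (nat_lit 101) (nat_lit 97)) (PT.nd (nat_lit 78) (PT.lf (nat_lit 760) (nat_lit 6) (nat_lit 10) (nat_lit 0) (nat_lit 103) (nat_lit 101) (nat_lit 96)) (PT.lf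 (nat_lit 608) (nat_lit 6) (nat_lit 8) (nat_lit 0) (nat_lit 104) (nat_lit 101) (nat_lit 95))))) (PT.nd (nat_lit 234) (PT.nd (nat_lit 78) (PT.lf (nat_lit 456) (nat_lit 6) (nat_lit 6) (nat_lit 5) (nat_lit 94) (nat_lit 102) (nat_lit 104)) (PT.nd (nat_lit 78) (PT.lf (nat_lit 684) (nat_lit 6) (nat_lit 9) (nat_lit 5) (nat_lit 95) (nat_lit 102) (nat_lit 103)) (PT.lf (nat_lit 836) (nat_lit 3) (nat_lit 11) (nat_lit 4) (nat_lit 96) (nat_lit 102) (nat_lit 102)))) (PT.nd (nat_lit 78) (PT.lf (nat_lit 1064) (nat_lit 6) (nat_lit 14) (nat_lit 4) (nat_lit 97) (nat_lit 102) (nat_lit 101)) (PT.nd (nat_lit 78) (PT.lf (nat_lit 1216) (nat_lit 6) (nat_lit 16) (nat_lit 4) (nat_lit 98) (nat_lit 102) (nat_lit 100)) (PT.lf (nat_lit 1140) (nat_lit 3) (nat_lit 15) (nat_lit 2) (nat_lit 99) (nat_lit 102) (nat_lit 99)))))) (PT.nd (nat_lit 30732) (PT.nd (nat_lit 234) (PT.nd (nat_lit 78) (PT.lf (nat_lit 1216) (nat_lit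 6) (nat_lit 16) (nat_lit 2) (nat_lit 100) (nat_lit 102) (nat_lit 98)) (PT.nd (nat_lit 78) (PT.lf (nat_lit 1064) (nat_lit 6) (nat_lit 14) (nat_lit 2) (nat_lit 101) (nat_lit 102) (nat_lit 97)) (PT.lf (nat_lit 836) (nat_lit 3) (nat_lit 11) (nat_lit 0) (nat_lit 102) (nat_lit 102) (nat_lit 96)))) (PT.nd (nat_lit 78) (PT.lf (nat_lit 684) (nat_lit 6) (nat_lit 9) (nat_lit 0) (nat_lit 103) (nat_lit 102) (nat_lit 95)) (PT.nd (nat_lit 30342) (PT.lf (nat_lit 456) (nat_lit 6) (nat_lit 6) (nat_lit 0) (nat_lit 104) (nat_lit 102) (nat_lit 94)) (PT.lf (nat_lit 228) (nat_lit 6) (nat_lit 3) (nat_lit 5) (nat_lit 92) (nat_lit 103) (nat_lit 105))))) (PT.nd (nat_lit 234) (PT.nd (nat_lit 78) (PT.lf (nat_lit 380) (nat_lit 6) (nat_lit 5) (nat_lit 5) (nat_lit 93) (nat_lit 103) (nat_lit 104)) (PT.nd (nat_lit 78) (PT.lf (nat_lit 532) (nat_lit 3) (nat_lit 7) (nat_lit 4) (nat_lit 94) (nat_lit 103) (nat_lit 103))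 (PT.lf (nat_lit 684) (nat_lit 6) (nat_lit 9) (nat_lit 4) (nat_lit 95) (nat_lit 103) (nat_lit 102)))) (PT.nd (nat_lit 78) (PT.lf (nat_lit 760) (nat_lit 6) (nat_lit 10) (nat_lit 4) (nat_lit 96) (nat_lit 103) (nat_lit 101)) (PT.nd (nat_lit 78) (PT.lf (nat_lit 988) (nat_lit 6) (nat_lit 13) (nat_lit 4) (nat_lit 97) (nat_lit 103) (nat_lit 100)) (PT.lf (nat_lit 912) (nat_lit 6) (nat_lit 12) (nat_lit 4) (nat_lit 98) (nat_lit 103) (nat_lit 99))))))) (PT.nd (nat_lit 30966) (PT.nd (nat_lit 390) (PT.nd (nat_lit 156) (PT.nd (nat_lit 78) (PT.lf (nat_lit 912) (nat_lit 6) (nat_lit 12) (nat_lit 2) (nat_lit 99) (nat_lit 103) (nat_lit 98)) (PT.lf (nat_lit 988) (nat_lit 6) (nat_lit 13) (nat_lit 2) (nat_lit 100) (nat_lit 103) (nat_lit 97))) (PT.nd (nat_lit 78) (PT.lf (nat_lit 760) (nat_lit 6) (nat_lit 10) (nat_lit 2) (nat_lit 101) (nat_lit 103) (nat_lit 96)) (PT.nd (nat_lit 78) (PT.lf (nat_lit 684) (nat_lit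 6) (nat_lit 9) (nat_lit 2) (nat_lit 102) (nat_lit 103) (nat_lit 95)) (PT.lf (nat_lit 532) (nat_lit 3) (nat_lit 7) (nat_lit 0) (nat_lit 103) (nat_lit 103) (nat_lit 94))))) (PT.nd (nat_lit 30342) (PT.nd (nat_lit 78) (PT.lf (nat_lit 380) (nat_lit 6) (nat_lit 5) (nat_lit 0) (nat_lit 104) (nat_lit 103) (nat_lit 93)) (PT.nd (nat_lit 30186) (PT.lf (nat_lit 228) (nat_lit 6) (nat_lit 3) (nat_lit 0) (nat_lit 105) (nat_lit 103) (nat_lit 92)) (PT.lf (nat_lit 152) (nat_lit 6) (nat_lit 2) (nat_lit 5) (nat_lit 91) (nat_lit 104) (nat_lit 105)))) (PT.nd (nat_lit 78) (PT.lf (nat_lit 304) (nat_lit 3) (nat_lit 4) (nat_lit 4) (nat_lit 92) (nat_lit 104) (nat_lit 104)) (PT.nd (nat_lit 78) (PT.lf (nat_lit 380) (nat_lit 6) (nat_lit 5) (nat_lit 4) (nat_lit 93) (nat_lit 104) (nat_lit 103)) (PT.lf (nat_lit 456) (nat_lit 6) (nat_lit 6) (nat_lit 4) (nat_lit 94) (nat_lit 104) (nat_lit 102)))))) (PT.nd (nat_lit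 30888) (PT.nd (nat_lit 624) (PT.nd (nat_lit 468) (PT.lf (nat_lit 608) (nat_lit 6) (nat_lit 8) (nat_lit 4) (nat_lit 95) (nat_lit 104) (nat_lit 101)) (PT.nd (nat_lit 78) (PT.lf (nat_lit 608) (nat_lit 6) (nat_lit 8) (nat_lit 2) (nat_lit 101) (nat_lit 104) (nat_lit 95)) (PT.lf (nat_lit 456) (nat_lit 6) (nat_lit 6) (nat_lit 2) (nat_lit 102) (nat_lit 104) (nat_lit 94)))) (PT.nd (nat_lit 78) (PT.lf (nat_lit 380) (nat_lit 6) (nat_lit 5) (nat_lit 2) (nat_lit 103) (nat_lit 104) (nat_lit 93)) (PT.nd (nat_lit 78) (PT.lf (nat_lit 304) (nat_lit 3) (nat_lit 4) (nat_lit 0) (nat_lit 104) (nat_lit 104) (nat_lit 92)) (PT.lf (nat_lit 152) (nat_lit 6) (nat_lit 2) (nat_lit 0) (nat_lit 105) (nat_lit 104) (nat_lit 91))))) (PT.nd (nat_lit 1014) (PT.nd (nat_lit 78) (PT.lf (nat_lit 76) (nat_lit 3) (nat_lit 1) (nat_lit 4) (nat_lit 90) (nat_lit 105) (nat_lit 105)) (PT.nd (nat_lit 78) (PT.lf (nat_lit 152) (nat_lit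 6) (nat_lit 2) (nat_lit 4) (nat_lit 91) (nat_lit 105) (nat_lit 104)) (PT.lf (nat_lit 228) (nat_lit 6) (nat_lit 3) (nat_lit 4) (nat_lit 92) (nat_lit 105) (nat_lit 103)))) (PT.nd (nat_lit 78) (PT.lf (nat_lit 228) (nat_lit 6) (nat_lit 3) (nat_lit 2) (nat_lit 103) (nat_lit 105) (nat_lit 92)) (PT.nd (nat_lit 78) (PT.lf (nat_lit 152) (nat_lit 6) (nat_lit 2) (nat_lit 2) (nat_lit 104) (nat_lit 105) (nat_lit 91)) (PT.lf (nat_lit 76) (nat_lit 3) (nat_lit 1) (nat_lit 0) (nat_lit 105) (nat_lit 105) (nat_lit 90))))))))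
noncomputable def xc0 : XT := (XT.nd (nat_lit 218478) (nat_lit 0) (nat_lit 0) (XT.nd (nat_lit 155688) (nat_lit 0) (nat_lit 0) (XT.nd (nat_lit 62400) (nat_lit 0) (nat_lit 0) (XT.nd (nat_lit 31278) (nat_lit 0) (nat_lit 0) (XT.nd (nat_lit 31122) (nat_lit 0) (nat_lit 0) (XT.lf (nat_lit 0) (nat_lit 44912134303008) (nat_lit 76) (nat_lit 4865159953924) (nat_lit 76) (nat_lit 4865159953924) (nat_lit 1) (nat_lit 4) (nat_lit 2) (nat_lit 5) (nat_lit 2) (nat_lit 4) (nat_lit 280) (nat_lit 160) (nat_lit 160)) (XT.nd (nat_lit 78) (nat_lit 0) (nat_lit 0) (XT.lf (nat_lit 0) (nat_lit 33959954374799) (nat_lit 76) (nat_lit 3678798835100) (nat_lit 76) (nat_lit 3678798835100) (nat_lit 1) (nat_lit 4) (nat_lit 2) (nat_lit 5) (nat_lit 2) (nat_lit 4) (nat_lit 278) (nat_lit 161) (nat_lit 161)) (XT.lf (nat_lit 0) (nat_lit 78107985002920) (nat_lit 76) (nat_lit 8461191192854) (nat_lit 76) (nat_lit 8461185554790)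 (nat_lit 1) (nat_lit 4) (nat_lit 2) (nat_lit 5) (nat_lit 2) (nat_lit 4) (nat_lit 279) (nat_lit 161) (nat_lit 160)))) (XT.nd (nat_lit 30966) (nat_lit 0) (nat_lit 0) (XT.lf (nat_lit 0) (nat_lit 89824265051042) (nat_lit 76) (nat_lit 9730327112873) (nat_lit 76) (nat_lit 9730316572144) (nat_lit 1) (nat_lit 4) (nat_lit 2) (nat_lit 5) (nat_lit 2) (nat_lit 4) (nat_lit 280) (nat_lit 161) (nat_lit 159)) (XT.nd (nat_lit 78) (nat_lit 0) (nat_lit 0) (XT.lf (nat_lit 0) (nat_lit 25678522144508) (nat_lit 76) (nat_lit 2781745229807) (nat_lit 76) (nat_lit 2781745229807) (nat_lit 1) (nat_lit 4) (nat_lit 2) (nat_lit 5) (nat_lit 2) (nat_lit 4) (nat_lit 276) (nat_lit 162) (nat_lit 162)) (XT.lf (nat_lit 0) (nat_lit 59060704364382) (nat_lit 76) (nat_lit 6397960981499) (nat_lit 76) (nat_lit 6397954497726) (nat_lit 1) (nat_lit 4) (nat_lit 2) (nat_lit 5) (nat_lit 2) (nat_lit 4) (nat_lit 277) (nat_lit 162)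 (nat_lit 161))))) (XT.nd (nat_lit 31200) (nat_lit 0) (nat_lit 0) (XT.nd (nat_lit 78) (nat_lit 0) (nat_lit 0) (XT.lf (nat_lit 0) (nat_lit 67919904661376) (nat_lit 76) (nat_lit 7357605955978) (nat_lit 76) (nat_lit 7357593834140) (nat_lit 1) (nat_lit 4) (nat_lit 2) (nat_lit 5) (nat_lit 2) (nat_lit 4) (nat_lit 278) (nat_lit 162) (nat_lit 160)) (XT.nd (nat_lit 78) (nat_lit 0) (nat_lit 0) (XT.lf (nat_lit 0) (nat_lit 78107977359722) (nat_lit 76) (nat_lit 8461201045593) (nat_lit 76) (nat_lit 8461184021091) (nat_lit 1) (nat_lit 4) (nat_lit 2) (nat_lit 5) (nat_lit 2) (nat_lit 4) (nat_lit 279) (nat_lit 162) (nat_lit 159)) (XT.lf (nat_lit 0) (nat_lit 89824254316561) (nat_lit 76) (nat_lit 9730338328186) (nat_lit 76) (nat_lit 9730317040497) (nat_lit 1) (nat_lit 4) (nat_lit 2) (nat_lit 5) (nat_lit 2) (nat_lit 4) (nat_lit 280) (nat_lit 162) (nat_lit 158)))) (XT.nd (nat_lit 156) (nat_lit 0) (nat_lit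 0) (XT.nd (nat_lit 78) (nat_lit 0) (nat_lit 0) (XT.lf (nat_lit 0) (nat_lit 59060695574705) (nat_lit 76) (nat_lit 6397972312149) (nat_lit 76) (nat_lit 6397952733972) (nat_lit 1) (nat_lit 4) (nat_lit 2) (nat_lit 5) (nat_lit 2) (nat_lit 4) (nat_lit 277) (nat_lit 163) (nat_lit 160)) (XT.lf (nat_lit 0) (nat_lit 67919892316724) (nat_lit 76) (nat_lit 7357618853588) (nat_lit 76) (nat_lit 7357594372746) (nat_lit 1) (nat_lit 4) (nat_lit 2) (nat_lit 5) (nat_lit 2) (nat_lit 4) (nat_lit 278) (nat_lit 163) (nat_lit 159))) (XT.nd (nat_lit 61854) (nat_lit 0) (nat_lit 0) (XT.lf (nat_lit 0) (nat_lit 78107961923786) (nat_lit 76) (nat_lit 8461215305778) (nat_lit 76) (nat_lit 8461186561750) (nat_lit 1) (nat_lit 4) (nat_lit 2) (nat_lit 5) (nat_lit 2) (nat_lit 4) (nat_lit 279) (nat_lit 163) (nat_lit 158)) (XT.lf (nat_lit 0) (nat_lit 11101272171059) (nat_lit 76) (nat_lit 1202767579480) (nat_lit 76) (nat_lit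 1202767579480) (nat_lit 1) (nat_lit 4) (nat_lit 2) (nat_lit 5) (nat_lit 2) (nat_lit 4) (nat_lit 270) (nat_lit 165) (nat_lit 165)))))) (XT.nd (nat_lit 32214) (nat_lit 0) (nat_lit 0) (XT.nd (nat_lit 31044) (nat_lit 0) (nat_lit 0) (XT.nd (nat_lit 1014) (nat_lit 0) (nat_lit 0) (XT.lf (nat_lit 0) (nat_lit 25533083300600) (nat_lit 76) (nat_lit 2766284754862) (nat_lit 76) (nat_lit 2766274893853) (nat_lit 1) (nat_lit 4) (nat_lit 2) (nat_lit 5) (nat_lit 2) (nat_lit 4) (nat_lit 271) (nat_lit 165) (nat_lit 164)) (XT.nd (nat_lit 78) (nat_lit 0) (nat_lit 0) (XT.lf (nat_lit 0) (nat_lit 157103425666891) (nat_lit 76) (nat_lit 17018303895777) (nat_lit 76) (nat_lit 17018238979305) (nat_lit 1) (nat_lit 4) (nat_lit 2) (nat_lit 5) (nat_lit 2) (nat_lit 4) (nat_lit 284) (nat_lit 165) (nat_lit 151)) (XT.lf (nat_lit 0) (nat_lit 180669008820579) (nat_lit 76) (nat_lit 19571007592349) (nat_lit 76) (nat_lit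 19570941282234) (nat_lit 1) (nat_lit 4) (nat_lit 2) (nat_lit 5) (nat_lit 2) (nat_lit 4) (nat_lit 285) (nat_lit 165) (nat_lit 150)))) (XT.nd (nat_lit 78) (nat_lit 0) (nat_lit 0) (XT.lf (nat_lit 0) (nat_lit 8394012711921) (nat_lit 76) (nat_lit 909543421874) (nat_lit 76) (nat_lit 909543421874) (nat_lit 1) (nat_lit 4) (nat_lit 2) (nat_lit 5) (nat_lit 2) (nat_lit 4) (nat_lit 268) (nat_lit 166) (nat_lit 166)) (XT.nd (nat_lit 78) (nat_lit 0) (nat_lit 0) (XT.lf (nat_lit 0) (nat_lit 19306410140656) (nat_lit 76) (nat_lit 2091857090677) (nat_lit 76) (nat_lit 2091845750517) (nat_lit 1) (nat_lit 4) (nat_lit 2) (nat_lit 5) (nat_lit 2) (nat_lit 4) (nat_lit 269) (nat_lit 166) (nat_lit 165)) (XT.lf (nat_lit 0) (nat_lit 22202537191793) (nat_lit 76) (nat_lit 2405549650838) (nat_lit 76) (nat_lit 2405528449668) (nat_lit 1) (nat_lit 4) (nat_lit 2) (nat_lit 5) (nat_lit 2) (nat_lit 4) (nat_lit 270) (nat_lit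 166) (nat_lit 164))))) (XT.nd (nat_lit 30030) (nat_lit 0) (nat_lit 0) (XT.nd (nat_lit 78) (nat_lit 0) (nat_lit 0) (XT.lf (nat_lit 0) (nat_lit 136611565267975) (nat_lit 76) (nat_lit 14798594472068) (nat_lit 76) (nat_lit 14798518215435) (nat_lit 1) (nat_lit 4) (nat_lit 2) (nat_lit 5) (nat_lit 2) (nat_lit 4) (nat_lit 283) (nat_lit 166) (nat_lit 151)) (XT.nd (nat_lit 29874) (nat_lit 0) (nat_lit 0) (XT.lf (nat_lit 0) (nat_lit 157103377584700) (nat_lit 76) (nat_lit 17018336429584) (nat_lit 76) (nat_lit 17018258779308) (nat_lit 1) (nat_lit 4) (nat_lit 2) (nat_lit 5) (nat_lit 2) (nat_lit 4) (nat_lit 284) (nat_lit 166) (nat_lit 150)) (XT.lf (nat_lit 0) (nat_lit 6346914025289) (nat_lit 76) (nat_lit 687835582015) (nat_lit 76) (nat_lit 687835582015) (nat_lit 1) (nat_lit 4) (nat_lit 2) (nat_lit 5) (nat_lit 2) (nat_lit 4) (nat_lit 266) (nat_lit 167) (nat_lit 167)))) (XT.nd (nat_lit 156) (nat_lit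 0) (nat_lit 0) (XT.nd (nat_lit 78) (nat_lit 0) (nat_lit 0) (XT.lf (nat_lit 0) (nat_lit 14598110296890) (nat_lit 76) (nat_lit 1581915142056) (nat_lit 76) (nat_lit 1581902100872) (nat_lit 1) (nat_lit 4) (nat_lit 2) (nat_lit 5) (nat_lit 2) (nat_lit 4) (nat_lit 267) (nat_lit 167) (nat_lit 166)) (XT.lf (nat_lit 0) (nat_lit 16788017200967) (nat_lit 76) (nat_lit 1819103509408) (nat_lit 76) (nat_lit 1819079128063) (nat_lit 1) (nat_lit 4) (nat_lit 2) (nat_lit 5) (nat_lit 2) (nat_lit 4) (nat_lit 268) (nat_lit 167) (nat_lit 165))) (XT.nd (nat_lit 78) (nat_lit 0) (nat_lit 0) (XT.lf (nat_lit 0) (nat_lit 19306394767456) (nat_lit 76) (nat_lit 2091876908054) (nat_lit 76) (nat_lit 2091842665700) (nat_lit 1) (nat_lit 4) (nat_lit 2) (nat_lit 5) (nat_lit 2) (nat_lit 4) (nat_lit 269) (nat_lit 167) (nat_lit 164)) (XT.lf (nat_lit 0) (nat_lit 22202515600918) (nat_lit 76) (nat_lit 2405572208839) (nat_lit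 76) (nat_lit 2405529391694) (nat_lit 1) (nat_lit 4) (nat_lit 2) (nat_lit 5) (nat_lit 2) (nat_lit 4) (nat_lit 270) (nat_lit 167) (nat_lit 163))))))) (XT.nd (nat_lit 61698) (nat_lit 0) (nat_lit 0) (XT.nd (nat_lit 30810) (nat_lit 0) (nat_lit 0) (XT.nd (nat_lit 30576) (nat_lit 0) (nat_lit 0) (XT.nd (nat_lit 78) (nat_lit 0) (nat_lit 0) (XT.lf (nat_lit 0) (nat_lit 38833025886519) (nat_lit 76) (nat_lit 4206982977510) (nat_lit 76) (nat_lit 4206915679523) (nat_lit 1) (nat_lit 4) (nat_lit 2) (nat_lit 5) (nat_lit 2) (nat_lit 4) (nat_lit 274) (nat_lit 167) (nat_lit 159)) (XT.nd (nat_lit 30420) (nat_lit 0) (nat_lit 0) (XT.lf (nat_lit 0) (nat_lit 44658096576231) (nat_lit 76) (nat_lit 4837963940754) (nat_lit 76) (nat_lit 4837892379581) (nat_lit 1) (nat_lit 4) (nat_lit 2) (nat_lit 5) (nat_lit 2) (nat_lit 4) (nat_lit 275) (nat_lit 167) (nat_lit 158)) (XT.lf (nat_lit 0) (nat_lit 4798988487555) (nat_lit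 76) (nat_lit 520206115430) (nat_lit 76) (nat_lit 520206115430) (nat_lit 1) (nat_lit 4) (nat_lit 2) (nat_lit 5) (nat_lit 2) (nat_lit 4) (nat_lit 264) (nat_lit 168) (nat_lit 168)))) (XT.nd (nat_lit 78) (nat_lit 0) (nat_lit 0) (XT.lf (nat_lit 0) (nat_lit 11037912765911) (nat_lit 76) (nat_lit 1196351364425) (nat_lit 76) (nat_lit 1196336367063) (nat_lit 1) (nat_lit 4) (nat_lit 2) (nat_lit 5) (nat_lit 2) (nat_lit 4) (nat_lit 265) (nat_lit 168) (nat_lit 167)) (XT.nd (nat_lit 78) (nat_lit 0) (nat_lit 0) (XT.lf (nat_lit 0) (nat_lit 12693818594273) (nat_lit 76) (nat_lit 1375690329539) (nat_lit 76) (nat_lit 1375662290992) (nat_lit 1) (nat_lit 4) (nat_lit 2) (nat_lit 5) (nat_lit 2) (nat_lit 4) (nat_lit 266) (nat_lit 168) (nat_lit 166)) (XT.lf (nat_lit 0) (nat_lit 14598092617709) (nat_lit 76) (nat_lit 1581937932040) (nat_lit 76) (nat_lit 1581898553332) (nat_lit 1) (nat_lit 4) (nat_lit 2) (nat_lit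 5) (nat_lit 2) (nat_lit 4) (nat_lit 267) (nat_lit 168) (nat_lit 165))))) (XT.nd (nat_lit 390) (nat_lit 0) (nat_lit 0) (XT.nd (nat_lit 78) (nat_lit 0) (nat_lit 0) (XT.lf (nat_lit 0) (nat_lit 16787992371461) (nat_lit 76) (nat_lit 1819129451109) (nat_lit 76) (nat_lit 1819080211392) (nat_lit 1) (nat_lit 4) (nat_lit 2) (nat_lit 5) (nat_lit 2) (nat_lit 4) (nat_lit 268) (nat_lit 168) (nat_lit 164)) (XT.nd (nat_lit 78) (nat_lit 0) (nat_lit 0) (XT.lf (nat_lit 0) (nat_lit 19306363720276) (nat_lit 76) (nat_lit 2091905590379) (nat_lit 76) (nat_lit 2091847775871) (nat_lit 1) (nat_lit 4) (nat_lit 2) (nat_lit 5) (nat_lit 2) (nat_lit 4) (nat_lit 269) (nat_lit 168) (nat_lit 163)) (XT.lf (nat_lit 0) (nat_lit 22202479147065) (nat_lit 76) (nat_lit 2405603274314) (nat_lit 76) (nat_lit 2405538003467) (nat_lit 1) (nat_lit 4) (nat_lit 2) (nat_lit 5) (nat_lit 2) (nat_lit 4) (nat_lit 270) (nat_lit 168) (nat_lit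 162)))) (XT.nd (nat_lit 156) (nat_lit 0) (nat_lit 0) (XT.nd (nat_lit 78) (nat_lit 0) (nat_lit 0) (XT.lf (nat_lit 0) (nat_lit 33767692448038) (nat_lit 76) (nat_lit 3658342933204) (nat_lit 76) (nat_lit 3658260637856) (nat_lit 1) (nat_lit 4) (nat_lit 2) (nat_lit 5) (nat_lit 2) (nat_lit 4) (nat_lit 273) (nat_lit 168) (nat_lit 159)) (XT.lf (nat_lit 0) (nat_lit 38832973996730) (nat_lit 76) (nat_lit 4207020846830) (nat_lit 76) (nat_lit 4206934288295) (nat_lit 1) (nat_lit 4) (nat_lit 2) (nat_lit 5) (nat_lit 2) (nat_lit 4) (nat_lit 274) (nat_lit 168) (nat_lit 158))) (XT.nd (nat_lit 30264) (nat_lit 0) (nat_lit 0) (XT.lf (nat_lit 0) (nat_lit 44658041998370) (nat_lit 76) (nat_lit 4838002994922) (nat_lit 76) (nat_lit 4837912729268) (nat_lit 1) (nat_lit 4) (nat_lit 2) (nat_lit 5) (nat_lit 2) (nat_lit 4) (nat_lit 275) (nat_lit 168) (nat_lit 157)) (XT.lf (nat_lit 0) (nat_lit 3628505840819) (nat_lit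 76) (nat_lit 393469695212) (nat_lit 76) (nat_lit 393469695212) (nat_lit 1) (nat_lit 4) (nat_lit 2) (nat_lit 5) (nat_lit 2) (nat_lit 4) (nat_lit 262) (nat_lit 169) (nat_lit 169)))))) (XT.nd (nat_lit 546) (nat_lit 0) (nat_lit 0) (XT.nd (nat_lit 234) (nat_lit 0) (nat_lit 0) (XT.nd (nat_lit 78) (nat_lit 0) (nat_lit 0) (XT.lf (nat_lit 0) (nat_lit 8345838565098) (nat_lit 76) (nat_lit 904839192764) (nat_lit 76) (nat_lit 904821945798) (nat_lit 1) (nat_lit 4) (nat_lit 2) (nat_lit 5) (nat_lit 2) (nat_lit 4) (nat_lit 263) (nat_lit 169) (nat_lit 168)) (XT.nd (nat_lit 78) (nat_lit 0) (nat_lit 0) (XT.lf (nat_lit 0) (nat_lit 9597966100360) (nat_lit 76) (nat_lit 1040434271196) (nat_lit 76) (nat_lit 1040402026867) (nat_lit 1) (nat_lit 4) (nat_lit 2) (nat_lit 5) (nat_lit 2) (nat_lit 4) (nat_lit 264) (nat_lit 169) (nat_lit 167)) (XT.lf (nat_lit 0) (nat_lit 11037892434853) (nat_lit 76) (nat_lit 1196377572906)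 (nat_lit 76) (nat_lit 1196332287393) (nat_lit 1) (nat_lit 4) (nat_lit 2) (nat_lit 5) (nat_lit 2) (nat_lit 4) (nat_lit 265) (nat_lit 169) (nat_lit 166)))) (XT.nd (nat_lit 156) (nat_lit 0) (nat_lit 0) (XT.nd (nat_lit 78) (nat_lit 0) (nat_lit 0) (XT.lf (nat_lit 0) (nat_lit 12693790040341) (nat_lit 76) (nat_lit 1375720162494) (nat_lit 76) (nat_lit 1375663536820) (nat_lit 1) (nat_lit 4) (nat_lit 2) (nat_lit 5) (nat_lit 2) (nat_lit 4) (nat_lit 266) (nat_lit 169) (nat_lit 165)) (XT.lf (nat_lit 0) (nat_lit 14598056913452) (nat_lit 76) (nat_lit 1581970916713) (nat_lit 76) (nat_lit 1581904430030) (nat_lit 1) (nat_lit 4) (nat_lit 2) (nat_lit 5) (nat_lit 2) (nat_lit 4) (nat_lit 267) (nat_lit 169) (nat_lit 164))) (XT.nd (nat_lit 78) (nat_lit 0) (nat_lit 0) (XT.lf (nat_lit 0) (nat_lit 16787950449530) (nat_lit 76) (nat_lit 1819165176406) (nat_lit 76) (nat_lit 1819090114932) (nat_lit 1) (nat_lit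 4) (nat_lit 2) (nat_lit 5) (nat_lit 2) (nat_lit 4) (nat_lit 268) (nat_lit 169) (nat_lit 163)) (XT.lf (nat_lit 0) (nat_lit 19306316391671) (nat_lit 76) (nat_lit 2091943698827) (nat_lit 76) (nat_lit 2091861181013) (nat_lit 1) (nat_lit 4) (nat_lit 2) (nat_lit 5) (nat_lit 2) (nat_lit 4) (nat_lit 269) (nat_lit 169) (nat_lit 162))))) (XT.nd (nat_lit 312) (nat_lit 0) (nat_lit 0) (XT.nd (nat_lit 156) (nat_lit 0) (nat_lit 0) (XT.lf (nat_lit 0) (nat_lit 22202427117005) (nat_lit 76) (nat_lit 2405643455068) (nat_lit 76) (nat_lit 2405554453481) (nat_lit 1) (nat_lit 4) (nat_lit 2) (nat_lit 5) (nat_lit 2) (nat_lit 4) (nat_lit 270) (nat_lit 169) (nat_lit 161)) (XT.nd (nat_lit 78) (nat_lit 0) (nat_lit 0) (XT.lf (nat_lit 0) (nat_lit 29363034344389) (nat_lit 76) (nat_lit 3181277801105) (nat_lit 76) (nat_lit 3181178258789) (nat_lit 1) (nat_lit 4) (nat_lit 2) (nat_lit 5) (nat_lit 2) (nat_lit 4) (nat_lit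 272) (nat_lit 169) (nat_lit 159)) (XT.lf (nat_lit 0) (nat_lit 33767629683497) (nat_lit 76) (nat_lit 3658387845497) (nat_lit 76) (nat_lit 3658284039995) (nat_lit 1) (nat_lit 4) (nat_lit 2) (nat_lit 5) (nat_lit 2) (nat_lit 4) (nat_lit 273) (nat_lit 169) (nat_lit 158)))) (XT.nd (nat_lit 30186) (nat_lit 0) (nat_lit 0) (XT.nd (nat_lit 78) (nat_lit 0) (nat_lit 0) (XT.lf (nat_lit 0) (nat_lit 38832908544117) (nat_lit 76) (nat_lit 4207066943971) (nat_lit 76) (nat_lit 4206959431350) (nat_lit 1) (nat_lit 4) (nat_lit 2) (nat_lit 5) (nat_lit 2) (nat_lit 4) (nat_lit 274) (nat_lit 169) (nat_lit 157)) (XT.lf (nat_lit 0) (nat_lit 44657974208302) (nat_lit 76) (nat_lit 4838050122364) (nat_lit 76) (nat_lit 4837939386162) (nat_lit 1) (nat_lit 4) (nat_lit 2) (nat_lit 5) (nat_lit 2) (nat_lit 4) (nat_lit 275) (nat_lit 169) (nat_lit 156))) (XT.nd (nat_lit 78) (nat_lit 0) (nat_lit 0) (XT.lf (nat_lit 0) (nat_lit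 2743419962788) (nat_lit 76) (nat_lit 297656623950) (nat_lit 76) (nat_lit 297656623950) (nat_lit 1) (nat_lit 4) (nat_lit 2) (nat_lit 5) (nat_lit 2) (nat_lit 4) (nat_lit 260) (nat_lit 170) (nat_lit 170)) (XT.lf (nat_lit 0) (nat_lit 6310182315307) (nat_lit 76) (nat_lit 684447962927) (nat_lit 76) (nat_lit 684428128915) (nat_lit 1) (nat_lit 4) (nat_lit 2) (nat_lit 5) (nat_lit 2) (nat_lit 4) (nat_lit 261) (nat_lit 170) (nat_lit 169))))))))
noncomputable def xc1 : XT := (XT.nd (nat_lit 32292) (nat_lit 0) (nat_lit 0) (XT.nd (nat_lit 31044) (nat_lit 0) (nat_lit 0) (XT.nd (nat_lit 468) (nat_lit 0) (nat_lit 0) (XT.nd (nat_lit 234) (nat_lit 0) (nat_lit 0) (XT.nd (nat_lit 78) (nat_lit 0) (nat_lit 0) (XT.lf (nat_lit 0) (nat_lit 7256999175675) (nat_lit 76) (nat_lit 786964736810) (nat_lit 76) (nat_lit 786927655832) (nat_lit 1) (nat_lit 4) (nat_lit 2) (nat_lit 5) (nat_lit 2) (nat_lit 4) (nat_lit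 262) (nat_lit 170) (nat_lit 168)) (XT.nd (nat_lit 78) (nat_lit 0) (nat_lit 0) (XT.lf (nat_lit 0) (nat_lit 8345815184382) (nat_lit 76) (nat_lit 904869332517) (nat_lit 76) (nat_lit 904817254177) (nat_lit 1) (nat_lit 4) (nat_lit 2) (nat_lit 5) (nat_lit 2) (nat_lit 4) (nat_lit 263) (nat_lit 170) (nat_lit 167)) (XT.lf (nat_lit 0) (nat_lit 9597933263338) (nat_lit 76) (nat_lit 1040468579095) (nat_lit 76) (nat_lit 1040403459570) (nat_lit 1) (nat_lit 4) (nat_lit 2) (nat_lit 5) (nat_lit 2) (nat_lit 4) (nat_lit 264) (nat_lit 170) (nat_lit 166)))) (XT.nd (nat_lit 78) (nat_lit 0) (nat_lit 0) (XT.lf (nat_lit 0) (nat_lit 11037851374958) (nat_lit 76) (nat_lit 1196415505280) (nat_lit 76) (nat_lit 1196339045595) (nat_lit 1) (nat_lit 4) (nat_lit 2) (nat_lit 5) (nat_lit 2) (nat_lit 4) (nat_lit 265) (nat_lit 170) (nat_lit 165)) (XT.nd (nat_lit 78) (nat_lit 0) (nat_lit 0) (XT.lf (nat_lit 0) (nat_lit 12693741830120)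 (nat_lit 76) (nat_lit 1375761246586) (nat_lit 76) (nat_lit 1375674925891) (nat_lit 1) (nat_lit 4) (nat_lit 2) (nat_lit 5) (nat_lit 2) (nat_lit 4) (nat_lit 266) (nat_lit 170) (nat_lit 164)) (XT.lf (nat_lit 0) (nat_lit 14598002485556) (nat_lit 76) (nat_lit 1582014741428) (nat_lit 76) (nat_lit 1581919845943) (nat_lit 1) (nat_lit 4) (nat_lit 2) (nat_lit 5) (nat_lit 2) (nat_lit 4) (nat_lit 267) (nat_lit 170) (nat_lit 163))))) (XT.nd (nat_lit 390) (nat_lit 0) (nat_lit 0) (XT.nd (nat_lit 234) (nat_lit 0) (nat_lit 0) (XT.lf (nat_lit 0) (nat_lit 16787890614960) (nat_lit 76) (nat_lit 1819211384272) (nat_lit 76) (nat_lit 1819109032447) (nat_lit 1) (nat_lit 4) (nat_lit 2) (nat_lit 5) (nat_lit 2) (nat_lit 4) (nat_lit 268) (nat_lit 170) (nat_lit 162)) (XT.nd (nat_lit 78) (nat_lit 0) (nat_lit 0) (XT.lf (nat_lit 0) (nat_lit 25532873482239) (nat_lit 76) (nat_lit 2766453698192) (nat_lit 76) (nat_lit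 2766334321864) (nat_lit 1) (nat_lit 4) (nat_lit 2) (nat_lit 5) (nat_lit 2) (nat_lit 4) (nat_lit 271) (nat_lit 170) (nat_lit 159)) (XT.lf (nat_lit 0) (nat_lit 29362959073884) (nat_lit 76) (nat_lit 3181330812816) (nat_lit 76) (nat_lit 3181207173302) (nat_lit 1) (nat_lit 4) (nat_lit 2) (nat_lit 5) (nat_lit 2) (nat_lit 4) (nat_lit 272) (nat_lit 170) (nat_lit 158)))) (XT.nd (nat_lit 156) (nat_lit 0) (nat_lit 0) (XT.nd (nat_lit 78) (nat_lit 0) (nat_lit 0) (XT.lf (nat_lit 0) (nat_lit 33767551724920) (nat_lit 76) (nat_lit 3658442042056) (nat_lit 76) (nat_lit 3658314695424) (nat_lit 1) (nat_lit 4) (nat_lit 2) (nat_lit 5) (nat_lit 2) (nat_lit 4) (nat_lit 273) (nat_lit 170) (nat_lit 157)) (XT.lf (nat_lit 0) (nat_lit 38832828248085) (nat_lit 76) (nat_lit 4207122170831) (nat_lit 76) (nat_lit 4206991600617) (nat_lit 1) (nat_lit 4) (nat_lit 2) (nat_lit 5) (nat_lit 2) (nat_lit 4) (nat_lit 274) (nat_lit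 170) (nat_lit 156))) (XT.nd (nat_lit 29952) (nat_lit 0) (nat_lit 0) (XT.lf (nat_lit 0) (nat_lit 44657891879702) (nat_lit 76) (nat_lit 4838106245139) (nat_lit 76) (nat_lit 4837972871811) (nat_lit 1) (nat_lit 4) (nat_lit 2) (nat_lit 5) (nat_lit 2) (nat_lit 4) (nat_lit 275) (nat_lit 170) (nat_lit 155)) (XT.lf (nat_lit 0) (nat_lit 2074130118526) (nat_lit 76) (nat_lit 225228727717) (nat_lit 76) (nat_lit 225228727717) (nat_lit 1) (nat_lit 4) (nat_lit 2) (nat_lit 5) (nat_lit 2) (nat_lit 4) (nat_lit 258) (nat_lit 171) (nat_lit 171)))))) (XT.nd (nat_lit 546) (nat_lit 0) (nat_lit 0) (XT.nd (nat_lit 234) (nat_lit 0) (nat_lit 0) (XT.nd (nat_lit 78) (nat_lit 0) (nat_lit 0) (XT.lf (nat_lit 0) (nat_lit 4770863133639) (nat_lit 76) (nat_lit 517839460767) (nat_lit 76) (nat_lit 517816651654) (nat_lit 1) (nat_lit 4) (nat_lit 2) (nat_lit 5) (nat_lit 2) (nat_lit 4) (nat_lit 259) (nat_lit 171) (nat_lit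 170)) (XT.nd (nat_lit 78) (nat_lit 0) (nat_lit 0) (XT.lf (nat_lit 0) (nat_lit 5486825543717) (nat_lit 76) (nat_lit 595342396243) (nat_lit 76) (nat_lit 595299753118) (nat_lit 1) (nat_lit 4) (nat_lit 2) (nat_lit 5) (nat_lit 2) (nat_lit 4) (nat_lit 260) (nat_lit 171) (nat_lit 169)) (XT.lf (nat_lit 0) (nat_lit 6310155427484) (nat_lit 76) (nat_lit 684482623643) (nat_lit 76) (nat_lit 684422733551) (nat_lit 1) (nat_lit 4) (nat_lit 2) (nat_lit 5) (nat_lit 2) (nat_lit 4) (nat_lit 261) (nat_lit 171) (nat_lit 168)))) (XT.nd (nat_lit 156) (nat_lit 0) (nat_lit 0) (XT.nd (nat_lit 78) (nat_lit 0) (nat_lit 0) (XT.lf (nat_lit 0) (nat_lit 7256961413100) (nat_lit 76) (nat_lit 787004190894) (nat_lit 76) (nat_lit 786929303440) (nat_lit 1) (nat_lit 4) (nat_lit 2) (nat_lit 5) (nat_lit 2) (nat_lit 4) (nat_lit 262) (nat_lit 171) (nat_lit 167)) (XT.lf (nat_lit 0) (nat_lit 8345767965502) (nat_lit 76) (nat_lit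 904912954748) (nat_lit 76) (nat_lit 904825026109) (nat_lit 1) (nat_lit 4) (nat_lit 2) (nat_lit 5) (nat_lit 2) (nat_lit 4) (nat_lit 263) (nat_lit 171) (nat_lit 166))) (XT.nd (nat_lit 78) (nat_lit 0) (nat_lit 0) (XT.lf (nat_lit 0) (nat_lit 9597877821584) (nat_lit 76) (nat_lit 1040515825800) (nat_lit 76) (nat_lit 1040416557001) (nat_lit 1) (nat_lit 4) (nat_lit 2) (nat_lit 5) (nat_lit 2) (nat_lit 4) (nat_lit 264) (nat_lit 171) (nat_lit 165)) (XT.lf (nat_lit 0) (nat_lit 11037788782877) (nat_lit 76) (nat_lit 1196465903703) (nat_lit 76) (nat_lit 1196356773895) (nat_lit 1) (nat_lit 4) (nat_lit 2) (nat_lit 5) (nat_lit 2) (nat_lit 4) (nat_lit 265) (nat_lit 171) (nat_lit 164))))) (XT.nd (nat_lit 390) (nat_lit 0) (nat_lit 0) (XT.nd (nat_lit 78) (nat_lit 0) (nat_lit 0) (XT.lf (nat_lit 0) (nat_lit 12693673020365) (nat_lit 76) (nat_lit 1375814385632) (nat_lit 76) (nat_lit 1375696681033) (nat_lit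 1) (nat_lit 4) (nat_lit 2) (nat_lit 5) (nat_lit 2) (nat_lit 4) (nat_lit 266) (nat_lit 171) (nat_lit 163)) (XT.nd (nat_lit 78) (nat_lit 0) (nat_lit 0) (XT.lf (nat_lit 0) (nat_lit 14597928269128) (nat_lit 76) (nat_lit 1582070263626) (nat_lit 76) (nat_lit 1581945102687) (nat_lit 1) (nat_lit 4) (nat_lit 2) (nat_lit 5) (nat_lit 2) (nat_lit 4) (nat_lit 267) (nat_lit 171) (nat_lit 162)) (XT.lf (nat_lit 0) (nat_lit 16787811697077) (nat_lit 76) (nat_lit 1819268978775) (nat_lit 76) (nat_lit 1819137334062) (nat_lit 1) (nat_lit 4) (nat_lit 2) (nat_lit 5) (nat_lit 2) (nat_lit 4) (nat_lit 268) (nat_lit 171) (nat_lit 161)))) (XT.nd (nat_lit 156) (nat_lit 0) (nat_lit 0) (XT.nd (nat_lit 78) (nat_lit 0) (nat_lit 0) (XT.lf (nat_lit 0) (nat_lit 25532783829875) (nat_lit 76) (nat_lit 2766516024234) (nat_lit 76) (nat_lit 2766369575607) (nat_lit 1) (nat_lit 4) (nat_lit 2) (nat_lit 5) (nat_lit 2) (nat_lit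 4) (nat_lit 271) (nat_lit 171) (nat_lit 158)) (XT.lf (nat_lit 0) (nat_lit 29362866733448) (nat_lit 76) (nat_lit 3181394323706) (nat_lit 76) (nat_lit 3181244167960) (nat_lit 1) (nat_lit 4) (nat_lit 2) (nat_lit 5) (nat_lit 2) (nat_lit 4) (nat_lit 272) (nat_lit 171) (nat_lit 157))) (XT.nd (nat_lit 78) (nat_lit 0) (nat_lit 0) (XT.lf (nat_lit 0) (nat_lit 33767457047030) (nat_lit 76) (nat_lit 3658506583248) (nat_lit 76) (nat_lit 3658353203921) (nat_lit 1) (nat_lit 4) (nat_lit 2) (nat_lit 5) (nat_lit 2) (nat_lit 4) (nat_lit 273) (nat_lit 171) (nat_lit 156)) (XT.lf (nat_lit 0) (nat_lit 38832731537626) (nat_lit 76) (nat_lit 4207187607937) (nat_lit 76) (nat_lit 4207031425496) (nat_lit 1) (nat_lit 4) (nat_lit 2) (nat_lit 5) (nat_lit 2) (nat_lit 4) (nat_lit 274) (nat_lit 171) (nat_lit 155))))))) (XT.nd (nat_lit 30732) (nat_lit 0) (nat_lit 0) (XT.nd (nat_lit 30186) (nat_lit 0) (nat_lit 0) (XT.nd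 (nat_lit 29952) (nat_lit 0) (nat_lit 0) (XT.nd (nat_lit 29796) (nat_lit 0) (nat_lit 0) (XT.lf (nat_lit 0) (nat_lit 44657793401792) (nat_lit 76) (nat_lit 4838172461302) (nat_lit 76) (nat_lit 4838013841370) (nat_lit 1) (nat_lit 4) (nat_lit 2) (nat_lit 5) (nat_lit 2) (nat_lit 4) (nat_lit 275) (nat_lit 171) (nat_lit 154)) (XT.nd (nat_lit 78) (nat_lit 0) (nat_lit 0) (XT.lf (nat_lit 0) (nat_lit 1568007414241) (nat_lit 76) (nat_lit 170486466118) (nat_lit 76) (nat_lit 170486466118) (nat_lit 1) (nat_lit 4) (nat_lit 2) (nat_lit 5) (nat_lit 2) (nat_lit 4) (nat_lit 256) (nat_lit 172) (nat_lit 172)) (XT.lf (nat_lit 0) (nat_lit 3606835492937) (nat_lit 76) (nat_lit 391904267142) (nat_lit 76) (nat_lit 391878036661) (nat_lit 1) (nat_lit 4) (nat_lit 2) (nat_lit 5) (nat_lit 2) (nat_lit 4) (nat_lit 257) (nat_lit 172) (nat_lit 171)))) (XT.nd (nat_lit 78) (nat_lit 0) (nat_lit 0) (XT.lf (nat_lit 0) (nat_lit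 4148243697915) (nat_lit 76) (nat_lit 450490976028) (nat_lit 76) (nat_lit 450441936434) (nat_lit 1) (nat_lit 4) (nat_lit 2) (nat_lit 5) (nat_lit 2) (nat_lit 4) (nat_lit 258) (nat_lit 172) (nat_lit 170)) (XT.nd (nat_lit 78) (nat_lit 0) (nat_lit 0) (XT.lf (nat_lit 0) (nat_lit 4770832212643) (nat_lit 76) (nat_lit 517879320590) (nat_lit 76) (nat_lit 517810446985) (nat_lit 1) (nat_lit 4) (nat_lit 2) (nat_lit 5) (nat_lit 2) (nat_lit 4) (nat_lit 259) (nat_lit 172) (nat_lit 169)) (XT.lf (nat_lit 0) (nat_lit 5486782116757) (nat_lit 76) (nat_lit 595387768440) (nat_lit 76) (nat_lit 595301647867) (nat_lit 1) (nat_lit 4) (nat_lit 2) (nat_lit 5) (nat_lit 2) (nat_lit 4) (nat_lit 260) (nat_lit 172) (nat_lit 168))))) (XT.nd (nat_lit 234) (nat_lit 0) (nat_lit 0) (XT.nd (nat_lit 78) (nat_lit 0) (nat_lit 0) (XT.lf (nat_lit 0) (nat_lit 6310101125772) (nat_lit 76) (nat_lit 684532789208) (nat_lit 76) (nat_lit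 684431671273) (nat_lit 1) (nat_lit 4) (nat_lit 2) (nat_lit 5) (nat_lit 2) (nat_lit 4) (nat_lit 261) (nat_lit 172) (nat_lit 167)) (XT.nd (nat_lit 78) (nat_lit 0) (nat_lit 0) (XT.lf (nat_lit 0) (nat_lit 7256897655083) (nat_lit 76) (nat_lit 787058524605) (nat_lit 76) (nat_lit 786944365486) (nat_lit 1) (nat_lit 4) (nat_lit 2) (nat_lit 5) (nat_lit 2) (nat_lit 4) (nat_lit 262) (nat_lit 172) (nat_lit 166)) (XT.lf (nat_lit 0) (nat_lit 8345695984610) (nat_lit 76) (nat_lit 904970912934) (nat_lit 76) (nat_lit 904845413654) (nat_lit 1) (nat_lit 4) (nat_lit 2) (nat_lit 5) (nat_lit 2) (nat_lit 4) (nat_lit 263) (nat_lit 172) (nat_lit 165)))) (XT.nd (nat_lit 156) (nat_lit 0) (nat_lit 0) (XT.nd (nat_lit 78) (nat_lit 0) (nat_lit 0) (XT.lf (nat_lit 0) (nat_lit 9597798690366) (nat_lit 76) (nat_lit 1040576935704) (nat_lit 76) (nat_lit 1040441575415) (nat_lit 1) (nat_lit 4) (nat_lit 2) (nat_lit 5) (nat_lit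 2) (nat_lit 4) (nat_lit 264) (nat_lit 172) (nat_lit 164)) (XT.lf (nat_lit 0) (nat_lit 11037703433985) (nat_lit 76) (nat_lit 1196529754230) (nat_lit 76) (nat_lit 1196385819151) (nat_lit 1) (nat_lit 4) (nat_lit 2) (nat_lit 5) (nat_lit 2) (nat_lit 4) (nat_lit 265) (nat_lit 172) (nat_lit 163))) (XT.nd (nat_lit 78) (nat_lit 0) (nat_lit 0) (XT.lf (nat_lit 0) (nat_lit 12693582264799) (nat_lit 76) (nat_lit 1375880619311) (nat_lit 76) (nat_lit 1375729227891) (nat_lit 1) (nat_lit 4) (nat_lit 2) (nat_lit 5) (nat_lit 2) (nat_lit 4) (nat_lit 266) (nat_lit 172) (nat_lit 162)) (XT.lf (nat_lit 0) (nat_lit 14597832812107) (nat_lit 76) (nat_lit 1582138569609) (nat_lit 76) (nat_lit 1581980694417) (nat_lit 1) (nat_lit 4) (nat_lit 2) (nat_lit 5) (nat_lit 2) (nat_lit 4) (nat_lit 267) (nat_lit 172) (nat_lit 161)))))) (XT.nd (nat_lit 30186) (nat_lit 0) (nat_lit 0) (XT.nd (nat_lit 312) (nat_lit 0) (nat_lit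 0) (XT.nd (nat_lit 156) (nat_lit 0) (nat_lit 0) (XT.lf (nat_lit 0) (nat_lit 16787712151834) (nat_lit 76) (nat_lit 1819339086763) (nat_lit 76) (nat_lit 1819175573506) (nat_lit 1) (nat_lit 4) (nat_lit 2) (nat_lit 5) (nat_lit 2) (nat_lit 4) (nat_lit 268) (nat_lit 172) (nat_lit 160)) (XT.nd (nat_lit 78) (nat_lit 0) (nat_lit 0) (XT.lf (nat_lit 0) (nat_lit 22202165740176) (nat_lit 76) (nat_lit 2405827538235) (nat_lit 76) (nat_lit 2405654859128) (nat_lit 1) (nat_lit 4) (nat_lit 2) (nat_lit 5) (nat_lit 2) (nat_lit 4) (nat_lit 270) (nat_lit 172) (nat_lit 158)) (XT.lf (nat_lit 0) (nat_lit 25532674950302) (nat_lit 76) (nat_lit 2766590246604) (nat_lit 76) (nat_lit 2766413860378) (nat_lit 1) (nat_lit 4) (nat_lit 2) (nat_lit 5) (nat_lit 2) (nat_lit 4) (nat_lit 271) (nat_lit 172) (nat_lit 157)))) (XT.nd (nat_lit 156) (nat_lit 0) (nat_lit 0) (XT.nd (nat_lit 78) (nat_lit 0) (nat_lit 0) (XT.lf (nat_lit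 0) (nat_lit 29362755516420) (nat_lit 76) (nat_lit 3181469576378) (nat_lit 76) (nat_lit 3181289966571) (nat_lit 1) (nat_lit 4) (nat_lit 2) (nat_lit 5) (nat_lit 2) (nat_lit 4) (nat_lit 272) (nat_lit 172) (nat_lit 156)) (XT.lf (nat_lit 0) (nat_lit 33767343797433) (nat_lit 76) (nat_lit 3658582731835) (nat_lit 76) (nat_lit 3658400318913) (nat_lit 1) (nat_lit 4) (nat_lit 2) (nat_lit 5) (nat_lit 2) (nat_lit 4) (nat_lit 273) (nat_lit 172) (nat_lit 155))) (XT.nd (nat_lit 78) (nat_lit 0) (nat_lit 0) (XT.lf (nat_lit 0) (nat_lit 38832616520578) (nat_lit 76) (nat_lit 4207264535581) (nat_lit 76) (nat_lit 4207079685168) (nat_lit 1) (nat_lit 4) (nat_lit 2) (nat_lit 5) (nat_lit 2) (nat_lit 4) (nat_lit 274) (nat_lit 172) (nat_lit 154)) (XT.lf (nat_lit 0) (nat_lit 44657676847830) (nat_lit 76) (nat_lit 4838250066386) (nat_lit 76) (nat_lit 4838063096416) (nat_lit 1) (nat_lit 4) (nat_lit 2) (nat_lit 5)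 (nat_lit 2) (nat_lit 4) (nat_lit 275) (nat_lit 172) (nat_lit 153))))) (XT.nd (nat_lit 234) (nat_lit 0) (nat_lit 0) (XT.nd (nat_lit 78) (nat_lit 0) (nat_lit 0) (XT.lf (nat_lit 0) (nat_lit 1185255995515) (nat_lit 76) (nat_lit 129120630170) (nat_lit 76) (nat_lit 129120630170) (nat_lit 1) (nat_lit 4) (nat_lit 2) (nat_lit 5) (nat_lit 2) (nat_lit 4) (nat_lit 254) (nat_lit 173) (nat_lit 173)) (XT.nd (nat_lit 78) (nat_lit 0) (nat_lit 0) (XT.lf (nat_lit 0) (nat_lit 2726569995896) (nat_lit 76) (nat_lit 296730653723) (nat_lit 76) (nat_lit 296700488671) (nat_lit 1) (nat_lit 4) (nat_lit 2) (nat_lit 5) (nat_lit 2) (nat_lit 4) (nat_lit 255) (nat_lit 173) (nat_lit 172)) (XT.lf (nat_lit 0) (nat_lit 3135995808473) (nat_lit 76) (nat_lit 341011480919) (nat_lit 76) (nat_lit 340955085386) (nat_lit 1) (nat_lit 4) (nat_lit 2) (nat_lit 5) (nat_lit 2) (nat_lit 4) (nat_lit 256) (nat_lit 173) (nat_lit 171))))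 (XT.nd (nat_lit 156) (nat_lit 0) (nat_lit 0) (XT.nd (nat_lit 78) (nat_lit 0) (nat_lit 0) (XT.lf (nat_lit 0) (nat_lit 3606799933791) (nat_lit 76) (nat_lit 391950105939) (nat_lit 76) (nat_lit 391870901292) (nat_lit 1) (nat_lit 4) (nat_lit 2) (nat_lit 5) (nat_lit 2) (nat_lit 4) (nat_lit 257) (nat_lit 173) (nat_lit 170)) (XT.lf (nat_lit 0) (nat_lit 4148193756910) (nat_lit 76) (nat_lit 450543154054) (nat_lit 76) (nat_lit 450444115396) (nat_lit 1) (nat_lit 4) (nat_lit 2) (nat_lit 5) (nat_lit 2) (nat_lit 4) (nat_lit 258) (nat_lit 173) (nat_lit 169))) (XT.nd (nat_lit 78) (nat_lit 0) (nat_lit 0) (XT.lf (nat_lit 0) (nat_lit 4770769765674) (nat_lit 76) (nat_lit 517937010990) (nat_lit 76) (nat_lit 517820725365) (nat_lit 1) (nat_lit 4) (nat_lit 2) (nat_lit 5) (nat_lit 2) (nat_lit 4) (nat_lit 259) (nat_lit 173) (nat_lit 168)) (XT.lf (nat_lit 0) (nat_lit 5486708795036) (nat_lit 76) (nat_lit 595450252207)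 (nat_lit 76) (nat_lit 595318969220) (nat_lit 1) (nat_lit 4) (nat_lit 2) (nat_lit 5) (nat_lit 2) (nat_lit 4) (nat_lit 260) (nat_lit 173) (nat_lit 167))))))))
noncomputable def xc2 : XT := (XT.nd (nat_lit 31356) (nat_lit 0) (nat_lit 0) (XT.nd (nat_lit 1092) (nat_lit 0) (nat_lit 0) (XT.nd (nat_lit 468) (nat_lit 0) (nat_lit 0) (XT.nd (nat_lit 234) (nat_lit 0) (nat_lit 0) (XT.nd (nat_lit 78) (nat_lit 0) (nat_lit 0) (XT.lf (nat_lit 0) (nat_lit 6310018347746) (nat_lit 76) (nat_lit 684599441122) (nat_lit 76) (nat_lit 684455116950) (nat_lit 1) (nat_lit 4) (nat_lit 2) (nat_lit 5) (nat_lit 2) (nat_lit 4) (nat_lit 261) (nat_lit 173) (nat_lit 166)) (XT.nd (nat_lit 78) (nat_lit 0) (nat_lit 0) (XT.lf (nat_lit 0) (nat_lit 7256806654182) (nat_lit 76) (nat_lit 787128800994) (nat_lit 76) (nat_lit 786973136662) (nat_lit 1) (nat_lit 4) (nat_lit 2) (nat_lit 5) (nat_lit 2) (nat_lit 4) (nat_lit 262) (nat_lit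 173) (nat_lit 165)) (XT.lf (nat_lit 0) (nat_lit 8345597833383) (nat_lit 76) (nat_lit 905044341040) (nat_lit 76) (nat_lit 904878815699) (nat_lit 1) (nat_lit 4) (nat_lit 2) (nat_lit 5) (nat_lit 2) (nat_lit 4) (nat_lit 263) (nat_lit 173) (nat_lit 164)))) (XT.nd (nat_lit 78) (nat_lit 0) (nat_lit 0) (XT.lf (nat_lit 0) (nat_lit 9597694321465) (nat_lit 76) (nat_lit 1040653104434) (nat_lit 76) (nat_lit 1040479004302) (nat_lit 1) (nat_lit 4) (nat_lit 2) (nat_lit 5) (nat_lit 2) (nat_lit 4) (nat_lit 264) (nat_lit 173) (nat_lit 163)) (XT.nd (nat_lit 78) (nat_lit 0) (nat_lit 0) (XT.lf (nat_lit 0) (nat_lit 11037593658411) (nat_lit 76) (nat_lit 1196608306111) (nat_lit 76) (nat_lit 1196426749640) (nat_lit 1) (nat_lit 4) (nat_lit 2) (nat_lit 5) (nat_lit 2) (nat_lit 4) (nat_lit 265) (nat_lit 173) (nat_lit 162)) (XT.lf (nat_lit 0) (nat_lit 12693467787770) (nat_lit 76) (nat_lit 1375961243497) (nat_lit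 76) (nat_lit 1375773203252) (nat_lit 1) (nat_lit 4) (nat_lit 2) (nat_lit 5) (nat_lit 2) (nat_lit 4) (nat_lit 266) (nat_lit 173) (nat_lit 161))))) (XT.nd (nat_lit 312) (nat_lit 0) (nat_lit 0) (XT.nd (nat_lit 78) (nat_lit 0) (nat_lit 0) (XT.lf (nat_lit 0) (nat_lit 14597714246856) (nat_lit 76) (nat_lit 1582220995800) (nat_lit 76) (nat_lit 1582027317491) (nat_lit 1) (nat_lit 4) (nat_lit 2) (nat_lit 5) (nat_lit 2) (nat_lit 4) (nat_lit 267) (nat_lit 173) (nat_lit 160)) (XT.nd (nat_lit 156) (nat_lit 0) (nat_lit 0) (XT.lf (nat_lit 0) (nat_lit 16787590031607) (nat_lit 76) (nat_lit 1819423079914) (nat_lit 76) (nat_lit 1819224498941) (nat_lit 1) (nat_lit 4) (nat_lit 2) (nat_lit 5) (nat_lit 2) (nat_lit 4) (nat_lit 268) (nat_lit 173) (nat_lit 159)) (XT.lf (nat_lit 0) (nat_lit 22202037840594) (nat_lit 76) (nat_lit 2405914078808) (nat_lit 76) (nat_lit 2405707527530) (nat_lit 1) (nat_lit 4) (nat_lit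 2) (nat_lit 5) (nat_lit 2) (nat_lit 4) (nat_lit 270) (nat_lit 173) (nat_lit 157)))) (XT.nd (nat_lit 156) (nat_lit 0) (nat_lit 0) (XT.nd (nat_lit 78) (nat_lit 0) (nat_lit 0) (XT.lf (nat_lit 0) (nat_lit 25532544713265) (nat_lit 76) (nat_lit 2766677817479) (nat_lit 76) (nat_lit 2766468042619) (nat_lit 1) (nat_lit 4) (nat_lit 2) (nat_lit 5) (nat_lit 2) (nat_lit 4) (nat_lit 271) (nat_lit 173) (nat_lit 156)) (XT.lf (nat_lit 0) (nat_lit 29362623246815) (nat_lit 76) (nat_lit 3181558043168) (nat_lit 76) (nat_lit 3181345465194) (nat_lit 1) (nat_lit 4) (nat_lit 2) (nat_lit 5) (nat_lit 2) (nat_lit 4) (nat_lit 272) (nat_lit 173) (nat_lit 155))) (XT.nd (nat_lit 78) (nat_lit 0) (nat_lit 0) (XT.lf (nat_lit 0) (nat_lit 33767209760377) (nat_lit 76) (nat_lit 3658671977681) (nat_lit 76) (nat_lit 3658456962216) (nat_lit 1) (nat_lit 4) (nat_lit 2) (nat_lit 5) (nat_lit 2) (nat_lit 4) (nat_lit 273) (nat_lit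 173) (nat_lit 154)) (XT.lf (nat_lit 0) (nat_lit 38832480946608) (nat_lit 76) (nat_lit 4207354458867) (nat_lit 76) (nat_lit 4207137323845) (nat_lit 1) (nat_lit 4) (nat_lit 2) (nat_lit 5) (nat_lit 2) (nat_lit 4) (nat_lit 274) (nat_lit 173) (nat_lit 153)))))) (XT.nd (nat_lit 29718) (nat_lit 0) (nat_lit 0) (XT.nd (nat_lit 29484) (nat_lit 0) (nat_lit 0) (XT.nd (nat_lit 312) (nat_lit 0) (nat_lit 0) (XT.lf (nat_lit 0) (nat_lit 44657539937413) (nat_lit 76) (nat_lit 4838340578751) (nat_lit 76) (nat_lit 4838121600636) (nat_lit 1) (nat_lit 4) (nat_lit 2) (nat_lit 5) (nat_lit 2) (nat_lit 4) (nat_lit 275) (nat_lit 173) (nat_lit 152)) (XT.nd (nat_lit 78) (nat_lit 0) (nat_lit 0) (XT.lf (nat_lit 0) (nat_lit 78107223740615) (nat_lit 76) (nat_lit 8461714781958) (nat_lit 76) (nat_lit 8461490541852) (nat_lit 1) (nat_lit 4) (nat_lit 2) (nat_lit 5) (nat_lit 2) (nat_lit 4) (nat_lit 279) (nat_lit 173) (nat_lit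 148)) (XT.lf (nat_lit 0) (nat_lit 89823484518569) (nat_lit 76) (nat_lit 9730859195873) (nat_lit 76) (nat_lit 9730634039423) (nat_lit 1) (nat_lit 4) (nat_lit 2) (nat_lit 5) (nat_lit 2) (nat_lit 4) (nat_lit 280) (nat_lit 173) (nat_lit 147)))) (XT.nd (nat_lit 78) (nat_lit 0) (nat_lit 0) (XT.lf (nat_lit 0) (nat_lit 895783501942) (nat_lit 76) (nat_lit 97873370544) (nat_lit 76) (nat_lit 97873370544) (nat_lit 1) (nat_lit 4) (nat_lit 2) (nat_lit 5) (nat_lit 2) (nat_lit 4) (nat_lit 252) (nat_lit 174) (nat_lit 174)) (XT.nd (nat_lit 78) (nat_lit 0) (nat_lit 0) (XT.lf (nat_lit 0) (nat_lit 2060855441608) (nat_lit 76) (nat_lit 224824937234) (nat_lit 76) (nat_lit 224790247423) (nat_lit 1) (nat_lit 4) (nat_lit 2) (nat_lit 5) (nat_lit 2) (nat_lit 4) (nat_lit 253) (nat_lit 174) (nat_lit 173)) (XT.lf (nat_lit 0) (nat_lit 2370490118021) (nat_lit 76) (nat_lit 258285591327) (nat_lit 76) (nat_lit 258220736464)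 (nat_lit 1) (nat_lit 4) (nat_lit 2) (nat_lit 5) (nat_lit 2) (nat_lit 4) (nat_lit 254) (nat_lit 174) (nat_lit 172))))) (XT.nd (nat_lit 234) (nat_lit 0) (nat_lit 0) (XT.nd (nat_lit 78) (nat_lit 0) (nat_lit 0) (XT.lf (nat_lit 0) (nat_lit 2726529102878) (nat_lit 76) (nat_lit 296783368340) (nat_lit 76) (nat_lit 296692282996) (nat_lit 1) (nat_lit 4) (nat_lit 2) (nat_lit 5) (nat_lit 2) (nat_lit 4) (nat_lit 255) (nat_lit 174) (nat_lit 171)) (XT.nd (nat_lit 78) (nat_lit 0) (nat_lit 0) (XT.lf (nat_lit 0) (nat_lit 3135938376318) (nat_lit 76) (nat_lit 341071485649) (nat_lit 76) (nat_lit 340957591193) (nat_lit 1) (nat_lit 4) (nat_lit 2) (nat_lit 5) (nat_lit 2) (nat_lit 4) (nat_lit 256) (nat_lit 174) (nat_lit 170)) (XT.lf (nat_lit 0) (nat_lit 3606728119777) (nat_lit 76) (nat_lit 392016449898) (nat_lit 76) (nat_lit 391882721430) (nat_lit 1) (nat_lit 4) (nat_lit 2) (nat_lit 5) (nat_lit 2) (nat_lit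 4) (nat_lit 257) (nat_lit 174) (nat_lit 169)))) (XT.nd (nat_lit 156) (nat_lit 0) (nat_lit 0) (XT.nd (nat_lit 78) (nat_lit 0) (nat_lit 0) (XT.lf (nat_lit 0) (nat_lit 4148109436931) (nat_lit 76) (nat_lit 450615010387) (nat_lit 76) (nat_lit 450464034952) (nat_lit 1) (nat_lit 4) (nat_lit 2) (nat_lit 5) (nat_lit 2) (nat_lit 4) (nat_lit 258) (nat_lit 174) (nat_lit 168)) (XT.lf (nat_lit 0) (nat_lit 4770674570943) (nat_lit 76) (nat_lit 518013660691) (nat_lit 76) (nat_lit 517847687894) (nat_lit 1) (nat_lit 4) (nat_lit 2) (nat_lit 5) (nat_lit 2) (nat_lit 4) (nat_lit 259) (nat_lit 174) (nat_lit 167))) (XT.nd (nat_lit 78) (nat_lit 0) (nat_lit 0) (XT.lf (nat_lit 0) (nat_lit 5486604144000) (nat_lit 76) (nat_lit 595531070055) (nat_lit 76) (nat_lit 595352056073) (nat_lit 1) (nat_lit 4) (nat_lit 2) (nat_lit 5) (nat_lit 2) (nat_lit 4) (nat_lit 260) (nat_lit 174) (nat_lit 166)) (XT.lf (nat_lit 0) (nat_lit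 6309905473836) (nat_lit 76) (nat_lit 684683883444) (nat_lit 76) (nat_lit 684493529301) (nat_lit 1) (nat_lit 4) (nat_lit 2) (nat_lit 5) (nat_lit 2) (nat_lit 4) (nat_lit 261) (nat_lit 174) (nat_lit 165))))))) (XT.nd (nat_lit 30342) (nat_lit 0) (nat_lit 0) (XT.nd (nat_lit 468) (nat_lit 0) (nat_lit 0) (XT.nd (nat_lit 234) (nat_lit 0) (nat_lit 0) (XT.nd (nat_lit 78) (nat_lit 0) (nat_lit 0) (XT.lf (nat_lit 0) (nat_lit 7256686629946) (nat_lit 76) (nat_lit 787216395034) (nat_lit 76) (nat_lit 787016179882) (nat_lit 1) (nat_lit 4) (nat_lit 2) (nat_lit 5) (nat_lit 2) (nat_lit 4) (nat_lit 262) (nat_lit 174) (nat_lit 164)) (XT.nd (nat_lit 78) (nat_lit 0) (nat_lit 0) (XT.lf (nat_lit 0) (nat_lit 8345471591473) (nat_lit 76) (nat_lit 905134675703) (nat_lit 76) (nat_lit 904925885761) (nat_lit 1) (nat_lit 4) (nat_lit 2) (nat_lit 5) (nat_lit 2) (nat_lit 4) (nat_lit 263) (nat_lit 174) (nat_lit 163))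 (XT.lf (nat_lit 0) (nat_lit 9597562672881) (nat_lit 76) (nat_lit 1040745822248) (nat_lit 76) (nat_lit 1040529575966) (nat_lit 1) (nat_lit 4) (nat_lit 2) (nat_lit 5) (nat_lit 2) (nat_lit 4) (nat_lit 264) (nat_lit 174) (nat_lit 162)))) (XT.nd (nat_lit 78) (nat_lit 0) (nat_lit 0) (XT.lf (nat_lit 0) (nat_lit 11037457308372) (nat_lit 76) (nat_lit 1196703096231) (nat_lit 76) (nat_lit 1196480366175) (nat_lit 1) (nat_lit 4) (nat_lit 2) (nat_lit 5) (nat_lit 2) (nat_lit 4) (nat_lit 265) (nat_lit 174) (nat_lit 161)) (XT.nd (nat_lit 78) (nat_lit 0) (nat_lit 0) (XT.lf (nat_lit 0) (nat_lit 12693327349509) (nat_lit 76) (nat_lit 1376057835621) (nat_lit 76) (nat_lit 1375829467502) (nat_lit 1) (nat_lit 4) (nat_lit 2) (nat_lit 5) (nat_lit 2) (nat_lit 4) (nat_lit 266) (nat_lit 174) (nat_lit 160)) (XT.lf (nat_lit 0) (nat_lit 14597570253619) (nat_lit 76) (nat_lit 1582319154885) (nat_lit 76) (nat_lit 1582085884101)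 (nat_lit 1) (nat_lit 4) (nat_lit 2) (nat_lit 5) (nat_lit 2) (nat_lit 4) (nat_lit 267) (nat_lit 174) (nat_lit 159))))) (XT.nd (nat_lit 390) (nat_lit 0) (nat_lit 0) (XT.nd (nat_lit 234) (nat_lit 0) (nat_lit 0) (XT.lf (nat_lit 0) (nat_lit 16787442947088) (nat_lit 76) (nat_lit 1819522601574) (nat_lit 76) (nat_lit 1819285067603) (nat_lit 1) (nat_lit 4) (nat_lit 2) (nat_lit 5) (nat_lit 2) (nat_lit 4) (nat_lit 268) (nat_lit 174) (nat_lit 158)) (XT.nd (nat_lit 78) (nat_lit 0) (nat_lit 0) (XT.lf (nat_lit 0) (nat_lit 25532390570651) (nat_lit 76) (nat_lit 2766780450203) (nat_lit 76) (nat_lit 2766533182418) (nat_lit 1) (nat_lit 4) (nat_lit 2) (nat_lit 5) (nat_lit 2) (nat_lit 4) (nat_lit 271) (nat_lit 174) (nat_lit 155)) (XT.lf (nat_lit 0) (nat_lit 29362467336749) (nat_lit 76) (nat_lit 3181661454948) (nat_lit 76) (nat_lit 3181411749672) (nat_lit 1) (nat_lit 4) (nat_lit 2) (nat_lit 5) (nat_lit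 2) (nat_lit 4) (nat_lit 272) (nat_lit 174) (nat_lit 154)))) (XT.nd (nat_lit 468) (nat_lit 0) (nat_lit 0) (XT.nd (nat_lit 390) (nat_lit 0) (nat_lit 0) (XT.lf (nat_lit 0) (nat_lit 33767052313397) (nat_lit 76) (nat_lit 3658776066901) (nat_lit 76) (nat_lit 3658524242068) (nat_lit 1) (nat_lit 4) (nat_lit 2) (nat_lit 5) (nat_lit 2) (nat_lit 4) (nat_lit 273) (nat_lit 174) (nat_lit 153)) (XT.lf (nat_lit 0) (nat_lit 67919007049033) (nat_lit 76) (nat_lit 7358217851428) (nat_lit 76) (nat_lit 7357958921511) (nat_lit 1) (nat_lit 4) (nat_lit 2) (nat_lit 5) (nat_lit 2) (nat_lit 4) (nat_lit 278) (nat_lit 174) (nat_lit 148))) (XT.nd (nat_lit 78) (nat_lit 0) (nat_lit 0) (XT.lf (nat_lit 0) (nat_lit 78107060477211) (nat_lit 76) (nat_lit 8461821434939) (nat_lit 76) (nat_lit 8461561588680) (nat_lit 1) (nat_lit 4) (nat_lit 2) (nat_lit 5) (nat_lit 2) (nat_lit 4) (nat_lit 279) (nat_lit 174) (nat_lit 147))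 (XT.lf (nat_lit 0) (nat_lit 89823320677382) (nat_lit 76) (nat_lit 9730966103528) (nat_lit 76) (nat_lit 9730705460449) (nat_lit 1) (nat_lit 4) (nat_lit 2) (nat_lit 5) (nat_lit 2) (nat_lit 4) (nat_lit 280) (nat_lit 174) (nat_lit 146)))))) (XT.nd (nat_lit 546) (nat_lit 0) (nat_lit 0) (XT.nd (nat_lit 234) (nat_lit 0) (nat_lit 0) (XT.nd (nat_lit 78) (nat_lit 0) (nat_lit 0) (XT.lf (nat_lit 0) (nat_lit 676834662090) (nat_lit 76) (nat_lit 74281896617) (nat_lit 76) (nat_lit 74281896617) (nat_lit 1) (nat_lit 4) (nat_lit 2) (nat_lit 5) (nat_lit 2) (nat_lit 4) (nat_lit 250) (nat_lit 175) (nat_lit 175)) (XT.nd (nat_lit 78) (nat_lit 0) (nat_lit 0) (XT.lf (nat_lit 0) (nat_lit 1557356118022) (nat_lit 76) (nat_lit 170521974947) (nat_lit 76) (nat_lit 170482081665) (nat_lit 1) (nat_lit 4) (nat_lit 2) (nat_lit 5) (nat_lit 2) (nat_lit 4) (nat_lit 251) (nat_lit 175) (nat_lit 174)) (XT.lf (nat_lit 0) (nat_lit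 1791541849923) (nat_lit 76) (nat_lit 195797721723) (nat_lit 76) (nat_lit 195723138631) (nat_lit 1) (nat_lit 4) (nat_lit 2) (nat_lit 5) (nat_lit 2) (nat_lit 4) (nat_lit 252) (nat_lit 175) (nat_lit 173)))) (XT.nd (nat_lit 156) (nat_lit 0) (nat_lit 0) (XT.nd (nat_lit 78) (nat_lit 0) (nat_lit 0) (XT.lf (nat_lit 0) (nat_lit 2060808414638) (nat_lit 76) (nat_lit 224885559043) (nat_lit 76) (nat_lit 224780810898) (nat_lit 1) (nat_lit 4) (nat_lit 2) (nat_lit 5) (nat_lit 2) (nat_lit 4) (nat_lit 253) (nat_lit 175) (nat_lit 172)) (XT.lf (nat_lit 0) (nat_lit 2370424071042) (nat_lit 76) (nat_lit 258354596767) (nat_lit 76) (nat_lit 258223618141) (nat_lit 1) (nat_lit 4) (nat_lit 2) (nat_lit 5) (nat_lit 2) (nat_lit 4) (nat_lit 254) (nat_lit 175) (nat_lit 171))) (XT.nd (nat_lit 78) (nat_lit 0) (nat_lit 0) (XT.lf (nat_lit 0) (nat_lit 2726446516762) (nat_lit 76) (nat_lit 296859663893) (nat_lit 76) (nat_lit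 296705876155) (nat_lit 1) (nat_lit 4) (nat_lit 2) (nat_lit 5) (nat_lit 2) (nat_lit 4) (nat_lit 255) (nat_lit 175) (nat_lit 170)) (XT.lf (nat_lit 0) (nat_lit 3135841408342) (nat_lit 76) (nat_lit 341154120432) (nat_lit 76) (nat_lit 340980498682) (nat_lit 1) (nat_lit 4) (nat_lit 2) (nat_lit 5) (nat_lit 2) (nat_lit 4) (nat_lit 256) (nat_lit 175) (nat_lit 169))))) (XT.nd (nat_lit 234) (nat_lit 0) (nat_lit 0) (XT.nd (nat_lit 78) (nat_lit 0) (nat_lit 0) (XT.lf (nat_lit 0) (nat_lit 3606618645837) (nat_lit 76) (nat_lit 392104597054) (nat_lit 76) (nat_lit 391913728337) (nat_lit 1) (nat_lit 4) (nat_lit 2) (nat_lit 5) (nat_lit 2) (nat_lit 4) (nat_lit 257) (nat_lit 175) (nat_lit 168)) (XT.nd (nat_lit 78) (nat_lit 0) (nat_lit 0) (XT.lf (nat_lit 0) (nat_lit 4147989088240) (nat_lit 76) (nat_lit 450707950912) (nat_lit 76) (nat_lit 450502084832) (nat_lit 1) (nat_lit 4) (nat_lit 2) (nat_lit 5) (nat_lit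 2) (nat_lit 4) (nat_lit 258) (nat_lit 175) (nat_lit 167)) (XT.lf (nat_lit 0) (nat_lit 4770544765947) (nat_lit 76) (nat_lit 518110769361) (nat_lit 76) (nat_lit 517891862097) (nat_lit 1) (nat_lit 4) (nat_lit 2) (nat_lit 5) (nat_lit 2) (nat_lit 4) (nat_lit 259) (nat_lit 175) (nat_lit 166)))) (XT.nd (nat_lit 156) (nat_lit 0) (nat_lit 0) (XT.nd (nat_lit 78) (nat_lit 0) (nat_lit 0) (XT.lf (nat_lit 0) (nat_lit 5486466116129) (nat_lit 76) (nat_lit 595631803200) (nat_lit 76) (nat_lit 595401555775) (nat_lit 1) (nat_lit 4) (nat_lit 2) (nat_lit 5) (nat_lit 2) (nat_lit 4) (nat_lit 260) (nat_lit 175) (nat_lit 165)) (XT.lf (nat_lit 0) (nat_lit 6309760295639) (nat_lit 76) (nat_lit 684787768307) (nat_lit 76) (nat_lit 684547659873) (nat_lit 1) (nat_lit 4) (nat_lit 2) (nat_lit 5) (nat_lit 2) (nat_lit 4) (nat_lit 261) (nat_lit 175) (nat_lit 164))) (XT.nd (nat_lit 78) (nat_lit 0) (nat_lit 0) (XT.lf (nat_lit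 0) (nat_lit 7256535234075) (nat_lit 76) (nat_lit 787323020520) (nat_lit 76) (nat_lit 787074337296) (nat_lit 1) (nat_lit 4) (nat_lit 2) (nat_lit 5) (nat_lit 2) (nat_lit 4) (nat_lit 262) (nat_lit 175) (nat_lit 163)) (XT.lf (nat_lit 0) (nat_lit 8345314788928) (nat_lit 76) (nat_lit 905243684341) (nat_lit 76) (nat_lit 904987544777) (nat_lit 1) (nat_lit 4) (nat_lit 2) (nat_lit 5) (nat_lit 2) (nat_lit 4) (nat_lit 263) (nat_lit 175) (nat_lit 162))))))))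
noncomputable def xc3 : XT := (XT.nd (nat_lit 31434) (nat_lit 0) (nat_lit 0) (XT.nd (nat_lit 30342) (nat_lit 0) (nat_lit 0) (XT.nd (nat_lit 1092) (nat_lit 0) (nat_lit 0) (XT.nd (nat_lit 234) (nat_lit 0) (nat_lit 0) (XT.nd (nat_lit 78) (nat_lit 0) (nat_lit 0) (XT.lf (nat_lit 0) (nat_lit 9597401168881) (nat_lit 76) (nat_lit 1040856903191) (nat_lit 76) (nat_lit 1040594279853) (nat_lit 1) (nat_lit 4) (nat_lit 2) (nat_lit 5) (nat_lit 2) (nat_lit 4) (nat_lit 264) (nat_lit 175) (nat_lit 161)) (XT.nd (nat_lit 78) (nat_lit 0) (nat_lit 0) (XT.lf (nat_lit 0) (nat_lit 11037291716150) (nat_lit 76) (nat_lit 1196815979178) (nat_lit 76) (nat_lit 1196547717777) (nat_lit 1) (nat_lit 4) (nat_lit 2) (nat_lit 5) (nat_lit 2) (nat_lit 4) (nat_lit 265) (nat_lit 175) (nat_lit 160)) (XT.lf (nat_lit 0) (nat_lit 12693158202312) (nat_lit 76) (nat_lit 1376172285529) (nat_lit 76) (nat_lit 1375899121463) (nat_lit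 1) (nat_lit 4) (nat_lit 2) (nat_lit 5) (nat_lit 2) (nat_lit 4) (nat_lit 266) (nat_lit 175) (nat_lit 159)))) (XT.nd (nat_lit 78) (nat_lit 0) (nat_lit 0) (XT.lf (nat_lit 0) (nat_lit 14597398015139) (nat_lit 76) (nat_lit 1582434967368) (nat_lit 76) (nat_lit 1582157540115) (nat_lit 1) (nat_lit 4) (nat_lit 2) (nat_lit 5) (nat_lit 2) (nat_lit 4) (nat_lit 267) (nat_lit 175) (nat_lit 158)) (XT.nd (nat_lit 702) (nat_lit 0) (nat_lit 0) (XT.lf (nat_lit 0) (nat_lit 16787268020535) (nat_lit 76) (nat_lit 1819639598903) (nat_lit 76) (nat_lit 1819358464532) (nat_lit 1) (nat_lit 4) (nat_lit 2) (nat_lit 5) (nat_lit 2) (nat_lit 4) (nat_lit 268) (nat_lit 175) (nat_lit 157)) (XT.lf (nat_lit 0) (nat_lit 59059641159817) (nat_lit 76) (nat_lit 6398685759897) (nat_lit 76) (nat_lit 6398386936698) (nat_lit 1) (nat_lit 4) (nat_lit 2) (nat_lit 5) (nat_lit 2) (nat_lit 4) (nat_lit 277) (nat_lit 175) (nat_lit 148)))))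 (XT.nd (nat_lit 28938) (nat_lit 0) (nat_lit 0) (XT.nd (nat_lit 78) (nat_lit 0) (nat_lit 0) (XT.lf (nat_lit 0) (nat_lit 67918818631667) (nat_lit 76) (nat_lit 7358340795232) (nat_lit 76) (nat_lit 7358041055690) (nat_lit 1) (nat_lit 4) (nat_lit 2) (nat_lit 5) (nat_lit 2) (nat_lit 4) (nat_lit 278) (nat_lit 175) (nat_lit 147)) (XT.nd (nat_lit 78) (nat_lit 0) (nat_lit 0) (XT.lf (nat_lit 0) (nat_lit 78106871482062) (nat_lit 76) (nat_lit 8461944633418) (nat_lit 76) (nat_lit 8461644097057) (nat_lit 1) (nat_lit 4) (nat_lit 2) (nat_lit 5) (nat_lit 2) (nat_lit 4) (nat_lit 279) (nat_lit 175) (nat_lit 146)) (XT.lf (nat_lit 0) (nat_lit 89823131179814) (nat_lit 76) (nat_lit 9731089523464) (nat_lit 76) (nat_lit 9730788294215) (nat_lit 1) (nat_lit 4) (nat_lit 2) (nat_lit 5) (nat_lit 2) (nat_lit 4) (nat_lit 280) (nat_lit 175) (nat_lit 145)))) (XT.nd (nat_lit 156) (nat_lit 0) (nat_lit 0) (XT.nd (nat_lit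 78) (nat_lit 0) (nat_lit 0) (XT.lf (nat_lit 0) (nat_lit 511201929349) (nat_lit 76) (nat_lit 56484688096) (nat_lit 76) (nat_lit 56484688096) (nat_lit 1) (nat_lit 4) (nat_lit 2) (nat_lit 5) (nat_lit 2) (nat_lit 4) (nat_lit 248) (nat_lit 176) (nat_lit 176)) (XT.lf (nat_lit 0) (nat_lit 1176496291999) (nat_lit 76) (nat_lit 129539437260) (nat_lit 76) (nat_lit 129493559985) (nat_lit 1) (nat_lit 4) (nat_lit 2) (nat_lit 5) (nat_lit 2) (nat_lit 4) (nat_lit 249) (nat_lit 176) (nat_lit 175))) (XT.nd (nat_lit 78) (nat_lit 0) (nat_lit 0) (XT.lf (nat_lit 0) (nat_lit 1353640397126) (nat_lit 76) (nat_lit 148622420963) (nat_lit 76) (nat_lit 148536650406) (nat_lit 1) (nat_lit 4) (nat_lit 2) (nat_lit 5) (nat_lit 2) (nat_lit 4) (nat_lit 250) (nat_lit 176) (nat_lit 174)) (XT.lf (nat_lit 0) (nat_lit 1557302037006) (nat_lit 76) (nat_lit 170591690027) (nat_lit 76) (nat_lit 170471229661) (nat_lit 1) (nat_lit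 4) (nat_lit 2) (nat_lit 5) (nat_lit 2) (nat_lit 4) (nat_lit 251) (nat_lit 176) (nat_lit 173)))))) (XT.nd (nat_lit 546) (nat_lit 0) (nat_lit 0) (XT.nd (nat_lit 234) (nat_lit 0) (nat_lit 0) (XT.nd (nat_lit 78) (nat_lit 0) (nat_lit 0) (XT.lf (nat_lit 0) (nat_lit 1791465895897) (nat_lit 76) (nat_lit 195877077979) (nat_lit 76) (nat_lit 195726452560) (nat_lit 1) (nat_lit 4) (nat_lit 2) (nat_lit 5) (nat_lit 2) (nat_lit 4) (nat_lit 252) (nat_lit 176) (nat_lit 172)) (XT.nd (nat_lit 78) (nat_lit 0) (nat_lit 0) (XT.lf (nat_lit 0) (nat_lit 2060713440604) (nat_lit 76) (nat_lit 224973298929) (nat_lit 76) (nat_lit 224796443030) (nat_lit 1) (nat_lit 4) (nat_lit 2) (nat_lit 5) (nat_lit 2) (nat_lit 4) (nat_lit 253) (nat_lit 176) (nat_lit 171)) (XT.lf (nat_lit 0) (nat_lit 2370312557871) (nat_lit 76) (nat_lit 258449626767) (nat_lit 76) (nat_lit 258249961754) (nat_lit 1) (nat_lit 4) (nat_lit 2) (nat_lit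 5) (nat_lit 2) (nat_lit 4) (nat_lit 254) (nat_lit 176) (nat_lit 170)))) (XT.nd (nat_lit 156) (nat_lit 0) (nat_lit 0) (XT.nd (nat_lit 78) (nat_lit 0) (nat_lit 0) (XT.lf (nat_lit 0) (nat_lit 2726320621731) (nat_lit 76) (nat_lit 296961033123) (nat_lit 76) (nat_lit 296741534098) (nat_lit 1) (nat_lit 4) (nat_lit 2) (nat_lit 5) (nat_lit 2) (nat_lit 4) (nat_lit 255) (nat_lit 176) (nat_lit 169)) (XT.lf (nat_lit 0) (nat_lit 3135703007348) (nat_lit 76) (nat_lit 341261002035) (nat_lit 76) (nat_lit 341024256044) (nat_lit 1) (nat_lit 4) (nat_lit 2) (nat_lit 5) (nat_lit 2) (nat_lit 4) (nat_lit 256) (nat_lit 176) (nat_lit 168))) (XT.nd (nat_lit 78) (nat_lit 0) (nat_lit 0) (XT.lf (nat_lit 0) (nat_lit 3606469370091) (nat_lit 76) (nat_lit 392216272025) (nat_lit 76) (nat_lit 391964528672) (nat_lit 1) (nat_lit 4) (nat_lit 2) (nat_lit 5) (nat_lit 2) (nat_lit 4) (nat_lit 257) (nat_lit 176) (nat_lit 167))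 (XT.lf (nat_lit 0) (nat_lit 4147830356188) (nat_lit 76) (nat_lit 450823794029) (nat_lit 76) (nat_lit 450559009490) (nat_lit 1) (nat_lit 4) (nat_lit 2) (nat_lit 5) (nat_lit 2) (nat_lit 4) (nat_lit 258) (nat_lit 176) (nat_lit 166))))) (XT.nd (nat_lit 234) (nat_lit 0) (nat_lit 0) (XT.nd (nat_lit 78) (nat_lit 0) (nat_lit 0) (XT.lf (nat_lit 0) (nat_lit 4770377811020) (nat_lit 76) (nat_lit 518230236954) (nat_lit 76) (nat_lit 517954112255) (nat_lit 1) (nat_lit 4) (nat_lit 2) (nat_lit 5) (nat_lit 2) (nat_lit 4) (nat_lit 259) (nat_lit 176) (nat_lit 165)) (XT.nd (nat_lit 78) (nat_lit 0) (nat_lit 0) (XT.lf (nat_lit 0) (nat_lit 5486292010877) (nat_lit 76) (nat_lit 595754422509) (nat_lit 76) (nat_lit 595468436801) (nat_lit 1) (nat_lit 4) (nat_lit 2) (nat_lit 5) (nat_lit 2) (nat_lit 4) (nat_lit 260) (nat_lit 176) (nat_lit 164)) (XT.lf (nat_lit 0) (nat_lit 6309579972712) (nat_lit 76) (nat_lit 684913128240)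 (nat_lit 76) (nat_lit 684618567741) (nat_lit 1) (nat_lit 4) (nat_lit 2) (nat_lit 5) (nat_lit 2) (nat_lit 4) (nat_lit 261) (nat_lit 176) (nat_lit 163)))) (XT.nd (nat_lit 156) (nat_lit 0) (nat_lit 0) (XT.nd (nat_lit 78) (nat_lit 0) (nat_lit 0) (XT.lf (nat_lit 0) (nat_lit 7256349504475) (nat_lit 76) (nat_lit 787450763605) (nat_lit 76) (nat_lit 787148746766) (nat_lit 1) (nat_lit 4) (nat_lit 2) (nat_lit 5) (nat_lit 2) (nat_lit 4) (nat_lit 262) (nat_lit 176) (nat_lit 162)) (XT.lf (nat_lit 0) (nat_lit 8345124357873) (nat_lit 76) (nat_lit 905373499730) (nat_lit 76) (nat_lit 905064999119) (nat_lit 1) (nat_lit 4) (nat_lit 2) (nat_lit 5) (nat_lit 2) (nat_lit 4) (nat_lit 263) (nat_lit 176) (nat_lit 161))) (XT.nd (nat_lit 78) (nat_lit 0) (nat_lit 0) (XT.lf (nat_lit 0) (nat_lit 9597206649604) (nat_lit 76) (nat_lit 1040988520585) (nat_lit 76) (nat_lit 1040674381909) (nat_lit 1) (nat_lit 4) (nat_lit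 2) (nat_lit 5) (nat_lit 2) (nat_lit 4) (nat_lit 264) (nat_lit 176) (nat_lit 160)) (XT.lf (nat_lit 0) (nat_lit 11037093641897) (nat_lit 76) (nat_lit 1196949163533) (nat_lit 76) (nat_lit 1196630122193) (nat_lit 1) (nat_lit 4) (nat_lit 2) (nat_lit 5) (nat_lit 2) (nat_lit 4) (nat_lit 265) (nat_lit 176) (nat_lit 159))))))) (XT.nd (nat_lit 30108) (nat_lit 0) (nat_lit 0) (XT.nd (nat_lit 1014) (nat_lit 0) (nat_lit 0) (XT.nd (nat_lit 312) (nat_lit 0) (nat_lit 0) (XT.nd (nat_lit 78) (nat_lit 0) (nat_lit 0) (XT.lf (nat_lit 0) (nat_lit 12692957036776) (nat_lit 76) (nat_lit 1376306832458) (nat_lit 76) (nat_lit 1375983527932) (nat_lit 1) (nat_lit 4) (nat_lit 2) (nat_lit 5) (nat_lit 2) (nat_lit 4) (nat_lit 266) (nat_lit 176) (nat_lit 158)) (XT.nd (nat_lit 78) (nat_lit 0) (nat_lit 0) (XT.lf (nat_lit 0) (nat_lit 14597194161531) (nat_lit 76) (nat_lit 1582570699144) (nat_lit 76) (nat_lit 1582243687499)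 (nat_lit 1) (nat_lit 4) (nat_lit 2) (nat_lit 5) (nat_lit 2) (nat_lit 4) (nat_lit 267) (nat_lit 176) (nat_lit 157)) (XT.lf (nat_lit 0) (nat_lit 16787061829473) (nat_lit 76) (nat_lit 1819776360982) (nat_lit 76) (nat_lit 1819446125755) (nat_lit 1) (nat_lit 4) (nat_lit 2) (nat_lit 5) (nat_lit 2) (nat_lit 4) (nat_lit 268) (nat_lit 176) (nat_lit 156)))) (XT.nd (nat_lit 546) (nat_lit 0) (nat_lit 0) (XT.lf (nat_lit 0) (nat_lit 22201496442890) (nat_lit 76) (nat_lit 2406273176213) (nat_lit 76) (nat_lit 2405937700381) (nat_lit 1) (nat_lit 4) (nat_lit 2) (nat_lit 5) (nat_lit 2) (nat_lit 4) (nat_lit 270) (nat_lit 176) (nat_lit 154)) (XT.nd (nat_lit 78) (nat_lit 0) (nat_lit 0) (XT.lf (nat_lit 0) (nat_lit 59059423815396) (nat_lit 76) (nat_lit 6398827438148) (nat_lit 76) (nat_lit 6398481821332) (nat_lit 1) (nat_lit 4) (nat_lit 2) (nat_lit 5) (nat_lit 2) (nat_lit 4) (nat_lit 277) (nat_lit 176) (nat_lit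 147)) (XT.lf (nat_lit 0) (nat_lit 67918600709464) (nat_lit 76) (nat_lit 7358482728158) (nat_lit 76) (nat_lit 7358136314522) (nat_lit 1) (nat_lit 4) (nat_lit 2) (nat_lit 5) (nat_lit 2) (nat_lit 4) (nat_lit 278) (nat_lit 176) (nat_lit 146))))) (XT.nd (nat_lit 28782) (nat_lit 0) (nat_lit 0) (XT.nd (nat_lit 78) (nat_lit 0) (nat_lit 0) (XT.lf (nat_lit 0) (nat_lit 78106653057439) (nat_lit 76) (nat_lit 8462086787800) (nat_lit 76) (nat_lit 8461739681278) (nat_lit 1) (nat_lit 4) (nat_lit 2) (nat_lit 5) (nat_lit 2) (nat_lit 4) (nat_lit 279) (nat_lit 176) (nat_lit 145)) (XT.nd (nat_lit 28626) (nat_lit 0) (nat_lit 0) (XT.lf (nat_lit 0) (nat_lit 89822912318303) (nat_lit 76) (nat_lit 9731231870417) (nat_lit 76) (nat_lit 9730884161383) (nat_lit 1) (nat_lit 4) (nat_lit 2) (nat_lit 5) (nat_lit 2) (nat_lit 4) (nat_lit 280) (nat_lit 176) (nat_lit 144)) (XT.lf (nat_lit 0) (nat_lit 385872440260) (nat_lit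 76) (nat_lit 43074976935) (nat_lit 76) (nat_lit 43074976935) (nat_lit 1) (nat_lit 4) (nat_lit 2) (nat_lit 5) (nat_lit 2) (nat_lit 4) (nat_lit 246) (nat_lit 177) (nat_lit 177)))) (XT.nd (nat_lit 156) (nat_lit 0) (nat_lit 0) (XT.nd (nat_lit 78) (nat_lit 0) (nat_lit 0) (XT.lf (nat_lit 0) (nat_lit 888348245269) (nat_lit 76) (nat_lit 98640799783) (nat_lit 76) (nat_lit 98588040917) (nat_lit 1) (nat_lit 4) (nat_lit 2) (nat_lit 5) (nat_lit 2) (nat_lit 4) (nat_lit 247) (nat_lit 177) (nat_lit 176)) (XT.lf (nat_lit 0) (nat_lit 1022370592585) (nat_lit 76) (nat_lit 113036798081) (nat_lit 76) (nat_lit 112938161942) (nat_lit 1) (nat_lit 4) (nat_lit 2) (nat_lit 5) (nat_lit 2) (nat_lit 4) (nat_lit 248) (nat_lit 177) (nat_lit 175))) (XT.nd (nat_lit 78) (nat_lit 0) (nat_lit 0) (XT.lf (nat_lit 0) (nat_lit 1176434098831) (nat_lit 76) (nat_lit 129619609602) (nat_lit 76) (nat_lit 129481080180) (nat_lit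 1) (nat_lit 4) (nat_lit 2) (nat_lit 5) (nat_lit 2) (nat_lit 4) (nat_lit 249) (nat_lit 177) (nat_lit 174)) (XT.lf (nat_lit 0) (nat_lit 1353553049997) (nat_lit 76) (nat_lit 148713680657) (nat_lit 76) (nat_lit 148540461425) (nat_lit 1) (nat_lit 4) (nat_lit 2) (nat_lit 5) (nat_lit 2) (nat_lit 4) (nat_lit 250) (nat_lit 177) (nat_lit 173)))))) (XT.nd (nat_lit 546) (nat_lit 0) (nat_lit 0) (XT.nd (nat_lit 234) (nat_lit 0) (nat_lit 0) (XT.nd (nat_lit 78) (nat_lit 0) (nat_lit 0) (XT.lf (nat_lit 0) (nat_lit 1557192816867) (nat_lit 76) (nat_lit 170692590897) (nat_lit 76) (nat_lit 170489206612) (nat_lit 1) (nat_lit 4) (nat_lit 2) (nat_lit 5) (nat_lit 2) (nat_lit 4) (nat_lit 251) (nat_lit 177) (nat_lit 172)) (XT.nd (nat_lit 78) (nat_lit 0) (nat_lit 0) (XT.lf (nat_lit 0) (nat_lit 1791337655749) (nat_lit 76) (nat_lit 195986362479) (nat_lit 76) (nat_lit 195756747714) (nat_lit 1) (nat_lit 4) (nat_lit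 2) (nat_lit 5) (nat_lit 2) (nat_lit 4) (nat_lit 252) (nat_lit 177) (nat_lit 171)) (XT.lf (nat_lit 0) (nat_lit 2060568661319) (nat_lit 76) (nat_lit 225089873543) (nat_lit 76) (nat_lit 224837449665) (nat_lit 1) (nat_lit 4) (nat_lit 2) (nat_lit 5) (nat_lit 2) (nat_lit 4) (nat_lit 253) (nat_lit 177) (nat_lit 170)))) (XT.nd (nat_lit 156) (nat_lit 0) (nat_lit 0) (XT.nd (nat_lit 78) (nat_lit 0) (nat_lit 0) (XT.lf (nat_lit 0) (nat_lit 2370153396727) (nat_lit 76) (nat_lit 258572540610) (nat_lit 76) (nat_lit 258300282720) (nat_lit 1) (nat_lit 4) (nat_lit 2) (nat_lit 5) (nat_lit 2) (nat_lit 4) (nat_lit 254) (nat_lit 177) (nat_lit 169)) (XT.lf (nat_lit 0) (nat_lit 2726148954623) (nat_lit 76) (nat_lit 297089459340) (nat_lit 76) (nat_lit 296799954483) (nat_lit 1) (nat_lit 4) (nat_lit 2) (nat_lit 5) (nat_lit 2) (nat_lit 4) (nat_lit 255) (nat_lit 177) (nat_lit 168))) (XT.nd (nat_lit 78) (nat_lit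 0) (nat_lit 0) (XT.lf (nat_lit 0) (nat_lit 3135520465488) (nat_lit 76) (nat_lit 341394221620) (nat_lit 76) (nat_lit 341089719401) (nat_lit 1) (nat_lit 4) (nat_lit 2) (nat_lit 5) (nat_lit 2) (nat_lit 4) (nat_lit 256) (nat_lit 177) (nat_lit 167)) (XT.lf (nat_lit 0) (nat_lit 3606277371925) (nat_lit 76) (nat_lit 392353659756) (nat_lit 76) (nat_lit 392036116353) (nat_lit 1) (nat_lit 4) (nat_lit 2) (nat_lit 5) (nat_lit 2) (nat_lit 4) (nat_lit 257) (nat_lit 177) (nat_lit 166))))) (XT.nd (nat_lit 234) (nat_lit 0) (nat_lit 0) (XT.nd (nat_lit 78) (nat_lit 0) (nat_lit 0) (XT.lf (nat_lit 0) (nat_lit 4147630135148) (nat_lit 76) (nat_lit 450964806235) (nat_lit 76) (nat_lit 450635922670) (nat_lit 1) (nat_lit 4) (nat_lit 2) (nat_lit 5) (nat_lit 2) (nat_lit 4) (nat_lit 258) (nat_lit 177) (nat_lit 165)) (XT.nd (nat_lit 78) (nat_lit 0) (nat_lit 0) (XT.lf (nat_lit 0) (nat_lit 4770170439655) (nat_lit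 76) (nat_lit 518374400877) (nat_lit 76) (nat_lit 518035656303) (nat_lit 1) (nat_lit 4) (nat_lit 2) (nat_lit 5) (nat_lit 2) (nat_lit 4) (nat_lit 259) (nat_lit 177) (nat_lit 164)) (XT.lf (nat_lit 0) (nat_lit 5486078421837) (nat_lit 76) (nat_lit 595901327056) (nat_lit 76) (nat_lit 595554007692) (nat_lit 1) (nat_lit 4) (nat_lit 2) (nat_lit 5) (nat_lit 2) (nat_lit 4) (nat_lit 260) (nat_lit 177) (nat_lit 163)))) (XT.nd (nat_lit 156) (nat_lit 0) (nat_lit 0) (XT.nd (nat_lit 78) (nat_lit 0) (nat_lit 0) (XT.lf (nat_lit 0) (nat_lit 6309360976999) (nat_lit 76) (nat_lit 685062415938) (nat_lit 76) (nat_lit 684707640234) (nat_lit 1) (nat_lit 4) (nat_lit 2) (nat_lit 5) (nat_lit 2) (nat_lit 4) (nat_lit 261) (nat_lit 177) (nat_lit 162)) (XT.lf (nat_lit 0) (nat_lit 7256125807306) (nat_lit 76) (nat_lit 787602123608) (nat_lit 76) (nat_lit 787240864131) (nat_lit 1) (nat_lit 4) (nat_lit 2) (nat_lit 5)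 (nat_lit 2) (nat_lit 4) (nat_lit 262) (nat_lit 177) (nat_lit 161))) (XT.nd (nat_lit 78) (nat_lit 0) (nat_lit 0) (XT.lf (nat_lit 0) (nat_lit 8344896572483) (nat_lit 76) (nat_lit 905526661738) (nat_lit 76) (nat_lit 905159764197) (nat_lit 1) (nat_lit 4) (nat_lit 2) (nat_lit 5) (nat_lit 2) (nat_lit 4) (nat_lit 263) (nat_lit 177) (nat_lit 160)) (XT.lf (nat_lit 0) (nat_lit 9596975309238) (nat_lit 76) (nat_lit 1041143249554) (nat_lit 76) (nat_lit 1040771449348) (nat_lit 1) (nat_lit 4) (nat_lit 2) (nat_lit 5) (nat_lit 2) (nat_lit 4) (nat_lit 264) (nat_lit 177) (nat_lit 159))))))))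
noncomputable def xc4 : XT := (XT.nd (nat_lit 30966) (nat_lit 0) (nat_lit 0) (XT.nd (nat_lit 29952) (nat_lit 0) (nat_lit 0) (XT.nd (nat_lit 936) (nat_lit 0) (nat_lit 0) (XT.nd (nat_lit 234) (nat_lit 0) (nat_lit 0) (XT.nd (nat_lit 78) (nat_lit 0) (nat_lit 0) (XT.lf (nat_lit 0) (nat_lit 11036859210248) (nat_lit 76) (nat_lit 1197105255076) (nat_lit 76) (nat_lit 1196729191684) (nat_lit 1) (nat_lit 4) (nat_lit 2) (nat_lit 5) (nat_lit 2) (nat_lit 4) (nat_lit 265) (nat_lit 177) (nat_lit 158)) (XT.nd (nat_lit 78) (nat_lit 0) (nat_lit 0) (XT.lf (nat_lit 0) (nat_lit 12692719917055) (nat_lit 76) (nat_lit 1376464108849) (nat_lit 76) (nat_lit 1376084338338) (nat_lit 1) (nat_lit 4) (nat_lit 2) (nat_lit 5) (nat_lit 2) (nat_lit 4) (nat_lit 266) (nat_lit 177) (nat_lit 157)) (XT.lf (nat_lit 0) (nat_lit 14596954704356) (nat_lit 76) (nat_lit 1582729005836) (nat_lit 76) (nat_lit 1582346011744) (nat_lit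 1) (nat_lit 4) (nat_lit 2) (nat_lit 5) (nat_lit 2) (nat_lit 4) (nat_lit 267) (nat_lit 177) (nat_lit 156)))) (XT.nd (nat_lit 78) (nat_lit 0) (nat_lit 0) (XT.lf (nat_lit 0) (nat_lit 16786820339729) (nat_lit 76) (nat_lit 1819935563589) (nat_lit 76) (nat_lit 1819549766382) (nat_lit 1) (nat_lit 4) (nat_lit 2) (nat_lit 5) (nat_lit 2) (nat_lit 4) (nat_lit 268) (nat_lit 177) (nat_lit 155)) (XT.nd (nat_lit 78) (nat_lit 0) (nat_lit 0) (XT.lf (nat_lit 0) (nat_lit 19305162020388) (nat_lit 76) (nat_lit 2092724779975) (nat_lit 76) (nat_lit 2092336545278) (nat_lit 1) (nat_lit 4) (nat_lit 2) (nat_lit 5) (nat_lit 2) (nat_lit 4) (nat_lit 269) (nat_lit 177) (nat_lit 154)) (XT.lf (nat_lit 0) (nat_lit 22201251648781) (nat_lit 76) (nat_lit 2406433835316) (nat_lit 76) (nat_lit 2406043481062) (nat_lit 1) (nat_lit 4) (nat_lit 2) (nat_lit 5) (nat_lit 2) (nat_lit 4) (nat_lit 270) (nat_lit 177) (nat_lit 153)))))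 (XT.nd (nat_lit 28704) (nat_lit 0) (nat_lit 0) (XT.nd (nat_lit 78) (nat_lit 0) (nat_lit 0) (XT.lf (nat_lit 0) (nat_lit 59059172627079) (nat_lit 76) (nat_lit 6398990915687) (nat_lit 76) (nat_lit 6398591743186) (nat_lit 1) (nat_lit 4) (nat_lit 2) (nat_lit 5) (nat_lit 2) (nat_lit 4) (nat_lit 277) (nat_lit 177) (nat_lit 146)) (XT.nd (nat_lit 78) (nat_lit 0) (nat_lit 0) (XT.lf (nat_lit 0) (nat_lit 67918349018727) (nat_lit 76) (nat_lit 7358646427153) (nat_lit 76) (nat_lit 7358246561765) (nat_lit 1) (nat_lit 4) (nat_lit 2) (nat_lit 5) (nat_lit 2) (nat_lit 4) (nat_lit 278) (nat_lit 177) (nat_lit 145)) (XT.lf (nat_lit 0) (nat_lit 78106400929815) (nat_lit 76) (nat_lit 8462250679367) (nat_lit 76) (nat_lit 8461850211469) (nat_lit 1) (nat_lit 4) (nat_lit 2) (nat_lit 5) (nat_lit 2) (nat_lit 4) (nat_lit 279) (nat_lit 177) (nat_lit 144)))) (XT.nd (nat_lit 156) (nat_lit 0) (nat_lit 0) (XT.nd (nat_lit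 78) (nat_lit 0) (nat_lit 0) (XT.lf (nat_lit 0) (nat_lit 291004891561) (nat_lit 76) (nat_lit 32989974419) (nat_lit 76) (nat_lit 32989974419) (nat_lit 1) (nat_lit 4) (nat_lit 2) (nat_lit 5) (nat_lit 2) (nat_lit 4) (nat_lit 244) (nat_lit 178) (nat_lit 178)) (XT.lf (nat_lit 0) (nat_lit 670279128162) (nat_lit 76) (nat_lit 75380546922) (nat_lit 76) (nat_lit 75319874226) (nat_lit 1) (nat_lit 4) (nat_lit 2) (nat_lit 5) (nat_lit 2) (nat_lit 4) (nat_lit 245) (nat_lit 178) (nat_lit 177))) (XT.nd (nat_lit 78) (nat_lit 0) (nat_lit 0) (XT.lf (nat_lit 0) (nat_lit 771706624491) (nat_lit 76) (nat_lit 86227489041) (nat_lit 76) (nat_lit 86114057480) (nat_lit 1) (nat_lit 4) (nat_lit 2) (nat_lit 5) (nat_lit 2) (nat_lit 4) (nat_lit 246) (nat_lit 178) (nat_lit 176)) (XT.lf (nat_lit 0) (nat_lit 888276723125) (nat_lit 76) (nat_lit 98732997976) (nat_lit 76) (nat_lit 98573689142) (nat_lit 1) (nat_lit 4) (nat_lit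 2) (nat_lit 5) (nat_lit 2) (nat_lit 4) (nat_lit 247) (nat_lit 178) (nat_lit 175)))))) (XT.nd (nat_lit 468) (nat_lit 0) (nat_lit 0) (XT.nd (nat_lit 234) (nat_lit 0) (nat_lit 0) (XT.nd (nat_lit 78) (nat_lit 0) (nat_lit 0) (XT.lf (nat_lit 0) (nat_lit 1022270143386) (nat_lit 76) (nat_lit 113141746730) (nat_lit 76) (nat_lit 112942544613) (nat_lit 1) (nat_lit 4) (nat_lit 2) (nat_lit 5) (nat_lit 2) (nat_lit 4) (nat_lit 248) (nat_lit 178) (nat_lit 174)) (XT.nd (nat_lit 78) (nat_lit 0) (nat_lit 0) (XT.lf (nat_lit 0) (nat_lit 1176308495671) (nat_lit 76) (nat_lit 129735645602) (nat_lit 76) (nat_lit 129501753675) (nat_lit 1) (nat_lit 4) (nat_lit 2) (nat_lit 5) (nat_lit 2) (nat_lit 4) (nat_lit 249) (nat_lit 178) (nat_lit 173)) (XT.lf (nat_lit 0) (nat_lit 1353405573827) (nat_lit 76) (nat_lit 148839357832) (nat_lit 76) (nat_lit 148575300852) (nat_lit 1) (nat_lit 4) (nat_lit 2) (nat_lit 5) (nat_lit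 2) (nat_lit 4) (nat_lit 250) (nat_lit 178) (nat_lit 172)))) (XT.nd (nat_lit 78) (nat_lit 0) (nat_lit 0) (XT.lf (nat_lit 0) (nat_lit 1557026320689) (nat_lit 76) (nat_lit 170826651703) (nat_lit 76) (nat_lit 170536364243) (nat_lit 1) (nat_lit 4) (nat_lit 2) (nat_lit 5) (nat_lit 2) (nat_lit 4) (nat_lit 251) (nat_lit 178) (nat_lit 171)) (XT.nd (nat_lit 78) (nat_lit 0) (nat_lit 0) (XT.lf (nat_lit 0) (nat_lit 1791154620434) (nat_lit 76) (nat_lit 196127713399) (nat_lit 76) (nat_lit 195814616826) (nat_lit 1) (nat_lit 4) (nat_lit 2) (nat_lit 5) (nat_lit 2) (nat_lit 4) (nat_lit 252) (nat_lit 178) (nat_lit 170)) (XT.lf (nat_lit 0) (nat_lit 2060371244144) (nat_lit 76) (nat_lit 225237563692) (nat_lit 76) (nat_lit 224904633107) (nat_lit 1) (nat_lit 4) (nat_lit 2) (nat_lit 5) (nat_lit 2) (nat_lit 4) (nat_lit 253) (nat_lit 178) (nat_lit 169))))) (XT.nd (nat_lit 234) (nat_lit 0) (nat_lit 0) (XT.nd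 (nat_lit 78) (nat_lit 0) (nat_lit 0) (XT.lf (nat_lit 0) (nat_lit 2369943473588) (nat_lit 76) (nat_lit 258725743133) (nat_lit 76) (nat_lit 258375565581) (nat_lit 1) (nat_lit 4) (nat_lit 2) (nat_lit 5) (nat_lit 2) (nat_lit 4) (nat_lit 254) (nat_lit 178) (nat_lit 168)) (XT.nd (nat_lit 78) (nat_lit 0) (nat_lit 0) (XT.lf (nat_lit 0) (nat_lit 2725928156733) (nat_lit 76) (nat_lit 297247455230) (nat_lit 76) (nat_lit 296882280316) (nat_lit 1) (nat_lit 4) (nat_lit 2) (nat_lit 5) (nat_lit 2) (nat_lit 4) (nat_lit 255) (nat_lit 178) (nat_lit 167)) (XT.lf (nat_lit 0) (nat_lit 3135290211292) (nat_lit 76) (nat_lit 341556385657) (nat_lit 76) (nat_lit 341178169558) (nat_lit 1) (nat_lit 4) (nat_lit 2) (nat_lit 5) (nat_lit 2) (nat_lit 4) (nat_lit 256) (nat_lit 178) (nat_lit 166)))) (XT.nd (nat_lit 156) (nat_lit 0) (nat_lit 0) (XT.nd (nat_lit 78) (nat_lit 0) (nat_lit 0) (XT.lf (nat_lit 0) (nat_lit 3606038894855)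 (nat_lit 76) (nat_lit 392519448268) (nat_lit 76) (nat_lit 392129892009) (nat_lit 1) (nat_lit 4) (nat_lit 2) (nat_lit 5) (nat_lit 2) (nat_lit 4) (nat_lit 257) (nat_lit 178) (nat_lit 165)) (XT.lf (nat_lit 0) (nat_lit 4147384507753) (nat_lit 76) (nat_lit 451133746464) (nat_lit 76) (nat_lit 450734329195) (nat_lit 1) (nat_lit 4) (nat_lit 2) (nat_lit 5) (nat_lit 2) (nat_lit 4) (nat_lit 258) (nat_lit 178) (nat_lit 164))) (XT.nd (nat_lit 78) (nat_lit 0) (nat_lit 0) (XT.lf (nat_lit 0) (nat_lit 4769918594585) (nat_lit 76) (nat_lit 518546081730) (nat_lit 76) (nat_lit 518138089670) (nat_lit 1) (nat_lit 4) (nat_lit 2) (nat_lit 5) (nat_lit 2) (nat_lit 4) (nat_lit 259) (nat_lit 178) (nat_lit 163)) (XT.lf (nat_lit 0) (nat_lit 5485821170093) (nat_lit 76) (nat_lit 596075391060) (nat_lit 76) (nat_lit 595659942661) (nat_lit 1) (nat_lit 4) (nat_lit 2) (nat_lit 5) (nat_lit 2) (nat_lit 4) (nat_lit 260)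 (nat_lit 178) (nat_lit 162))))))) (XT.nd (nat_lit 29874) (nat_lit 0) (nat_lit 0) (XT.nd (nat_lit 468) (nat_lit 0) (nat_lit 0) (XT.nd (nat_lit 234) (nat_lit 0) (nat_lit 0) (XT.nd (nat_lit 78) (nat_lit 0) (nat_lit 0) (XT.lf (nat_lit 0) (nat_lit 6309099023800) (nat_lit 76) (nat_lit 685238552247) (nat_lit 76) (nat_lit 684816620075) (nat_lit 1) (nat_lit 4) (nat_lit 2) (nat_lit 5) (nat_lit 2) (nat_lit 4) (nat_lit 261) (nat_lit 178) (nat_lit 161)) (XT.nd (nat_lit 78) (nat_lit 0) (nat_lit 0) (XT.lf (nat_lit 0) (nat_lit 7255859765886) (nat_lit 76) (nat_lit 787780061922) (nat_lit 76) (nat_lit 787352491685) (nat_lit 1) (nat_lit 4) (nat_lit 2) (nat_lit 5) (nat_lit 2) (nat_lit 4) (nat_lit 262) (nat_lit 178) (nat_lit 160)) (XT.lf (nat_lit 0) (nat_lit 8344626976086) (nat_lit 76) (nat_lit 905706167013) (nat_lit 76) (nat_lit 905273694112) (nat_lit 1) (nat_lit 4) (nat_lit 2) (nat_lit 5) (nat_lit 2)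 (nat_lit 4) (nat_lit 263) (nat_lit 178) (nat_lit 159)))) (XT.nd (nat_lit 78) (nat_lit 0) (nat_lit 0) (XT.lf (nat_lit 0) (nat_lit 9596702621559) (nat_lit 76) (nat_lit 1041324117402) (nat_lit 76) (nat_lit 1040887381315) (nat_lit 1) (nat_lit 4) (nat_lit 2) (nat_lit 5) (nat_lit 2) (nat_lit 4) (nat_lit 264) (nat_lit 178) (nat_lit 158)) (XT.nd (nat_lit 78) (nat_lit 0) (nat_lit 0) (XT.lf (nat_lit 0) (nat_lit 11036583834497) (nat_lit 76) (nat_lit 1197287307772) (nat_lit 76) (nat_lit 1196846864566) (nat_lit 1) (nat_lit 4) (nat_lit 2) (nat_lit 5) (nat_lit 2) (nat_lit 4) (nat_lit 265) (nat_lit 178) (nat_lit 157)) (XT.lf (nat_lit 0) (nat_lit 12692442203849) (nat_lit 76) (nat_lit 1376647191847) (nat_lit 76) (nat_lit 1376203525059) (nat_lit 1) (nat_lit 4) (nat_lit 2) (nat_lit 5) (nat_lit 2) (nat_lit 4) (nat_lit 266) (nat_lit 178) (nat_lit 156))))) (XT.nd (nat_lit 234) (nat_lit 0) (nat_lit 0) (XT.nd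 (nat_lit 78) (nat_lit 0) (nat_lit 0) (XT.lf (nat_lit 0) (nat_lit 14596674958581) (nat_lit 76) (nat_lit 1582912984749) (nat_lit 76) (nat_lit 1582466514848) (nat_lit 1) (nat_lit 4) (nat_lit 2) (nat_lit 5) (nat_lit 2) (nat_lit 4) (nat_lit 267) (nat_lit 178) (nat_lit 155)) (XT.nd (nat_lit 78) (nat_lit 0) (nat_lit 0) (XT.lf (nat_lit 0) (nat_lit 16786538826503) (nat_lit 76) (nat_lit 1820120321558) (nat_lit 76) (nat_lit 1819671414166) (nat_lit 1) (nat_lit 4) (nat_lit 2) (nat_lit 5) (nat_lit 2) (nat_lit 4) (nat_lit 268) (nat_lit 178) (nat_lit 154)) (XT.lf (nat_lit 0) (nat_lit 19304878970248) (nat_lit 76) (nat_lit 2092910215385) (nat_lit 76) (nat_lit 2092459188435) (nat_lit 1) (nat_lit 4) (nat_lit 2) (nat_lit 5) (nat_lit 2) (nat_lit 4) (nat_lit 269) (nat_lit 178) (nat_lit 153)))) (XT.nd (nat_lit 624) (nat_lit 0) (nat_lit 0) (XT.nd (nat_lit 546) (nat_lit 0) (nat_lit 0) (XT.lf (nat_lit 0) (nat_lit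 22200967262194) (nat_lit 76) (nat_lit 2406619859804) (nat_lit 76) (nat_lit 2406166989762) (nat_lit 1) (nat_lit 4) (nat_lit 2) (nat_lit 5) (nat_lit 2) (nat_lit 4) (nat_lit 270) (nat_lit 178) (nat_lit 152)) (XT.lf (nat_lit 0) (nat_lit 59058882680312) (nat_lit 76) (nat_lit 6399179390989) (nat_lit 76) (nat_lit 6398718852906) (nat_lit 1) (nat_lit 4) (nat_lit 2) (nat_lit 5) (nat_lit 2) (nat_lit 4) (nat_lit 277) (nat_lit 178) (nat_lit 145))) (XT.nd (nat_lit 28470) (nat_lit 0) (nat_lit 0) (XT.lf (nat_lit 0) (nat_lit 67918058635073) (nat_lit 76) (nat_lit 7358835095026) (nat_lit 76) (nat_lit 7358373954432) (nat_lit 1) (nat_lit 4) (nat_lit 2) (nat_lit 5) (nat_lit 2) (nat_lit 4) (nat_lit 278) (nat_lit 178) (nat_lit 144)) (XT.lf (nat_lit 0) (nat_lit 219155878801) (nat_lit 76) (nat_lit 25427129141) (nat_lit 76) (nat_lit 25427129141) (nat_lit 1) (nat_lit 4) (nat_lit 2) (nat_lit 5) (nat_lit 2) (nat_lit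 4) (nat_lit 242) (nat_lit 179) (nat_lit 179)))))) (XT.nd (nat_lit 546) (nat_lit 0) (nat_lit 0) (XT.nd (nat_lit 234) (nat_lit 0) (nat_lit 0) (XT.nd (nat_lit 78) (nat_lit 0) (nat_lit 0) (XT.lf (nat_lit 0) (nat_lit 505171580450) (nat_lit 76) (nat_lit 57911543645) (nat_lit 76) (nat_lit 57841770046) (nat_lit 1) (nat_lit 4) (nat_lit 2) (nat_lit 5) (nat_lit 2) (nat_lit 4) (nat_lit 243) (nat_lit 179) (nat_lit 178)) (XT.nd (nat_lit 78) (nat_lit 0) (nat_lit 0) (XT.lf (nat_lit 0) (nat_lit 581965788688) (nat_lit 76) (nat_lit 66069114285) (nat_lit 76) (nat_lit 65938667990) (nat_lit 1) (nat_lit 4) (nat_lit 2) (nat_lit 5) (nat_lit 2) (nat_lit 4) (nat_lit 244) (nat_lit 179) (nat_lit 177)) (XT.lf (nat_lit 0) (nat_lit 670196877696) (nat_lit 76) (nat_lit 75486574844) (nat_lit 76) (nat_lit 75303369684) (nat_lit 1) (nat_lit 4) (nat_lit 2) (nat_lit 5) (nat_lit 2) (nat_lit 4) (nat_lit 245) (nat_lit 179)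 (nat_lit 176)))) (XT.nd (nat_lit 156) (nat_lit 0) (nat_lit 0) (XT.nd (nat_lit 78) (nat_lit 0) (nat_lit 0) (XT.lf (nat_lit 0) (nat_lit 771591107912) (nat_lit 76) (nat_lit 86348179986) (nat_lit 76) (nat_lit 86119097552) (nat_lit 1) (nat_lit 4) (nat_lit 2) (nat_lit 5) (nat_lit 2) (nat_lit 4) (nat_lit 246) (nat_lit 179) (nat_lit 175)) (XT.lf (nat_lit 0) (nat_lit 888132279491) (nat_lit 76) (nat_lit 98866439376) (nat_lit 76) (nat_lit 98597463660) (nat_lit 1) (nat_lit 4) (nat_lit 2) (nat_lit 5) (nat_lit 2) (nat_lit 4) (nat_lit 247) (nat_lit 179) (nat_lit 174))) (XT.nd (nat_lit 78) (nat_lit 0) (nat_lit 0) (XT.lf (nat_lit 0) (nat_lit 1022100545791) (nat_lit 76) (nat_lit 113286275481) (nat_lit 76) (nat_lit 112982609955) (nat_lit 1) (nat_lit 4) (nat_lit 2) (nat_lit 5) (nat_lit 2) (nat_lit 4) (nat_lit 248) (nat_lit 179) (nat_lit 173)) (XT.lf (nat_lit 0) (nat_lit 1176117025066) (nat_lit 76) (nat_lit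 129889815529) (nat_lit 76) (nat_lit 129555984950) (nat_lit 1) (nat_lit 4) (nat_lit 2) (nat_lit 5) (nat_lit 2) (nat_lit 4) (nat_lit 249) (nat_lit 179) (nat_lit 172))))) (XT.nd (nat_lit 234) (nat_lit 0) (nat_lit 0) (XT.nd (nat_lit 78) (nat_lit 0) (nat_lit 0) (XT.lf (nat_lit 0) (nat_lit 1353195083214) (nat_lit 76) (nat_lit 149001911390) (nat_lit 76) (nat_lit 148641850330) (nat_lit 1) (nat_lit 4) (nat_lit 2) (nat_lit 5) (nat_lit 2) (nat_lit 4) (nat_lit 250) (nat_lit 179) (nat_lit 171)) (XT.nd (nat_lit 78) (nat_lit 0) (nat_lit 0) (XT.lf (nat_lit 0) (nat_lit 1556799290938) (nat_lit 76) (nat_lit 170996495375) (nat_lit 76) (nat_lit 170613625202) (nat_lit 1) (nat_lit 4) (nat_lit 2) (nat_lit 5) (nat_lit 2) (nat_lit 4) (nat_lit 251) (nat_lit 179) (nat_lit 170)) (XT.lf (nat_lit 0) (nat_lit 1790913208824) (nat_lit 76) (nat_lit 196303896300) (nat_lit 76) (nat_lit 195901192115) (nat_lit 1) (nat_lit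 4) (nat_lit 2) (nat_lit 5) (nat_lit 2) (nat_lit 4) (nat_lit 252) (nat_lit 179) (nat_lit 169)))) (XT.nd (nat_lit 156) (nat_lit 0) (nat_lit 0) (XT.nd (nat_lit 78) (nat_lit 0) (nat_lit 0) (XT.lf (nat_lit 0) (nat_lit 2060117326571) (nat_lit 76) (nat_lit 225419258967) (nat_lit 76) (nat_lit 224999307815) (nat_lit 1) (nat_lit 4) (nat_lit 2) (nat_lit 5) (nat_lit 2) (nat_lit 4) (nat_lit 253) (nat_lit 179) (nat_lit 168)) (XT.lf (nat_lit 0) (nat_lit 2369678681263) (nat_lit 76) (nat_lit 258912231775) (nat_lit 76) (nat_lit 258477283261) (nat_lit 1) (nat_lit 4) (nat_lit 2) (nat_lit 5) (nat_lit 2) (nat_lit 4) (nat_lit 254) (nat_lit 179) (nat_lit 167))) (XT.nd (nat_lit 78) (nat_lit 0) (nat_lit 0) (XT.lf (nat_lit 0) (nat_lit 2725653908102) (nat_lit 76) (nat_lit 297438112019) (nat_lit 76) (nat_lit 296990122320) (nat_lit 1) (nat_lit 4) (nat_lit 2) (nat_lit 5) (nat_lit 2) (nat_lit 4) (nat_lit 255) (nat_lit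 179) (nat_lit 166)) (XT.lf (nat_lit 0) (nat_lit 3135007739787) (nat_lit 76) (nat_lit 341750666920) (nat_lit 76) (nat_lit 341291337061) (nat_lit 1) (nat_lit 4) (nat_lit 2) (nat_lit 5) (nat_lit 2) (nat_lit 4) (nat_lit 256) (nat_lit 179) (nat_lit 165))))))))
noncomputable def xc5 : XT := (XT.nd (nat_lit 30888) (nat_lit 0) (nat_lit 0) (XT.nd (nat_lit 1014) (nat_lit 0) (nat_lit 0) (XT.nd (nat_lit 468) (nat_lit 0) (nat_lit 0) (XT.nd (nat_lit 234) (nat_lit 0) (nat_lit 0) (XT.nd (nat_lit 78) (nat_lit 0) (nat_lit 0) (XT.lf (nat_lit 0) (nat_lit 3605749273024) (nat_lit 76) (nat_lit 392716881249) (nat_lit 76) (nat_lit 392247690381) (nat_lit 1) (nat_lit 4) (nat_lit 2) (nat_lit 5) (nat_lit 2) (nat_lit 4) (nat_lit 257) (nat_lit 179) (nat_lit 164)) (XT.nd (nat_lit 78) (nat_lit 0) (nat_lit 0) (XT.lf (nat_lit 0) (nat_lit 4147088668247) (nat_lit 76) (nat_lit 451333920068) (nat_lit 76) (nat_lit 450856154409)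 (nat_lit 1) (nat_lit 4) (nat_lit 2) (nat_lit 5) (nat_lit 2) (nat_lit 4) (nat_lit 258) (nat_lit 179) (nat_lit 163)) (XT.lf (nat_lit 0) (nat_lit 4769617348406) (nat_lit 76) (nat_lit 518748638485) (nat_lit 76) (nat_lit 518263416487) (nat_lit 1) (nat_lit 4) (nat_lit 2) (nat_lit 5) (nat_lit 2) (nat_lit 4) (nat_lit 259) (nat_lit 179) (nat_lit 162)))) (XT.nd (nat_lit 78) (nat_lit 0) (nat_lit 0) (XT.lf (nat_lit 0) (nat_lit 5485515222459) (nat_lit 76) (nat_lit 596280020121) (nat_lit 76) (nat_lit 595788314349) (nat_lit 1) (nat_lit 4) (nat_lit 2) (nat_lit 5) (nat_lit 2) (nat_lit 4) (nat_lit 260) (nat_lit 179) (nat_lit 161)) (XT.nd (nat_lit 78) (nat_lit 0) (nat_lit 0) (XT.lf (nat_lit 0) (nat_lit 6308788987944) (nat_lit 76) (nat_lit 685444983313) (nat_lit 76) (nat_lit 684947639477) (nat_lit 1) (nat_lit 4) (nat_lit 2) (nat_lit 5) (nat_lit 2) (nat_lit 4) (nat_lit 261) (nat_lit 179) (nat_lit 160))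 (XT.lf (nat_lit 0) (nat_lit 7255546175054) (nat_lit 76) (nat_lit 787988059948) (nat_lit 76) (nat_lit 787485813448) (nat_lit 1) (nat_lit 4) (nat_lit 2) (nat_lit 5) (nat_lit 2) (nat_lit 4) (nat_lit 262) (nat_lit 179) (nat_lit 159))))) (XT.nd (nat_lit 234) (nat_lit 0) (nat_lit 0) (XT.nd (nat_lit 78) (nat_lit 0) (nat_lit 0) (XT.lf (nat_lit 0) (nat_lit 8344310293972) (nat_lit 76) (nat_lit 905915527613) (nat_lit 76) (nat_lit 905409017927) (nat_lit 1) (nat_lit 4) (nat_lit 2) (nat_lit 5) (nat_lit 2) (nat_lit 4) (nat_lit 263) (nat_lit 179) (nat_lit 158)) (XT.nd (nat_lit 78) (nat_lit 0) (nat_lit 0) (XT.lf (nat_lit 0) (nat_lit 9596383251372) (nat_lit 76) (nat_lit 1041534662850) (nat_lit 76) (nat_lit 1041024446045) (nat_lit 1) (nat_lit 4) (nat_lit 2) (nat_lit 5) (nat_lit 2) (nat_lit 4) (nat_lit 264) (nat_lit 179) (nat_lit 157)) (XT.lf (nat_lit 0) (nat_lit 11036262126856) (nat_lit 76) (nat_lit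 1197498883522) (nat_lit 76) (nat_lit 1196985443135) (nat_lit 1) (nat_lit 4) (nat_lit 2) (nat_lit 5) (nat_lit 2) (nat_lit 4) (nat_lit 265) (nat_lit 179) (nat_lit 156)))) (XT.nd (nat_lit 156) (nat_lit 0) (nat_lit 0) (XT.nd (nat_lit 78) (nat_lit 0) (nat_lit 0) (XT.lf (nat_lit 0) (nat_lit 12692118463639) (nat_lit 76) (nat_lit 1376859663511) (nat_lit 76) (nat_lit 1376343420010) (nat_lit 1) (nat_lit 4) (nat_lit 2) (nat_lit 5) (nat_lit 2) (nat_lit 4) (nat_lit 266) (nat_lit 179) (nat_lit 155)) (XT.lf (nat_lit 0) (nat_lit 14596349450920) (nat_lit 76) (nat_lit 1583126235470) (nat_lit 76) (nat_lit 1582607554478) (nat_lit 1) (nat_lit 4) (nat_lit 2) (nat_lit 5) (nat_lit 2) (nat_lit 4) (nat_lit 267) (nat_lit 179) (nat_lit 154))) (XT.nd (nat_lit 78) (nat_lit 0) (nat_lit 0) (XT.lf (nat_lit 0) (nat_lit 16786211781928) (nat_lit 76) (nat_lit 1820334249719) (nat_lit 76) (nat_lit 1819813449170) (nat_lit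 1) (nat_lit 4) (nat_lit 2) (nat_lit 5) (nat_lit 2) (nat_lit 4) (nat_lit 268) (nat_lit 179) (nat_lit 153)) (XT.lf (nat_lit 0) (nat_lit 19304550589226) (nat_lit 76) (nat_lit 2093124732624) (nat_lit 76) (nat_lit 2092602088982) (nat_lit 1) (nat_lit 4) (nat_lit 2) (nat_lit 5) (nat_lit 2) (nat_lit 4) (nat_lit 269) (nat_lit 179) (nat_lit 152)))))) (XT.nd (nat_lit 29328) (nat_lit 0) (nat_lit 0) (XT.nd (nat_lit 29016) (nat_lit 0) (nat_lit 0) (XT.nd (nat_lit 78) (nat_lit 0) (nat_lit 0) (XT.lf (nat_lit 0) (nat_lit 22200637719044) (nat_lit 76) (nat_lit 2406834889286) (nat_lit 76) (nat_lit 2406310642955) (nat_lit 1) (nat_lit 4) (nat_lit 2) (nat_lit 5) (nat_lit 2) (nat_lit 4) (nat_lit 270) (nat_lit 179) (nat_lit 151)) (XT.nd (nat_lit 28860) (nat_lit 0) (nat_lit 0) (XT.lf (nat_lit 0) (nat_lit 25531135745661) (nat_lit 76) (nat_lit 2767602527117) (nat_lit 76) (nat_lit 2767076887142) (nat_lit 1) (nat_lit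 4) (nat_lit 2) (nat_lit 5) (nat_lit 2) (nat_lit 4) (nat_lit 271) (nat_lit 179) (nat_lit 150)) (XT.lf (nat_lit 0) (nat_lit 164694858736) (nat_lit 76) (nat_lit 19780826912) (nat_lit 76) (nat_lit 19780826912) (nat_lit 1) (nat_lit 4) (nat_lit 2) (nat_lit 5) (nat_lit 2) (nat_lit 4) (nat_lit 240) (nat_lit 180) (nat_lit 180)))) (XT.nd (nat_lit 156) (nat_lit 0) (nat_lit 0) (XT.nd (nat_lit 78) (nat_lit 0) (nat_lit 0) (XT.lf (nat_lit 0) (nat_lit 380078193180) (nat_lit 76) (nat_lit 44839420512) (nat_lit 76) (nat_lit 44759180872) (nat_lit 1) (nat_lit 4) (nat_lit 2) (nat_lit 5) (nat_lit 2) (nat_lit 4) (nat_lit 241) (nat_lit 180) (nat_lit 179)) (XT.lf (nat_lit 0) (nat_lit 438261164003) (nat_lit 76) (nat_lit 50956798546) (nat_lit 76) (nat_lit 50806785307) (nat_lit 1) (nat_lit 4) (nat_lit 2) (nat_lit 5) (nat_lit 2) (nat_lit 4) (nat_lit 242) (nat_lit 180) (nat_lit 178))) (XT.nd (nat_lit 78) (nat_lit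 0) (nat_lit 0) (XT.lf (nat_lit 0) (nat_lit 505076992414) (nat_lit 76) (nat_lit 58033475757) (nat_lit 76) (nat_lit 57822789822) (nat_lit 1) (nat_lit 4) (nat_lit 2) (nat_lit 5) (nat_lit 2) (nat_lit 4) (nat_lit 243) (nat_lit 180) (nat_lit 177)) (XT.lf (nat_lit 0) (nat_lit 581832944622) (nat_lit 76) (nat_lit 66207908872) (nat_lit 76) (nat_lit 65944464073) (nat_lit 1) (nat_lit 4) (nat_lit 2) (nat_lit 5) (nat_lit 2) (nat_lit 4) (nat_lit 244) (nat_lit 180) (nat_lit 176))))) (XT.nd (nat_lit 234) (nat_lit 0) (nat_lit 0) (XT.nd (nat_lit 78) (nat_lit 0) (nat_lit 0) (XT.lf (nat_lit 0) (nat_lit 670030767517) (nat_lit 76) (nat_lit 75640032454) (nat_lit 76) (nat_lit 75330710381) (nat_lit 1) (nat_lit 4) (nat_lit 2) (nat_lit 5) (nat_lit 2) (nat_lit 4) (nat_lit 245) (nat_lit 180) (nat_lit 175)) (XT.nd (nat_lit 78) (nat_lit 0) (nat_lit 0) (XT.lf (nat_lit 0) (nat_lit 771396070677) (nat_lit 76) (nat_lit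 86514388051) (nat_lit 76) (nat_lit 86165172695) (nat_lit 1) (nat_lit 4) (nat_lit 2) (nat_lit 5) (nat_lit 2) (nat_lit 4) (nat_lit 246) (nat_lit 180) (nat_lit 174)) (XT.lf (nat_lit 0) (nat_lit 887912088296) (nat_lit 76) (nat_lit 99043734793) (nat_lit 76) (nat_lit 98659829627) (nat_lit 1) (nat_lit 4) (nat_lit 2) (nat_lit 5) (nat_lit 2) (nat_lit 4) (nat_lit 247) (nat_lit 180) (nat_lit 173)))) (XT.nd (nat_lit 156) (nat_lit 0) (nat_lit 0) (XT.nd (nat_lit 78) (nat_lit 0) (nat_lit 0) (XT.lf (nat_lit 0) (nat_lit 1021858481587) (nat_lit 76) (nat_lit 113473212073) (nat_lit 76) (nat_lit 113059141854) (nat_lit 1) (nat_lit 4) (nat_lit 2) (nat_lit 5) (nat_lit 2) (nat_lit 4) (nat_lit 248) (nat_lit 180) (nat_lit 172)) (XT.lf (nat_lit 0) (nat_lit 1175855940853) (nat_lit 76) (nat_lit 130085135751) (nat_lit 76) (nat_lit 129644835052) (nat_lit 1) (nat_lit 4) (nat_lit 2) (nat_lit 5) (nat_lit 2) (nat_lit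 4) (nat_lit 249) (nat_lit 180) (nat_lit 171))) (XT.nd (nat_lit 78) (nat_lit 0) (nat_lit 0) (XT.lf (nat_lit 0) (nat_lit 1352917459863) (nat_lit 76) (nat_lit 149204521726) (nat_lit 76) (nat_lit 148741411914) (nat_lit 1) (nat_lit 4) (nat_lit 2) (nat_lit 5) (nat_lit 2) (nat_lit 4) (nat_lit 250) (nat_lit 180) (nat_lit 170)) (XT.lf (nat_lit 0) (nat_lit 1556507285728) (nat_lit 76) (nat_lit 171205444940) (nat_lit 76) (nat_lit 170722501116) (nat_lit 1) (nat_lit 4) (nat_lit 2) (nat_lit 5) (nat_lit 2) (nat_lit 4) (nat_lit 251) (nat_lit 180) (nat_lit 169))))))) (XT.nd (nat_lit 1014) (nat_lit 0) (nat_lit 0) (XT.nd (nat_lit 468) (nat_lit 0) (nat_lit 0) (XT.nd (nat_lit 234) (nat_lit 0) (nat_lit 0) (XT.nd (nat_lit 78) (nat_lit 0) (nat_lit 0) (XT.lf (nat_lit 0) (nat_lit 1790608697650) (nat_lit 76) (nat_lit 196518358238) (nat_lit 76) (nat_lit 196018167448) (nat_lit 1) (nat_lit 4) (nat_lit 2) (nat_lit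 5) (nat_lit 2) (nat_lit 4) (nat_lit 252) (nat_lit 180) (nat_lit 168)) (XT.nd (nat_lit 78) (nat_lit 0) (nat_lit 0) (XT.lf (nat_lit 0) (nat_lit 2059801940645) (nat_lit 76) (nat_lit 225638514273) (nat_lit 76) (nat_lit 225123326120) (nat_lit 1) (nat_lit 4) (nat_lit 2) (nat_lit 5) (nat_lit 2) (nat_lit 4) (nat_lit 253) (nat_lit 180) (nat_lit 167)) (XT.lf (nat_lit 0) (nat_lit 2369353839032) (nat_lit 76) (nat_lit 259135655228) (nat_lit 76) (nat_lit 258607425890) (nat_lit 1) (nat_lit 4) (nat_lit 2) (nat_lit 5) (nat_lit 2) (nat_lit 4) (nat_lit 254) (nat_lit 180) (nat_lit 166)))) (XT.nd (nat_lit 78) (nat_lit 0) (nat_lit 0) (XT.lf (nat_lit 0) (nat_lit 2725320842996) (nat_lit 76) (nat_lit 297665159946) (nat_lit 76) (nat_lit 297125590448) (nat_lit 1) (nat_lit 4) (nat_lit 2) (nat_lit 5) (nat_lit 2) (nat_lit 4) (nat_lit 255) (nat_lit 180) (nat_lit 165)) (XT.nd (nat_lit 78) (nat_lit 0) (nat_lit 0)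 (XT.lf (nat_lit 0) (nat_lit 3134667524356) (nat_lit 76) (nat_lit 341980866565) (nat_lit 76) (nat_lit 341431436058) (nat_lit 1) (nat_lit 4) (nat_lit 2) (nat_lit 5) (nat_lit 2) (nat_lit 4) (nat_lit 256) (nat_lit 180) (nat_lit 164)) (XT.lf (nat_lit 0) (nat_lit 3605402839919) (nat_lit 76) (nat_lit 392949821518) (nat_lit 76) (nat_lit 392391816220) (nat_lit 1) (nat_lit 4) (nat_lit 2) (nat_lit 5) (nat_lit 2) (nat_lit 4) (nat_lit 257) (nat_lit 180) (nat_lit 163))))) (XT.nd (nat_lit 234) (nat_lit 0) (nat_lit 0) (XT.nd (nat_lit 78) (nat_lit 0) (nat_lit 0) (XT.lf (nat_lit 0) (nat_lit 4146736828468) (nat_lit 76) (nat_lit 451569243488) (nat_lit 76) (nat_lit 451003781850) (nat_lit 1) (nat_lit 4) (nat_lit 2) (nat_lit 5) (nat_lit 2) (nat_lit 4) (nat_lit 258) (nat_lit 180) (nat_lit 162)) (XT.nd (nat_lit 78) (nat_lit 0) (nat_lit 0) (XT.lf (nat_lit 0) (nat_lit 4769260807172) (nat_lit 76) (nat_lit 518986034210)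 (nat_lit 76) (nat_lit 518414088799) (nat_lit 1) (nat_lit 4) (nat_lit 2) (nat_lit 5) (nat_lit 2) (nat_lit 4) (nat_lit 259) (nat_lit 180) (nat_lit 161)) (XT.lf (nat_lit 0) (nat_lit 5485154593003) (nat_lit 76) (nat_lit 596519217851) (nat_lit 76) (nat_lit 595941634376) (nat_lit 1) (nat_lit 4) (nat_lit 2) (nat_lit 5) (nat_lit 2) (nat_lit 4) (nat_lit 260) (nat_lit 180) (nat_lit 160)))) (XT.nd (nat_lit 156) (nat_lit 0) (nat_lit 0) (XT.nd (nat_lit 78) (nat_lit 0) (nat_lit 0) (XT.lf (nat_lit 0) (nat_lit 6308424803512) (nat_lit 76) (nat_lit 685685748003) (nat_lit 76) (nat_lit 685103261863) (nat_lit 1) (nat_lit 4) (nat_lit 2) (nat_lit 5) (nat_lit 2) (nat_lit 4) (nat_lit 261) (nat_lit 180) (nat_lit 159)) (XT.lf (nat_lit 0) (nat_lit 7255178899339) (nat_lit 76) (nat_lit 788230187213) (nat_lit 76) (nat_lit 787643437887) (nat_lit 1) (nat_lit 4) (nat_lit 2) (nat_lit 5) (nat_lit 2) (nat_lit 4) (nat_lit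 262) (nat_lit 180) (nat_lit 158))) (XT.nd (nat_lit 78) (nat_lit 0) (nat_lit 0) (XT.lf (nat_lit 0) (nat_lit 8343940330185) (nat_lit 76) (nat_lit 906158839725) (nat_lit 76) (nat_lit 905568383281) (nat_lit 1) (nat_lit 4) (nat_lit 2) (nat_lit 5) (nat_lit 2) (nat_lit 4) (nat_lit 263) (nat_lit 180) (nat_lit 157)) (XT.lf (nat_lit 0) (nat_lit 9596010950131) (nat_lit 76) (nat_lit 1041779005264) (nat_lit 76) (nat_lit 1041185325238) (nat_lit 1) (nat_lit 4) (nat_lit 2) (nat_lit 5) (nat_lit 2) (nat_lit 4) (nat_lit 264) (nat_lit 180) (nat_lit 156)))))) (XT.nd (nat_lit 1482) (nat_lit 0) (nat_lit 0) (XT.nd (nat_lit 234) (nat_lit 0) (nat_lit 0) (XT.nd (nat_lit 78) (nat_lit 0) (nat_lit 0) (XT.lf (nat_lit 0) (nat_lit 11035887793046) (nat_lit 76) (nat_lit 1197744121851) (nat_lit 76) (nat_lit 1197147638710) (nat_lit 1) (nat_lit 4) (nat_lit 2) (nat_lit 5) (nat_lit 2) (nat_lit 4) (nat_lit 265) (nat_lit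 180) (nat_lit 155)) (XT.nd (nat_lit 78) (nat_lit 0) (nat_lit 0) (XT.lf (nat_lit 0) (nat_lit 12691742362378) (nat_lit 76) (nat_lit 1377105680896) (nat_lit 76) (nat_lit 1376506760265) (nat_lit 1) (nat_lit 4) (nat_lit 2) (nat_lit 5) (nat_lit 2) (nat_lit 4) (nat_lit 266) (nat_lit 180) (nat_lit 154)) (XT.lf (nat_lit 0) (nat_lit 14595971812745) (nat_lit 76) (nat_lit 1583372930295) (nat_lit 76) (nat_lit 1582771890107) (nat_lit 1) (nat_lit 4) (nat_lit 2) (nat_lit 5) (nat_lit 2) (nat_lit 4) (nat_lit 267) (nat_lit 180) (nat_lit 153)))) (XT.nd (nat_lit 156) (nat_lit 0) (nat_lit 0) (XT.nd (nat_lit 78) (nat_lit 0) (nat_lit 0) (XT.lf (nat_lit 0) (nat_lit 16785832807306) (nat_lit 76) (nat_lit 1820581533623) (nat_lit 76) (nat_lit 1819978650342) (nat_lit 1) (nat_lit 4) (nat_lit 2) (nat_lit 5) (nat_lit 2) (nat_lit 4) (nat_lit 268) (nat_lit 180) (nat_lit 152)) (XT.lf (nat_lit 0) (nat_lit 19304170452476)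 (nat_lit 76) (nat_lit 2093372528770) (nat_lit 76) (nat_lit 2092768042800) (nat_lit 1) (nat_lit 4) (nat_lit 2) (nat_lit 5) (nat_lit 2) (nat_lit 4) (nat_lit 269) (nat_lit 180) (nat_lit 151))) (XT.nd (nat_lit 78) (nat_lit 0) (nat_lit 0) (XT.lf (nat_lit 0) (nat_lit 22200256571748) (nat_lit 76) (nat_lit 2407083130860) (nat_lit 76) (nat_lit 2406477251246) (nat_lit 1) (nat_lit 4) (nat_lit 2) (nat_lit 5) (nat_lit 2) (nat_lit 4) (nat_lit 270) (nat_lit 180) (nat_lit 150)) (XT.lf (nat_lit 0) (nat_lit 25530753719630) (nat_lit 76) (nat_lit 2767851156020) (nat_lit 76) (nat_lit 2767244064542) (nat_lit 1) (nat_lit 4) (nat_lit 2) (nat_lit 5) (nat_lit 2) (nat_lit 4) (nat_lit 271) (nat_lit 180) (nat_lit 149))))) (XT.nd (nat_lit 27846) (nat_lit 0) (nat_lit 0) (XT.nd (nat_lit 27690) (nat_lit 0) (nat_lit 0) (XT.lf (nat_lit 0) (nat_lit 157100862651195) (nat_lit 76) (nat_lit 17019973190189) (nat_lit 76)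 (nat_lit 17019359332699) (nat_lit 1) (nat_lit 4) (nat_lit 2) (nat_lit 5) (nat_lit 2) (nat_lit 4) (nat_lit 284) (nat_lit 180) (nat_lit 136)) (XT.nd (nat_lit 78) (nat_lit 0) (nat_lit 0) (XT.lf (nat_lit 0) (nat_lit 123361732623) (nat_lit 76) (nat_lit 15594550873) (nat_lit 76) (nat_lit 15594550873) (nat_lit 1) (nat_lit 4) (nat_lit 2) (nat_lit 5) (nat_lit 2) (nat_lit 4) (nat_lit 238) (nat_lit 181) (nat_lit 181)) (XT.lf (nat_lit 0) (nat_lit 285204005834) (nat_lit 76) (nat_lit 35112513415) (nat_lit 76) (nat_lit 35020237829) (nat_lit 1) (nat_lit 4) (nat_lit 2) (nat_lit 5) (nat_lit 2) (nat_lit 4) (nat_lit 239) (nat_lit 181) (nat_lit 180)))) (XT.nd (nat_lit 156) (nat_lit 0) (nat_lit 0) (XT.nd (nat_lit 78) (nat_lit 0) (nat_lit 0) (XT.lf (nat_lit 0) (nat_lit 329331534832) (nat_lit 76) (nat_lit 39679575127) (nat_lit 76) (nat_lit 39507059903) (nat_lit 1) (nat_lit 4) (nat_lit 2) (nat_lit 5) (nat_lit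 2) (nat_lit 4) (nat_lit 240) (nat_lit 181) (nat_lit 179)) (XT.lf (nat_lit 0) (nat_lit 379969416939) (nat_lit 76) (nat_lit 44979642440) (nat_lit 76) (nat_lit 44737353616) (nat_lit 1) (nat_lit 4) (nat_lit 2) (nat_lit 5) (nat_lit 2) (nat_lit 4) (nat_lit 241) (nat_lit 181) (nat_lit 178))) (XT.nd (nat_lit 78) (nat_lit 0) (nat_lit 0) (XT.lf (nat_lit 0) (nat_lit 438108393327) (nat_lit 76) (nat_lit 51116412321) (nat_lit 76) (nat_lit 50813450802) (nat_lit 1) (nat_lit 4) (nat_lit 2) (nat_lit 5) (nat_lit 2) (nat_lit 4) (nat_lit 242) (nat_lit 181) (nat_lit 177)) (XT.lf (nat_lit 0) (nat_lit 504885965708) (nat_lit 76) (nat_lit 58209952008) (nat_lit 76) (nat_lit 57854231623) (nat_lit 1) (nat_lit 4) (nat_lit 2) (nat_lit 5) (nat_lit 2) (nat_lit 4) (nat_lit 243) (nat_lit 181) (nat_lit 176))))))))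
noncomputable def xc6 : XT := (XT.nd (nat_lit 2028) (nat_lit 0) (nat_lit 0) (XT.nd (nat_lit 1014) (nat_lit 0) (nat_lit 0) (XT.nd (nat_lit 468) (nat_lit 0) (nat_lit 0) (XT.nd (nat_lit 234) (nat_lit 0) (nat_lit 0) (XT.nd (nat_lit 78) (nat_lit 0) (nat_lit 0) (XT.lf (nat_lit 0) (nat_lit 581608651803) (nat_lit 76) (nat_lit 66399048146) (nat_lit 76) (nat_lit 65997450488) (nat_lit 1) (nat_lit 4) (nat_lit 2) (nat_lit 5) (nat_lit 2) (nat_lit 4) (nat_lit 244) (nat_lit 181) (nat_lit 175)) (XT.nd (nat_lit 78) (nat_lit 0) (nat_lit 0) (XT.lf (nat_lit 0) (nat_lit 669777547642) (nat_lit 76) (nat_lit 75843922183) (nat_lit 76) (nat_lit 75402431242) (nat_lit 1) (nat_lit 4) (nat_lit 2) (nat_lit 5) (nat_lit 2) (nat_lit 4) (nat_lit 245) (nat_lit 181) (nat_lit 174)) (XT.lf (nat_lit 0) (nat_lit 771117696842) (nat_lit 76) (nat_lit 86729365131) (nat_lit 76) (nat_lit 86253184380) (nat_lit 1) (nat_lit 4) (nat_lit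 2) (nat_lit 5) (nat_lit 2) (nat_lit 4) (nat_lit 246) (nat_lit 181) (nat_lit 173)))) (XT.nd (nat_lit 78) (nat_lit 0) (nat_lit 0) (XT.lf (nat_lit 0) (nat_lit 887611841451) (nat_lit 76) (nat_lit 99268353048) (nat_lit 76) (nat_lit 98762007244) (nat_lit 1) (nat_lit 4) (nat_lit 2) (nat_lit 5) (nat_lit 2) (nat_lit 4) (nat_lit 247) (nat_lit 181) (nat_lit 172)) (XT.nd (nat_lit 78) (nat_lit 0) (nat_lit 0) (XT.lf (nat_lit 0) (nat_lit 1021539214733) (nat_lit 76) (nat_lit 113706213959) (nat_lit 76) (nat_lit 113173637675) (nat_lit 1) (nat_lit 4) (nat_lit 2) (nat_lit 5) (nat_lit 2) (nat_lit 4) (nat_lit 248) (nat_lit 181) (nat_lit 171)) (XT.lf (nat_lit 0) (nat_lit 1175520134862) (nat_lit 76) (nat_lit 130325427751) (nat_lit 76) (nat_lit 129770042354) (nat_lit 1) (nat_lit 4) (nat_lit 2) (nat_lit 5) (nat_lit 2) (nat_lit 4) (nat_lit 249) (nat_lit 181) (nat_lit 170))))) (XT.nd (nat_lit 234) (nat_lit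 0) (nat_lit 0) (XT.nd (nat_lit 78) (nat_lit 0) (nat_lit 0) (XT.lf (nat_lit 0) (nat_lit 1352567272013) (nat_lit 76) (nat_lit 149451152955) (nat_lit 76) (nat_lit 148875933546) (nat_lit 1) (nat_lit 4) (nat_lit 2) (nat_lit 5) (nat_lit 2) (nat_lit 4) (nat_lit 250) (nat_lit 181) (nat_lit 169)) (XT.nd (nat_lit 78) (nat_lit 0) (nat_lit 0) (XT.lf (nat_lit 0) (nat_lit 1556144591914) (nat_lit 76) (nat_lit 171457588543) (nat_lit 76) (nat_lit 170865122167) (nat_lit 1) (nat_lit 4) (nat_lit 2) (nat_lit 5) (nat_lit 2) (nat_lit 4) (nat_lit 251) (nat_lit 181) (nat_lit 168)) (XT.lf (nat_lit 0) (nat_lit 1790235129085) (nat_lit 76) (nat_lit 196775295209) (nat_lit 76) (nat_lit 196167831471) (nat_lit 1) (nat_lit 4) (nat_lit 2) (nat_lit 5) (nat_lit 2) (nat_lit 4) (nat_lit 252) (nat_lit 181) (nat_lit 167)))) (XT.nd (nat_lit 156) (nat_lit 0) (nat_lit 0) (XT.nd (nat_lit 78) (nat_lit 0) (nat_lit 0) (XT.lf (nat_lit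 0) (nat_lit 2059418915774) (nat_lit 76) (nat_lit 225899619390) (nat_lit 76) (nat_lit 225279114467) (nat_lit 1) (nat_lit 4) (nat_lit 2) (nat_lit 5) (nat_lit 2) (nat_lit 4) (nat_lit 253) (nat_lit 181) (nat_lit 166)) (XT.lf (nat_lit 0) (nat_lit 2368962591286) (nat_lit 76) (nat_lit 259400384820) (nat_lit 76) (nat_lit 258768539736) (nat_lit 1) (nat_lit 4) (nat_lit 2) (nat_lit 5) (nat_lit 2) (nat_lit 4) (nat_lit 254) (nat_lit 181) (nat_lit 165))) (XT.nd (nat_lit 78) (nat_lit 0) (nat_lit 0) (XT.lf (nat_lit 0) (nat_lit 2724922444925) (nat_lit 76) (nat_lit 297933041256) (nat_lit 76) (nat_lit 297291335163) (nat_lit 1) (nat_lit 4) (nat_lit 2) (nat_lit 5) (nat_lit 2) (nat_lit 4) (nat_lit 255) (nat_lit 181) (nat_lit 164)) (XT.lf (nat_lit 0) (nat_lit 3134262908610) (nat_lit 76) (nat_lit 342251488498) (nat_lit 76) (nat_lit 341601207615) (nat_lit 1) (nat_lit 4) (nat_lit 2) (nat_lit 5) (nat_lit 2)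 (nat_lit 4) (nat_lit 256) (nat_lit 181) (nat_lit 163)))))) (XT.nd (nat_lit 468) (nat_lit 0) (nat_lit 0) (XT.nd (nat_lit 234) (nat_lit 0) (nat_lit 0) (XT.nd (nat_lit 78) (nat_lit 0) (nat_lit 0) (XT.lf (nat_lit 0) (nat_lit 3604992817499) (nat_lit 76) (nat_lit 393222826602) (nat_lit 76) (nat_lit 392565089379) (nat_lit 1) (nat_lit 4) (nat_lit 2) (nat_lit 5) (nat_lit 2) (nat_lit 4) (nat_lit 257) (nat_lit 181) (nat_lit 162)) (XT.nd (nat_lit 78) (nat_lit 0) (nat_lit 0) (XT.lf (nat_lit 0) (nat_lit 4146322104594) (nat_lit 76) (nat_lit 451844320878) (nat_lit 76) (nat_lit 451180099881) (nat_lit 1) (nat_lit 4) (nat_lit 2) (nat_lit 5) (nat_lit 2) (nat_lit 4) (nat_lit 258) (nat_lit 181) (nat_lit 161)) (XT.lf (nat_lit 0) (nat_lit 4768841995075) (nat_lit 76) (nat_lit 519262913605) (nat_lit 76) (nat_lit 518593054544) (nat_lit 1) (nat_lit 4) (nat_lit 2) (nat_lit 5) (nat_lit 2) (nat_lit 4) (nat_lit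 259) (nat_lit 181) (nat_lit 160)))) (XT.nd (nat_lit 78) (nat_lit 0) (nat_lit 0) (XT.lf (nat_lit 0) (nat_lit 5484732225931) (nat_lit 76) (nat_lit 596797664206) (nat_lit 76) (nat_lit 596122902481) (nat_lit 1) (nat_lit 4) (nat_lit 2) (nat_lit 5) (nat_lit 2) (nat_lit 4) (nat_lit 260) (nat_lit 181) (nat_lit 159)) (XT.nd (nat_lit 78) (nat_lit 0) (nat_lit 0) (XT.lf (nat_lit 0) (nat_lit 6307999345157) (nat_lit 76) (nat_lit 685965556932) (nat_lit 76) (nat_lit 685286532021) (nat_lit 1) (nat_lit 4) (nat_lit 2) (nat_lit 5) (nat_lit 2) (nat_lit 4) (nat_lit 261) (nat_lit 181) (nat_lit 158)) (XT.lf (nat_lit 0) (nat_lit 7254750752912) (nat_lit 76) (nat_lit 788511180989) (nat_lit 76) (nat_lit 787828448959) (nat_lit 1) (nat_lit 4) (nat_lit 2) (nat_lit 5) (nat_lit 2) (nat_lit 4) (nat_lit 262) (nat_lit 181) (nat_lit 157))))) (XT.nd (nat_lit 234) (nat_lit 0) (nat_lit 0) (XT.nd (nat_lit 78) (nat_lit 0)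 (nat_lit 0) (XT.lf (nat_lit 0) (nat_lit 8343509846303) (nat_lit 76) (nat_lit 906440863804) (nat_lit 76) (nat_lit 905754908192) (nat_lit 1) (nat_lit 4) (nat_lit 2) (nat_lit 5) (nat_lit 2) (nat_lit 4) (nat_lit 263) (nat_lit 181) (nat_lit 156)) (XT.nd (nat_lit 78) (nat_lit 0) (nat_lit 0) (XT.lf (nat_lit 0) (nat_lit 9595578433681) (nat_lit 76) (nat_lit 1042061925257) (nat_lit 76) (nat_lit 1041373166532) (nat_lit 1) (nat_lit 4) (nat_lit 2) (nat_lit 5) (nat_lit 2) (nat_lit 4) (nat_lit 264) (nat_lit 181) (nat_lit 155)) (XT.lf (nat_lit 0) (nat_lit 11035453509144) (nat_lit 76) (nat_lit 1198027820900) (nat_lit 76) (nat_lit 1197336624684) (nat_lit 1) (nat_lit 4) (nat_lit 2) (nat_lit 5) (nat_lit 2) (nat_lit 4) (nat_lit 265) (nat_lit 181) (nat_lit 154)))) (XT.nd (nat_lit 156) (nat_lit 0) (nat_lit 0) (XT.nd (nat_lit 78) (nat_lit 0) (nat_lit 0) (XT.lf (nat_lit 0) (nat_lit 12691306541563) (nat_lit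 76) (nat_lit 1377390057386) (nat_lit 76) (nat_lit 1376696741613) (nat_lit 1) (nat_lit 4) (nat_lit 2) (nat_lit 5) (nat_lit 2) (nat_lit 4) (nat_lit 266) (nat_lit 181) (nat_lit 153)) (XT.lf (nat_lit 0) (nat_lit 14595534655483) (nat_lit 76) (nat_lit 1583657895863) (nat_lit 76) (nat_lit 1582962736997) (nat_lit 1) (nat_lit 4) (nat_lit 2) (nat_lit 5) (nat_lit 2) (nat_lit 4) (nat_lit 267) (nat_lit 181) (nat_lit 152))) (XT.nd (nat_lit 78) (nat_lit 0) (nat_lit 0) (XT.lf (nat_lit 0) (nat_lit 16785394487916) (nat_lit 76) (nat_lit 1820867011433) (nat_lit 76) (nat_lit 1820170249877) (nat_lit 1) (nat_lit 4) (nat_lit 2) (nat_lit 5) (nat_lit 2) (nat_lit 4) (nat_lit 268) (nat_lit 181) (nat_lit 151)) (XT.lf (nat_lit 0) (nat_lit 19303731122540) (nat_lit 76) (nat_lit 2093658452009) (nat_lit 76) (nat_lit 2092960296809) (nat_lit 1) (nat_lit 4) (nat_lit 2) (nat_lit 5) (nat_lit 2) (nat_lit 4) (nat_lit 269)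 (nat_lit 181) (nat_lit 150))))))) (XT.nd (nat_lit 29484) (nat_lit 0) (nat_lit 0) (XT.nd (nat_lit 28938) (nat_lit 0) (nat_lit 0) (XT.nd (nat_lit 28704) (nat_lit 0) (nat_lit 0) (XT.nd (nat_lit 1092) (nat_lit 0) (nat_lit 0) (XT.lf (nat_lit 0) (nat_lit 22199816363077) (nat_lit 76) (nat_lit 2407369441427) (nat_lit 76) (nat_lit 2406670074364) (nat_lit 1) (nat_lit 4) (nat_lit 2) (nat_lit 5) (nat_lit 2) (nat_lit 4) (nat_lit 270) (nat_lit 181) (nat_lit 149)) (XT.nd (nat_lit 27534) (nat_lit 0) (nat_lit 0) (XT.lf (nat_lit 0) (nat_lit 157100417412222) (nat_lit 76) (nat_lit 17020261718010) (nat_lit 76) (nat_lit 17019555413663) (nat_lit 1) (nat_lit 4) (nat_lit 2) (nat_lit 5) (nat_lit 2) (nat_lit 4) (nat_lit 284) (nat_lit 181) (nat_lit 135)) (XT.lf (nat_lit 0) (nat_lit 91932264787) (nat_lit 76) (nat_lit 12524735337) (nat_lit 76) (nat_lit 12524735337) (nat_lit 1) (nat_lit 4) (nat_lit 2) (nat_lit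 5) (nat_lit 2) (nat_lit 4) (nat_lit 236) (nat_lit 182) (nat_lit 182)))) (XT.nd (nat_lit 78) (nat_lit 0) (nat_lit 0) (XT.lf (nat_lit 0) (nat_lit 213137032930) (nat_lit 76) (nat_lit 27938694643) (nat_lit 76) (nat_lit 27832577720) (nat_lit 1) (nat_lit 4) (nat_lit 2) (nat_lit 5) (nat_lit 2) (nat_lit 4) (nat_lit 237) (nat_lit 182) (nat_lit 181)) (XT.nd (nat_lit 78) (nat_lit 0) (nat_lit 0) (XT.lf (nat_lit 0) (nat_lit 246656555211) (nat_lit 76) (nat_lit 31324711245) (nat_lit 76) (nat_lit 31126318737) (nat_lit 1) (nat_lit 4) (nat_lit 2) (nat_lit 5) (nat_lit 2) (nat_lit 4) (nat_lit 238) (nat_lit 182) (nat_lit 180)) (XT.lf (nat_lit 0) (nat_lit 285078913157) (nat_lit 76) (nat_lit 35273768632) (nat_lit 76) (nat_lit 34995136484) (nat_lit 1) (nat_lit 4) (nat_lit 2) (nat_lit 5) (nat_lit 2) (nat_lit 4) (nat_lit 239) (nat_lit 182) (nat_lit 179))))) (XT.nd (nat_lit 234) (nat_lit 0) (nat_lit 0) (XT.nd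 (nat_lit 78) (nat_lit 0) (nat_lit 0) (XT.lf (nat_lit 0) (nat_lit 329155848555) (nat_lit 76) (nat_lit 39863130969) (nat_lit 76) (nat_lit 39514725222) (nat_lit 1) (nat_lit 4) (nat_lit 2) (nat_lit 5) (nat_lit 2) (nat_lit 4) (nat_lit 240) (nat_lit 182) (nat_lit 178)) (XT.nd (nat_lit 78) (nat_lit 0) (nat_lit 0) (XT.lf (nat_lit 0) (nat_lit 379749736227) (nat_lit 76) (nat_lit 45182590129) (nat_lit 76) (nat_lit 44773511687) (nat_lit 1) (nat_lit 4) (nat_lit 2) (nat_lit 5) (nat_lit 2) (nat_lit 4) (nat_lit 241) (nat_lit 182) (nat_lit 177)) (XT.lf (nat_lit 0) (nat_lit 437850456585) (nat_lit 76) (nat_lit 51336222486) (nat_lit 76) (nat_lit 50874385178) (nat_lit 1) (nat_lit 4) (nat_lit 2) (nat_lit 5) (nat_lit 2) (nat_lit 4) (nat_lit 242) (nat_lit 182) (nat_lit 176)))) (XT.nd (nat_lit 156) (nat_lit 0) (nat_lit 0) (XT.nd (nat_lit 78) (nat_lit 0) (nat_lit 0) (XT.lf (nat_lit 0) (nat_lit 504594762853)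 (nat_lit 76) (nat_lit 58444425196) (nat_lit 76) (nat_lit 57936710614) (nat_lit 1) (nat_lit 4) (nat_lit 2) (nat_lit 5) (nat_lit 2) (nat_lit 4) (nat_lit 243) (nat_lit 182) (nat_lit 175)) (XT.lf (nat_lit 0) (nat_lit 581288521892) (nat_lit 76) (nat_lit 66646271789) (nat_lit 76) (nat_lit 66098663925) (nat_lit 1) (nat_lit 4) (nat_lit 2) (nat_lit 5) (nat_lit 2) (nat_lit 4) (nat_lit 244) (nat_lit 182) (nat_lit 174))) (XT.nd (nat_lit 78) (nat_lit 0) (nat_lit 0) (XT.lf (nat_lit 0) (nat_lit 669432263770) (nat_lit 76) (nat_lit 76102233177) (nat_lit 76) (nat_lit 75519935502) (nat_lit 1) (nat_lit 4) (nat_lit 2) (nat_lit 5) (nat_lit 2) (nat_lit 4) (nat_lit 245) (nat_lit 182) (nat_lit 173)) (XT.lf (nat_lit 0) (nat_lit 770750539960) (nat_lit 76) (nat_lit 86997317300) (nat_lit 76) (nat_lit 86384854573) (nat_lit 1) (nat_lit 4) (nat_lit 2) (nat_lit 5) (nat_lit 2) (nat_lit 4) (nat_lit 246) (nat_lit 182)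 (nat_lit 172)))))) (XT.nd (nat_lit 546) (nat_lit 0) (nat_lit 0) (XT.nd (nat_lit 234) (nat_lit 0) (nat_lit 0) (XT.nd (nat_lit 78) (nat_lit 0) (nat_lit 0) (XT.lf (nat_lit 0) (nat_lit 887225664561) (nat_lit 76) (nat_lit 99544688848) (nat_lit 76) (nat_lit 98905995641) (nat_lit 1) (nat_lit 4) (nat_lit 2) (nat_lit 5) (nat_lit 2) (nat_lit 4) (nat_lit 247) (nat_lit 182) (nat_lit 171)) (XT.nd (nat_lit 78) (nat_lit 0) (nat_lit 0) (XT.lf (nat_lit 0) (nat_lit 1021136498705) (nat_lit 76) (nat_lit 113989839873) (nat_lit 76) (nat_lit 113328337552) (nat_lit 1) (nat_lit 4) (nat_lit 2) (nat_lit 5) (nat_lit 2) (nat_lit 4) (nat_lit 248) (nat_lit 182) (nat_lit 170)) (XT.lf (nat_lit 0) (nat_lit 1175103036975) (nat_lit 76) (nat_lit 130615392894) (nat_lit 76) (nat_lit 129934056562) (nat_lit 1) (nat_lit 4) (nat_lit 2) (nat_lit 5) (nat_lit 2) (nat_lit 4) (nat_lit 249) (nat_lit 182) (nat_lit 169)))) (XT.nd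 (nat_lit 156) (nat_lit 0) (nat_lit 0) (XT.nd (nat_lit 78) (nat_lit 0) (nat_lit 0) (XT.lf (nat_lit 0) (nat_lit 1352137668162) (nat_lit 76) (nat_lit 149746630472) (nat_lit 76) (nat_lit 149048047173) (nat_lit 1) (nat_lit 4) (nat_lit 2) (nat_lit 5) (nat_lit 2) (nat_lit 4) (nat_lit 250) (nat_lit 182) (nat_lit 168)) (XT.lf (nat_lit 0) (nat_lit 1555704113312) (nat_lit 76) (nat_lit 171757859427) (nat_lit 76) (nat_lit 171044278766) (nat_lit 1) (nat_lit 4) (nat_lit 2) (nat_lit 5) (nat_lit 2) (nat_lit 4) (nat_lit 251) (nat_lit 182) (nat_lit 167))) (XT.nd (nat_lit 78) (nat_lit 0) (nat_lit 0) (XT.lf (nat_lit 0) (nat_lit 1789785194177) (nat_lit 76) (nat_lit 197079734240) (nat_lit 76) (nat_lit 196353112394) (nat_lit 1) (nat_lit 4) (nat_lit 2) (nat_lit 5) (nat_lit 2) (nat_lit 4) (nat_lit 252) (nat_lit 182) (nat_lit 166)) (XT.lf (nat_lit 0) (nat_lit 2058960757992) (nat_lit 76) (nat_lit 226207682896)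 (nat_lit 76) (nat_lit 225469720889) (nat_lit 1) (nat_lit 4) (nat_lit 2) (nat_lit 5) (nat_lit 2) (nat_lit 4) (nat_lit 253) (nat_lit 182) (nat_lit 165))))) (XT.nd (nat_lit 234) (nat_lit 0) (nat_lit 0) (XT.nd (nat_lit 78) (nat_lit 0) (nat_lit 0) (XT.lf (nat_lit 0) (nat_lit 2368497283178) (nat_lit 76) (nat_lit 259711600043) (nat_lit 76) (nat_lit 258963777027) (nat_lit 1) (nat_lit 4) (nat_lit 2) (nat_lit 5) (nat_lit 2) (nat_lit 4) (nat_lit 254) (nat_lit 182) (nat_lit 164)) (XT.nd (nat_lit 78) (nat_lit 0) (nat_lit 0) (XT.lf (nat_lit 0) (nat_lit 2724450919143) (nat_lit 76) (nat_lit 298246997102) (nat_lit 76) (nat_lit 297490599296) (nat_lit 1) (nat_lit 4) (nat_lit 2) (nat_lit 5) (nat_lit 2) (nat_lit 4) (nat_lit 255) (nat_lit 182) (nat_lit 163)) (XT.lf (nat_lit 0) (nat_lit 3133785976154) (nat_lit 76) (nat_lit 342567827496) (nat_lit 76) (nat_lit 341803973350) (nat_lit 1) (nat_lit 4) (nat_lit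 2) (nat_lit 5) (nat_lit 2) (nat_lit 4) (nat_lit 256) (nat_lit 182) (nat_lit 162)))) (XT.nd (nat_lit 156) (nat_lit 0) (nat_lit 0) (XT.nd (nat_lit 78) (nat_lit 0) (nat_lit 0) (XT.lf (nat_lit 0) (nat_lit 3604511183588) (nat_lit 76) (nat_lit 393541237905) (nat_lit 76) (nat_lit 392770899985) (nat_lit 1) (nat_lit 4) (nat_lit 2) (nat_lit 5) (nat_lit 2) (nat_lit 4) (nat_lit 257) (nat_lit 182) (nat_lit 161)) (XT.lf (nat_lit 0) (nat_lit 4145836382461) (nat_lit 76) (nat_lit 452164534185) (nat_lit 76) (nat_lit 451388558202) (nat_lit 1) (nat_lit 4) (nat_lit 2) (nat_lit 5) (nat_lit 2) (nat_lit 4) (nat_lit 258) (nat_lit 182) (nat_lit 160))) (XT.nd (nat_lit 78) (nat_lit 0) (nat_lit 0) (XT.lf (nat_lit 0) (nat_lit 4768352717967) (nat_lit 76) (nat_lit 519584693873) (nat_lit 76) (nat_lit 518803815225) (nat_lit 1) (nat_lit 4) (nat_lit 2) (nat_lit 5) (nat_lit 2) (nat_lit 4) (nat_lit 259) (nat_lit 182)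 (nat_lit 159)) (XT.lf (nat_lit 0) (nat_lit 5484239857540) (nat_lit 76) (nat_lit 597120807048) (nat_lit 76) (nat_lit 596335665214) (nat_lit 1) (nat_lit 4) (nat_lit 2) (nat_lit 5) (nat_lit 2) (nat_lit 4) (nat_lit 260) (nat_lit 182) (nat_lit 158))))))))
noncomputable def xc7 : XT := (XT.nd (nat_lit 30342) (nat_lit 0) (nat_lit 0) (XT.nd (nat_lit 29250) (nat_lit 0) (nat_lit 0) (XT.nd (nat_lit 468) (nat_lit 0) (nat_lit 0) (XT.nd (nat_lit 234) (nat_lit 0) (nat_lit 0) (XT.nd (nat_lit 78) (nat_lit 0) (nat_lit 0) (XT.lf (nat_lit 0) (nat_lit 6307504288694) (nat_lit 76) (nat_lit 686289884622) (nat_lit 76) (nat_lit 685501035669) (nat_lit 1) (nat_lit 4) (nat_lit 2) (nat_lit 5) (nat_lit 2) (nat_lit 4) (nat_lit 261) (nat_lit 182) (nat_lit 157)) (XT.nd (nat_lit 78) (nat_lit 0) (nat_lit 0) (XT.lf (nat_lit 0) (nat_lit 7254253358994) (nat_lit 76) (nat_lit 788836538981) (nat_lit 76) (nat_lit 788044466447)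 (nat_lit 1) (nat_lit 4) (nat_lit 2) (nat_lit 5) (nat_lit 2) (nat_lit 4) (nat_lit 262) (nat_lit 182) (nat_lit 156)) (XT.lf (nat_lit 0) (nat_lit 8343010419817) (nat_lit 76) (nat_lit 906767117710) (nat_lit 76) (nat_lit 905972242062) (nat_lit 1) (nat_lit 4) (nat_lit 2) (nat_lit 5) (nat_lit 2) (nat_lit 4) (nat_lit 263) (nat_lit 182) (nat_lit 155)))) (XT.nd (nat_lit 78) (nat_lit 0) (nat_lit 0) (XT.lf (nat_lit 0) (nat_lit 9595077239743) (nat_lit 76) (nat_lit 1042388958220) (nat_lit 76) (nat_lit 1041591645081) (nat_lit 1) (nat_lit 4) (nat_lit 2) (nat_lit 5) (nat_lit 2) (nat_lit 4) (nat_lit 264) (nat_lit 182) (nat_lit 154)) (XT.nd (nat_lit 78) (nat_lit 0) (nat_lit 0) (XT.lf (nat_lit 0) (nat_lit 11034950778293) (nat_lit 76) (nat_lit 1198355531303) (nat_lit 76) (nat_lit 1197556098607) (nat_lit 1) (nat_lit 4) (nat_lit 2) (nat_lit 5) (nat_lit 2) (nat_lit 4) (nat_lit 265) (nat_lit 182) (nat_lit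 153)) (XT.lf (nat_lit 0) (nat_lit 12690802474264) (nat_lit 76) (nat_lit 1377718356868) (nat_lit 76) (nat_lit 1376917081078) (nat_lit 1) (nat_lit 4) (nat_lit 2) (nat_lit 5) (nat_lit 2) (nat_lit 4) (nat_lit 266) (nat_lit 182) (nat_lit 152))))) (XT.nd (nat_lit 234) (nat_lit 0) (nat_lit 0) (XT.nd (nat_lit 78) (nat_lit 0) (nat_lit 0) (XT.lf (nat_lit 0) (nat_lit 14595029426056) (nat_lit 76) (nat_lit 1583986707587) (nat_lit 76) (nat_lit 1583183829108) (nat_lit 1) (nat_lit 4) (nat_lit 2) (nat_lit 5) (nat_lit 2) (nat_lit 4) (nat_lit 267) (nat_lit 182) (nat_lit 151)) (XT.nd (nat_lit 78) (nat_lit 0) (nat_lit 0) (XT.lf (nat_lit 0) (nat_lit 16784888247943) (nat_lit 76) (nat_lit 1821196268585) (nat_lit 76) (nat_lit 1820391996463) (nat_lit 1) (nat_lit 4) (nat_lit 2) (nat_lit 5) (nat_lit 2) (nat_lit 4) (nat_lit 268) (nat_lit 182) (nat_lit 150)) (XT.lf (nat_lit 0) (nat_lit 19303224003832) (nat_lit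 76) (nat_lit 2093988096489) (nat_lit 76) (nat_lit 2093182612503) (nat_lit 1) (nat_lit 4) (nat_lit 2) (nat_lit 5) (nat_lit 2) (nat_lit 4) (nat_lit 269) (nat_lit 182) (nat_lit 149)))) (XT.nd (nat_lit 390) (nat_lit 0) (nat_lit 0) (XT.nd (nat_lit 312) (nat_lit 0) (nat_lit 0) (XT.lf (nat_lit 0) (nat_lit 22199308480251) (nat_lit 76) (nat_lit 2407699422715) (nat_lit 76) (nat_lit 2406892884935) (nat_lit 1) (nat_lit 4) (nat_lit 2) (nat_lit 5) (nat_lit 2) (nat_lit 4) (nat_lit 270) (nat_lit 182) (nat_lit 148)) (XT.lf (nat_lit 0) (nat_lit 38829714967278) (nat_lit 76) (nat_lit 4209155943675) (nat_lit 76) (nat_lit 4208346397334) (nat_lit 1) (nat_lit 4) (nat_lit 2) (nat_lit 5) (nat_lit 2) (nat_lit 4) (nat_lit 274) (nat_lit 182) (nat_lit 144))) (XT.nd (nat_lit 28080) (nat_lit 0) (nat_lit 0) (XT.lf (nat_lit 0) (nat_lit 44654767581114) (nat_lit 76) (nat_lit 4840144874396) (nat_lit 76) (nat_lit 4839334804133)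 (nat_lit 1) (nat_lit 4) (nat_lit 2) (nat_lit 5) (nat_lit 2) (nat_lit 4) (nat_lit 275) (nat_lit 182) (nat_lit 143)) (XT.lf (nat_lit 0) (nat_lit 67965032497) (nat_lit 76) (nat_lit 10313465927) (nat_lit 76) (nat_lit 10313465927) (nat_lit 1) (nat_lit 4) (nat_lit 2) (nat_lit 5) (nat_lit 2) (nat_lit 4) (nat_lit 234) (nat_lit 183) (nat_lit 183)))))) (XT.nd (nat_lit 546) (nat_lit 0) (nat_lit 0) (XT.nd (nat_lit 234) (nat_lit 0) (nat_lit 0) (XT.nd (nat_lit 78) (nat_lit 0) (nat_lit 0) (XT.lf (nat_lit 0) (nat_lit 158266322252) (nat_lit 76) (nat_lit 22722545506) (nat_lit 76) (nat_lit 22600511044) (nat_lit 1) (nat_lit 4) (nat_lit 2) (nat_lit 5) (nat_lit 2) (nat_lit 4) (nat_lit 235) (nat_lit 183) (nat_lit 182)) (XT.nd (nat_lit 78) (nat_lit 0) (nat_lit 0) (XT.lf (nat_lit 0) (nat_lit 183787583032) (nat_lit 76) (nat_lit 25205421598) (nat_lit 76) (nat_lit 24977270214) (nat_lit 1) (nat_lit 4) (nat_lit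 2) (nat_lit 5) (nat_lit 2) (nat_lit 4) (nat_lit 236) (nat_lit 183) (nat_lit 181)) (XT.lf (nat_lit 0) (nat_lit 212993176352) (nat_lit 76) (nat_lit 28124138143) (nat_lit 76) (nat_lit 27803711173) (nat_lit 1) (nat_lit 4) (nat_lit 2) (nat_lit 5) (nat_lit 2) (nat_lit 4) (nat_lit 237) (nat_lit 183) (nat_lit 180)))) (XT.nd (nat_lit 156) (nat_lit 0) (nat_lit 0) (XT.nd (nat_lit 78) (nat_lit 0) (nat_lit 0) (XT.lf (nat_lit 0) (nat_lit 246454515992) (nat_lit 76) (nat_lit 31535800463) (nat_lit 76) (nat_lit 31135133854) (nat_lit 1) (nat_lit 4) (nat_lit 2) (nat_lit 5) (nat_lit 2) (nat_lit 4) (nat_lit 238) (nat_lit 183) (nat_lit 179)) (XT.lf (nat_lit 0) (nat_lit 284826280338) (nat_lit 76) (nat_lit 35507158474) (nat_lit 76) (nat_lit 35036718265) (nat_lit 1) (nat_lit 4) (nat_lit 2) (nat_lit 5) (nat_lit 2) (nat_lit 4) (nat_lit 239) (nat_lit 183) (nat_lit 178))) (XT.nd (nat_lit 78) (nat_lit 0) (nat_lit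 0) (XT.lf (nat_lit 0) (nat_lit 328859221301) (nat_lit 76) (nat_lit 40115912659) (nat_lit 76) (nat_lit 39584799755) (nat_lit 1) (nat_lit 4) (nat_lit 2) (nat_lit 5) (nat_lit 2) (nat_lit 4) (nat_lit 240) (nat_lit 183) (nat_lit 177)) (XT.lf (nat_lit 0) (nat_lit 379414852943) (nat_lit 76) (nat_lit 45452234295) (nat_lit 76) (nat_lit 44868362526) (nat_lit 1) (nat_lit 4) (nat_lit 2) (nat_lit 5) (nat_lit 2) (nat_lit 4) (nat_lit 241) (nat_lit 183) (nat_lit 176))))) (XT.nd (nat_lit 234) (nat_lit 0) (nat_lit 0) (XT.nd (nat_lit 78) (nat_lit 0) (nat_lit 0) (XT.lf (nat_lit 0) (nat_lit 437482307188) (nat_lit 76) (nat_lit 51620529675) (nat_lit 76) (nat_lit 50990780631) (nat_lit 1) (nat_lit 4) (nat_lit 2) (nat_lit 5) (nat_lit 2) (nat_lit 4) (nat_lit 242) (nat_lit 183) (nat_lit 175)) (XT.nd (nat_lit 78) (nat_lit 0) (nat_lit 0) (XT.lf (nat_lit 0) (nat_lit 504197686400) (nat_lit 76) (nat_lit 58741482839)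 (nat_lit 76) (nat_lit 58071840513) (nat_lit 1) (nat_lit 4) (nat_lit 2) (nat_lit 5) (nat_lit 2) (nat_lit 4) (nat_lit 243) (nat_lit 183) (nat_lit 174)) (XT.lf (nat_lit 0) (nat_lit 580866291478) (nat_lit 76) (nat_lit 66954416783) (nat_lit 76) (nat_lit 66250084648) (nat_lit 1) (nat_lit 4) (nat_lit 2) (nat_lit 5) (nat_lit 2) (nat_lit 4) (nat_lit 244) (nat_lit 183) (nat_lit 173)))) (XT.nd (nat_lit 156) (nat_lit 0) (nat_lit 0) (XT.nd (nat_lit 78) (nat_lit 0) (nat_lit 0) (XT.lf (nat_lit 0) (nat_lit 668988160347) (nat_lit 76) (nat_lit 76420019347) (nat_lit 76) (nat_lit 75685522158) (nat_lit 1) (nat_lit 4) (nat_lit 2) (nat_lit 5) (nat_lit 2) (nat_lit 4) (nat_lit 245) (nat_lit 183) (nat_lit 172)) (XT.lf (nat_lit 0) (nat_lit 770287416529) (nat_lit 76) (nat_lit 87323487101) (nat_lit 76) (nat_lit 86562759432) (nat_lit 1) (nat_lit 4) (nat_lit 2) (nat_lit 5) (nat_lit 2) (nat_lit 4) (nat_lit 246)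 (nat_lit 183) (nat_lit 171))) (XT.nd (nat_lit 78) (nat_lit 0) (nat_lit 0) (XT.lf (nat_lit 0) (nat_lit 886746001991) (nat_lit 76) (nat_lit 99878148763) (nat_lit 76) (nat_lit 99094611980) (nat_lit 1) (nat_lit 4) (nat_lit 2) (nat_lit 5) (nat_lit 2) (nat_lit 4) (nat_lit 247) (nat_lit 183) (nat_lit 170)) (XT.lf (nat_lit 0) (nat_lit 1020642454277) (nat_lit 76) (nat_lit 114329639017) (nat_lit 76) (nat_lit 113526268223) (nat_lit 1) (nat_lit 4) (nat_lit 2) (nat_lit 5) (nat_lit 2) (nat_lit 4) (nat_lit 248) (nat_lit 183) (nat_lit 169))))))) (XT.nd (nat_lit 1014) (nat_lit 0) (nat_lit 0) (XT.nd (nat_lit 468) (nat_lit 0) (nat_lit 0) (XT.nd (nat_lit 234) (nat_lit 0) (nat_lit 0) (XT.nd (nat_lit 78) (nat_lit 0) (nat_lit 0) (XT.lf (nat_lit 0) (nat_lit 1174596486583) (nat_lit 76) (nat_lit 130960704412) (nat_lit 76) (nat_lit 130140086651) (nat_lit 1) (nat_lit 4) (nat_lit 2) (nat_lit 5) (nat_lit 2) (nat_lit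 4) (nat_lit 249) (nat_lit 183) (nat_lit 168)) (XT.nd (nat_lit 78) (nat_lit 0) (nat_lit 0) (XT.lf (nat_lit 0) (nat_lit 1351620243019) (nat_lit 76) (nat_lit 150096735357) (nat_lit 76) (nat_lit 149261120234) (nat_lit 1) (nat_lit 4) (nat_lit 2) (nat_lit 5) (nat_lit 2) (nat_lit 4) (nat_lit 250) (nat_lit 183) (nat_lit 167)) (XT.lf (nat_lit 0) (nat_lit 1555177231863) (nat_lit 76) (nat_lit 172112132459) (nat_lit 76) (nat_lit 171263476151) (nat_lit 1) (nat_lit 4) (nat_lit 2) (nat_lit 5) (nat_lit 2) (nat_lit 4) (nat_lit 251) (nat_lit 183) (nat_lit 166)))) (XT.nd (nat_lit 78) (nat_lit 0) (nat_lit 0) (XT.lf (nat_lit 0) (nat_lit 1789250089853) (nat_lit 76) (nat_lit 197437631746) (nat_lit 76) (nat_lit 196577635278) (nat_lit 1) (nat_lit 4) (nat_lit 2) (nat_lit 5) (nat_lit 2) (nat_lit 4) (nat_lit 252) (nat_lit 183) (nat_lit 165)) (XT.nd (nat_lit 78) (nat_lit 0) (nat_lit 0) (XT.lf (nat_lit 0) (nat_lit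 2058418503342) (nat_lit 76) (nat_lit 226568732120) (nat_lit 76) (nat_lit 225698874642) (nat_lit 1) (nat_lit 4) (nat_lit 2) (nat_lit 5) (nat_lit 2) (nat_lit 4) (nat_lit 253) (nat_lit 183) (nat_lit 164)) (XT.lf (nat_lit 0) (nat_lit 2367948810854) (nat_lit 76) (nat_lit 260075389890) (nat_lit 76) (nat_lit 259196957622) (nat_lit 1) (nat_lit 4) (nat_lit 2) (nat_lit 5) (nat_lit 2) (nat_lit 4) (nat_lit 254) (nat_lit 183) (nat_lit 163))))) (XT.nd (nat_lit 234) (nat_lit 0) (nat_lit 0) (XT.nd (nat_lit 78) (nat_lit 0) (nat_lit 0) (XT.lf (nat_lit 0) (nat_lit 2723897040145) (nat_lit 76) (nat_lit 298613170101) (nat_lit 76) (nat_lit 297727281493) (nat_lit 1) (nat_lit 4) (nat_lit 2) (nat_lit 5) (nat_lit 2) (nat_lit 4) (nat_lit 255) (nat_lit 183) (nat_lit 162)) (XT.nd (nat_lit 78) (nat_lit 0) (nat_lit 0) (XT.lf (nat_lit 0) (nat_lit 3133227395701) (nat_lit 76) (nat_lit 342936072800) (nat_lit 76) (nat_lit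 342043700419) (nat_lit 1) (nat_lit 4) (nat_lit 2) (nat_lit 5) (nat_lit 2) (nat_lit 4) (nat_lit 256) (nat_lit 183) (nat_lit 161)) (XT.lf (nat_lit 0) (nat_lit 3603948514914) (nat_lit 76) (nat_lit 393911285214) (nat_lit 76) (nat_lit 393013274768) (nat_lit 1) (nat_lit 4) (nat_lit 2) (nat_lit 5) (nat_lit 2) (nat_lit 4) (nat_lit 257) (nat_lit 183) (nat_lit 160)))) (XT.nd (nat_lit 156) (nat_lit 0) (nat_lit 0) (XT.nd (nat_lit 78) (nat_lit 0) (nat_lit 0) (XT.lf (nat_lit 0) (nat_lit 4145270158811) (nat_lit 76) (nat_lit 452536148454) (nat_lit 76) (nat_lit 451633235345) (nat_lit 1) (nat_lit 4) (nat_lit 2) (nat_lit 5) (nat_lit 2) (nat_lit 4) (nat_lit 258) (nat_lit 183) (nat_lit 159)) (XT.lf (nat_lit 0) (nat_lit 4767783403034) (nat_lit 76) (nat_lit 519957670716) (nat_lit 76) (nat_lit 519050494420) (nat_lit 1) (nat_lit 4) (nat_lit 2) (nat_lit 5) (nat_lit 2) (nat_lit 4) (nat_lit 259) (nat_lit 183)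 (nat_lit 158))) (XT.nd (nat_lit 78) (nat_lit 0) (nat_lit 0) (XT.lf (nat_lit 0) (nat_lit 5483667854534) (nat_lit 76) (nat_lit 597494968739) (nat_lit 76) (nat_lit 596584085325) (nat_lit 1) (nat_lit 4) (nat_lit 2) (nat_lit 5) (nat_lit 2) (nat_lit 4) (nat_lit 260) (nat_lit 183) (nat_lit 157)) (XT.lf (nat_lit 0) (nat_lit 6306929948234) (nat_lit 76) (nat_lit 686665076615) (nat_lit 76) (nat_lit 685750969619) (nat_lit 1) (nat_lit 4) (nat_lit 2) (nat_lit 5) (nat_lit 2) (nat_lit 4) (nat_lit 261) (nat_lit 183) (nat_lit 156)))))) (XT.nd (nat_lit 546) (nat_lit 0) (nat_lit 0) (XT.nd (nat_lit 234) (nat_lit 0) (nat_lit 0) (XT.nd (nat_lit 78) (nat_lit 0) (nat_lit 0) (XT.lf (nat_lit 0) (nat_lit 7253676985966) (nat_lit 76) (nat_lit 789212626888) (nat_lit 76) (nat_lit 788295716778) (nat_lit 1) (nat_lit 4) (nat_lit 2) (nat_lit 5) (nat_lit 2) (nat_lit 4) (nat_lit 262) (nat_lit 183) (nat_lit 155)) (XT.nd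 (nat_lit 78) (nat_lit 0) (nat_lit 0) (XT.lf (nat_lit 0) (nat_lit 8342432279337) (nat_lit 76) (nat_lit 907143984674) (nat_lit 76) (nat_lit 906224637073) (nat_lit 1) (nat_lit 4) (nat_lit 2) (nat_lit 5) (nat_lit 2) (nat_lit 4) (nat_lit 263) (nat_lit 183) (nat_lit 154)) (XT.lf (nat_lit 0) (nat_lit 9594497562349) (nat_lit 76) (nat_lit 1042766502624) (nat_lit 76) (nat_lit 1041845035467) (nat_lit 1) (nat_lit 4) (nat_lit 2) (nat_lit 5) (nat_lit 2) (nat_lit 4) (nat_lit 264) (nat_lit 183) (nat_lit 153)))) (XT.nd (nat_lit 156) (nat_lit 0) (nat_lit 0) (XT.nd (nat_lit 78) (nat_lit 0) (nat_lit 0) (XT.lf (nat_lit 0) (nat_lit 11034369764452) (nat_lit 76) (nat_lit 1198733664786) (nat_lit 76) (nat_lit 1197810354535) (nat_lit 1) (nat_lit 4) (nat_lit 2) (nat_lit 5) (nat_lit 2) (nat_lit 4) (nat_lit 265) (nat_lit 183) (nat_lit 152)) (XT.lf (nat_lit 0) (nat_lit 12690220298296) (nat_lit 76) (nat_lit 1378097002593)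 (nat_lit 76) (nat_lit 1377172089652) (nat_lit 1) (nat_lit 4) (nat_lit 2) (nat_lit 5) (nat_lit 2) (nat_lit 4) (nat_lit 266) (nat_lit 183) (nat_lit 151))) (XT.nd (nat_lit 78) (nat_lit 0) (nat_lit 0) (XT.lf (nat_lit 0) (nat_lit 14594446239542) (nat_lit 76) (nat_lit 1584365798740) (nat_lit 76) (nat_lit 1583439492156) (nat_lit 1) (nat_lit 4) (nat_lit 2) (nat_lit 5) (nat_lit 2) (nat_lit 4) (nat_lit 267) (nat_lit 183) (nat_lit 150)) (XT.lf (nat_lit 0) (nat_lit 16784304182693) (nat_lit 76) (nat_lit 1821575747067) (nat_lit 76) (nat_lit 1820648228619) (nat_lit 1) (nat_lit 4) (nat_lit 2) (nat_lit 5) (nat_lit 2) (nat_lit 4) (nat_lit 268) (nat_lit 183) (nat_lit 149))))) (XT.nd (nat_lit 390) (nat_lit 0) (nat_lit 0) (XT.nd (nat_lit 78) (nat_lit 0) (nat_lit 0) (XT.lf (nat_lit 0) (nat_lit 19302639174464) (nat_lit 76) (nat_lit 2094367911778) (nat_lit 76) (nat_lit 2093439339536) (nat_lit 1) (nat_lit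 4) (nat_lit 2) (nat_lit 5) (nat_lit 2) (nat_lit 4) (nat_lit 269) (nat_lit 183) (nat_lit 148)) (XT.nd (nat_lit 234) (nat_lit 0) (nat_lit 0) (XT.lf (nat_lit 0) (nat_lit 22198722986433) (nat_lit 76) (nat_lit 2408079530880) (nat_lit 76) (nat_lit 2407150042295) (nat_lit 1) (nat_lit 4) (nat_lit 2) (nat_lit 5) (nat_lit 2) (nat_lit 4) (nat_lit 270) (nat_lit 183) (nat_lit 147)) (XT.lf (nat_lit 0) (nat_lit 33763864103654) (nat_lit 76) (nat_lit 3660851006893) (nat_lit 76) (nat_lit 3659919426090) (nat_lit 1) (nat_lit 4) (nat_lit 2) (nat_lit 5) (nat_lit 2) (nat_lit 4) (nat_lit 273) (nat_lit 183) (nat_lit 144)))) (XT.nd (nat_lit 28002) (nat_lit 0) (nat_lit 0) (XT.nd (nat_lit 78) (nat_lit 0) (nat_lit 0) (XT.lf (nat_lit 0) (nat_lit 38829127576469) (nat_lit 76) (nat_lit 4209536887995) (nat_lit 76) (nat_lit 4208604783271) (nat_lit 1) (nat_lit 4) (nat_lit 2) (nat_lit 5) (nat_lit 2) (nat_lit 4) (nat_lit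 274) (nat_lit 183) (nat_lit 143)) (XT.lf (nat_lit 0) (nat_lit 44654179859955) (nat_lit 76) (nat_lit 4840525964327) (nat_lit 76) (nat_lit 4839593404018) (nat_lit 1) (nat_lit 4) (nat_lit 2) (nat_lit 5) (nat_lit 2) (nat_lit 4) (nat_lit 275) (nat_lit 183) (nat_lit 142))) (XT.nd (nat_lit 78) (nat_lit 0) (nat_lit 0) (XT.lf (nat_lit 0) (nat_lit 49610016478) (nat_lit 76) (nat_lit 8767873559) (nat_lit 76) (nat_lit 8767873559) (nat_lit 1) (nat_lit 4) (nat_lit 2) (nat_lit 5) (nat_lit 2) (nat_lit 4) (nat_lit 232) (nat_lit 184) (nat_lit 184)) (XT.lf (nat_lit 0) (nat_lit 116341797533) (nat_lit 76) (nat_lit 19017919140) (nat_lit 76) (nat_lit 18877579509) (nat_lit 1) (nat_lit 4) (nat_lit 2) (nat_lit 5) (nat_lit 2) (nat_lit 4) (nat_lit 233) (nat_lit 184) (nat_lit 183))))))))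
noncomputable def xc8 : XT := (XT.nd (nat_lit 2028) (nat_lit 0) (nat_lit 0) (XT.nd (nat_lit 1014) (nat_lit 0) (nat_lit 0) (XT.nd (nat_lit 468) (nat_lit 0) (nat_lit 0) (XT.nd (nat_lit 234) (nat_lit 0) (nat_lit 0) (XT.nd (nat_lit 78) (nat_lit 0) (nat_lit 0) (XT.lf (nat_lit 0) (nat_lit 135841576472) (nat_lit 76) (nat_lit 20806275417) (nat_lit 76) (nat_lit 20543901325) (nat_lit 1) (nat_lit 4) (nat_lit 2) (nat_lit 5) (nat_lit 2) (nat_lit 4) (nat_lit 234) (nat_lit 184) (nat_lit 182)) (XT.nd (nat_lit 78) (nat_lit 0) (nat_lit 0) (XT.lf (nat_lit 0) (nat_lit 158100887187) (nat_lit 76) (nat_lit 22935805531) (nat_lit 76) (nat_lit 22567314515) (nat_lit 1) (nat_lit 4) (nat_lit 2) (nat_lit 5) (nat_lit 2) (nat_lit 4) (nat_lit 235) (nat_lit 184) (nat_lit 181)) (XT.lf (nat_lit 0) (nat_lit 183555237931) (nat_lit 76) (nat_lit 25448174199) (nat_lit 76) (nat_lit 24987407598) (nat_lit 1) (nat_lit 4) (nat_lit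 2) (nat_lit 5) (nat_lit 2) (nat_lit 4) (nat_lit 236) (nat_lit 184) (nat_lit 180)))) (XT.nd (nat_lit 78) (nat_lit 0) (nat_lit 0) (XT.lf (nat_lit 0) (nat_lit 212702648610) (nat_lit 76) (nat_lit 28392536462) (nat_lit 76) (nat_lit 27851530222) (nat_lit 1) (nat_lit 4) (nat_lit 2) (nat_lit 5) (nat_lit 2) (nat_lit 4) (nat_lit 237) (nat_lit 184) (nat_lit 179)) (XT.nd (nat_lit 78) (nat_lit 0) (nat_lit 0) (XT.lf (nat_lit 0) (nat_lit 246113394650) (nat_lit 76) (nat_lit 31826499407) (nat_lit 76) (nat_lit 31215719567) (nat_lit 1) (nat_lit 4) (nat_lit 2) (nat_lit 5) (nat_lit 2) (nat_lit 4) (nat_lit 238) (nat_lit 184) (nat_lit 178)) (XT.lf (nat_lit 0) (nat_lit 284441164562) (nat_lit 76) (nat_lit 35817249265) (nat_lit 76) (nat_lit 35145796730) (nat_lit 1) (nat_lit 4) (nat_lit 2) (nat_lit 5) (nat_lit 2) (nat_lit 4) (nat_lit 239) (nat_lit 184) (nat_lit 177))))) (XT.nd (nat_lit 234) (nat_lit 0) (nat_lit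 0) (XT.nd (nat_lit 78) (nat_lit 0) (nat_lit 0) (XT.lf (nat_lit 0) (nat_lit 328435849494) (nat_lit 76) (nat_lit 40442865926) (nat_lit 76) (nat_lit 39718654526) (nat_lit 1) (nat_lit 4) (nat_lit 2) (nat_lit 5) (nat_lit 2) (nat_lit 4) (nat_lit 240) (nat_lit 184) (nat_lit 176)) (XT.nd (nat_lit 78) (nat_lit 0) (nat_lit 0) (XT.lf (nat_lit 0) (nat_lit 378958215023) (nat_lit 76) (nat_lit 45793850584) (nat_lit 76) (nat_lit 45023761910) (nat_lit 1) (nat_lit 4) (nat_lit 2) (nat_lit 5) (nat_lit 2) (nat_lit 4) (nat_lit 241) (nat_lit 184) (nat_lit 175)) (XT.lf (nat_lit 0) (nat_lit 436996742212) (nat_lit 76) (nat_lit 51974896419) (nat_lit 76) (nat_lit 51164914462) (nat_lit 1) (nat_lit 4) (nat_lit 2) (nat_lit 5) (nat_lit 2) (nat_lit 4) (nat_lit 242) (nat_lit 184) (nat_lit 174)))) (XT.nd (nat_lit 156) (nat_lit 0) (nat_lit 0) (XT.nd (nat_lit 78) (nat_lit 0) (nat_lit 0) (XT.lf (nat_lit 0) (nat_lit 503686967463)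 (nat_lit 76) (nat_lit 59106936934) (nat_lit 76) (nat_lit 58262265168) (nat_lit 1) (nat_lit 4) (nat_lit 2) (nat_lit 5) (nat_lit 2) (nat_lit 4) (nat_lit 243) (nat_lit 184) (nat_lit 173)) (XT.lf (nat_lit 0) (nat_lit 580333699531) (nat_lit 76) (nat_lit 67329512054) (nat_lit 76) (nat_lit 66454675235) (nat_lit 1) (nat_lit 4) (nat_lit 2) (nat_lit 5) (nat_lit 2) (nat_lit 4) (nat_lit 244) (nat_lit 184) (nat_lit 172))) (XT.nd (nat_lit 78) (nat_lit 0) (nat_lit 0) (XT.lf (nat_lit 0) (nat_lit 668436548392) (nat_lit 76) (nat_lit 76803498249) (nat_lit 76) (nat_lit 75902430949) (nat_lit 1) (nat_lit 4) (nat_lit 2) (nat_lit 5) (nat_lit 2) (nat_lit 4) (nat_lit 245) (nat_lit 184) (nat_lit 171)) (XT.lf (nat_lit 0) (nat_lit 769719265436) (nat_lit 76) (nat_lit 87714256116) (nat_lit 76) (nat_lit 86790379703) (nat_lit 1) (nat_lit 4) (nat_lit 2) (nat_lit 5) (nat_lit 2) (nat_lit 4) (nat_lit 246) (nat_lit 184)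 (nat_lit 170)))))) (XT.nd (nat_lit 468) (nat_lit 0) (nat_lit 0) (XT.nd (nat_lit 234) (nat_lit 0) (nat_lit 0) (XT.nd (nat_lit 78) (nat_lit 0) (nat_lit 0) (XT.lf (nat_lit 0) (nat_lit 886163469040) (nat_lit 76) (nat_lit 100275257008) (nat_lit 76) (nat_lit 99331546583) (nat_lit 1) (nat_lit 4) (nat_lit 2) (nat_lit 5) (nat_lit 2) (nat_lit 4) (nat_lit 247) (nat_lit 184) (nat_lit 169)) (XT.nd (nat_lit 78) (nat_lit 0) (nat_lit 0) (XT.lf (nat_lit 0) (nat_lit 1020047415362) (nat_lit 76) (nat_lit 114732259635) (nat_lit 76) (nat_lit 113771302243) (nat_lit 1) (nat_lit 4) (nat_lit 2) (nat_lit 5) (nat_lit 2) (nat_lit 4) (nat_lit 248) (nat_lit 184) (nat_lit 168)) (XT.lf (nat_lit 0) (nat_lit 1173990572916) (nat_lit 76) (nat_lit 131368118398) (nat_lit 76) (nat_lit 130392163644) (nat_lit 1) (nat_lit 4) (nat_lit 2) (nat_lit 5) (nat_lit 2) (nat_lit 4) (nat_lit 249) (nat_lit 184) (nat_lit 167)))) (XT.nd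 (nat_lit 78) (nat_lit 0) (nat_lit 0) (XT.lf (nat_lit 0) (nat_lit 1351004873046) (nat_lit 76) (nat_lit 150508317489) (nat_lit 76) (nat_lit 149519321551) (nat_lit 1) (nat_lit 4) (nat_lit 2) (nat_lit 5) (nat_lit 2) (nat_lit 4) (nat_lit 250) (nat_lit 184) (nat_lit 166)) (XT.nd (nat_lit 78) (nat_lit 0) (nat_lit 0) (XT.lf (nat_lit 0) (nat_lit 1554553639016) (nat_lit 76) (nat_lit 172527339066) (nat_lit 76) (nat_lit 171527002967) (nat_lit 1) (nat_lit 4) (nat_lit 2) (nat_lit 5) (nat_lit 2) (nat_lit 4) (nat_lit 251) (nat_lit 184) (nat_lit 165)) (XT.lf (nat_lit 0) (nat_lit 1788619346680) (nat_lit 76) (nat_lit 197855990071) (nat_lit 76) (nat_lit 196845792963) (nat_lit 1) (nat_lit 4) (nat_lit 2) (nat_lit 5) (nat_lit 2) (nat_lit 4) (nat_lit 252) (nat_lit 184) (nat_lit 164))))) (XT.nd (nat_lit 234) (nat_lit 0) (nat_lit 0) (XT.nd (nat_lit 78) (nat_lit 0) (nat_lit 0) (XT.lf (nat_lit 0) (nat_lit 2057781542495)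 (nat_lit 76) (nat_lit 226989831068) (nat_lit 76) (nat_lit 225971059169) (nat_lit 1) (nat_lit 4) (nat_lit 2) (nat_lit 5) (nat_lit 2) (nat_lit 4) (nat_lit 253) (nat_lit 184) (nat_lit 163)) (XT.nd (nat_lit 78) (nat_lit 0) (nat_lit 0) (XT.lf (nat_lit 0) (nat_lit 2367306443333) (nat_lit 76) (nat_lit 260498871990) (nat_lit 76) (nat_lit 259472643751) (nat_lit 1) (nat_lit 4) (nat_lit 2) (nat_lit 5) (nat_lit 2) (nat_lit 4) (nat_lit 254) (nat_lit 184) (nat_lit 162)) (XT.lf (nat_lit 0) (nat_lit 2723249971169) (nat_lit 76) (nat_lit 299038724506) (nat_lit 76) (nat_lit 298006012494) (nat_lit 1) (nat_lit 4) (nat_lit 2) (nat_lit 5) (nat_lit 2) (nat_lit 4) (nat_lit 255) (nat_lit 184) (nat_lit 161)))) (XT.nd (nat_lit 156) (nat_lit 0) (nat_lit 0) (XT.nd (nat_lit 78) (nat_lit 0) (nat_lit 0) (XT.lf (nat_lit 0) (nat_lit 3132576238504) (nat_lit 76) (nat_lit 343363429209) (nat_lit 76) (nat_lit 342325079133)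 (nat_lit 1) (nat_lit 4) (nat_lit 2) (nat_lit 5) (nat_lit 2) (nat_lit 4) (nat_lit 256) (nat_lit 184) (nat_lit 160)) (XT.lf (nat_lit 0) (nat_lit 3603293802741) (nat_lit 76) (nat_lit 394340208584) (nat_lit 76) (nat_lit 393296955843) (nat_lit 1) (nat_lit 4) (nat_lit 2) (nat_lit 5) (nat_lit 2) (nat_lit 4) (nat_lit 257) (nat_lit 184) (nat_lit 159))) (XT.nd (nat_lit 78) (nat_lit 0) (nat_lit 0) (XT.lf (nat_lit 0) (nat_lit 4144612355354) (nat_lit 76) (nat_lit 452966434399) (nat_lit 76) (nat_lit 451918918472) (nat_lit 1) (nat_lit 4) (nat_lit 2) (nat_lit 5) (nat_lit 2) (nat_lit 4) (nat_lit 258) (nat_lit 184) (nat_lit 158)) (XT.lf (nat_lit 0) (nat_lit 4767122911505) (nat_lit 76) (nat_lit 520389141508) (nat_lit 76) (nat_lit 519337918463) (nat_lit 1) (nat_lit 4) (nat_lit 2) (nat_lit 5) (nat_lit 2) (nat_lit 4) (nat_lit 259) (nat_lit 184) (nat_lit 157))))))) (XT.nd (nat_lit 1170) (nat_lit 0) (nat_lit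 0) (XT.nd (nat_lit 468) (nat_lit 0) (nat_lit 0) (XT.nd (nat_lit 234) (nat_lit 0) (nat_lit 0) (XT.nd (nat_lit 78) (nat_lit 0) (nat_lit 0) (XT.lf (nat_lit 0) (nat_lit 5483005025552) (nat_lit 76) (nat_lit 597927469833) (nat_lit 76) (nat_lit 596873023206) (nat_lit 1) (nat_lit 4) (nat_lit 2) (nat_lit 5) (nat_lit 2) (nat_lit 4) (nat_lit 260) (nat_lit 184) (nat_lit 156)) (XT.nd (nat_lit 78) (nat_lit 0) (nat_lit 0) (XT.lf (nat_lit 0) (nat_lit 6306265086683) (nat_lit 76) (nat_lit 687098473623) (nat_lit 76) (nat_lit 686041223882) (nat_lit 1) (nat_lit 4) (nat_lit 2) (nat_lit 5) (nat_lit 2) (nat_lit 4) (nat_lit 261) (nat_lit 184) (nat_lit 155)) (XT.lf (nat_lit 0) (nat_lit 7253010356963) (nat_lit 76) (nat_lit 789646802953) (nat_lit 76) (nat_lit 788587115722) (nat_lit 1) (nat_lit 4) (nat_lit 2) (nat_lit 5) (nat_lit 2) (nat_lit 4) (nat_lit 262) (nat_lit 184) (nat_lit 154)))) (XT.nd (nat_lit 78)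 (nat_lit 0) (nat_lit 0) (XT.lf (nat_lit 0) (nat_lit 8341764113421) (nat_lit 76) (nat_lit 907578838179) (nat_lit 76) (nat_lit 906517031391) (nat_lit 1) (nat_lit 4) (nat_lit 2) (nat_lit 5) (nat_lit 2) (nat_lit 4) (nat_lit 263) (nat_lit 184) (nat_lit 153)) (XT.nd (nat_lit 78) (nat_lit 0) (nat_lit 0) (XT.lf (nat_lit 0) (nat_lit 9593828059986) (nat_lit 76) (nat_lit 1043201945208) (nat_lit 76) (nat_lit 1042138295326) (nat_lit 1) (nat_lit 4) (nat_lit 2) (nat_lit 5) (nat_lit 2) (nat_lit 4) (nat_lit 264) (nat_lit 184) (nat_lit 152)) (XT.lf (nat_lit 0) (nat_lit 11033699099961) (nat_lit 76) (nat_lit 1199169619612) (nat_lit 76) (nat_lit 1198104367040) (nat_lit 1) (nat_lit 4) (nat_lit 2) (nat_lit 5) (nat_lit 2) (nat_lit 4) (nat_lit 265) (nat_lit 184) (nat_lit 151))))) (XT.nd (nat_lit 234) (nat_lit 0) (nat_lit 0) (XT.nd (nat_lit 78) (nat_lit 0) (nat_lit 0) (XT.lf (nat_lit 0) (nat_lit 12689548623258)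 (nat_lit 76) (nat_lit 1378533402846) (nat_lit 76) (nat_lit 1377466756632) (nat_lit 1) (nat_lit 4) (nat_lit 2) (nat_lit 5) (nat_lit 2) (nat_lit 4) (nat_lit 266) (nat_lit 184) (nat_lit 150)) (XT.nd (nat_lit 78) (nat_lit 0) (nat_lit 0) (XT.lf (nat_lit 0) (nat_lit 14593773685769) (nat_lit 76) (nat_lit 1584802586323) (nat_lit 76) (nat_lit 1583734728244) (nat_lit 1) (nat_lit 4) (nat_lit 2) (nat_lit 5) (nat_lit 2) (nat_lit 4) (nat_lit 267) (nat_lit 184) (nat_lit 149)) (XT.lf (nat_lit 0) (nat_lit 16783630864803) (nat_lit 76) (nat_lit 1822012871457) (nat_lit 76) (nat_lit 1820943959584) (nat_lit 1) (nat_lit 4) (nat_lit 2) (nat_lit 5) (nat_lit 2) (nat_lit 4) (nat_lit 268) (nat_lit 184) (nat_lit 148)))) (XT.nd (nat_lit 312) (nat_lit 0) (nat_lit 0) (XT.nd (nat_lit 234) (nat_lit 0) (nat_lit 0) (XT.lf (nat_lit 0) (nat_lit 19301965192123) (nat_lit 76) (nat_lit 2094805329044) (nat_lit 76) (nat_lit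 2093735500829) (nat_lit 1) (nat_lit 4) (nat_lit 2) (nat_lit 5) (nat_lit 2) (nat_lit 4) (nat_lit 269) (nat_lit 184) (nat_lit 147)) (XT.lf (nat_lit 0) (nat_lit 29358610961089) (nat_lit 76) (nat_lit 3184171248445) (nat_lit 76) (nat_lit 3183099328011) (nat_lit 1) (nat_lit 4) (nat_lit 2) (nat_lit 5) (nat_lit 2) (nat_lit 4) (nat_lit 272) (nat_lit 184) (nat_lit 144))) (XT.nd (nat_lit 78) (nat_lit 0) (nat_lit 0) (XT.lf (nat_lit 0) (nat_lit 33763188224321) (nat_lit 76) (nat_lit 3661289260314) (nat_lit 76) (nat_lit 3660216815959) (nat_lit 1) (nat_lit 4) (nat_lit 2) (nat_lit 5) (nat_lit 2) (nat_lit 4) (nat_lit 273) (nat_lit 184) (nat_lit 143)) (XT.lf (nat_lit 0) (nat_lit 38828451366787) (nat_lit 76) (nat_lit 4209975287028) (nat_lit 76) (nat_lit 4208902387088) (nat_lit 1) (nat_lit 4) (nat_lit 2) (nat_lit 5) (nat_lit 2) (nat_lit 4) (nat_lit 274) (nat_lit 184) (nat_lit 142)))))) (XT.nd (nat_lit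 28236) (nat_lit 0) (nat_lit 0) (XT.nd (nat_lit 27924) (nat_lit 0) (nat_lit 0) (XT.nd (nat_lit 27768) (nat_lit 0) (nat_lit 0) (XT.lf (nat_lit 0) (nat_lit 44653503363013) (nat_lit 76) (nat_lit 4840964489978) (nat_lit 76) (nat_lit 4839891193878) (nat_lit 1) (nat_lit 4) (nat_lit 2) (nat_lit 5) (nat_lit 2) (nat_lit 4) (nat_lit 275) (nat_lit 184) (nat_lit 141)) (XT.nd (nat_lit 78) (nat_lit 0) (nat_lit 0) (XT.lf (nat_lit 0) (nat_lit 35463790485) (nat_lit 76) (nat_lit 7744595419) (nat_lit 76) (nat_lit 7744595419) (nat_lit 1) (nat_lit 4) (nat_lit 2) (nat_lit 5) (nat_lit 2) (nat_lit 4) (nat_lit 230) (nat_lit 185) (nat_lit 185)) (XT.lf (nat_lit 0) (nat_lit 84141291694) (nat_lit 76) (nat_lit 16492150911) (nat_lit 76) (nat_lit 16330760336) (nat_lit 1) (nat_lit 4) (nat_lit 2) (nat_lit 5) (nat_lit 2) (nat_lit 4) (nat_lit 231) (nat_lit 185) (nat_lit 184)))) (XT.nd (nat_lit 156) (nat_lit 0) (nat_lit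 0) (XT.nd (nat_lit 78) (nat_lit 0) (nat_lit 0) (XT.lf (nat_lit 0) (nat_lit 99118271154) (nat_lit 76) (nat_lit 17741992215) (nat_lit 76) (nat_lit 17440262009) (nat_lit 1) (nat_lit 4) (nat_lit 2) (nat_lit 5) (nat_lit 2) (nat_lit 4) (nat_lit 232) (nat_lit 185) (nat_lit 183)) (XT.lf (nat_lit 0) (nat_lit 116151547208) (nat_lit 76) (nat_lit 19263168168) (nat_lit 76) (nat_lit 18839403501) (nat_lit 1) (nat_lit 4) (nat_lit 2) (nat_lit 5) (nat_lit 2) (nat_lit 4) (nat_lit 233) (nat_lit 185) (nat_lit 182))) (XT.nd (nat_lit 78) (nat_lit 0) (nat_lit 0) (XT.lf (nat_lit 0) (nat_lit 135574379605) (nat_lit 76) (nat_lit 21085440908) (nat_lit 76) (nat_lit 20555559317) (nat_lit 1) (nat_lit 4) (nat_lit 2) (nat_lit 5) (nat_lit 2) (nat_lit 4) (nat_lit 234) (nat_lit 185) (nat_lit 181)) (XT.lf (nat_lit 0) (nat_lit 157766780284) (nat_lit 76) (nat_lit 23244463597) (nat_lit 76) (nat_lit 22622306421) (nat_lit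 1) (nat_lit 4) (nat_lit 2) (nat_lit 5) (nat_lit 2) (nat_lit 4) (nat_lit 235) (nat_lit 185) (nat_lit 180))))) (XT.nd (nat_lit 234) (nat_lit 0) (nat_lit 0) (XT.nd (nat_lit 78) (nat_lit 0) (nat_lit 0) (XT.lf (nat_lit 0) (nat_lit 183162948388) (nat_lit 76) (nat_lit 25782477984) (nat_lit 76) (nat_lit 25080081168) (nat_lit 1) (nat_lit 4) (nat_lit 2) (nat_lit 5) (nat_lit 2) (nat_lit 4) (nat_lit 236) (nat_lit 185) (nat_lit 179)) (XT.nd (nat_lit 78) (nat_lit 0) (nat_lit 0) (XT.lf (nat_lit 0) (nat_lit 212259765467) (nat_lit 76) (nat_lit 28749140871) (nat_lit 76) (nat_lit 27976970456) (nat_lit 1) (nat_lit 4) (nat_lit 2) (nat_lit 5) (nat_lit 2) (nat_lit 4) (nat_lit 237) (nat_lit 185) (nat_lit 178)) (XT.lf (nat_lit 0) (nat_lit 245626517072) (nat_lit 76) (nat_lit 32202495663) (nat_lit 76) (nat_lit 31369652553) (nat_lit 1) (nat_lit 4) (nat_lit 2) (nat_lit 5) (nat_lit 2) (nat_lit 4) (nat_lit 238)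 (nat_lit 185) (nat_lit 177)))) (XT.nd (nat_lit 156) (nat_lit 0) (nat_lit 0) (XT.nd (nat_lit 78) (nat_lit 0) (nat_lit 0) (XT.lf (nat_lit 0) (nat_lit 283916030953) (nat_lit 76) (nat_lit 36210107998) (nat_lit 76) (nat_lit 35324506022) (nat_lit 1) (nat_lit 4) (nat_lit 2) (nat_lit 5) (nat_lit 2) (nat_lit 4) (nat_lit 239) (nat_lit 185) (nat_lit 176)) (XT.lf (nat_lit 0) (nat_lit 327877449772) (nat_lit 76) (nat_lit 40850387681) (nat_lit 76) (nat_lit 39918908432) (nat_lit 1) (nat_lit 4) (nat_lit 2) (nat_lit 5) (nat_lit 2) (nat_lit 4) (nat_lit 240) (nat_lit 185) (nat_lit 175))) (XT.nd (nat_lit 78) (nat_lit 0) (nat_lit 0) (XT.lf (nat_lit 0) (nat_lit 378370888245) (nat_lit 76) (nat_lit 46214122794) (nat_lit 76) (nat_lit 45242750263) (nat_lit 1) (nat_lit 4) (nat_lit 2) (nat_lit 5) (nat_lit 2) (nat_lit 4) (nat_lit 241) (nat_lit 185) (nat_lit 174)) (XT.lf (nat_lit 0) (nat_lit 436384261473) (nat_lit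 76) (nat_lit 52406255980) (nat_lit 76) (nat_lit 51400193638) (nat_lit 1) (nat_lit 4) (nat_lit 2) (nat_lit 5) (nat_lit 2) (nat_lit 4) (nat_lit 242) (nat_lit 185) (nat_lit 173))))))))
noncomputable def xc9 : XT := (XT.nd (nat_lit 2340) (nat_lit 0) (nat_lit 0) (XT.nd (nat_lit 1014) (nat_lit 0) (nat_lit 0) (XT.nd (nat_lit 468) (nat_lit 0) (nat_lit 0) (XT.nd (nat_lit 234) (nat_lit 0) (nat_lit 0) (XT.nd (nat_lit 78) (nat_lit 0) (nat_lit 0) (XT.lf (nat_lit 0) (nat_lit 503052613715) (nat_lit 76) (nat_lit 59547937671) (nat_lit 76) (nat_lit 58511710277) (nat_lit 1) (nat_lit 4) (nat_lit 2) (nat_lit 5) (nat_lit 2) (nat_lit 4) (nat_lit 243) (nat_lit 185) (nat_lit 172)) (XT.nd (nat_lit 78) (nat_lit 0) (nat_lit 0) (XT.lf (nat_lit 0) (nat_lit 579680325775) (nat_lit 76) (nat_lit 67778896422) (nat_lit 76) (nat_lit 66716438547) (nat_lit 1) (nat_lit 4) (nat_lit 2) (nat_lit 5) (nat_lit 2) (nat_lit 4)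 (nat_lit 244) (nat_lit 185) (nat_lit 171)) (XT.lf (nat_lit 0) (nat_lit 667766635498) (nat_lit 76) (nat_lit 77260172730) (nat_lit 76) (nat_lit 76174905742) (nat_lit 1) (nat_lit 4) (nat_lit 2) (nat_lit 5) (nat_lit 2) (nat_lit 4) (nat_lit 245) (nat_lit 185) (nat_lit 170)))) (XT.nd (nat_lit 78) (nat_lit 0) (nat_lit 0) (XT.lf (nat_lit 0) (nat_lit 769034970683) (nat_lit 76) (nat_lit 88177269827) (nat_lit 76) (nat_lit 87072168827) (nat_lit 1) (nat_lit 4) (nat_lit 2) (nat_lit 5) (nat_lit 2) (nat_lit 4) (nat_lit 246) (nat_lit 185) (nat_lit 169)) (XT.nd (nat_lit 78) (nat_lit 0) (nat_lit 0) (XT.lf (nat_lit 0) (nat_lit 885466668323) (nat_lit 76) (nat_lit 100743783092) (nat_lit 76) (nat_lit 99621435125) (nat_lit 1) (nat_lit 4) (nat_lit 2) (nat_lit 5) (nat_lit 2) (nat_lit 4) (nat_lit 247) (nat_lit 185) (nat_lit 168)) (XT.lf (nat_lit 0) (nat_lit 1019339739893) (nat_lit 76) (nat_lit 115205579087)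 (nat_lit 76) (nat_lit 114068233758) (nat_lit 1) (nat_lit 4) (nat_lit 2) (nat_lit 5) (nat_lit 2) (nat_lit 4) (nat_lit 248) (nat_lit 185) (nat_lit 167))))) (XT.nd (nat_lit 234) (nat_lit 0) (nat_lit 0) (XT.nd (nat_lit 78) (nat_lit 0) (nat_lit 0) (XT.lf (nat_lit 0) (nat_lit 1173273441142) (nat_lit 76) (nat_lit 131845605996) (nat_lit 76) (nat_lit 130695219482) (nat_lit 1) (nat_lit 4) (nat_lit 2) (nat_lit 5) (nat_lit 2) (nat_lit 4) (nat_lit 249) (nat_lit 185) (nat_lit 166)) (XT.nd (nat_lit 78) (nat_lit 0) (nat_lit 0) (XT.lf (nat_lit 0) (nat_lit 1350279518397) (nat_lit 76) (nat_lit 150989429563) (nat_lit 76) (nat_lit 149827702888) (nat_lit 1) (nat_lit 4) (nat_lit 2) (nat_lit 5) (nat_lit 2) (nat_lit 4) (nat_lit 250) (nat_lit 185) (nat_lit 165)) (XT.lf (nat_lit 0) (nat_lit 1553821134041) (nat_lit 76) (nat_lit 173011602857) (nat_lit 76) (nat_lit 171840015173) (nat_lit 1) (nat_lit 4) (nat_lit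 2) (nat_lit 5) (nat_lit 2) (nat_lit 4) (nat_lit 251) (nat_lit 185) (nat_lit 164)))) (XT.nd (nat_lit 156) (nat_lit 0) (nat_lit 0) (XT.nd (nat_lit 78) (nat_lit 0) (nat_lit 0) (XT.lf (nat_lit 0) (nat_lit 1787880624032) (nat_lit 76) (nat_lit 198342994486) (nat_lit 76) (nat_lit 197162832011) (nat_lit 1) (nat_lit 4) (nat_lit 2) (nat_lit 5) (nat_lit 2) (nat_lit 4) (nat_lit 252) (nat_lit 185) (nat_lit 163)) (XT.lf (nat_lit 0) (nat_lit 2057037413173) (nat_lit 76) (nat_lit 227479218634) (nat_lit 76) (nat_lit 226291599820) (nat_lit 1) (nat_lit 4) (nat_lit 2) (nat_lit 5) (nat_lit 2) (nat_lit 4) (nat_lit 253) (nat_lit 185) (nat_lit 162))) (XT.nd (nat_lit 78) (nat_lit 0) (nat_lit 0) (XT.lf (nat_lit 0) (nat_lit 2366557612556) (nat_lit 76) (nat_lit 260990331861) (nat_lit 76) (nat_lit 259796229273) (nat_lit 1) (nat_lit 4) (nat_lit 2) (nat_lit 5) (nat_lit 2) (nat_lit 4) (nat_lit 254) (nat_lit 185)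 (nat_lit 161)) (XT.lf (nat_lit 0) (nat_lit 2722497052170) (nat_lit 76) (nat_lit 299531986381) (nat_lit 76) (nat_lit 298332245730) (nat_lit 1) (nat_lit 4) (nat_lit 2) (nat_lit 5) (nat_lit 2) (nat_lit 4) (nat_lit 255) (nat_lit 185) (nat_lit 160)))))) (XT.nd (nat_lit 546) (nat_lit 0) (nat_lit 0) (XT.nd (nat_lit 234) (nat_lit 0) (nat_lit 0) (XT.nd (nat_lit 78) (nat_lit 0) (nat_lit 0) (XT.lf (nat_lit 0) (nat_lit 3131819764529) (nat_lit 76) (nat_lit 343858258045) (nat_lit 76) (nat_lit 342653614730) (nat_lit 1) (nat_lit 4) (nat_lit 2) (nat_lit 5) (nat_lit 2) (nat_lit 4) (nat_lit 256) (nat_lit 185) (nat_lit 159)) (XT.nd (nat_lit 78) (nat_lit 0) (nat_lit 0) (XT.lf (nat_lit 0) (nat_lit 3602534237483) (nat_lit 76) (nat_lit 394836399994) (nat_lit 76) (nat_lit 393627493492) (nat_lit 1) (nat_lit 4) (nat_lit 2) (nat_lit 5) (nat_lit 2) (nat_lit 4) (nat_lit 257) (nat_lit 185) (nat_lit 158)) (XT.lf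 (nat_lit 0) (nat_lit 4143850102024) (nat_lit 76) (nat_lit 453463810657) (nat_lit 76) (nat_lit 452251197036) (nat_lit 1) (nat_lit 4) (nat_lit 2) (nat_lit 5) (nat_lit 2) (nat_lit 4) (nat_lit 258) (nat_lit 185) (nat_lit 157)))) (XT.nd (nat_lit 156) (nat_lit 0) (nat_lit 0) (XT.nd (nat_lit 78) (nat_lit 0) (nat_lit 0) (XT.lf (nat_lit 0) (nat_lit 4766358320721) (nat_lit 76) (nat_lit 520887548068) (nat_lit 76) (nat_lit 519671710866) (nat_lit 1) (nat_lit 4) (nat_lit 2) (nat_lit 5) (nat_lit 2) (nat_lit 4) (nat_lit 259) (nat_lit 185) (nat_lit 156)) (XT.lf (nat_lit 0) (nat_lit 5482238402199) (nat_lit 76) (nat_lit 598426772307) (nat_lit 76) (nat_lit 597208131991) (nat_lit 1) (nat_lit 4) (nat_lit 2) (nat_lit 5) (nat_lit 2) (nat_lit 4) (nat_lit 260) (nat_lit 185) (nat_lit 155))) (XT.nd (nat_lit 78) (nat_lit 0) (nat_lit 0) (XT.lf (nat_lit 0) (nat_lit 6305496695878) (nat_lit 76) (nat_lit 687598555154)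 (nat_lit 76) (nat_lit 686377477347) (nat_lit 1) (nat_lit 4) (nat_lit 2) (nat_lit 5) (nat_lit 2) (nat_lit 4) (nat_lit 261) (nat_lit 185) (nat_lit 154)) (XT.lf (nat_lit 0) (nat_lit 7252240429245) (nat_lit 76) (nat_lit 790147561924) (nat_lit 76) (nat_lit 788924364560) (nat_lit 1) (nat_lit 4) (nat_lit 2) (nat_lit 5) (nat_lit 2) (nat_lit 4) (nat_lit 262) (nat_lit 185) (nat_lit 153))))) (XT.nd (nat_lit 234) (nat_lit 0) (nat_lit 0) (XT.nd (nat_lit 78) (nat_lit 0) (nat_lit 0) (XT.lf (nat_lit 0) (nat_lit 8340992849255) (nat_lit 76) (nat_lit 908080186229) (nat_lit 76) (nat_lit 906855145772) (nat_lit 1) (nat_lit 4) (nat_lit 2) (nat_lit 5) (nat_lit 2) (nat_lit 4) (nat_lit 263) (nat_lit 185) (nat_lit 152)) (XT.nd (nat_lit 78) (nat_lit 0) (nat_lit 0) (XT.lf (nat_lit 0) (nat_lit 9593055633693) (nat_lit 76) (nat_lit 1043703805500) (nat_lit 76) (nat_lit 1042477162353) (nat_lit 1) (nat_lit 4) (nat_lit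 2) (nat_lit 5) (nat_lit 2) (nat_lit 4) (nat_lit 264) (nat_lit 185) (nat_lit 151)) (XT.lf (nat_lit 0) (nat_lit 11032925663122) (nat_lit 76) (nat_lit 1199671925332) (nat_lit 76) (nat_lit 1198443888541) (nat_lit 1) (nat_lit 4) (nat_lit 2) (nat_lit 5) (nat_lit 2) (nat_lit 4) (nat_lit 265) (nat_lit 185) (nat_lit 150)))) (XT.nd (nat_lit 390) (nat_lit 0) (nat_lit 0) (XT.nd (nat_lit 78) (nat_lit 0) (nat_lit 0) (XT.lf (nat_lit 0) (nat_lit 12688774307684) (nat_lit 76) (nat_lit 1379036095895) (nat_lit 76) (nat_lit 1377806847241) (nat_lit 1) (nat_lit 4) (nat_lit 2) (nat_lit 5) (nat_lit 2) (nat_lit 4) (nat_lit 266) (nat_lit 185) (nat_lit 149)) (XT.lf (nat_lit 0) (nat_lit 14592998606076) (nat_lit 76) (nat_lit 1585305616179) (nat_lit 76) (nat_lit 1584075313730) (nat_lit 1) (nat_lit 4) (nat_lit 2) (nat_lit 5) (nat_lit 2) (nat_lit 4) (nat_lit 267) (nat_lit 185) (nat_lit 148))) (XT.nd (nat_lit 78)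 (nat_lit 0) (nat_lit 0) (XT.lf (nat_lit 0) (nat_lit 25527765804186) (nat_lit 76) (nat_lit 2769790325230) (nat_lit 76) (nat_lit 2768557014222) (nat_lit 1) (nat_lit 4) (nat_lit 2) (nat_lit 5) (nat_lit 2) (nat_lit 4) (nat_lit 271) (nat_lit 185) (nat_lit 144)) (XT.lf (nat_lit 0) (nat_lit 29357833319955) (nat_lit 76) (nat_lit 3184675407332) (nat_lit 76) (nat_lit 3183441572401) (nat_lit 1) (nat_lit 4) (nat_lit 2) (nat_lit 5) (nat_lit 2) (nat_lit 4) (nat_lit 272) (nat_lit 185) (nat_lit 143))))))) (XT.nd (nat_lit 28548) (nat_lit 0) (nat_lit 0) (XT.nd (nat_lit 28002) (nat_lit 0) (nat_lit 0) (XT.nd (nat_lit 27768) (nat_lit 0) (nat_lit 0) (XT.nd (nat_lit 78) (nat_lit 0) (nat_lit 0) (XT.lf (nat_lit 0) (nat_lit 33762410252838) (nat_lit 76) (nat_lit 3661793564812) (nat_lit 76) (nat_lit 3660559274297) (nat_lit 1) (nat_lit 4) (nat_lit 2) (nat_lit 5) (nat_lit 2) (nat_lit 4) (nat_lit 273) (nat_lit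 185) (nat_lit 142)) (XT.nd (nat_lit 78) (nat_lit 0) (nat_lit 0) (XT.lf (nat_lit 0) (nat_lit 38827673108043) (nat_lit 76) (nat_lit 4210479718144) (nat_lit 76) (nat_lit 4209245031469) (nat_lit 1) (nat_lit 4) (nat_lit 2) (nat_lit 5) (nat_lit 2) (nat_lit 4) (nat_lit 274) (nat_lit 185) (nat_lit 141)) (XT.lf (nat_lit 0) (nat_lit 44652724854478) (nat_lit 76) (nat_lit 4841469031198) (nat_lit 76) (nat_lit 4840234000035) (nat_lit 1) (nat_lit 4) (nat_lit 2) (nat_lit 5) (nat_lit 2) (nat_lit 4) (nat_lit 275) (nat_lit 185) (nat_lit 140)))) (XT.nd (nat_lit 78) (nat_lit 0) (nat_lit 0) (XT.lf (nat_lit 0) (nat_lit 24459934888) (nat_lit 76) (nat_lit 7138073637) (nat_lit 76) (nat_lit 7138073637) (nat_lit 1) (nat_lit 4) (nat_lit 2) (nat_lit 5) (nat_lit 2) (nat_lit 4) (nat_lit 228) (nat_lit 186) (nat_lit 186)) (XT.nd (nat_lit 78) (nat_lit 0) (nat_lit 0) (XT.lf (nat_lit 0) (nat_lit 59218609858) (nat_lit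 76) (nat_lit 14899088028) (nat_lit 76) (nat_lit 14713488867) (nat_lit 1) (nat_lit 4) (nat_lit 2) (nat_lit 5) (nat_lit 2) (nat_lit 4) (nat_lit 229) (nat_lit 186) (nat_lit 185)) (XT.lf (nat_lit 0) (nat_lit 70810554898) (nat_lit 76) (nat_lit 15726372700) (nat_lit 76) (nat_lit 15379382963) (nat_lit 1) (nat_lit 4) (nat_lit 2) (nat_lit 5) (nat_lit 2) (nat_lit 4) (nat_lit 230) (nat_lit 186) (nat_lit 184))))) (XT.nd (nat_lit 234) (nat_lit 0) (nat_lit 0) (XT.nd (nat_lit 78) (nat_lit 0) (nat_lit 0) (XT.lf (nat_lit 0) (nat_lit 83922503821) (nat_lit 76) (nat_lit 16774187294) (nat_lit 76) (nat_lit 16286857926) (nat_lit 1) (nat_lit 4) (nat_lit 2) (nat_lit 5) (nat_lit 2) (nat_lit 4) (nat_lit 231) (nat_lit 186) (nat_lit 183)) (XT.nd (nat_lit 78) (nat_lit 0) (nat_lit 0) (XT.lf (nat_lit 0) (nat_lit 98810994758) (nat_lit 76) (nat_lit 18063032530) (nat_lit 76) (nat_lit 17453668700) (nat_lit 1) (nat_lit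 4) (nat_lit 2) (nat_lit 5) (nat_lit 2) (nat_lit 4) (nat_lit 232) (nat_lit 186) (nat_lit 182)) (XT.lf (nat_lit 0) (nat_lit 115767324270) (nat_lit 76) (nat_lit 19618124945) (nat_lit 76) (nat_lit 18902644193) (nat_lit 1) (nat_lit 4) (nat_lit 2) (nat_lit 5) (nat_lit 2) (nat_lit 4) (nat_lit 233) (nat_lit 186) (nat_lit 181)))) (XT.nd (nat_lit 156) (nat_lit 0) (nat_lit 0) (XT.nd (nat_lit 78) (nat_lit 0) (nat_lit 0) (XT.lf (nat_lit 0) (nat_lit 135123246631) (nat_lit 76) (nat_lit 21469890261) (nat_lit 76) (nat_lit 20662133923) (nat_lit 1) (nat_lit 4) (nat_lit 2) (nat_lit 5) (nat_lit 2) (nat_lit 4) (nat_lit 234) (nat_lit 186) (nat_lit 180)) (XT.lf (nat_lit 0) (nat_lit 157257464669) (nat_lit 76) (nat_lit 23654558668) (nat_lit 76) (nat_lit 22766562691) (nat_lit 1) (nat_lit 4) (nat_lit 2) (nat_lit 5) (nat_lit 2) (nat_lit 4) (nat_lit 235) (nat_lit 186) (nat_lit 179))) (XT.nd (nat_lit 78) (nat_lit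 0) (nat_lit 0) (XT.lf (nat_lit 0) (nat_lit 182603039173) (nat_lit 76) (nat_lit 26214873679) (nat_lit 76) (nat_lit 25257104103) (nat_lit 1) (nat_lit 4) (nat_lit 2) (nat_lit 5) (nat_lit 2) (nat_lit 4) (nat_lit 236) (nat_lit 186) (nat_lit 178)) (XT.lf (nat_lit 0) (nat_lit 211655861817) (nat_lit 76) (nat_lit 29200928414) (nat_lit 76) (nat_lit 28182486142) (nat_lit 1) (nat_lit 4) (nat_lit 2) (nat_lit 5) (nat_lit 2) (nat_lit 4) (nat_lit 237) (nat_lit 186) (nat_lit 177)))))) (XT.nd (nat_lit 546) (nat_lit 0) (nat_lit 0) (XT.nd (nat_lit 234) (nat_lit 0) (nat_lit 0) (XT.nd (nat_lit 78) (nat_lit 0) (nat_lit 0) (XT.lf (nat_lit 0) (nat_lit 244984357392) (nat_lit 76) (nat_lit 32671145682) (nat_lit 76) (nat_lit 31599944545) (nat_lit 1) (nat_lit 4) (nat_lit 2) (nat_lit 5) (nat_lit 2) (nat_lit 4) (nat_lit 238) (nat_lit 186) (nat_lit 176)) (XT.nd (nat_lit 78) (nat_lit 0) (nat_lit 0) (XT.lf (nat_lit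 0) (nat_lit 283240605159) (nat_lit 76) (nat_lit 36693421039) (nat_lit 76) (nat_lit 35576342628) (nat_lit 1) (nat_lit 4) (nat_lit 2) (nat_lit 5) (nat_lit 2) (nat_lit 4) (nat_lit 239) (nat_lit 186) (nat_lit 175)) (XT.lf (nat_lit 0) (nat_lit 327173096923) (nat_lit 76) (nat_lit 41346451177) (nat_lit 76) (nat_lit 40189479484) (nat_lit 1) (nat_lit 4) (nat_lit 2) (nat_lit 5) (nat_lit 2) (nat_lit 4) (nat_lit 240) (nat_lit 186) (nat_lit 174)))) (XT.nd (nat_lit 156) (nat_lit 0) (nat_lit 0) (XT.nd (nat_lit 78) (nat_lit 0) (nat_lit 0) (XT.lf (nat_lit 0) (nat_lit 377641381435) (nat_lit 76) (nat_lit 46721273642) (nat_lit 76) (nat_lit 45529612138) (nat_lit 1) (nat_lit 4) (nat_lit 2) (nat_lit 5) (nat_lit 2) (nat_lit 4) (nat_lit 241) (nat_lit 186) (nat_lit 173)) (XT.lf (nat_lit 0) (nat_lit 435632881654) (nat_lit 76) (nat_lit 52923048003) (nat_lit 76) (nat_lit 51701221447) (nat_lit 1) (nat_lit 4)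 (nat_lit 2) (nat_lit 5) (nat_lit 2) (nat_lit 4) (nat_lit 242) (nat_lit 186) (nat_lit 172))) (XT.nd (nat_lit 78) (nat_lit 0) (nat_lit 0) (XT.lf (nat_lit 0) (nat_lit 502282213887) (nat_lit 76) (nat_lit 60073113325) (nat_lit 76) (nat_lit 58825056288) (nat_lit 1) (nat_lit 4) (nat_lit 2) (nat_lit 5) (nat_lit 2) (nat_lit 4) (nat_lit 243) (nat_lit 186) (nat_lit 171)) (XT.lf (nat_lit 0) (nat_lit 578893386809) (nat_lit 76) (nat_lit 68311362190) (nat_lit 76) (nat_lit 67040496039) (nat_lit 1) (nat_lit 4) (nat_lit 2) (nat_lit 5) (nat_lit 2) (nat_lit 4) (nat_lit 244) (nat_lit 186) (nat_lit 170))))) (XT.nd (nat_lit 234) (nat_lit 0) (nat_lit 0) (XT.nd (nat_lit 78) (nat_lit 0) (nat_lit 0) (XT.lf (nat_lit 0) (nat_lit 666965314674) (nat_lit 76) (nat_lit 77798977727) (nat_lit 76) (nat_lit 76508277565) (nat_lit 1) (nat_lit 4) (nat_lit 2) (nat_lit 5) (nat_lit 2) (nat_lit 4) (nat_lit 245) (nat_lit 186)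 (nat_lit 169)) (XT.nd (nat_lit 78) (nat_lit 0) (nat_lit 0) (XT.lf (nat_lit 0) (nat_lit 768221143895) (nat_lit 76) (nat_lit 88721587197) (nat_lit 76) (nat_lit 87413640069) (nat_lit 1) (nat_lit 4) (nat_lit 2) (nat_lit 5) (nat_lit 2) (nat_lit 4) (nat_lit 246) (nat_lit 186) (nat_lit 168)) (XT.lf (nat_lit 0) (nat_lit 884641966783) (nat_lit 76) (nat_lit 101292893830) (nat_lit 76) (nat_lit 99969949339) (nat_lit 1) (nat_lit 4) (nat_lit 2) (nat_lit 5) (nat_lit 2) (nat_lit 4) (nat_lit 247) (nat_lit 186) (nat_lit 167)))) (XT.nd (nat_lit 156) (nat_lit 0) (nat_lit 0) (XT.nd (nat_lit 78) (nat_lit 0) (nat_lit 0) (XT.lf (nat_lit 0) (nat_lit 1018505582047) (nat_lit 76) (nat_lit 115758857972) (nat_lit 76) (nat_lit 114422872296) (nat_lit 1) (nat_lit 4) (nat_lit 2) (nat_lit 5) (nat_lit 2) (nat_lit 4) (nat_lit 248) (nat_lit 186) (nat_lit 166)) (XT.lf (nat_lit 0) (nat_lit 1172431060421) (nat_lit 76) (nat_lit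 132402509356) (nat_lit 76) (nat_lit 131055183520) (nat_lit 1) (nat_lit 4) (nat_lit 2) (nat_lit 5) (nat_lit 2) (nat_lit 4) (nat_lit 249) (nat_lit 186) (nat_lit 165))) (XT.nd (nat_lit 78) (nat_lit 0) (nat_lit 0) (XT.lf (nat_lit 0) (nat_lit 1349429987351) (nat_lit 76) (nat_lit 151549484639) (nat_lit 76) (nat_lit 150192297794) (nat_lit 1) (nat_lit 4) (nat_lit 2) (nat_lit 5) (nat_lit 2) (nat_lit 4) (nat_lit 250) (nat_lit 186) (nat_lit 164)) (XT.lf (nat_lit 0) (nat_lit 1552965385321) (nat_lit 76) (nat_lit 173574398557) (nat_lit 76) (nat_lit 172208636921) (nat_lit 1) (nat_lit 4) (nat_lit 2) (nat_lit 5) (nat_lit 2) (nat_lit 4) (nat_lit 251) (nat_lit 186) (nat_lit 163))))))))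
noncomputable def xc10 : XT := (XT.nd (nat_lit 29640) (nat_lit 0) (nat_lit 0) (XT.nd (nat_lit 1014) (nat_lit 0) (nat_lit 0) (XT.nd (nat_lit 468) (nat_lit 0) (nat_lit 0) (XT.nd (nat_lit 234) (nat_lit 0) (nat_lit 0) (XT.nd (nat_lit 78) (nat_lit 0) (nat_lit 0) (XT.lf (nat_lit 0) (nat_lit 1787019468638) (nat_lit 76) (nat_lit 198908173337) (nat_lit 76) (nat_lit 197534955362) (nat_lit 1) (nat_lit 4) (nat_lit 2) (nat_lit 5) (nat_lit 2) (nat_lit 4) (nat_lit 252) (nat_lit 186) (nat_lit 162)) (XT.nd (nat_lit 78) (nat_lit 0) (nat_lit 0) (XT.lf (nat_lit 0) (nat_lit 2056171556324) (nat_lit 76) (nat_lit 228046469791) (nat_lit 76) (nat_lit 226666768042) (nat_lit 1) (nat_lit 4) (nat_lit 2) (nat_lit 5) (nat_lit 2) (nat_lit 4) (nat_lit 253) (nat_lit 186) (nat_lit 161)) (XT.lf (nat_lit 0) (nat_lit 2365687667485) (nat_lit 76) (nat_lit 261559385022) (nat_lit 76) (nat_lit 260174045209) (nat_lit 1) (nat_lit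 4) (nat_lit 2) (nat_lit 5) (nat_lit 2) (nat_lit 4) (nat_lit 254) (nat_lit 186) (nat_lit 160)))) (XT.nd (nat_lit 78) (nat_lit 0) (nat_lit 0) (XT.lf (nat_lit 0) (nat_lit 2721623552124) (nat_lit 76) (nat_lit 300102606503) (nat_lit 76) (nat_lit 298712364026) (nat_lit 1) (nat_lit 4) (nat_lit 2) (nat_lit 5) (nat_lit 2) (nat_lit 4) (nat_lit 255) (nat_lit 186) (nat_lit 159)) (XT.nd (nat_lit 78) (nat_lit 0) (nat_lit 0) (XT.lf (nat_lit 0) (nat_lit 3130943173199) (nat_lit 76) (nat_lit 344430240742) (nat_lit 76) (nat_lit 343035735078) (nat_lit 1) (nat_lit 4) (nat_lit 2) (nat_lit 5) (nat_lit 2) (nat_lit 4) (nat_lit 256) (nat_lit 186) (nat_lit 158)) (XT.lf (nat_lit 0) (nat_lit 3601654958081) (nat_lit 76) (nat_lit 395409567538) (nat_lit 76) (nat_lit 394011354755) (nat_lit 1) (nat_lit 4) (nat_lit 2) (nat_lit 5) (nat_lit 2) (nat_lit 4) (nat_lit 257) (nat_lit 186) (nat_lit 157))))) (XT.nd (nat_lit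 234) (nat_lit 0) (nat_lit 0) (XT.nd (nat_lit 78) (nat_lit 0) (nat_lit 0) (XT.lf (nat_lit 0) (nat_lit 4142968485168) (nat_lit 76) (nat_lit 454038008502) (nat_lit 76) (nat_lit 452636572138) (nat_lit 1) (nat_lit 4) (nat_lit 2) (nat_lit 5) (nat_lit 2) (nat_lit 4) (nat_lit 258) (nat_lit 186) (nat_lit 156)) (XT.nd (nat_lit 78) (nat_lit 0) (nat_lit 0) (XT.lf (nat_lit 0) (nat_lit 4765474671296) (nat_lit 76) (nat_lit 521462641828) (nat_lit 76) (nat_lit 520058402350) (nat_lit 1) (nat_lit 4) (nat_lit 2) (nat_lit 5) (nat_lit 2) (nat_lit 4) (nat_lit 259) (nat_lit 186) (nat_lit 155)) (XT.lf (nat_lit 0) (nat_lit 5481352985323) (nat_lit 76) (nat_lit 599002645124) (nat_lit 76) (nat_lit 597595968155) (nat_lit 1) (nat_lit 4) (nat_lit 2) (nat_lit 5) (nat_lit 2) (nat_lit 4) (nat_lit 260) (nat_lit 186) (nat_lit 154)))) (XT.nd (nat_lit 156) (nat_lit 0) (nat_lit 0) (XT.nd (nat_lit 78) (nat_lit 0) (nat_lit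 0) (XT.lf (nat_lit 0) (nat_lit 6304609742089) (nat_lit 76) (nat_lit 688175105411) (nat_lit 76) (nat_lit 686766308885) (nat_lit 1) (nat_lit 4) (nat_lit 2) (nat_lit 5) (nat_lit 2) (nat_lit 4) (nat_lit 261) (nat_lit 186) (nat_lit 153)) (XT.lf (nat_lit 0) (nat_lit 7251352139008) (nat_lit 76) (nat_lit 790724701260) (nat_lit 76) (nat_lit 789314061641) (nat_lit 1) (nat_lit 4) (nat_lit 2) (nat_lit 5) (nat_lit 2) (nat_lit 4) (nat_lit 262) (nat_lit 186) (nat_lit 152))) (XT.nd (nat_lit 78) (nat_lit 0) (nat_lit 0) (XT.lf (nat_lit 0) (nat_lit 8340103396891) (nat_lit 76) (nat_lit 908657837806) (nat_lit 76) (nat_lit 907245595498) (nat_lit 1) (nat_lit 4) (nat_lit 2) (nat_lit 5) (nat_lit 2) (nat_lit 4) (nat_lit 263) (nat_lit 186) (nat_lit 151)) (XT.lf (nat_lit 0) (nat_lit 9592165170782) (nat_lit 76) (nat_lit 1044281902505) (nat_lit 76) (nat_lit 1042868266554) (nat_lit 1) (nat_lit 4) (nat_lit 2) (nat_lit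 5) (nat_lit 2) (nat_lit 4) (nat_lit 264) (nat_lit 186) (nat_lit 150)))))) (XT.nd (nat_lit 702) (nat_lit 0) (nat_lit 0) (XT.nd (nat_lit 468) (nat_lit 0) (nat_lit 0) (XT.nd (nat_lit 78) (nat_lit 0) (nat_lit 0) (XT.lf (nat_lit 0) (nat_lit 11032034321476) (nat_lit 76) (nat_lit 1200250409666) (nat_lit 76) (nat_lit 1198835561850) (nat_lit 1) (nat_lit 4) (nat_lit 2) (nat_lit 5) (nat_lit 2) (nat_lit 4) (nat_lit 265) (nat_lit 186) (nat_lit 149)) (XT.nd (nat_lit 78) (nat_lit 0) (nat_lit 0) (XT.lf (nat_lit 0) (nat_lit 12687882201920) (nat_lit 76) (nat_lit 1379614917037) (nat_lit 76) (nat_lit 1378199015427) (nat_lit 1) (nat_lit 4) (nat_lit 2) (nat_lit 5) (nat_lit 2) (nat_lit 4) (nat_lit 266) (nat_lit 186) (nat_lit 148)) (XT.lf (nat_lit 0) (nat_lit 14592105835862) (nat_lit 76) (nat_lit 1585884730197) (nat_lit 76) (nat_lit 1584467912244) (nat_lit 1) (nat_lit 4) (nat_lit 2) (nat_lit 5) (nat_lit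 2) (nat_lit 4) (nat_lit 267) (nat_lit 186) (nat_lit 147)))) (XT.nd (nat_lit 78) (nat_lit 0) (nat_lit 0) (XT.lf (nat_lit 0) (nat_lit 25526871136980) (nat_lit 76) (nat_lit 2770370275403) (nat_lit 76) (nat_lit 2768950841311) (nat_lit 1) (nat_lit 4) (nat_lit 2) (nat_lit 5) (nat_lit 2) (nat_lit 4) (nat_lit 271) (nat_lit 186) (nat_lit 143)) (XT.nd (nat_lit 78) (nat_lit 0) (nat_lit 0) (XT.lf (nat_lit 0) (nat_lit 29356938322400) (nat_lit 76) (nat_lit 3185255503116) (nat_lit 76) (nat_lit 3183835613439) (nat_lit 1) (nat_lit 4) (nat_lit 2) (nat_lit 5) (nat_lit 2) (nat_lit 4) (nat_lit 272) (nat_lit 186) (nat_lit 142)) (XT.lf (nat_lit 0) (nat_lit 33761514968022) (nat_lit 76) (nat_lit 3662373787215) (nat_lit 76) (nat_lit 3660953501378) (nat_lit 1) (nat_lit 4) (nat_lit 2) (nat_lit 5) (nat_lit 2) (nat_lit 4) (nat_lit 273) (nat_lit 186) (nat_lit 141))))) (XT.nd (nat_lit 27612) (nat_lit 0) (nat_lit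 0) (XT.nd (nat_lit 78) (nat_lit 0) (nat_lit 0) (XT.lf (nat_lit 0) (nat_lit 38826777573436) (nat_lit 76) (nat_lit 4211060050650) (nat_lit 76) (nat_lit 4209639420325) (nat_lit 1) (nat_lit 4) (nat_lit 2) (nat_lit 5) (nat_lit 2) (nat_lit 4) (nat_lit 274) (nat_lit 186) (nat_lit 140)) (XT.nd (nat_lit 27456) (nat_lit 0) (nat_lit 0) (XT.lf (nat_lit 0) (nat_lit 44651829102661) (nat_lit 76) (nat_lit 4842049459445) (nat_lit 76) (nat_lit 4840628529566) (nat_lit 1) (nat_lit 4) (nat_lit 2) (nat_lit 5) (nat_lit 2) (nat_lit 4) (nat_lit 275) (nat_lit 186) (nat_lit 139)) (XT.lf (nat_lit 0) (nat_lit 15786071306) (nat_lit 76) (nat_lit 6871763060) (nat_lit 76) (nat_lit 6871763060) (nat_lit 1) (nat_lit 4) (nat_lit 2) (nat_lit 5) (nat_lit 2) (nat_lit 4) (nat_lit 226) (nat_lit 187) (nat_lit 187)))) (XT.nd (nat_lit 156) (nat_lit 0) (nat_lit 0) (XT.nd (nat_lit 78) (nat_lit 0) (nat_lit 0) (XT.lf (nat_lit 0)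 (nat_lit 39712837563) (nat_lit 76) (nat_lit 14058801501) (nat_lit 76) (nat_lit 13845362465) (nat_lit 1) (nat_lit 4) (nat_lit 2) (nat_lit 5) (nat_lit 2) (nat_lit 4) (nat_lit 227) (nat_lit 187) (nat_lit 186)) (XT.lf (nat_lit 0) (nat_lit 48785289794) (nat_lit 76) (nat_lit 14548906414) (nat_lit 76) (nat_lit 14149868217) (nat_lit 1) (nat_lit 4) (nat_lit 2) (nat_lit 5) (nat_lit 2) (nat_lit 4) (nat_lit 228) (nat_lit 187) (nat_lit 185))) (XT.nd (nat_lit 78) (nat_lit 0) (nat_lit 0) (XT.lf (nat_lit 0) (nat_lit 58967003804) (nat_lit 76) (nat_lit 15223429869) (nat_lit 76) (nat_lit 14663001095) (nat_lit 1) (nat_lit 4) (nat_lit 2) (nat_lit 5) (nat_lit 2) (nat_lit 4) (nat_lit 229) (nat_lit 187) (nat_lit 184)) (XT.lf (nat_lit 0) (nat_lit 70457187042) (nat_lit 76) (nat_lit 16095569062) (nat_lit 76) (nat_lit 15394800658) (nat_lit 1) (nat_lit 4) (nat_lit 2) (nat_lit 5) (nat_lit 2) (nat_lit 4) (nat_lit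 230) (nat_lit 187) (nat_lit 183))))))) (XT.nd (nat_lit 1014) (nat_lit 0) (nat_lit 0) (XT.nd (nat_lit 468) (nat_lit 0) (nat_lit 0) (XT.nd (nat_lit 234) (nat_lit 0) (nat_lit 0) (XT.nd (nat_lit 78) (nat_lit 0) (nat_lit 0) (XT.lf (nat_lit 0) (nat_lit 83480647442) (nat_lit 76) (nat_lit 17182387587) (nat_lit 76) (nat_lit 16359584722) (nat_lit 1) (nat_lit 4) (nat_lit 2) (nat_lit 5) (nat_lit 2) (nat_lit 4) (nat_lit 231) (nat_lit 187) (nat_lit 182)) (XT.nd (nat_lit 78) (nat_lit 0) (nat_lit 0) (XT.lf (nat_lit 0) (nat_lit 98292191837) (nat_lit 76) (nat_lit 18505149285) (nat_lit 76) (nat_lit 17576229497) (nat_lit 1) (nat_lit 4) (nat_lit 2) (nat_lit 5) (nat_lit 2) (nat_lit 4) (nat_lit 232) (nat_lit 187) (nat_lit 181)) (XT.lf (nat_lit 0) (nat_lit 115181611313) (nat_lit 76) (nat_lit 20089734277) (nat_lit 76) (nat_lit 19068538903) (nat_lit 1) (nat_lit 4) (nat_lit 2) (nat_lit 5) (nat_lit 2) (nat_lit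 4) (nat_lit 233) (nat_lit 187) (nat_lit 180)))) (XT.nd (nat_lit 78) (nat_lit 0) (nat_lit 0) (XT.lf (nat_lit 0) (nat_lit 134479351033) (nat_lit 76) (nat_lit 21967145311) (nat_lit 76) (nat_lit 20865710297) (nat_lit 1) (nat_lit 4) (nat_lit 2) (nat_lit 5) (nat_lit 2) (nat_lit 4) (nat_lit 234) (nat_lit 187) (nat_lit 179)) (XT.nd (nat_lit 78) (nat_lit 0) (nat_lit 0) (XT.lf (nat_lit 0) (nat_lit 156562975472) (nat_lit 76) (nat_lit 24174114342) (nat_lit 76) (nat_lit 23002905730) (nat_lit 1) (nat_lit 4) (nat_lit 2) (nat_lit 5) (nat_lit 2) (nat_lit 4) (nat_lit 235) (nat_lit 187) (nat_lit 178)) (XT.lf (nat_lit 0) (nat_lit 181864555540) (nat_lit 76) (nat_lit 26753821201) (nat_lit 76) (nat_lit 25521939893) (nat_lit 1) (nat_lit 4) (nat_lit 2) (nat_lit 5) (nat_lit 2) (nat_lit 4) (nat_lit 236) (nat_lit 187) (nat_lit 177))))) (XT.nd (nat_lit 234) (nat_lit 0) (nat_lit 0) (XT.nd (nat_lit 78) (nat_lit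 0) (nat_lit 0) (XT.lf (nat_lit 0) (nat_lit 210879122154) (nat_lit 76) (nat_lit 29756738412) (nat_lit 76) (nat_lit 28472098238) (nat_lit 1) (nat_lit 4) (nat_lit 2) (nat_lit 5) (nat_lit 2) (nat_lit 4) (nat_lit 237) (nat_lit 187) (nat_lit 176)) (XT.nd (nat_lit 78) (nat_lit 0) (nat_lit 0) (XT.lf (nat_lit 0) (nat_lit 244174351615) (nat_lit 76) (nat_lit 33241618702) (nat_lit 76) (nat_lit 31911101255) (nat_lit 1) (nat_lit 4) (nat_lit 2) (nat_lit 5) (nat_lit 2) (nat_lit 4) (nat_lit 238) (nat_lit 187) (nat_lit 175)) (XT.lf (nat_lit 0) (nat_lit 282401672327) (nat_lit 76) (nat_lit 37276644514) (nat_lit 76) (nat_lit 35906233785) (nat_lit 1) (nat_lit 4) (nat_lit 2) (nat_lit 5) (nat_lit 2) (nat_lit 4) (nat_lit 239) (nat_lit 187) (nat_lit 174)))) (XT.nd (nat_lit 156) (nat_lit 0) (nat_lit 0) (XT.nd (nat_lit 78) (nat_lit 0) (nat_lit 0) (XT.lf (nat_lit 0) (nat_lit 326309010130) (nat_lit 76) (nat_lit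 41940762004) (nat_lit 76) (nat_lit 40535661464) (nat_lit 1) (nat_lit 4) (nat_lit 2) (nat_lit 5) (nat_lit 2) (nat_lit 4) (nat_lit 240) (nat_lit 187) (nat_lit 173)) (XT.lf (nat_lit 0) (nat_lit 376755421633) (nat_lit 76) (nat_lit 47325225644) (nat_lit 76) (nat_lit 45889960051) (nat_lit 1) (nat_lit 4) (nat_lit 2) (nat_lit 5) (nat_lit 2) (nat_lit 4) (nat_lit 241) (nat_lit 187) (nat_lit 172))) (XT.nd (nat_lit 78) (nat_lit 0) (nat_lit 0) (XT.lf (nat_lit 0) (nat_lit 434727901843) (nat_lit 76) (nat_lit 53535383636) (nat_lit 76) (nat_lit 52073887563) (nat_lit 1) (nat_lit 4) (nat_lit 2) (nat_lit 5) (nat_lit 2) (nat_lit 4) (nat_lit 242) (nat_lit 187) (nat_lit 171)) (XT.lf (nat_lit 0) (nat_lit 501360694939) (nat_lit 76) (nat_lit 60692739071) (nat_lit 76) (nat_lit 59208433885) (nat_lit 1) (nat_lit 4) (nat_lit 2) (nat_lit 5) (nat_lit 2) (nat_lit 4) (nat_lit 243) (nat_lit 187) (nat_lit 170))))))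 (XT.nd (nat_lit 546) (nat_lit 0) (nat_lit 0) (XT.nd (nat_lit 234) (nat_lit 0) (nat_lit 0) (XT.nd (nat_lit 78) (nat_lit 0) (nat_lit 0) (XT.lf (nat_lit 0) (nat_lit 577957486002) (nat_lit 76) (nat_lit 68937327165) (nat_lit 76) (nat_lit 67433187967) (nat_lit 1) (nat_lit 4) (nat_lit 2) (nat_lit 5) (nat_lit 2) (nat_lit 4) (nat_lit 244) (nat_lit 187) (nat_lit 169)) (XT.nd (nat_lit 78) (nat_lit 0) (nat_lit 0) (XT.lf (nat_lit 0) (nat_lit 666016907903) (nat_lit 76) (nat_lit 78430455076) (nat_lit 76) (nat_lit 76909068911) (nat_lit 1) (nat_lit 4) (nat_lit 2) (nat_lit 5) (nat_lit 2) (nat_lit 4) (nat_lit 245) (nat_lit 187) (nat_lit 168)) (XT.lf (nat_lit 0) (nat_lit 767261862372) (nat_lit 76) (nat_lit 89357857914) (nat_lit 76) (nat_lit 87821474388) (nat_lit 1) (nat_lit 4) (nat_lit 2) (nat_lit 5) (nat_lit 2) (nat_lit 4) (nat_lit 246) (nat_lit 187) (nat_lit 167)))) (XT.nd (nat_lit 156) (nat_lit 0)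 (nat_lit 0) (XT.nd (nat_lit 78) (nat_lit 0) (nat_lit 0) (XT.lf (nat_lit 0) (nat_lit 883673228955) (nat_lit 76) (nat_lit 101933332693) (nat_lit 76) (nat_lit 100383907982) (nat_lit 1) (nat_lit 4) (nat_lit 2) (nat_lit 5) (nat_lit 2) (nat_lit 4) (nat_lit 247) (nat_lit 187) (nat_lit 166)) (XT.lf (nat_lit 0) (nat_lit 1017528621345) (nat_lit 76) (nat_lit 116402921310) (nat_lit 76) (nat_lit 114842156438) (nat_lit 1) (nat_lit 4) (nat_lit 2) (nat_lit 5) (nat_lit 2) (nat_lit 4) (nat_lit 248) (nat_lit 187) (nat_lit 165))) (XT.nd (nat_lit 78) (nat_lit 0) (nat_lit 0) (XT.lf (nat_lit 0) (nat_lit 1171446949393) (nat_lit 76) (nat_lit 133049724411) (nat_lit 76) (nat_lit 131479098530) (nat_lit 1) (nat_lit 4) (nat_lit 2) (nat_lit 5) (nat_lit 2) (nat_lit 4) (nat_lit 249) (nat_lit 187) (nat_lit 164)) (XT.lf (nat_lit 0) (nat_lit 1348439658648) (nat_lit 76) (nat_lit 152199440319) (nat_lit 76) (nat_lit 150620239647)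 (nat_lit 1) (nat_lit 4) (nat_lit 2) (nat_lit 5) (nat_lit 2) (nat_lit 4) (nat_lit 250) (nat_lit 187) (nat_lit 163))))) (XT.nd (nat_lit 234) (nat_lit 0) (nat_lit 0) (XT.nd (nat_lit 78) (nat_lit 0) (nat_lit 0) (XT.lf (nat_lit 0) (nat_lit 1551969649944) (nat_lit 76) (nat_lit 174226737387) (nat_lit 76) (nat_lit 172640080376) (nat_lit 1) (nat_lit 4) (nat_lit 2) (nat_lit 5) (nat_lit 2) (nat_lit 4) (nat_lit 251) (nat_lit 187) (nat_lit 162)) (XT.nd (nat_lit 78) (nat_lit 0) (nat_lit 0) (XT.lf (nat_lit 0) (nat_lit 1786019031806) (nat_lit 76) (nat_lit 199562584473) (nat_lit 76) (nat_lit 197969443688) (nat_lit 1) (nat_lit 4) (nat_lit 2) (nat_lit 5) (nat_lit 2) (nat_lit 4) (nat_lit 252) (nat_lit 187) (nat_lit 161)) (XT.lf (nat_lit 0) (nat_lit 2055167031270) (nat_lit 76) (nat_lit 228702682931) (nat_lit 76) (nat_lit 227103904082) (nat_lit 1) (nat_lit 4) (nat_lit 2) (nat_lit 5) (nat_lit 2) (nat_lit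 4) (nat_lit 253) (nat_lit 187) (nat_lit 160)))) (XT.nd (nat_lit 156) (nat_lit 0) (nat_lit 0) (XT.nd (nat_lit 78) (nat_lit 0) (nat_lit 0) (XT.lf (nat_lit 0) (nat_lit 2364679587456) (nat_lit 76) (nat_lit 262217165123) (nat_lit 76) (nat_lit 260613483609) (nat_lit 1) (nat_lit 4) (nat_lit 2) (nat_lit 5) (nat_lit 2) (nat_lit 4) (nat_lit 254) (nat_lit 187) (nat_lit 159)) (XT.lf (nat_lit 0) (nat_lit 2720612380812) (nat_lit 76) (nat_lit 300761749179) (nat_lit 76) (nat_lit 299153804479) (nat_lit 1) (nat_lit 4) (nat_lit 2) (nat_lit 5) (nat_lit 2) (nat_lit 4) (nat_lit 255) (nat_lit 187) (nat_lit 158))) (XT.nd (nat_lit 78) (nat_lit 0) (nat_lit 0) (XT.lf (nat_lit 0) (nat_lit 3129929313815) (nat_lit 76) (nat_lit 345090568264) (nat_lit 76) (nat_lit 343478916446) (nat_lit 1) (nat_lit 4) (nat_lit 2) (nat_lit 5) (nat_lit 2) (nat_lit 4) (nat_lit 256) (nat_lit 187) (nat_lit 157)) (XT.lf (nat_lit 0) (nat_lit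 3600638761242) (nat_lit 76) (nat_lit 396070925362) (nat_lit 76) (nat_lit 394456049962) (nat_lit 1) (nat_lit 4) (nat_lit 2) (nat_lit 5) (nat_lit 2) (nat_lit 4) (nat_lit 257) (nat_lit 187) (nat_lit 156))))))))
noncomputable def xc11 : XT := (XT.nd (nat_lit 29562) (nat_lit 0) (nat_lit 0) (XT.nd (nat_lit 1248) (nat_lit 0) (nat_lit 0) (XT.nd (nat_lit 468) (nat_lit 0) (nat_lit 0) (XT.nd (nat_lit 234) (nat_lit 0) (nat_lit 0) (XT.nd (nat_lit 78) (nat_lit 0) (nat_lit 0) (XT.lf (nat_lit 0) (nat_lit 4141950255761) (nat_lit 76) (nat_lit 454700262241) (nat_lit 76) (nat_lit 453082583727) (nat_lit 1) (nat_lit 4) (nat_lit 2) (nat_lit 5) (nat_lit 2) (nat_lit 4) (nat_lit 258) (nat_lit 187) (nat_lit 155)) (XT.nd (nat_lit 78) (nat_lit 0) (nat_lit 0) (XT.lf (nat_lit 0) (nat_lit 4764454674438) (nat_lit 76) (nat_lit 522125674624) (nat_lit 76) (nat_lit 520505558619) (nat_lit 1) (nat_lit 4) (nat_lit 2) (nat_lit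 5) (nat_lit 2) (nat_lit 4) (nat_lit 259) (nat_lit 187) (nat_lit 154)) (XT.lf (nat_lit 0) (nat_lit 5480331451550) (nat_lit 76) (nat_lit 599666355360) (nat_lit 76) (nat_lit 598044119798) (nat_lit 1) (nat_lit 4) (nat_lit 2) (nat_lit 5) (nat_lit 2) (nat_lit 4) (nat_lit 260) (nat_lit 187) (nat_lit 153)))) (XT.nd (nat_lit 78) (nat_lit 0) (nat_lit 0) (XT.lf (nat_lit 0) (nat_lit 6303586871869) (nat_lit 76) (nat_lit 688839404725) (nat_lit 76) (nat_lit 687215326070) (nat_lit 1) (nat_lit 4) (nat_lit 2) (nat_lit 5) (nat_lit 2) (nat_lit 4) (nat_lit 261) (nat_lit 187) (nat_lit 152)) (XT.nd (nat_lit 78) (nat_lit 0) (nat_lit 0) (XT.lf (nat_lit 0) (nat_lit 7250328106661) (nat_lit 76) (nat_lit 791389512816) (nat_lit 76) (nat_lit 789763831472) (nat_lit 1) (nat_lit 4) (nat_lit 2) (nat_lit 5) (nat_lit 2) (nat_lit 4) (nat_lit 262) (nat_lit 187) (nat_lit 151)) (XT.lf (nat_lit 0) (nat_lit 8339078353998)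 (nat_lit 76) (nat_lit 909323094791) (nat_lit 76) (nat_lit 907696019803) (nat_lit 1) (nat_lit 4) (nat_lit 2) (nat_lit 5) (nat_lit 2) (nat_lit 4) (nat_lit 263) (nat_lit 187) (nat_lit 150))))) (XT.nd (nat_lit 234) (nat_lit 0) (nat_lit 0) (XT.nd (nat_lit 78) (nat_lit 0) (nat_lit 0) (XT.lf (nat_lit 0) (nat_lit 9591139249153) (nat_lit 76) (nat_lit 1044947546819) (nat_lit 76) (nat_lit 1043319259967) (nat_lit 1) (nat_lit 4) (nat_lit 2) (nat_lit 5) (nat_lit 2) (nat_lit 4) (nat_lit 264) (nat_lit 187) (nat_lit 149)) (XT.nd (nat_lit 78) (nat_lit 0) (nat_lit 0) (XT.lf (nat_lit 0) (nat_lit 11031007635729) (nat_lit 76) (nat_lit 1200916390787) (nat_lit 76) (nat_lit 1199287050141) (nat_lit 1) (nat_lit 4) (nat_lit 2) (nat_lit 5) (nat_lit 2) (nat_lit 4) (nat_lit 265) (nat_lit 187) (nat_lit 148)) (XT.lf (nat_lit 0) (nat_lit 12686854851722) (nat_lit 76) (nat_lit 1380281191033) (nat_lit 76) (nat_lit 1378650934045)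 (nat_lit 1) (nat_lit 4) (nat_lit 2) (nat_lit 5) (nat_lit 2) (nat_lit 4) (nat_lit 266) (nat_lit 187) (nat_lit 147)))) (XT.nd (nat_lit 390) (nat_lit 0) (nat_lit 0) (XT.nd (nat_lit 312) (nat_lit 0) (nat_lit 0) (XT.lf (nat_lit 0) (nat_lit 14591077907882) (nat_lit 76) (nat_lit 1586551258868) (nat_lit 76) (nat_lit 1584920205059) (nat_lit 1) (nat_lit 4) (nat_lit 2) (nat_lit 5) (nat_lit 2) (nat_lit 4) (nat_lit 267) (nat_lit 187) (nat_lit 146)) (XT.lf (nat_lit 0) (nat_lit 25525841559443) (nat_lit 76) (nat_lit 2771037531167) (nat_lit 76) (nat_lit 2769404202454) (nat_lit 1) (nat_lit 4) (nat_lit 2) (nat_lit 5) (nat_lit 2) (nat_lit 4) (nat_lit 271) (nat_lit 187) (nat_lit 142))) (XT.nd (nat_lit 78) (nat_lit 0) (nat_lit 0) (XT.lf (nat_lit 0) (nat_lit 29355908457602) (nat_lit 76) (nat_lit 3185922885497) (nat_lit 76) (nat_lit 3184289160624) (nat_lit 1) (nat_lit 4) (nat_lit 2) (nat_lit 5) (nat_lit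 2) (nat_lit 4) (nat_lit 272) (nat_lit 187) (nat_lit 141)) (XT.lf (nat_lit 0) (nat_lit 33760484853433) (nat_lit 76) (nat_lit 3663041279699) (nat_lit 76) (nat_lit 3661407210339) (nat_lit 1) (nat_lit 4) (nat_lit 2) (nat_lit 5) (nat_lit 2) (nat_lit 4) (nat_lit 273) (nat_lit 187) (nat_lit 140)))))) (XT.nd (nat_lit 27768) (nat_lit 0) (nat_lit 0) (XT.nd (nat_lit 27456) (nat_lit 0) (nat_lit 0) (XT.nd (nat_lit 78) (nat_lit 0) (nat_lit 0) (XT.lf (nat_lit 0) (nat_lit 38825747241637) (nat_lit 76) (nat_lit 4211727638876) (nat_lit 76) (nat_lit 4210093269962) (nat_lit 1) (nat_lit 4) (nat_lit 2) (nat_lit 5) (nat_lit 2) (nat_lit 4) (nat_lit 274) (nat_lit 187) (nat_lit 139)) (XT.nd (nat_lit 27300) (nat_lit 0) (nat_lit 0) (XT.lf (nat_lit 0) (nat_lit 44650798581984) (nat_lit 76) (nat_lit 4842717130925) (nat_lit 76) (nat_lit 4841082501528) (nat_lit 1) (nat_lit 4) (nat_lit 2) (nat_lit 5) (nat_lit 2) (nat_lit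 4) (nat_lit 275) (nat_lit 187) (nat_lit 138)) (XT.lf (nat_lit 0) (nat_lit 8821011254) (nat_lit 76) (nat_lit 6891547086) (nat_lit 76) (nat_lit 6891547086) (nat_lit 1) (nat_lit 4) (nat_lit 2) (nat_lit 5) (nat_lit 2) (nat_lit 4) (nat_lit 224) (nat_lit 188) (nat_lit 188)))) (XT.nd (nat_lit 156) (nat_lit 0) (nat_lit 0) (XT.nd (nat_lit 78) (nat_lit 0) (nat_lit 0) (XT.lf (nat_lit 0) (nat_lit 24203930477) (nat_lit 76) (nat_lit 13842366731) (nat_lit 76) (nat_lit 13596911840) (nat_lit 1) (nat_lit 4) (nat_lit 2) (nat_lit 5) (nat_lit 2) (nat_lit 4) (nat_lit 225) (nat_lit 188) (nat_lit 187)) (XT.lf (nat_lit 0) (nat_lit 31417375634) (nat_lit 76) (nat_lit 14057199132) (nat_lit 76) (nat_lit 13598305205) (nat_lit 1) (nat_lit 4) (nat_lit 2) (nat_lit 5) (nat_lit 2) (nat_lit 4) (nat_lit 226) (nat_lit 188) (nat_lit 186))) (XT.nd (nat_lit 78) (nat_lit 0) (nat_lit 0) (XT.lf (nat_lit 0) (nat_lit 39423490601)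 (nat_lit 76) (nat_lit 14431794618) (nat_lit 76) (nat_lit 13787301529) (nat_lit 1) (nat_lit 4) (nat_lit 2) (nat_lit 5) (nat_lit 2) (nat_lit 4) (nat_lit 227) (nat_lit 188) (nat_lit 185)) (XT.lf (nat_lit 0) (nat_lit 48378916759) (nat_lit 76) (nat_lit 14973482230) (nat_lit 76) (nat_lit 14167598566) (nat_lit 1) (nat_lit 4) (nat_lit 2) (nat_lit 5) (nat_lit 2) (nat_lit 4) (nat_lit 228) (nat_lit 188) (nat_lit 184))))) (XT.nd (nat_lit 234) (nat_lit 0) (nat_lit 0) (XT.nd (nat_lit 78) (nat_lit 0) (nat_lit 0) (XT.lf (nat_lit 0) (nat_lit 58458868968) (nat_lit 76) (nat_lit 15692860206) (nat_lit 76) (nat_lit 14746636911) (nat_lit 1) (nat_lit 4) (nat_lit 2) (nat_lit 5) (nat_lit 2) (nat_lit 4) (nat_lit 229) (nat_lit 188) (nat_lit 183)) (XT.nd (nat_lit 78) (nat_lit 0) (nat_lit 0) (XT.lf (nat_lit 0) (nat_lit 69860563684) (nat_lit 76) (nat_lit 16604003331) (nat_lit 76) (nat_lit 15535745574) (nat_lit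 1) (nat_lit 4) (nat_lit 2) (nat_lit 5) (nat_lit 2) (nat_lit 4) (nat_lit 230) (nat_lit 188) (nat_lit 182)) (XT.lf (nat_lit 0) (nat_lit 82807077542) (nat_lit 76) (nat_lit 17724738318) (nat_lit 76) (nat_lit 16550363639) (nat_lit 1) (nat_lit 4) (nat_lit 2) (nat_lit 5) (nat_lit 2) (nat_lit 4) (nat_lit 231) (nat_lit 188) (nat_lit 181)))) (XT.nd (nat_lit 156) (nat_lit 0) (nat_lit 0) (XT.nd (nat_lit 78) (nat_lit 0) (nat_lit 0) (XT.lf (nat_lit 0) (nat_lit 97551711900) (nat_lit 76) (nat_lit 19076992593) (nat_lit 76) (nat_lit 17810342327) (nat_lit 1) (nat_lit 4) (nat_lit 2) (nat_lit 5) (nat_lit 2) (nat_lit 4) (nat_lit 232) (nat_lit 188) (nat_lit 180)) (XT.lf (nat_lit 0) (nat_lit 114382948736) (nat_lit 76) (nat_lit 20687223302) (nat_lit 76) (nat_lit 19340333397) (nat_lit 1) (nat_lit 4) (nat_lit 2) (nat_lit 5) (nat_lit 2) (nat_lit 4) (nat_lit 233) (nat_lit 188) (nat_lit 179))) (XT.nd (nat_lit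 78) (nat_lit 0) (nat_lit 0) (XT.lf (nat_lit 0) (nat_lit 133630094856) (nat_lit 76) (nat_lit 22586934960) (nat_lit 76) (nat_lit 21170271457) (nat_lit 1) (nat_lit 4) (nat_lit 2) (nat_lit 5) (nat_lit 2) (nat_lit 4) (nat_lit 234) (nat_lit 188) (nat_lit 178)) (XT.lf (nat_lit 0) (nat_lit 155669724859) (nat_lit 76) (nat_lit 24813295840) (nat_lit 76) (nat_lit 23335959641) (nat_lit 1) (nat_lit 4) (nat_lit 2) (nat_lit 5) (nat_lit 2) (nat_lit 4) (nat_lit 235) (nat_lit 188) (nat_lit 177))))))) (XT.nd (nat_lit 1014) (nat_lit 0) (nat_lit 0) (XT.nd (nat_lit 468) (nat_lit 0) (nat_lit 0) (XT.nd (nat_lit 234) (nat_lit 0) (nat_lit 0) (XT.nd (nat_lit 78) (nat_lit 0) (nat_lit 0) (XT.lf (nat_lit 0) (nat_lit 180933048897) (nat_lit 76) (nat_lit 27409865174) (nat_lit 76) (nat_lit 25879770110) (nat_lit 1) (nat_lit 4) (nat_lit 2) (nat_lit 5) (nat_lit 2) (nat_lit 4) (nat_lit 236) (nat_lit 188) (nat_lit 176))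 (XT.nd (nat_lit 78) (nat_lit 0) (nat_lit 0) (XT.lf (nat_lit 0) (nat_lit 209914349397) (nat_lit 76) (nat_lit 30427445407) (nat_lit 76) (nat_lit 28851473069) (nat_lit 1) (nat_lit 4) (nat_lit 2) (nat_lit 5) (nat_lit 2) (nat_lit 4) (nat_lit 237) (nat_lit 188) (nat_lit 175)) (XT.lf (nat_lit 0) (nat_lit 243180651804) (nat_lit 76) (nat_lit 33925076153) (nat_lit 76) (nat_lit 32309210532) (nat_lit 1) (nat_lit 4) (nat_lit 2) (nat_lit 5) (nat_lit 2) (nat_lit 4) (nat_lit 238) (nat_lit 188) (nat_lit 174)))) (XT.nd (nat_lit 78) (nat_lit 0) (nat_lit 0) (XT.lf (nat_lit 0) (nat_lit 281382818555) (nat_lit 76) (nat_lit 37971189316) (nat_lit 76) (nat_lit 36320633885) (nat_lit 1) (nat_lit 4) (nat_lit 2) (nat_lit 5) (nat_lit 2) (nat_lit 4) (nat_lit 239) (nat_lit 188) (nat_lit 173)) (XT.nd (nat_lit 78) (nat_lit 0) (nat_lit 0) (XT.lf (nat_lit 0) (nat_lit 325268283348) (nat_lit 76) (nat_lit 42644947981)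 (nat_lit 76) (nat_lit 40964227497) (nat_lit 1) (nat_lit 4) (nat_lit 2) (nat_lit 5) (nat_lit 2) (nat_lit 4) (nat_lit 240) (nat_lit 188) (nat_lit 172)) (XT.lf (nat_lit 0) (nat_lit 375695674842) (nat_lit 76) (nat_lit 48037795252) (nat_lit 76) (nat_lit 46330844288) (nat_lit 1) (nat_lit 4) (nat_lit 2) (nat_lit 5) (nat_lit 2) (nat_lit 4) (nat_lit 241) (nat_lit 188) (nat_lit 171))))) (XT.nd (nat_lit 234) (nat_lit 0) (nat_lit 0) (XT.nd (nat_lit 78) (nat_lit 0) (nat_lit 0) (XT.lf (nat_lit 0) (nat_lit 433651615915) (nat_lit 76) (nat_lit 54255243358) (nat_lit 76) (nat_lit 52525483280) (nat_lit 1) (nat_lit 4) (nat_lit 2) (nat_lit 5) (nat_lit 2) (nat_lit 4) (nat_lit 242) (nat_lit 188) (nat_lit 170)) (XT.nd (nat_lit 78) (nat_lit 0) (nat_lit 0) (XT.lf (nat_lit 0) (nat_lit 500270027152) (nat_lit 76) (nat_lit 61418938023) (nat_lit 76) (nat_lit 59669343933) (nat_lit 1) (nat_lit 4) (nat_lit 2) (nat_lit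 5) (nat_lit 2) (nat_lit 4) (nat_lit 243) (nat_lit 188) (nat_lit 169)) (XT.lf (nat_lit 0) (nat_lit 576854312251) (nat_lit 76) (nat_lit 69669038490) (nat_lit 76) (nat_lit 67902197434) (nat_lit 1) (nat_lit 4) (nat_lit 2) (nat_lit 5) (nat_lit 2) (nat_lit 4) (nat_lit 244) (nat_lit 188) (nat_lit 168)))) (XT.nd (nat_lit 156) (nat_lit 0) (nat_lit 0) (XT.nd (nat_lit 78) (nat_lit 0) (nat_lit 0) (XT.lf (nat_lit 0) (nat_lit 664902859400) (nat_lit 76) (nat_lit 79166959769) (nat_lit 76) (nat_lit 77385121350) (nat_lit 1) (nat_lit 4) (nat_lit 2) (nat_lit 5) (nat_lit 2) (nat_lit 4) (nat_lit 245) (nat_lit 188) (nat_lit 167)) (XT.lf (nat_lit 0) (nat_lit 766138357564) (nat_lit 76) (nat_lit 90098530753) (nat_lit 76) (nat_lit 88303651151) (nat_lit 1) (nat_lit 4) (nat_lit 2) (nat_lit 5) (nat_lit 2) (nat_lit 4) (nat_lit 246) (nat_lit 188) (nat_lit 166))) (XT.nd (nat_lit 78) (nat_lit 0) (nat_lit 0) (XT.lf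 (nat_lit 0) (nat_lit 882541501272) (nat_lit 76) (nat_lit 102677630007) (nat_lit 76) (nat_lit 100871410244) (nat_lit 1) (nat_lit 4) (nat_lit 2) (nat_lit 5) (nat_lit 2) (nat_lit 4) (nat_lit 247) (nat_lit 188) (nat_lit 165)) (XT.lf (nat_lit 0) (nat_lit 1016389743336) (nat_lit 76) (nat_lit 117150370341) (nat_lit 76) (nat_lit 115334289568) (nat_lit 1) (nat_lit 4) (nat_lit 2) (nat_lit 5) (nat_lit 2) (nat_lit 4) (nat_lit 248) (nat_lit 188) (nat_lit 164)))))) (XT.nd (nat_lit 546) (nat_lit 0) (nat_lit 0) (XT.nd (nat_lit 234) (nat_lit 0) (nat_lit 0) (XT.nd (nat_lit 78) (nat_lit 0) (nat_lit 0) (XT.lf (nat_lit 0) (nat_lit 1170301853710) (nat_lit 76) (nat_lit 133799914066) (nat_lit 76) (nat_lit 131975258503) (nat_lit 1) (nat_lit 4) (nat_lit 2) (nat_lit 5) (nat_lit 2) (nat_lit 4) (nat_lit 249) (nat_lit 188) (nat_lit 163)) (XT.nd (nat_lit 78) (nat_lit 0) (nat_lit 0) (XT.lf (nat_lit 0) (nat_lit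 1347289156292) (nat_lit 76) (nat_lit 152952013125) (nat_lit 76) (nat_lit 151119901222) (nat_lit 1) (nat_lit 4) (nat_lit 2) (nat_lit 5) (nat_lit 2) (nat_lit 4) (nat_lit 250) (nat_lit 188) (nat_lit 162)) (XT.lf (nat_lit 0) (nat_lit 1550814446133) (nat_lit 76) (nat_lit 174981382499) (nat_lit 76) (nat_lit 173142786822) (nat_lit 1) (nat_lit 4) (nat_lit 2) (nat_lit 5) (nat_lit 2) (nat_lit 4) (nat_lit 251) (nat_lit 188) (nat_lit 161)))) (XT.nd (nat_lit 156) (nat_lit 0) (nat_lit 0) (XT.nd (nat_lit 78) (nat_lit 0) (nat_lit 0) (XT.lf (nat_lit 0) (nat_lit 1784859739773) (nat_lit 76) (nat_lit 200319031589) (nat_lit 76) (nat_lit 198474797848) (nat_lit 1) (nat_lit 4) (nat_lit 2) (nat_lit 5) (nat_lit 2) (nat_lit 4) (nat_lit 252) (nat_lit 188) (nat_lit 160)) (XT.lf (nat_lit 0) (nat_lit 2054004184261) (nat_lit 76) (nat_lit 229460697007) (nat_lit 76) (nat_lit 227611560603) (nat_lit 1) (nat_lit 4)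 (nat_lit 2) (nat_lit 5) (nat_lit 2) (nat_lit 4) (nat_lit 253) (nat_lit 188) (nat_lit 159))) (XT.nd (nat_lit 78) (nat_lit 0) (nat_lit 0) (XT.lf (nat_lit 0) (nat_lit 2363513649164) (nat_lit 76) (nat_lit 262976541774) (nat_lit 76) (nat_lit 261123142183) (nat_lit 1) (nat_lit 4) (nat_lit 2) (nat_lit 5) (nat_lit 2) (nat_lit 4) (nat_lit 254) (nat_lit 188) (nat_lit 158)) (XT.lf (nat_lit 0) (nat_lit 2719443754447) (nat_lit 76) (nat_lit 301522310677) (nat_lit 76) (nat_lit 299665203967) (nat_lit 1) (nat_lit 4) (nat_lit 2) (nat_lit 5) (nat_lit 2) (nat_lit 4) (nat_lit 255) (nat_lit 188) (nat_lit 157))))) (XT.nd (nat_lit 234) (nat_lit 0) (nat_lit 0) (XT.nd (nat_lit 78) (nat_lit 0) (nat_lit 0) (XT.lf (nat_lit 0) (nat_lit 3128758349997) (nat_lit 76) (nat_lit 345852160064) (nat_lit 76) (nat_lit 343991829773) (nat_lit 1) (nat_lit 4) (nat_lit 2) (nat_lit 5) (nat_lit 2) (nat_lit 4) (nat_lit 256) (nat_lit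 188) (nat_lit 156)) (XT.nd (nat_lit 78) (nat_lit 0) (nat_lit 0) (XT.lf (nat_lit 0) (nat_lit 3599465764855) (nat_lit 76) (nat_lit 396833413077) (nat_lit 76) (nat_lit 394970279672) (nat_lit 1) (nat_lit 4) (nat_lit 2) (nat_lit 5) (nat_lit 2) (nat_lit 4) (nat_lit 257) (nat_lit 188) (nat_lit 155)) (XT.lf (nat_lit 0) (nat_lit 4140775491923) (nat_lit 76) (nat_lit 455463529013) (nat_lit 76) (nat_lit 453597958117) (nat_lit 1) (nat_lit 4) (nat_lit 2) (nat_lit 5) (nat_lit 2) (nat_lit 4) (nat_lit 258) (nat_lit 188) (nat_lit 154)))) (XT.nd (nat_lit 156) (nat_lit 0) (nat_lit 0) (XT.nd (nat_lit 78) (nat_lit 0) (nat_lit 0) (XT.lf (nat_lit 0) (nat_lit 4763278373685) (nat_lit 76) (nat_lit 522889618835) (nat_lit 76) (nat_lit 521021928382) (nat_lit 1) (nat_lit 4) (nat_lit 2) (nat_lit 5) (nat_lit 2) (nat_lit 4) (nat_lit 259) (nat_lit 188) (nat_lit 153)) (XT.lf (nat_lit 0) (nat_lit 5479153814351) (nat_lit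 76) (nat_lit 600430888650) (nat_lit 76) (nat_lit 598561355104) (nat_lit 1) (nat_lit 4) (nat_lit 2) (nat_lit 5) (nat_lit 2) (nat_lit 4) (nat_lit 260) (nat_lit 188) (nat_lit 152))) (XT.nd (nat_lit 78) (nat_lit 0) (nat_lit 0) (XT.lf (nat_lit 0) (nat_lit 6302408072542) (nat_lit 76) (nat_lit 689604450257) (nat_lit 76) (nat_lit 687733314022) (nat_lit 1) (nat_lit 4) (nat_lit 2) (nat_lit 5) (nat_lit 2) (nat_lit 4) (nat_lit 261) (nat_lit 188) (nat_lit 151)) (XT.lf (nat_lit 0) (nat_lit 7249148296788) (nat_lit 76) (nat_lit 792155003776) (nat_lit 76) (nat_lit 790282473897) (nat_lit 1) (nat_lit 4) (nat_lit 2) (nat_lit 5) (nat_lit 2) (nat_lit 4) (nat_lit 262) (nat_lit 188) (nat_lit 150))))))))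
noncomputable def xc12 : XT := (XT.nd (nat_lit 29250) (nat_lit 0) (nat_lit 0) (XT.nd (nat_lit 28236) (nat_lit 0) (nat_lit 0) (XT.nd (nat_lit 702) (nat_lit 0) (nat_lit 0) (XT.nd (nat_lit 234) (nat_lit 0) (nat_lit 0) (XT.nd (nat_lit 78) (nat_lit 0) (nat_lit 0) (XT.lf (nat_lit 0) (nat_lit 8337897665389) (nat_lit 76) (nat_lit 910088973080) (nat_lit 76) (nat_lit 908215231337) (nat_lit 1) (nat_lit 4) (nat_lit 2) (nat_lit 5) (nat_lit 2) (nat_lit 4) (nat_lit 263) (nat_lit 188) (nat_lit 149)) (XT.nd (nat_lit 78) (nat_lit 0) (nat_lit 0) (XT.lf (nat_lit 0) (nat_lit 9589957796427) (nat_lit 76) (nat_lit 1045713761915) (nat_lit 76) (nat_lit 1043838966378) (nat_lit 1) (nat_lit 4) (nat_lit 2) (nat_lit 5) (nat_lit 2) (nat_lit 4) (nat_lit 264) (nat_lit 188) (nat_lit 148)) (XT.lf (nat_lit 0) (nat_lit 11029825518552) (nat_lit 76) (nat_lit 1201682898759) (nat_lit 76) (nat_lit 1199807186879) (nat_lit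 1) (nat_lit 4) (nat_lit 2) (nat_lit 5) (nat_lit 2) (nat_lit 4) (nat_lit 265) (nat_lit 188) (nat_lit 147)))) (XT.nd (nat_lit 78) (nat_lit 0) (nat_lit 0) (XT.lf (nat_lit 0) (nat_lit 12685672156763) (nat_lit 76) (nat_lit 1381047953681) (nat_lit 76) (nat_lit 1379171444981) (nat_lit 1) (nat_lit 4) (nat_lit 2) (nat_lit 5) (nat_lit 2) (nat_lit 4) (nat_lit 266) (nat_lit 188) (nat_lit 146)) (XT.nd (nat_lit 312) (nat_lit 0) (nat_lit 0) (XT.lf (nat_lit 0) (nat_lit 14589894710502) (nat_lit 76) (nat_lit 1587318242972) (nat_lit 76) (nat_lit 1585441041385) (nat_lit 1) (nat_lit 4) (nat_lit 2) (nat_lit 5) (nat_lit 2) (nat_lit 4) (nat_lit 267) (nat_lit 188) (nat_lit 145)) (XT.lf (nat_lit 0) (nat_lit 25524656927665) (nat_lit 76) (nat_lit 2771805147524) (nat_lit 76) (nat_lit 2769925967759) (nat_lit 1) (nat_lit 4) (nat_lit 2) (nat_lit 5) (nat_lit 2) (nat_lit 4) (nat_lit 271) (nat_lit 188) (nat_lit 141)))))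 (XT.nd (nat_lit 546) (nat_lit 0) (nat_lit 0) (XT.nd (nat_lit 78) (nat_lit 0) (nat_lit 0) (XT.lf (nat_lit 0) (nat_lit 29354723576032) (nat_lit 76) (nat_lit 3186690611958) (nat_lit 76) (nat_lit 3184811087706) (nat_lit 1) (nat_lit 4) (nat_lit 2) (nat_lit 5) (nat_lit 2) (nat_lit 4) (nat_lit 272) (nat_lit 188) (nat_lit 140)) (XT.nd (nat_lit 78) (nat_lit 0) (nat_lit 0) (XT.lf (nat_lit 0) (nat_lit 33759299754654) (nat_lit 76) (nat_lit 3663809101901) (nat_lit 76) (nat_lit 3661929278095) (nat_lit 1) (nat_lit 4) (nat_lit 2) (nat_lit 5) (nat_lit 2) (nat_lit 4) (nat_lit 273) (nat_lit 188) (nat_lit 139)) (XT.lf (nat_lit 0) (nat_lit 38824561953979) (nat_lit 76) (nat_lit 4212495544332) (nat_lit 76) (nat_lit 4210615460044) (nat_lit 1) (nat_lit 4) (nat_lit 2) (nat_lit 5) (nat_lit 2) (nat_lit 4) (nat_lit 274) (nat_lit 188) (nat_lit 138)))) (XT.nd (nat_lit 26832) (nat_lit 0) (nat_lit 0) (XT.nd (nat_lit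 78) (nat_lit 0) (nat_lit 0) (XT.lf (nat_lit 0) (nat_lit 78099274622486) (nat_lit 76) (nat_lit 8466869146127) (nat_lit 76) (nat_lit 8464988188663) (nat_lit 1) (nat_lit 4) (nat_lit 2) (nat_lit 5) (nat_lit 2) (nat_lit 4) (nat_lit 279) (nat_lit 188) (nat_lit 133)) (XT.lf (nat_lit 0) (nat_lit 89815531515153) (nat_lit 76) (nat_lit 9736015272596) (nat_lit 76) (nat_lit 9734134202519) (nat_lit 1) (nat_lit 4) (nat_lit 2) (nat_lit 5) (nat_lit 2) (nat_lit 4) (nat_lit 280) (nat_lit 188) (nat_lit 132))) (XT.nd (nat_lit 78) (nat_lit 0) (nat_lit 0) (XT.lf (nat_lit 0) (nat_lit 3087096214) (nat_lit 76) (nat_lit 7160832697) (nat_lit 76) (nat_lit 7160832697) (nat_lit 1) (nat_lit 4) (nat_lit 2) (nat_lit 5) (nat_lit 2) (nat_lit 4) (nat_lit 222) (nat_lit 189) (nat_lit 189)) (XT.lf (nat_lit 0) (nat_lit 11603266574) (nat_lit 76) (nat_lit 14160494902) (nat_lit 76) (nat_lit 13878221777) (nat_lit 1) (nat_lit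 4) (nat_lit 2) (nat_lit 5) (nat_lit 2) (nat_lit 4) (nat_lit 223) (nat_lit 189) (nat_lit 188)))))) (XT.nd (nat_lit 468) (nat_lit 0) (nat_lit 0) (XT.nd (nat_lit 234) (nat_lit 0) (nat_lit 0) (XT.nd (nat_lit 78) (nat_lit 0) (nat_lit 0) (XT.lf (nat_lit 0) (nat_lit 17464040482) (nat_lit 76) (nat_lit 14143818136) (nat_lit 76) (nat_lit 13616090120) (nat_lit 1) (nat_lit 4) (nat_lit 2) (nat_lit 5) (nat_lit 2) (nat_lit 4) (nat_lit 224) (nat_lit 189) (nat_lit 187)) (XT.nd (nat_lit 78) (nat_lit 0) (nat_lit 0) (XT.lf (nat_lit 0) (nat_lit 23871181470) (nat_lit 76) (nat_lit 14271308815) (nat_lit 76) (nat_lit 13530141763) (nat_lit 1) (nat_lit 4) (nat_lit 2) (nat_lit 5) (nat_lit 2) (nat_lit 4) (nat_lit 225) (nat_lit 189) (nat_lit 186)) (XT.lf (nat_lit 0) (nat_lit 30950046644) (nat_lit 76) (nat_lit 14545461320) (nat_lit 76) (nat_lit 13618695106) (nat_lit 1) (nat_lit 4) (nat_lit 2) (nat_lit 5) (nat_lit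 2) (nat_lit 4) (nat_lit 226) (nat_lit 189) (nat_lit 185)))) (XT.nd (nat_lit 78) (nat_lit 0) (nat_lit 0) (XT.lf (nat_lit 0) (nat_lit 38839135540) (nat_lit 76) (nat_lit 14971639505) (nat_lit 76) (nat_lit 13883482716) (nat_lit 1) (nat_lit 4) (nat_lit 2) (nat_lit 5) (nat_lit 2) (nat_lit 4) (nat_lit 227) (nat_lit 189) (nat_lit 184)) (XT.nd (nat_lit 78) (nat_lit 0) (nat_lit 0) (XT.lf (nat_lit 0) (nat_lit 47692799897) (nat_lit 76) (nat_lit 15558181639) (nat_lit 76) (nat_lit 14329685219) (nat_lit 1) (nat_lit 4) (nat_lit 2) (nat_lit 5) (nat_lit 2) (nat_lit 4) (nat_lit 228) (nat_lit 189) (nat_lit 183)) (XT.lf (nat_lit 0) (nat_lit 57684263582) (nat_lit 76) (nat_lit 16316563547) (nat_lit 76) (nat_lit 14966032665) (nat_lit 1) (nat_lit 4) (nat_lit 2) (nat_lit 5) (nat_lit 2) (nat_lit 4) (nat_lit 229) (nat_lit 189) (nat_lit 182))))) (XT.nd (nat_lit 234) (nat_lit 0) (nat_lit 0) (XT.nd (nat_lit 78)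 (nat_lit 0) (nat_lit 0) (XT.lf (nat_lit 0) (nat_lit 69009011756) (nat_lit 76) (nat_lit 17261623134) (nat_lit 76) (nat_lit 15804975329) (nat_lit 1) (nat_lit 4) (nat_lit 2) (nat_lit 5) (nat_lit 2) (nat_lit 4) (nat_lit 230) (nat_lit 189) (nat_lit 181)) (XT.nd (nat_lit 78) (nat_lit 0) (nat_lit 0) (XT.lf (nat_lit 0) (nat_lit 81888615578) (nat_lit 76) (nat_lit 18411850698) (nat_lit 76) (nat_lit 16862927307) (nat_lit 1) (nat_lit 4) (nat_lit 2) (nat_lit 5) (nat_lit 2) (nat_lit 4) (nat_lit 231) (nat_lit 189) (nat_lit 180)) (XT.lf (nat_lit 0) (nat_lit 96575067296) (nat_lit 76) (nat_lit 19789750690) (nat_lit 76) (nat_lit 18160587660) (nat_lit 1) (nat_lit 4) (nat_lit 2) (nat_lit 5) (nat_lit 2) (nat_lit 4) (nat_lit 232) (nat_lit 189) (nat_lit 179)))) (XT.nd (nat_lit 156) (nat_lit 0) (nat_lit 0) (XT.nd (nat_lit 78) (nat_lit 0) (nat_lit 0) (XT.lf (nat_lit 0) (nat_lit 113355710531) (nat_lit 76)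 (nat_lit 21422282024) (nat_lit 76) (nat_lit 19723345395) (nat_lit 1) (nat_lit 4) (nat_lit 2) (nat_lit 5) (nat_lit 2) (nat_lit 4) (nat_lit 233) (nat_lit 189) (nat_lit 178)) (XT.lf (nat_lit 0) (nat_lit 132558862216) (nat_lit 76) (nat_lit 23341385530) (nat_lit 76) (nat_lit 21581776206) (nat_lit 1) (nat_lit 4) (nat_lit 2) (nat_lit 5) (nat_lit 2) (nat_lit 4) (nat_lit 234) (nat_lit 189) (nat_lit 177))) (XT.nd (nat_lit 78) (nat_lit 0) (nat_lit 0) (XT.lf (nat_lit 0) (nat_lit 154560236189) (nat_lit 76) (nat_lit 25584608885) (nat_lit 76) (nat_lit 23772240695) (nat_lit 1) (nat_lit 4) (nat_lit 2) (nat_lit 5) (nat_lit 2) (nat_lit 4) (nat_lit 235) (nat_lit 189) (nat_lit 176)) (XT.lf (nat_lit 0) (nat_lit 179790294114) (nat_lit 76) (nat_lit 28195841242) (nat_lit 76) (nat_lit 26337595778) (nat_lit 1) (nat_lit 4) (nat_lit 2) (nat_lit 5) (nat_lit 2) (nat_lit 4) (nat_lit 236) (nat_lit 189) (nat_lit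 175))))))) (XT.nd (nat_lit 1014) (nat_lit 0) (nat_lit 0) (XT.nd (nat_lit 468) (nat_lit 0) (nat_lit 0) (XT.nd (nat_lit 234) (nat_lit 0) (nat_lit 0) (XT.nd (nat_lit 78) (nat_lit 0) (nat_lit 0) (XT.lf (nat_lit 0) (nat_lit 208742667559) (nat_lit 76) (nat_lit 31226171930) (nat_lit 76) (nat_lit 29328033184) (nat_lit 1) (nat_lit 4) (nat_lit 2) (nat_lit 5) (nat_lit 2) (nat_lit 4) (nat_lit 237) (nat_lit 189) (nat_lit 174)) (XT.nd (nat_lit 78) (nat_lit 0) (nat_lit 0) (XT.lf (nat_lit 0) (nat_lit 241983816004) (nat_lit 76) (nat_lit 34734890027) (nat_lit 76) (nat_lit 32802061471) (nat_lit 1) (nat_lit 4) (nat_lit 2) (nat_lit 5) (nat_lit 2) (nat_lit 4) (nat_lit 238) (nat_lit 189) (nat_lit 173)) (XT.lf (nat_lit 0) (nat_lit 280164109746) (nat_lit 76) (nat_lit 38790644366) (nat_lit 76) (nat_lit 36827650757) (nat_lit 1) (nat_lit 4) (nat_lit 2) (nat_lit 5) (nat_lit 2) (nat_lit 4) (nat_lit 239) (nat_lit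 189) (nat_lit 172)))) (XT.nd (nat_lit 78) (nat_lit 0) (nat_lit 0) (XT.lf (nat_lit 0) (nat_lit 324030554531) (nat_lit 76) (nat_lit 43472786661) (nat_lit 76) (nat_lit 41483562572) (nat_lit 1) (nat_lit 4) (nat_lit 2) (nat_lit 5) (nat_lit 2) (nat_lit 4) (nat_lit 240) (nat_lit 189) (nat_lit 171)) (XT.nd (nat_lit 78) (nat_lit 0) (nat_lit 0) (XT.lf (nat_lit 0) (nat_lit 374441406887) (nat_lit 76) (nat_lit 48872924046) (nat_lit 76) (nat_lit 46860890843) (nat_lit 1) (nat_lit 4) (nat_lit 2) (nat_lit 5) (nat_lit 2) (nat_lit 4) (nat_lit 241) (nat_lit 189) (nat_lit 170)) (XT.lf (nat_lit 0) (nat_lit 432382966101) (nat_lit 76) (nat_lit 55096711381) (nat_lit 76) (nat_lit 53064844167) (nat_lit 1) (nat_lit 4) (nat_lit 2) (nat_lit 5) (nat_lit 2) (nat_lit 4) (nat_lit 242) (nat_lit 189) (nat_lit 169))))) (XT.nd (nat_lit 234) (nat_lit 0) (nat_lit 0) (XT.nd (nat_lit 78) (nat_lit 0) (nat_lit 0) (XT.lf (nat_lit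 0) (nat_lit 498988871374) (nat_lit 76) (nat_lit 62265918419) (nat_lit 76) (nat_lit 60216804238) (nat_lit 1) (nat_lit 4) (nat_lit 2) (nat_lit 5) (nat_lit 2) (nat_lit 4) (nat_lit 243) (nat_lit 189) (nat_lit 168)) (XT.nd (nat_lit 78) (nat_lit 0) (nat_lit 0) (XT.lf (nat_lit 0) (nat_lit 575562281722) (nat_lit 76) (nat_lit 70520812255) (nat_lit 76) (nat_lit 68456700711) (nat_lit 1) (nat_lit 4) (nat_lit 2) (nat_lit 5) (nat_lit 2) (nat_lit 4) (nat_lit 244) (nat_lit 189) (nat_lit 167)) (XT.lf (nat_lit 0) (nat_lit 663601372565) (nat_lit 76) (nat_lit 80022901679) (nat_lit 76) (nat_lit 77945748952) (nat_lit 1) (nat_lit 4) (nat_lit 2) (nat_lit 5) (nat_lit 2) (nat_lit 4) (nat_lit 245) (nat_lit 189) (nat_lit 166)))) (XT.nd (nat_lit 156) (nat_lit 0) (nat_lit 0) (XT.nd (nat_lit 78) (nat_lit 0) (nat_lit 0) (XT.lf (nat_lit 0) (nat_lit 764828647854) (nat_lit 76) (nat_lit 90958097139) (nat_lit 76) (nat_lit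 88869604251) (nat_lit 1) (nat_lit 4) (nat_lit 2) (nat_lit 5) (nat_lit 2) (nat_lit 4) (nat_lit 246) (nat_lit 189) (nat_lit 165)) (XT.lf (nat_lit 0) (nat_lit 881224641237) (nat_lit 76) (nat_lit 103540348110) (nat_lit 76) (nat_lit 101441994212) (nat_lit 1) (nat_lit 4) (nat_lit 2) (nat_lit 5) (nat_lit 2) (nat_lit 4) (nat_lit 247) (nat_lit 189) (nat_lit 164))) (XT.nd (nat_lit 78) (nat_lit 0) (nat_lit 0) (XT.lf (nat_lit 0) (nat_lit 1015066665626) (nat_lit 76) (nat_lit 118015829068) (nat_lit 76) (nat_lit 115908900380) (nat_lit 1) (nat_lit 4) (nat_lit 2) (nat_lit 5) (nat_lit 2) (nat_lit 4) (nat_lit 248) (nat_lit 189) (nat_lit 163)) (XT.lf (nat_lit 0) (nat_lit 1168973369327) (nat_lit 76) (nat_lit 134667755944) (nat_lit 76) (nat_lit 132553370916) (nat_lit 1) (nat_lit 4) (nat_lit 2) (nat_lit 5) (nat_lit 2) (nat_lit 4) (nat_lit 249) (nat_lit 189) (nat_lit 162)))))) (XT.nd (nat_lit 546) (nat_lit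 0) (nat_lit 0) (XT.nd (nat_lit 234) (nat_lit 0) (nat_lit 0) (XT.nd (nat_lit 78) (nat_lit 0) (nat_lit 0) (XT.lf (nat_lit 0) (nat_lit 1345955970454) (nat_lit 76) (nat_lit 153821927308) (nat_lit 76) (nat_lit 151701058507) (nat_lit 1) (nat_lit 4) (nat_lit 2) (nat_lit 5) (nat_lit 2) (nat_lit 4) (nat_lit 250) (nat_lit 189) (nat_lit 161)) (XT.nd (nat_lit 78) (nat_lit 0) (nat_lit 0) (XT.lf (nat_lit 0) (nat_lit 1549477172073) (nat_lit 76) (nat_lit 175853098687) (nat_lit 76) (nat_lit 173726591821) (nat_lit 1) (nat_lit 4) (nat_lit 2) (nat_lit 5) (nat_lit 2) (nat_lit 4) (nat_lit 251) (nat_lit 189) (nat_lit 160)) (XT.lf (nat_lit 0) (nat_lit 1783518910737) (nat_lit 76) (nat_lit 201192314737) (nat_lit 76) (nat_lit 199060905207) (nat_lit 1) (nat_lit 4) (nat_lit 2) (nat_lit 5) (nat_lit 2) (nat_lit 4) (nat_lit 252) (nat_lit 189) (nat_lit 159)))) (XT.nd (nat_lit 156) (nat_lit 0) (nat_lit 0) (XT.nd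 (nat_lit 78) (nat_lit 0) (nat_lit 0) (XT.lf (nat_lit 0) (nat_lit 2052660263942) (nat_lit 76) (nat_lit 230335342730) (nat_lit 76) (nat_lit 228199670014) (nat_lit 1) (nat_lit 4) (nat_lit 2) (nat_lit 5) (nat_lit 2) (nat_lit 4) (nat_lit 253) (nat_lit 189) (nat_lit 158)) (XT.lf (nat_lit 0) (nat_lit 2362167040773) (nat_lit 76) (nat_lit 263852372344) (nat_lit 76) (nat_lit 261712992509) (nat_lit 1) (nat_lit 4) (nat_lit 2) (nat_lit 5) (nat_lit 2) (nat_lit 4) (nat_lit 254) (nat_lit 189) (nat_lit 157))) (XT.nd (nat_lit 78) (nat_lit 0) (nat_lit 0) (XT.lf (nat_lit 0) (nat_lit 2718094808602) (nat_lit 76) (nat_lit 302399171549) (nat_lit 76) (nat_lit 300256568133) (nat_lit 1) (nat_lit 4) (nat_lit 2) (nat_lit 5) (nat_lit 2) (nat_lit 4) (nat_lit 255) (nat_lit 189) (nat_lit 156)) (XT.lf (nat_lit 0) (nat_lit 3127407371582) (nat_lit 76) (nat_lit 346729916851) (nat_lit 76) (nat_lit 344584510321) (nat_lit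 1) (nat_lit 4) (nat_lit 2) (nat_lit 5) (nat_lit 2) (nat_lit 4) (nat_lit 256) (nat_lit 189) (nat_lit 155))))) (XT.nd (nat_lit 234) (nat_lit 0) (nat_lit 0) (XT.nd (nat_lit 78) (nat_lit 0) (nat_lit 0) (XT.lf (nat_lit 0) (nat_lit 3598113018990) (nat_lit 76) (nat_lit 397711948920) (nat_lit 76) (nat_lit 395564104899) (nat_lit 1) (nat_lit 4) (nat_lit 2) (nat_lit 5) (nat_lit 2) (nat_lit 4) (nat_lit 257) (nat_lit 189) (nat_lit 154)) (XT.nd (nat_lit 78) (nat_lit 0) (nat_lit 0) (XT.lf (nat_lit 0) (nat_lit 4139421209143) (nat_lit 76) (nat_lit 456342742296) (nat_lit 76) (nat_lit 454192778718) (nat_lit 1) (nat_lit 4) (nat_lit 2) (nat_lit 5) (nat_lit 2) (nat_lit 4) (nat_lit 258) (nat_lit 189) (nat_lit 153)) (XT.lf (nat_lit 0) (nat_lit 4761922754459) (nat_lit 76) (nat_lit 523769421197) (nat_lit 76) (nat_lit 521617614526) (nat_lit 1) (nat_lit 4) (nat_lit 2) (nat_lit 5) (nat_lit 2) (nat_lit 4) (nat_lit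 259) (nat_lit 189) (nat_lit 152)))) (XT.nd (nat_lit 156) (nat_lit 0) (nat_lit 0) (XT.nd (nat_lit 78) (nat_lit 0) (nat_lit 0) (XT.lf (nat_lit 0) (nat_lit 5477797032997) (nat_lit 76) (nat_lit 601311203254) (nat_lit 76) (nat_lit 599157793893) (nat_lit 1) (nat_lit 4) (nat_lit 2) (nat_lit 5) (nat_lit 2) (nat_lit 4) (nat_lit 260) (nat_lit 189) (nat_lit 151)) (XT.lf (nat_lit 0) (nat_lit 6301050280642) (nat_lit 76) (nat_lit 690485210290) (nat_lit 76) (nat_lit 688330407286) (nat_lit 1) (nat_lit 4) (nat_lit 2) (nat_lit 5) (nat_lit 2) (nat_lit 4) (nat_lit 261) (nat_lit 189) (nat_lit 150))) (XT.nd (nat_lit 78) (nat_lit 0) (nat_lit 0) (XT.lf (nat_lit 0) (nat_lit 7247789626152) (nat_lit 76) (nat_lit 793036151137) (nat_lit 76) (nat_lit 790880136269) (nat_lit 1) (nat_lit 4) (nat_lit 2) (nat_lit 5) (nat_lit 2) (nat_lit 4) (nat_lit 262) (nat_lit 189) (nat_lit 149)) (XT.lf (nat_lit 0) (nat_lit 8336538230635)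 (nat_lit 76) (nat_lit 910970457248) (nat_lit 76) (nat_lit 908813388586) (nat_lit 1) (nat_lit 4) (nat_lit 2) (nat_lit 5) (nat_lit 2) (nat_lit 4) (nat_lit 263) (nat_lit 189) (nat_lit 148))))))))
noncomputable def xc13 : XT := (XT.nd (nat_lit 29406) (nat_lit 0) (nat_lit 0) (XT.nd (nat_lit 28314) (nat_lit 0) (nat_lit 0) (XT.nd (nat_lit 1248) (nat_lit 0) (nat_lit 0) (XT.nd (nat_lit 234) (nat_lit 0) (nat_lit 0) (XT.nd (nat_lit 78) (nat_lit 0) (nat_lit 0) (XT.lf (nat_lit 0) (nat_lit 9588597697223) (nat_lit 76) (nat_lit 1046595538960) (nat_lit 76) (nat_lit 1044437553954) (nat_lit 1) (nat_lit 4) (nat_lit 2) (nat_lit 5) (nat_lit 2) (nat_lit 4) (nat_lit 264) (nat_lit 189) (nat_lit 147)) (XT.nd (nat_lit 78) (nat_lit 0) (nat_lit 0) (XT.lf (nat_lit 0) (nat_lit 11028464841565) (nat_lit 76) (nat_lit 1202564930479) (nat_lit 76) (nat_lit 1200406148653) (nat_lit 1) (nat_lit 4) (nat_lit 2) (nat_lit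 5) (nat_lit 2) (nat_lit 4) (nat_lit 265) (nat_lit 189) (nat_lit 146)) (XT.lf (nat_lit 0) (nat_lit 12684310977356) (nat_lit 76) (nat_lit 1381930206857) (nat_lit 76) (nat_lit 1379770732144) (nat_lit 1) (nat_lit 4) (nat_lit 2) (nat_lit 5) (nat_lit 2) (nat_lit 4) (nat_lit 266) (nat_lit 189) (nat_lit 145)))) (XT.nd (nat_lit 858) (nat_lit 0) (nat_lit 0) (XT.lf (nat_lit 0) (nat_lit 14588533094209) (nat_lit 76) (nat_lit 1588200688719) (nat_lit 76) (nat_lit 1586040611496) (nat_lit 1) (nat_lit 4) (nat_lit 2) (nat_lit 5) (nat_lit 2) (nat_lit 4) (nat_lit 267) (nat_lit 189) (nat_lit 144)) (XT.nd (nat_lit 78) (nat_lit 0) (nat_lit 0) (XT.lf (nat_lit 0) (nat_lit 67909861095105) (nat_lit 76) (nat_lit 7364147339660) (nat_lit 76) (nat_lit 7361984109072) (nat_lit 1) (nat_lit 4) (nat_lit 2) (nat_lit 5) (nat_lit 2) (nat_lit 4) (nat_lit 278) (nat_lit 189) (nat_lit 133)) (XT.lf (nat_lit 0) (nat_lit 78097910637995)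 (nat_lit 76) (nat_lit 8467752635727) (nat_lit 76) (nat_lit 8465589292525) (nat_lit 1) (nat_lit 4) (nat_lit 2) (nat_lit 5) (nat_lit 2) (nat_lit 4) (nat_lit 279) (nat_lit 189) (nat_lit 132))))) (XT.nd (nat_lit 26754) (nat_lit 0) (nat_lit 0) (XT.nd (nat_lit 26598) (nat_lit 0) (nat_lit 0) (XT.lf (nat_lit 0) (nat_lit 89814167459656) (nat_lit 76) (nat_lit 9736898793494) (nat_lit 76) (nat_lit 9734735352367) (nat_lit 1) (nat_lit 4) (nat_lit 2) (nat_lit 5) (nat_lit 2) (nat_lit 4) (nat_lit 280) (nat_lit 189) (nat_lit 131)) (XT.nd (nat_lit 78) (nat_lit 76) (nat_lit 0) (XT.lf (nat_lit 0) (nat_lit 5944884861) (nat_lit 152) (nat_lit 1626993984) (nat_lit 0) (nat_lit 5944884861) (nat_lit 2) (nat_lit 5) (nat_lit 4) (nat_lit 4) (nat_lit 2) (nat_lit 4) (nat_lit 220) (nat_lit 190) (nat_lit 190)) (XT.lf (nat_lit 0) (nat_lit 1070597032) (nat_lit 76) (nat_lit 14955097047) (nat_lit 76) (nat_lit 14630482953)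 (nat_lit 1) (nat_lit 4) (nat_lit 2) (nat_lit 5) (nat_lit 2) (nat_lit 4) (nat_lit 221) (nat_lit 190) (nat_lit 189)))) (XT.nd (nat_lit 156) (nat_lit 0) (nat_lit 0) (XT.nd (nat_lit 78) (nat_lit 0) (nat_lit 0) (XT.lf (nat_lit 0) (nat_lit 5969513098) (nat_lit 76) (nat_lit 14736497953) (nat_lit 76) (nat_lit 14129610734) (nat_lit 1) (nat_lit 4) (nat_lit 2) (nat_lit 5) (nat_lit 2) (nat_lit 4) (nat_lit 222) (nat_lit 190) (nat_lit 188)) (XT.lf (nat_lit 0) (nat_lit 11220605216) (nat_lit 76) (nat_lit 14653778298) (nat_lit 76) (nat_lit 13801436188) (nat_lit 1) (nat_lit 4) (nat_lit 2) (nat_lit 5) (nat_lit 2) (nat_lit 4) (nat_lit 223) (nat_lit 190) (nat_lit 187))) (XT.nd (nat_lit 78) (nat_lit 0) (nat_lit 0) (XT.lf (nat_lit 0) (nat_lit 16926612145) (nat_lit 76) (nat_lit 14705319653) (nat_lit 76) (nat_lit 13639538507) (nat_lit 1) (nat_lit 4) (nat_lit 2) (nat_lit 5) (nat_lit 2) (nat_lit 4) (nat_lit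 224) (nat_lit 190) (nat_lit 186)) (XT.lf (nat_lit 0) (nat_lit 23199173150) (nat_lit 76) (nat_lit 14892130436) (nat_lit 76) (nat_lit 13640750128) (nat_lit 1) (nat_lit 4) (nat_lit 2) (nat_lit 5) (nat_lit 2) (nat_lit 4) (nat_lit 225) (nat_lit 190) (nat_lit 185)))))) (XT.nd (nat_lit 546) (nat_lit 0) (nat_lit 0) (XT.nd (nat_lit 234) (nat_lit 0) (nat_lit 0) (XT.nd (nat_lit 78) (nat_lit 0) (nat_lit 0) (XT.lf (nat_lit 0) (nat_lit 30161012252) (nat_lit 76) (nat_lit 15217865641) (nat_lit 76) (nat_lit 13805094758) (nat_lit 1) (nat_lit 4) (nat_lit 2) (nat_lit 5) (nat_lit 2) (nat_lit 4) (nat_lit 226) (nat_lit 190) (nat_lit 184)) (XT.nd (nat_lit 78) (nat_lit 0) (nat_lit 0) (XT.lf (nat_lit 0) (nat_lit 37948339346) (nat_lit 76) (nat_lit 15688898347) (nat_lit 76) (nat_lit 14135787833) (nat_lit 1) (nat_lit 4) (nat_lit 2) (nat_lit 5) (nat_lit 2) (nat_lit 4) (nat_lit 227) (nat_lit 190) (nat_lit 183))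 (XT.lf (nat_lit 0) (nat_lit 46713515180) (nat_lit 76) (nat_lit 16314444413) (nat_lit 76) (nat_lit 14639299438) (nat_lit 1) (nat_lit 4) (nat_lit 2) (nat_lit 5) (nat_lit 2) (nat_lit 4) (nat_lit 228) (nat_lit 190) (nat_lit 182)))) (XT.nd (nat_lit 156) (nat_lit 0) (nat_lit 0) (XT.nd (nat_lit 78) (nat_lit 0) (nat_lit 0) (XT.lf (nat_lit 0) (nat_lit 56628032324) (nat_lit 76) (nat_lit 17106742783) (nat_lit 76) (nat_lit 15325480884) (nat_lit 1) (nat_lit 4) (nat_lit 2) (nat_lit 5) (nat_lit 2) (nat_lit 4) (nat_lit 229) (nat_lit 190) (nat_lit 181)) (XT.lf (nat_lit 0) (nat_lit 67885870461) (nat_lit 76) (nat_lit 18081294946) (nat_lit 76) (nat_lit 16207757462) (nat_lit 1) (nat_lit 4) (nat_lit 2) (nat_lit 5) (nat_lit 2) (nat_lit 4) (nat_lit 230) (nat_lit 190) (nat_lit 180))) (XT.nd (nat_lit 78) (nat_lit 0) (nat_lit 0) (XT.lf (nat_lit 0) (nat_lit 80707291643) (nat_lit 76) (nat_lit 19257168228) (nat_lit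 76) (nat_lit 17303391104) (nat_lit 1) (nat_lit 4) (nat_lit 2) (nat_lit 5) (nat_lit 2) (nat_lit 4) (nat_lit 231) (nat_lit 190) (nat_lit 179)) (XT.lf (nat_lit 0) (nat_lit 95343149761) (nat_lit 76) (nat_lit 20657368845) (nat_lit 76) (nat_lit 18633818122) (nat_lit 1) (nat_lit 4) (nat_lit 2) (nat_lit 5) (nat_lit 2) (nat_lit 4) (nat_lit 232) (nat_lit 190) (nat_lit 178))))) (XT.nd (nat_lit 234) (nat_lit 0) (nat_lit 0) (XT.nd (nat_lit 78) (nat_lit 0) (nat_lit 0) (XT.lf (nat_lit 0) (nat_lit 112079798561) (nat_lit 76) (nat_lit 22309292026) (nat_lit 76) (nat_lit 20225068608) (nat_lit 1) (nat_lit 4) (nat_lit 2) (nat_lit 5) (nat_lit 2) (nat_lit 4) (nat_lit 233) (nat_lit 190) (nat_lit 177)) (XT.nd (nat_lit 78) (nat_lit 0) (nat_lit 0) (XT.lf (nat_lit 0) (nat_lit 131244694216) (nat_lit 76) (nat_lit 24245258008) (nat_lit 76) (nat_lit 22108275725) (nat_lit 1) (nat_lit 4) (nat_lit 2) (nat_lit 5) (nat_lit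 2) (nat_lit 4) (nat_lit 234) (nat_lit 190) (nat_lit 176)) (XT.lf (nat_lit 0) (nat_lit 153212802075) (nat_lit 76) (nat_lit 26503144386) (nat_lit 76) (nat_lit 24320284828) (nat_lit 1) (nat_lit 4) (nat_lit 2) (nat_lit 5) (nat_lit 2) (nat_lit 4) (nat_lit 235) (nat_lit 190) (nat_lit 175)))) (XT.nd (nat_lit 156) (nat_lit 0) (nat_lit 0) (XT.nd (nat_lit 78) (nat_lit 0) (nat_lit 0) (XT.lf (nat_lit 0) (nat_lit 178413932945) (nat_lit 76) (nat_lit 29127127197) (nat_lit 76) (nat_lit 26904374358) (nat_lit 1) (nat_lit 4) (nat_lit 2) (nat_lit 5) (nat_lit 2) (nat_lit 4) (nat_lit 236) (nat_lit 190) (nat_lit 174)) (XT.lf (nat_lit 0) (nat_lit 207341152428) (nat_lit 76) (nat_lit 32168545237) (nat_lit 76) (nat_lit 29911102587) (nat_lit 1) (nat_lit 4) (nat_lit 2) (nat_lit 5) (nat_lit 2) (nat_lit 4) (nat_lit 237) (nat_lit 190) (nat_lit 173))) (XT.nd (nat_lit 78) (nat_lit 0) (nat_lit 0) (XT.lf (nat_lit 0)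 (nat_lit 240560427864) (nat_lit 76) (nat_lit 35686904509) (nat_lit 76) (nat_lit 33399296807) (nat_lit 1) (nat_lit 4) (nat_lit 2) (nat_lit 5) (nat_lit 2) (nat_lit 4) (nat_lit 238) (nat_lit 190) (nat_lit 172)) (XT.lf (nat_lit 0) (nat_lit 278721701597) (nat_lit 76) (nat_lit 39751042479) (nat_lit 76) (nat_lit 37437204296) (nat_lit 1) (nat_lit 4) (nat_lit 2) (nat_lit 5) (nat_lit 2) (nat_lit 4) (nat_lit 239) (nat_lit 190) (nat_lit 171))))))) (XT.nd (nat_lit 1014) (nat_lit 0) (nat_lit 0) (XT.nd (nat_lit 468) (nat_lit 0) (nat_lit 0) (XT.nd (nat_lit 234) (nat_lit 0) (nat_lit 0) (XT.nd (nat_lit 78) (nat_lit 0) (nat_lit 0) (XT.lf (nat_lit 0) (nat_lit 322571607245) (nat_lit 76) (nat_lit 44440474888) (nat_lit 76) (nat_lit 42103827592) (nat_lit 1) (nat_lit 4) (nat_lit 2) (nat_lit 5) (nat_lit 2) (nat_lit 4) (nat_lit 240) (nat_lit 190) (nat_lit 170)) (XT.nd (nat_lit 78) (nat_lit 0) (nat_lit 0) (XT.lf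 (nat_lit 0) (nat_lit 372968077743) (nat_lit 76) (nat_lit 49846951502) (nat_lit 76) (nat_lit 47490470194) (nat_lit 1) (nat_lit 4) (nat_lit 2) (nat_lit 5) (nat_lit 2) (nat_lit 4) (nat_lit 241) (nat_lit 190) (nat_lit 169)) (XT.lf (nat_lit 0) (nat_lit 430897130992) (nat_lit 76) (nat_lit 56076251210) (nat_lit 76) (nat_lit 53702522936) (nat_lit 1) (nat_lit 4) (nat_lit 2) (nat_lit 5) (nat_lit 2) (nat_lit 4) (nat_lit 242) (nat_lit 190) (nat_lit 168)))) (XT.nd (nat_lit 78) (nat_lit 0) (nat_lit 0) (XT.lf (nat_lit 0) (nat_lit 497492161513) (nat_lit 76) (nat_lit 63250251617) (nat_lit 76) (nat_lit 60861525980) (nat_lit 1) (nat_lit 4) (nat_lit 2) (nat_lit 5) (nat_lit 2) (nat_lit 4) (nat_lit 243) (nat_lit 190) (nat_lit 167)) (XT.nd (nat_lit 78) (nat_lit 0) (nat_lit 0) (XT.lf (nat_lit 0) (nat_lit 574056115556) (nat_lit 76) (nat_lit 71509313598) (nat_lit 76) (nat_lit 69107546777) (nat_lit 1) (nat_lit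 4) (nat_lit 2) (nat_lit 5) (nat_lit 2) (nat_lit 4) (nat_lit 244) (nat_lit 190) (nat_lit 166)) (XT.lf (nat_lit 0) (nat_lit 662086983524) (nat_lit 76) (nat_lit 81015027498) (nat_lit 76) (nat_lit 78601920516) (nat_lit 1) (nat_lit 4) (nat_lit 2) (nat_lit 5) (nat_lit 2) (nat_lit 4) (nat_lit 245) (nat_lit 190) (nat_lit 165))))) (XT.nd (nat_lit 234) (nat_lit 0) (nat_lit 0) (XT.nd (nat_lit 78) (nat_lit 0) (nat_lit 0) (XT.lf (nat_lit 0) (nat_lit 763307108488) (nat_lit 76) (nat_lit 91953374675) (nat_lit 76) (nat_lit 89530406684) (nat_lit 1) (nat_lit 4) (nat_lit 2) (nat_lit 5) (nat_lit 2) (nat_lit 4) (nat_lit 246) (nat_lit 190) (nat_lit 164)) (XT.nd (nat_lit 78) (nat_lit 0) (nat_lit 0) (XT.lf (nat_lit 0) (nat_lit 879696884196) (nat_lit 76) (nat_lit 104538366270) (nat_lit 76) (nat_lit 102106823488) (nat_lit 1) (nat_lit 4) (nat_lit 2) (nat_lit 5) (nat_lit 2) (nat_lit 4) (nat_lit 247) (nat_lit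 190) (nat_lit 163)) (XT.lf (nat_lit 0) (nat_lit 1013533501912) (nat_lit 76) (nat_lit 119016230379) (nat_lit 76) (nat_lit 116577231257) (nat_lit 1) (nat_lit 4) (nat_lit 2) (nat_lit 5) (nat_lit 2) (nat_lit 4) (nat_lit 248) (nat_lit 190) (nat_lit 162)))) (XT.nd (nat_lit 156) (nat_lit 0) (nat_lit 0) (XT.nd (nat_lit 78) (nat_lit 0) (nat_lit 0) (XT.lf (nat_lit 0) (nat_lit 1167435504158) (nat_lit 76) (nat_lit 135670229560) (nat_lit 76) (nat_lit 133224746665) (nat_lit 1) (nat_lit 4) (nat_lit 2) (nat_lit 5) (nat_lit 2) (nat_lit 4) (nat_lit 249) (nat_lit 190) (nat_lit 161)) (XT.lf (nat_lit 0) (nat_lit 1344414017063) (nat_lit 76) (nat_lit 154826202929) (nat_lit 76) (nat_lit 152375081970) (nat_lit 1) (nat_lit 4) (nat_lit 2) (nat_lit 5) (nat_lit 2) (nat_lit 4) (nat_lit 250) (nat_lit 190) (nat_lit 160))) (XT.nd (nat_lit 78) (nat_lit 0) (nat_lit 0) (XT.lf (nat_lit 0) (nat_lit 1547931663706) (nat_lit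 76) (nat_lit 176858941268) (nat_lit 76) (nat_lit 174402917644) (nat_lit 1) (nat_lit 4) (nat_lit 2) (nat_lit 5) (nat_lit 2) (nat_lit 4) (nat_lit 251) (nat_lit 190) (nat_lit 159)) (XT.lf (nat_lit 0) (nat_lit 1781970311087) (nat_lit 76) (nat_lit 202199519893) (nat_lit 76) (nat_lit 199739233083) (nat_lit 1) (nat_lit 4) (nat_lit 2) (nat_lit 5) (nat_lit 2) (nat_lit 4) (nat_lit 252) (nat_lit 190) (nat_lit 158)))))) (XT.nd (nat_lit 546) (nat_lit 0) (nat_lit 0) (XT.nd (nat_lit 234) (nat_lit 0) (nat_lit 0) (XT.nd (nat_lit 78) (nat_lit 0) (nat_lit 0) (XT.lf (nat_lit 0) (nat_lit 2051108976220) (nat_lit 76) (nat_lit 231343732733) (nat_lit 76) (nat_lit 228879738805) (nat_lit 1) (nat_lit 4) (nat_lit 2) (nat_lit 5) (nat_lit 2) (nat_lit 4) (nat_lit 253) (nat_lit 190) (nat_lit 157)) (XT.nd (nat_lit 78) (nat_lit 0) (nat_lit 0) (XT.lf (nat_lit 0) (nat_lit 2360613415597) (nat_lit 76) (nat_lit 264861792649)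 (nat_lit 76) (nat_lit 262394575139) (nat_lit 1) (nat_lit 4) (nat_lit 2) (nat_lit 5) (nat_lit 2) (nat_lit 4) (nat_lit 254) (nat_lit 190) (nat_lit 156)) (XT.lf (nat_lit 0) (nat_lit 2716539150857) (nat_lit 76) (nat_lit 303409487768) (nat_lit 76) (nat_lit 300939467144) (nat_lit 1) (nat_lit 4) (nat_lit 2) (nat_lit 5) (nat_lit 2) (nat_lit 4) (nat_lit 255) (nat_lit 190) (nat_lit 155)))) (XT.nd (nat_lit 156) (nat_lit 0) (nat_lit 0) (XT.nd (nat_lit 78) (nat_lit 0) (nat_lit 0) (XT.lf (nat_lit 0) (nat_lit 3125849946386) (nat_lit 76) (nat_lit 347741012127) (nat_lit 76) (nat_lit 345268554012) (nat_lit 1) (nat_lit 4) (nat_lit 2) (nat_lit 5) (nat_lit 2) (nat_lit 4) (nat_lit 256) (nat_lit 190) (nat_lit 154)) (XT.lf (nat_lit 0) (nat_lit 3596554056880) (nat_lit 76) (nat_lit 398723721636) (nat_lit 76) (nat_lit 396249143965) (nat_lit 1) (nat_lit 4) (nat_lit 2) (nat_lit 5) (nat_lit 2) (nat_lit 4) (nat_lit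 257) (nat_lit 190) (nat_lit 153))) (XT.nd (nat_lit 78) (nat_lit 0) (nat_lit 0) (XT.lf (nat_lit 0) (nat_lit 4137860910586) (nat_lit 76) (nat_lit 457355104091) (nat_lit 76) (nat_lit 454878683326) (nat_lit 1) (nat_lit 4) (nat_lit 2) (nat_lit 5) (nat_lit 2) (nat_lit 4) (nat_lit 258) (nat_lit 190) (nat_lit 152)) (XT.lf (nat_lit 0) (nat_lit 4760361293774) (nat_lit 76) (nat_lit 524782295234) (nat_lit 76) (nat_lit 522304271779) (nat_lit 1) (nat_lit 4) (nat_lit 2) (nat_lit 5) (nat_lit 2) (nat_lit 4) (nat_lit 259) (nat_lit 190) (nat_lit 151))))) (XT.nd (nat_lit 234) (nat_lit 0) (nat_lit 0) (XT.nd (nat_lit 78) (nat_lit 0) (nat_lit 0) (XT.lf (nat_lit 0) (nat_lit 5476234561766) (nat_lit 76) (nat_lit 602324522719) (nat_lit 76) (nat_lit 599845105621) (nat_lit 1) (nat_lit 4) (nat_lit 2) (nat_lit 5) (nat_lit 2) (nat_lit 4) (nat_lit 260) (nat_lit 190) (nat_lit 150)) (XT.nd (nat_lit 78) (nat_lit 0)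 (nat_lit 0) (XT.lf (nat_lit 0) (nat_lit 6299486930675) (nat_lit 76) (nat_lit 691498917083) (nat_lit 76) (nat_lit 689018288122) (nat_lit 1) (nat_lit 4) (nat_lit 2) (nat_lit 5) (nat_lit 2) (nat_lit 4) (nat_lit 261) (nat_lit 190) (nat_lit 149)) (XT.lf (nat_lit 0) (nat_lit 7246225512068) (nat_lit 76) (nat_lit 794050194738) (nat_lit 76) (nat_lit 791568511982) (nat_lit 1) (nat_lit 4) (nat_lit 2) (nat_lit 5) (nat_lit 2) (nat_lit 4) (nat_lit 262) (nat_lit 190) (nat_lit 148)))) (XT.nd (nat_lit 156) (nat_lit 0) (nat_lit 0) (XT.nd (nat_lit 78) (nat_lit 0) (nat_lit 0) (XT.lf (nat_lit 0) (nat_lit 8334973452101) (nat_lit 76) (nat_lit 911984793726) (nat_lit 76) (nat_lit 909502194626) (nat_lit 1) (nat_lit 4) (nat_lit 2) (nat_lit 5) (nat_lit 2) (nat_lit 4) (nat_lit 263) (nat_lit 190) (nat_lit 147)) (XT.lf (nat_lit 0) (nat_lit 9587032340905) (nat_lit 76) (nat_lit 1047610130112) (nat_lit 76) (nat_lit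 1045126734193) (nat_lit 1) (nat_lit 4) (nat_lit 2) (nat_lit 5) (nat_lit 2) (nat_lit 4) (nat_lit 264) (nat_lit 190) (nat_lit 146))) (XT.nd (nat_lit 78) (nat_lit 0) (nat_lit 0) (XT.lf (nat_lit 0) (nat_lit 11026898982828) (nat_lit 76) (nat_lit 1203579743087) (nat_lit 76) (nat_lit 1201095654281) (nat_lit 1) (nat_lit 4) (nat_lit 2) (nat_lit 5) (nat_lit 2) (nat_lit 4) (nat_lit 265) (nat_lit 190) (nat_lit 145)) (XT.lf (nat_lit 0) (nat_lit 12682744681732) (nat_lit 76) (nat_lit 1382945212036) (nat_lit 76) (nat_lit 1380460520720) (nat_lit 1) (nat_lit 4) (nat_lit 2) (nat_lit 5) (nat_lit 2) (nat_lit 4) (nat_lit 266) (nat_lit 190) (nat_lit 144))))))))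
noncomputable def xc14 : XT := (XT.nd (nat_lit 29172) (nat_lit 0) (nat_lit 0) (XT.nd (nat_lit 28080) (nat_lit 0) (nat_lit 0) (XT.nd (nat_lit 27534) (nat_lit 0) (nat_lit 0) (XT.nd (nat_lit 936) (nat_lit 0) (nat_lit 0) (XT.nd (nat_lit 780) (nat_lit 0) (nat_lit 0) (XT.lf (nat_lit 0) (nat_lit 14586966418683) (nat_lit 76) (nat_lit 1589215861351) (nat_lit 76) (nat_lit 1586730646113) (nat_lit 1) (nat_lit 4) (nat_lit 2) (nat_lit 5) (nat_lit 2) (nat_lit 4) (nat_lit 267) (nat_lit 190) (nat_lit 143)) (XT.nd (nat_lit 78) (nat_lit 0) (nat_lit 0) (XT.lf (nat_lit 0) (nat_lit 59049118844720) (nat_lit 76) (nat_lit 6405506640802) (nat_lit 76) (nat_lit 6403018796120) (nat_lit 1) (nat_lit 4) (nat_lit 2) (nat_lit 5) (nat_lit 2) (nat_lit 4) (nat_lit 277) (nat_lit 190) (nat_lit 133)) (XT.lf (nat_lit 0) (nat_lit 67908292431283) (nat_lit 76) (nat_lit 7365163388693) (nat_lit 76) (nat_lit 7362675431397) (nat_lit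 1) (nat_lit 4) (nat_lit 2) (nat_lit 5) (nat_lit 2) (nat_lit 4) (nat_lit 278) (nat_lit 190) (nat_lit 132)))) (XT.nd (nat_lit 78) (nat_lit 0) (nat_lit 0) (XT.lf (nat_lit 0) (nat_lit 78096341903167) (nat_lit 76) (nat_lit 8468768716057) (nat_lit 76) (nat_lit 8466280660837) (nat_lit 1) (nat_lit 4) (nat_lit 2) (nat_lit 5) (nat_lit 2) (nat_lit 4) (nat_lit 279) (nat_lit 190) (nat_lit 131)) (XT.nd (nat_lit 26442) (nat_lit 0) (nat_lit 76) (XT.lf (nat_lit 0) (nat_lit 89812598663083) (nat_lit 76) (nat_lit 9737914901041) (nat_lit 76) (nat_lit 9735426760668) (nat_lit 1) (nat_lit 4) (nat_lit 2) (nat_lit 5) (nat_lit 2) (nat_lit 4) (nat_lit 280) (nat_lit 190) (nat_lit 130)) (XT.lf (nat_lit 0) (nat_lit 2531718682) (nat_lit 152) (nat_lit 5546729116) (nat_lit 0) (nat_lit 2531718682) (nat_lit 2) (nat_lit 5) (nat_lit 4) (nat_lit 4) (nat_lit 2) (nat_lit 4) (nat_lit 218) (nat_lit 191) (nat_lit 191)))))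 (XT.nd (nat_lit 234) (nat_lit 0) (nat_lit 0) (XT.nd (nat_lit 78) (nat_lit 76) (nat_lit 0) (XT.lf (nat_lit 0) (nat_lit 8477299891) (nat_lit 152) (nat_lit 7332500036) (nat_lit 0) (nat_lit 8103993683) (nat_lit 2) (nat_lit 5) (nat_lit 4) (nat_lit 4) (nat_lit 2) (nat_lit 4) (nat_lit 219) (nat_lit 191) (nat_lit 190)) (XT.nd (nat_lit 78) (nat_lit 76) (nat_lit 0) (XT.lf (nat_lit 0) (nat_lit 12141192568) (nat_lit 152) (nat_lit 3468413934) (nat_lit 0) (nat_lit 11443272266) (nat_lit 2) (nat_lit 5) (nat_lit 4) (nat_lit 4) (nat_lit 2) (nat_lit 4) (nat_lit 220) (nat_lit 191) (nat_lit 189)) (XT.lf (nat_lit 0) (nat_lit 630536471) (nat_lit 76) (nat_lit 15522372952) (nat_lit 76) (nat_lit 14542179525) (nat_lit 1) (nat_lit 4) (nat_lit 2) (nat_lit 5) (nat_lit 2) (nat_lit 4) (nat_lit 221) (nat_lit 191) (nat_lit 188)))) (XT.nd (nat_lit 156) (nat_lit 0) (nat_lit 0) (XT.nd (nat_lit 78) (nat_lit 0) (nat_lit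 0) (XT.lf (nat_lit 0) (nat_lit 5351470510) (nat_lit 76) (nat_lit 15382224697) (nat_lit 76) (nat_lit 14156576379) (nat_lit 1) (nat_lit 4) (nat_lit 2) (nat_lit 5) (nat_lit 2) (nat_lit 4) (nat_lit 222) (nat_lit 191) (nat_lit 187)) (XT.lf (nat_lit 0) (nat_lit 10447795648) (nat_lit 76) (nat_lit 15367723162) (nat_lit 76) (nat_lit 13928635808) (nat_lit 1) (nat_lit 4) (nat_lit 2) (nat_lit 5) (nat_lit 2) (nat_lit 4) (nat_lit 223) (nat_lit 191) (nat_lit 186))) (XT.nd (nat_lit 78) (nat_lit 0) (nat_lit 0) (XT.lf (nat_lit 0) (nat_lit 16019222594) (nat_lit 76) (nat_lit 15478584622) (nat_lit 76) (nat_lit 13853898106) (nat_lit 1) (nat_lit 4) (nat_lit 2) (nat_lit 5) (nat_lit 2) (nat_lit 4) (nat_lit 224) (nat_lit 191) (nat_lit 185)) (XT.lf (nat_lit 0) (nat_lit 22174757528) (nat_lit 76) (nat_lit 15716978104) (nat_lit 76) (nat_lit 13930901013) (nat_lit 1) (nat_lit 4) (nat_lit 2) (nat_lit 5) (nat_lit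 2) (nat_lit 4) (nat_lit 225) (nat_lit 191) (nat_lit 184)))))) (XT.nd (nat_lit 546) (nat_lit 0) (nat_lit 0) (XT.nd (nat_lit 234) (nat_lit 0) (nat_lit 0) (XT.nd (nat_lit 78) (nat_lit 0) (nat_lit 0) (XT.lf (nat_lit 0) (nat_lit 29034834828) (nat_lit 76) (nat_lit 16087567831) (nat_lit 76) (nat_lit 14161151109) (nat_lit 1) (nat_lit 4) (nat_lit 2) (nat_lit 5) (nat_lit 2) (nat_lit 4) (nat_lit 226) (nat_lit 191) (nat_lit 183)) (XT.nd (nat_lit 78) (nat_lit 0) (nat_lit 0) (XT.lf (nat_lit 0) (nat_lit 36733673399) (nat_lit 76) (nat_lit 16597604469) (nat_lit 76) (nat_lit 14549153285) (nat_lit 1) (nat_lit 4) (nat_lit 2) (nat_lit 5) (nat_lit 2) (nat_lit 4) (nat_lit 227) (nat_lit 191) (nat_lit 182)) (XT.lf (nat_lit 0) (nat_lit 45421902691) (nat_lit 76) (nat_lit 17257066997) (nat_lit 76) (nat_lit 15102498890) (nat_lit 1) (nat_lit 4) (nat_lit 2) (nat_lit 5) (nat_lit 2) (nat_lit 4) (nat_lit 228) (nat_lit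 191) (nat_lit 181)))) (XT.nd (nat_lit 156) (nat_lit 0) (nat_lit 0) (XT.nd (nat_lit 78) (nat_lit 0) (nat_lit 0) (XT.lf (nat_lit 0) (nat_lit 55269509799) (nat_lit 76) (nat_lit 18078857942) (nat_lit 76) (nat_lit 15832014251) (nat_lit 1) (nat_lit 4) (nat_lit 2) (nat_lit 5) (nat_lit 2) (nat_lit 4) (nat_lit 229) (nat_lit 191) (nat_lit 180)) (XT.lf (nat_lit 0) (nat_lit 66469165296) (nat_lit 76) (nat_lit 19079055824) (nat_lit 76) (nat_lit 16751972493) (nat_lit 1) (nat_lit 4) (nat_lit 2) (nat_lit 5) (nat_lit 2) (nat_lit 4) (nat_lit 230) (nat_lit 191) (nat_lit 179))) (XT.nd (nat_lit 78) (nat_lit 0) (nat_lit 0) (XT.lf (nat_lit 0) (nat_lit 79239992877) (nat_lit 76) (nat_lit 20277229730) (nat_lit 76) (nat_lit 17880372800) (nat_lit 1) (nat_lit 4) (nat_lit 2) (nat_lit 5) (nat_lit 2) (nat_lit 4) (nat_lit 231) (nat_lit 191) (nat_lit 178)) (XT.lf (nat_lit 0) (nat_lit 93831856560) (nat_lit 76) (nat_lit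 21696822194) (nat_lit 76) (nat_lit 19239292569) (nat_lit 1) (nat_lit 4) (nat_lit 2) (nat_lit 5) (nat_lit 2) (nat_lit 4) (nat_lit 232) (nat_lit 191) (nat_lit 177))))) (XT.nd (nat_lit 234) (nat_lit 0) (nat_lit 0) (XT.nd (nat_lit 78) (nat_lit 0) (nat_lit 0) (XT.lf (nat_lit 0) (nat_lit 110530249329) (nat_lit 76) (nat_lit 23365607852) (nat_lit 76) (nat_lit 20855319361) (nat_lit 1) (nat_lit 4) (nat_lit 2) (nat_lit 5) (nat_lit 2) (nat_lit 4) (nat_lit 233) (nat_lit 191) (nat_lit 176)) (XT.nd (nat_lit 78) (nat_lit 0) (nat_lit 0) (XT.lf (nat_lit 0) (nat_lit 129661878871) (nat_lit 76) (nat_lit 25316236856) (nat_lit 76) (nat_lit 22760071091) (nat_lit 1) (nat_lit 4) (nat_lit 2) (nat_lit 5) (nat_lit 2) (nat_lit 4) (nat_lit 234) (nat_lit 191) (nat_lit 175)) (XT.lf (nat_lit 0) (nat_lit 151601059675) (nat_lit 76) (nat_lit 27586873689) (nat_lit 76) (nat_lit 24990814641) (nat_lit 1) (nat_lit 4) (nat_lit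 2) (nat_lit 5) (nat_lit 2) (nat_lit 4) (nat_lit 235) (nat_lit 191) (nat_lit 174)))) (XT.nd (nat_lit 156) (nat_lit 0) (nat_lit 0) (XT.nd (nat_lit 78) (nat_lit 0) (nat_lit 0) (XT.lf (nat_lit 0) (nat_lit 176777036584) (nat_lit 76) (nat_lit 30221943852) (nat_lit 76) (nat_lit 27591194994) (nat_lit 1) (nat_lit 4) (nat_lit 2) (nat_lit 5) (nat_lit 2) (nat_lit 4) (nat_lit 236) (nat_lit 191) (nat_lit 173)) (XT.lf (nat_lit 0) (nat_lit 205682383058) (nat_lit 76) (nat_lit 33273003067) (nat_lit 76) (nat_lit 30612089156) (nat_lit 1) (nat_lit 4) (nat_lit 2) (nat_lit 5) (nat_lit 2) (nat_lit 4) (nat_lit 237) (nat_lit 191) (nat_lit 172))) (XT.nd (nat_lit 78) (nat_lit 0) (nat_lit 0) (XT.lf (nat_lit 0) (nat_lit 238882638485) (nat_lit 76) (nat_lit 36799745970) (nat_lit 76) (nat_lit 34112601579) (nat_lit 1) (nat_lit 4) (nat_lit 2) (nat_lit 5) (nat_lit 2) (nat_lit 4) (nat_lit 238) (nat_lit 191) (nat_lit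 171)) (XT.lf (nat_lit 0) (nat_lit 277027373081) (nat_lit 76) (nat_lit 40871174053) (nat_lit 76) (nat_lit 38161220549) (nat_lit 1) (nat_lit 4) (nat_lit 2) (nat_lit 5) (nat_lit 2) (nat_lit 4) (nat_lit 239) (nat_lit 191) (nat_lit 170))))))) (XT.nd (nat_lit 1014) (nat_lit 0) (nat_lit 0) (XT.nd (nat_lit 468) (nat_lit 0) (nat_lit 0) (XT.nd (nat_lit 234) (nat_lit 0) (nat_lit 0) (XT.nd (nat_lit 78) (nat_lit 0) (nat_lit 0) (XT.lf (nat_lit 0) (nat_lit 320862896869) (nat_lit 76) (nat_lit 45566945692) (nat_lit 76) (nat_lit 42837158176) (nat_lit 1) (nat_lit 4) (nat_lit 2) (nat_lit 5) (nat_lit 2) (nat_lit 4) (nat_lit 240) (nat_lit 191) (nat_lit 169)) (XT.nd (nat_lit 78) (nat_lit 0) (nat_lit 0) (XT.lf (nat_lit 0) (nat_lit 371246861403) (nat_lit 76) (nat_lit 50978934679) (nat_lit 76) (nat_lit 48231900196) (nat_lit 1) (nat_lit 4) (nat_lit 2) (nat_lit 5) (nat_lit 2) (nat_lit 4) (nat_lit 241) (nat_lit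 191) (nat_lit 168)) (XT.lf (nat_lit 0) (nat_lit 429165039901) (nat_lit 76) (nat_lit 57213027756) (nat_lit 76) (nat_lit 54450995911) (nat_lit 1) (nat_lit 4) (nat_lit 2) (nat_lit 5) (nat_lit 2) (nat_lit 4) (nat_lit 242) (nat_lit 191) (nat_lit 167)))) (XT.nd (nat_lit 78) (nat_lit 0) (nat_lit 0) (XT.lf (nat_lit 0) (nat_lit 495750614117) (nat_lit 76) (nat_lit 64391196308) (nat_lit 76) (nat_lit 61616123279) (nat_lit 1) (nat_lit 4) (nat_lit 2) (nat_lit 5) (nat_lit 2) (nat_lit 4) (nat_lit 243) (nat_lit 191) (nat_lit 166)) (XT.nd (nat_lit 78) (nat_lit 0) (nat_lit 0) (XT.lf (nat_lit 0) (nat_lit 572306345284) (nat_lit 76) (nat_lit 72653882765) (nat_lit 76) (nat_lit 69867469574) (nat_lit 1) (nat_lit 4) (nat_lit 2) (nat_lit 5) (nat_lit 2) (nat_lit 4) (nat_lit 244) (nat_lit 191) (nat_lit 165)) (XT.lf (nat_lit 0) (nat_lit 660330062927) (nat_lit 76) (nat_lit 82162748382) (nat_lit 76) (nat_lit 79366474182)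 (nat_lit 1) (nat_lit 4) (nat_lit 2) (nat_lit 5) (nat_lit 2) (nat_lit 4) (nat_lit 245) (nat_lit 191) (nat_lit 164))))) (XT.nd (nat_lit 234) (nat_lit 0) (nat_lit 0) (XT.nd (nat_lit 78) (nat_lit 0) (nat_lit 0) (XT.lf (nat_lit 0) (nat_lit 761543970216) (nat_lit 76) (nat_lit 93103836182) (nat_lit 76) (nat_lit 90298987193) (nat_lit 1) (nat_lit 4) (nat_lit 2) (nat_lit 5) (nat_lit 2) (nat_lit 4) (nat_lit 246) (nat_lit 191) (nat_lit 163)) (XT.nd (nat_lit 78) (nat_lit 0) (nat_lit 0) (XT.lf (nat_lit 0) (nat_lit 877928339251) (nat_lit 76) (nat_lit 105691210928) (nat_lit 76) (nat_lit 102878905599) (nat_lit 1) (nat_lit 4) (nat_lit 2) (nat_lit 5) (nat_lit 2) (nat_lit 4) (nat_lit 247) (nat_lit 191) (nat_lit 162)) (XT.lf (nat_lit 0) (nat_lit 1011760255512) (nat_lit 76) (nat_lit 120171147342) (nat_lit 76) (nat_lit 117352358239) (nat_lit 1) (nat_lit 4) (nat_lit 2) (nat_lit 5) (nat_lit 2) (nat_lit 4)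 (nat_lit 248) (nat_lit 191) (nat_lit 161)))) (XT.nd (nat_lit 156) (nat_lit 0) (nat_lit 0) (XT.nd (nat_lit 78) (nat_lit 0) (nat_lit 0) (XT.lf (nat_lit 0) (nat_lit 1165658169536) (nat_lit 76) (nat_lit 136826948529) (nat_lit 76) (nat_lit 134002521361) (nat_lit 1) (nat_lit 4) (nat_lit 2) (nat_lit 5) (nat_lit 2) (nat_lit 4) (nat_lit 249) (nat_lit 191) (nat_lit 160)) (XT.lf (nat_lit 0) (nat_lit 1342633127465) (nat_lit 76) (nat_lit 155984488858) (nat_lit 76) (nat_lit 153155159026) (nat_lit 1) (nat_lit 4) (nat_lit 2) (nat_lit 5) (nat_lit 2) (nat_lit 4) (nat_lit 250) (nat_lit 191) (nat_lit 159))) (XT.nd (nat_lit 78) (nat_lit 0) (nat_lit 0) (XT.lf (nat_lit 0) (nat_lit 1546147682826) (nat_lit 76) (nat_lit 178018589771) (nat_lit 76) (nat_lit 175184996753) (nat_lit 1) (nat_lit 4) (nat_lit 2) (nat_lit 5) (nat_lit 2) (nat_lit 4) (nat_lit 251) (nat_lit 191) (nat_lit 158)) (XT.lf (nat_lit 0) (nat_lit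 1780183642135) (nat_lit 76) (nat_lit 203360353243) (nat_lit 76) (nat_lit 200523053107) (nat_lit 1) (nat_lit 4) (nat_lit 2) (nat_lit 5) (nat_lit 2) (nat_lit 4) (nat_lit 252) (nat_lit 191) (nat_lit 157)))))) (XT.nd (nat_lit 546) (nat_lit 0) (nat_lit 0) (XT.nd (nat_lit 234) (nat_lit 0) (nat_lit 0) (XT.nd (nat_lit 78) (nat_lit 0) (nat_lit 0) (XT.lf (nat_lit 0) (nat_lit 2049319969813) (nat_lit 76) (nat_lit 232505596386) (nat_lit 76) (nat_lit 229665072668) (nat_lit 1) (nat_lit 4) (nat_lit 2) (nat_lit 5) (nat_lit 2) (nat_lit 4) (nat_lit 253) (nat_lit 191) (nat_lit 156)) (XT.nd (nat_lit 78) (nat_lit 0) (nat_lit 0) (XT.lf (nat_lit 0) (nat_lit 2358822376621) (nat_lit 76) (nat_lit 266024552216) (nat_lit 76) (nat_lit 263181225384) (nat_lit 1) (nat_lit 4) (nat_lit 2) (nat_lit 5) (nat_lit 2) (nat_lit 4) (nat_lit 254) (nat_lit 191) (nat_lit 155)) (XT.lf (nat_lit 0) (nat_lit 2714746344430) (nat_lit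 76) (nat_lit 304573026392) (nat_lit 76) (nat_lit 301727262070) (nat_lit 1) (nat_lit 4) (nat_lit 2) (nat_lit 5) (nat_lit 2) (nat_lit 4) (nat_lit 255) (nat_lit 191) (nat_lit 154)))) (XT.nd (nat_lit 156) (nat_lit 0) (nat_lit 0) (XT.nd (nat_lit 78) (nat_lit 0) (nat_lit 0) (XT.lf (nat_lit 0) (nat_lit 3124055603046) (nat_lit 76) (nat_lit 348905228191) (nat_lit 76) (nat_lit 346057344311) (nat_lit 1) (nat_lit 4) (nat_lit 2) (nat_lit 5) (nat_lit 2) (nat_lit 4) (nat_lit 256) (nat_lit 191) (nat_lit 153)) (XT.lf (nat_lit 0) (nat_lit 3594758377092) (nat_lit 76) (nat_lit 399888526779) (nat_lit 76) (nat_lit 397038799806) (nat_lit 1) (nat_lit 4) (nat_lit 2) (nat_lit 5) (nat_lit 2) (nat_lit 4) (nat_lit 257) (nat_lit 191) (nat_lit 152))) (XT.nd (nat_lit 78) (nat_lit 0) (nat_lit 0) (XT.lf (nat_lit 0) (nat_lit 4136064068671) (nat_lit 76) (nat_lit 458520421476) (nat_lit 76) (nat_lit 455669091813) (nat_lit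 1) (nat_lit 4) (nat_lit 2) (nat_lit 5) (nat_lit 2) (nat_lit 4) (nat_lit 258) (nat_lit 191) (nat_lit 151)) (XT.lf (nat_lit 0) (nat_lit 4758563441312) (nat_lit 76) (nat_lit 525948058047) (nat_lit 76) (nat_lit 523095334741) (nat_lit 1) (nat_lit 4) (nat_lit 2) (nat_lit 5) (nat_lit 2) (nat_lit 4) (nat_lit 259) (nat_lit 191) (nat_lit 150))))) (XT.nd (nat_lit 234) (nat_lit 0) (nat_lit 0) (XT.nd (nat_lit 78) (nat_lit 0) (nat_lit 0) (XT.lf (nat_lit 0) (nat_lit 5474435830569) (nat_lit 76) (nat_lit 603490672860) (nat_lit 76) (nat_lit 600636737691) (nat_lit 1) (nat_lit 4) (nat_lit 2) (nat_lit 5) (nat_lit 2) (nat_lit 4) (nat_lit 260) (nat_lit 191) (nat_lit 149)) (XT.nd (nat_lit 78) (nat_lit 0) (nat_lit 0) (XT.lf (nat_lit 0) (nat_lit 6297687435360) (nat_lit 76) (nat_lit 692665404032) (nat_lit 76) (nat_lit 689810415068) (nat_lit 1) (nat_lit 4) (nat_lit 2) (nat_lit 5) (nat_lit 2) (nat_lit 4) (nat_lit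 261) (nat_lit 191) (nat_lit 148)) (XT.lf (nat_lit 0) (nat_lit 7244425352302) (nat_lit 76) (nat_lit 795216974564) (nat_lit 76) (nat_lit 792361069257) (nat_lit 1) (nat_lit 4) (nat_lit 2) (nat_lit 5) (nat_lit 2) (nat_lit 4) (nat_lit 262) (nat_lit 191) (nat_lit 147)))) (XT.nd (nat_lit 156) (nat_lit 0) (nat_lit 0) (XT.nd (nat_lit 78) (nat_lit 0) (nat_lit 0) (XT.lf (nat_lit 0) (nat_lit 8333172714552) (nat_lit 76) (nat_lit 913151828225) (nat_lit 76) (nat_lit 910295126099) (nat_lit 1) (nat_lit 4) (nat_lit 2) (nat_lit 5) (nat_lit 2) (nat_lit 4) (nat_lit 263) (nat_lit 191) (nat_lit 146)) (XT.lf (nat_lit 0) (nat_lit 9585231100937) (nat_lit 76) (nat_lit 1048777386068) (nat_lit 76) (nat_lit 1045919991054) (nat_lit 1) (nat_lit 4) (nat_lit 2) (nat_lit 5) (nat_lit 2) (nat_lit 4) (nat_lit 264) (nat_lit 191) (nat_lit 145))) (XT.nd (nat_lit 78) (nat_lit 0) (nat_lit 0) (XT.lf (nat_lit 0) (nat_lit 11025097305973)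 (nat_lit 76) (nat_lit 1204747191614) (nat_lit 76) (nat_lit 1201889194090) (nat_lit 1) (nat_lit 4) (nat_lit 2) (nat_lit 5) (nat_lit 2) (nat_lit 4) (nat_lit 265) (nat_lit 191) (nat_lit 144)) (XT.lf (nat_lit 0) (nat_lit 12680942624975) (nat_lit 76) (nat_lit 1384112828016) (nat_lit 76) (nat_lit 1381254306570) (nat_lit 1) (nat_lit 4) (nat_lit 2) (nat_lit 5) (nat_lit 2) (nat_lit 4) (nat_lit 266) (nat_lit 191) (nat_lit 143))))))))
noncomputable def xc15 : XT := (XT.nd (nat_lit 28860) (nat_lit 0) (nat_lit 0) (XT.nd (nat_lit 27768) (nat_lit 0) (nat_lit 0) (XT.nd (nat_lit 1014) (nat_lit 0) (nat_lit 0) (XT.nd (nat_lit 780) (nat_lit 0) (nat_lit 0) (XT.nd (nat_lit 156) (nat_lit 0) (nat_lit 0) (XT.lf (nat_lit 0) (nat_lit 14585164031577) (nat_lit 76) (nat_lit 1590383622942) (nat_lit 76) (nat_lit 1587524645912) (nat_lit 1) (nat_lit 4) (nat_lit 2) (nat_lit 5) (nat_lit 2) (nat_lit 4) (nat_lit 267)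 (nat_lit 191) (nat_lit 142)) (XT.nd (nat_lit 78) (nat_lit 0) (nat_lit 0) (XT.lf (nat_lit 0) (nat_lit 19293349594487) (nat_lit 76) (nat_lit 2100388985413) (nat_lit 76) (nat_lit 2097529267734) (nat_lit 1) (nat_lit 4) (nat_lit 2) (nat_lit 5) (nat_lit 2) (nat_lit 4) (nat_lit 269) (nat_lit 191) (nat_lit 140)) (XT.lf (nat_lit 0) (nat_lit 22189430424853) (nat_lit 76) (nat_lit 2414101918744) (nat_lit 76) (nat_lit 2411241901511) (nat_lit 1) (nat_lit 4) (nat_lit 2) (nat_lit 5) (nat_lit 2) (nat_lit 4) (nat_lit 270) (nat_lit 191) (nat_lit 139)))) (XT.nd (nat_lit 78) (nat_lit 0) (nat_lit 0) (XT.lf (nat_lit 0) (nat_lit 59047314799667) (nat_lit 76) (nat_lit 6406675133183) (nat_lit 76) (nat_lit 6403813869679) (nat_lit 1) (nat_lit 4) (nat_lit 2) (nat_lit 5) (nat_lit 2) (nat_lit 4) (nat_lit 277) (nat_lit 191) (nat_lit 132)) (XT.nd (nat_lit 78) (nat_lit 0) (nat_lit 0) (XT.lf (nat_lit 0) (nat_lit 67906488315224)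 (nat_lit 76) (nat_lit 7366331912371) (nat_lit 76) (nat_lit 7363470550942) (nat_lit 1) (nat_lit 4) (nat_lit 2) (nat_lit 5) (nat_lit 2) (nat_lit 4) (nat_lit 278) (nat_lit 191) (nat_lit 131)) (XT.lf (nat_lit 0) (nat_lit 78094537725364) (nat_lit 76) (nat_lit 8469937266951) (nat_lit 76) (nat_lit 8467075820371) (nat_lit 1) (nat_lit 4) (nat_lit 2) (nat_lit 5) (nat_lit 2) (nat_lit 4) (nat_lit 279) (nat_lit 191) (nat_lit 130))))) (XT.nd (nat_lit 26442) (nat_lit 0) (nat_lit 76) (XT.nd (nat_lit 26286) (nat_lit 0) (nat_lit 76) (XT.lf (nat_lit 0) (nat_lit 89810794431589) (nat_lit 76) (nat_lit 9739083475600) (nat_lit 76) (nat_lit 9736221954975) (nat_lit 1) (nat_lit 4) (nat_lit 2) (nat_lit 5) (nat_lit 2) (nat_lit 4) (nat_lit 280) (nat_lit 191) (nat_lit 129)) (XT.nd (nat_lit 78) (nat_lit 152) (nat_lit 0) (XT.lf (nat_lit 0) (nat_lit 7805982530) (nat_lit 76) (nat_lit 328025310) (nat_lit 76) (nat_lit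 328025310) (nat_lit 4) (nat_lit 4) (nat_lit 5) (nat_lit 5) (nat_lit 5) (nat_lit 4) (nat_lit 216) (nat_lit 192) (nat_lit 192)) (XT.lf (nat_lit 0) (nat_lit 2262114164) (nat_lit 152) (nat_lit 14824872493) (nat_lit 0) (nat_lit 1832812025) (nat_lit 2) (nat_lit 5) (nat_lit 4) (nat_lit 4) (nat_lit 2) (nat_lit 4) (nat_lit 217) (nat_lit 192) (nat_lit 191)))) (XT.nd (nat_lit 156) (nat_lit 0) (nat_lit 0) (XT.nd (nat_lit 78) (nat_lit 0) (nat_lit 0) (XT.lf (nat_lit 0) (nat_lit 5352573637) (nat_lit 152) (nat_lit 11340048094) (nat_lit 0) (nat_lit 4549965290) (nat_lit 2) (nat_lit 5) (nat_lit 4) (nat_lit 4) (nat_lit 2) (nat_lit 4) (nat_lit 218) (nat_lit 192) (nat_lit 190)) (XT.lf (nat_lit 0) (nat_lit 8644552801) (nat_lit 152) (nat_lit 7793515862) (nat_lit 0) (nat_lit 7517330361) (nat_lit 2) (nat_lit 5) (nat_lit 4) (nat_lit 4) (nat_lit 2) (nat_lit 4) (nat_lit 219) (nat_lit 192) (nat_lit 189))) (XT.nd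 (nat_lit 78) (nat_lit 0) (nat_lit 0) (XT.lf (nat_lit 0) (nat_lit 12202459946) (nat_lit 152) (nat_lit 4115887122) (nat_lit 0) (nat_lit 10792964381) (nat_lit 2) (nat_lit 5) (nat_lit 4) (nat_lit 4) (nat_lit 2) (nat_lit 4) (nat_lit 220) (nat_lit 192) (nat_lit 188)) (XT.lf (nat_lit 0) (nat_lit 16095906299) (nat_lit 152) (nat_lit 235208269) (nat_lit 0) (nat_lit 14440955841) (nat_lit 2) (nat_lit 5) (nat_lit 4) (nat_lit 4) (nat_lit 2) (nat_lit 4) (nat_lit 221) (nat_lit 192) (nat_lit 187)))))) (XT.nd (nat_lit 546) (nat_lit 0) (nat_lit 0) (XT.nd (nat_lit 234) (nat_lit 0) (nat_lit 0) (XT.nd (nat_lit 78) (nat_lit 0) (nat_lit 0) (XT.lf (nat_lit 0) (nat_lit 4307972526) (nat_lit 76) (nat_lit 16271479411) (nat_lit 76) (nat_lit 14403089918) (nat_lit 1) (nat_lit 4) (nat_lit 2) (nat_lit 5) (nat_lit 2) (nat_lit 4) (nat_lit 222) (nat_lit 192) (nat_lit 186)) (XT.nd (nat_lit 78) (nat_lit 0) (nat_lit 0)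 (XT.lf (nat_lit 0) (nat_lit 9269717682) (nat_lit 76) (nat_lit 16316297981) (nat_lit 76) (nat_lit 14262309326) (nat_lit 1) (nat_lit 4) (nat_lit 2) (nat_lit 5) (nat_lit 2) (nat_lit 4) (nat_lit 223) (nat_lit 192) (nat_lit 185)) (XT.lf (nat_lit 0) (nat_lit 14724118556) (nat_lit 76) (nat_lit 16478742140) (nat_lit 76) (nat_lit 14263362910) (nat_lit 1) (nat_lit 4) (nat_lit 2) (nat_lit 5) (nat_lit 2) (nat_lit 4) (nat_lit 224) (nat_lit 192) (nat_lit 184)))) (XT.nd (nat_lit 156) (nat_lit 0) (nat_lit 0) (XT.nd (nat_lit 78) (nat_lit 0) (nat_lit 0) (XT.lf (nat_lit 0) (nat_lit 20777891688) (nat_lit 76) (nat_lit 16761990144) (nat_lit 76) (nat_lit 14406271283) (nat_lit 1) (nat_lit 4) (nat_lit 2) (nat_lit 5) (nat_lit 2) (nat_lit 4) (nat_lit 225) (nat_lit 192) (nat_lit 183)) (XT.lf (nat_lit 0) (nat_lit 27549480466) (nat_lit 76) (nat_lit 17171583802) (nat_lit 76) (nat_lit 14693830479) (nat_lit 1) (nat_lit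 4) (nat_lit 2) (nat_lit 5) (nat_lit 2) (nat_lit 4) (nat_lit 226) (nat_lit 192) (nat_lit 182))) (XT.nd (nat_lit 78) (nat_lit 0) (nat_lit 0) (XT.lf (nat_lit 0) (nat_lit 35171372495) (nat_lit 76) (nat_lit 17715536903) (nat_lit 76) (nat_lit 15131666657) (nat_lit 1) (nat_lit 4) (nat_lit 2) (nat_lit 5) (nat_lit 2) (nat_lit 4) (nat_lit 227) (nat_lit 192) (nat_lit 181)) (XT.lf (nat_lit 0) (nat_lit 43792691751) (nat_lit 76) (nat_lit 18404492007) (nat_lit 76) (nat_lit 15728346176) (nat_lit 1) (nat_lit 4) (nat_lit 2) (nat_lit 5) (nat_lit 2) (nat_lit 4) (nat_lit 228) (nat_lit 192) (nat_lit 180))))) (XT.nd (nat_lit 234) (nat_lit 0) (nat_lit 0) (XT.nd (nat_lit 78) (nat_lit 0) (nat_lit 0) (XT.lf (nat_lit 0) (nat_lit 53582116218) (nat_lit 76) (nat_lit 19251928670) (nat_lit 76) (nat_lit 16495543200) (nat_lit 1) (nat_lit 4) (nat_lit 2) (nat_lit 5) (nat_lit 2) (nat_lit 4) (nat_lit 229) (nat_lit 192)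 (nat_lit 179)) (XT.nd (nat_lit 78) (nat_lit 0) (nat_lit 0) (XT.lf (nat_lit 0) (nat_lit 64731178115) (nat_lit 76) (nat_lit 20274427176) (nat_lit 76) (nat_lit 17448268106) (nat_lit 1) (nat_lit 4) (nat_lit 2) (nat_lit 5) (nat_lit 2) (nat_lit 4) (nat_lit 230) (nat_lit 192) (nat_lit 178)) (XT.lf (nat_lit 0) (nat_lit 77458011261) (nat_lit 76) (nat_lit 21491992930) (nat_lit 76) (nat_lit 18605161165) (nat_lit 1) (nat_lit 4) (nat_lit 2) (nat_lit 5) (nat_lit 2) (nat_lit 4) (nat_lit 231) (nat_lit 192) (nat_lit 177)))) (XT.nd (nat_lit 156) (nat_lit 0) (nat_lit 0) (XT.nd (nat_lit 78) (nat_lit 0) (nat_lit 0) (XT.lf (nat_lit 0) (nat_lit 92011618913) (nat_lit 76) (nat_lit 22928447870) (nat_lit 76) (nat_lit 19988857240) (nat_lit 1) (nat_lit 4) (nat_lit 2) (nat_lit 5) (nat_lit 2) (nat_lit 4) (nat_lit 232) (nat_lit 192) (nat_lit 176)) (XT.lf (nat_lit 0) (nat_lit 108676745570) (nat_lit 76) (nat_lit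 24611896550) (nat_lit 76) (nat_lit 21626428646) (nat_lit 1) (nat_lit 4) (nat_lit 2) (nat_lit 5) (nat_lit 2) (nat_lit 4) (nat_lit 233) (nat_lit 192) (nat_lit 175))) (XT.nd (nat_lit 78) (nat_lit 0) (nat_lit 0) (XT.lf (nat_lit 0) (nat_lit 127779448056) (nat_lit 76) (nat_lit 26575276009) (nat_lit 76) (nat_lit 23549914823) (nat_lit 1) (nat_lit 4) (nat_lit 2) (nat_lit 5) (nat_lit 2) (nat_lit 4) (nat_lit 234) (nat_lit 192) (nat_lit 174)) (XT.lf (nat_lit 0) (nat_lit 149693474899) (nat_lit 76) (nat_lit 28857000193) (nat_lit 76) (nat_lit 25796949196) (nat_lit 1) (nat_lit 4) (nat_lit 2) (nat_lit 5) (nat_lit 2) (nat_lit 4) (nat_lit 235) (nat_lit 192) (nat_lit 173))))))) (XT.nd (nat_lit 1014) (nat_lit 0) (nat_lit 0) (XT.nd (nat_lit 468) (nat_lit 0) (nat_lit 0) (XT.nd (nat_lit 234) (nat_lit 0) (nat_lit 0) (XT.nd (nat_lit 78) (nat_lit 0) (nat_lit 0) (XT.lf (nat_lit 0) (nat_lit 174847578798) (nat_lit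 76) (nat_lit 31501711532) (nat_lit 76) (nat_lit 28411495482) (nat_lit 1) (nat_lit 4) (nat_lit 2) (nat_lit 5) (nat_lit 2) (nat_lit 4) (nat_lit 236) (nat_lit 192) (nat_lit 172)) (XT.nd (nat_lit 78) (nat_lit 0) (nat_lit 0) (XT.lf (nat_lit 0) (nat_lit 203733905264) (nat_lit 76) (nat_lit 34561154377) (nat_lit 76) (nat_lit 31444707848) (nat_lit 1) (nat_lit 4) (nat_lit 2) (nat_lit 5) (nat_lit 2) (nat_lit 4) (nat_lit 237) (nat_lit 192) (nat_lit 171)) (XT.lf (nat_lit 0) (nat_lit 236917621554) (nat_lit 76) (nat_lit 38095187394) (nat_lit 76) (nat_lit 34955931751) (nat_lit 1) (nat_lit 4) (nat_lit 2) (nat_lit 5) (nat_lit 2) (nat_lit 4) (nat_lit 238) (nat_lit 192) (nat_lit 170)))) (XT.nd (nat_lit 78) (nat_lit 0) (nat_lit 0) (XT.lf (nat_lit 0) (nat_lit 275047974290) (nat_lit 76) (nat_lit 42172954707) (nat_lit 76) (nat_lit 39013865052) (nat_lit 1) (nat_lit 4) (nat_lit 2) (nat_lit 5) (nat_lit 2)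 (nat_lit 4) (nat_lit 239) (nat_lit 192) (nat_lit 169)) (XT.nd (nat_lit 78) (nat_lit 0) (nat_lit 0) (XT.lf (nat_lit 0) (nat_lit 318870992115) (nat_lit 76) (nat_lit 46874238719) (nat_lit 76) (nat_lit 43697902097) (nat_lit 1) (nat_lit 4) (nat_lit 2) (nat_lit 5) (nat_lit 2) (nat_lit 4) (nat_lit 240) (nat_lit 192) (nat_lit 168)) (XT.lf (nat_lit 0) (nat_lit 369244081897) (nat_lit 76) (nat_lit 52291021074) (nat_lit 76) (nat_lit 49099687090) (nat_lit 1) (nat_lit 4) (nat_lit 2) (nat_lit 5) (nat_lit 2) (nat_lit 4) (nat_lit 241) (nat_lit 192) (nat_lit 167))))) (XT.nd (nat_lit 234) (nat_lit 0) (nat_lit 0) (XT.nd (nat_lit 78) (nat_lit 0) (nat_lit 0) (XT.lf (nat_lit 0) (nat_lit 427152804089) (nat_lit 76) (nat_lit 58529282297) (nat_lit 76) (nat_lit 55324907128) (nat_lit 1) (nat_lit 4) (nat_lit 2) (nat_lit 5) (nat_lit 2) (nat_lit 4) (nat_lit 242) (nat_lit 192) (nat_lit 166)) (XT.nd (nat_lit 78)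 (nat_lit 0) (nat_lit 0) (XT.lf (nat_lit 0) (nat_lit 493730155430) (nat_lit 76) (nat_lit 65711075324) (nat_lit 76) (nat_lit 62495359995) (nat_lit 1) (nat_lit 4) (nat_lit 2) (nat_lit 5) (nat_lit 2) (nat_lit 4) (nat_lit 243) (nat_lit 192) (nat_lit 165)) (XT.lf (nat_lit 0) (nat_lit 570278736272) (nat_lit 76) (nat_lit 73976913498) (nat_lit 76) (nat_lit 70751337160) (nat_lit 1) (nat_lit 4) (nat_lit 2) (nat_lit 5) (nat_lit 2) (nat_lit 4) (nat_lit 244) (nat_lit 192) (nat_lit 164)))) (XT.nd (nat_lit 156) (nat_lit 0) (nat_lit 0) (XT.nd (nat_lit 78) (nat_lit 0) (nat_lit 0) (XT.lf (nat_lit 0) (nat_lit 658296236241) (nat_lit 76) (nat_lit 83488519739) (nat_lit 76) (nat_lit 80254368610) (nat_lit 1) (nat_lit 4) (nat_lit 2) (nat_lit 5) (nat_lit 2) (nat_lit 4) (nat_lit 245) (nat_lit 192) (nat_lit 163)) (XT.lf (nat_lit 0) (nat_lit 759504736857) (nat_lit 76) (nat_lit 94431990691) (nat_lit 76) (nat_lit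 91190383222) (nat_lit 1) (nat_lit 4) (nat_lit 2) (nat_lit 5) (nat_lit 2) (nat_lit 4) (nat_lit 246) (nat_lit 192) (nat_lit 162))) (XT.nd (nat_lit 78) (nat_lit 0) (nat_lit 0) (XT.lf (nat_lit 0) (nat_lit 875884404436) (nat_lit 76) (nat_lit 107021437742) (nat_lit 76) (nat_lit 103773346500) (nat_lit 1) (nat_lit 4) (nat_lit 2) (nat_lit 5) (nat_lit 2) (nat_lit 4) (nat_lit 247) (nat_lit 192) (nat_lit 161)) (XT.lf (nat_lit 0) (nat_lit 1009712232476) (nat_lit 76) (nat_lit 121503176161) (nat_lit 76) (nat_lit 118249446855) (nat_lit 1) (nat_lit 4) (nat_lit 2) (nat_lit 5) (nat_lit 2) (nat_lit 4) (nat_lit 248) (nat_lit 192) (nat_lit 160)))))) (XT.nd (nat_lit 546) (nat_lit 0) (nat_lit 0) (XT.nd (nat_lit 234) (nat_lit 0) (nat_lit 0) (XT.nd (nat_lit 78) (nat_lit 0) (nat_lit 0) (XT.lf (nat_lit 0) (nat_lit 1163606591523) (nat_lit 76) (nat_lit 138160544307) (nat_lit 76) (nat_lit 134901912337) (nat_lit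 1) (nat_lit 4) (nat_lit 2) (nat_lit 5) (nat_lit 2) (nat_lit 4) (nat_lit 249) (nat_lit 192) (nat_lit 159)) (XT.nd (nat_lit 78) (nat_lit 0) (nat_lit 0) (XT.lf (nat_lit 0) (nat_lit 1340578458170) (nat_lit 76) (nat_lit 157319447211) (nat_lit 76) (nat_lit 154056552054) (nat_lit 1) (nat_lit 4) (nat_lit 2) (nat_lit 5) (nat_lit 2) (nat_lit 4) (nat_lit 250) (nat_lit 192) (nat_lit 158)) (XT.lf (nat_lit 0) (nat_lit 1544090325458) (nat_lit 76) (nat_lit 179354732972) (nat_lit 76) (nat_lit 176088130696) (nat_lit 1) (nat_lit 4) (nat_lit 2) (nat_lit 5) (nat_lit 2) (nat_lit 4) (nat_lit 251) (nat_lit 192) (nat_lit 157)))) (XT.nd (nat_lit 156) (nat_lit 0) (nat_lit 0) (XT.nd (nat_lit 78) (nat_lit 0) (nat_lit 0) (XT.lf (nat_lit 0) (nat_lit 1778123947313) (nat_lit 76) (nat_lit 204697526746) (nat_lit 76) (nat_lit 201427700889) (nat_lit 1) (nat_lit 4) (nat_lit 2) (nat_lit 5) (nat_lit 2) (nat_lit 4) (nat_lit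 252) (nat_lit 192) (nat_lit 156)) (XT.lf (nat_lit 0) (nat_lit 2047258242423) (nat_lit 76) (nat_lit 233843665803) (nat_lit 76) (nat_lit 230571036832) (nat_lit 1) (nat_lit 4) (nat_lit 2) (nat_lit 5) (nat_lit 2) (nat_lit 4) (nat_lit 253) (nat_lit 192) (nat_lit 155))) (XT.nd (nat_lit 78) (nat_lit 0) (nat_lit 0) (XT.lf (nat_lit 0) (nat_lit 2356758881779) (nat_lit 76) (nat_lit 267363400690) (nat_lit 76) (nat_lit 264088334228) (nat_lit 1) (nat_lit 4) (nat_lit 2) (nat_lit 5) (nat_lit 2) (nat_lit 4) (nat_lit 254) (nat_lit 192) (nat_lit 154)) (XT.lf (nat_lit 0) (nat_lit 2712681312674) (nat_lit 76) (nat_lit 305912552306) (nat_lit 76) (nat_lit 302635366287) (nat_lit 1) (nat_lit 4) (nat_lit 2) (nat_lit 5) (nat_lit 2) (nat_lit 4) (nat_lit 255) (nat_lit 192) (nat_lit 153))))) (XT.nd (nat_lit 234) (nat_lit 0) (nat_lit 0) (XT.nd (nat_lit 78) (nat_lit 0) (nat_lit 0) (XT.lf (nat_lit 0) (nat_lit 3121989234843)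 (nat_lit 76) (nat_lit 350245343184) (nat_lit 76) (nat_lit 346966314072) (nat_lit 1) (nat_lit 4) (nat_lit 2) (nat_lit 5) (nat_lit 2) (nat_lit 4) (nat_lit 256) (nat_lit 192) (nat_lit 152)) (XT.nd (nat_lit 78) (nat_lit 0) (nat_lit 0) (XT.lf (nat_lit 0) (nat_lit 3592690846761) (nat_lit 76) (nat_lit 401229154014) (nat_lit 76) (nat_lit 397948522212) (nat_lit 1) (nat_lit 4) (nat_lit 2) (nat_lit 5) (nat_lit 2) (nat_lit 4) (nat_lit 257) (nat_lit 192) (nat_lit 151)) (XT.lf (nat_lit 0) (nat_lit 4133995527794) (nat_lit 76) (nat_lit 459861494138) (nat_lit 76) (nat_lit 456579468693) (nat_lit 1) (nat_lit 4) (nat_lit 2) (nat_lit 5) (nat_lit 2) (nat_lit 4) (nat_lit 258) (nat_lit 192) (nat_lit 150)))) (XT.nd (nat_lit 156) (nat_lit 0) (nat_lit 0) (XT.nd (nat_lit 78) (nat_lit 0) (nat_lit 0) (XT.lf (nat_lit 0) (nat_lit 4756494021700) (nat_lit 76) (nat_lit 527289518038) (nat_lit 76) (nat_lit 524006280730)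 (nat_lit 1) (nat_lit 4) (nat_lit 2) (nat_lit 5) (nat_lit 2) (nat_lit 4) (nat_lit 259) (nat_lit 192) (nat_lit 149)) (XT.lf (nat_lit 0) (nat_lit 5472365646839) (nat_lit 76) (nat_lit 604832469659) (nat_lit 76) (nat_lit 601548178556) (nat_lit 1) (nat_lit 4) (nat_lit 2) (nat_lit 5) (nat_lit 2) (nat_lit 4) (nat_lit 260) (nat_lit 192) (nat_lit 148))) (XT.nd (nat_lit 78) (nat_lit 0) (nat_lit 0) (XT.lf (nat_lit 0) (nat_lit 6295616587180) (nat_lit 76) (nat_lit 694007493707) (nat_lit 76) (nat_lit 690722286261) (nat_lit 1) (nat_lit 4) (nat_lit 2) (nat_lit 5) (nat_lit 2) (nat_lit 4) (nat_lit 261) (nat_lit 192) (nat_lit 147)) (XT.lf (nat_lit 0) (nat_lit 7242353926339) (nat_lit 76) (nat_lit 796559318913) (nat_lit 76) (nat_lit 793273314647) (nat_lit 1) (nat_lit 4) (nat_lit 2) (nat_lit 5) (nat_lit 2) (nat_lit 4) (nat_lit 262) (nat_lit 192) (nat_lit 146))))))))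
noncomputable def xc16 : XT := (XT.nd (nat_lit 28626) (nat_lit 0) (nat_lit 0) (XT.nd (nat_lit 27612) (nat_lit 0) (nat_lit 0) (XT.nd (nat_lit 468) (nat_lit 0) (nat_lit 0) (XT.nd (nat_lit 234) (nat_lit 0) (nat_lit 0) (XT.nd (nat_lit 78) (nat_lit 0) (nat_lit 0) (XT.lf (nat_lit 0) (nat_lit 8331100786169) (nat_lit 76) (nat_lit 914494394032) (nat_lit 76) (nat_lit 911207696879) (nat_lit 1) (nat_lit 4) (nat_lit 2) (nat_lit 5) (nat_lit 2) (nat_lit 4) (nat_lit 263) (nat_lit 192) (nat_lit 145)) (XT.nd (nat_lit 78) (nat_lit 0) (nat_lit 0) (XT.lf (nat_lit 0) (nat_lit 9583158735667) (nat_lit 76) (nat_lit 1050120144445) (nat_lit 76) (nat_lit 1046832844782) (nat_lit 1) (nat_lit 4) (nat_lit 2) (nat_lit 5) (nat_lit 2) (nat_lit 4) (nat_lit 264) (nat_lit 192) (nat_lit 144)) (XT.lf (nat_lit 0) (nat_lit 11023024560801) (nat_lit 76) (nat_lit 1206090117444) (nat_lit 76) (nat_lit 1202802293859) (nat_lit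 1) (nat_lit 4) (nat_lit 2) (nat_lit 5) (nat_lit 2) (nat_lit 4) (nat_lit 265) (nat_lit 192) (nat_lit 143)))) (XT.nd (nat_lit 78) (nat_lit 0) (nat_lit 0) (XT.lf (nat_lit 0) (nat_lit 12678869549454) (nat_lit 76) (nat_lit 1385455899457) (nat_lit 76) (nat_lit 1382167620287) (nat_lit 1) (nat_lit 4) (nat_lit 2) (nat_lit 5) (nat_lit 2) (nat_lit 4) (nat_lit 266) (nat_lit 192) (nat_lit 142)) (XT.nd (nat_lit 78) (nat_lit 0) (nat_lit 0) (XT.lf (nat_lit 0) (nat_lit 14583090668795) (nat_lit 76) (nat_lit 1591726821002) (nat_lit 76) (nat_lit 1588438145672) (nat_lit 1) (nat_lit 4) (nat_lit 2) (nat_lit 5) (nat_lit 2) (nat_lit 4) (nat_lit 267) (nat_lit 192) (nat_lit 141)) (XT.lf (nat_lit 0) (nat_lit 16772944418986) (nat_lit 76) (nat_lit 1828938617500) (nat_lit 76) (nat_lit 1825649597682) (nat_lit 1) (nat_lit 4) (nat_lit 2) (nat_lit 5) (nat_lit 2) (nat_lit 4) (nat_lit 268) (nat_lit 192) (nat_lit 140)))))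 (XT.nd (nat_lit 702) (nat_lit 0) (nat_lit 0) (XT.nd (nat_lit 78) (nat_lit 0) (nat_lit 0) (XT.lf (nat_lit 0) (nat_lit 19291275764704) (nat_lit 76) (nat_lit 2101732389317) (nat_lit 76) (nat_lit 2098443069945) (nat_lit 1) (nat_lit 4) (nat_lit 2) (nat_lit 5) (nat_lit 2) (nat_lit 4) (nat_lit 269) (nat_lit 192) (nat_lit 139)) (XT.nd (nat_lit 546) (nat_lit 0) (nat_lit 0) (XT.lf (nat_lit 0) (nat_lit 22187356406192) (nat_lit 76) (nat_lit 2415445405902) (nat_lit 76) (nat_lit 2412155826048) (nat_lit 1) (nat_lit 4) (nat_lit 2) (nat_lit 5) (nat_lit 2) (nat_lit 4) (nat_lit 270) (nat_lit 192) (nat_lit 138)) (XT.lf (nat_lit 0) (nat_lit 59045239995193) (nat_lit 76) (nat_lit 6408018966711) (nat_lit 76) (nat_lit 6404728303143) (nat_lit 1) (nat_lit 4) (nat_lit 2) (nat_lit 5) (nat_lit 2) (nat_lit 4) (nat_lit 277) (nat_lit 192) (nat_lit 131)))) (XT.nd (nat_lit 26286) (nat_lit 0) (nat_lit 228) (XT.nd (nat_lit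 78) (nat_lit 0) (nat_lit 0) (XT.lf (nat_lit 0) (nat_lit 67904413449006) (nat_lit 76) (nat_lit 7367675773115) (nat_lit 76) (nat_lit 7364385024395) (nat_lit 1) (nat_lit 4) (nat_lit 2) (nat_lit 5) (nat_lit 2) (nat_lit 4) (nat_lit 278) (nat_lit 192) (nat_lit 130)) (XT.lf (nat_lit 0) (nat_lit 78092462805454) (nat_lit 76) (nat_lit 8471281151361) (nat_lit 76) (nat_lit 8467990328596) (nat_lit 1) (nat_lit 4) (nat_lit 2) (nat_lit 5) (nat_lit 2) (nat_lit 4) (nat_lit 279) (nat_lit 192) (nat_lit 129))) (XT.nd (nat_lit 78) (nat_lit 0) (nat_lit 0) (XT.lf (nat_lit 0) (nat_lit 1394114239) (nat_lit 76) (nat_lit 2726689942) (nat_lit 76) (nat_lit 2726689942) (nat_lit 4) (nat_lit 4) (nat_lit 5) (nat_lit 5) (nat_lit 5) (nat_lit 4) (nat_lit 214) (nat_lit 193) (nat_lit 193)) (XT.lf (nat_lit 0) (nat_lit 8872547497) (nat_lit 76) (nat_lit 3440079881) (nat_lit 76) (nat_lit 2872327802) (nat_lit 4) (nat_lit 4)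 (nat_lit 5) (nat_lit 5) (nat_lit 5) (nat_lit 4) (nat_lit 215) (nat_lit 193) (nat_lit 192)))))) (XT.nd (nat_lit 468) (nat_lit 76) (nat_lit 0) (XT.nd (nat_lit 234) (nat_lit 0) (nat_lit 0) (XT.nd (nat_lit 78) (nat_lit 152) (nat_lit 0) (XT.lf (nat_lit 0) (nat_lit 15388009143) (nat_lit 76) (nat_lit 1309905154) (nat_lit 76) (nat_lit 248455615) (nat_lit 4) (nat_lit 4) (nat_lit 5) (nat_lit 5) (nat_lit 5) (nat_lit 4) (nat_lit 216) (nat_lit 193) (nat_lit 191)) (XT.nd (nat_lit 78) (nat_lit 0) (nat_lit 0) (XT.lf (nat_lit 0) (nat_lit 2454455012) (nat_lit 152) (nat_lit 15355040693) (nat_lit 0) (nat_lit 1158149205) (nat_lit 2) (nat_lit 5) (nat_lit 4) (nat_lit 4) (nat_lit 2) (nat_lit 4) (nat_lit 217) (nat_lit 193) (nat_lit 190)) (XT.lf (nat_lit 0) (nat_lit 5423031122) (nat_lit 152) (nat_lit 12084642260) (nat_lit 0) (nat_lit 3802111221) (nat_lit 2) (nat_lit 5) (nat_lit 4) (nat_lit 4) (nat_lit 2)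 (nat_lit 4) (nat_lit 218) (nat_lit 193) (nat_lit 189)))) (XT.nd (nat_lit 78) (nat_lit 0) (nat_lit 0) (XT.lf (nat_lit 0) (nat_lit 8609024754) (nat_lit 152) (nat_lit 8724567389) (nat_lit 0) (nat_lit 6705831728) (nat_lit 2) (nat_lit 5) (nat_lit 4) (nat_lit 4) (nat_lit 2) (nat_lit 4) (nat_lit 219) (nat_lit 193) (nat_lit 188)) (XT.nd (nat_lit 78) (nat_lit 0) (nat_lit 0) (XT.lf (nat_lit 0) (nat_lit 12074770567) (nat_lit 152) (nat_lit 5209075486) (nat_lit 0) (nat_lit 9926122650) (nat_lit 2) (nat_lit 5) (nat_lit 4) (nat_lit 4) (nat_lit 2) (nat_lit 4) (nat_lit 220) (nat_lit 193) (nat_lit 187)) (XT.lf (nat_lit 0) (nat_lit 15888076630) (nat_lit 152) (nat_lit 1469385186) (nat_lit 0) (nat_lit 13525989677) (nat_lit 2) (nat_lit 5) (nat_lit 4) (nat_lit 4) (nat_lit 2) (nat_lit 4) (nat_lit 221) (nat_lit 193) (nat_lit 186))))) (XT.nd (nat_lit 234) (nat_lit 0) (nat_lit 0) (XT.nd (nat_lit 78) (nat_lit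 0) (nat_lit 0) (XT.lf (nat_lit 0) (nat_lit 2818602883) (nat_lit 76) (nat_lit 17421660557) (nat_lit 76) (nat_lit 14873974442) (nat_lit 1) (nat_lit 4) (nat_lit 2) (nat_lit 5) (nat_lit 2) (nat_lit 4) (nat_lit 222) (nat_lit 193) (nat_lit 185)) (XT.nd (nat_lit 78) (nat_lit 0) (nat_lit 0) (XT.lf (nat_lit 0) (nat_lit 7663321966) (nat_lit 76) (nat_lit 17518061826) (nat_lit 76) (nat_lit 14808985136) (nat_lit 1) (nat_lit 4) (nat_lit 2) (nat_lit 5) (nat_lit 2) (nat_lit 4) (nat_lit 223) (nat_lit 193) (nat_lit 184)) (XT.lf (nat_lit 0) (nat_lit 13015961039) (nat_lit 76) (nat_lit 17725360507) (nat_lit 76) (nat_lit 14875944186) (nat_lit 1) (nat_lit 4) (nat_lit 2) (nat_lit 5) (nat_lit 2) (nat_lit 4) (nat_lit 224) (nat_lit 193) (nat_lit 183)))) (XT.nd (nat_lit 156) (nat_lit 0) (nat_lit 0) (XT.nd (nat_lit 78) (nat_lit 0) (nat_lit 0) (XT.lf (nat_lit 0) (nat_lit 18981245649) (nat_lit 76) (nat_lit 18047612443)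 (nat_lit 76) (nat_lit 15076161660) (nat_lit 1) (nat_lit 4) (nat_lit 2) (nat_lit 5) (nat_lit 2) (nat_lit 4) (nat_lit 225) (nat_lit 193) (nat_lit 182)) (XT.lf (nat_lit 0) (nat_lit 25675887884) (nat_lit 76) (nat_lit 18491122563) (nat_lit 76) (nat_lit 15413554857) (nat_lit 1) (nat_lit 4) (nat_lit 2) (nat_lit 5) (nat_lit 2) (nat_lit 4) (nat_lit 226) (nat_lit 193) (nat_lit 181))) (XT.nd (nat_lit 78) (nat_lit 0) (nat_lit 0) (XT.lf (nat_lit 0) (nat_lit 33230869877) (nat_lit 76) (nat_lit 19064568240) (nat_lit 76) (nat_lit 15894724949) (nat_lit 1) (nat_lit 4) (nat_lit 2) (nat_lit 5) (nat_lit 2) (nat_lit 4) (nat_lit 227) (nat_lit 193) (nat_lit 180)) (XT.lf (nat_lit 0) (nat_lit 41794006493) (nat_lit 76) (nat_lit 19779169062) (nat_lit 76) (nat_lit 16529086131) (nat_lit 1) (nat_lit 4) (nat_lit 2) (nat_lit 5) (nat_lit 2) (nat_lit 4) (nat_lit 228) (nat_lit 193) (nat_lit 179))))))) (XT.nd (nat_lit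 1014) (nat_lit 0) (nat_lit 0) (XT.nd (nat_lit 468) (nat_lit 0) (nat_lit 0) (XT.nd (nat_lit 234) (nat_lit 0) (nat_lit 0) (XT.nd (nat_lit 78) (nat_lit 0) (nat_lit 0) (XT.lf (nat_lit 0) (nat_lit 51532837359) (nat_lit 76) (nat_lit 20648906350) (nat_lit 76) (nat_lit 17329049820) (nat_lit 1) (nat_lit 4) (nat_lit 2) (nat_lit 5) (nat_lit 2) (nat_lit 4) (nat_lit 229) (nat_lit 193) (nat_lit 178)) (XT.nd (nat_lit 78) (nat_lit 0) (nat_lit 0) (XT.lf (nat_lit 0) (nat_lit 62637904821) (nat_lit 76) (nat_lit 21690796703) (nat_lit 76) (nat_lit 18310267478) (nat_lit 1) (nat_lit 4) (nat_lit 2) (nat_lit 5) (nat_lit 2) (nat_lit 4) (nat_lit 230) (nat_lit 193) (nat_lit 177)) (XT.lf (nat_lit 0) (nat_lit 75326481937) (nat_lit 76) (nat_lit 22925224933) (nat_lit 76) (nat_lit 19491936843) (nat_lit 1) (nat_lit 4) (nat_lit 2) (nat_lit 5) (nat_lit 2) (nat_lit 4) (nat_lit 231) (nat_lit 193) (nat_lit 176)))) (XT.nd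 (nat_lit 78) (nat_lit 0) (nat_lit 0) (XT.lf (nat_lit 0) (nat_lit 89846823476) (nat_lit 76) (nat_lit 24376342896) (nat_lit 76) (nat_lit 20897177531) (nat_lit 1) (nat_lit 4) (nat_lit 2) (nat_lit 5) (nat_lit 2) (nat_lit 4) (nat_lit 232) (nat_lit 193) (nat_lit 175)) (XT.nd (nat_lit 78) (nat_lit 0) (nat_lit 0) (XT.lf (nat_lit 0) (nat_lit 106483023077) (nat_lit 76) (nat_lit 26072542030) (nat_lit 76) (nat_lit 22553483384) (nat_lit 1) (nat_lit 4) (nat_lit 2) (nat_lit 5) (nat_lit 2) (nat_lit 4) (nat_lit 233) (nat_lit 193) (nat_lit 174)) (XT.lf (nat_lit 0) (nat_lit 125560571602) (nat_lit 76) (nat_lit 28047008841) (nat_lit 76) (nat_lit 24493260384) (nat_lit 1) (nat_lit 4) (nat_lit 2) (nat_lit 5) (nat_lit 2) (nat_lit 4) (nat_lit 234) (nat_lit 193) (nat_lit 173))))) (XT.nd (nat_lit 234) (nat_lit 0) (nat_lit 0) (XT.nd (nat_lit 78) (nat_lit 0) (nat_lit 0) (XT.lf (nat_lit 0) (nat_lit 147452725436)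 (nat_lit 76) (nat_lit 30338374200) (nat_lit 76) (nat_lit 26754460691) (nat_lit 1) (nat_lit 4) (nat_lit 2) (nat_lit 5) (nat_lit 2) (nat_lit 4) (nat_lit 235) (nat_lit 193) (nat_lit 172)) (XT.nd (nat_lit 78) (nat_lit 0) (nat_lit 0) (XT.lf (nat_lit 0) (nat_lit 172587809327) (nat_lit 76) (nat_lit 32991469170) (nat_lit 76) (nat_lit 29381325180) (nat_lit 1) (nat_lit 4) (nat_lit 2) (nat_lit 5) (nat_lit 2) (nat_lit 4) (nat_lit 236) (nat_lit 193) (nat_lit 171)) (XT.lf (nat_lit 0) (nat_lit 201457596655) (nat_lit 76) (nat_lit 36058202129) (nat_lit 76) (nat_lit 32425249026) (nat_lit 1) (nat_lit 4) (nat_lit 2) (nat_lit 5) (nat_lit 2) (nat_lit 4) (nat_lit 237) (nat_lit 193) (nat_lit 170)))) (XT.nd (nat_lit 156) (nat_lit 0) (nat_lit 0) (XT.nd (nat_lit 78) (nat_lit 0) (nat_lit 0) (XT.lf (nat_lit 0) (nat_lit 234626931086) (nat_lit 76) (nat_lit 39598574375) (nat_lit 76) (nat_lit 35945787261) (nat_lit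 1) (nat_lit 4) (nat_lit 2) (nat_lit 5) (nat_lit 2) (nat_lit 4) (nat_lit 238) (nat_lit 193) (nat_lit 169)) (XT.lf (nat_lit 0) (nat_lit 272744777858) (nat_lit 76) (nat_lit 43681854061) (nat_lit 76) (nat_lit 40011819980) (nat_lit 1) (nat_lit 4) (nat_lit 2) (nat_lit 5) (nat_lit 2) (nat_lit 4) (nat_lit 239) (nat_lit 193) (nat_lit 168))) (XT.nd (nat_lit 78) (nat_lit 0) (nat_lit 0) (XT.lf (nat_lit 0) (nat_lit 316556920931) (nat_lit 76) (nat_lit 48387931441) (nat_lit 76) (nat_lit 44702899997) (nat_lit 1) (nat_lit 4) (nat_lit 2) (nat_lit 5) (nat_lit 2) (nat_lit 4) (nat_lit 240) (nat_lit 193) (nat_lit 167)) (XT.lf (nat_lit 0) (nat_lit 366920554408) (nat_lit 76) (nat_lit 53808881943) (nat_lit 76) (nat_lit 50110809314) (nat_lit 1) (nat_lit 4) (nat_lit 2) (nat_lit 5) (nat_lit 2) (nat_lit 4) (nat_lit 241) (nat_lit 193) (nat_lit 166)))))) (XT.nd (nat_lit 546) (nat_lit 0) (nat_lit 0) (XT.nd (nat_lit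 234) (nat_lit 0) (nat_lit 0) (XT.nd (nat_lit 78) (nat_lit 0) (nat_lit 0) (XT.lf (nat_lit 0) (nat_lit 424821053725) (nat_lit 76) (nat_lit 60050767641) (nat_lit 76) (nat_lit 56341354851) (nat_lit 1) (nat_lit 4) (nat_lit 2) (nat_lit 5) (nat_lit 2) (nat_lit 4) (nat_lit 242) (nat_lit 193) (nat_lit 165)) (XT.nd (nat_lit 78) (nat_lit 0) (nat_lit 0) (XT.lf (nat_lit 0) (nat_lit 491391254741) (nat_lit 76) (nat_lit 67235712385) (nat_lit 76) (nat_lit 63516438587) (nat_lit 1) (nat_lit 4) (nat_lit 2) (nat_lit 5) (nat_lit 2) (nat_lit 4) (nat_lit 243) (nat_lit 193) (nat_lit 164)) (XT.lf (nat_lit 0) (nat_lit 567933617909) (nat_lit 76) (nat_lit 75504291183) (nat_lit 76) (nat_lit 71776442594) (nat_lit 1) (nat_lit 4) (nat_lit 2) (nat_lit 5) (nat_lit 2) (nat_lit 4) (nat_lit 244) (nat_lit 193) (nat_lit 163)))) (XT.nd (nat_lit 156) (nat_lit 0) (nat_lit 0) (XT.nd (nat_lit 78) (nat_lit 0) (nat_lit 0) (XT.lf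 (nat_lit 0) (nat_lit 655945711204) (nat_lit 76) (nat_lit 85018280575) (nat_lit 76) (nat_lit 81282975646) (nat_lit 1) (nat_lit 4) (nat_lit 2) (nat_lit 5) (nat_lit 2) (nat_lit 4) (nat_lit 245) (nat_lit 193) (nat_lit 162)) (XT.lf (nat_lit 0) (nat_lit 757149510364) (nat_lit 76) (nat_lit 95963823832) (nat_lit 76) (nat_lit 92222035130) (nat_lit 1) (nat_lit 4) (nat_lit 2) (nat_lit 5) (nat_lit 2) (nat_lit 4) (nat_lit 246) (nat_lit 193) (nat_lit 161))) (XT.nd (nat_lit 78) (nat_lit 0) (nat_lit 0) (XT.lf (nat_lit 0) (nat_lit 873525089722) (nat_lit 76) (nat_lit 108555072888) (nat_lit 76) (nat_lit 104807646122) (nat_lit 1) (nat_lit 4) (nat_lit 2) (nat_lit 5) (nat_lit 2) (nat_lit 4) (nat_lit 247) (nat_lit 193) (nat_lit 160)) (XT.lf (nat_lit 0) (nat_lit 1007349362786) (nat_lit 76) (nat_lit 123038378267) (nat_lit 76) (nat_lit 119286048837) (nat_lit 1) (nat_lit 4) (nat_lit 2) (nat_lit 5) (nat_lit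 2) (nat_lit 4) (nat_lit 248) (nat_lit 193) (nat_lit 159))))) (XT.nd (nat_lit 234) (nat_lit 0) (nat_lit 0) (XT.nd (nat_lit 78) (nat_lit 0) (nat_lit 0) (XT.lf (nat_lit 0) (nat_lit 1161240630550) (nat_lit 76) (nat_lit 139697108988) (nat_lit 76) (nat_lit 135940516371) (nat_lit 1) (nat_lit 4) (nat_lit 2) (nat_lit 5) (nat_lit 2) (nat_lit 4) (nat_lit 249) (nat_lit 193) (nat_lit 158)) (XT.nd (nat_lit 78) (nat_lit 0) (nat_lit 0) (XT.lf (nat_lit 0) (nat_lit 1338209809125) (nat_lit 76) (nat_lit 158857196739) (nat_lit 76) (nat_lit 155096897004) (nat_lit 1) (nat_lit 4) (nat_lit 2) (nat_lit 5) (nat_lit 2) (nat_lit 4) (nat_lit 250) (nat_lit 193) (nat_lit 157)) (XT.lf (nat_lit 0) (nat_lit 1541719338958) (nat_lit 76) (nat_lit 180893512802) (nat_lit 76) (nat_lit 177129989485) (nat_lit 1) (nat_lit 4) (nat_lit 2) (nat_lit 5) (nat_lit 2) (nat_lit 4) (nat_lit 251) (nat_lit 193) (nat_lit 156)))) (XT.nd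 (nat_lit 156) (nat_lit 0) (nat_lit 0) (XT.nd (nat_lit 78) (nat_lit 0) (nat_lit 0) (XT.lf (nat_lit 0) (nat_lit 1775750928244) (nat_lit 76) (nat_lit 206237202491) (nat_lit 76) (nat_lit 202470876060) (nat_lit 1) (nat_lit 4) (nat_lit 2) (nat_lit 5) (nat_lit 2) (nat_lit 4) (nat_lit 252) (nat_lit 193) (nat_lit 155)) (XT.lf (nat_lit 0) (nat_lit 2044883455903) (nat_lit 76) (nat_lit 235384120604) (nat_lit 76) (nat_lit 231615356682) (nat_lit 1) (nat_lit 4) (nat_lit 2) (nat_lit 5) (nat_lit 2) (nat_lit 4) (nat_lit 253) (nat_lit 193) (nat_lit 154))) (XT.nd (nat_lit 78) (nat_lit 0) (nat_lit 0) (XT.lf (nat_lit 0) (nat_lit 2354382558346) (nat_lit 76) (nat_lit 268904532931) (nat_lit 76) (nat_lit 265133649452) (nat_lit 1) (nat_lit 4) (nat_lit 2) (nat_lit 5) (nat_lit 2) (nat_lit 4) (nat_lit 254) (nat_lit 193) (nat_lit 153)) (XT.lf (nat_lit 0) (nat_lit 2710303652794) (nat_lit 76) (nat_lit 307454273626)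 (nat_lit 76) (nat_lit 303681547054) (nat_lit 1) (nat_lit 4) (nat_lit 2) (nat_lit 5) (nat_lit 2) (nat_lit 4) (nat_lit 255) (nat_lit 193) (nat_lit 152))))))))
noncomputable def xc17 : XT := (XT.nd (nat_lit 28782) (nat_lit 0) (nat_lit 0) (XT.nd (nat_lit 1014) (nat_lit 0) (nat_lit 0) (XT.nd (nat_lit 468) (nat_lit 0) (nat_lit 0) (XT.nd (nat_lit 234) (nat_lit 0) (nat_lit 0) (XT.nd (nat_lit 78) (nat_lit 0) (nat_lit 0) (XT.lf (nat_lit 0) (nat_lit 3119610412835) (nat_lit 76) (nat_lit 351787576746) (nat_lit 76) (nat_lit 348013247484) (nat_lit 1) (nat_lit 4) (nat_lit 2) (nat_lit 5) (nat_lit 2) (nat_lit 4) (nat_lit 256) (nat_lit 193) (nat_lit 151)) (XT.nd (nat_lit 78) (nat_lit 0) (nat_lit 0) (XT.lf (nat_lit 0) (nat_lit 3590311014207) (nat_lit 76) (nat_lit 402771833004) (nat_lit 76) (nat_lit 398996110099) (nat_lit 1) (nat_lit 4) (nat_lit 2) (nat_lit 5) (nat_lit 2) (nat_lit 4) (nat_lit 257) (nat_lit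 193) (nat_lit 150)) (XT.lf (nat_lit 0) (nat_lit 4131614816504) (nat_lit 76) (nat_lit 461404560457) (nat_lit 76) (nat_lit 457627625688) (nat_lit 1) (nat_lit 4) (nat_lit 2) (nat_lit 5) (nat_lit 2) (nat_lit 4) (nat_lit 258) (nat_lit 193) (nat_lit 149)))) (XT.nd (nat_lit 78) (nat_lit 0) (nat_lit 0) (XT.lf (nat_lit 0) (nat_lit 4754112546293) (nat_lit 76) (nat_lit 528832921164) (nat_lit 76) (nat_lit 525054932601) (nat_lit 1) (nat_lit 4) (nat_lit 2) (nat_lit 5) (nat_lit 2) (nat_lit 4) (nat_lit 259) (nat_lit 193) (nat_lit 148)) (XT.nd (nat_lit 78) (nat_lit 0) (nat_lit 0) (XT.lf (nat_lit 0) (nat_lit 5469983506981) (nat_lit 76) (nat_lit 606376165662) (nat_lit 76) (nat_lit 602597260756) (nat_lit 1) (nat_lit 4) (nat_lit 2) (nat_lit 5) (nat_lit 2) (nat_lit 4) (nat_lit 260) (nat_lit 193) (nat_lit 147)) (XT.lf (nat_lit 0) (nat_lit 6293233869539) (nat_lit 76) (nat_lit 695551444384) (nat_lit 76)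 (nat_lit 691771742658) (nat_lit 1) (nat_lit 4) (nat_lit 2) (nat_lit 5) (nat_lit 2) (nat_lit 4) (nat_lit 261) (nat_lit 193) (nat_lit 146))))) (XT.nd (nat_lit 234) (nat_lit 0) (nat_lit 0) (XT.nd (nat_lit 78) (nat_lit 0) (nat_lit 0) (XT.lf (nat_lit 0) (nat_lit 7239970706278) (nat_lit 76) (nat_lit 798103491047) (nat_lit 76) (nat_lit 794323096434) (nat_lit 1) (nat_lit 4) (nat_lit 2) (nat_lit 5) (nat_lit 2) (nat_lit 4) (nat_lit 262) (nat_lit 193) (nat_lit 145)) (XT.nd (nat_lit 78) (nat_lit 0) (nat_lit 0) (XT.lf (nat_lit 0) (nat_lit 8328717129221) (nat_lit 76) (nat_lit 916038758736) (nat_lit 76) (nat_lit 912257761613) (nat_lit 1) (nat_lit 4) (nat_lit 2) (nat_lit 5) (nat_lit 2) (nat_lit 4) (nat_lit 263) (nat_lit 193) (nat_lit 144)) (XT.lf (nat_lit 0) (nat_lit 9580774698818) (nat_lit 76) (nat_lit 1051664676602) (nat_lit 76) (nat_lit 1047883155557) (nat_lit 1) (nat_lit 4) (nat_lit 2) (nat_lit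 5) (nat_lit 2) (nat_lit 4) (nat_lit 264) (nat_lit 193) (nat_lit 143)))) (XT.nd (nat_lit 156) (nat_lit 0) (nat_lit 0) (XT.nd (nat_lit 78) (nat_lit 0) (nat_lit 0) (XT.lf (nat_lit 0) (nat_lit 11020640193602) (nat_lit 76) (nat_lit 1207634795213) (nat_lit 76) (nat_lit 1203852818583) (nat_lit 1) (nat_lit 4) (nat_lit 2) (nat_lit 5) (nat_lit 2) (nat_lit 4) (nat_lit 265) (nat_lit 193) (nat_lit 142)) (XT.lf (nat_lit 0) (nat_lit 12676484894995) (nat_lit 76) (nat_lit 1387000703844) (nat_lit 76) (nat_lit 1383218331054) (nat_lit 1) (nat_lit 4) (nat_lit 2) (nat_lit 5) (nat_lit 2) (nat_lit 4) (nat_lit 266) (nat_lit 193) (nat_lit 141))) (XT.nd (nat_lit 78) (nat_lit 0) (nat_lit 0) (XT.lf (nat_lit 0) (nat_lit 14580705764545) (nat_lit 76) (nat_lit 1593271735492) (nat_lit 76) (nat_lit 1589489018214) (nat_lit 1) (nat_lit 4) (nat_lit 2) (nat_lit 5) (nat_lit 2) (nat_lit 4) (nat_lit 267) (nat_lit 193) (nat_lit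 140)) (XT.lf (nat_lit 0) (nat_lit 16770559297526) (nat_lit 76) (nat_lit 1830483627731) (nat_lit 76) (nat_lit 1826700610900) (nat_lit 1) (nat_lit 4) (nat_lit 2) (nat_lit 5) (nat_lit 2) (nat_lit 4) (nat_lit 268) (nat_lit 193) (nat_lit 139)))))) (XT.nd (nat_lit 27222) (nat_lit 0) (nat_lit 0) (XT.nd (nat_lit 26910) (nat_lit 0) (nat_lit 228) (XT.nd (nat_lit 78) (nat_lit 0) (nat_lit 0) (XT.lf (nat_lit 0) (nat_lit 19288890454366) (nat_lit 76) (nat_lit 2103277482802) (nat_lit 76) (nat_lit 2099494205489) (nat_lit 1) (nat_lit 4) (nat_lit 2) (nat_lit 5) (nat_lit 2) (nat_lit 4) (nat_lit 269) (nat_lit 193) (nat_lit 138)) (XT.nd (nat_lit 26754) (nat_lit 0) (nat_lit 304) (XT.lf (nat_lit 0) (nat_lit 22184970931612) (nat_lit 76) (nat_lit 2416990571782) (nat_lit 76) (nat_lit 2413207067962) (nat_lit 1) (nat_lit 4) (nat_lit 2) (nat_lit 5) (nat_lit 2) (nat_lit 4) (nat_lit 270) (nat_lit 193) (nat_lit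 137)) (XT.lf (nat_lit 0) (nat_lit 952826749) (nat_lit 152) (nat_lit 3762709527) (nat_lit 0) (nat_lit 952826749) (nat_lit 5) (nat_lit 5) (nat_lit 7) (nat_lit 4) (nat_lit 5) (nat_lit 4) (nat_lit 212) (nat_lit 194) (nat_lit 194)))) (XT.nd (nat_lit 156) (nat_lit 0) (nat_lit 0) (XT.nd (nat_lit 78) (nat_lit 76) (nat_lit 0) (XT.lf (nat_lit 0) (nat_lit 5181682388) (nat_lit 152) (nat_lit 2718333607) (nat_lit 0) (nat_lit 4528767498) (nat_lit 5) (nat_lit 5) (nat_lit 7) (nat_lit 4) (nat_lit 5) (nat_lit 4) (nat_lit 213) (nat_lit 194) (nat_lit 193)) (XT.lf (nat_lit 0) (nat_lit 2530679171) (nat_lit 76) (nat_lit 6205312597) (nat_lit 76) (nat_lit 4984645628) (nat_lit 4) (nat_lit 4) (nat_lit 5) (nat_lit 5) (nat_lit 5) (nat_lit 4) (nat_lit 214) (nat_lit 194) (nat_lit 192))) (XT.nd (nat_lit 78) (nat_lit 0) (nat_lit 0) (XT.lf (nat_lit 0) (nat_lit 8391042271) (nat_lit 76) (nat_lit 4278115048) (nat_lit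 76) (nat_lit 2563750619) (nat_lit 4) (nat_lit 4) (nat_lit 5) (nat_lit 5) (nat_lit 5) (nat_lit 4) (nat_lit 215) (nat_lit 194) (nat_lit 191)) (XT.lf (nat_lit 0) (nat_lit 14711759640) (nat_lit 76) (nat_lit 2222812021) (nat_lit 76) (nat_lit 79145452) (nat_lit 4) (nat_lit 4) (nat_lit 5) (nat_lit 5) (nat_lit 5) (nat_lit 4) (nat_lit 216) (nat_lit 194) (nat_lit 190))))) (XT.nd (nat_lit 234) (nat_lit 76) (nat_lit 0) (XT.nd (nat_lit 78) (nat_lit 0) (nat_lit 0) (XT.lf (nat_lit 0) (nat_lit 2413597757) (nat_lit 152) (nat_lit 16425749950) (nat_lit 0) (nat_lit 224925778) (nat_lit 2) (nat_lit 5) (nat_lit 4) (nat_lit 4) (nat_lit 2) (nat_lit 4) (nat_lit 217) (nat_lit 194) (nat_lit 189)) (XT.nd (nat_lit 78) (nat_lit 0) (nat_lit 0) (XT.lf (nat_lit 0) (nat_lit 5276188335) (nat_lit 152) (nat_lit 13341808878) (nat_lit 0) (nat_lit 2805243231) (nat_lit 2) (nat_lit 5) (nat_lit 4) (nat_lit 4) (nat_lit 2) (nat_lit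 4) (nat_lit 218) (nat_lit 194) (nat_lit 188)) (XT.lf (nat_lit 0) (nat_lit 8370020635) (nat_lit 152) (nat_lit 10143870844) (nat_lit 0) (nat_lit 5653620639) (nat_lit 2) (nat_lit 5) (nat_lit 4) (nat_lit 4) (nat_lit 2) (nat_lit 4) (nat_lit 219) (nat_lit 194) (nat_lit 187)))) (XT.nd (nat_lit 156) (nat_lit 76) (nat_lit 0) (XT.nd (nat_lit 78) (nat_lit 0) (nat_lit 0) (XT.lf (nat_lit 0) (nat_lit 11755626159) (nat_lit 152) (nat_lit 6769367493) (nat_lit 0) (nat_lit 8825787127) (nat_lit 2) (nat_lit 5) (nat_lit 4) (nat_lit 4) (nat_lit 2) (nat_lit 4) (nat_lit 220) (nat_lit 194) (nat_lit 186)) (XT.lf (nat_lit 0) (nat_lit 15499245014) (nat_lit 152) (nat_lit 3152275935) (nat_lit 0) (nat_lit 12383806820) (nat_lit 2) (nat_lit 5) (nat_lit 4) (nat_lit 4) (nat_lit 2) (nat_lit 4) (nat_lit 221) (nat_lit 194) (nat_lit 185))) (XT.nd (nat_lit 78) (nat_lit 0) (nat_lit 0) (XT.lf (nat_lit 0) (nat_lit 854221739)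 (nat_lit 76) (nat_lit 18855271679) (nat_lit 76) (nat_lit 15578442910) (nat_lit 1) (nat_lit 4) (nat_lit 2) (nat_lit 5) (nat_lit 2) (nat_lit 4) (nat_lit 222) (nat_lit 194) (nat_lit 184)) (XT.lf (nat_lit 0) (nat_lit 5597179021) (nat_lit 76) (nat_lit 18996527470) (nat_lit 76) (nat_lit 15579359070) (nat_lit 1) (nat_lit 4) (nat_lit 2) (nat_lit 5) (nat_lit 2) (nat_lit 4) (nat_lit 223) (nat_lit 194) (nat_lit 183))))))) (XT.nd (nat_lit 1014) (nat_lit 0) (nat_lit 0) (XT.nd (nat_lit 468) (nat_lit 0) (nat_lit 0) (XT.nd (nat_lit 234) (nat_lit 0) (nat_lit 0) (XT.nd (nat_lit 78) (nat_lit 0) (nat_lit 0) (XT.lf (nat_lit 0) (nat_lit 10861329571) (nat_lit 76) (nat_lit 19242830082) (nat_lit 76) (nat_lit 15703627221) (nat_lit 1) (nat_lit 4) (nat_lit 2) (nat_lit 5) (nat_lit 2) (nat_lit 4) (nat_lit 224) (nat_lit 194) (nat_lit 182)) (XT.nd (nat_lit 78) (nat_lit 0) (nat_lit 0) (XT.lf (nat_lit 0) (nat_lit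 16749667638) (nat_lit 76) (nat_lit 19598998480) (nat_lit 76) (nat_lit 15953678696) (nat_lit 1) (nat_lit 4) (nat_lit 2) (nat_lit 5) (nat_lit 2) (nat_lit 4) (nat_lit 225) (nat_lit 194) (nat_lit 181)) (XT.lf (nat_lit 0) (nat_lit 23377399837) (nat_lit 76) (nat_lit 20072001176) (nat_lit 76) (nat_lit 16334405807) (nat_lit 1) (nat_lit 4) (nat_lit 2) (nat_lit 5) (nat_lit 2) (nat_lit 4) (nat_lit 226) (nat_lit 194) (nat_lit 180)))) (XT.nd (nat_lit 78) (nat_lit 0) (nat_lit 0) (XT.lf (nat_lit 0) (nat_lit 30874199190) (nat_lit 76) (nat_lit 20671092571) (nat_lit 76) (nat_lit 16853257562) (nat_lit 1) (nat_lit 4) (nat_lit 2) (nat_lit 5) (nat_lit 2) (nat_lit 4) (nat_lit 227) (nat_lit 194) (nat_lit 179)) (XT.nd (nat_lit 78) (nat_lit 0) (nat_lit 0) (XT.lf (nat_lit 0) (nat_lit 39386742205) (nat_lit 76) (nat_lit 21407994018) (nat_lit 76) (nat_lit 17520385409) (nat_lit 1) (nat_lit 4) (nat_lit 2) (nat_lit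 5) (nat_lit 2) (nat_lit 4) (nat_lit 228) (nat_lit 194) (nat_lit 178)) (XT.lf (nat_lit 0) (nat_lit 49081578637) (nat_lit 76) (nat_lit 22297123153) (nat_lit 76) (nat_lit 18348841850) (nat_lit 1) (nat_lit 4) (nat_lit 2) (nat_lit 5) (nat_lit 2) (nat_lit 4) (nat_lit 229) (nat_lit 194) (nat_lit 177))))) (XT.nd (nat_lit 234) (nat_lit 0) (nat_lit 0) (XT.nd (nat_lit 78) (nat_lit 0) (nat_lit 0) (XT.lf (nat_lit 0) (nat_lit 60148390068) (nat_lit 76) (nat_lit 23355875983) (nat_lit 76) (nat_lit 19354835814) (nat_lit 1) (nat_lit 4) (nat_lit 2) (nat_lit 5) (nat_lit 2) (nat_lit 4) (nat_lit 230) (nat_lit 194) (nat_lit 176)) (XT.nd (nat_lit 78) (nat_lit 0) (nat_lit 0) (XT.lf (nat_lit 0) (nat_lit 72803701070) (nat_lit 76) (nat_lit 24604967235) (nat_lit 76) (nat_lit 20558049792) (nat_lit 1) (nat_lit 4) (nat_lit 2) (nat_lit 5) (nat_lit 2) (nat_lit 4) (nat_lit 231) (nat_lit 194) (nat_lit 175)) (XT.lf (nat_lit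 0) (nat_lit 87295115554) (nat_lit 76) (nat_lit 26068835653) (nat_lit 76) (nat_lit 21982024927) (nat_lit 1) (nat_lit 4) (nat_lit 2) (nat_lit 5) (nat_lit 2) (nat_lit 4) (nat_lit 232) (nat_lit 194) (nat_lit 174)))) (XT.nd (nat_lit 156) (nat_lit 0) (nat_lit 0) (XT.nd (nat_lit 78) (nat_lit 0) (nat_lit 0) (XT.lf (nat_lit 0) (nat_lit 103906161195) (nat_lit 76) (nat_lit 27776122139) (nat_lit 76) (nat_lit 23654621603) (nat_lit 1) (nat_lit 4) (nat_lit 2) (nat_lit 5) (nat_lit 2) (nat_lit 4) (nat_lit 233) (nat_lit 194) (nat_lit 173)) (XT.lf (nat_lit 0) (nat_lit 122961836710) (nat_lit 76) (nat_lit 29760230125) (nat_lit 76) (nat_lit 25608564536) (nat_lit 1) (nat_lit 4) (nat_lit 2) (nat_lit 5) (nat_lit 2) (nat_lit 4) (nat_lit 234) (nat_lit 194) (nat_lit 172))) (XT.nd (nat_lit 78) (nat_lit 0) (nat_lit 0) (XT.lf (nat_lit 0) (nat_lit 144834970535) (nat_lit 76) (nat_lit 32059979115) (nat_lit 76) (nat_lit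 27882083046) (nat_lit 1) (nat_lit 4) (nat_lit 2) (nat_lit 5) (nat_lit 2) (nat_lit 4) (nat_lit 235) (nat_lit 194) (nat_lit 171)) (XT.lf (nat_lit 0) (nat_lit 169953515288) (nat_lit 76) (nat_lit 34720364198) (nat_lit 76) (nat_lit 30519659016) (nat_lit 1) (nat_lit 4) (nat_lit 2) (nat_lit 5) (nat_lit 2) (nat_lit 4) (nat_lit 236) (nat_lit 194) (nat_lit 170)))))) (XT.nd (nat_lit 546) (nat_lit 0) (nat_lit 0) (XT.nd (nat_lit 234) (nat_lit 0) (nat_lit 0) (XT.nd (nat_lit 78) (nat_lit 0) (nat_lit 0) (XT.lf (nat_lit 0) (nat_lit 198808920758) (nat_lit 76) (nat_lit 37793436387) (nat_lit 76) (nat_lit 33572897193) (nat_lit 1) (nat_lit 4) (nat_lit 2) (nat_lit 5) (nat_lit 2) (nat_lit 4) (nat_lit 237) (nat_lit 194) (nat_lit 169)) (XT.nd (nat_lit 78) (nat_lit 0) (nat_lit 0) (XT.lf (nat_lit 0) (nat_lit 231965749225) (nat_lit 76) (nat_lit 41339321006) (nat_lit 76) (nat_lit 37101534846) (nat_lit 1) (nat_lit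 4) (nat_lit 2) (nat_lit 5) (nat_lit 2) (nat_lit 4) (nat_lit 238) (nat_lit 194) (nat_lit 168)) (XT.lf (nat_lit 0) (nat_lit 270072721246) (nat_lit 76) (nat_lit 45427394060) (nat_lit 76) (nat_lit 41174610537) (nat_lit 1) (nat_lit 4) (nat_lit 2) (nat_lit 5) (nat_lit 2) (nat_lit 4) (nat_lit 239) (nat_lit 194) (nat_lit 167)))) (XT.nd (nat_lit 156) (nat_lit 0) (nat_lit 0) (XT.nd (nat_lit 78) (nat_lit 0) (nat_lit 0) (XT.lf (nat_lit 0) (nat_lit 313875408013) (nat_lit 76) (nat_lit 50137639586) (nat_lit 76) (nat_lit 45871814879) (nat_lit 1) (nat_lit 4) (nat_lit 2) (nat_lit 5) (nat_lit 2) (nat_lit 4) (nat_lit 240) (nat_lit 194) (nat_lit 166)) (XT.lf (nat_lit 0) (nat_lit 364230818615) (nat_lit 76) (nat_lit 55562214563) (nat_lit 76) (nat_lit 51285049695) (nat_lit 1) (nat_lit 4) (nat_lit 2) (nat_lit 5) (nat_lit 2) (nat_lit 4) (nat_lit 241) (nat_lit 194) (nat_lit 165))) (XT.nd (nat_lit 78) (nat_lit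 0) (nat_lit 0) (XT.lf (nat_lit 0) (nat_lit 422124167607) (nat_lit 76) (nat_lit 61807251978) (nat_lit 76) (nat_lit 57520226101) (nat_lit 1) (nat_lit 4) (nat_lit 2) (nat_lit 5) (nat_lit 2) (nat_lit 4) (nat_lit 242) (nat_lit 194) (nat_lit 164)) (XT.lf (nat_lit 0) (nat_lit 488688150948) (nat_lit 76) (nat_lit 68994937346) (nat_lit 76) (nat_lit 64699336679) (nat_lit 1) (nat_lit 4) (nat_lit 2) (nat_lit 5) (nat_lit 2) (nat_lit 4) (nat_lit 243) (nat_lit 194) (nat_lit 163))))) (XT.nd (nat_lit 234) (nat_lit 0) (nat_lit 0) (XT.nd (nat_lit 78) (nat_lit 0) (nat_lit 0) (XT.lf (nat_lit 0) (nat_lit 565225107442) (nat_lit 76) (nat_lit 77265899295) (nat_lit 76) (nat_lit 72962842288) (nat_lit 1) (nat_lit 4) (nat_lit 2) (nat_lit 5) (nat_lit 2) (nat_lit 4) (nat_lit 244) (nat_lit 194) (nat_lit 162)) (XT.nd (nat_lit 78) (nat_lit 0) (nat_lit 0) (XT.lf (nat_lit 0) (nat_lit 653232499282) (nat_lit 76) (nat_lit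 86781960992) (nat_lit 76) (nat_lit 82472420211) (nat_lit 1) (nat_lit 4) (nat_lit 2) (nat_lit 5) (nat_lit 2) (nat_lit 4) (nat_lit 245) (nat_lit 194) (nat_lit 161)) (XT.lf (nat_lit 0) (nat_lit 754432210221) (nat_lit 76) (nat_lit 97729306254) (nat_lit 76) (nat_lit 93414127409) (nat_lit 1) (nat_lit 4) (nat_lit 2) (nat_lit 5) (nat_lit 2) (nat_lit 4) (nat_lit 246) (nat_lit 194) (nat_lit 160)))) (XT.nd (nat_lit 156) (nat_lit 0) (nat_lit 0) (XT.nd (nat_lit 78) (nat_lit 0) (nat_lit 0) (XT.lf (nat_lit 0) (nat_lit 870804234603) (nat_lit 76) (nat_lit 110322122270) (nat_lit 76) (nat_lit 106002040761) (nat_lit 1) (nat_lit 4) (nat_lit 2) (nat_lit 5) (nat_lit 2) (nat_lit 4) (nat_lit 247) (nat_lit 194) (nat_lit 159)) (XT.lf (nat_lit 0) (nat_lit 1004625416384) (nat_lit 76) (nat_lit 124806790224) (nat_lit 76) (nat_lit 120482445528) (nat_lit 1) (nat_lit 4) (nat_lit 2) (nat_lit 5) (nat_lit 2) (nat_lit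 4) (nat_lit 248) (nat_lit 194) (nat_lit 158))) (XT.nd (nat_lit 78) (nat_lit 0) (nat_lit 0) (XT.lf (nat_lit 0) (nat_lit 1158513996076) (nat_lit 76) (nat_lit 141466705792) (nat_lit 76) (nat_lit 137138653978) (nat_lit 1) (nat_lit 4) (nat_lit 2) (nat_lit 5) (nat_lit 2) (nat_lit 4) (nat_lit 249) (nat_lit 194) (nat_lit 157)) (XT.lf (nat_lit 0) (nat_lit 1335480837196) (nat_lit 76) (nat_lit 160627823845) (nat_lit 76) (nat_lit 156296548450) (nat_lit 1) (nat_lit 4) (nat_lit 2) (nat_lit 5) (nat_lit 2) (nat_lit 4) (nat_lit 250) (nat_lit 194) (nat_lit 156))))))))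
noncomputable def xc18 : XT := (XT.nd (nat_lit 28470) (nat_lit 0) (nat_lit 0) (XT.nd (nat_lit 1014) (nat_lit 0) (nat_lit 0) (XT.nd (nat_lit 468) (nat_lit 0) (nat_lit 0) (XT.nd (nat_lit 234) (nat_lit 0) (nat_lit 0) (XT.nd (nat_lit 78) (nat_lit 0) (nat_lit 0) (XT.lf (nat_lit 0) (nat_lit 1538988334461) (nat_lit 76) (nat_lit 182665035823) (nat_lit 76) (nat_lit 178330957313) (nat_lit 1) (nat_lit 4) (nat_lit 2) (nat_lit 5) (nat_lit 2) (nat_lit 4) (nat_lit 251) (nat_lit 194) (nat_lit 155)) (XT.nd (nat_lit 78) (nat_lit 0) (nat_lit 0) (XT.lf (nat_lit 0) (nat_lit 1773018156296) (nat_lit 76) (nat_lit 208009504568) (nat_lit 76) (nat_lit 203672988568) (nat_lit 1) (nat_lit 4) (nat_lit 2) (nat_lit 5) (nat_lit 2) (nat_lit 4) (nat_lit 252) (nat_lit 194) (nat_lit 154)) (XT.lf (nat_lit 0) (nat_lit 2042149147041) (nat_lit 76) (nat_lit 237157100122) (nat_lit 76) (nat_lit 232818464564) (nat_lit 1) (nat_lit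 4) (nat_lit 2) (nat_lit 5) (nat_lit 2) (nat_lit 4) (nat_lit 253) (nat_lit 194) (nat_lit 153)))) (XT.nd (nat_lit 78) (nat_lit 0) (nat_lit 0) (XT.lf (nat_lit 0) (nat_lit 2351646913037) (nat_lit 76) (nat_lit 270678101527) (nat_lit 76) (nat_lit 266337622877) (nat_lit 1) (nat_lit 4) (nat_lit 2) (nat_lit 5) (nat_lit 2) (nat_lit 4) (nat_lit 254) (nat_lit 194) (nat_lit 152)) (XT.nd (nat_lit 78) (nat_lit 0) (nat_lit 0) (XT.lf (nat_lit 0) (nat_lit 2707566845357) (nat_lit 76) (nat_lit 309228354464) (nat_lit 76) (nat_lit 304886273124) (nat_lit 1) (nat_lit 4) (nat_lit 2) (nat_lit 5) (nat_lit 2) (nat_lit 4) (nat_lit 255) (nat_lit 194) (nat_lit 151)) (XT.lf (nat_lit 0) (nat_lit 3116872594851) (nat_lit 76) (nat_lit 353562103012) (nat_lit 76) (nat_lit 349218628028) (nat_lit 1) (nat_lit 4) (nat_lit 2) (nat_lit 5) (nat_lit 2) (nat_lit 4) (nat_lit 256) (nat_lit 194) (nat_lit 150))))) (XT.nd (nat_lit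 234) (nat_lit 0) (nat_lit 0) (XT.nd (nat_lit 78) (nat_lit 0) (nat_lit 0) (XT.lf (nat_lit 0) (nat_lit 3587572317489) (nat_lit 76) (nat_lit 404546746599) (nat_lit 76) (nat_lit 400202059751) (nat_lit 1) (nat_lit 4) (nat_lit 2) (nat_lit 5) (nat_lit 2) (nat_lit 4) (nat_lit 257) (nat_lit 194) (nat_lit 149)) (XT.nd (nat_lit 78) (nat_lit 0) (nat_lit 0) (XT.lf (nat_lit 0) (nat_lit 4128875355668) (nat_lit 76) (nat_lit 463179810859) (nat_lit 76) (nat_lit 458834070218) (nat_lit 1) (nat_lit 4) (nat_lit 2) (nat_lit 5) (nat_lit 2) (nat_lit 4) (nat_lit 258) (nat_lit 194) (nat_lit 148)) (XT.lf (nat_lit 0) (nat_lit 4751372421006) (nat_lit 76) (nat_lit 530608464443) (nat_lit 76) (nat_lit 526261807458) (nat_lit 1) (nat_lit 4) (nat_lit 2) (nat_lit 5) (nat_lit 2) (nat_lit 4) (nat_lit 259) (nat_lit 194) (nat_lit 147)))) (XT.nd (nat_lit 156) (nat_lit 0) (nat_lit 0) (XT.nd (nat_lit 78) (nat_lit 0) (nat_lit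 0) (XT.lf (nat_lit 0) (nat_lit 5467242803911) (nat_lit 76) (nat_lit 608151963615) (nat_lit 76) (nat_lit 603804509810) (nat_lit 1) (nat_lit 4) (nat_lit 2) (nat_lit 5) (nat_lit 2) (nat_lit 4) (nat_lit 260) (nat_lit 194) (nat_lit 146)) (XT.lf (nat_lit 0) (nat_lit 6290492664049) (nat_lit 76) (nat_lit 697327463794) (nat_lit 76) (nat_lit 692979317103) (nat_lit 1) (nat_lit 4) (nat_lit 2) (nat_lit 5) (nat_lit 2) (nat_lit 4) (nat_lit 261) (nat_lit 194) (nat_lit 145))) (XT.nd (nat_lit 78) (nat_lit 0) (nat_lit 0) (XT.lf (nat_lit 0) (nat_lit 7237229063902) (nat_lit 76) (nat_lit 799879703028) (nat_lit 76) (nat_lit 795530953826) (nat_lit 1) (nat_lit 4) (nat_lit 2) (nat_lit 5) (nat_lit 2) (nat_lit 4) (nat_lit 262) (nat_lit 194) (nat_lit 144)) (XT.lf (nat_lit 0) (nat_lit 8325975106943) (nat_lit 76) (nat_lit 917815138170) (nat_lit 76) (nat_lit 913465865046) (nat_lit 1) (nat_lit 4) (nat_lit 2) (nat_lit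 5) (nat_lit 2) (nat_lit 4) (nat_lit 263) (nat_lit 194) (nat_lit 143)))))) (XT.nd (nat_lit 468) (nat_lit 0) (nat_lit 0) (XT.nd (nat_lit 234) (nat_lit 0) (nat_lit 0) (XT.nd (nat_lit 78) (nat_lit 0) (nat_lit 0) (XT.lf (nat_lit 0) (nat_lit 9578032346190) (nat_lit 76) (nat_lit 1053441201647) (nat_lit 76) (nat_lit 1049091472939) (nat_lit 1) (nat_lit 4) (nat_lit 2) (nat_lit 5) (nat_lit 2) (nat_lit 4) (nat_lit 264) (nat_lit 194) (nat_lit 142)) (XT.nd (nat_lit 78) (nat_lit 0) (nat_lit 0) (XT.lf (nat_lit 0) (nat_lit 11017897553714) (nat_lit 76) (nat_lit 1209411446876) (nat_lit 76) (nat_lit 1205061322007) (nat_lit 1) (nat_lit 4) (nat_lit 2) (nat_lit 5) (nat_lit 2) (nat_lit 4) (nat_lit 265) (nat_lit 194) (nat_lit 141)) (XT.lf (nat_lit 0) (nat_lit 12673742005316) (nat_lit 76) (nat_lit 1388777465611) (nat_lit 76) (nat_lit 1384426996254) (nat_lit 1) (nat_lit 4) (nat_lit 2) (nat_lit 5) (nat_lit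 2) (nat_lit 4) (nat_lit 266) (nat_lit 194) (nat_lit 140)))) (XT.nd (nat_lit 78) (nat_lit 0) (nat_lit 0) (XT.lf (nat_lit 0) (nat_lit 14577962657656) (nat_lit 76) (nat_lit 1595048593000) (nat_lit 76) (nat_lit 1590697824089) (nat_lit 1) (nat_lit 4) (nat_lit 2) (nat_lit 5) (nat_lit 2) (nat_lit 4) (nat_lit 267) (nat_lit 194) (nat_lit 139)) (XT.nd (nat_lit 78) (nat_lit 0) (nat_lit 0) (XT.lf (nat_lit 0) (nat_lit 16767816001759) (nat_lit 76) (nat_lit 1832260568493) (nat_lit 76) (nat_lit 1827909539101) (nat_lit 1) (nat_lit 4) (nat_lit 2) (nat_lit 5) (nat_lit 2) (nat_lit 4) (nat_lit 268) (nat_lit 194) (nat_lit 138)) (XT.lf (nat_lit 0) (nat_lit 19286146994357) (nat_lit 76) (nat_lit 2105054495959) (nat_lit 76) (nat_lit 2100703240060) (nat_lit 1) (nat_lit 4) (nat_lit 2) (nat_lit 5) (nat_lit 2) (nat_lit 4) (nat_lit 269) (nat_lit 194) (nat_lit 137))))) (XT.nd (nat_lit 26676) (nat_lit 0) (nat_lit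 228) (XT.nd (nat_lit 78) (nat_lit 0) (nat_lit 0) (XT.lf (nat_lit 0) (nat_lit 22182227328783) (nat_lit 76) (nat_lit 2418767647890) (nat_lit 76) (nat_lit 2414416195030) (nat_lit 1) (nat_lit 4) (nat_lit 2) (nat_lit 5) (nat_lit 2) (nat_lit 4) (nat_lit 270) (nat_lit 194) (nat_lit 136)) (XT.nd (nat_lit 26520) (nat_lit 0) (nat_lit 456) (XT.lf (nat_lit 0) (nat_lit 25512719446364) (nat_lit 76) (nat_lit 2779537890303) (nat_lit 76) (nat_lit 2775186266172) (nat_lit 1) (nat_lit 4) (nat_lit 2) (nat_lit 5) (nat_lit 2) (nat_lit 4) (nat_lit 271) (nat_lit 194) (nat_lit 135)) (XT.lf (nat_lit 0) (nat_lit 1521380712) (nat_lit 152) (nat_lit 1638845402) (nat_lit 152) (nat_lit 1638845402) (nat_lit 7) (nat_lit 4) (nat_lit 9) (nat_lit 5) (nat_lit 9) (nat_lit 4) (nat_lit 210) (nat_lit 195) (nat_lit 195)))) (XT.nd (nat_lit 156) (nat_lit 76) (nat_lit 0) (XT.nd (nat_lit 78) (nat_lit 152) (nat_lit 0) (XT.lf (nat_lit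 0) (nat_lit 8725635671) (nat_lit 152) (nat_lit 1277042551) (nat_lit 152) (nat_lit 413562608) (nat_lit 7) (nat_lit 4) (nat_lit 9) (nat_lit 5) (nat_lit 9) (nat_lit 4) (nat_lit 211) (nat_lit 195) (nat_lit 194)) (XT.lf (nat_lit 0) (nat_lit 2486458668) (nat_lit 152) (nat_lit 7795232614) (nat_lit 0) (nat_lit 1082691653) (nat_lit 5) (nat_lit 5) (nat_lit 7) (nat_lit 4) (nat_lit 5) (nat_lit 4) (nat_lit 212) (nat_lit 195) (nat_lit 193))) (XT.nd (nat_lit 78) (nat_lit 76) (nat_lit 0) (XT.lf (nat_lit 0) (nat_lit 5614620642) (nat_lit 152) (nat_lit 3222767653) (nat_lit 0) (nat_lit 3643101548) (nat_lit 5) (nat_lit 5) (nat_lit 7) (nat_lit 4) (nat_lit 5) (nat_lit 4) (nat_lit 213) (nat_lit 195) (nat_lit 192)) (XT.lf (nat_lit 0) (nat_lit 1752992243) (nat_lit 76) (nat_lit 7255155495) (nat_lit 76) (nat_lit 4789938941) (nat_lit 4) (nat_lit 4) (nat_lit 5) (nat_lit 5) (nat_lit 5) (nat_lit 4) (nat_lit 214)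 (nat_lit 195) (nat_lit 191))))))) (XT.nd (nat_lit 1014) (nat_lit 0) (nat_lit 0) (XT.nd (nat_lit 468) (nat_lit 76) (nat_lit 0) (XT.nd (nat_lit 234) (nat_lit 0) (nat_lit 0) (XT.nd (nat_lit 78) (nat_lit 152) (nat_lit 0) (XT.lf (nat_lit 0) (nat_lit 7418611066) (nat_lit 76) (nat_lit 5402829645) (nat_lit 76) (nat_lit 2508310952) (nat_lit 4) (nat_lit 4) (nat_lit 5) (nat_lit 5) (nat_lit 5) (nat_lit 4) (nat_lit 215) (nat_lit 195) (nat_lit 190)) (XT.nd (nat_lit 78) (nat_lit 152) (nat_lit 0) (XT.lf (nat_lit 0) (nat_lit 13569985585) (nat_lit 76) (nat_lit 3412632443) (nat_lit 76) (nat_lit 144807542) (nat_lit 4) (nat_lit 4) (nat_lit 5) (nat_lit 5) (nat_lit 5) (nat_lit 4) (nat_lit 216) (nat_lit 195) (nat_lit 189)) (XT.lf (nat_lit 0) (nat_lit 1102131295) (nat_lit 76) (nat_lit 1081389769) (nat_lit 152) (nat_lit 17021337197) (nat_lit 2) (nat_lit 5) (nat_lit 3) (nat_lit 5) (nat_lit 4) (nat_lit 4) (nat_lit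 217) (nat_lit 195) (nat_lit 188)))) (XT.nd (nat_lit 78) (nat_lit 0) (nat_lit 0) (XT.lf (nat_lit 0) (nat_lit 4909172266) (nat_lit 152) (nat_lit 15136144687) (nat_lit 0) (nat_lit 1539857379) (nat_lit 2) (nat_lit 5) (nat_lit 4) (nat_lit 4) (nat_lit 2) (nat_lit 4) (nat_lit 218) (nat_lit 195) (nat_lit 187)) (XT.nd (nat_lit 78) (nat_lit 0) (nat_lit 0) (XT.lf (nat_lit 0) (nat_lit 7922864277) (nat_lit 152) (nat_lit 12079195205) (nat_lit 0) (nat_lit 4340110354) (nat_lit 2) (nat_lit 5) (nat_lit 4) (nat_lit 4) (nat_lit 2) (nat_lit 4) (nat_lit 219) (nat_lit 195) (nat_lit 186)) (XT.lf (nat_lit 0) (nat_lit 11238782593) (nat_lit 152) (nat_lit 8827290597) (nat_lit 0) (nat_lit 7470429508) (nat_lit 2) (nat_lit 5) (nat_lit 4) (nat_lit 4) (nat_lit 2) (nat_lit 4) (nat_lit 220) (nat_lit 195) (nat_lit 185))))) (XT.nd (nat_lit 234) (nat_lit 0) (nat_lit 0) (XT.nd (nat_lit 78) (nat_lit 76) (nat_lit 0) (XT.lf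 (nat_lit 0) (nat_lit 14921803876) (nat_lit 152) (nat_lit 5316806640) (nat_lit 0) (nat_lit 10992060216) (nat_lit 2) (nat_lit 5) (nat_lit 4) (nat_lit 4) (nat_lit 2) (nat_lit 4) (nat_lit 221) (nat_lit 195) (nat_lit 184)) (XT.nd (nat_lit 78) (nat_lit 76) (nat_lit 0) (XT.lf (nat_lit 0) (nat_lit 19043987238) (nat_lit 152) (nat_lit 1479059954) (nat_lit 0) (nat_lit 14973903948) (nat_lit 2) (nat_lit 5) (nat_lit 4) (nat_lit 4) (nat_lit 2) (nat_lit 4) (nat_lit 222) (nat_lit 195) (nat_lit 183)) (XT.lf (nat_lit 0) (nat_lit 3030864309) (nat_lit 76) (nat_lit 20780621413) (nat_lit 76) (nat_lit 16588503661) (nat_lit 1) (nat_lit 4) (nat_lit 2) (nat_lit 5) (nat_lit 2) (nat_lit 4) (nat_lit 223) (nat_lit 195) (nat_lit 182)))) (XT.nd (nat_lit 156) (nat_lit 0) (nat_lit 0) (XT.nd (nat_lit 78) (nat_lit 0) (nat_lit 0) (XT.lf (nat_lit 0) (nat_lit 8218068317) (nat_lit 76) (nat_lit 21060840487) (nat_lit 76)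 (nat_lit 16762605812) (nat_lit 1) (nat_lit 4) (nat_lit 2) (nat_lit 5) (nat_lit 2) (nat_lit 4) (nat_lit 224) (nat_lit 195) (nat_lit 181)) (XT.lf (nat_lit 0) (nat_lit 14039496348) (nat_lit 76) (nat_lit 21446501462) (nat_lit 76) (nat_lit 17055991201) (nat_lit 1) (nat_lit 4) (nat_lit 2) (nat_lit 5) (nat_lit 2) (nat_lit 4) (nat_lit 225) (nat_lit 195) (nat_lit 180))) (XT.nd (nat_lit 78) (nat_lit 0) (nat_lit 0) (XT.lf (nat_lit 0) (nat_lit 20609045907) (nat_lit 76) (nat_lit 21945149876) (nat_lit 76) (nat_lit 17474399976) (nat_lit 1) (nat_lit 4) (nat_lit 2) (nat_lit 5) (nat_lit 2) (nat_lit 4) (nat_lit 226) (nat_lit 195) (nat_lit 179)) (XT.lf (nat_lit 0) (nat_lit 28055251659) (nat_lit 76) (nat_lit 22566541895) (nat_lit 76) (nat_lit 18026018396) (nat_lit 1) (nat_lit 4) (nat_lit 2) (nat_lit 5) (nat_lit 2) (nat_lit 4) (nat_lit 227) (nat_lit 195) (nat_lit 178)))))) (XT.nd (nat_lit 546) (nat_lit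 0) (nat_lit 0) (XT.nd (nat_lit 234) (nat_lit 0) (nat_lit 0) (XT.nd (nat_lit 78) (nat_lit 0) (nat_lit 0) (XT.lf (nat_lit 0) (nat_lit 36523800239) (nat_lit 76) (nat_lit 23322835189) (nat_lit 76) (nat_lit 18721638995) (nat_lit 1) (nat_lit 4) (nat_lit 2) (nat_lit 5) (nat_lit 2) (nat_lit 4) (nat_lit 228) (nat_lit 195) (nat_lit 177)) (XT.nd (nat_lit 78) (nat_lit 0) (nat_lit 0) (XT.lf (nat_lit 0) (nat_lit 46180380641) (nat_lit 76) (nat_lit 24228826801) (nat_lit 76) (nat_lit 19574871741) (nat_lit 1) (nat_lit 4) (nat_lit 2) (nat_lit 5) (nat_lit 2) (nat_lit 4) (nat_lit 229) (nat_lit 195) (nat_lit 176)) (XT.lf (nat_lit 0) (nat_lit 57213925959) (nat_lit 76) (nat_lit 25302242653) (nat_lit 76) (nat_lit 20602410319) (nat_lit 1) (nat_lit 4) (nat_lit 2) (nat_lit 5) (nat_lit 2) (nat_lit 4) (nat_lit 230) (nat_lit 195) (nat_lit 175)))) (XT.nd (nat_lit 156) (nat_lit 0) (nat_lit 0) (XT.nd (nat_lit 78)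 (nat_lit 0) (nat_lit 0) (XT.lf (nat_lit 0) (nat_lit 69840309905) (nat_lit 76) (nat_lit 26564084360) (nat_lit 76) (nat_lit 21824358744) (nat_lit 1) (nat_lit 4) (nat_lit 2) (nat_lit 5) (nat_lit 2) (nat_lit 4) (nat_lit 231) (nat_lit 195) (nat_lit 174)) (XT.lf (nat_lit 0) (nat_lit 84306570428) (nat_lit 76) (nat_lit 28039040129) (nat_lit 76) (nat_lit 23264624702) (nat_lit 1) (nat_lit 4) (nat_lit 2) (nat_lit 5) (nat_lit 2) (nat_lit 4) (nat_lit 232) (nat_lit 195) (nat_lit 173))) (XT.nd (nat_lit 78) (nat_lit 0) (nat_lit 0) (XT.lf (nat_lit 0) (nat_lit 100895743059) (nat_lit 76) (nat_lit 29755967790) (nat_lit 76) (nat_lit 24951387311) (nat_lit 1) (nat_lit 4) (nat_lit 2) (nat_lit 5) (nat_lit 2) (nat_lit 4) (nat_lit 233) (nat_lit 195) (nat_lit 172)) (XT.lf (nat_lit 0) (nat_lit 119932398566) (nat_lit 76) (nat_lit 31748459407) (nat_lit 76) (nat_lit 26917648448) (nat_lit 1) (nat_lit 4) (nat_lit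 2) (nat_lit 5) (nat_lit 2) (nat_lit 4) (nat_lit 234) (nat_lit 195) (nat_lit 171))))) (XT.nd (nat_lit 234) (nat_lit 0) (nat_lit 0) (XT.nd (nat_lit 78) (nat_lit 0) (nat_lit 0) (XT.lf (nat_lit 0) (nat_lit 141788993254) (nat_lit 76) (nat_lit 34055498511) (nat_lit 76) (nat_lit 29201878438) (nat_lit 1) (nat_lit 4) (nat_lit 2) (nat_lit 5) (nat_lit 2) (nat_lit 4) (nat_lit 235) (nat_lit 195) (nat_lit 170)) (XT.nd (nat_lit 78) (nat_lit 0) (nat_lit 0) (XT.lf (nat_lit 0) (nat_lit 166893156148) (nat_lit 76) (nat_lit 36722222823) (nat_lit 76) (nat_lit 31848768739) (nat_lit 1) (nat_lit 4) (nat_lit 2) (nat_lit 5) (nat_lit 2) (nat_lit 4) (nat_lit 236) (nat_lit 195) (nat_lit 169)) (XT.lf (nat_lit 0) (nat_lit 195736055653) (nat_lit 76) (nat_lit 39800807385) (nat_lit 76) (nat_lit 34910106334) (nat_lit 1) (nat_lit 4) (nat_lit 2) (nat_lit 5) (nat_lit 2) (nat_lit 4) (nat_lit 237) (nat_lit 195) (nat_lit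 168)))) (XT.nd (nat_lit 156) (nat_lit 0) (nat_lit 0) (XT.nd (nat_lit 78) (nat_lit 0) (nat_lit 0) (XT.lf (nat_lit 0) (nat_lit 228882009369) (nat_lit 76) (nat_lit 43351485373) (nat_lit 76) (nat_lit 38445786960) (nat_lit 1) (nat_lit 4) (nat_lit 2) (nat_lit 5) (nat_lit 2) (nat_lit 4) (nat_lit 238) (nat_lit 195) (nat_lit 167)) (XT.lf (nat_lit 0) (nat_lit 266979525084) (nat_lit 76) (nat_lit 47443726573) (nat_lit 76) (nat_lit 42524986975) (nat_lit 1) (nat_lit 4) (nat_lit 2) (nat_lit 5) (nat_lit 2) (nat_lit 4) (nat_lit 239) (nat_lit 195) (nat_lit 166))) (XT.nd (nat_lit 78) (nat_lit 0) (nat_lit 0) (XT.lf (nat_lit 0) (nat_lit 310773988977) (nat_lit 76) (nat_lit 52157596574) (nat_lit 76) (nat_lit 47227516816) (nat_lit 1) (nat_lit 4) (nat_lit 2) (nat_lit 5) (nat_lit 2) (nat_lit 4) (nat_lit 240) (nat_lit 195) (nat_lit 165)) (XT.lf (nat_lit 0) (nat_lit 361122249253) (nat_lit 76) (nat_lit 57585323268)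 (nat_lit 76) (nat_lit 52645382500) (nat_lit 1) (nat_lit 4) (nat_lit 2) (nat_lit 5) (nat_lit 2) (nat_lit 4) (nat_lit 241) (nat_lit 195) (nat_lit 164))))))))
noncomputable def xc19 : XT := (XT.nd (nat_lit 2106) (nat_lit 0) (nat_lit 0) (XT.nd (nat_lit 1014) (nat_lit 0) (nat_lit 0) (XT.nd (nat_lit 468) (nat_lit 0) (nat_lit 0) (XT.nd (nat_lit 234) (nat_lit 0) (nat_lit 0) (XT.nd (nat_lit 78) (nat_lit 0) (nat_lit 0) (XT.lf (nat_lit 0) (nat_lit 419009380571) (nat_lit 76) (nat_lit 63833101307) (nat_lit 76) (nat_lit 58884585749) (nat_lit 1) (nat_lit 4) (nat_lit 2) (nat_lit 5) (nat_lit 2) (nat_lit 4) (nat_lit 242) (nat_lit 195) (nat_lit 163)) (XT.nd (nat_lit 78) (nat_lit 0) (nat_lit 0) (XT.lf (nat_lit 0) (nat_lit 485567957238) (nat_lit 76) (nat_lit 71023169827) (nat_lit 76) (nat_lit 66067197929) (nat_lit 1) (nat_lit 4) (nat_lit 2) (nat_lit 5) (nat_lit 2) (nat_lit 4) (nat_lit 243) (nat_lit 195)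 (nat_lit 162)) (XT.lf (nat_lit 0) (nat_lit 562100212277) (nat_lit 76) (nat_lit 79296204081) (nat_lit 76) (nat_lit 74333748409) (nat_lit 1) (nat_lit 4) (nat_lit 2) (nat_lit 5) (nat_lit 2) (nat_lit 4) (nat_lit 244) (nat_lit 195) (nat_lit 161)))) (XT.nd (nat_lit 78) (nat_lit 0) (nat_lit 0) (XT.lf (nat_lit 0) (nat_lit 650103515895) (nat_lit 76) (nat_lit 88814067782) (nat_lit 76) (nat_lit 83845974047) (nat_lit 1) (nat_lit 4) (nat_lit 2) (nat_lit 5) (nat_lit 2) (nat_lit 4) (nat_lit 245) (nat_lit 195) (nat_lit 160)) (XT.nd (nat_lit 78) (nat_lit 0) (nat_lit 0) (XT.lf (nat_lit 0) (nat_lit 751299671859) (nat_lit 76) (nat_lit 99762980005) (nat_lit 76) (nat_lit 94789983605) (nat_lit 1) (nat_lit 4) (nat_lit 2) (nat_lit 5) (nat_lit 2) (nat_lit 4) (nat_lit 246) (nat_lit 195) (nat_lit 159)) (XT.lf (nat_lit 0) (nat_lit 867668604958) (nat_lit 76) (nat_lit 112357158596) (nat_lit 76) (nat_lit 107379899009)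 (nat_lit 1) (nat_lit 4) (nat_lit 2) (nat_lit 5) (nat_lit 2) (nat_lit 4) (nat_lit 247) (nat_lit 195) (nat_lit 158))))) (XT.nd (nat_lit 234) (nat_lit 0) (nat_lit 0) (XT.nd (nat_lit 78) (nat_lit 0) (nat_lit 0) (XT.lf (nat_lit 0) (nat_lit 1001487098666) (nat_lit 76) (nat_lit 126843011396) (nat_lit 76) (nat_lit 121862044691) (nat_lit 1) (nat_lit 4) (nat_lit 2) (nat_lit 5) (nat_lit 2) (nat_lit 4) (nat_lit 248) (nat_lit 195) (nat_lit 157)) (XT.nd (nat_lit 78) (nat_lit 0) (nat_lit 0) (XT.lf (nat_lit 0) (nat_lit 1155373340904) (nat_lit 76) (nat_lit 143503957267) (nat_lit 76) (nat_lit 138519766980) (nat_lit 1) (nat_lit 4) (nat_lit 2) (nat_lit 5) (nat_lit 2) (nat_lit 4) (nat_lit 249) (nat_lit 195) (nat_lit 156)) (XT.lf (nat_lit 0) (nat_lit 1332338149456) (nat_lit 76) (nat_lit 162665971234) (nat_lit 76) (nat_lit 157678977834) (nat_lit 1) (nat_lit 4) (nat_lit 2) (nat_lit 5) (nat_lit 2) (nat_lit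 4) (nat_lit 250) (nat_lit 195) (nat_lit 155)))) (XT.nd (nat_lit 156) (nat_lit 0) (nat_lit 0) (XT.nd (nat_lit 78) (nat_lit 0) (nat_lit 0) (XT.lf (nat_lit 0) (nat_lit 1535843879270) (nat_lit 76) (nat_lit 184703962268) (nat_lit 76) (nat_lit 179714531377) (nat_lit 1) (nat_lit 4) (nat_lit 2) (nat_lit 5) (nat_lit 2) (nat_lit 4) (nat_lit 251) (nat_lit 195) (nat_lit 154)) (XT.lf (nat_lit 0) (nat_lit 1769872164190) (nat_lit 76) (nat_lit 210049108454) (nat_lit 76) (nat_lit 205057558005) (nat_lit 1) (nat_lit 4) (nat_lit 2) (nat_lit 5) (nat_lit 2) (nat_lit 4) (nat_lit 252) (nat_lit 195) (nat_lit 153))) (XT.nd (nat_lit 78) (nat_lit 0) (nat_lit 0) (XT.lf (nat_lit 0) (nat_lit 2039001818488) (nat_lit 76) (nat_lit 239197293086) (nat_lit 76) (nat_lit 234203899544) (nat_lit 1) (nat_lit 4) (nat_lit 2) (nat_lit 5) (nat_lit 2) (nat_lit 4) (nat_lit 253) (nat_lit 195) (nat_lit 152)) (XT.lf (nat_lit 0) (nat_lit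 2348498422356) (nat_lit 76) (nat_lit 272718806734) (nat_lit 76) (nat_lit 267723810503) (nat_lit 1) (nat_lit 4) (nat_lit 2) (nat_lit 5) (nat_lit 2) (nat_lit 4) (nat_lit 254) (nat_lit 195) (nat_lit 151)))))) (XT.nd (nat_lit 546) (nat_lit 0) (nat_lit 0) (XT.nd (nat_lit 234) (nat_lit 0) (nat_lit 0) (XT.nd (nat_lit 78) (nat_lit 0) (nat_lit 0) (XT.lf (nat_lit 0) (nat_lit 2704417344131) (nat_lit 76) (nat_lit 311269505099) (nat_lit 76) (nat_lit 306273115224) (nat_lit 1) (nat_lit 4) (nat_lit 2) (nat_lit 5) (nat_lit 2) (nat_lit 4) (nat_lit 255) (nat_lit 195) (nat_lit 150)) (XT.nd (nat_lit 78) (nat_lit 0) (nat_lit 0) (XT.lf (nat_lit 0) (nat_lit 3113722214889) (nat_lit 76) (nat_lit 355603640975) (nat_lit 76) (nat_lit 350606039237) (nat_lit 1) (nat_lit 4) (nat_lit 2) (nat_lit 5) (nat_lit 2) (nat_lit 4) (nat_lit 256) (nat_lit 195) (nat_lit 149)) (XT.lf (nat_lit 0) (nat_lit 3584421173409) (nat_lit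 76) (nat_lit 406588621369) (nat_lit 76) (nat_lit 401589965837) (nat_lit 1) (nat_lit 4) (nat_lit 2) (nat_lit 5) (nat_lit 2) (nat_lit 4) (nat_lit 257) (nat_lit 195) (nat_lit 148)))) (XT.nd (nat_lit 156) (nat_lit 0) (nat_lit 0) (XT.nd (nat_lit 78) (nat_lit 0) (nat_lit 0) (XT.lf (nat_lit 0) (nat_lit 4125723547138) (nat_lit 76) (nat_lit 465221978506) (nat_lit 76) (nat_lit 460222406631) (nat_lit 1) (nat_lit 4) (nat_lit 2) (nat_lit 5) (nat_lit 2) (nat_lit 4) (nat_lit 258) (nat_lit 195) (nat_lit 147)) (XT.lf (nat_lit 0) (nat_lit 4748220034693) (nat_lit 76) (nat_lit 532650886765) (nat_lit 76) (nat_lit 527650518069) (nat_lit 1) (nat_lit 4) (nat_lit 2) (nat_lit 5) (nat_lit 2) (nat_lit 4) (nat_lit 259) (nat_lit 195) (nat_lit 146))) (XT.nd (nat_lit 78) (nat_lit 0) (nat_lit 0) (XT.lf (nat_lit 0) (nat_lit 5464089915178) (nat_lit 76) (nat_lit 610194607393) (nat_lit 76) (nat_lit 605193545811) (nat_lit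 1) (nat_lit 4) (nat_lit 2) (nat_lit 5) (nat_lit 2) (nat_lit 4) (nat_lit 260) (nat_lit 195) (nat_lit 145)) (XT.lf (nat_lit 0) (nat_lit 6287339338429) (nat_lit 76) (nat_lit 699370300143) (nat_lit 76) (nat_lit 694368636050) (nat_lit 1) (nat_lit 4) (nat_lit 2) (nat_lit 5) (nat_lit 2) (nat_lit 4) (nat_lit 261) (nat_lit 195) (nat_lit 144))))) (XT.nd (nat_lit 234) (nat_lit 0) (nat_lit 0) (XT.nd (nat_lit 78) (nat_lit 0) (nat_lit 0) (XT.lf (nat_lit 0) (nat_lit 7234075358380) (nat_lit 76) (nat_lit 801922706830) (nat_lit 76) (nat_lit 796920518815) (nat_lit 1) (nat_lit 4) (nat_lit 2) (nat_lit 5) (nat_lit 2) (nat_lit 4) (nat_lit 262) (nat_lit 195) (nat_lit 143)) (XT.nd (nat_lit 78) (nat_lit 0) (nat_lit 0) (XT.lf (nat_lit 0) (nat_lit 8322821071072) (nat_lit 76) (nat_lit 919858287583) (nat_lit 76) (nat_lit 914855643983) (nat_lit 1) (nat_lit 4) (nat_lit 2) (nat_lit 5) (nat_lit 2) (nat_lit 4) (nat_lit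 263) (nat_lit 195) (nat_lit 142)) (XT.lf (nat_lit 0) (nat_lit 9574878023059) (nat_lit 76) (nat_lit 1055484477679) (nat_lit 76) (nat_lit 1050481437919) (nat_lit 1) (nat_lit 4) (nat_lit 2) (nat_lit 5) (nat_lit 2) (nat_lit 4) (nat_lit 264) (nat_lit 195) (nat_lit 141)))) (XT.nd (nat_lit 156) (nat_lit 0) (nat_lit 0) (XT.nd (nat_lit 78) (nat_lit 0) (nat_lit 0) (XT.lf (nat_lit 0) (nat_lit 11014742980792) (nat_lit 76) (nat_lit 1211454833011) (nat_lit 76) (nat_lit 1206451448763) (nat_lit 1) (nat_lit 4) (nat_lit 2) (nat_lit 5) (nat_lit 2) (nat_lit 4) (nat_lit 265) (nat_lit 195) (nat_lit 140)) (XT.lf (nat_lit 0) (nat_lit 12670587215183) (nat_lit 76) (nat_lit 1390820947487) (nat_lit 76) (nat_lit 1385817263685) (nat_lit 1) (nat_lit 4) (nat_lit 2) (nat_lit 5) (nat_lit 2) (nat_lit 4) (nat_lit 266) (nat_lit 195) (nat_lit 139))) (XT.nd (nat_lit 78) (nat_lit 0) (nat_lit 0) (XT.lf (nat_lit 0) (nat_lit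 14574807678645) (nat_lit 76) (nat_lit 1597092158130) (nat_lit 76) (nat_lit 1592088213847) (nat_lit 1) (nat_lit 4) (nat_lit 2) (nat_lit 5) (nat_lit 2) (nat_lit 4) (nat_lit 267) (nat_lit 195) (nat_lit 138)) (XT.lf (nat_lit 0) (nat_lit 16764660858506) (nat_lit 76) (nat_lit 1834304206017) (nat_lit 76) (nat_lit 1829300035228) (nat_lit 1) (nat_lit 4) (nat_lit 2) (nat_lit 5) (nat_lit 2) (nat_lit 4) (nat_lit 268) (nat_lit 195) (nat_lit 137))))))) (XT.nd (nat_lit 27378) (nat_lit 0) (nat_lit 0) (XT.nd (nat_lit 26832) (nat_lit 0) (nat_lit 76) (XT.nd (nat_lit 26598) (nat_lit 0) (nat_lit 380) (XT.nd (nat_lit 78) (nat_lit 0) (nat_lit 0) (XT.lf (nat_lit 0) (nat_lit 19282991708285) (nat_lit 76) (nat_lit 2107098196435) (nat_lit 76) (nat_lit 2102093828684) (nat_lit 1) (nat_lit 4) (nat_lit 2) (nat_lit 5) (nat_lit 2) (nat_lit 4) (nat_lit 269) (nat_lit 195) (nat_lit 136)) (XT.nd (nat_lit 26442) (nat_lit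 0) (nat_lit 608) (XT.lf (nat_lit 0) (nat_lit 22179071918521) (nat_lit 76) (nat_lit 2420811403107) (nat_lit 76) (nat_lit 2415806864085) (nat_lit 1) (nat_lit 4) (nat_lit 2) (nat_lit 5) (nat_lit 2) (nat_lit 4) (nat_lit 270) (nat_lit 195) (nat_lit 135)) (XT.lf (nat_lit 0) (nat_lit 433217372) (nat_lit 152) (nat_lit 3308592140) (nat_lit 0) (nat_lit 433217372) (nat_lit 9) (nat_lit 5) (nat_lit 11) (nat_lit 4) (nat_lit 9) (nat_lit 4) (nat_lit 208) (nat_lit 196) (nat_lit 196)))) (XT.nd (nat_lit 78) (nat_lit 228) (nat_lit 0) (XT.lf (nat_lit 0) (nat_lit 3891802790) (nat_lit 152) (nat_lit 2134422843) (nat_lit 0) (nat_lit 2898800855) (nat_lit 9) (nat_lit 5) (nat_lit 11) (nat_lit 4) (nat_lit 9) (nat_lit 4) (nat_lit 209) (nat_lit 196) (nat_lit 195)) (XT.nd (nat_lit 78) (nat_lit 76) (nat_lit 0) (XT.lf (nat_lit 0) (nat_lit 2805195060) (nat_lit 152) (nat_lit 4338842736) (nat_lit 152) (nat_lit 2482360858)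 (nat_lit 7) (nat_lit 4) (nat_lit 9) (nat_lit 5) (nat_lit 9) (nat_lit 4) (nat_lit 210) (nat_lit 196) (nat_lit 194)) (XT.lf (nat_lit 0) (nat_lit 191193802) (nat_lit 228) (nat_lit 2196267326) (nat_lit 76) (nat_lit 8080301834) (nat_lit 6) (nat_lit 5) (nat_lit 9) (nat_lit 5) (nat_lit 7) (nat_lit 4) (nat_lit 211) (nat_lit 196) (nat_lit 193))))) (XT.nd (nat_lit 234) (nat_lit 152) (nat_lit 0) (XT.nd (nat_lit 78) (nat_lit 76) (nat_lit 0) (XT.lf (nat_lit 0) (nat_lit 2836470744) (nat_lit 152) (nat_lit 8609952253) (nat_lit 0) (nat_lit 1471706) (nat_lit 5) (nat_lit 5) (nat_lit 7) (nat_lit 4) (nat_lit 5) (nat_lit 4) (nat_lit 212) (nat_lit 196) (nat_lit 192)) (XT.nd (nat_lit 78) (nat_lit 76) (nat_lit 0) (XT.lf (nat_lit 0) (nat_lit 5836052790) (nat_lit 152) (nat_lit 4241505106) (nat_lit 0) (nat_lit 2507356293) (nat_lit 5) (nat_lit 5) (nat_lit 7) (nat_lit 4) (nat_lit 5) (nat_lit 4) (nat_lit 213)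 (nat_lit 196) (nat_lit 191)) (XT.lf (nat_lit 0) (nat_lit 439952080) (nat_lit 76) (nat_lit 8623448980) (nat_lit 76) (nat_lit 4865450344) (nat_lit 4) (nat_lit 4) (nat_lit 5) (nat_lit 5) (nat_lit 5) (nat_lit 4) (nat_lit 214) (nat_lit 196) (nat_lit 190)))) (XT.nd (nat_lit 156) (nat_lit 152) (nat_lit 0) (XT.nd (nat_lit 78) (nat_lit 0) (nat_lit 0) (XT.lf (nat_lit 0) (nat_lit 5936228052) (nat_lit 76) (nat_lit 6836228956) (nat_lit 76) (nat_lit 2704924112) (nat_lit 4) (nat_lit 4) (nat_lit 5) (nat_lit 5) (nat_lit 5) (nat_lit 4) (nat_lit 215) (nat_lit 196) (nat_lit 189)) (XT.lf (nat_lit 0) (nat_lit 11940347919) (nat_lit 76) (nat_lit 4902645515) (nat_lit 76) (nat_lit 446726578) (nat_lit 4) (nat_lit 4) (nat_lit 5) (nat_lit 5) (nat_lit 5) (nat_lit 4) (nat_lit 216) (nat_lit 196) (nat_lit 188))) (XT.nd (nat_lit 78) (nat_lit 76) (nat_lit 0) (XT.lf (nat_lit 0) (nat_lit 1779425940) (nat_lit 152) (nat_lit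 912426290) (nat_lit 76) (nat_lit 16697342203) (nat_lit 3) (nat_lit 5) (nat_lit 5) (nat_lit 5) (nat_lit 4) (nat_lit 4) (nat_lit 217) (nat_lit 196) (nat_lit 187)) (XT.lf (nat_lit 0) (nat_lit 4295015353) (nat_lit 76) (nat_lit 20641533) (nat_lit 152) (nat_lit 17482969444) (nat_lit 2) (nat_lit 5) (nat_lit 3) (nat_lit 5) (nat_lit 4) (nat_lit 4) (nat_lit 218) (nat_lit 196) (nat_lit 186)))))) (XT.nd (nat_lit 546) (nat_lit 0) (nat_lit 0) (XT.nd (nat_lit 234) (nat_lit 76) (nat_lit 0) (XT.nd (nat_lit 78) (nat_lit 0) (nat_lit 0) (XT.lf (nat_lit 0) (nat_lit 7258806968) (nat_lit 152) (nat_lit 14568405516) (nat_lit 0) (nat_lit 2739601759) (nat_lit 2) (nat_lit 5) (nat_lit 4) (nat_lit 4) (nat_lit 2) (nat_lit 4) (nat_lit 219) (nat_lit 196) (nat_lit 185)) (XT.nd (nat_lit 78) (nat_lit 0) (nat_lit 0) (XT.lf (nat_lit 0) (nat_lit 10514127712) (nat_lit 152) (nat_lit 11423108509) (nat_lit 0) (nat_lit 5833531928)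 (nat_lit 2) (nat_lit 5) (nat_lit 4) (nat_lit 4) (nat_lit 2) (nat_lit 4) (nat_lit 220) (nat_lit 196) (nat_lit 184)) (XT.lf (nat_lit 0) (nat_lit 14144455454) (nat_lit 152) (nat_lit 8005326815) (nat_lit 0) (nat_lit 9323520039) (nat_lit 2) (nat_lit 5) (nat_lit 4) (nat_lit 4) (nat_lit 2) (nat_lit 4) (nat_lit 221) (nat_lit 196) (nat_lit 183)))) (XT.nd (nat_lit 156) (nat_lit 76) (nat_lit 0) (XT.nd (nat_lit 78) (nat_lit 0) (nat_lit 0) (XT.lf (nat_lit 0) (nat_lit 18220818346) (nat_lit 152) (nat_lit 4248190791) (nat_lit 0) (nat_lit 13277848470) (nat_lit 2) (nat_lit 5) (nat_lit 4) (nat_lit 4) (nat_lit 2) (nat_lit 4) (nat_lit 222) (nat_lit 196) (nat_lit 182)) (XT.lf (nat_lit 0) (nat_lit 22822971315) (nat_lit 152) (nat_lit 78191256) (nat_lit 0) (nat_lit 17773884515) (nat_lit 2) (nat_lit 5) (nat_lit 4) (nat_lit 4) (nat_lit 2) (nat_lit 4) (nat_lit 223) (nat_lit 196) (nat_lit 181))) (XT.nd (nat_lit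 78) (nat_lit 0) (nat_lit 0) (XT.lf (nat_lit 0) (nat_lit 5034461296) (nat_lit 76) (nat_lit 23214961492) (nat_lit 76) (nat_lit 18073599107) (nat_lit 1) (nat_lit 4) (nat_lit 2) (nat_lit 5) (nat_lit 2) (nat_lit 4) (nat_lit 224) (nat_lit 196) (nat_lit 180)) (XT.lf (nat_lit 0) (nat_lit 10797706687) (nat_lit 76) (nat_lit 23626268184) (nat_lit 76) (nat_lit 18404666160) (nat_lit 1) (nat_lit 4) (nat_lit 2) (nat_lit 5) (nat_lit 2) (nat_lit 4) (nat_lit 225) (nat_lit 196) (nat_lit 179))))) (XT.nd (nat_lit 234) (nat_lit 0) (nat_lit 0) (XT.nd (nat_lit 78) (nat_lit 0) (nat_lit 0) (XT.lf (nat_lit 0) (nat_lit 17316662646) (nat_lit 76) (nat_lit 24147217223) (nat_lit 76) (nat_lit 18855841600) (nat_lit 1) (nat_lit 4) (nat_lit 2) (nat_lit 5) (nat_lit 2) (nat_lit 4) (nat_lit 226) (nat_lit 196) (nat_lit 178)) (XT.nd (nat_lit 78) (nat_lit 0) (nat_lit 0) (XT.lf (nat_lit 0) (nat_lit 24718873963) (nat_lit 76)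 (nat_lit 24788001090) (nat_lit 76) (nat_lit 19435952771) (nat_lit 1) (nat_lit 4) (nat_lit 2) (nat_lit 5) (nat_lit 2) (nat_lit 4) (nat_lit 227) (nat_lit 196) (nat_lit 177)) (XT.lf (nat_lit 0) (nat_lit 33149166513) (nat_lit 76) (nat_lit 25561156860) (nat_lit 76) (nat_lit 20156349676) (nat_lit 1) (nat_lit 4) (nat_lit 2) (nat_lit 5) (nat_lit 2) (nat_lit 4) (nat_lit 228) (nat_lit 196) (nat_lit 176)))) (XT.nd (nat_lit 156) (nat_lit 0) (nat_lit 0) (XT.nd (nat_lit 78) (nat_lit 0) (nat_lit 0) (XT.lf (nat_lit 0) (nat_lit 42772480801) (nat_lit 76) (nat_lit 26481811494) (nat_lit 76) (nat_lit 21031127036) (nat_lit 1) (nat_lit 4) (nat_lit 2) (nat_lit 5) (nat_lit 2) (nat_lit 4) (nat_lit 229) (nat_lit 196) (nat_lit 175)) (XT.lf (nat_lit 0) (nat_lit 53777099064) (nat_lit 76) (nat_lit 27567977801) (nat_lit 76) (nat_lit 22077400060) (nat_lit 1) (nat_lit 4) (nat_lit 2) (nat_lit 5) (nat_lit 2) (nat_lit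 4) (nat_lit 230) (nat_lit 196) (nat_lit 174))) (XT.nd (nat_lit 78) (nat_lit 0) (nat_lit 0) (XT.lf (nat_lit 0) (nat_lit 66378329050) (nat_lit 76) (nat_lit 28840906859) (nat_lit 76) (nat_lit 23315639308) (nat_lit 1) (nat_lit 4) (nat_lit 2) (nat_lit 5) (nat_lit 2) (nat_lit 4) (nat_lit 231) (nat_lit 196) (nat_lit 173)) (XT.lf (nat_lit 0) (nat_lit 80822716563) (nat_lit 76) (nat_lit 30325503804) (nat_lit 76) (nat_lit 24770071200) (nat_lit 1) (nat_lit 4) (nat_lit 2) (nat_lit 5) (nat_lit 2) (nat_lit 4) (nat_lit 232) (nat_lit 196) (nat_lit 172))))))))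
noncomputable def xc20 : XT := (XT.nd (nat_lit 2028) (nat_lit 0) (nat_lit 0) (XT.nd (nat_lit 1014) (nat_lit 0) (nat_lit 0) (XT.nd (nat_lit 468) (nat_lit 0) (nat_lit 0) (XT.nd (nat_lit 234) (nat_lit 0) (nat_lit 0) (XT.nd (nat_lit 78) (nat_lit 0) (nat_lit 0) (XT.lf (nat_lit 0) (nat_lit 97392869185) (nat_lit 76) (nat_lit 32050815096) (nat_lit 76) (nat_lit 26469152012) (nat_lit 1) (nat_lit 4) (nat_lit 2) (nat_lit 5) (nat_lit 2) (nat_lit 4) (nat_lit 233) (nat_lit 196) (nat_lit 171)) (XT.nd (nat_lit 78) (nat_lit 0) (nat_lit 0) (XT.lf (nat_lit 0) (nat_lit 116412985555) (nat_lit 76) (nat_lit 34050596826) (nat_lit 76) (nat_lit 28446124629) (nat_lit 1) (nat_lit 4) (nat_lit 2) (nat_lit 5) (nat_lit 2) (nat_lit 4) (nat_lit 234) (nat_lit 196) (nat_lit 170)) (XT.lf (nat_lit 0) (nat_lit 138255198384) (nat_lit 76) (nat_lit 36363975160) (nat_lit 76) (nat_lit 30739668951) (nat_lit 1) (nat_lit 4) (nat_lit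 2) (nat_lit 5) (nat_lit 2) (nat_lit 4) (nat_lit 235) (nat_lit 196) (nat_lit 169)))) (XT.nd (nat_lit 78) (nat_lit 0) (nat_lit 0) (XT.lf (nat_lit 0) (nat_lit 163346855314) (nat_lit 76) (nat_lit 39036211845) (nat_lit 76) (nat_lit 33394658670) (nat_lit 1) (nat_lit 4) (nat_lit 2) (nat_lit 5) (nat_lit 2) (nat_lit 4) (nat_lit 236) (nat_lit 196) (nat_lit 168)) (XT.nd (nat_lit 78) (nat_lit 0) (nat_lit 0) (XT.lf (nat_lit 0) (nat_lit 192178880067) (nat_lit 76) (nat_lit 42119589775) (nat_lit 76) (nat_lit 36463039238) (nat_lit 1) (nat_lit 4) (nat_lit 2) (nat_lit 5) (nat_lit 2) (nat_lit 4) (nat_lit 237) (nat_lit 196) (nat_lit 167)) (XT.lf (nat_lit 0) (nat_lit 225315377477) (nat_lit 76) (nat_lit 45674435909) (nat_lit 76) (nat_lit 40004844187) (nat_lit 1) (nat_lit 4) (nat_lit 2) (nat_lit 5) (nat_lit 2) (nat_lit 4) (nat_lit 238) (nat_lit 196) (nat_lit 166))))) (XT.nd (nat_lit 234) (nat_lit 0) (nat_lit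 0) (XT.nd (nat_lit 78) (nat_lit 0) (nat_lit 0) (XT.lf (nat_lit 0) (nat_lit 263404670318) (nat_lit 76) (nat_lit 49770301584) (nat_lit 76) (nat_lit 44089369701) (nat_lit 1) (nat_lit 4) (nat_lit 2) (nat_lit 5) (nat_lit 2) (nat_lit 4) (nat_lit 239) (nat_lit 196) (nat_lit 165)) (XT.nd (nat_lit 78) (nat_lit 0) (nat_lit 0) (XT.lf (nat_lit 0) (nat_lit 307191983885) (nat_lit 76) (nat_lit 54487323303) (nat_lit 76) (nat_lit 48796530411) (nat_lit 1) (nat_lit 4) (nat_lit 2) (nat_lit 5) (nat_lit 2) (nat_lit 4) (nat_lit 240) (nat_lit 196) (nat_lit 164)) (XT.lf (nat_lit 0) (nat_lit 357534026487) (nat_lit 76) (nat_lit 59917790620) (nat_lit 76) (nat_lit 54218422938) (nat_lit 1) (nat_lit 4) (nat_lit 2) (nat_lit 5) (nat_lit 2) (nat_lit 4) (nat_lit 241) (nat_lit 196) (nat_lit 163)))) (XT.nd (nat_lit 156) (nat_lit 0) (nat_lit 0) (XT.nd (nat_lit 78) (nat_lit 0) (nat_lit 0) (XT.lf (nat_lit 0) (nat_lit 415415751131)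 (nat_lit 76) (nat_lit 66167951810) (nat_lit 76) (nat_lit 60461127788) (nat_lit 1) (nat_lit 4) (nat_lit 2) (nat_lit 5) (nat_lit 2) (nat_lit 4) (nat_lit 242) (nat_lit 196) (nat_lit 162)) (XT.lf (nat_lit 0) (nat_lit 481969626344) (nat_lit 76) (nat_lit 73360092635) (nat_lit 76) (nat_lit 67646784839) (nat_lit 1) (nat_lit 4) (nat_lit 2) (nat_lit 5) (nat_lit 2) (nat_lit 4) (nat_lit 243) (nat_lit 196) (nat_lit 161))) (XT.nd (nat_lit 78) (nat_lit 0) (nat_lit 0) (XT.lf (nat_lit 0) (nat_lit 558497793161) (nat_lit 76) (nat_lit 81634928894) (nat_lit 76) (nat_lit 75915983034) (nat_lit 1) (nat_lit 4) (nat_lit 2) (nat_lit 5) (nat_lit 2) (nat_lit 4) (nat_lit 244) (nat_lit 196) (nat_lit 160)) (XT.lf (nat_lit 0) (nat_lit 646497541803) (nat_lit 76) (nat_lit 91154359556) (nat_lit 76) (nat_lit 85430511032) (nat_lit 1) (nat_lit 4) (nat_lit 2) (nat_lit 5) (nat_lit 2) (nat_lit 4) (nat_lit 245) (nat_lit 196)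 (nat_lit 159)))))) (XT.nd (nat_lit 468) (nat_lit 0) (nat_lit 0) (XT.nd (nat_lit 234) (nat_lit 0) (nat_lit 0) (XT.nd (nat_lit 78) (nat_lit 0) (nat_lit 0) (XT.lf (nat_lit 0) (nat_lit 747690606483) (nat_lit 76) (nat_lit 102104634353) (nat_lit 76) (nat_lit 96376522642) (nat_lit 1) (nat_lit 4) (nat_lit 2) (nat_lit 5) (nat_lit 2) (nat_lit 4) (nat_lit 246) (nat_lit 196) (nat_lit 158)) (XT.nd (nat_lit 78) (nat_lit 0) (nat_lit 0) (XT.lf (nat_lit 0) (nat_lit 864056851510) (nat_lit 76) (nat_lit 114699997791) (nat_lit 76) (nat_lit 108968178962) (nat_lit 1) (nat_lit 4) (nat_lit 2) (nat_lit 5) (nat_lit 2) (nat_lit 4) (nat_lit 247) (nat_lit 196) (nat_lit 157)) (XT.lf (nat_lit 0) (nat_lit 997873007764) (nat_lit 76) (nat_lit 129186880894) (nat_lit 76) (nat_lit 123451838483) (nat_lit 1) (nat_lit 4) (nat_lit 2) (nat_lit 5) (nat_lit 2) (nat_lit 4) (nat_lit 248) (nat_lit 196) (nat_lit 156)))) (XT.nd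 (nat_lit 78) (nat_lit 0) (nat_lit 0) (XT.lf (nat_lit 0) (nat_lit 1151757217434) (nat_lit 76) (nat_lit 145848722679) (nat_lit 76) (nat_lit 140110877154) (nat_lit 1) (nat_lit 4) (nat_lit 2) (nat_lit 5) (nat_lit 2) (nat_lit 4) (nat_lit 249) (nat_lit 196) (nat_lit 155)) (XT.nd (nat_lit 78) (nat_lit 0) (nat_lit 0) (XT.lf (nat_lit 0) (nat_lit 1328720258534) (nat_lit 76) (nat_lit 165011515703) (nat_lit 76) (nat_lit 159271232687) (nat_lit 1) (nat_lit 4) (nat_lit 2) (nat_lit 5) (nat_lit 2) (nat_lit 4) (nat_lit 250) (nat_lit 196) (nat_lit 154)) (XT.lf (nat_lit 0) (nat_lit 1532224451434) (nat_lit 76) (nat_lit 187050184177) (nat_lit 76) (nat_lit 181307781604) (nat_lit 1) (nat_lit 4) (nat_lit 2) (nat_lit 5) (nat_lit 2) (nat_lit 4) (nat_lit 251) (nat_lit 196) (nat_lit 153))))) (XT.nd (nat_lit 234) (nat_lit 0) (nat_lit 0) (XT.nd (nat_lit 78) (nat_lit 0) (nat_lit 0) (XT.lf (nat_lit 0) (nat_lit 1766251399908)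 (nat_lit 76) (nat_lit 212395919441) (nat_lit 76) (nat_lit 206651673775) (nat_lit 1) (nat_lit 4) (nat_lit 2) (nat_lit 5) (nat_lit 2) (nat_lit 4) (nat_lit 252) (nat_lit 196) (nat_lit 152)) (XT.nd (nat_lit 78) (nat_lit 0) (nat_lit 0) (XT.lf (nat_lit 0) (nat_lit 2035379892078) (nat_lit 76) (nat_lit 241544616316) (nat_lit 76) (nat_lit 235798767960) (nat_lit 1) (nat_lit 4) (nat_lit 2) (nat_lit 5) (nat_lit 2) (nat_lit 4) (nat_lit 253) (nat_lit 196) (nat_lit 151)) (XT.lf (nat_lit 0) (nat_lit 2344875485400) (nat_lit 76) (nat_lit 275066575391) (nat_lit 76) (nat_lit 269319333392) (nat_lit 1) (nat_lit 4) (nat_lit 2) (nat_lit 5) (nat_lit 2) (nat_lit 4) (nat_lit 254) (nat_lit 196) (nat_lit 150)))) (XT.nd (nat_lit 156) (nat_lit 0) (nat_lit 0) (XT.nd (nat_lit 78) (nat_lit 0) (nat_lit 0) (XT.lf (nat_lit 0) (nat_lit 2700793528439) (nat_lit 76) (nat_lit 313617661085) (nat_lit 76) (nat_lit 307869207223)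 (nat_lit 1) (nat_lit 4) (nat_lit 2) (nat_lit 5) (nat_lit 2) (nat_lit 4) (nat_lit 255) (nat_lit 196) (nat_lit 149)) (XT.lf (nat_lit 0) (nat_lit 3110097635080) (nat_lit 76) (nat_lit 357952133769) (nat_lit 76) (nat_lit 352202626112) (nat_lit 1) (nat_lit 4) (nat_lit 2) (nat_lit 5) (nat_lit 2) (nat_lit 4) (nat_lit 256) (nat_lit 196) (nat_lit 148))) (XT.nd (nat_lit 78) (nat_lit 0) (nat_lit 0) (XT.lf (nat_lit 0) (nat_lit 3580795929149) (nat_lit 76) (nat_lit 408937407039) (nat_lit 76) (nat_lit 403186983039) (nat_lit 1) (nat_lit 4) (nat_lit 2) (nat_lit 5) (nat_lit 2) (nat_lit 4) (nat_lit 257) (nat_lit 196) (nat_lit 147)) (XT.lf (nat_lit 0) (nat_lit 4122097725095) (nat_lit 76) (nat_lit 467571018851) (nat_lit 76) (nat_lit 461819798031) (nat_lit 1) (nat_lit 4) (nat_lit 2) (nat_lit 5) (nat_lit 2) (nat_lit 4) (nat_lit 258) (nat_lit 196) (nat_lit 146))))))) (XT.nd (nat_lit 27222) (nat_lit 0) (nat_lit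 76) (XT.nd (nat_lit 468) (nat_lit 0) (nat_lit 0) (XT.nd (nat_lit 234) (nat_lit 0) (nat_lit 0) (XT.nd (nat_lit 78) (nat_lit 0) (nat_lit 0) (XT.lf (nat_lit 0) (nat_lit 4744593710230) (nat_lit 76) (nat_lit 535000148566) (nat_lit 76) (nat_lit 529248234859) (nat_lit 1) (nat_lit 4) (nat_lit 2) (nat_lit 5) (nat_lit 2) (nat_lit 4) (nat_lit 259) (nat_lit 196) (nat_lit 145)) (XT.nd (nat_lit 78) (nat_lit 0) (nat_lit 0) (XT.lf (nat_lit 0) (nat_lit 5460463153828) (nat_lit 76) (nat_lit 612544061765) (nat_lit 76) (nat_lit 606791545548) (nat_lit 1) (nat_lit 4) (nat_lit 2) (nat_lit 5) (nat_lit 2) (nat_lit 4) (nat_lit 260) (nat_lit 196) (nat_lit 144)) (XT.lf (nat_lit 0) (nat_lit 6283712197178) (nat_lit 76) (nat_lit 701719921968) (nat_lit 76) (nat_lit 695966881829) (nat_lit 1) (nat_lit 4) (nat_lit 2) (nat_lit 5) (nat_lit 2) (nat_lit 4) (nat_lit 261) (nat_lit 196) (nat_lit 143)))) (XT.nd (nat_lit 78)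 (nat_lit 0) (nat_lit 0) (XT.lf (nat_lit 0) (nat_lit 7230447886779) (nat_lit 76) (nat_lit 804272474266) (nat_lit 76) (nat_lit 798518978542) (nat_lit 1) (nat_lit 4) (nat_lit 2) (nat_lit 5) (nat_lit 2) (nat_lit 4) (nat_lit 262) (nat_lit 196) (nat_lit 142)) (XT.nd (nat_lit 78) (nat_lit 0) (nat_lit 0) (XT.lf (nat_lit 0) (nat_lit 8319193312211) (nat_lit 76) (nat_lit 922208181637) (nat_lit 76) (nat_lit 916454289753) (nat_lit 1) (nat_lit 4) (nat_lit 2) (nat_lit 5) (nat_lit 2) (nat_lit 4) (nat_lit 263) (nat_lit 196) (nat_lit 141)) (XT.lf (nat_lit 0) (nat_lit 9571250014406) (nat_lit 76) (nat_lit 1057834481836) (nat_lit 76) (nat_lit 1052080245465) (nat_lit 1) (nat_lit 4) (nat_lit 2) (nat_lit 5) (nat_lit 2) (nat_lit 4) (nat_lit 264) (nat_lit 196) (nat_lit 140))))) (XT.nd (nat_lit 234) (nat_lit 0) (nat_lit 0) (XT.nd (nat_lit 78) (nat_lit 0) (nat_lit 0) (XT.lf (nat_lit 0) (nat_lit 11011114754929)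 (nat_lit 76) (nat_lit 1213804932910) (nat_lit 76) (nat_lit 1208050396984) (nat_lit 1) (nat_lit 4) (nat_lit 2) (nat_lit 5) (nat_lit 2) (nat_lit 4) (nat_lit 265) (nat_lit 196) (nat_lit 139)) (XT.nd (nat_lit 78) (nat_lit 0) (nat_lit 0) (XT.lf (nat_lit 0) (nat_lit 12666958800442) (nat_lit 76) (nat_lit 1393171130640) (nat_lit 76) (nat_lit 1387416334232) (nat_lit 1) (nat_lit 4) (nat_lit 2) (nat_lit 5) (nat_lit 2) (nat_lit 4) (nat_lit 266) (nat_lit 196) (nat_lit 138)) (XT.lf (nat_lit 0) (nat_lit 14571179099662) (nat_lit 76) (nat_lit 1599442413677) (nat_lit 76) (nat_lit 1593687390764) (nat_lit 1) (nat_lit 4) (nat_lit 2) (nat_lit 5) (nat_lit 2) (nat_lit 4) (nat_lit 267) (nat_lit 196) (nat_lit 137)))) (XT.nd (nat_lit 156) (nat_lit 0) (nat_lit 0) (XT.nd (nat_lit 78) (nat_lit 0) (nat_lit 0) (XT.lf (nat_lit 0) (nat_lit 16761032136704) (nat_lit 76) (nat_lit 1836654524517) (nat_lit 76) (nat_lit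 1830899304641) (nat_lit 1) (nat_lit 4) (nat_lit 2) (nat_lit 5) (nat_lit 2) (nat_lit 4) (nat_lit 268) (nat_lit 196) (nat_lit 136)) (XT.lf (nat_lit 0) (nat_lit 19279362862292) (nat_lit 76) (nat_lit 2109448569674) (nat_lit 76) (nat_lit 2103693178528) (nat_lit 1) (nat_lit 4) (nat_lit 2) (nat_lit 5) (nat_lit 2) (nat_lit 4) (nat_lit 269) (nat_lit 196) (nat_lit 135))) (XT.nd (nat_lit 26286) (nat_lit 0) (nat_lit 760) (XT.lf (nat_lit 0) (nat_lit 22175442964536) (nat_lit 76) (nat_lit 2423161823947) (nat_lit 76) (nat_lit 2417406283869) (nat_lit 1) (nat_lit 4) (nat_lit 2) (nat_lit 5) (nat_lit 2) (nat_lit 4) (nat_lit 270) (nat_lit 196) (nat_lit 134)) (XT.lf (nat_lit 0) (nat_lit 164102749) (nat_lit 228) (nat_lit 1782583131) (nat_lit 228) (nat_lit 1782583131) (nat_lit 11) (nat_lit 4) (nat_lit 14) (nat_lit 5) (nat_lit 14) (nat_lit 4) (nat_lit 206) (nat_lit 197) (nat_lit 197)))))) (XT.nd (nat_lit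 546) (nat_lit 228) (nat_lit 0) (XT.nd (nat_lit 234) (nat_lit 304) (nat_lit 0) (XT.nd (nat_lit 78) (nat_lit 152) (nat_lit 0) (XT.lf (nat_lit 0) (nat_lit 4935282116) (nat_lit 228) (nat_lit 2123223730) (nat_lit 228) (nat_lit 809978672) (nat_lit 11) (nat_lit 4) (nat_lit 14) (nat_lit 5) (nat_lit 14) (nat_lit 4) (nat_lit 207) (nat_lit 197) (nat_lit 196)) (XT.nd (nat_lit 78) (nat_lit 0) (nat_lit 0) (XT.lf (nat_lit 0) (nat_lit 1498578602) (nat_lit 76) (nat_lit 340386925) (nat_lit 152) (nat_lit 6539771102) (nat_lit 9) (nat_lit 5) (nat_lit 10) (nat_lit 5) (nat_lit 11) (nat_lit 4) (nat_lit 208) (nat_lit 197) (nat_lit 195)) (XT.lf (nat_lit 0) (nat_lit 4690659624) (nat_lit 152) (nat_lit 2599718456) (nat_lit 0) (nat_lit 1692225522) (nat_lit 9) (nat_lit 5) (nat_lit 11) (nat_lit 4) (nat_lit 9) (nat_lit 4) (nat_lit 209) (nat_lit 197) (nat_lit 194)))) (XT.nd (nat_lit 156) (nat_lit 76) (nat_lit 0)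 (XT.nd (nat_lit 78) (nat_lit 76) (nat_lit 0) (XT.lf (nat_lit 0) (nat_lit 2087847927) (nat_lit 152) (nat_lit 5686578322) (nat_lit 152) (nat_lit 1937292095) (nat_lit 7) (nat_lit 4) (nat_lit 9) (nat_lit 5) (nat_lit 9) (nat_lit 4) (nat_lit 210) (nat_lit 197) (nat_lit 193)) (XT.lf (nat_lit 0) (nat_lit 551575065) (nat_lit 228) (nat_lit 3216314727) (nat_lit 76) (nat_lit 6804101024) (nat_lit 6) (nat_lit 5) (nat_lit 9) (nat_lit 5) (nat_lit 7) (nat_lit 4) (nat_lit 211) (nat_lit 197) (nat_lit 192))) (XT.nd (nat_lit 78) (nat_lit 0) (nat_lit 0) (XT.lf (nat_lit 0) (nat_lit 1532330107) (nat_lit 76) (nat_lit 1491987708) (nat_lit 152) (nat_lit 8555310460) (nat_lit 5) (nat_lit 5) (nat_lit 6) (nat_lit 5) (nat_lit 7) (nat_lit 4) (nat_lit 212) (nat_lit 197) (nat_lit 191)) (XT.lf (nat_lit 0) (nat_lit 5850311199) (nat_lit 152) (nat_lit 5794477787) (nat_lit 0) (nat_lit 1099310629) (nat_lit 5) (nat_lit 5)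 (nat_lit 7) (nat_lit 4) (nat_lit 5) (nat_lit 4) (nat_lit 213) (nat_lit 197) (nat_lit 190))))) (XT.nd (nat_lit 234) (nat_lit 152) (nat_lit 0) (XT.nd (nat_lit 78) (nat_lit 76) (nat_lit 0) (XT.lf (nat_lit 0) (nat_lit 8962217095) (nat_lit 152) (nat_lit 1306454955) (nat_lit 0) (nat_lit 3837910316) (nat_lit 5) (nat_lit 5) (nat_lit 7) (nat_lit 4) (nat_lit 5) (nat_lit 4) (nat_lit 214) (nat_lit 197) (nat_lit 189)) (XT.nd (nat_lit 78) (nat_lit 0) (nat_lit 0) (XT.lf (nat_lit 0) (nat_lit 3914890085) (nat_lit 76) (nat_lit 8606357751) (nat_lit 76) (nat_lit 3157436879) (nat_lit 4) (nat_lit 4) (nat_lit 5) (nat_lit 5) (nat_lit 5) (nat_lit 4) (nat_lit 215) (nat_lit 197) (nat_lit 188)) (XT.lf (nat_lit 0) (nat_lit 9790962429) (nat_lit 76) (nat_lit 6722003668) (nat_lit 76) (nat_lit 990809671) (nat_lit 4) (nat_lit 4) (nat_lit 5) (nat_lit 5) (nat_lit 5) (nat_lit 4) (nat_lit 216) (nat_lit 197) (nat_lit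 187)))) (XT.nd (nat_lit 156) (nat_lit 0) (nat_lit 0) (XT.nd (nat_lit 78) (nat_lit 76) (nat_lit 0) (XT.lf (nat_lit 0) (nat_lit 1211243405) (nat_lit 152) (nat_lit 3372475565) (nat_lit 76) (nat_lit 15034494025) (nat_lit 3) (nat_lit 5) (nat_lit 5) (nat_lit 5) (nat_lit 4) (nat_lit 4) (nat_lit 217) (nat_lit 197) (nat_lit 186)) (XT.lf (nat_lit 0) (nat_lit 1480830156) (nat_lit 76) (nat_lit 2087038718) (nat_lit 152) (nat_lit 18487327959) (nat_lit 2) (nat_lit 5) (nat_lit 3) (nat_lit 5) (nat_lit 4) (nat_lit 4) (nat_lit 218) (nat_lit 197) (nat_lit 185))) (XT.nd (nat_lit 78) (nat_lit 0) (nat_lit 0) (XT.lf (nat_lit 0) (nat_lit 6364856283) (nat_lit 152) (nat_lit 17660203717) (nat_lit 0) (nat_lit 820780556) (nat_lit 2) (nat_lit 5) (nat_lit 4) (nat_lit 4) (nat_lit 2) (nat_lit 4) (nat_lit 219) (nat_lit 197) (nat_lit 184)) (XT.lf (nat_lit 0) (nat_lit 9567483486) (nat_lit 152) (nat_lit 14607608972)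 (nat_lit 0) (nat_lit 3883068128) (nat_lit 2) (nat_lit 5) (nat_lit 4) (nat_lit 4) (nat_lit 2) (nat_lit 4) (nat_lit 220) (nat_lit 197) (nat_lit 183))))))))
noncomputable def xc21 : XT := (XT.nd (nat_lit 2106) (nat_lit 0) (nat_lit 0) (XT.nd (nat_lit 1014) (nat_lit 0) (nat_lit 0) (XT.nd (nat_lit 468) (nat_lit 0) (nat_lit 0) (XT.nd (nat_lit 234) (nat_lit 76) (nat_lit 0) (XT.nd (nat_lit 78) (nat_lit 0) (nat_lit 0) (XT.lf (nat_lit 0) (nat_lit 13151990757) (nat_lit 152) (nat_lit 11270437941) (nat_lit 0) (nat_lit 7345540938) (nat_lit 2) (nat_lit 5) (nat_lit 4) (nat_lit 4) (nat_lit 2) (nat_lit 4) (nat_lit 221) (nat_lit 197) (nat_lit 182)) (XT.nd (nat_lit 78) (nat_lit 0) (nat_lit 0) (XT.lf (nat_lit 0) (nat_lit 17188509762) (nat_lit 152) (nat_lit 7583398146) (nat_lit 0) (nat_lit 11275943020) (nat_lit 2) (nat_lit 5) (nat_lit 4) (nat_lit 4) (nat_lit 2) (nat_lit 4) (nat_lit 222) (nat_lit 197) (nat_lit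 181)) (XT.lf (nat_lit 0) (nat_lit 21756015872) (nat_lit 152) (nat_lit 3474351853) (nat_lit 0) (nat_lit 15751173545) (nat_lit 2) (nat_lit 5) (nat_lit 4) (nat_lit 4) (nat_lit 2) (nat_lit 4) (nat_lit 223) (nat_lit 197) (nat_lit 180)))) (XT.nd (nat_lit 78) (nat_lit 0) (nat_lit 0) (XT.lf (nat_lit 0) (nat_lit 1248220547) (nat_lit 76) (nat_lit 25747338941) (nat_lit 76) (nat_lit 19662256974) (nat_lit 1) (nat_lit 4) (nat_lit 2) (nat_lit 5) (nat_lit 2) (nat_lit 4) (nat_lit 224) (nat_lit 197) (nat_lit 179)) (XT.nd (nat_lit 78) (nat_lit 0) (nat_lit 0) (XT.lf (nat_lit 0) (nat_lit 6960872337) (nat_lit 76) (nat_lit 26180946258) (nat_lit 76) (nat_lit 20026090692) (nat_lit 1) (nat_lit 4) (nat_lit 2) (nat_lit 5) (nat_lit 2) (nat_lit 4) (nat_lit 225) (nat_lit 197) (nat_lit 178)) (XT.lf (nat_lit 0) (nat_lit 13435833861) (nat_lit 76) (nat_lit 26721287144) (nat_lit 76) (nat_lit 20505758883) (nat_lit 1)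 (nat_lit 4) (nat_lit 2) (nat_lit 5) (nat_lit 2) (nat_lit 4) (nat_lit 226) (nat_lit 197) (nat_lit 177))))) (XT.nd (nat_lit 234) (nat_lit 0) (nat_lit 0) (XT.nd (nat_lit 78) (nat_lit 0) (nat_lit 0) (XT.lf (nat_lit 0) (nat_lit 20799789148) (nat_lit 76) (nat_lit 27378933487) (nat_lit 76) (nat_lit 21110646360) (nat_lit 1) (nat_lit 4) (nat_lit 2) (nat_lit 5) (nat_lit 2) (nat_lit 4) (nat_lit 227) (nat_lit 197) (nat_lit 176)) (XT.nd (nat_lit 78) (nat_lit 0) (nat_lit 0) (XT.lf (nat_lit 0) (nat_lit 29196815584) (nat_lit 76) (nat_lit 28166752280) (nat_lit 76) (nat_lit 21852587878) (nat_lit 1) (nat_lit 4) (nat_lit 2) (nat_lit 5) (nat_lit 2) (nat_lit 4) (nat_lit 228) (nat_lit 197) (nat_lit 175)) (XT.lf (nat_lit 0) (nat_lit 38791202817) (nat_lit 76) (nat_lit 29100157369) (nat_lit 76) (nat_lit 22746099685) (nat_lit 1) (nat_lit 4) (nat_lit 2) (nat_lit 5) (nat_lit 2) (nat_lit 4) (nat_lit 229) (nat_lit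 197) (nat_lit 174)))) (XT.nd (nat_lit 156) (nat_lit 0) (nat_lit 0) (XT.nd (nat_lit 78) (nat_lit 0) (nat_lit 0) (XT.lf (nat_lit 0) (nat_lit 49770667119) (nat_lit 76) (nat_lit 30197411027) (nat_lit 76) (nat_lit 23808663533) (nat_lit 1) (nat_lit 4) (nat_lit 2) (nat_lit 5) (nat_lit 2) (nat_lit 4) (nat_lit 230) (nat_lit 197) (nat_lit 173)) (XT.lf (nat_lit 0) (nat_lit 62350024095) (nat_lit 76) (nat_lit 31479981261) (nat_lit 76) (nat_lit 25061068714) (nat_lit 1) (nat_lit 4) (nat_lit 2) (nat_lit 5) (nat_lit 2) (nat_lit 4) (nat_lit 231) (nat_lit 197) (nat_lit 172))) (XT.nd (nat_lit 78) (nat_lit 0) (nat_lit 0) (XT.lf (nat_lit 0) (nat_lit 76775391600) (nat_lit 76) (nat_lit 32972961836) (nat_lit 76) (nat_lit 26527818809) (nat_lit 1) (nat_lit 4) (nat_lit 2) (nat_lit 5) (nat_lit 2) (nat_lit 4) (nat_lit 232) (nat_lit 197) (nat_lit 171)) (XT.lf (nat_lit 0) (nat_lit 93329005085) (nat_lit 76) (nat_lit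 34705563242) (nat_lit 76) (nat_lit 28237611102) (nat_lit 1) (nat_lit 4) (nat_lit 2) (nat_lit 5) (nat_lit 2) (nat_lit 4) (nat_lit 233) (nat_lit 197) (nat_lit 170)))))) (XT.nd (nat_lit 546) (nat_lit 0) (nat_lit 0) (XT.nd (nat_lit 234) (nat_lit 0) (nat_lit 0) (XT.nd (nat_lit 78) (nat_lit 0) (nat_lit 0) (XT.lf (nat_lit 0) (nat_lit 112334739595) (nat_lit 76) (nat_lit 36711684202) (nat_lit 76) (nat_lit 30223898050) (nat_lit 1) (nat_lit 4) (nat_lit 2) (nat_lit 5) (nat_lit 2) (nat_lit 4) (nat_lit 234) (nat_lit 197) (nat_lit 169)) (XT.nd (nat_lit 78) (nat_lit 0) (nat_lit 0) (XT.lf (nat_lit 0) (nat_lit 134164446460) (nat_lit 76) (nat_lit 39030574908) (nat_lit 76) (nat_lit 32525541790) (nat_lit 1) (nat_lit 4) (nat_lit 2) (nat_lit 5) (nat_lit 2) (nat_lit 4) (nat_lit 235) (nat_lit 197) (nat_lit 168)) (XT.lf (nat_lit 0) (nat_lit 159245228638) (nat_lit 76) (nat_lit 41707604962) (nat_lit 76) (nat_lit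 35187574481) (nat_lit 1) (nat_lit 4) (nat_lit 2) (nat_lit 5) (nat_lit 2) (nat_lit 4) (nat_lit 236) (nat_lit 197) (nat_lit 167)))) (XT.nd (nat_lit 156) (nat_lit 0) (nat_lit 0) (XT.nd (nat_lit 78) (nat_lit 0) (nat_lit 0) (XT.lf (nat_lit 0) (nat_lit 188067797086) (nat_lit 76) (nat_lit 44795151038) (nat_lit 76) (nat_lit 38262079373) (nat_lit 1) (nat_lit 4) (nat_lit 2) (nat_lit 5) (nat_lit 2) (nat_lit 4) (nat_lit 237) (nat_lit 197) (nat_lit 166)) (XT.lf (nat_lit 0) (nat_lit 221196071622) (nat_lit 76) (nat_lit 48353621647) (nat_lit 76) (nat_lit 41809209821) (nat_lit 1) (nat_lit 4) (nat_lit 2) (nat_lit 5) (nat_lit 2) (nat_lit 4) (nat_lit 238) (nat_lit 197) (nat_lit 165))) (XT.nd (nat_lit 78) (nat_lit 0) (nat_lit 0) (XT.lf (nat_lit 0) (nat_lit 259278214137) (nat_lit 76) (nat_lit 52452639039) (nat_lit 76) (nat_lit 45898366204) (nat_lit 1) (nat_lit 4) (nat_lit 2) (nat_lit 5) (nat_lit 2) (nat_lit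 4) (nat_lit 239) (nat_lit 197) (nat_lit 164)) (XT.lf (nat_lit 0) (nat_lit 303059310029) (nat_lit 76) (nat_lit 57172401382) (nat_lit 76) (nat_lit 50609553756) (nat_lit 1) (nat_lit 4) (nat_lit 2) (nat_lit 5) (nat_lit 2) (nat_lit 4) (nat_lit 240) (nat_lit 197) (nat_lit 163))))) (XT.nd (nat_lit 234) (nat_lit 0) (nat_lit 0) (XT.nd (nat_lit 78) (nat_lit 0) (nat_lit 0) (XT.lf (nat_lit 0) (nat_lit 353395945958) (nat_lit 76) (nat_lit 62605251850) (nat_lit 76) (nat_lit 56034947885) (nat_lit 1) (nat_lit 4) (nat_lit 2) (nat_lit 5) (nat_lit 2) (nat_lit 4) (nat_lit 241) (nat_lit 197) (nat_lit 162)) (XT.nd (nat_lit 78) (nat_lit 0) (nat_lit 0) (XT.lf (nat_lit 0) (nat_lit 411272969147) (nat_lit 76) (nat_lit 68857485346) (nat_lit 76) (nat_lit 62280697607) (nat_lit 1) (nat_lit 4) (nat_lit 2) (nat_lit 5) (nat_lit 2) (nat_lit 4) (nat_lit 242) (nat_lit 197) (nat_lit 161)) (XT.lf (nat_lit 0) (nat_lit 477822756138)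 (nat_lit 76) (nat_lit 76051428175) (nat_lit 76) (nat_lit 69469002372) (nat_lit 1) (nat_lit 4) (nat_lit 2) (nat_lit 5) (nat_lit 2) (nat_lit 4) (nat_lit 243) (nat_lit 197) (nat_lit 160)))) (XT.nd (nat_lit 156) (nat_lit 0) (nat_lit 0) (XT.nd (nat_lit 78) (nat_lit 0) (nat_lit 0) (XT.lf (nat_lit 0) (nat_lit 554347367979) (nat_lit 76) (nat_lit 84327831394) (nat_lit 76) (nat_lit 77740502927) (nat_lit 1) (nat_lit 4) (nat_lit 2) (nat_lit 5) (nat_lit 2) (nat_lit 4) (nat_lit 244) (nat_lit 197) (nat_lit 159)) (XT.lf (nat_lit 0) (nat_lit 642344025339) (nat_lit 76) (nat_lit 93848624631) (nat_lit 76) (nat_lit 87257032977) (nat_lit 1) (nat_lit 4) (nat_lit 2) (nat_lit 5) (nat_lit 2) (nat_lit 4) (nat_lit 245) (nat_lit 197) (nat_lit 158))) (XT.nd (nat_lit 78) (nat_lit 0) (nat_lit 0) (XT.lf (nat_lit 0) (nat_lit 743534401946) (nat_lit 76) (nat_lit 104800084275) (nat_lit 76) (nat_lit 98204785503) (nat_lit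 1) (nat_lit 4) (nat_lit 2) (nat_lit 5) (nat_lit 2) (nat_lit 4) (nat_lit 246) (nat_lit 197) (nat_lit 157)) (XT.lf (nat_lit 0) (nat_lit 859898309519) (nat_lit 76) (nat_lit 117396478015) (nat_lit 76) (nat_lit 110797955661) (nat_lit 1) (nat_lit 4) (nat_lit 2) (nat_lit 5) (nat_lit 2) (nat_lit 4) (nat_lit 247) (nat_lit 197) (nat_lit 156))))))) (XT.nd (nat_lit 1014) (nat_lit 0) (nat_lit 0) (XT.nd (nat_lit 468) (nat_lit 0) (nat_lit 0) (XT.nd (nat_lit 234) (nat_lit 0) (nat_lit 0) (XT.nd (nat_lit 78) (nat_lit 0) (nat_lit 0) (XT.lf (nat_lit 0) (nat_lit 993712433205) (nat_lit 76) (nat_lit 131884257033) (nat_lit 76) (nat_lit 125282931565) (nat_lit 1) (nat_lit 4) (nat_lit 2) (nat_lit 5) (nat_lit 2) (nat_lit 4) (nat_lit 248) (nat_lit 197) (nat_lit 155)) (XT.nd (nat_lit 78) (nat_lit 0) (nat_lit 0) (XT.lf (nat_lit 0) (nat_lit 1147594875423) (nat_lit 76) (nat_lit 148546877874) (nat_lit 76) (nat_lit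 141943114915) (nat_lit 1) (nat_lit 4) (nat_lit 2) (nat_lit 5) (nat_lit 2) (nat_lit 4) (nat_lit 249) (nat_lit 197) (nat_lit 154)) (XT.lf (nat_lit 0) (nat_lit 1324556379609) (nat_lit 76) (nat_lit 167710348338) (nat_lit 76) (nat_lit 161104465823) (nat_lit 1) (nat_lit 4) (nat_lit 2) (nat_lit 5) (nat_lit 2) (nat_lit 4) (nat_lit 250) (nat_lit 197) (nat_lit 153)))) (XT.nd (nat_lit 78) (nat_lit 0) (nat_lit 0) (XT.lf (nat_lit 0) (nat_lit 1528059236062) (nat_lit 76) (nat_lit 189749605891) (nat_lit 76) (nat_lit 183141880282) (nat_lit 1) (nat_lit 4) (nat_lit 2) (nat_lit 5) (nat_lit 2) (nat_lit 4) (nat_lit 251) (nat_lit 197) (nat_lit 152)) (XT.nd (nat_lit 78) (nat_lit 0) (nat_lit 0) (XT.lf (nat_lit 0) (nat_lit 1762085022408) (nat_lit 76) (nat_lit 215095853397) (nat_lit 76) (nat_lit 208486525099) (nat_lit 1) (nat_lit 4) (nat_lit 2) (nat_lit 5) (nat_lit 2) (nat_lit 4) (nat_lit 252) (nat_lit 197)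 (nat_lit 151)) (XT.lf (nat_lit 0) (nat_lit 2031212504032) (nat_lit 76) (nat_lit 244244995700) (nat_lit 76) (nat_lit 237634273758) (nat_lit 1) (nat_lit 4) (nat_lit 2) (nat_lit 5) (nat_lit 2) (nat_lit 4) (nat_lit 253) (nat_lit 197) (nat_lit 150))))) (XT.nd (nat_lit 234) (nat_lit 0) (nat_lit 0) (XT.nd (nat_lit 78) (nat_lit 0) (nat_lit 0) (XT.lf (nat_lit 0) (nat_lit 2340707218619) (nat_lit 76) (nat_lit 277767342104) (nat_lit 76) (nat_lit 271155408299) (nat_lit 1) (nat_lit 4) (nat_lit 2) (nat_lit 5) (nat_lit 2) (nat_lit 4) (nat_lit 254) (nat_lit 197) (nat_lit 149)) (XT.nd (nat_lit 78) (nat_lit 0) (nat_lit 0) (XT.lf (nat_lit 0) (nat_lit 2696624497539) (nat_lit 76) (nat_lit 316318764605) (nat_lit 76) (nat_lit 309705777005) (nat_lit 1) (nat_lit 4) (nat_lit 2) (nat_lit 5) (nat_lit 2) (nat_lit 4) (nat_lit 255) (nat_lit 197) (nat_lit 148)) (XT.lf (nat_lit 0) (nat_lit 3105927939730) (nat_lit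 76) (nat_lit 360653530165) (nat_lit 76) (nat_lit 354039626222) (nat_lit 1) (nat_lit 4) (nat_lit 2) (nat_lit 5) (nat_lit 2) (nat_lit 4) (nat_lit 256) (nat_lit 197) (nat_lit 147)))) (XT.nd (nat_lit 156) (nat_lit 0) (nat_lit 0) (XT.nd (nat_lit 78) (nat_lit 0) (nat_lit 0) (XT.lf (nat_lit 0) (nat_lit 3576625656016) (nat_lit 76) (nat_lit 411639058111) (nat_lit 76) (nat_lit 405024357348) (nat_lit 1) (nat_lit 4) (nat_lit 2) (nat_lit 5) (nat_lit 2) (nat_lit 4) (nat_lit 257) (nat_lit 197) (nat_lit 146)) (XT.lf (nat_lit 0) (nat_lit 4117926949542) (nat_lit 76) (nat_lit 470272891379) (nat_lit 76) (nat_lit 463657497729) (nat_lit 1) (nat_lit 4) (nat_lit 2) (nat_lit 5) (nat_lit 2) (nat_lit 4) (nat_lit 258) (nat_lit 197) (nat_lit 145))) (XT.nd (nat_lit 78) (nat_lit 0) (nat_lit 0) (XT.lf (nat_lit 0) (nat_lit 4740422497790) (nat_lit 76) (nat_lit 537702213664) (nat_lit 76) (nat_lit 531086217504) (nat_lit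 1) (nat_lit 4) (nat_lit 2) (nat_lit 5) (nat_lit 2) (nat_lit 4) (nat_lit 259) (nat_lit 197) (nat_lit 144)) (XT.lf (nat_lit 0) (nat_lit 5456291561487) (nat_lit 76) (nat_lit 615246294317) (nat_lit 76) (nat_lit 608629774234) (nat_lit 1) (nat_lit 4) (nat_lit 2) (nat_lit 5) (nat_lit 2) (nat_lit 4) (nat_lit 260) (nat_lit 197) (nat_lit 143)))))) (XT.nd (nat_lit 546) (nat_lit 0) (nat_lit 0) (XT.nd (nat_lit 234) (nat_lit 0) (nat_lit 0) (XT.nd (nat_lit 78) (nat_lit 0) (nat_lit 0) (XT.lf (nat_lit 0) (nat_lit 6279540274488) (nat_lit 76) (nat_lit 704422300131) (nat_lit 76) (nat_lit 697805324464) (nat_lit 1) (nat_lit 4) (nat_lit 2) (nat_lit 5) (nat_lit 2) (nat_lit 4) (nat_lit 261) (nat_lit 197) (nat_lit 142)) (XT.nd (nat_lit 78) (nat_lit 0) (nat_lit 0) (XT.lf (nat_lit 0) (nat_lit 7226275676829) (nat_lit 76) (nat_lit 806974979047) (nat_lit 76) (nat_lit 800357607220) (nat_lit 1) (nat_lit 4) (nat_lit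 2) (nat_lit 5) (nat_lit 2) (nat_lit 4) (nat_lit 262) (nat_lit 197) (nat_lit 141)) (XT.lf (nat_lit 0) (nat_lit 8315020852469) (nat_lit 76) (nat_lit 924910796522) (nat_lit 76) (nat_lit 918293080207) (nat_lit 1) (nat_lit 4) (nat_lit 2) (nat_lit 5) (nat_lit 2) (nat_lit 4) (nat_lit 263) (nat_lit 197) (nat_lit 140)))) (XT.nd (nat_lit 156) (nat_lit 0) (nat_lit 0) (XT.nd (nat_lit 78) (nat_lit 0) (nat_lit 0) (XT.lf (nat_lit 0) (nat_lit 9567077337454) (nat_lit 76) (nat_lit 1060537192462) (nat_lit 76) (nat_lit 1053919176593) (nat_lit 1) (nat_lit 4) (nat_lit 2) (nat_lit 5) (nat_lit 2) (nat_lit 4) (nat_lit 264) (nat_lit 197) (nat_lit 139)) (XT.lf (nat_lit 0) (nat_lit 11006941889099) (nat_lit 76) (nat_lit 1216507726789) (nat_lit 76) (nat_lit 1209889450439) (nat_lit 1) (nat_lit 4) (nat_lit 2) (nat_lit 5) (nat_lit 2) (nat_lit 4) (nat_lit 265) (nat_lit 197) (nat_lit 138))) (XT.nd (nat_lit 78) (nat_lit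 0) (nat_lit 0) (XT.lf (nat_lit 0) (nat_lit 12662785770370) (nat_lit 76) (nat_lit 1395873996914) (nat_lit 76) (nat_lit 1389255494057) (nat_lit 1) (nat_lit 4) (nat_lit 2) (nat_lit 5) (nat_lit 2) (nat_lit 4) (nat_lit 266) (nat_lit 197) (nat_lit 137)) (XT.lf (nat_lit 0) (nat_lit 14567005926771) (nat_lit 76) (nat_lit 1602145342903) (nat_lit 76) (nat_lit 1595526643085) (nat_lit 1) (nat_lit 4) (nat_lit 2) (nat_lit 5) (nat_lit 2) (nat_lit 4) (nat_lit 267) (nat_lit 197) (nat_lit 136))))) (XT.nd (nat_lit 468) (nat_lit 0) (nat_lit 0) (XT.nd (nat_lit 78) (nat_lit 0) (nat_lit 0) (XT.lf (nat_lit 0) (nat_lit 16756858839622) (nat_lit 76) (nat_lit 1839357508483) (nat_lit 76) (nat_lit 1832738637394) (nat_lit 1) (nat_lit 4) (nat_lit 2) (nat_lit 5) (nat_lit 2) (nat_lit 4) (nat_lit 268) (nat_lit 197) (nat_lit 135)) (XT.nd (nat_lit 78) (nat_lit 0) (nat_lit 0) (XT.lf (nat_lit 0) (nat_lit 19275189457219)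 (nat_lit 76) (nat_lit 2112151601241) (nat_lit 76) (nat_lit 2105532581221) (nat_lit 1) (nat_lit 4) (nat_lit 2) (nat_lit 5) (nat_lit 2) (nat_lit 4) (nat_lit 269) (nat_lit 197) (nat_lit 134)) (XT.lf (nat_lit 0) (nat_lit 22171269465557) (nat_lit 76) (nat_lit 2425864896906) (nat_lit 76) (nat_lit 2419245747379) (nat_lit 1) (nat_lit 4) (nat_lit 2) (nat_lit 5) (nat_lit 2) (nat_lit 4) (nat_lit 270) (nat_lit 197) (nat_lit 133)))) (XT.nd (nat_lit 25818) (nat_lit 0) (nat_lit 988) (XT.nd (nat_lit 78) (nat_lit 0) (nat_lit 0) (XT.lf (nat_lit 0) (nat_lit 38801663196312) (nat_lit 76) (nat_lit 4227327040569) (nat_lit 76) (nat_lit 4220707521308) (nat_lit 1) (nat_lit 4) (nat_lit 2) (nat_lit 5) (nat_lit 2) (nat_lit 4) (nat_lit 274) (nat_lit 197) (nat_lit 129)) (XT.lf (nat_lit 0) (nat_lit 44626713588723) (nat_lit 76) (nat_lit 4858316950449) (nat_lit 76) (nat_lit 4851697366800) (nat_lit 1) (nat_lit 4)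 (nat_lit 2) (nat_lit 5) (nat_lit 2) (nat_lit 4) (nat_lit 275) (nat_lit 197) (nat_lit 128))) (XT.nd (nat_lit 78) (nat_lit 228) (nat_lit 0) (XT.lf (nat_lit 0) (nat_lit 3208405957) (nat_lit 76) (nat_lit 115912783) (nat_lit 76) (nat_lit 115912783) (nat_lit 17) (nat_lit 4) (nat_lit 18) (nat_lit 5) (nat_lit 18) (nat_lit 4) (nat_lit 204) (nat_lit 198) (nat_lit 198)) (XT.lf (nat_lit 0) (nat_lit 2471962680) (nat_lit 228) (nat_lit 3703356015) (nat_lit 0) (nat_lit 961730863) (nat_lit 14) (nat_lit 5) (nat_lit 17) (nat_lit 4) (nat_lit 14) (nat_lit 4) (nat_lit 205) (nat_lit 198) (nat_lit 197))))))))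
noncomputable def xc22 : XT := (XT.nd (nat_lit 2028) (nat_lit 0) (nat_lit 0) (XT.nd (nat_lit 1014) (nat_lit 152) (nat_lit 0) (XT.nd (nat_lit 468) (nat_lit 228) (nat_lit 0) (XT.nd (nat_lit 234) (nat_lit 228) (nat_lit 0) (XT.nd (nat_lit 78) (nat_lit 152) (nat_lit 0) (XT.lf (nat_lit 0) (nat_lit 121030689) (nat_lit 228) (nat_lit 5096601974) (nat_lit 228) (nat_lit 2273125099) (nat_lit 11) (nat_lit 4) (nat_lit 14) (nat_lit 5) (nat_lit 14) (nat_lit 4) (nat_lit 206) (nat_lit 198) (nat_lit 196)) (XT.nd (nat_lit 78) (nat_lit 76) (nat_lit 0) (XT.lf (nat_lit 0) (nat_lit 266306120) (nat_lit 304) (nat_lit 3392870941) (nat_lit 76) (nat_lit 4267728632) (nat_lit 10) (nat_lit 5) (nat_lit 14) (nat_lit 5) (nat_lit 11) (nat_lit 4) (nat_lit 207) (nat_lit 198) (nat_lit 195)) (XT.lf (nat_lit 0) (nat_lit 765963011) (nat_lit 76) (nat_lit 1896545846) (nat_lit 152) (nat_lit 5799555923) (nat_lit 9) (nat_lit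 5) (nat_lit 10) (nat_lit 5) (nat_lit 11) (nat_lit 4) (nat_lit 208) (nat_lit 198) (nat_lit 194)))) (XT.nd (nat_lit 78) (nat_lit 228) (nat_lit 0) (XT.lf (nat_lit 0) (nat_lit 5311001166) (nat_lit 152) (nat_lit 3539413293) (nat_lit 0) (nat_lit 248469881) (nat_lit 9) (nat_lit 5) (nat_lit 11) (nat_lit 4) (nat_lit 9) (nat_lit 4) (nat_lit 209) (nat_lit 198) (nat_lit 193)) (XT.nd (nat_lit 78) (nat_lit 76) (nat_lit 0) (XT.lf (nat_lit 0) (nat_lit 876684974) (nat_lit 152) (nat_lit 7347266301) (nat_lit 152) (nat_lit 1631820126) (nat_lit 7) (nat_lit 4) (nat_lit 9) (nat_lit 5) (nat_lit 9) (nat_lit 4) (nat_lit 210) (nat_lit 198) (nat_lit 192)) (XT.lf (nat_lit 0) (nat_lit 711450320) (nat_lit 228) (nat_lit 4753580065) (nat_lit 76) (nat_lit 5268501959) (nat_lit 6) (nat_lit 5) (nat_lit 9) (nat_lit 5) (nat_lit 7) (nat_lit 4) (nat_lit 211) (nat_lit 198) (nat_lit 191))))) (XT.nd (nat_lit 234) (nat_lit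 152) (nat_lit 0) (XT.nd (nat_lit 78) (nat_lit 76) (nat_lit 0) (XT.lf (nat_lit 0) (nat_lit 3017784734) (nat_lit 228) (nat_lit 288658535) (nat_lit 76) (nat_lit 8461101340) (nat_lit 6) (nat_lit 5) (nat_lit 9) (nat_lit 5) (nat_lit 7) (nat_lit 4) (nat_lit 212) (nat_lit 198) (nat_lit 190)) (XT.nd (nat_lit 78) (nat_lit 0) (nat_lit 0) (XT.lf (nat_lit 0) (nat_lit 5017278324) (nat_lit 76) (nat_lit 668059432) (nat_lit 152) (nat_lit 7271673427) (nat_lit 5) (nat_lit 5) (nat_lit 6) (nat_lit 5) (nat_lit 7) (nat_lit 4) (nat_lit 213) (nat_lit 198) (nat_lit 189)) (XT.lf (nat_lit 0) (nat_lit 8685037346) (nat_lit 152) (nat_lit 3558192136) (nat_lit 0) (nat_lit 2094164249) (nat_lit 5) (nat_lit 5) (nat_lit 7) (nat_lit 4) (nat_lit 5) (nat_lit 4) (nat_lit 214) (nat_lit 198) (nat_lit 188)))) (XT.nd (nat_lit 156) (nat_lit 76) (nat_lit 0) (XT.nd (nat_lit 78) (nat_lit 0) (nat_lit 0) (XT.lf (nat_lit 0) (nat_lit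 1315049247) (nat_lit 76) (nat_lit 10747848984) (nat_lit 76) (nat_lit 3874702762) (nat_lit 4) (nat_lit 4) (nat_lit 5) (nat_lit 5) (nat_lit 5) (nat_lit 4) (nat_lit 215) (nat_lit 198) (nat_lit 187)) (XT.lf (nat_lit 0) (nat_lit 7079775918) (nat_lit 76) (nat_lit 8906303038) (nat_lit 76) (nat_lit 1787701925) (nat_lit 4) (nat_lit 4) (nat_lit 5) (nat_lit 5) (nat_lit 5) (nat_lit 4) (nat_lit 216) (nat_lit 198) (nat_lit 186))) (XT.nd (nat_lit 78) (nat_lit 0) (nat_lit 0) (XT.lf (nat_lit 0) (nat_lit 422219940) (nat_lit 152) (nat_lit 6424267277) (nat_lit 76) (nat_lit 13056753065) (nat_lit 3) (nat_lit 5) (nat_lit 5) (nat_lit 5) (nat_lit 4) (nat_lit 4) (nat_lit 217) (nat_lit 198) (nat_lit 185)) (XT.lf (nat_lit 0) (nat_lit 2662678633) (nat_lit 152) (nat_lit 1792880247) (nat_lit 76) (nat_lit 17902621662) (nat_lit 3) (nat_lit 5) (nat_lit 5) (nat_lit 5) (nat_lit 4) (nat_lit 4) (nat_lit 218) (nat_lit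 198) (nat_lit 184)))))) (XT.nd (nat_lit 468) (nat_lit 76) (nat_lit 0) (XT.nd (nat_lit 234) (nat_lit 0) (nat_lit 0) (XT.nd (nat_lit 78) (nat_lit 0) (nat_lit 0) (XT.lf (nat_lit 0) (nat_lit 3693627394) (nat_lit 76) (nat_lit 1595980643) (nat_lit 152) (nat_lit 19885187023) (nat_lit 2) (nat_lit 5) (nat_lit 3) (nat_lit 5) (nat_lit 4) (nat_lit 4) (nat_lit 219) (nat_lit 198) (nat_lit 183)) (XT.nd (nat_lit 78) (nat_lit 0) (nat_lit 0) (XT.lf (nat_lit 0) (nat_lit 8380328614) (nat_lit 152) (nat_lit 18443097430) (nat_lit 0) (nat_lit 1580876860) (nat_lit 2) (nat_lit 5) (nat_lit 4) (nat_lit 4) (nat_lit 2) (nat_lit 4) (nat_lit 220) (nat_lit 198) (nat_lit 182)) (XT.lf (nat_lit 0) (nat_lit 11924991999) (nat_lit 152) (nat_lit 15176022627) (nat_lit 0) (nat_lit 5019423322) (nat_lit 2) (nat_lit 5) (nat_lit 4) (nat_lit 4) (nat_lit 2) (nat_lit 4) (nat_lit 221) (nat_lit 198) (nat_lit 181)))) (XT.nd (nat_lit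 78) (nat_lit 0) (nat_lit 0) (XT.lf (nat_lit 0) (nat_lit 15926864145) (nat_lit 152) (nat_lit 11549936074) (nat_lit 0) (nat_lit 8929019883) (nat_lit 2) (nat_lit 5) (nat_lit 4) (nat_lit 4) (nat_lit 2) (nat_lit 4) (nat_lit 222) (nat_lit 198) (nat_lit 180)) (XT.nd (nat_lit 78) (nat_lit 0) (nat_lit 0) (XT.lf (nat_lit 0) (nat_lit 20464242552) (nat_lit 152) (nat_lit 7493892601) (nat_lit 0) (nat_lit 13386158651) (nat_lit 2) (nat_lit 5) (nat_lit 4) (nat_lit 4) (nat_lit 2) (nat_lit 4) (nat_lit 223) (nat_lit 198) (nat_lit 179)) (XT.lf (nat_lit 0) (nat_lit 25625902015) (nat_lit 152) (nat_lit 2928534833) (nat_lit 0) (nat_lit 18478044513) (nat_lit 2) (nat_lit 5) (nat_lit 4) (nat_lit 4) (nat_lit 2) (nat_lit 4) (nat_lit 224) (nat_lit 198) (nat_lit 178))))) (XT.nd (nat_lit 234) (nat_lit 0) (nat_lit 0) (XT.nd (nat_lit 78) (nat_lit 0) (nat_lit 0) (XT.lf (nat_lit 0) (nat_lit 2453924799) (nat_lit 76)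 (nat_lit 29160518515) (nat_lit 76) (nat_lit 21951988319) (nat_lit 1) (nat_lit 4) (nat_lit 2) (nat_lit 5) (nat_lit 2) (nat_lit 4) (nat_lit 225) (nat_lit 198) (nat_lit 177)) (XT.nd (nat_lit 78) (nat_lit 0) (nat_lit 0) (XT.lf (nat_lit 0) (nat_lit 8890630292) (nat_lit 76) (nat_lit 29717721877) (nat_lit 76) (nat_lit 22456432816) (nat_lit 1) (nat_lit 4) (nat_lit 2) (nat_lit 5) (nat_lit 2) (nat_lit 4) (nat_lit 226) (nat_lit 198) (nat_lit 176)) (XT.lf (nat_lit 0) (nat_lit 16221319466) (nat_lit 76) (nat_lit 30390031243) (nat_lit 76) (nat_lit 23082864907) (nat_lit 1) (nat_lit 4) (nat_lit 2) (nat_lit 5) (nat_lit 2) (nat_lit 4) (nat_lit 227) (nat_lit 198) (nat_lit 175)))) (XT.nd (nat_lit 156) (nat_lit 0) (nat_lit 0) (XT.nd (nat_lit 78) (nat_lit 0) (nat_lit 0) (XT.lf (nat_lit 0) (nat_lit 24589418847) (nat_lit 76) (nat_lit 31190600490) (nat_lit 76) (nat_lit 23843540872) (nat_lit 1) (nat_lit 4)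 (nat_lit 2) (nat_lit 5) (nat_lit 2) (nat_lit 4) (nat_lit 228) (nat_lit 198) (nat_lit 174)) (XT.lf (nat_lit 0) (nat_lit 34158652119) (nat_lit 76) (nat_lit 32135092930) (nat_lit 76) (nat_lit 24753343502) (nat_lit 1) (nat_lit 4) (nat_lit 2) (nat_lit 5) (nat_lit 2) (nat_lit 4) (nat_lit 229) (nat_lit 198) (nat_lit 173))) (XT.nd (nat_lit 78) (nat_lit 0) (nat_lit 0) (XT.lf (nat_lit 0) (nat_lit 45116243411) (nat_lit 76) (nat_lit 33241987764) (nat_lit 76) (nat_lit 25830073283) (nat_lit 1) (nat_lit 4) (nat_lit 2) (nat_lit 5) (nat_lit 2) (nat_lit 4) (nat_lit 230) (nat_lit 198) (nat_lit 172)) (XT.lf (nat_lit 0) (nat_lit 57676580379) (nat_lit 76) (nat_lit 34532941628) (nat_lit 76) (nat_lit 27094796667) (nat_lit 1) (nat_lit 4) (nat_lit 2) (nat_lit 5) (nat_lit 2) (nat_lit 4) (nat_lit 231) (nat_lit 198) (nat_lit 171))))))) (XT.nd (nat_lit 1014) (nat_lit 0) (nat_lit 0) (XT.nd (nat_lit 468) (nat_lit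 0) (nat_lit 0) (XT.nd (nat_lit 234) (nat_lit 0) (nat_lit 0) (XT.nd (nat_lit 78) (nat_lit 0) (nat_lit 0) (XT.lf (nat_lit 0) (nat_lit 72085408746) (nat_lit 76) (nat_lit 36033212317) (nat_lit 76) (nat_lit 28572258243) (nat_lit 1) (nat_lit 4) (nat_lit 2) (nat_lit 5) (nat_lit 2) (nat_lit 4) (nat_lit 232) (nat_lit 198) (nat_lit 170)) (XT.nd (nat_lit 78) (nat_lit 0) (nat_lit 0) (XT.lf (nat_lit 0) (nat_lit 88624640372) (nat_lit 76) (nat_lit 37772152953) (nat_lit 76) (nat_lit 30291364866) (nat_lit 1) (nat_lit 4) (nat_lit 2) (nat_lit 5) (nat_lit 2) (nat_lit 4) (nat_lit 233) (nat_lit 198) (nat_lit 169)) (XT.lf (nat_lit 0) (nat_lit 107617868919) (nat_lit 76) (nat_lit 39783786286) (nat_lit 76) (nat_lit 32285751233) (nat_lit 1) (nat_lit 4) (nat_lit 2) (nat_lit 5) (nat_lit 2) (nat_lit 4) (nat_lit 234) (nat_lit 198) (nat_lit 168)))) (XT.nd (nat_lit 78) (nat_lit 0) (nat_lit 0) (XT.lf (nat_lit 0)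 (nat_lit 129436701032) (nat_lit 76) (nat_lit 42107470360) (nat_lit 76) (nat_lit 34594437945) (nat_lit 1) (nat_lit 4) (nat_lit 2) (nat_lit 5) (nat_lit 2) (nat_lit 4) (nat_lit 235) (nat_lit 198) (nat_lit 167)) (XT.nd (nat_lit 78) (nat_lit 0) (nat_lit 0) (XT.lf (nat_lit 0) (nat_lit 154508026905) (nat_lit 76) (nat_lit 44788668560) (nat_lit 76) (nat_lit 37262594960) (nat_lit 1) (nat_lit 4) (nat_lit 2) (nat_lit 5) (nat_lit 2) (nat_lit 4) (nat_lit 236) (nat_lit 198) (nat_lit 166)) (XT.lf (nat_lit 0) (nat_lit 183322372478) (nat_lit 76) (nat_lit 47879839112) (nat_lit 76) (nat_lit 40342425351) (nat_lit 1) (nat_lit 4) (nat_lit 2) (nat_lit 5) (nat_lit 2) (nat_lit 4) (nat_lit 237) (nat_lit 198) (nat_lit 165))))) (XT.nd (nat_lit 234) (nat_lit 0) (nat_lit 0) (XT.nd (nat_lit 78) (nat_lit 0) (nat_lit 0) (XT.lf (nat_lit 0) (nat_lit 216443496688) (nat_lit 76) (nat_lit 51441461438) (nat_lit 76) (nat_lit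 43894186668) (nat_lit 1) (nat_lit 4) (nat_lit 2) (nat_lit 5) (nat_lit 2) (nat_lit 4) (nat_lit 238) (nat_lit 198) (nat_lit 164)) (XT.nd (nat_lit 78) (nat_lit 0) (nat_lit 0) (XT.lf (nat_lit 0) (nat_lit 254519421529) (nat_lit 76) (nat_lit 55543219454) (nat_lit 76) (nat_lit 47987369894) (nat_lit 1) (nat_lit 4) (nat_lit 2) (nat_lit 5) (nat_lit 2) (nat_lit 4) (nat_lit 239) (nat_lit 198) (nat_lit 163)) (XT.lf (nat_lit 0) (nat_lit 298295110748) (nat_lit 76) (nat_lit 60265364947) (nat_lit 76) (nat_lit 52702059047) (nat_lit 1) (nat_lit 4) (nat_lit 2) (nat_lit 5) (nat_lit 2) (nat_lit 4) (nat_lit 240) (nat_lit 198) (nat_lit 162)))) (XT.nd (nat_lit 156) (nat_lit 0) (nat_lit 0) (XT.nd (nat_lit 78) (nat_lit 0) (nat_lit 0) (XT.lf (nat_lit 0) (nat_lit 348627045221) (nat_lit 76) (nat_lit 65700287721) (nat_lit 76) (nat_lit 58130498048) (nat_lit 1) (nat_lit 4) (nat_lit 2) (nat_lit 5) (nat_lit 2) (nat_lit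 4) (nat_lit 241) (nat_lit 198) (nat_lit 161)) (XT.lf (nat_lit 0) (nat_lit 406499980188) (nat_lit 76) (nat_lit 71954323221) (nat_lit 76) (nat_lit 64378895484) (nat_lit 1) (nat_lit 4) (nat_lit 2) (nat_lit 5) (nat_lit 2) (nat_lit 4) (nat_lit 242) (nat_lit 198) (nat_lit 160))) (XT.nd (nat_lit 78) (nat_lit 0) (nat_lit 0) (XT.lf (nat_lit 0) (nat_lit 473046212203) (nat_lit 76) (nat_lit 79149833011) (nat_lit 76) (nat_lit 71569502609) (nat_lit 1) (nat_lit 4) (nat_lit 2) (nat_lit 5) (nat_lit 2) (nat_lit 4) (nat_lit 243) (nat_lit 198) (nat_lit 159)) (XT.lf (nat_lit 0) (nat_lit 549567732762) (nat_lit 76) (nat_lit 87427598805) (nat_lit 76) (nat_lit 79843005216) (nat_lit 1) (nat_lit 4) (nat_lit 2) (nat_lit 5) (nat_lit 2) (nat_lit 4) (nat_lit 244) (nat_lit 198) (nat_lit 158)))))) (XT.nd (nat_lit 546) (nat_lit 0) (nat_lit 0) (XT.nd (nat_lit 234) (nat_lit 0) (nat_lit 0) (XT.nd (nat_lit 78) (nat_lit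 0) (nat_lit 0) (XT.lf (nat_lit 0) (nat_lit 637561702049) (nat_lit 76) (nat_lit 96949576889) (nat_lit 76) (nat_lit 89361276182) (nat_lit 1) (nat_lit 4) (nat_lit 2) (nat_lit 5) (nat_lit 2) (nat_lit 4) (nat_lit 245) (nat_lit 198) (nat_lit 157)) (XT.nd (nat_lit 78) (nat_lit 0) (nat_lit 0) (XT.lf (nat_lit 0) (nat_lit 738749741203) (nat_lit 76) (nat_lit 107902066835) (nat_lit 76) (nat_lit 100310542547) (nat_lit 1) (nat_lit 4) (nat_lit 2) (nat_lit 5) (nat_lit 2) (nat_lit 4) (nat_lit 246) (nat_lit 198) (nat_lit 156)) (XT.lf (nat_lit 0) (nat_lit 855111616206) (nat_lit 76) (nat_lit 120499356490) (nat_lit 76) (nat_lit 112905029087) (nat_lit 1) (nat_lit 4) (nat_lit 2) (nat_lit 5) (nat_lit 2) (nat_lit 4) (nat_lit 247) (nat_lit 198) (nat_lit 155)))) (XT.nd (nat_lit 156) (nat_lit 0) (nat_lit 0) (XT.nd (nat_lit 78) (nat_lit 0) (nat_lit 0) (XT.lf (nat_lit 0) (nat_lit 988923972441) (nat_lit 76) (nat_lit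 134987914564) (nat_lit 76) (nat_lit 127391149670) (nat_lit 1) (nat_lit 4) (nat_lit 2) (nat_lit 5) (nat_lit 2) (nat_lit 4) (nat_lit 248) (nat_lit 198) (nat_lit 154)) (XT.lf (nat_lit 0) (nat_lit 1142804877745) (nat_lit 76) (nat_lit 151651212845) (nat_lit 76) (nat_lit 144052328395) (nat_lit 1) (nat_lit 4) (nat_lit 2) (nat_lit 5) (nat_lit 2) (nat_lit 4) (nat_lit 249) (nat_lit 198) (nat_lit 153))) (XT.nd (nat_lit 78) (nat_lit 0) (nat_lit 0) (XT.lf (nat_lit 0) (nat_lit 1319765045484) (nat_lit 76) (nat_lit 170815272388) (nat_lit 76) (nat_lit 163214544845) (nat_lit 1) (nat_lit 4) (nat_lit 2) (nat_lit 5) (nat_lit 2) (nat_lit 4) (nat_lit 250) (nat_lit 198) (nat_lit 152)) (XT.lf (nat_lit 0) (nat_lit 1523266739809) (nat_lit 76) (nat_lit 192855042183) (nat_lit 76) (nat_lit 185252711950) (nat_lit 1) (nat_lit 4) (nat_lit 2) (nat_lit 5) (nat_lit 2) (nat_lit 4) (nat_lit 251) (nat_lit 198) (nat_lit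 151))))) (XT.nd (nat_lit 234) (nat_lit 0) (nat_lit 0) (XT.nd (nat_lit 78) (nat_lit 0) (nat_lit 0) (XT.lf (nat_lit 0) (nat_lit 1757291515609) (nat_lit 76) (nat_lit 218201735117) (nat_lit 76) (nat_lit 210598011241) (nat_lit 1) (nat_lit 4) (nat_lit 2) (nat_lit 5) (nat_lit 2) (nat_lit 4) (nat_lit 252) (nat_lit 198) (nat_lit 150)) (XT.nd (nat_lit 78) (nat_lit 0) (nat_lit 0) (XT.lf (nat_lit 0) (nat_lit 2026418118498) (nat_lit 76) (nat_lit 247351264748) (nat_lit 76) (nat_lit 239746329008) (nat_lit 1) (nat_lit 4) (nat_lit 2) (nat_lit 5) (nat_lit 2) (nat_lit 4) (nat_lit 253) (nat_lit 198) (nat_lit 149)) (XT.lf (nat_lit 0) (nat_lit 2335912068967) (nat_lit 76) (nat_lit 280873947960) (nat_lit 76) (nat_lit 273267958426) (nat_lit 1) (nat_lit 4) (nat_lit 2) (nat_lit 5) (nat_lit 2) (nat_lit 4) (nat_lit 254) (nat_lit 198) (nat_lit 148)))) (XT.nd (nat_lit 156) (nat_lit 0) (nat_lit 0) (XT.nd (nat_lit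 78) (nat_lit 0) (nat_lit 0) (XT.lf (nat_lit 0) (nat_lit 2691828683437) (nat_lit 76) (nat_lit 319425663337) (nat_lit 76) (nat_lit 311818757460) (nat_lit 1) (nat_lit 4) (nat_lit 2) (nat_lit 5) (nat_lit 2) (nat_lit 4) (nat_lit 255) (nat_lit 198) (nat_lit 147)) (XT.lf (nat_lit 0) (nat_lit 3101131547845) (nat_lit 76) (nat_lit 363760683572) (nat_lit 76) (nat_lit 356152980875) (nat_lit 1) (nat_lit 4) (nat_lit 2) (nat_lit 5) (nat_lit 2) (nat_lit 4) (nat_lit 256) (nat_lit 198) (nat_lit 146))) (XT.nd (nat_lit 78) (nat_lit 0) (nat_lit 0) (XT.lf (nat_lit 0) (nat_lit 3571828761711) (nat_lit 76) (nat_lit 414746432974) (nat_lit 76) (nat_lit 407138037390) (nat_lit 1) (nat_lit 4) (nat_lit 2) (nat_lit 5) (nat_lit 2) (nat_lit 4) (nat_lit 257) (nat_lit 198) (nat_lit 145)) (XT.lf (nat_lit 0) (nat_lit 4113129618350) (nat_lit 76) (nat_lit 473380458813) (nat_lit 76) (nat_lit 465771460718) (nat_lit 1) (nat_lit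 4) (nat_lit 2) (nat_lit 5) (nat_lit 2) (nat_lit 4) (nat_lit 258) (nat_lit 198) (nat_lit 144))))))))
noncomputable def xc23 : XT := (XT.nd (nat_lit 27768) (nat_lit 0) (nat_lit 0) (XT.nd (nat_lit 1170) (nat_lit 0) (nat_lit 0) (XT.nd (nat_lit 468) (nat_lit 0) (nat_lit 0) (XT.nd (nat_lit 234) (nat_lit 0) (nat_lit 0) (XT.nd (nat_lit 78) (nat_lit 0) (nat_lit 0) (XT.lf (nat_lit 0) (nat_lit 4735624786697) (nat_lit 76) (nat_lit 540809948552) (nat_lit 76) (nat_lit 533200426535) (nat_lit 1) (nat_lit 4) (nat_lit 2) (nat_lit 5) (nat_lit 2) (nat_lit 4) (nat_lit 259) (nat_lit 198) (nat_lit 143)) (XT.nd (nat_lit 78) (nat_lit 0) (nat_lit 0) (XT.lf (nat_lit 0) (nat_lit 5451493520044) (nat_lit 76) (nat_lit 618354174815) (nat_lit 76) (nat_lit 610744197214) (nat_lit 1) (nat_lit 4) (nat_lit 2) (nat_lit 5) (nat_lit 2) (nat_lit 4) (nat_lit 260) (nat_lit 198) (nat_lit 142)) (XT.lf (nat_lit 0) (nat_lit 6274741945784)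 (nat_lit 76) (nat_lit 707530307248) (nat_lit 76) (nat_lit 699919933486) (nat_lit 1) (nat_lit 4) (nat_lit 2) (nat_lit 5) (nat_lit 2) (nat_lit 4) (nat_lit 261) (nat_lit 198) (nat_lit 141)))) (XT.nd (nat_lit 78) (nat_lit 0) (nat_lit 0) (XT.lf (nat_lit 0) (nat_lit 7221477098334) (nat_lit 76) (nat_lit 810083096267) (nat_lit 76) (nat_lit 802472378018) (nat_lit 1) (nat_lit 4) (nat_lit 2) (nat_lit 5) (nat_lit 2) (nat_lit 4) (nat_lit 262) (nat_lit 198) (nat_lit 140)) (XT.nd (nat_lit 78) (nat_lit 0) (nat_lit 0) (XT.lf (nat_lit 0) (nat_lit 8310222056765) (nat_lit 76) (nat_lit 928019009483) (nat_lit 76) (nat_lit 920407991680) (nat_lit 1) (nat_lit 4) (nat_lit 2) (nat_lit 5) (nat_lit 2) (nat_lit 4) (nat_lit 263) (nat_lit 198) (nat_lit 139)) (XT.lf (nat_lit 0) (nat_lit 9562278352871) (nat_lit 76) (nat_lit 1063645488677) (nat_lit 76) (nat_lit 1056034210392) (nat_lit 1) (nat_lit 4) (nat_lit 2) (nat_lit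 5) (nat_lit 2) (nat_lit 4) (nat_lit 264) (nat_lit 198) (nat_lit 138))))) (XT.nd (nat_lit 234) (nat_lit 0) (nat_lit 0) (XT.nd (nat_lit 78) (nat_lit 0) (nat_lit 0) (XT.lf (nat_lit 0) (nat_lit 11002142740274) (nat_lit 76) (nat_lit 1219616095399) (nat_lit 76) (nat_lit 1212004590608) (nat_lit 1) (nat_lit 4) (nat_lit 2) (nat_lit 5) (nat_lit 2) (nat_lit 4) (nat_lit 265) (nat_lit 198) (nat_lit 137)) (XT.nd (nat_lit 78) (nat_lit 0) (nat_lit 0) (XT.lf (nat_lit 0) (nat_lit 12657986478726) (nat_lit 76) (nat_lit 1398982428475) (nat_lit 76) (nat_lit 1391370726722) (nat_lit 1) (nat_lit 4) (nat_lit 2) (nat_lit 5) (nat_lit 2) (nat_lit 4) (nat_lit 266) (nat_lit 198) (nat_lit 136)) (XT.lf (nat_lit 0) (nat_lit 14562206510936) (nat_lit 76) (nat_lit 1605253829205) (nat_lit 76) (nat_lit 1597641956181) (nat_lit 1) (nat_lit 4) (nat_lit 2) (nat_lit 5) (nat_lit 2) (nat_lit 4) (nat_lit 267) (nat_lit 198) (nat_lit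 135)))) (XT.nd (nat_lit 156) (nat_lit 0) (nat_lit 0) (XT.nd (nat_lit 78) (nat_lit 0) (nat_lit 0) (XT.lf (nat_lit 0) (nat_lit 16752059315796) (nat_lit 76) (nat_lit 1842466042386) (nat_lit 76) (nat_lit 1834854020430) (nat_lit 1) (nat_lit 4) (nat_lit 2) (nat_lit 5) (nat_lit 2) (nat_lit 4) (nat_lit 268) (nat_lit 198) (nat_lit 134)) (XT.lf (nat_lit 0) (nat_lit 19270389839487) (nat_lit 76) (nat_lit 2115260176536) (nat_lit 76) (nat_lit 2107648025075) (nat_lit 1) (nat_lit 4) (nat_lit 2) (nat_lit 5) (nat_lit 2) (nat_lit 4) (nat_lit 269) (nat_lit 198) (nat_lit 133))) (XT.nd (nat_lit 234) (nat_lit 0) (nat_lit 0) (XT.lf (nat_lit 0) (nat_lit 22166469766168) (nat_lit 76) (nat_lit 2428973508193) (nat_lit 76) (nat_lit 2421361244119) (nat_lit 1) (nat_lit 4) (nat_lit 2) (nat_lit 5) (nat_lit 2) (nat_lit 4) (nat_lit 270) (nat_lit 198) (nat_lit 132)) (XT.lf (nat_lit 0) (nat_lit 33731602012404) (nat_lit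 76) (nat_lit 3681748894354) (nat_lit 76) (nat_lit 3674136373158) (nat_lit 1) (nat_lit 4) (nat_lit 2) (nat_lit 5) (nat_lit 2) (nat_lit 4) (nat_lit 273) (nat_lit 198) (nat_lit 129)))))) (XT.nd (nat_lit 26052) (nat_lit 0) (nat_lit 304) (XT.nd (nat_lit 25740) (nat_lit 0) (nat_lit 988) (XT.nd (nat_lit 78) (nat_lit 0) (nat_lit 0) (XT.lf (nat_lit 0) (nat_lit 38796863263793) (nat_lit 76) (nat_lit 4230435754615) (nat_lit 76) (nat_lit 4222823169032) (nat_lit 1) (nat_lit 4) (nat_lit 2) (nat_lit 5) (nat_lit 2) (nat_lit 4) (nat_lit 274) (nat_lit 198) (nat_lit 128)) (XT.nd (nat_lit 25584) (nat_lit 0) (nat_lit 1292) (XT.lf (nat_lit 0) (nat_lit 44621913615605) (nat_lit 76) (nat_lit 4861425682390) (nat_lit 76) (nat_lit 4853813040818) (nat_lit 1) (nat_lit 4) (nat_lit 2) (nat_lit 5) (nat_lit 2) (nat_lit 4) (nat_lit 275) (nat_lit 198) (nat_lit 127)) (XT.lf (nat_lit 0) (nat_lit 1455917217) (nat_lit 76)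 (nat_lit 356575987) (nat_lit 0) (nat_lit 1455917217) (nat_lit 18) (nat_lit 5) (nat_lit 19) (nat_lit 0) (nat_lit 18) (nat_lit 4) (nat_lit 202) (nat_lit 199) (nat_lit 199)))) (XT.nd (nat_lit 156) (nat_lit 152) (nat_lit 0) (XT.nd (nat_lit 78) (nat_lit 76) (nat_lit 0) (XT.lf (nat_lit 0) (nat_lit 2640693783) (nat_lit 76) (nat_lit 3019026482) (nat_lit 76) (nat_lit 1021744904) (nat_lit 17) (nat_lit 4) (nat_lit 18) (nat_lit 5) (nat_lit 18) (nat_lit 4) (nat_lit 203) (nat_lit 199) (nat_lit 198)) (XT.lf (nat_lit 0) (nat_lit 1410722968) (nat_lit 152) (nat_lit 700993785) (nat_lit 76) (nat_lit 4792387434) (nat_lit 16) (nat_lit 5) (nat_lit 18) (nat_lit 5) (nat_lit 17) (nat_lit 4) (nat_lit 204) (nat_lit 199) (nat_lit 197))) (XT.nd (nat_lit 78) (nat_lit 0) (nat_lit 0) (XT.lf (nat_lit 0) (nat_lit 3056117332) (nat_lit 152) (nat_lit 804532582) (nat_lit 228) (nat_lit 3337908362) (nat_lit 14) (nat_lit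 5) (nat_lit 16) (nat_lit 5) (nat_lit 17) (nat_lit 4) (nat_lit 205) (nat_lit 199) (nat_lit 196)) (XT.lf (nat_lit 0) (nat_lit 6413740168) (nat_lit 228) (nat_lit 459628879) (nat_lit 0) (nat_lit 711544478) (nat_lit 14) (nat_lit 5) (nat_lit 17) (nat_lit 4) (nat_lit 14) (nat_lit 4) (nat_lit 206) (nat_lit 199) (nat_lit 195))))) (XT.nd (nat_lit 234) (nat_lit 304) (nat_lit 0) (XT.nd (nat_lit 78) (nat_lit 76) (nat_lit 0) (XT.lf (nat_lit 0) (nat_lit 1097971897) (nat_lit 304) (nat_lit 4334558044) (nat_lit 76) (nat_lit 2610357650) (nat_lit 10) (nat_lit 5) (nat_lit 14) (nat_lit 5) (nat_lit 11) (nat_lit 4) (nat_lit 207) (nat_lit 199) (nat_lit 194)) (XT.nd (nat_lit 78) (nat_lit 76) (nat_lit 0) (XT.lf (nat_lit 0) (nat_lit 3331765993) (nat_lit 304) (nat_lit 395380680) (nat_lit 76) (nat_lit 4877733620) (nat_lit 10) (nat_lit 5) (nat_lit 14) (nat_lit 5) (nat_lit 11) (nat_lit 4) (nat_lit 208) (nat_lit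 199) (nat_lit 193)) (XT.lf (nat_lit 0) (nat_lit 4227895597) (nat_lit 76) (nat_lit 1603465002) (nat_lit 152) (nat_lit 3434823752) (nat_lit 9) (nat_lit 5) (nat_lit 10) (nat_lit 5) (nat_lit 11) (nat_lit 4) (nat_lit 209) (nat_lit 199) (nat_lit 192)))) (XT.nd (nat_lit 156) (nat_lit 76) (nat_lit 0) (XT.nd (nat_lit 78) (nat_lit 228) (nat_lit 0) (XT.lf (nat_lit 0) (nat_lit 8536687039) (nat_lit 152) (nat_lit 776140382) (nat_lit 0) (nat_lit 743256968) (nat_lit 9) (nat_lit 5) (nat_lit 11) (nat_lit 4) (nat_lit 9) (nat_lit 4) (nat_lit 210) (nat_lit 199) (nat_lit 191)) (XT.lf (nat_lit 0) (nat_lit 673947562) (nat_lit 228) (nat_lit 6838140271) (nat_lit 76) (nat_lit 3443460308) (nat_lit 6) (nat_lit 5) (nat_lit 9) (nat_lit 5) (nat_lit 7) (nat_lit 4) (nat_lit 211) (nat_lit 199) (nat_lit 190))) (XT.nd (nat_lit 78) (nat_lit 76) (nat_lit 0) (XT.lf (nat_lit 0) (nat_lit 2890753442) (nat_lit 228) (nat_lit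 2501309770) (nat_lit 76) (nat_lit 6612155655) (nat_lit 6) (nat_lit 5) (nat_lit 9) (nat_lit 5) (nat_lit 7) (nat_lit 4) (nat_lit 212) (nat_lit 199) (nat_lit 189)) (XT.lf (nat_lit 0) (nat_lit 2466122010) (nat_lit 76) (nat_lit 2908695612) (nat_lit 152) (nat_lit 7847459995) (nat_lit 5) (nat_lit 5) (nat_lit 6) (nat_lit 5) (nat_lit 7) (nat_lit 4) (nat_lit 213) (nat_lit 199) (nat_lit 188))))))) (XT.nd (nat_lit 1014) (nat_lit 0) (nat_lit 0) (XT.nd (nat_lit 468) (nat_lit 152) (nat_lit 0) (XT.nd (nat_lit 234) (nat_lit 76) (nat_lit 0) (XT.nd (nat_lit 78) (nat_lit 76) (nat_lit 0) (XT.lf (nat_lit 0) (nat_lit 8208221254) (nat_lit 152) (nat_lit 6398482765) (nat_lit 0) (nat_lit 21829974) (nat_lit 5) (nat_lit 5) (nat_lit 7) (nat_lit 4) (nat_lit 5) (nat_lit 4) (nat_lit 214) (nat_lit 199) (nat_lit 187)) (XT.nd (nat_lit 78) (nat_lit 76) (nat_lit 0) (XT.lf (nat_lit 0) (nat_lit 11467701807) (nat_lit 152)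 (nat_lit 1743749070) (nat_lit 0) (nat_lit 3035855636) (nat_lit 5) (nat_lit 5) (nat_lit 7) (nat_lit 4) (nat_lit 5) (nat_lit 4) (nat_lit 215) (nat_lit 199) (nat_lit 186)) (XT.lf (nat_lit 0) (nat_lit 3753743435) (nat_lit 76) (nat_lit 11498279918) (nat_lit 76) (nat_lit 2852994711) (nat_lit 4) (nat_lit 4) (nat_lit 5) (nat_lit 5) (nat_lit 5) (nat_lit 4) (nat_lit 216) (nat_lit 199) (nat_lit 185)))) (XT.nd (nat_lit 78) (nat_lit 76) (nat_lit 0) (XT.lf (nat_lit 0) (nat_lit 10090817785) (nat_lit 76) (nat_lit 9492903787) (nat_lit 76) (nat_lit 662019418) (nat_lit 4) (nat_lit 4) (nat_lit 5) (nat_lit 5) (nat_lit 5) (nat_lit 4) (nat_lit 217) (nat_lit 199) (nat_lit 184)) (XT.nd (nat_lit 78) (nat_lit 0) (nat_lit 0) (XT.lf (nat_lit 0) (nat_lit 1589682250) (nat_lit 152) (nat_lit 5574458105) (nat_lit 76) (nat_lit 15548269097) (nat_lit 3) (nat_lit 5) (nat_lit 5) (nat_lit 5) (nat_lit 4) (nat_lit 4) (nat_lit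 218) (nat_lit 199) (nat_lit 183)) (XT.lf (nat_lit 0) (nat_lit 4022192880) (nat_lit 152) (nat_lit 484899882) (nat_lit 76) (nat_lit 21051495844) (nat_lit 3) (nat_lit 5) (nat_lit 5) (nat_lit 5) (nat_lit 4) (nat_lit 4) (nat_lit 219) (nat_lit 199) (nat_lit 182))))) (XT.nd (nat_lit 234) (nat_lit 76) (nat_lit 0) (XT.nd (nat_lit 78) (nat_lit 0) (nat_lit 0) (XT.lf (nat_lit 0) (nat_lit 5752906069) (nat_lit 76) (nat_lit 1227352119) (nat_lit 152) (nat_lit 21828085962) (nat_lit 2) (nat_lit 5) (nat_lit 3) (nat_lit 5) (nat_lit 4) (nat_lit 4) (nat_lit 220) (nat_lit 199) (nat_lit 181)) (XT.nd (nat_lit 78) (nat_lit 0) (nat_lit 0) (XT.lf (nat_lit 0) (nat_lit 10439452681) (nat_lit 152) (nat_lit 19798494487) (nat_lit 0) (nat_lit 2299656194) (nat_lit 2) (nat_lit 5) (nat_lit 4) (nat_lit 4) (nat_lit 2) (nat_lit 4) (nat_lit 221) (nat_lit 199) (nat_lit 180)) (XT.lf (nat_lit 0) (nat_lit 14411197124) (nat_lit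 152) (nat_lit 16225410754) (nat_lit 0) (nat_lit 6191160998) (nat_lit 2) (nat_lit 5) (nat_lit 4) (nat_lit 4) (nat_lit 2) (nat_lit 4) (nat_lit 222) (nat_lit 199) (nat_lit 179)))) (XT.nd (nat_lit 156) (nat_lit 76) (nat_lit 0) (XT.nd (nat_lit 78) (nat_lit 0) (nat_lit 0) (XT.lf (nat_lit 0) (nat_lit 18922377528) (nat_lit 152) (nat_lit 12215456688) (nat_lit 0) (nat_lit 10632567803) (nat_lit 2) (nat_lit 5) (nat_lit 4) (nat_lit 4) (nat_lit 2) (nat_lit 4) (nat_lit 223) (nat_lit 199) (nat_lit 178)) (XT.lf (nat_lit 0) (nat_lit 24061256119) (nat_lit 152) (nat_lit 7690176667) (nat_lit 0) (nat_lit 15710773698) (nat_lit 2) (nat_lit 5) (nat_lit 4) (nat_lit 4) (nat_lit 2) (nat_lit 4) (nat_lit 224) (nat_lit 199) (nat_lit 177))) (XT.nd (nat_lit 78) (nat_lit 76) (nat_lit 0) (XT.lf (nat_lit 0) (nat_lit 29928376172) (nat_lit 152) (nat_lit 2561032602) (nat_lit 0) (nat_lit 21525134886) (nat_lit 2) (nat_lit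 5) (nat_lit 4) (nat_lit 4) (nat_lit 2) (nat_lit 4) (nat_lit 225) (nat_lit 199) (nat_lit 176)) (XT.lf (nat_lit 0) (nat_lit 3592124045) (nat_lit 76) (nat_lit 33195147319) (nat_lit 76) (nat_lit 24746028758) (nat_lit 1) (nat_lit 4) (nat_lit 2) (nat_lit 5) (nat_lit 2) (nat_lit 4) (nat_lit 226) (nat_lit 199) (nat_lit 175)))))) (XT.nd (nat_lit 546) (nat_lit 0) (nat_lit 0) (XT.nd (nat_lit 234) (nat_lit 0) (nat_lit 0) (XT.nd (nat_lit 78) (nat_lit 0) (nat_lit 0) (XT.lf (nat_lit 0) (nat_lit 10893886163) (nat_lit 76) (nat_lit 33880207139) (nat_lit 76) (nat_lit 25391195296) (nat_lit 1) (nat_lit 4) (nat_lit 2) (nat_lit 5) (nat_lit 2) (nat_lit 4) (nat_lit 227) (nat_lit 199) (nat_lit 174)) (XT.nd (nat_lit 78) (nat_lit 0) (nat_lit 0) (XT.lf (nat_lit 0) (nat_lit 19236831583) (nat_lit 76) (nat_lit 34691863737) (nat_lit 76) (nat_lit 26168162084) (nat_lit 1) (nat_lit 4) (nat_lit 2) (nat_lit 5) (nat_lit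 2) (nat_lit 4) (nat_lit 228) (nat_lit 199) (nat_lit 173)) (XT.lf (nat_lit 0) (nat_lit 28784191846) (nat_lit 76) (nat_lit 35645997353) (nat_lit 76) (nat_lit 27092130648) (nat_lit 1) (nat_lit 4) (nat_lit 2) (nat_lit 5) (nat_lit 2) (nat_lit 4) (nat_lit 229) (nat_lit 199) (nat_lit 172)))) (XT.nd (nat_lit 156) (nat_lit 0) (nat_lit 0) (XT.nd (nat_lit 78) (nat_lit 0) (nat_lit 0) (XT.lf (nat_lit 0) (nat_lit 39722763129) (nat_lit 76) (nat_lit 36761275817) (nat_lit 76) (nat_lit 28181178632) (nat_lit 1) (nat_lit 4) (nat_lit 2) (nat_lit 5) (nat_lit 2) (nat_lit 4) (nat_lit 230) (nat_lit 199) (nat_lit 171)) (XT.lf (nat_lit 0) (nat_lit 52266560960) (nat_lit 76) (nat_lit 38059519796) (nat_lit 76) (nat_lit 29456613497) (nat_lit 1) (nat_lit 4) (nat_lit 2) (nat_lit 5) (nat_lit 2) (nat_lit 4) (nat_lit 231) (nat_lit 199) (nat_lit 170))) (XT.nd (nat_lit 78) (nat_lit 0) (nat_lit 0) (XT.lf (nat_lit 0) (nat_lit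 66661007468) (nat_lit 76) (nat_lit 39566129714) (nat_lit 76) (nat_lit 30943389403) (nat_lit 1) (nat_lit 4) (nat_lit 2) (nat_lit 5) (nat_lit 2) (nat_lit 4) (nat_lit 232) (nat_lit 199) (nat_lit 169)) (XT.lf (nat_lit 0) (nat_lit 83187733130) (nat_lit 76) (nat_lit 41310582723) (nat_lit 76) (nat_lit 32670595445) (nat_lit 1) (nat_lit 4) (nat_lit 2) (nat_lit 5) (nat_lit 2) (nat_lit 4) (nat_lit 233) (nat_lit 199) (nat_lit 168))))) (XT.nd (nat_lit 234) (nat_lit 0) (nat_lit 0) (XT.nd (nat_lit 78) (nat_lit 0) (nat_lit 0) (XT.lf (nat_lit 0) (nat_lit 102170086925) (nat_lit 76) (nat_lit 43327009424) (nat_lit 76) (nat_lit 34672024784) (nat_lit 1) (nat_lit 4) (nat_lit 2) (nat_lit 5) (nat_lit 2) (nat_lit 4) (nat_lit 234) (nat_lit 199) (nat_lit 167)) (XT.nd (nat_lit 78) (nat_lit 0) (nat_lit 0) (XT.lf (nat_lit 0) (nat_lit 123979462732) (nat_lit 76) (nat_lit 45654861645) (nat_lit 76) (nat_lit 36986835820)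 (nat_lit 1) (nat_lit 4) (nat_lit 2) (nat_lit 5) (nat_lit 2) (nat_lit 4) (nat_lit 235) (nat_lit 199) (nat_lit 166)) (XT.lf (nat_lit 0) (nat_lit 149042565731) (nat_lit 76) (nat_lit 48339684320) (nat_lit 76) (nat_lit 39660318335) (nat_lit 1) (nat_lit 4) (nat_lit 2) (nat_lit 5) (nat_lit 2) (nat_lit 4) (nat_lit 236) (nat_lit 199) (nat_lit 165)))) (XT.nd (nat_lit 156) (nat_lit 0) (nat_lit 0) (XT.nd (nat_lit 78) (nat_lit 0) (nat_lit 0) (XT.lf (nat_lit 0) (nat_lit 177849760979) (nat_lit 76) (nat_lit 51434006588) (nat_lit 76) (nat_lit 42744779594) (nat_lit 1) (nat_lit 4) (nat_lit 2) (nat_lit 5) (nat_lit 2) (nat_lit 4) (nat_lit 237) (nat_lit 199) (nat_lit 164)) (XT.lf (nat_lit 0) (nat_lit 210964667514) (nat_lit 76) (nat_lit 54998369538) (nat_lit 76) (nat_lit 46300567753) (nat_lit 1) (nat_lit 4) (nat_lit 2) (nat_lit 5) (nat_lit 2) (nat_lit 4) (nat_lit 238) (nat_lit 199) (nat_lit 163))) (XT.nd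 (nat_lit 78) (nat_lit 0) (nat_lit 0) (XT.lf (nat_lit 0) (nat_lit 249035185681) (nat_lit 76) (nat_lit 59102510705) (nat_lit 76) (nat_lit 50397252581) (nat_lit 1) (nat_lit 4) (nat_lit 2) (nat_lit 5) (nat_lit 2) (nat_lit 4) (nat_lit 239) (nat_lit 199) (nat_lit 162)) (XT.lf (nat_lit 0) (nat_lit 292806173445) (nat_lit 76) (nat_lit 63826728504) (nat_lit 76) (nat_lit 55114986606) (nat_lit 1) (nat_lit 4) (nat_lit 2) (nat_lit 5) (nat_lit 2) (nat_lit 4) (nat_lit 240) (nat_lit 199) (nat_lit 161))))))))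
noncomputable def xc24 : XT := (XT.nd (nat_lit 2028) (nat_lit 0) (nat_lit 0) (XT.nd (nat_lit 1014) (nat_lit 0) (nat_lit 0) (XT.nd (nat_lit 468) (nat_lit 0) (nat_lit 0) (XT.nd (nat_lit 234) (nat_lit 0) (nat_lit 0) (XT.nd (nat_lit 78) (nat_lit 0) (nat_lit 0) (XT.lf (nat_lit 0) (nat_lit 343134019697) (nat_lit 76) (nat_lit 69263453283) (nat_lit 76) (nat_lit 60546073321) (nat_lit 1) (nat_lit 4) (nat_lit 2) (nat_lit 5) (nat_lit 2) (nat_lit 4) (nat_lit 241) (nat_lit 199) (nat_lit 160)) (XT.nd (nat_lit 78) (nat_lit 0) (nat_lit 0) (XT.lf (nat_lit 0) (nat_lit 401003399688) (nat_lit 76) (nat_lit 75519055743) (nat_lit 76) (nat_lit 66796773117) (nat_lit 1) (nat_lit 4) (nat_lit 2) (nat_lit 5) (nat_lit 2) (nat_lit 4) (nat_lit 242) (nat_lit 199) (nat_lit 159)) (XT.lf (nat_lit 0) (nat_lit 467546540420) (nat_lit 76) (nat_lit 82715928108) (nat_lit 76) (nat_lit 73989382295) (nat_lit 1) (nat_lit 4) (nat_lit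 2) (nat_lit 5) (nat_lit 2) (nat_lit 4) (nat_lit 243) (nat_lit 199) (nat_lit 158)))) (XT.nd (nat_lit 78) (nat_lit 0) (nat_lit 0) (XT.lf (nat_lit 0) (nat_lit 544065372906) (nat_lit 76) (nat_lit 90994878748) (nat_lit 76) (nat_lit 82264625817) (nat_lit 1) (nat_lit 4) (nat_lit 2) (nat_lit 5) (nat_lit 2) (nat_lit 4) (nat_lit 244) (nat_lit 199) (nat_lit 157)) (XT.nd (nat_lit 78) (nat_lit 0) (nat_lit 0) (XT.lf (nat_lit 0) (nat_lit 632057004739) (nat_lit 76) (nat_lit 100517887134) (nat_lit 76) (nat_lit 91784410622) (nat_lit 1) (nat_lit 4) (nat_lit 2) (nat_lit 5) (nat_lit 2) (nat_lit 4) (nat_lit 245) (nat_lit 199) (nat_lit 156)) (XT.lf (nat_lit 0) (nat_lit 733243011324) (nat_lit 76) (nat_lit 111471272995) (nat_lit 76) (nat_lit 102734993368) (nat_lit 1) (nat_lit 4) (nat_lit 2) (nat_lit 5) (nat_lit 2) (nat_lit 4) (nat_lit 246) (nat_lit 199) (nat_lit 155))))) (XT.nd (nat_lit 234) (nat_lit 0)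 (nat_lit 0) (XT.nd (nat_lit 78) (nat_lit 0) (nat_lit 0) (XT.lf (nat_lit 0) (nat_lit 849603118877) (nat_lit 76) (nat_lit 124069341706) (nat_lit 76) (nat_lit 115330624588) (nat_lit 1) (nat_lit 4) (nat_lit 2) (nat_lit 5) (nat_lit 2) (nat_lit 4) (nat_lit 247) (nat_lit 199) (nat_lit 154)) (XT.nd (nat_lit 78) (nat_lit 0) (nat_lit 0) (XT.lf (nat_lit 0) (nat_lit 983413938197) (nat_lit 76) (nat_lit 138558577221) (nat_lit 76) (nat_lit 129817740546) (nat_lit 1) (nat_lit 4) (nat_lit 2) (nat_lit 5) (nat_lit 2) (nat_lit 4) (nat_lit 248) (nat_lit 199) (nat_lit 153)) (XT.lf (nat_lit 0) (nat_lit 1137293507055) (nat_lit 76) (nat_lit 155222464581) (nat_lit 76) (nat_lit 146479784813) (nat_lit 1) (nat_lit 4) (nat_lit 2) (nat_lit 5) (nat_lit 2) (nat_lit 4) (nat_lit 249) (nat_lit 199) (nat_lit 152)))) (XT.nd (nat_lit 156) (nat_lit 0) (nat_lit 0) (XT.nd (nat_lit 78) (nat_lit 0) (nat_lit 0) (XT.lf (nat_lit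 0) (nat_lit 1314252512666) (nat_lit 76) (nat_lit 174387036366) (nat_lit 76) (nat_lit 165642753908) (nat_lit 1) (nat_lit 4) (nat_lit 2) (nat_lit 5) (nat_lit 2) (nat_lit 4) (nat_lit 250) (nat_lit 199) (nat_lit 151)) (XT.lf (nat_lit 0) (nat_lit 1517753196445) (nat_lit 76) (nat_lit 196427251588) (nat_lit 76) (nat_lit 187681575488) (nat_lit 1) (nat_lit 4) (nat_lit 2) (nat_lit 5) (nat_lit 2) (nat_lit 4) (nat_lit 251) (nat_lit 199) (nat_lit 150))) (XT.nd (nat_lit 78) (nat_lit 0) (nat_lit 0) (XT.lf (nat_lit 0) (nat_lit 1751777093510) (nat_lit 76) (nat_lit 221774331851) (nat_lit 76) (nat_lit 213027443887) (nat_lit 1) (nat_lit 4) (nat_lit 2) (nat_lit 5) (nat_lit 2) (nat_lit 4) (nat_lit 252) (nat_lit 199) (nat_lit 149)) (XT.lf (nat_lit 0) (nat_lit 2020902932280) (nat_lit 76) (nat_lit 250924198290) (nat_lit 76) (nat_lit 242176256531) (nat_lit 1) (nat_lit 4) (nat_lit 2) (nat_lit 5) (nat_lit 2)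 (nat_lit 4) (nat_lit 253) (nat_lit 199) (nat_lit 148)))))) (XT.nd (nat_lit 468) (nat_lit 0) (nat_lit 0) (XT.nd (nat_lit 234) (nat_lit 0) (nat_lit 0) (XT.nd (nat_lit 78) (nat_lit 0) (nat_lit 0) (XT.lf (nat_lit 0) (nat_lit 2330396218298) (nat_lit 76) (nat_lit 284447174378) (nat_lit 76) (nat_lit 275698316276) (nat_lit 1) (nat_lit 4) (nat_lit 2) (nat_lit 5) (nat_lit 2) (nat_lit 4) (nat_lit 254) (nat_lit 199) (nat_lit 147)) (XT.nd (nat_lit 78) (nat_lit 0) (nat_lit 0) (XT.lf (nat_lit 0) (nat_lit 2686312254986) (nat_lit 76) (nat_lit 322999144430) (nat_lit 76) (nat_lit 314249489508) (nat_lit 1) (nat_lit 4) (nat_lit 2) (nat_lit 5) (nat_lit 2) (nat_lit 4) (nat_lit 255) (nat_lit 199) (nat_lit 146)) (XT.lf (nat_lit 0) (nat_lit 3095614616974) (nat_lit 76) (nat_lit 367334386122) (nat_lit 76) (nat_lit 358584038313) (nat_lit 1) (nat_lit 4) (nat_lit 2) (nat_lit 5) (nat_lit 2) (nat_lit 4) (nat_lit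 256) (nat_lit 199) (nat_lit 145)))) (XT.nd (nat_lit 78) (nat_lit 0) (nat_lit 0) (XT.lf (nat_lit 0) (nat_lit 3566311393953) (nat_lit 76) (nat_lit 418320328094) (nat_lit 76) (nat_lit 409569377775) (nat_lit 1) (nat_lit 4) (nat_lit 2) (nat_lit 5) (nat_lit 2) (nat_lit 4) (nat_lit 257) (nat_lit 199) (nat_lit 144)) (XT.nd (nat_lit 78) (nat_lit 0) (nat_lit 0) (XT.lf (nat_lit 0) (nat_lit 4107611870691) (nat_lit 76) (nat_lit 476954521386) (nat_lit 76) (nat_lit 468203047144) (nat_lit 1) (nat_lit 4) (nat_lit 2) (nat_lit 5) (nat_lit 2) (nat_lit 4) (nat_lit 258) (nat_lit 199) (nat_lit 143)) (XT.lf (nat_lit 0) (nat_lit 4730106708688) (nat_lit 76) (nat_lit 544384156736) (nat_lit 76) (nat_lit 535632226910) (nat_lit 1) (nat_lit 4) (nat_lit 2) (nat_lit 5) (nat_lit 2) (nat_lit 4) (nat_lit 259) (nat_lit 199) (nat_lit 142))))) (XT.nd (nat_lit 234) (nat_lit 0) (nat_lit 0) (XT.nd (nat_lit 78) (nat_lit 0)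 (nat_lit 0) (XT.lf (nat_lit 0) (nat_lit 5445975154775) (nat_lit 76) (nat_lit 621928509618) (nat_lit 76) (nat_lit 613176183631) (nat_lit 1) (nat_lit 4) (nat_lit 2) (nat_lit 5) (nat_lit 2) (nat_lit 4) (nat_lit 260) (nat_lit 199) (nat_lit 141)) (XT.nd (nat_lit 78) (nat_lit 0) (nat_lit 0) (XT.lf (nat_lit 0) (nat_lit 6269223330724) (nat_lit 76) (nat_lit 711104752153) (nat_lit 76) (nat_lit 702352081680) (nat_lit 1) (nat_lit 4) (nat_lit 2) (nat_lit 5) (nat_lit 2) (nat_lit 4) (nat_lit 261) (nat_lit 199) (nat_lit 140)) (XT.lf (nat_lit 0) (nat_lit 7215958266064) (nat_lit 76) (nat_lit 813657636914) (nat_lit 76) (nat_lit 804904666886) (nat_lit 1) (nat_lit 4) (nat_lit 2) (nat_lit 5) (nat_lit 2) (nat_lit 4) (nat_lit 262) (nat_lit 199) (nat_lit 139)))) (XT.nd (nat_lit 156) (nat_lit 0) (nat_lit 0) (XT.nd (nat_lit 78) (nat_lit 0) (nat_lit 0) (XT.lf (nat_lit 0) (nat_lit 8304703035616) (nat_lit 76)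 (nat_lit 931593633384) (nat_lit 76) (nat_lit 922840402874) (nat_lit 1) (nat_lit 4) (nat_lit 2) (nat_lit 5) (nat_lit 2) (nat_lit 4) (nat_lit 263) (nat_lit 199) (nat_lit 138)) (XT.lf (nat_lit 0) (nat_lit 9556759167481) (nat_lit 76) (nat_lit 1067220184973) (nat_lit 76) (nat_lit 1058466727957) (nat_lit 1) (nat_lit 4) (nat_lit 2) (nat_lit 5) (nat_lit 2) (nat_lit 4) (nat_lit 264) (nat_lit 199) (nat_lit 137))) (XT.nd (nat_lit 78) (nat_lit 0) (nat_lit 0) (XT.lf (nat_lit 0) (nat_lit 10996623412064) (nat_lit 76) (nat_lit 1223190854646) (nat_lit 76) (nat_lit 1214437200669) (nat_lit 1) (nat_lit 4) (nat_lit 2) (nat_lit 5) (nat_lit 2) (nat_lit 4) (nat_lit 265) (nat_lit 199) (nat_lit 136)) (XT.lf (nat_lit 0) (nat_lit 12652467026326) (nat_lit 76) (nat_lit 1402557242463) (nat_lit 76) (nat_lit 1393803417215) (nat_lit 1) (nat_lit 4) (nat_lit 2) (nat_lit 5) (nat_lit 2) (nat_lit 4) (nat_lit 266) (nat_lit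 199) (nat_lit 135))))))) (XT.nd (nat_lit 26676) (nat_lit 0) (nat_lit 76) (XT.nd (nat_lit 26130) (nat_lit 0) (nat_lit 684) (XT.nd (nat_lit 546) (nat_lit 0) (nat_lit 0) (XT.nd (nat_lit 390) (nat_lit 0) (nat_lit 0) (XT.lf (nat_lit 0) (nat_lit 14556686950544) (nat_lit 76) (nat_lit 1608828690793) (nat_lit 76) (nat_lit 1600074716614) (nat_lit 1) (nat_lit 4) (nat_lit 2) (nat_lit 5) (nat_lit 2) (nat_lit 4) (nat_lit 267) (nat_lit 199) (nat_lit 134)) (XT.nd (nat_lit 78) (nat_lit 0) (nat_lit 0) (XT.lf (nat_lit 0) (nat_lit 29321507001512) (nat_lit 76) (nat_lit 3208204945058) (nat_lit 76) (nat_lit 3199450471637) (nat_lit 1) (nat_lit 4) (nat_lit 2) (nat_lit 5) (nat_lit 2) (nat_lit 4) (nat_lit 272) (nat_lit 199) (nat_lit 129)) (XT.lf (nat_lit 0) (nat_lit 33726082043319) (nat_lit 76) (nat_lit 3685323936086) (nat_lit 76) (nat_lit 3676569398278) (nat_lit 1) (nat_lit 4) (nat_lit 2) (nat_lit 5) (nat_lit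 2) (nat_lit 4) (nat_lit 273) (nat_lit 199) (nat_lit 128)))) (XT.nd (nat_lit 78) (nat_lit 0) (nat_lit 0) (XT.lf (nat_lit 0) (nat_lit 38791343254110) (nat_lit 76) (nat_lit 4234010814242) (nat_lit 76) (nat_lit 4225256220445) (nat_lit 1) (nat_lit 4) (nat_lit 2) (nat_lit 5) (nat_lit 2) (nat_lit 4) (nat_lit 274) (nat_lit 199) (nat_lit 127)) (XT.nd (nat_lit 25428) (nat_lit 0) (nat_lit 1368) (XT.lf (nat_lit 0) (nat_lit 44616393570620) (nat_lit 76) (nat_lit 4865000757577) (nat_lit 76) (nat_lit 4856246115095) (nat_lit 1) (nat_lit 4) (nat_lit 2) (nat_lit 5) (nat_lit 2) (nat_lit 4) (nat_lit 275) (nat_lit 199) (nat_lit 126)) (XT.lf (nat_lit 0) (nat_lit 1073741823) (nat_lit 0) (nat_lit 0) (nat_lit 0) (nat_lit 0) (nat_lit 19) (nat_lit 0) (nat_lit 1) (nat_lit 0) (nat_lit 1) (nat_lit 0) (nat_lit 200) (nat_lit 200) (nat_lit 200))))) (XT.nd (nat_lit 234) (nat_lit 456) (nat_lit 0) (XT.nd (nat_lit 78)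 (nat_lit 152) (nat_lit 0) (XT.lf (nat_lit 0) (nat_lit 2532029943) (nat_lit 76) (nat_lit 3699233990) (nat_lit 0) (nat_lit 235156128) (nat_lit 18) (nat_lit 5) (nat_lit 19) (nat_lit 0) (nat_lit 18) (nat_lit 4) (nat_lit 201) (nat_lit 200) (nat_lit 199)) (XT.nd (nat_lit 78) (nat_lit 152) (nat_lit 0) (XT.lf (nat_lit 0) (nat_lit 5004224659) (nat_lit 76) (nat_lit 859775872) (nat_lit 0) (nat_lit 710069266) (nat_lit 18) (nat_lit 5) (nat_lit 19) (nat_lit 0) (nat_lit 18) (nat_lit 4) (nat_lit 202) (nat_lit 200) (nat_lit 198)) (XT.lf (nat_lit 0) (nat_lit 736854245) (nat_lit 152) (nat_lit 4446685355) (nat_lit 76) (nat_lit 1564409932) (nat_lit 16) (nat_lit 5) (nat_lit 18) (nat_lit 5) (nat_lit 17) (nat_lit 4) (nat_lit 203) (nat_lit 200) (nat_lit 197)))) (XT.nd (nat_lit 156) (nat_lit 304) (nat_lit 0) (XT.nd (nat_lit 78) (nat_lit 152) (nat_lit 0) (XT.lf (nat_lit 0) (nat_lit 2906568069) (nat_lit 152)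 (nat_lit 1292032450) (nat_lit 76) (nat_lit 2795734575) (nat_lit 16) (nat_lit 5) (nat_lit 18) (nat_lit 5) (nat_lit 17) (nat_lit 4) (nat_lit 204) (nat_lit 200) (nat_lit 196)) (XT.lf (nat_lit 0) (nat_lit 2270993305) (nat_lit 152) (nat_lit 2903607700) (nat_lit 228) (nat_lit 2145232366) (nat_lit 14) (nat_lit 5) (nat_lit 16) (nat_lit 5) (nat_lit 17) (nat_lit 4) (nat_lit 205) (nat_lit 200) (nat_lit 195))) (XT.nd (nat_lit 78) (nat_lit 304) (nat_lit 0) (XT.lf (nat_lit 0) (nat_lit 6258811716) (nat_lit 152) (nat_lit 1301729120) (nat_lit 228) (nat_lit 173989989) (nat_lit 14) (nat_lit 5) (nat_lit 16) (nat_lit 5) (nat_lit 17) (nat_lit 4) (nat_lit 206) (nat_lit 200) (nat_lit 194)) (XT.lf (nat_lit 0) (nat_lit 1773400284) (nat_lit 304) (nat_lit 5743148534) (nat_lit 76) (nat_lit 707181529) (nat_lit 10) (nat_lit 5) (nat_lit 14) (nat_lit 5) (nat_lit 11) (nat_lit 4) (nat_lit 207) (nat_lit 200) (nat_lit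 193)))))) (XT.nd (nat_lit 546) (nat_lit 228) (nat_lit 0) (XT.nd (nat_lit 234) (nat_lit 304) (nat_lit 0) (XT.nd (nat_lit 78) (nat_lit 76) (nat_lit 0) (XT.lf (nat_lit 0) (nat_lit 3893549382) (nat_lit 304) (nat_lit 1935680097) (nat_lit 76) (nat_lit 2975690161) (nat_lit 10) (nat_lit 5) (nat_lit 14) (nat_lit 5) (nat_lit 11) (nat_lit 4) (nat_lit 208) (nat_lit 200) (nat_lit 192)) (XT.nd (nat_lit 78) (nat_lit 0) (nat_lit 0) (XT.lf (nat_lit 0) (nat_lit 2411344762) (nat_lit 76) (nat_lit 3807757992) (nat_lit 152) (nat_lit 3275096556) (nat_lit 9) (nat_lit 5) (nat_lit 10) (nat_lit 5) (nat_lit 11) (nat_lit 4) (nat_lit 209) (nat_lit 200) (nat_lit 191)) (XT.lf (nat_lit 0) (nat_lit 7392921626) (nat_lit 76) (nat_lit 1407264357) (nat_lit 152) (nat_lit 1504175436) (nat_lit 9) (nat_lit 5) (nat_lit 10) (nat_lit 5) (nat_lit 11) (nat_lit 4) (nat_lit 210) (nat_lit 200) (nat_lit 190)))) (XT.nd (nat_lit 156)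 (nat_lit 76) (nat_lit 0) (XT.nd (nat_lit 78) (nat_lit 0) (nat_lit 0) (XT.lf (nat_lit 0) (nat_lit 438333042) (nat_lit 228) (nat_lit 9510780219) (nat_lit 76) (nat_lit 1293268734) (nat_lit 6) (nat_lit 5) (nat_lit 9) (nat_lit 5) (nat_lit 7) (nat_lit 4) (nat_lit 211) (nat_lit 200) (nat_lit 189)) (XT.lf (nat_lit 0) (nat_lit 2577288021) (nat_lit 228) (nat_lit 5285333221) (nat_lit 76) (nat_lit 4441177964) (nat_lit 6) (nat_lit 5) (nat_lit 9) (nat_lit 5) (nat_lit 7) (nat_lit 4) (nat_lit 212) (nat_lit 200) (nat_lit 188))) (XT.nd (nat_lit 78) (nat_lit 76) (nat_lit 0) (XT.lf (nat_lit 0) (nat_lit 4891538914) (nat_lit 228) (nat_lit 634307895) (nat_lit 76) (nat_lit 8022412577) (nat_lit 6) (nat_lit 5) (nat_lit 9) (nat_lit 5) (nat_lit 7) (nat_lit 4) (nat_lit 213) (nat_lit 200) (nat_lit 187)) (XT.lf (nat_lit 0) (nat_lit 4976320545) (nat_lit 76) (nat_lit 2656102818) (nat_lit 152) (nat_lit 7336778483)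 (nat_lit 5) (nat_lit 5) (nat_lit 6) (nat_lit 5) (nat_lit 7) (nat_lit 4) (nat_lit 214) (nat_lit 200) (nat_lit 186))))) (XT.nd (nat_lit 234) (nat_lit 152) (nat_lit 0) (XT.nd (nat_lit 78) (nat_lit 76) (nat_lit 0) (XT.lf (nat_lit 0) (nat_lit 10726331712) (nat_lit 152) (nat_lit 5316366584) (nat_lit 0) (nat_lit 570814687) (nat_lit 5) (nat_lit 5) (nat_lit 7) (nat_lit 4) (nat_lit 5) (nat_lit 4) (nat_lit 215) (nat_lit 200) (nat_lit 185)) (XT.nd (nat_lit 78) (nat_lit 76) (nat_lit 0) (XT.lf (nat_lit 0) (nat_lit 14306880790) (nat_lit 152) (nat_lit 229756129) (nat_lit 0) (nat_lit 3965764604) (nat_lit 5) (nat_lit 5) (nat_lit 7) (nat_lit 4) (nat_lit 5) (nat_lit 4) (nat_lit 216) (nat_lit 200) (nat_lit 184)) (XT.lf (nat_lit 0) (nat_lit 6011653192) (nat_lit 76) (nat_lit 12571417813) (nat_lit 76) (nat_lit 2068911051) (nat_lit 4) (nat_lit 4) (nat_lit 5) (nat_lit 5) (nat_lit 5) (nat_lit 4) (nat_lit 217)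 (nat_lit 200) (nat_lit 183)))) (XT.nd (nat_lit 156) (nat_lit 76) (nat_lit 0) (XT.nd (nat_lit 78) (nat_lit 0) (nat_lit 0) (XT.lf (nat_lit 0) (nat_lit 266568299) (nat_lit 152) (nat_lit 10069724549) (nat_lit 76) (nat_lit 12797718981) (nat_lit 3) (nat_lit 5) (nat_lit 5) (nat_lit 5) (nat_lit 4) (nat_lit 4) (nat_lit 218) (nat_lit 200) (nat_lit 182)) (XT.lf (nat_lit 0) (nat_lit 2663014980) (nat_lit 152) (nat_lit 5039398644) (nat_lit 76) (nat_lit 18283536359) (nat_lit 3) (nat_lit 5) (nat_lit 5) (nat_lit 5) (nat_lit 4) (nat_lit 4) (nat_lit 219) (nat_lit 200) (nat_lit 181))) (XT.nd (nat_lit 78) (nat_lit 0) (nat_lit 0) (XT.lf (nat_lit 0) (nat_lit 696768623) (nat_lit 76) (nat_lit 4683587841) (nat_lit 152) (nat_lit 23891761472) (nat_lit 2) (nat_lit 5) (nat_lit 3) (nat_lit 5) (nat_lit 4) (nat_lit 4) (nat_lit 220) (nat_lit 200) (nat_lit 180)) (XT.lf (nat_lit 0) (nat_lit 7754015565) (nat_lit 76)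 (nat_lit 951700215) (nat_lit 152) (nat_lit 24316000849) (nat_lit 2) (nat_lit 5) (nat_lit 3) (nat_lit 5) (nat_lit 4) (nat_lit 4) (nat_lit 221) (nat_lit 200) (nat_lit 179))))))))
noncomputable def xc25 : XT := (XT.nd (nat_lit 2106) (nat_lit 0) (nat_lit 0) (XT.nd (nat_lit 1014) (nat_lit 0) (nat_lit 0) (XT.nd (nat_lit 468) (nat_lit 0) (nat_lit 0) (XT.nd (nat_lit 234) (nat_lit 76) (nat_lit 0) (XT.nd (nat_lit 78) (nat_lit 0) (nat_lit 0) (XT.lf (nat_lit 0) (nat_lit 12611854344) (nat_lit 152) (nat_lit 21701298862) (nat_lit 0) (nat_lit 3008799560) (nat_lit 2) (nat_lit 5) (nat_lit 4) (nat_lit 4) (nat_lit 2) (nat_lit 4) (nat_lit 222) (nat_lit 200) (nat_lit 178)) (XT.nd (nat_lit 78) (nat_lit 0) (nat_lit 0) (XT.lf (nat_lit 0) (nat_lit 17100253877) (nat_lit 152) (nat_lit 17731422543) (nat_lit 0) (nat_lit 7436526397) (nat_lit 2) (nat_lit 5) (nat_lit 4) (nat_lit 4) (nat_lit 2) (nat_lit 4) (nat_lit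 223) (nat_lit 200) (nat_lit 177)) (XT.lf (nat_lit 0) (nat_lit 22219323013) (nat_lit 152) (nat_lit 13240992735) (nat_lit 0) (nat_lit 12502836669) (nat_lit 2) (nat_lit 5) (nat_lit 4) (nat_lit 4) (nat_lit 2) (nat_lit 4) (nat_lit 224) (nat_lit 200) (nat_lit 176)))) (XT.nd (nat_lit 78) (nat_lit 76) (nat_lit 0) (XT.lf (nat_lit 0) (nat_lit 28069217454) (nat_lit 152) (nat_lit 8142153205) (nat_lit 0) (nat_lit 18306853836) (nat_lit 2) (nat_lit 5) (nat_lit 4) (nat_lit 4) (nat_lit 2) (nat_lit 4) (nat_lit 225) (nat_lit 200) (nat_lit 175)) (XT.nd (nat_lit 78) (nat_lit 76) (nat_lit 0) (XT.lf (nat_lit 0) (nat_lit 34764391657) (nat_lit 152) (nat_lit 2335144048) (nat_lit 0) (nat_lit 24962134756) (nat_lit 2) (nat_lit 5) (nat_lit 4) (nat_lit 4) (nat_lit 2) (nat_lit 4) (nat_lit 226) (nat_lit 200) (nat_lit 174)) (XT.lf (nat_lit 0) (nat_lit 4713256849) (nat_lit 76) (nat_lit 37917747225) (nat_lit 76) (nat_lit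 28080800514) (nat_lit 1) (nat_lit 4) (nat_lit 2) (nat_lit 5) (nat_lit 2) (nat_lit 4) (nat_lit 227) (nat_lit 200) (nat_lit 173))))) (XT.nd (nat_lit 234) (nat_lit 0) (nat_lit 0) (XT.nd (nat_lit 78) (nat_lit 0) (nat_lit 0) (XT.lf (nat_lit 0) (nat_lit 13034329259) (nat_lit 76) (nat_lit 38739044999) (nat_lit 76) (nat_lit 28871933235) (nat_lit 1) (nat_lit 4) (nat_lit 2) (nat_lit 5) (nat_lit 2) (nat_lit 4) (nat_lit 228) (nat_lit 200) (nat_lit 172)) (XT.nd (nat_lit 78) (nat_lit 0) (nat_lit 0) (XT.lf (nat_lit 0) (nat_lit 22562669513) (nat_lit 76) (nat_lit 39701562246) (nat_lit 76) (nat_lit 29808220002) (nat_lit 1) (nat_lit 4) (nat_lit 2) (nat_lit 5) (nat_lit 2) (nat_lit 4) (nat_lit 229) (nat_lit 200) (nat_lit 171)) (XT.lf (nat_lit 0) (nat_lit 33484701660) (nat_lit 76) (nat_lit 40824130824) (nat_lit 76) (nat_lit 30907979466) (nat_lit 1) (nat_lit 4) (nat_lit 2) (nat_lit 5) (nat_lit 2) (nat_lit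 4) (nat_lit 230) (nat_lit 200) (nat_lit 170)))) (XT.nd (nat_lit 156) (nat_lit 0) (nat_lit 0) (XT.nd (nat_lit 78) (nat_lit 0) (nat_lit 0) (XT.lf (nat_lit 0) (nat_lit 46014117631) (nat_lit 76) (nat_lit 42128714031) (nat_lit 76) (nat_lit 32192728662) (nat_lit 1) (nat_lit 4) (nat_lit 2) (nat_lit 5) (nat_lit 2) (nat_lit 4) (nat_lit 231) (nat_lit 200) (nat_lit 169)) (XT.lf (nat_lit 0) (nat_lit 60396058175) (nat_lit 76) (nat_lit 43640836323) (nat_lit 76) (nat_lit 33687603987) (nat_lit 1) (nat_lit 4) (nat_lit 2) (nat_lit 5) (nat_lit 2) (nat_lit 4) (nat_lit 232) (nat_lit 200) (nat_lit 168))) (XT.nd (nat_lit 78) (nat_lit 0) (nat_lit 0) (XT.lf (nat_lit 0) (nat_lit 76911909086) (nat_lit 76) (nat_lit 45390082700) (nat_lit 76) (nat_lit 35421853001) (nat_lit 1) (nat_lit 4) (nat_lit 2) (nat_lit 5) (nat_lit 2) (nat_lit 4) (nat_lit 233) (nat_lit 200) (nat_lit 167)) (XT.lf (nat_lit 0) (nat_lit 95884806575)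 (nat_lit 76) (nat_lit 47410677547) (nat_lit 76) (nat_lit 37429406664) (nat_lit 1) (nat_lit 4) (nat_lit 2) (nat_lit 5) (nat_lit 2) (nat_lit 4) (nat_lit 234) (nat_lit 200) (nat_lit 166)))))) (XT.nd (nat_lit 546) (nat_lit 0) (nat_lit 0) (XT.nd (nat_lit 234) (nat_lit 0) (nat_lit 0) (XT.nd (nat_lit 78) (nat_lit 0) (nat_lit 0) (XT.lf (nat_lit 0) (nat_lit 117685959508) (nat_lit 76) (nat_lit 49742154243) (nat_lit 76) (nat_lit 39749543199) (nat_lit 1) (nat_lit 4) (nat_lit 2) (nat_lit 5) (nat_lit 2) (nat_lit 4) (nat_lit 235) (nat_lit 200) (nat_lit 165)) (XT.nd (nat_lit 78) (nat_lit 0) (nat_lit 0) (XT.lf (nat_lit 0) (nat_lit 142741912181) (nat_lit 76) (nat_lit 52430128635) (nat_lit 76) (nat_lit 42427656583) (nat_lit 1) (nat_lit 4) (nat_lit 2) (nat_lit 5) (nat_lit 2) (nat_lit 4) (nat_lit 236) (nat_lit 200) (nat_lit 164)) (XT.lf (nat_lit 0) (nat_lit 171542889754) (nat_lit 76) (nat_lit 55527191527)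 (nat_lit 76) (nat_lit 45516144684) (nat_lit 1) (nat_lit 4) (nat_lit 2) (nat_lit 5) (nat_lit 2) (nat_lit 4) (nat_lit 237) (nat_lit 200) (nat_lit 163)))) (XT.nd (nat_lit 156) (nat_lit 0) (nat_lit 0) (XT.nd (nat_lit 78) (nat_lit 0) (nat_lit 0) (XT.lf (nat_lit 0) (nat_lit 204652389616) (nat_lit 76) (nat_lit 59093937628) (nat_lit 76) (nat_lit 49075434446) (nat_lit 1) (nat_lit 4) (nat_lit 2) (nat_lit 5) (nat_lit 2) (nat_lit 4) (nat_lit 238) (nat_lit 200) (nat_lit 162)) (XT.lf (nat_lit 0) (nat_lit 242718206328) (nat_lit 76) (nat_lit 63200151101) (nat_lit 76) (nat_lit 53175164145) (nat_lit 1) (nat_lit 4) (nat_lit 2) (nat_lit 5) (nat_lit 2) (nat_lit 4) (nat_lit 239) (nat_lit 200) (nat_lit 161))) (XT.nd (nat_lit 78) (nat_lit 0) (nat_lit 0) (XT.lf (nat_lit 0) (nat_lit 286485105870) (nat_lit 76) (nat_lit 67926170904) (nat_lit 76) (nat_lit 57895545884) (nat_lit 1) (nat_lit 4) (nat_lit 2) (nat_lit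 5) (nat_lit 2) (nat_lit 4) (nat_lit 240) (nat_lit 200) (nat_lit 160)) (XT.lf (nat_lit 0) (nat_lit 336809397146) (nat_lit 76) (nat_lit 73364462643) (nat_lit 76) (nat_lit 63328934959) (nat_lit 1) (nat_lit 4) (nat_lit 2) (nat_lit 5) (nat_lit 2) (nat_lit 4) (nat_lit 241) (nat_lit 200) (nat_lit 159))))) (XT.nd (nat_lit 234) (nat_lit 0) (nat_lit 0) (XT.nd (nat_lit 78) (nat_lit 0) (nat_lit 0) (XT.lf (nat_lit 0) (nat_lit 394675685855) (nat_lit 76) (nat_lit 79621427678) (nat_lit 76) (nat_lit 69581636807) (nat_lit 1) (nat_lit 4) (nat_lit 2) (nat_lit 5) (nat_lit 2) (nat_lit 4) (nat_lit 242) (nat_lit 200) (nat_lit 158)) (XT.nd (nat_lit 78) (nat_lit 0) (nat_lit 0) (XT.lf (nat_lit 0) (nat_lit 461216138514) (nat_lit 76) (nat_lit 86819484890) (nat_lit 76) (nat_lit 76775986900) (nat_lit 1) (nat_lit 4) (nat_lit 2) (nat_lit 5) (nat_lit 2) (nat_lit 4) (nat_lit 243) (nat_lit 200) (nat_lit 157)) (XT.lf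 (nat_lit 0) (nat_lit 537732633546) (nat_lit 76) (nat_lit 95099465833) (nat_lit 76) (nat_lit 85052744262) (nat_lit 1) (nat_lit 4) (nat_lit 2) (nat_lit 5) (nat_lit 2) (nat_lit 4) (nat_lit 244) (nat_lit 200) (nat_lit 156)))) (XT.nd (nat_lit 156) (nat_lit 0) (nat_lit 0) (XT.nd (nat_lit 78) (nat_lit 0) (nat_lit 0) (XT.lf (nat_lit 0) (nat_lit 625722232810) (nat_lit 76) (nat_lit 104623370134) (nat_lit 76) (nat_lit 94573845448) (nat_lit 1) (nat_lit 4) (nat_lit 2) (nat_lit 5) (nat_lit 2) (nat_lit 4) (nat_lit 245) (nat_lit 200) (nat_lit 155)) (XT.lf (nat_lit 0) (nat_lit 726906471944) (nat_lit 76) (nat_lit 115577535051) (nat_lit 76) (nat_lit 105525572875) (nat_lit 1) (nat_lit 4) (nat_lit 2) (nat_lit 5) (nat_lit 2) (nat_lit 4) (nat_lit 246) (nat_lit 200) (nat_lit 154))) (XT.nd (nat_lit 78) (nat_lit 0) (nat_lit 0) (XT.lf (nat_lit 0) (nat_lit 843265042583) (nat_lit 76) (nat_lit 128176281202) (nat_lit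 76) (nat_lit 118122199469) (nat_lit 1) (nat_lit 4) (nat_lit 2) (nat_lit 5) (nat_lit 2) (nat_lit 4) (nat_lit 247) (nat_lit 200) (nat_lit 153)) (XT.lf (nat_lit 0) (nat_lit 977074525456) (nat_lit 76) (nat_lit 142666105795) (nat_lit 76) (nat_lit 132610180969) (nat_lit 1) (nat_lit 4) (nat_lit 2) (nat_lit 5) (nat_lit 2) (nat_lit 4) (nat_lit 248) (nat_lit 200) (nat_lit 152))))))) (XT.nd (nat_lit 1014) (nat_lit 0) (nat_lit 0) (XT.nd (nat_lit 468) (nat_lit 0) (nat_lit 0) (XT.nd (nat_lit 234) (nat_lit 0) (nat_lit 0) (XT.nd (nat_lit 78) (nat_lit 0) (nat_lit 0) (XT.lf (nat_lit 0) (nat_lit 1130952932186) (nat_lit 76) (nat_lit 159330505397) (nat_lit 76) (nat_lit 149272977881) (nat_lit 1) (nat_lit 4) (nat_lit 2) (nat_lit 5) (nat_lit 2) (nat_lit 4) (nat_lit 249) (nat_lit 200) (nat_lit 151)) (XT.nd (nat_lit 78) (nat_lit 0) (nat_lit 0) (XT.lf (nat_lit 0) (nat_lit 1307910927251) (nat_lit 76) (nat_lit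 178495522610) (nat_lit 76) (nat_lit 168436601451) (nat_lit 1) (nat_lit 4) (nat_lit 2) (nat_lit 5) (nat_lit 2) (nat_lit 4) (nat_lit 250) (nat_lit 200) (nat_lit 150)) (XT.lf (nat_lit 0) (nat_lit 1511410732295) (nat_lit 76) (nat_lit 200536125162) (nat_lit 76) (nat_lit 190475992139) (nat_lit 1) (nat_lit 4) (nat_lit 2) (nat_lit 5) (nat_lit 2) (nat_lit 4) (nat_lit 251) (nat_lit 200) (nat_lit 149)))) (XT.nd (nat_lit 78) (nat_lit 0) (nat_lit 0) (XT.lf (nat_lit 0) (nat_lit 1745433865241) (nat_lit 76) (nat_lit 225883542232) (nat_lit 76) (nat_lit 215822355415) (nat_lit 1) (nat_lit 4) (nat_lit 2) (nat_lit 5) (nat_lit 2) (nat_lit 4) (nat_lit 252) (nat_lit 200) (nat_lit 148)) (XT.nd (nat_lit 78) (nat_lit 0) (nat_lit 0) (XT.lf (nat_lit 0) (nat_lit 2014559039562) (nat_lit 76) (nat_lit 255033701547) (nat_lit 76) (nat_lit 244971598386) (nat_lit 1) (nat_lit 4) (nat_lit 2) (nat_lit 5) (nat_lit 2) (nat_lit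 4) (nat_lit 253) (nat_lit 200) (nat_lit 147)) (XT.lf (nat_lit 0) (nat_lit 2324051747797) (nat_lit 76) (nat_lit 288556932310) (nat_lit 76) (nat_lit 278494032329) (nat_lit 1) (nat_lit 4) (nat_lit 2) (nat_lit 5) (nat_lit 2) (nat_lit 4) (nat_lit 254) (nat_lit 200) (nat_lit 146))))) (XT.nd (nat_lit 234) (nat_lit 0) (nat_lit 0) (XT.nd (nat_lit 78) (nat_lit 0) (nat_lit 0) (XT.lf (nat_lit 0) (nat_lit 2679967282065) (nat_lit 76) (nat_lit 327109123818) (nat_lit 76) (nat_lit 317045530951) (nat_lit 1) (nat_lit 4) (nat_lit 2) (nat_lit 5) (nat_lit 2) (nat_lit 4) (nat_lit 255) (nat_lit 200) (nat_lit 145)) (XT.nd (nat_lit 78) (nat_lit 0) (nat_lit 0) (XT.lf (nat_lit 0) (nat_lit 3089269207166) (nat_lit 76) (nat_lit 371444558081) (nat_lit 76) (nat_lit 361380362703) (nat_lit 1) (nat_lit 4) (nat_lit 2) (nat_lit 5) (nat_lit 2) (nat_lit 4) (nat_lit 256) (nat_lit 200) (nat_lit 144)) (XT.lf (nat_lit 0) (nat_lit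 3559965604243) (nat_lit 76) (nat_lit 422430667506) (nat_lit 76) (nat_lit 412365948206) (nat_lit 1) (nat_lit 4) (nat_lit 2) (nat_lit 5) (nat_lit 2) (nat_lit 4) (nat_lit 257) (nat_lit 200) (nat_lit 143)))) (XT.nd (nat_lit 156) (nat_lit 0) (nat_lit 0) (XT.nd (nat_lit 78) (nat_lit 0) (nat_lit 0) (XT.lf (nat_lit 0) (nat_lit 4101265750631) (nat_lit 76) (nat_lit 481065006409) (nat_lit 76) (nat_lit 470999831525) (nat_lit 1) (nat_lit 4) (nat_lit 2) (nat_lit 5) (nat_lit 2) (nat_lit 4) (nat_lit 258) (nat_lit 200) (nat_lit 142)) (XT.lf (nat_lit 0) (nat_lit 4723760301368) (nat_lit 76) (nat_lit 548494768377) (nat_lit 76) (nat_lit 538429197333) (nat_lit 1) (nat_lit 4) (nat_lit 2) (nat_lit 5) (nat_lit 2) (nat_lit 4) (nat_lit 259) (nat_lit 200) (nat_lit 141))) (XT.nd (nat_lit 78) (nat_lit 0) (nat_lit 0) (XT.lf (nat_lit 0) (nat_lit 5439628497664) (nat_lit 76) (nat_lit 626039231362) (nat_lit 76) (nat_lit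 615973315830) (nat_lit 1) (nat_lit 4) (nat_lit 2) (nat_lit 5) (nat_lit 2) (nat_lit 4) (nat_lit 260) (nat_lit 200) (nat_lit 140)) (XT.lf (nat_lit 0) (nat_lit 6262876456403) (nat_lit 76) (nat_lit 715215569639) (nat_lit 76) (nat_lit 705149354553) (nat_lit 1) (nat_lit 4) (nat_lit 2) (nat_lit 5) (nat_lit 2) (nat_lit 4) (nat_lit 261) (nat_lit 200) (nat_lit 139)))))) (XT.nd (nat_lit 858) (nat_lit 0) (nat_lit 0) (XT.nd (nat_lit 234) (nat_lit 0) (nat_lit 0) (XT.nd (nat_lit 78) (nat_lit 0) (nat_lit 0) (XT.lf (nat_lit 0) (nat_lit 7209611202864) (nat_lit 76) (nat_lit 817768537654) (nat_lit 76) (nat_lit 807702062086) (nat_lit 1) (nat_lit 4) (nat_lit 2) (nat_lit 5) (nat_lit 2) (nat_lit 4) (nat_lit 262) (nat_lit 200) (nat_lit 138)) (XT.nd (nat_lit 78) (nat_lit 0) (nat_lit 0) (XT.lf (nat_lit 0) (nat_lit 8298355808175) (nat_lit 76) (nat_lit 935704606518) (nat_lit 76) (nat_lit 925637904444) (nat_lit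 1) (nat_lit 4) (nat_lit 2) (nat_lit 5) (nat_lit 2) (nat_lit 4) (nat_lit 263) (nat_lit 200) (nat_lit 137)) (XT.lf (nat_lit 0) (nat_lit 9550411797221) (nat_lit 76) (nat_lit 1071331221059) (nat_lit 76) (nat_lit 1061264322023) (nat_lit 1) (nat_lit 4) (nat_lit 2) (nat_lit 5) (nat_lit 2) (nat_lit 4) (nat_lit 264) (nat_lit 200) (nat_lit 136)))) (XT.nd (nat_lit 468) (nat_lit 0) (nat_lit 0) (XT.nd (nat_lit 78) (nat_lit 0) (nat_lit 0) (XT.lf (nat_lit 0) (nat_lit 10990275917614) (nat_lit 76) (nat_lit 1227301945473) (nat_lit 76) (nat_lit 1217234875166) (nat_lit 1) (nat_lit 4) (nat_lit 2) (nat_lit 5) (nat_lit 2) (nat_lit 4) (nat_lit 265) (nat_lit 200) (nat_lit 135)) (XT.lf (nat_lit 0) (nat_lit 12646119423883) (nat_lit 76) (nat_lit 1406668380890) (nat_lit 76) (nat_lit 1396601161652) (nat_lit 1) (nat_lit 4) (nat_lit 2) (nat_lit 5) (nat_lit 2) (nat_lit 4) (nat_lit 266) (nat_lit 200) (nat_lit 134)))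 (XT.nd (nat_lit 78) (nat_lit 0) (nat_lit 0) (XT.lf (nat_lit 0) (nat_lit 25485093696034) (nat_lit 76) (nat_lit 2797430202368) (nat_lit 76) (nat_lit 2787362483889) (nat_lit 1) (nat_lit 4) (nat_lit 2) (nat_lit 5) (nat_lit 2) (nat_lit 4) (nat_lit 271) (nat_lit 200) (nat_lit 129)) (XT.lf (nat_lit 0) (nat_lit 29315158990376) (nat_lit 76) (nat_lit 3212316263629) (nat_lit 76) (nat_lit 3202248480762) (nat_lit 1) (nat_lit 4) (nat_lit 2) (nat_lit 5) (nat_lit 2) (nat_lit 4) (nat_lit 272) (nat_lit 200) (nat_lit 128))))) (XT.nd (nat_lit 25662) (nat_lit 0) (nat_lit 1064) (XT.nd (nat_lit 78) (nat_lit 0) (nat_lit 0) (XT.lf (nat_lit 0) (nat_lit 33719733991585) (nat_lit 76) (nat_lit 3689435272552) (nat_lit 76) (nat_lit 3679367433696) (nat_lit 1) (nat_lit 4) (nat_lit 2) (nat_lit 5) (nat_lit 2) (nat_lit 4) (nat_lit 273) (nat_lit 200) (nat_lit 127)) (XT.nd (nat_lit 78) (nat_lit 0) (nat_lit 0) (XT.lf (nat_lit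 0) (nat_lit 38784995167074) (nat_lit 76) (nat_lit 4238122166269) (nat_lit 76) (nat_lit 4228054278728) (nat_lit 1) (nat_lit 4) (nat_lit 2) (nat_lit 5) (nat_lit 2) (nat_lit 4) (nat_lit 274) (nat_lit 200) (nat_lit 126)) (XT.lf (nat_lit 0) (nat_lit 44610045452885) (nat_lit 76) (nat_lit 4869112123135) (nat_lit 76) (nat_lit 4859044193258) (nat_lit 1) (nat_lit 4) (nat_lit 2) (nat_lit 5) (nat_lit 2) (nat_lit 4) (nat_lit 275) (nat_lit 200) (nat_lit 125)))) (XT.nd (nat_lit 156) (nat_lit 0) (nat_lit 0) (XT.nd (nat_lit 78) (nat_lit 228) (nat_lit 0) (XT.lf (nat_lit 0) (nat_lit 1208468836) (nat_lit 0) (nat_lit 1208468836) (nat_lit 76) (nat_lit 848808965) (nat_lit 18) (nat_lit 5) (nat_lit 18) (nat_lit 3) (nat_lit 19) (nat_lit 0) (nat_lit 201) (nat_lit 201) (nat_lit 198)) (XT.lf (nat_lit 0) (nat_lit 389510876) (nat_lit 228) (nat_lit 1394955371) (nat_lit 228) (nat_lit 4888213334) (nat_lit 15) (nat_lit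 3) (nat_lit 18) (nat_lit 3) (nat_lit 18) (nat_lit 5) (nat_lit 202) (nat_lit 201) (nat_lit 197))) (XT.nd (nat_lit 78) (nat_lit 0) (nat_lit 76) (XT.lf (nat_lit 76) (nat_lit 1577449159) (nat_lit 0) (nat_lit 738411755) (nat_lit 228) (nat_lit 4561360540) (nat_lit 16) (nat_lit 5) (nat_lit 15) (nat_lit 3) (nat_lit 18) (nat_lit 5) (nat_lit 203) (nat_lit 201) (nat_lit 196)) (XT.lf (nat_lit 0) (nat_lit 4305614984) (nat_lit 152) (nat_lit 2238731527) (nat_lit 76) (nat_lit 610014555) (nat_lit 16) (nat_lit 5) (nat_lit 18) (nat_lit 5) (nat_lit 17) (nat_lit 4) (nat_lit 204) (nat_lit 201) (nat_lit 195))))))))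
noncomputable def xc26 : XT := (XT.nd (nat_lit 2028) (nat_lit 0) (nat_lit 0) (XT.nd (nat_lit 1014) (nat_lit 228) (nat_lit 0) (XT.nd (nat_lit 468) (nat_lit 380) (nat_lit 0) (XT.nd (nat_lit 234) (nat_lit 76) (nat_lit 0) (XT.nd (nat_lit 78) (nat_lit 304) (nat_lit 0) (XT.lf (nat_lit 0) (nat_lit 1113232636) (nat_lit 152) (nat_lit 5282576017) (nat_lit 228) (nat_lit 1113996221) (nat_lit 14) (nat_lit 5) (nat_lit 16) (nat_lit 5) (nat_lit 17) (nat_lit 4) (nat_lit 205) (nat_lit 201) (nat_lit 194)) (XT.nd (nat_lit 78) (nat_lit 228) (nat_lit 0) (XT.lf (nat_lit 0) (nat_lit 655532130) (nat_lit 228) (nat_lit 2976756055) (nat_lit 76) (nat_lit 4308171357) (nat_lit 13) (nat_lit 5) (nat_lit 16) (nat_lit 5) (nat_lit 14) (nat_lit 5) (nat_lit 206) (nat_lit 201) (nat_lit 193)) (XT.lf (nat_lit 0) (nat_lit 749457164) (nat_lit 228) (nat_lit 1623577918) (nat_lit 304) (nat_lit 6089852770) (nat_lit 10) (nat_lit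 5) (nat_lit 13) (nat_lit 5) (nat_lit 14) (nat_lit 5) (nat_lit 207) (nat_lit 201) (nat_lit 192)))) (XT.nd (nat_lit 78) (nat_lit 76) (nat_lit 0) (XT.lf (nat_lit 0) (nat_lit 4327133544) (nat_lit 304) (nat_lit 3953262854) (nat_lit 76) (nat_lit 790457770) (nat_lit 10) (nat_lit 5) (nat_lit 14) (nat_lit 5) (nat_lit 11) (nat_lit 4) (nat_lit 208) (nat_lit 201) (nat_lit 191)) (XT.nd (nat_lit 78) (nat_lit 0) (nat_lit 0) (XT.lf (nat_lit 0) (nat_lit 87265529) (nat_lit 76) (nat_lit 6383254276) (nat_lit 152) (nat_lit 3318564688) (nat_lit 9) (nat_lit 5) (nat_lit 10) (nat_lit 5) (nat_lit 11) (nat_lit 4) (nat_lit 209) (nat_lit 201) (nat_lit 190)) (XT.lf (nat_lit 0) (nat_lit 4973778380) (nat_lit 76) (nat_lit 3999164826) (nat_lit 152) (nat_lit 1639515927) (nat_lit 9) (nat_lit 5) (nat_lit 10) (nat_lit 5) (nat_lit 11) (nat_lit 4) (nat_lit 210) (nat_lit 201) (nat_lit 189))))) (XT.nd (nat_lit 234) (nat_lit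 152) (nat_lit 0) (XT.nd (nat_lit 78) (nat_lit 152) (nat_lit 0) (XT.lf (nat_lit 0) (nat_lit 108978598) (nat_lit 152) (nat_lit 1173455443) (nat_lit 76) (nat_lit 10300864579) (nat_lit 8) (nat_lit 5) (nat_lit 10) (nat_lit 5) (nat_lit 9) (nat_lit 5) (nat_lit 211) (nat_lit 201) (nat_lit 188)) (XT.nd (nat_lit 78) (nat_lit 0) (nat_lit 0) (XT.lf (nat_lit 0) (nat_lit 2071255454) (nat_lit 228) (nat_lit 8695198912) (nat_lit 76) (nat_lit 1905692619) (nat_lit 6) (nat_lit 5) (nat_lit 9) (nat_lit 5) (nat_lit 7) (nat_lit 4) (nat_lit 212) (nat_lit 201) (nat_lit 187)) (XT.lf (nat_lit 0) (nat_lit 4326639882) (nat_lit 228) (nat_lit 4128395517) (nat_lit 76) (nat_lit 5471209941) (nat_lit 6) (nat_lit 5) (nat_lit 9) (nat_lit 5) (nat_lit 7) (nat_lit 4) (nat_lit 213) (nat_lit 201) (nat_lit 186)))) (XT.nd (nat_lit 156) (nat_lit 76) (nat_lit 0) (XT.nd (nat_lit 78) (nat_lit 0) (nat_lit 0) (XT.lf (nat_lit 0) (nat_lit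 1060371609) (nat_lit 76) (nat_lit 5793813397) (nat_lit 152) (nat_lit 8525706479) (nat_lit 5) (nat_lit 5) (nat_lit 6) (nat_lit 5) (nat_lit 7) (nat_lit 4) (nat_lit 214) (nat_lit 201) (nat_lit 185)) (XT.lf (nat_lit 0) (nat_lit 7341127972) (nat_lit 76) (nat_lit 2533613034) (nat_lit 152) (nat_lit 7161075587) (nat_lit 5) (nat_lit 5) (nat_lit 6) (nat_lit 5) (nat_lit 7) (nat_lit 4) (nat_lit 215) (nat_lit 201) (nat_lit 184))) (XT.nd (nat_lit 78) (nat_lit 76) (nat_lit 0) (XT.lf (nat_lit 0) (nat_lit 13308345566) (nat_lit 152) (nat_lit 4569860440) (nat_lit 0) (nat_lit 1069072215) (nat_lit 5) (nat_lit 5) (nat_lit 7) (nat_lit 4) (nat_lit 5) (nat_lit 4) (nat_lit 216) (nat_lit 201) (nat_lit 183)) (XT.lf (nat_lit 0) (nat_lit 1183740075) (nat_lit 76) (nat_lit 16164331679) (nat_lit 76) (nat_lit 3784718697) (nat_lit 4) (nat_lit 4) (nat_lit 5) (nat_lit 5) (nat_lit 5) (nat_lit 4) (nat_lit 217) (nat_lit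 201) (nat_lit 182)))))) (XT.nd (nat_lit 468) (nat_lit 76) (nat_lit 0) (XT.nd (nat_lit 234) (nat_lit 76) (nat_lit 0) (XT.nd (nat_lit 78) (nat_lit 76) (nat_lit 0) (XT.lf (nat_lit 0) (nat_lit 8194949937) (nat_lit 76) (nat_lit 13964424176) (nat_lit 76) (nat_lit 1462776733) (nat_lit 4) (nat_lit 4) (nat_lit 5) (nat_lit 5) (nat_lit 5) (nat_lit 4) (nat_lit 218) (nat_lit 201) (nat_lit 181)) (XT.nd (nat_lit 78) (nat_lit 0) (nat_lit 0) (XT.lf (nat_lit 0) (nat_lit 1032536494) (nat_lit 152) (nat_lit 10387810904) (nat_lit 76) (nat_lit 15067835001) (nat_lit 3) (nat_lit 5) (nat_lit 5) (nat_lit 5) (nat_lit 4) (nat_lit 4) (nat_lit 219) (nat_lit 201) (nat_lit 180)) (XT.lf (nat_lit 0) (nat_lit 3693756749) (nat_lit 152) (nat_lit 4758462939) (nat_lit 76) (nat_lit 21330813050) (nat_lit 3) (nat_lit 5) (nat_lit 5) (nat_lit 5) (nat_lit 4) (nat_lit 4) (nat_lit 220) (nat_lit 201) (nat_lit 179)))) (XT.nd (nat_lit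 78) (nat_lit 0) (nat_lit 0) (XT.lf (nat_lit 0) (nat_lit 1791000078) (nat_lit 76) (nat_lit 4986339302) (nat_lit 152) (nat_lit 26791788294) (nat_lit 2) (nat_lit 5) (nat_lit 3) (nat_lit 5) (nat_lit 4) (nat_lit 4) (nat_lit 221) (nat_lit 201) (nat_lit 178)) (XT.nd (nat_lit 78) (nat_lit 0) (nat_lit 0) (XT.lf (nat_lit 0) (nat_lit 9777740648) (nat_lit 76) (nat_lit 746814625) (nat_lit 152) (nat_lit 27368846717) (nat_lit 2) (nat_lit 5) (nat_lit 3) (nat_lit 5) (nat_lit 4) (nat_lit 4) (nat_lit 222) (nat_lit 201) (nat_lit 177)) (XT.lf (nat_lit 0) (nat_lit 14962221351) (nat_lit 152) (nat_lit 24149711236) (nat_lit 0) (nat_lit 3735503189) (nat_lit 2) (nat_lit 5) (nat_lit 4) (nat_lit 4) (nat_lit 2) (nat_lit 4) (nat_lit 223) (nat_lit 201) (nat_lit 176))))) (XT.nd (nat_lit 234) (nat_lit 76) (nat_lit 0) (XT.nd (nat_lit 78) (nat_lit 0) (nat_lit 0) (XT.lf (nat_lit 0) (nat_lit 20064064876) (nat_lit 152)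 (nat_lit 19689585963) (nat_lit 0) (nat_lit 8791469440) (nat_lit 2) (nat_lit 5) (nat_lit 4) (nat_lit 4) (nat_lit 2) (nat_lit 4) (nat_lit 224) (nat_lit 201) (nat_lit 175)) (XT.nd (nat_lit 78) (nat_lit 0) (nat_lit 0) (XT.lf (nat_lit 0) (nat_lit 25898980524) (nat_lit 152) (nat_lit 14617098201) (nat_lit 0) (nat_lit 14586491806) (nat_lit 2) (nat_lit 5) (nat_lit 4) (nat_lit 4) (nat_lit 2) (nat_lit 4) (nat_lit 225) (nat_lit 201) (nat_lit 174)) (XT.lf (nat_lit 0) (nat_lit 32581129689) (nat_lit 152) (nat_lit 8833003625) (nat_lit 0) (nat_lit 21233951161) (nat_lit 2) (nat_lit 5) (nat_lit 4) (nat_lit 4) (nat_lit 2) (nat_lit 4) (nat_lit 226) (nat_lit 201) (nat_lit 173)))) (XT.nd (nat_lit 156) (nat_lit 0) (nat_lit 0) (XT.nd (nat_lit 78) (nat_lit 76) (nat_lit 0) (XT.lf (nat_lit 0) (nat_lit 40241250072) (nat_lit 152) (nat_lit 2224135168) (nat_lit 0) (nat_lit 28863906491) (nat_lit 2) (nat_lit 5) (nat_lit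 4) (nat_lit 4) (nat_lit 2) (nat_lit 4) (nat_lit 227) (nat_lit 201) (nat_lit 172)) (XT.lf (nat_lit 0) (nat_lit 5860558569) (nat_lit 76) (nat_lit 43411328256) (nat_lit 76) (nat_lit 32007754195) (nat_lit 1) (nat_lit 4) (nat_lit 2) (nat_lit 5) (nat_lit 2) (nat_lit 4) (nat_lit 228) (nat_lit 201) (nat_lit 171))) (XT.nd (nat_lit 78) (nat_lit 0) (nat_lit 0) (XT.lf (nat_lit 0) (nat_lit 15372359685) (nat_lit 76) (nat_lit 44381135617) (nat_lit 76) (nat_lit 32954752442) (nat_lit 1) (nat_lit 4) (nat_lit 2) (nat_lit 5) (nat_lit 2) (nat_lit 4) (nat_lit 229) (nat_lit 201) (nat_lit 170)) (XT.lf (nat_lit 0) (nat_lit 26280009973) (nat_lit 76) (nat_lit 45510043424) (nat_lit 76) (nat_lit 34063826238) (nat_lit 1) (nat_lit 4) (nat_lit 2) (nat_lit 5) (nat_lit 2) (nat_lit 4) (nat_lit 230) (nat_lit 201) (nat_lit 169))))))) (XT.nd (nat_lit 1014) (nat_lit 0) (nat_lit 0) (XT.nd (nat_lit 468) (nat_lit 0) (nat_lit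 0) (XT.nd (nat_lit 234) (nat_lit 0) (nat_lit 0) (XT.nd (nat_lit 78) (nat_lit 0) (nat_lit 0) (XT.lf (nat_lit 0) (nat_lit 38796919980) (nat_lit 76) (nat_lit 46820139005) (nat_lit 76) (nat_lit 35356674852) (nat_lit 1) (nat_lit 4) (nat_lit 2) (nat_lit 5) (nat_lit 2) (nat_lit 4) (nat_lit 231) (nat_lit 201) (nat_lit 168)) (XT.nd (nat_lit 78) (nat_lit 0) (nat_lit 0) (XT.lf (nat_lit 0) (nat_lit 53167985773) (nat_lit 76) (nat_lit 48337054665) (nat_lit 76) (nat_lit 36858593149) (nat_lit 1) (nat_lit 4) (nat_lit 2) (nat_lit 5) (nat_lit 2) (nat_lit 4) (nat_lit 232) (nat_lit 201) (nat_lit 167)) (XT.lf (nat_lit 0) (nat_lit 69674380377) (nat_lit 76) (nat_lit 50090469188) (nat_lit 76) (nat_lit 38598966487) (nat_lit 1) (nat_lit 4) (nat_lit 2) (nat_lit 5) (nat_lit 2) (nat_lit 4) (nat_lit 233) (nat_lit 201) (nat_lit 166)))) (XT.nd (nat_lit 78) (nat_lit 0) (nat_lit 0) (XT.lf (nat_lit 0) (nat_lit 88639054992)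 (nat_lit 76) (nat_lit 52114688510) (nat_lit 76) (nat_lit 40611845649) (nat_lit 1) (nat_lit 4) (nat_lit 2) (nat_lit 5) (nat_lit 2) (nat_lit 4) (nat_lit 234) (nat_lit 201) (nat_lit 165)) (XT.nd (nat_lit 78) (nat_lit 0) (nat_lit 0) (XT.lf (nat_lit 0) (nat_lit 110433057600) (nat_lit 76) (nat_lit 54449316923) (nat_lit 76) (nat_lit 42936613053) (nat_lit 1) (nat_lit 4) (nat_lit 2) (nat_lit 5) (nat_lit 2) (nat_lit 4) (nat_lit 235) (nat_lit 201) (nat_lit 164)) (XT.lf (nat_lit 0) (nat_lit 135482792598) (nat_lit 76) (nat_lit 57140031939) (nat_lit 76) (nat_lit 45618753279) (nat_lit 1) (nat_lit 4) (nat_lit 2) (nat_lit 5) (nat_lit 2) (nat_lit 4) (nat_lit 236) (nat_lit 201) (nat_lit 163))))) (XT.nd (nat_lit 234) (nat_lit 0) (nat_lit 0) (XT.nd (nat_lit 78) (nat_lit 0) (nat_lit 0) (XT.lf (nat_lit 0) (nat_lit 164278363498) (nat_lit 76) (nat_lit 60239477982) (nat_lit 76) (nat_lit 48710742982) (nat_lit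 1) (nat_lit 4) (nat_lit 2) (nat_lit 5) (nat_lit 2) (nat_lit 4) (nat_lit 237) (nat_lit 201) (nat_lit 162)) (XT.nd (nat_lit 78) (nat_lit 0) (nat_lit 0) (XT.lf (nat_lit 0) (nat_lit 197383161904) (nat_lit 76) (nat_lit 63808296389) (nat_lit 76) (nat_lit 52273077615) (nat_lit 1) (nat_lit 4) (nat_lit 2) (nat_lit 5) (nat_lit 2) (nat_lit 4) (nat_lit 238) (nat_lit 201) (nat_lit 161)) (XT.lf (nat_lit 0) (nat_lit 235444890395) (nat_lit 76) (nat_lit 67916311866) (nat_lit 76) (nat_lit 56375455028) (nat_lit 1) (nat_lit 4) (nat_lit 2) (nat_lit 5) (nat_lit 2) (nat_lit 4) (nat_lit 239) (nat_lit 201) (nat_lit 160)))) (XT.nd (nat_lit 156) (nat_lit 0) (nat_lit 0) (XT.nd (nat_lit 78) (nat_lit 0) (nat_lit 0) (XT.lf (nat_lit 0) (nat_lit 279208234961) (nat_lit 76) (nat_lit 72643898630) (nat_lit 76) (nat_lit 61098139128) (nat_lit 1) (nat_lit 4) (nat_lit 2) (nat_lit 5) (nat_lit 2) (nat_lit 4) (nat_lit 240)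 (nat_lit 201) (nat_lit 159)) (XT.lf (nat_lit 0) (nat_lit 329529434954) (nat_lit 76) (nat_lit 78083552943) (nat_lit 76) (nat_lit 66533530255) (nat_lit 1) (nat_lit 4) (nat_lit 2) (nat_lit 5) (nat_lit 2) (nat_lit 4) (nat_lit 241) (nat_lit 201) (nat_lit 158))) (XT.nd (nat_lit 78) (nat_lit 0) (nat_lit 0) (XT.lf (nat_lit 0) (nat_lit 387393035591) (nat_lit 76) (nat_lit 84341702825) (nat_lit 76) (nat_lit 72787973018) (nat_lit 1) (nat_lit 4) (nat_lit 2) (nat_lit 5) (nat_lit 2) (nat_lit 4) (nat_lit 242) (nat_lit 201) (nat_lit 157)) (XT.lf (nat_lit 0) (nat_lit 453931150796) (nat_lit 76) (nat_lit 91540790339) (nat_lit 76) (nat_lit 79983836951) (nat_lit 1) (nat_lit 4) (nat_lit 2) (nat_lit 5) (nat_lit 2) (nat_lit 4) (nat_lit 243) (nat_lit 201) (nat_lit 156)))))) (XT.nd (nat_lit 546) (nat_lit 0) (nat_lit 0) (XT.nd (nat_lit 234) (nat_lit 0) (nat_lit 0) (XT.nd (nat_lit 78) (nat_lit 0) (nat_lit 0)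 (XT.lf (nat_lit 0) (nat_lit 530445613259) (nat_lit 76) (nat_lit 99821667197) (nat_lit 76) (nat_lit 88261910694) (nat_lit 1) (nat_lit 4) (nat_lit 2) (nat_lit 5) (nat_lit 2) (nat_lit 4) (nat_lit 244) (nat_lit 201) (nat_lit 155)) (XT.nd (nat_lit 78) (nat_lit 0) (nat_lit 0) (XT.lf (nat_lit 0) (nat_lit 618433445072) (nat_lit 76) (nat_lit 109346350554) (nat_lit 76) (nat_lit 97784156561) (nat_lit 1) (nat_lit 4) (nat_lit 2) (nat_lit 5) (nat_lit 2) (nat_lit 4) (nat_lit 245) (nat_lit 201) (nat_lit 154)) (XT.lf (nat_lit 0) (nat_lit 719616147292) (nat_lit 76) (nat_lit 120301192911) (nat_lit 76) (nat_lit 108736879361) (nat_lit 1) (nat_lit 4) (nat_lit 2) (nat_lit 5) (nat_lit 2) (nat_lit 4) (nat_lit 246) (nat_lit 201) (nat_lit 153)))) (XT.nd (nat_lit 156) (nat_lit 0) (nat_lit 0) (XT.nd (nat_lit 78) (nat_lit 0) (nat_lit 0) (XT.lf (nat_lit 0) (nat_lit 835973381484) (nat_lit 76) (nat_lit 132900528141)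 (nat_lit 76) (nat_lit 121334371498) (nat_lit 1) (nat_lit 4) (nat_lit 2) (nat_lit 5) (nat_lit 2) (nat_lit 4) (nat_lit 247) (nat_lit 201) (nat_lit 152)) (XT.lf (nat_lit 0) (nat_lit 969781702229) (nat_lit 76) (nat_lit 147390864976) (nat_lit 76) (nat_lit 135823105643) (nat_lit 1) (nat_lit 4) (nat_lit 2) (nat_lit 5) (nat_lit 2) (nat_lit 4) (nat_lit 248) (nat_lit 201) (nat_lit 151))) (XT.nd (nat_lit 78) (nat_lit 0) (nat_lit 0) (XT.lf (nat_lit 0) (nat_lit 1123659098413) (nat_lit 76) (nat_lit 164055710006) (nat_lit 76) (nat_lit 152486557030) (nat_lit 1) (nat_lit 4) (nat_lit 2) (nat_lit 5) (nat_lit 2) (nat_lit 4) (nat_lit 249) (nat_lit 201) (nat_lit 150)) (XT.lf (nat_lit 0) (nat_lit 1300616214743) (nat_lit 76) (nat_lit 183221114548) (nat_lit 76) (nat_lit 171650749708) (nat_lit 1) (nat_lit 4) (nat_lit 2) (nat_lit 5) (nat_lit 2) (nat_lit 4) (nat_lit 250) (nat_lit 201) (nat_lit 149))))) (XT.nd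 (nat_lit 234) (nat_lit 0) (nat_lit 0) (XT.nd (nat_lit 78) (nat_lit 0) (nat_lit 0) (XT.lf (nat_lit 0) (nat_lit 1504115255668) (nat_lit 76) (nat_lit 205262053907) (nat_lit 76) (nat_lit 193690635273) (nat_lit 1) (nat_lit 4) (nat_lit 2) (nat_lit 5) (nat_lit 2) (nat_lit 4) (nat_lit 251) (nat_lit 201) (nat_lit 148)) (XT.nd (nat_lit 78) (nat_lit 0) (nat_lit 0) (XT.lf (nat_lit 0) (nat_lit 1738137724165) (nat_lit 76) (nat_lit 230609763854) (nat_lit 76) (nat_lit 219037428876) (nat_lit 1) (nat_lit 4) (nat_lit 2) (nat_lit 5) (nat_lit 2) (nat_lit 4) (nat_lit 252) (nat_lit 201) (nat_lit 147)) (XT.lf (nat_lit 0) (nat_lit 2007262320702) (nat_lit 76) (nat_lit 259760177843) (nat_lit 76) (nat_lit 248187046046) (nat_lit 1) (nat_lit 4) (nat_lit 2) (nat_lit 5) (nat_lit 2) (nat_lit 4) (nat_lit 253) (nat_lit 201) (nat_lit 146)))) (XT.nd (nat_lit 156) (nat_lit 0) (nat_lit 0) (XT.nd (nat_lit 78) (nat_lit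 0) (nat_lit 0) (XT.lf (nat_lit 0) (nat_lit 2316754526517) (nat_lit 76) (nat_lit 293283630063) (nat_lit 76) (nat_lit 281709805378) (nat_lit 1) (nat_lit 4) (nat_lit 2) (nat_lit 5) (nat_lit 2) (nat_lit 4) (nat_lit 254) (nat_lit 201) (nat_lit 145)) (XT.lf (nat_lit 0) (nat_lit 2672669623898) (nat_lit 76) (nat_lit 331836014142) (nat_lit 76) (nat_lit 320261586947) (nat_lit 1) (nat_lit 4) (nat_lit 2) (nat_lit 5) (nat_lit 2) (nat_lit 4) (nat_lit 255) (nat_lit 201) (nat_lit 144))) (XT.nd (nat_lit 78) (nat_lit 0) (nat_lit 0) (XT.lf (nat_lit 0) (nat_lit 3081971169097) (nat_lit 76) (nat_lit 376171615857) (nat_lit 76) (nat_lit 364596664740) (nat_lit 1) (nat_lit 4) (nat_lit 2) (nat_lit 5) (nat_lit 2) (nat_lit 4) (nat_lit 256) (nat_lit 201) (nat_lit 143)) (XT.lf (nat_lit 0) (nat_lit 3552667235826) (nat_lit 76) (nat_lit 427157870894) (nat_lit 76) (nat_lit 415582464192) (nat_lit 1) (nat_lit 4) (nat_lit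 2) (nat_lit 5) (nat_lit 2) (nat_lit 4) (nat_lit 257) (nat_lit 201) (nat_lit 142))))))))
noncomputable def xc27 : XT := (XT.nd (nat_lit 27924) (nat_lit 0) (nat_lit 0) (XT.nd (nat_lit 1326) (nat_lit 0) (nat_lit 0) (XT.nd (nat_lit 468) (nat_lit 0) (nat_lit 0) (XT.nd (nat_lit 234) (nat_lit 0) (nat_lit 0) (XT.nd (nat_lit 78) (nat_lit 0) (nat_lit 0) (XT.lf (nat_lit 0) (nat_lit 4093967094954) (nat_lit 76) (nat_lit 485792336415) (nat_lit 76) (nat_lit 474216533553) (nat_lit 1) (nat_lit 4) (nat_lit 2) (nat_lit 5) (nat_lit 2) (nat_lit 4) (nat_lit 258) (nat_lit 201) (nat_lit 141)) (XT.nd (nat_lit 78) (nat_lit 0) (nat_lit 0) (XT.lf (nat_lit 0) (nat_lit 4716461395899) (nat_lit 76) (nat_lit 553222208486) (nat_lit 76) (nat_lit 541646061137) (nat_lit 1) (nat_lit 4) (nat_lit 2) (nat_lit 5) (nat_lit 2) (nat_lit 4) (nat_lit 259) (nat_lit 201) (nat_lit 140)) (XT.lf (nat_lit 0) (nat_lit 5432329374985)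 (nat_lit 76) (nat_lit 630766767213) (nat_lit 76) (nat_lit 619190320310) (nat_lit 1) (nat_lit 4) (nat_lit 2) (nat_lit 5) (nat_lit 2) (nat_lit 4) (nat_lit 260) (nat_lit 201) (nat_lit 139)))) (XT.nd (nat_lit 78) (nat_lit 0) (nat_lit 0) (XT.lf (nat_lit 0) (nat_lit 6255577144846) (nat_lit 76) (nat_lit 719943188744) (nat_lit 76) (nat_lit 708366481359) (nat_lit 1) (nat_lit 4) (nat_lit 2) (nat_lit 5) (nat_lit 2) (nat_lit 4) (nat_lit 261) (nat_lit 201) (nat_lit 138)) (XT.nd (nat_lit 78) (nat_lit 0) (nat_lit 0) (XT.lf (nat_lit 0) (nat_lit 7202311727065) (nat_lit 76) (nat_lit 822496229153) (nat_lit 76) (nat_lit 810919295262) (nat_lit 1) (nat_lit 4) (nat_lit 2) (nat_lit 5) (nat_lit 2) (nat_lit 4) (nat_lit 262) (nat_lit 201) (nat_lit 137)) (XT.lf (nat_lit 0) (nat_lit 8291056189556) (nat_lit 76) (nat_lit 940432360969) (nat_lit 76) (nat_lit 928855230116) (nat_lit 1) (nat_lit 4) (nat_lit 2) (nat_lit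 5) (nat_lit 2) (nat_lit 4) (nat_lit 263) (nat_lit 201) (nat_lit 136))))) (XT.nd (nat_lit 546) (nat_lit 0) (nat_lit 0) (XT.nd (nat_lit 78) (nat_lit 0) (nat_lit 0) (XT.lf (nat_lit 0) (nat_lit 9543112054412) (nat_lit 76) (nat_lit 1076059030250) (nat_lit 76) (nat_lit 1064481728126) (nat_lit 1) (nat_lit 4) (nat_lit 2) (nat_lit 5) (nat_lit 2) (nat_lit 4) (nat_lit 264) (nat_lit 201) (nat_lit 135)) (XT.nd (nat_lit 78) (nat_lit 0) (nat_lit 0) (XT.lf (nat_lit 0) (nat_lit 10982976066813) (nat_lit 76) (nat_lit 1232029802265) (nat_lit 76) (nat_lit 1220452351210) (nat_lit 1) (nat_lit 4) (nat_lit 2) (nat_lit 5) (nat_lit 2) (nat_lit 4) (nat_lit 265) (nat_lit 201) (nat_lit 134)) (XT.lf (nat_lit 0) (nat_lit 12638819479177) (nat_lit 76) (nat_lit 1411396279074) (nat_lit 76) (nat_lit 1399818698513) (nat_lit 1) (nat_lit 4) (nat_lit 2) (nat_lit 5) (nat_lit 2) (nat_lit 4) (nat_lit 266) (nat_lit 201) (nat_lit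 133)))) (XT.nd (nat_lit 156) (nat_lit 0) (nat_lit 0) (XT.nd (nat_lit 78) (nat_lit 0) (nat_lit 0) (XT.lf (nat_lit 0) (nat_lit 25477793436540) (nat_lit 76) (nat_lit 2802158239304) (nat_lit 76) (nat_lit 2790580224620) (nat_lit 1) (nat_lit 4) (nat_lit 2) (nat_lit 5) (nat_lit 2) (nat_lit 4) (nat_lit 271) (nat_lit 201) (nat_lit 128)) (XT.lf (nat_lit 0) (nat_lit 29307858690285) (nat_lit 76) (nat_lit 3217044318459) (nat_lit 76) (nat_lit 3205466247787) (nat_lit 1) (nat_lit 4) (nat_lit 2) (nat_lit 5) (nat_lit 2) (nat_lit 4) (nat_lit 272) (nat_lit 201) (nat_lit 127))) (XT.nd (nat_lit 78) (nat_lit 0) (nat_lit 0) (XT.lf (nat_lit 0) (nat_lit 33712433656190) (nat_lit 76) (nat_lit 3694163342943) (nat_lit 76) (nat_lit 3682585223584) (nat_lit 1) (nat_lit 4) (nat_lit 2) (nat_lit 5) (nat_lit 2) (nat_lit 4) (nat_lit 273) (nat_lit 201) (nat_lit 126)) (XT.lf (nat_lit 0) (nat_lit 38777694800981) (nat_lit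 76) (nat_lit 4242850250191) (nat_lit 76) (nat_lit 4231272088497) (nat_lit 1) (nat_lit 4) (nat_lit 2) (nat_lit 5) (nat_lit 2) (nat_lit 4) (nat_lit 274) (nat_lit 201) (nat_lit 125)))))) (XT.nd (nat_lit 26052) (nat_lit 0) (nat_lit 380) (XT.nd (nat_lit 25740) (nat_lit 0) (nat_lit 912) (XT.nd (nat_lit 25584) (nat_lit 0) (nat_lit 1064) (XT.lf (nat_lit 0) (nat_lit 44602745060099) (nat_lit 76) (nat_lit 4873840218823) (nat_lit 76) (nat_lit 4862262020316) (nat_lit 1) (nat_lit 4) (nat_lit 2) (nat_lit 5) (nat_lit 2) (nat_lit 4) (nat_lit 275) (nat_lit 201) (nat_lit 124)) (XT.nd (nat_lit 78) (nat_lit 0) (nat_lit 0) (XT.lf (nat_lit 0) (nat_lit 1077784822) (nat_lit 228) (nat_lit 1169391645) (nat_lit 228) (nat_lit 1169391645) (nat_lit 15) (nat_lit 3) (nat_lit 18) (nat_lit 3) (nat_lit 18) (nat_lit 5) (nat_lit 202) (nat_lit 202) (nat_lit 196)) (XT.lf (nat_lit 76) (nat_lit 446047852) (nat_lit 0) (nat_lit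 3441252176) (nat_lit 228) (nat_lit 3183331108) (nat_lit 16) (nat_lit 5) (nat_lit 15) (nat_lit 3) (nat_lit 18) (nat_lit 5) (nat_lit 203) (nat_lit 202) (nat_lit 195)))) (XT.nd (nat_lit 156) (nat_lit 152) (nat_lit 0) (XT.nd (nat_lit 78) (nat_lit 0) (nat_lit 0) (XT.lf (nat_lit 76) (nat_lit 3733214785) (nat_lit 0) (nat_lit 1984182346) (nat_lit 228) (nat_lit 1657591801) (nat_lit 16) (nat_lit 5) (nat_lit 15) (nat_lit 3) (nat_lit 18) (nat_lit 5) (nat_lit 204) (nat_lit 202) (nat_lit 194)) (XT.lf (nat_lit 76) (nat_lit 7358468732) (nat_lit 0) (nat_lit 216890141) (nat_lit 228) (nat_lit 192751823) (nat_lit 16) (nat_lit 5) (nat_lit 15) (nat_lit 3) (nat_lit 18) (nat_lit 5) (nat_lit 205) (nat_lit 202) (nat_lit 193))) (XT.nd (nat_lit 78) (nat_lit 0) (nat_lit 0) (XT.lf (nat_lit 0) (nat_lit 1357233225) (nat_lit 228) (nat_lit 4931483592) (nat_lit 76) (nat_lit 1927105536) (nat_lit 13) (nat_lit 5) (nat_lit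 16) (nat_lit 5) (nat_lit 14) (nat_lit 5) (nat_lit 206) (nat_lit 202) (nat_lit 192)) (XT.lf (nat_lit 0) (nat_lit 2948885329) (nat_lit 228) (nat_lit 1361072035) (nat_lit 76) (nat_lit 4449040354) (nat_lit 13) (nat_lit 5) (nat_lit 16) (nat_lit 5) (nat_lit 14) (nat_lit 5) (nat_lit 207) (nat_lit 202) (nat_lit 191))))) (XT.nd (nat_lit 234) (nat_lit 228) (nat_lit 0) (XT.nd (nat_lit 78) (nat_lit 76) (nat_lit 0) (XT.lf (nat_lit 0) (nat_lit 2830336920) (nat_lit 228) (nat_lit 1888879186) (nat_lit 304) (nat_lit 4676938670) (nat_lit 10) (nat_lit 5) (nat_lit 13) (nat_lit 5) (nat_lit 14) (nat_lit 5) (nat_lit 208) (nat_lit 202) (nat_lit 190)) (XT.nd (nat_lit 78) (nat_lit 76) (nat_lit 0) (XT.lf (nat_lit 0) (nat_lit 6706050999) (nat_lit 304) (nat_lit 2541444751) (nat_lit 76) (nat_lit 891785612) (nat_lit 10) (nat_lit 5) (nat_lit 14) (nat_lit 5) (nat_lit 11) (nat_lit 4) (nat_lit 209) (nat_lit 202) (nat_lit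 189)) (XT.lf (nat_lit 0) (nat_lit 2014035275) (nat_lit 76) (nat_lit 7010519057) (nat_lit 152) (nat_lit 1966918859) (nat_lit 9) (nat_lit 5) (nat_lit 10) (nat_lit 5) (nat_lit 11) (nat_lit 4) (nat_lit 210) (nat_lit 202) (nat_lit 188)))) (XT.nd (nat_lit 156) (nat_lit 0) (nat_lit 0) (XT.nd (nat_lit 78) (nat_lit 228) (nat_lit 0) (XT.lf (nat_lit 0) (nat_lit 7383914630) (nat_lit 76) (nat_lit 4311888801) (nat_lit 152) (nat_lit 277242854) (nat_lit 9) (nat_lit 5) (nat_lit 10) (nat_lit 5) (nat_lit 11) (nat_lit 4) (nat_lit 211) (nat_lit 202) (nat_lit 187)) (XT.lf (nat_lit 0) (nat_lit 264279497) (nat_lit 152) (nat_lit 1145925955) (nat_lit 228) (nat_lit 11699146002) (nat_lit 6) (nat_lit 5) (nat_lit 8) (nat_lit 5) (nat_lit 9) (nat_lit 5) (nat_lit 212) (nat_lit 202) (nat_lit 186))) (XT.nd (nat_lit 78) (nat_lit 0) (nat_lit 0) (XT.lf (nat_lit 0) (nat_lit 3566951301) (nat_lit 228) (nat_lit 8304054673)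 (nat_lit 76) (nat_lit 2507942410) (nat_lit 6) (nat_lit 5) (nat_lit 9) (nat_lit 5) (nat_lit 7) (nat_lit 4) (nat_lit 213) (nat_lit 202) (nat_lit 185)) (XT.lf (nat_lit 0) (nat_lit 6006077194) (nat_lit 228) (nat_lit 3273373039) (nat_lit 76) (nat_lit 6567018300) (nat_lit 6) (nat_lit 5) (nat_lit 9) (nat_lit 5) (nat_lit 7) (nat_lit 4) (nat_lit 214) (nat_lit 202) (nat_lit 184))))))) (XT.nd (nat_lit 1014) (nat_lit 76) (nat_lit 0) (XT.nd (nat_lit 468) (nat_lit 76) (nat_lit 0) (XT.nd (nat_lit 234) (nat_lit 152) (nat_lit 0) (XT.nd (nat_lit 78) (nat_lit 0) (nat_lit 0) (XT.lf (nat_lit 0) (nat_lit 2626696346) (nat_lit 76) (nat_lit 6209924358) (nat_lit 152) (nat_lit 8694806218) (nat_lit 5) (nat_lit 5) (nat_lit 6) (nat_lit 5) (nat_lit 7) (nat_lit 4) (nat_lit 215) (nat_lit 202) (nat_lit 183)) (XT.nd (nat_lit 78) (nat_lit 0) (nat_lit 0) (XT.lf (nat_lit 0) (nat_lit 9666009338) (nat_lit 76) (nat_lit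 2519775816) (nat_lit 152) (nat_lit 7270231505) (nat_lit 5) (nat_lit 5) (nat_lit 6) (nat_lit 5) (nat_lit 7) (nat_lit 4) (nat_lit 216) (nat_lit 202) (nat_lit 182)) (XT.lf (nat_lit 0) (nat_lit 16040373656) (nat_lit 152) (nat_lit 4087883073) (nat_lit 0) (nat_lit 1541444634) (nat_lit 5) (nat_lit 5) (nat_lit 7) (nat_lit 4) (nat_lit 5) (nat_lit 4) (nat_lit 217) (nat_lit 202) (nat_lit 181)))) (XT.nd (nat_lit 78) (nat_lit 76) (nat_lit 0) (XT.lf (nat_lit 0) (nat_lit 2475691317) (nat_lit 76) (nat_lit 18160541163) (nat_lit 76) (nat_lit 3555495218) (nat_lit 4) (nat_lit 4) (nat_lit 5) (nat_lit 5) (nat_lit 5) (nat_lit 4) (nat_lit 218) (nat_lit 202) (nat_lit 180)) (XT.nd (nat_lit 78) (nat_lit 76) (nat_lit 0) (XT.lf (nat_lit 0) (nat_lit 10393227411) (nat_lit 76) (nat_lit 15686531048) (nat_lit 76) (nat_lit 989209518) (nat_lit 4) (nat_lit 4) (nat_lit 5) (nat_lit 5) (nat_lit 5) (nat_lit 4) (nat_lit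 219) (nat_lit 202) (nat_lit 179)) (XT.lf (nat_lit 0) (nat_lit 1736364378) (nat_lit 152) (nat_lit 11044377755) (nat_lit 76) (nat_lit 17593006978) (nat_lit 3) (nat_lit 5) (nat_lit 5) (nat_lit 5) (nat_lit 4) (nat_lit 4) (nat_lit 220) (nat_lit 202) (nat_lit 178))))) (XT.nd (nat_lit 234) (nat_lit 0) (nat_lit 0) (XT.nd (nat_lit 78) (nat_lit 76) (nat_lit 0) (XT.lf (nat_lit 0) (nat_lit 4725165836) (nat_lit 152) (nat_lit 4688228220) (nat_lit 76) (nat_lit 24760866944) (nat_lit 3) (nat_lit 5) (nat_lit 5) (nat_lit 5) (nat_lit 4) (nat_lit 4) (nat_lit 221) (nat_lit 202) (nat_lit 177)) (XT.nd (nat_lit 78) (nat_lit 0) (nat_lit 0) (XT.lf (nat_lit 0) (nat_lit 2808017697) (nat_lit 76) (nat_lit 5431994005) (nat_lit 152) (nat_lit 30293552835) (nat_lit 2) (nat_lit 5) (nat_lit 3) (nat_lit 5) (nat_lit 4) (nat_lit 4) (nat_lit 222) (nat_lit 202) (nat_lit 176)) (XT.lf (nat_lit 0) (nat_lit 11895156187) (nat_lit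 76) (nat_lit 595970564) (nat_lit 152) (nat_lit 31024605287) (nat_lit 2) (nat_lit 5) (nat_lit 3) (nat_lit 5) (nat_lit 4) (nat_lit 4) (nat_lit 223) (nat_lit 202) (nat_lit 175)))) (XT.nd (nat_lit 156) (nat_lit 0) (nat_lit 0) (XT.nd (nat_lit 78) (nat_lit 0) (nat_lit 0) (XT.lf (nat_lit 0) (nat_lit 17553313613) (nat_lit 152) (nat_lit 27162124477) (nat_lit 0) (nat_lit 4504058305) (nat_lit 2) (nat_lit 5) (nat_lit 4) (nat_lit 4) (nat_lit 2) (nat_lit 4) (nat_lit 224) (nat_lit 202) (nat_lit 174)) (XT.lf (nat_lit 0) (nat_lit 23375204224) (nat_lit 152) (nat_lit 22112551296) (nat_lit 0) (nat_lit 10291259106) (nat_lit 2) (nat_lit 5) (nat_lit 4) (nat_lit 4) (nat_lit 2) (nat_lit 4) (nat_lit 225) (nat_lit 202) (nat_lit 173))) (XT.nd (nat_lit 78) (nat_lit 0) (nat_lit 0) (XT.lf (nat_lit 0) (nat_lit 30046027269) (nat_lit 152) (nat_lit 16348382444) (nat_lit 0) (nat_lit 16931917099) (nat_lit 2) (nat_lit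 5) (nat_lit 4) (nat_lit 4) (nat_lit 2) (nat_lit 4) (nat_lit 226) (nat_lit 202) (nat_lit 172)) (XT.lf (nat_lit 0) (nat_lit 37696298853) (nat_lit 152) (nat_lit 9756840702) (nat_lit 0) (nat_lit 24555958202) (nat_lit 2) (nat_lit 5) (nat_lit 4) (nat_lit 4) (nat_lit 2) (nat_lit 4) (nat_lit 227) (nat_lit 202) (nat_lit 171)))))) (XT.nd (nat_lit 546) (nat_lit 0) (nat_lit 0) (XT.nd (nat_lit 234) (nat_lit 0) (nat_lit 0) (XT.nd (nat_lit 78) (nat_lit 76) (nat_lit 0) (XT.lf (nat_lit 0) (nat_lit 46475698200) (nat_lit 152) (nat_lit 2208961123) (nat_lit 0) (nat_lit 33312548436) (nat_lit 2) (nat_lit 5) (nat_lit 4) (nat_lit 4) (nat_lit 2) (nat_lit 4) (nat_lit 228) (nat_lit 202) (nat_lit 170)) (XT.nd (nat_lit 78) (nat_lit 0) (nat_lit 0) (XT.lf (nat_lit 0) (nat_lit 7072582387) (nat_lit 76) (nat_lit 49776274336) (nat_lit 76) (nat_lit 36593290560) (nat_lit 1) (nat_lit 4) (nat_lit 2) (nat_lit 5) (nat_lit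 2) (nat_lit 4) (nat_lit 229) (nat_lit 202) (nat_lit 169)) (XT.lf (nat_lit 0) (nat_lit 17967726710) (nat_lit 76) (nat_lit 50910694517) (nat_lit 76) (nat_lit 37710463774) (nat_lit 1) (nat_lit 4) (nat_lit 2) (nat_lit 5) (nat_lit 2) (nat_lit 4) (nat_lit 230) (nat_lit 202) (nat_lit 168)))) (XT.nd (nat_lit 156) (nat_lit 0) (nat_lit 0) (XT.nd (nat_lit 78) (nat_lit 0) (nat_lit 0) (XT.lf (nat_lit 0) (nat_lit 30473761966) (nat_lit 76) (nat_lit 52225583466) (nat_lit 76) (nat_lit 39010355361) (nat_lit 1) (nat_lit 4) (nat_lit 2) (nat_lit 5) (nat_lit 2) (nat_lit 4) (nat_lit 231) (nat_lit 202) (nat_lit 167)) (XT.lf (nat_lit 0) (nat_lit 44835371453) (nat_lit 76) (nat_lit 53746667272) (nat_lit 76) (nat_lit 40518397982) (nat_lit 1) (nat_lit 4) (nat_lit 2) (nat_lit 5) (nat_lit 2) (nat_lit 4) (nat_lit 232) (nat_lit 202) (nat_lit 166))) (XT.nd (nat_lit 78) (nat_lit 0) (nat_lit 0) (XT.lf (nat_lit 0) (nat_lit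 61333543183) (nat_lit 76) (nat_lit 55503706270) (nat_lit 76) (nat_lit 42264096819) (nat_lit 1) (nat_lit 4) (nat_lit 2) (nat_lit 5) (nat_lit 2) (nat_lit 4) (nat_lit 233) (nat_lit 202) (nat_lit 165)) (XT.lf (nat_lit 0) (nat_lit 80291067472) (nat_lit 76) (nat_lit 57531077309) (nat_lit 76) (nat_lit 44281606850) (nat_lit 1) (nat_lit 4) (nat_lit 2) (nat_lit 5) (nat_lit 2) (nat_lit 4) (nat_lit 234) (nat_lit 202) (nat_lit 164))))) (XT.nd (nat_lit 234) (nat_lit 0) (nat_lit 0) (XT.nd (nat_lit 78) (nat_lit 0) (nat_lit 0) (XT.lf (nat_lit 0) (nat_lit 102078852405) (nat_lit 76) (nat_lit 59868446346) (nat_lit 76) (nat_lit 46610401096) (nat_lit 1) (nat_lit 4) (nat_lit 2) (nat_lit 5) (nat_lit 2) (nat_lit 4) (nat_lit 235) (nat_lit 202) (nat_lit 163)) (XT.nd (nat_lit 78) (nat_lit 0) (nat_lit 0) (XT.lf (nat_lit 0) (nat_lit 127123180730) (nat_lit 76) (nat_lit 62561544513) (nat_lit 76) (nat_lit 49296042924)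 (nat_lit 1) (nat_lit 4) (nat_lit 2) (nat_lit 5) (nat_lit 2) (nat_lit 4) (nat_lit 236) (nat_lit 202) (nat_lit 162)) (XT.lf (nat_lit 0) (nat_lit 155914050175) (nat_lit 76) (nat_lit 65663062862) (nat_lit 76) (nat_lit 52391077499) (nat_lit 1) (nat_lit 4) (nat_lit 2) (nat_lit 5) (nat_lit 2) (nat_lit 4) (nat_lit 237) (nat_lit 202) (nat_lit 161)))) (XT.nd (nat_lit 156) (nat_lit 0) (nat_lit 0) (XT.nd (nat_lit 78) (nat_lit 0) (nat_lit 0) (XT.lf (nat_lit 0) (nat_lit 189014760359) (nat_lit 76) (nat_lit 69233683273) (nat_lit 76) (nat_lit 55956059846) (nat_lit 1) (nat_lit 4) (nat_lit 2) (nat_lit 5) (nat_lit 2) (nat_lit 4) (nat_lit 238) (nat_lit 202) (nat_lit 160)) (XT.lf (nat_lit 0) (nat_lit 227072933874) (nat_lit 76) (nat_lit 73343265711) (nat_lit 76) (nat_lit 60060739619) (nat_lit 1) (nat_lit 4) (nat_lit 2) (nat_lit 5) (nat_lit 2) (nat_lit 4) (nat_lit 239) (nat_lit 202) (nat_lit 159))) (XT.nd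 (nat_lit 78) (nat_lit 0) (nat_lit 0) (XT.lf (nat_lit 0) (nat_lit 270833187158) (nat_lit 76) (nat_lit 78072215049) (nat_lit 76) (nat_lit 64785425771) (nat_lit 1) (nat_lit 4) (nat_lit 2) (nat_lit 5) (nat_lit 2) (nat_lit 4) (nat_lit 240) (nat_lit 202) (nat_lit 158)) (XT.lf (nat_lit 0) (nat_lit 321151699078) (nat_lit 76) (nat_lit 83513054210) (nat_lit 76) (nat_lit 70222557813) (nat_lit 1) (nat_lit 4) (nat_lit 2) (nat_lit 5) (nat_lit 2) (nat_lit 4) (nat_lit 241) (nat_lit 202) (nat_lit 157))))))))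
noncomputable def xc28 : XT := (XT.nd (nat_lit 2340) (nat_lit 0) (nat_lit 0) (XT.nd (nat_lit 1014) (nat_lit 0) (nat_lit 0) (XT.nd (nat_lit 468) (nat_lit 0) (nat_lit 0) (XT.nd (nat_lit 234) (nat_lit 0) (nat_lit 0) (XT.nd (nat_lit 78) (nat_lit 0) (nat_lit 0) (XT.lf (nat_lit 0) (nat_lit 379012962260) (nat_lit 76) (nat_lit 89772234394) (nat_lit 76) (nat_lit 76478514416) (nat_lit 1) (nat_lit 4) (nat_lit 2) (nat_lit 5) (nat_lit 2) (nat_lit 4) (nat_lit 242) (nat_lit 202) (nat_lit 156)) (XT.nd (nat_lit 78) (nat_lit 0) (nat_lit 0) (XT.lf (nat_lit 0) (nat_lit 445549044897) (nat_lit 76) (nat_lit 96972217822) (nat_lit 76) (nat_lit 83675694730) (nat_lit 1) (nat_lit 4) (nat_lit 2) (nat_lit 5) (nat_lit 2) (nat_lit 4) (nat_lit 243) (nat_lit 202) (nat_lit 155)) (XT.lf (nat_lit 0) (nat_lit 522061739909) (nat_lit 76) (nat_lit 105253873736) (nat_lit 76) (nat_lit 91954913153) (nat_lit 1) (nat_lit 4)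 (nat_lit 2) (nat_lit 5) (nat_lit 2) (nat_lit 4) (nat_lit 244) (nat_lit 202) (nat_lit 154)))) (XT.nd (nat_lit 78) (nat_lit 0) (nat_lit 0) (XT.lf (nat_lit 0) (nat_lit 610048034808) (nat_lit 76) (nat_lit 114779234534) (nat_lit 76) (nat_lit 101478154394) (nat_lit 1) (nat_lit 4) (nat_lit 2) (nat_lit 5) (nat_lit 2) (nat_lit 4) (nat_lit 245) (nat_lit 202) (nat_lit 153)) (XT.nd (nat_lit 78) (nat_lit 0) (nat_lit 0) (XT.lf (nat_lit 0) (nat_lit 711229400581) (nat_lit 76) (nat_lit 125734665970) (nat_lit 76) (nat_lit 112431742737) (nat_lit 1) (nat_lit 4) (nat_lit 2) (nat_lit 5) (nat_lit 2) (nat_lit 4) (nat_lit 246) (nat_lit 202) (nat_lit 152)) (XT.lf (nat_lit 0) (nat_lit 827585472645) (nat_lit 76) (nat_lit 138334513442) (nat_lit 76) (nat_lit 125029987519) (nat_lit 1) (nat_lit 4) (nat_lit 2) (nat_lit 5) (nat_lit 2) (nat_lit 4) (nat_lit 247) (nat_lit 202) (nat_lit 151))))) (XT.nd (nat_lit 234)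 (nat_lit 0) (nat_lit 0) (XT.nd (nat_lit 78) (nat_lit 0) (nat_lit 0) (XT.lf (nat_lit 0) (nat_lit 961392782844) (nat_lit 76) (nat_lit 152825295705) (nat_lit 76) (nat_lit 139519376139) (nat_lit 1) (nat_lit 4) (nat_lit 2) (nat_lit 5) (nat_lit 2) (nat_lit 4) (nat_lit 248) (nat_lit 202) (nat_lit 150)) (XT.nd (nat_lit 78) (nat_lit 0) (nat_lit 0) (XT.lf (nat_lit 0) (nat_lit 1115269300293) (nat_lit 76) (nat_lit 169490528064) (nat_lit 76) (nat_lit 156183396634) (nat_lit 1) (nat_lit 4) (nat_lit 2) (nat_lit 5) (nat_lit 2) (nat_lit 4) (nat_lit 249) (nat_lit 202) (nat_lit 149)) (XT.lf (nat_lit 0) (nat_lit 1292225652504) (nat_lit 76) (nat_lit 188656269413) (nat_lit 76) (nat_lit 175348084189) (nat_lit 1) (nat_lit 4) (nat_lit 2) (nat_lit 5) (nat_lit 2) (nat_lit 4) (nat_lit 250) (nat_lit 202) (nat_lit 148)))) (XT.nd (nat_lit 156) (nat_lit 0) (nat_lit 0) (XT.nd (nat_lit 78) (nat_lit 0) (nat_lit 0)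 (XT.lf (nat_lit 0) (nat_lit 1495724028980) (nat_lit 76) (nat_lit 210697501648) (nat_lit 76) (nat_lit 197388400081) (nat_lit 1) (nat_lit 4) (nat_lit 2) (nat_lit 5) (nat_lit 2) (nat_lit 4) (nat_lit 251) (nat_lit 202) (nat_lit 147)) (XT.lf (nat_lit 0) (nat_lit 1729745919693) (nat_lit 76) (nat_lit 236045466269) (nat_lit 76) (nat_lit 222735567882) (nat_lit 1) (nat_lit 4) (nat_lit 2) (nat_lit 5) (nat_lit 2) (nat_lit 4) (nat_lit 252) (nat_lit 202) (nat_lit 146))) (XT.nd (nat_lit 78) (nat_lit 0) (nat_lit 0) (XT.lf (nat_lit 0) (nat_lit 1998870013811) (nat_lit 76) (nat_lit 265196101715) (nat_lit 76) (nat_lit 251885510441) (nat_lit 1) (nat_lit 4) (nat_lit 2) (nat_lit 5) (nat_lit 2) (nat_lit 4) (nat_lit 253) (nat_lit 202) (nat_lit 145)) (XT.lf (nat_lit 0) (nat_lit 2308361782739) (nat_lit 76) (nat_lit 298719746506) (nat_lit 76) (nat_lit 285408552721) (nat_lit 1) (nat_lit 4) (nat_lit 2) (nat_lit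 5) (nat_lit 2) (nat_lit 4) (nat_lit 254) (nat_lit 202) (nat_lit 144)))))) (XT.nd (nat_lit 468) (nat_lit 0) (nat_lit 0) (XT.nd (nat_lit 234) (nat_lit 0) (nat_lit 0) (XT.nd (nat_lit 78) (nat_lit 0) (nat_lit 0) (XT.lf (nat_lit 0) (nat_lit 2664276500218) (nat_lit 76) (nat_lit 337272298038) (nat_lit 76) (nat_lit 323960580331) (nat_lit 1) (nat_lit 4) (nat_lit 2) (nat_lit 5) (nat_lit 2) (nat_lit 4) (nat_lit 255) (nat_lit 202) (nat_lit 143)) (XT.nd (nat_lit 78) (nat_lit 0) (nat_lit 0) (XT.lf (nat_lit 0) (nat_lit 3073577715068) (nat_lit 76) (nat_lit 381608045364) (nat_lit 76) (nat_lit 368295872073) (nat_lit 1) (nat_lit 4) (nat_lit 2) (nat_lit 5) (nat_lit 2) (nat_lit 4) (nat_lit 256) (nat_lit 202) (nat_lit 142)) (XT.lf (nat_lit 0) (nat_lit 3544273494536) (nat_lit 76) (nat_lit 432594427019) (nat_lit 76) (nat_lit 419281857568) (nat_lit 1) (nat_lit 4) (nat_lit 2) (nat_lit 5) (nat_lit 2) (nat_lit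 4) (nat_lit 257) (nat_lit 202) (nat_lit 141)))) (XT.nd (nat_lit 78) (nat_lit 0) (nat_lit 0) (XT.lf (nat_lit 0) (nat_lit 4085573103873) (nat_lit 76) (nat_lit 491229002644) (nat_lit 76) (nat_lit 477916088705) (nat_lit 1) (nat_lit 4) (nat_lit 2) (nat_lit 5) (nat_lit 2) (nat_lit 4) (nat_lit 258) (nat_lit 202) (nat_lit 140)) (XT.nd (nat_lit 78) (nat_lit 0) (nat_lit 0) (XT.lf (nat_lit 0) (nat_lit 4708067187608) (nat_lit 76) (nat_lit 558658970457) (nat_lit 76) (nat_lit 545345756964) (nat_lit 1) (nat_lit 4) (nat_lit 2) (nat_lit 5) (nat_lit 2) (nat_lit 4) (nat_lit 259) (nat_lit 202) (nat_lit 139)) (XT.lf (nat_lit 0) (nat_lit 5423934977816) (nat_lit 76) (nat_lit 636203612437) (nat_lit 76) (nat_lit 622890138462) (nat_lit 1) (nat_lit 4) (nat_lit 2) (nat_lit 5) (nat_lit 2) (nat_lit 4) (nat_lit 260) (nat_lit 202) (nat_lit 138))))) (XT.nd (nat_lit 234) (nat_lit 0) (nat_lit 0) (XT.nd (nat_lit 78)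 (nat_lit 0) (nat_lit 0) (XT.lf (nat_lit 0) (nat_lit 6247182583435) (nat_lit 76) (nat_lit 725380106362) (nat_lit 76) (nat_lit 712066405882) (nat_lit 1) (nat_lit 4) (nat_lit 2) (nat_lit 5) (nat_lit 2) (nat_lit 4) (nat_lit 261) (nat_lit 202) (nat_lit 137)) (XT.nd (nat_lit 78) (nat_lit 0) (nat_lit 0) (XT.lf (nat_lit 0) (nat_lit 7193917022835) (nat_lit 76) (nat_lit 827933209723) (nat_lit 76) (nat_lit 814619312280) (nat_lit 1) (nat_lit 4) (nat_lit 2) (nat_lit 5) (nat_lit 2) (nat_lit 4) (nat_lit 262) (nat_lit 202) (nat_lit 136)) (XT.lf (nat_lit 0) (nat_lit 8282661361135) (nat_lit 76) (nat_lit 945869396280) (nat_lit 76) (nat_lit 932555327566) (nat_lit 1) (nat_lit 4) (nat_lit 2) (nat_lit 5) (nat_lit 2) (nat_lit 4) (nat_lit 263) (nat_lit 202) (nat_lit 135)))) (XT.nd (nat_lit 156) (nat_lit 0) (nat_lit 0) (XT.nd (nat_lit 78) (nat_lit 0) (nat_lit 0) (XT.lf (nat_lit 0) (nat_lit 9534717117999)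 (nat_lit 76) (nat_lit 1081496113162) (nat_lit 76) (nat_lit 1068181895517) (nat_lit 1) (nat_lit 4) (nat_lit 2) (nat_lit 5) (nat_lit 2) (nat_lit 4) (nat_lit 264) (nat_lit 202) (nat_lit 134)) (XT.lf (nat_lit 0) (nat_lit 10974581036494) (nat_lit 76) (nat_lit 1237466926568) (nat_lit 76) (nat_lit 1224152579418) (nat_lit 1) (nat_lit 4) (nat_lit 2) (nat_lit 5) (nat_lit 2) (nat_lit 4) (nat_lit 265) (nat_lit 202) (nat_lit 133))) (XT.nd (nat_lit 390) (nat_lit 0) (nat_lit 0) (XT.lf (nat_lit 0) (nat_lit 12630424367201) (nat_lit 76) (nat_lit 1416833439370) (nat_lit 76) (nat_lit 1403518979606) (nat_lit 1) (nat_lit 4) (nat_lit 2) (nat_lit 5) (nat_lit 2) (nat_lit 4) (nat_lit 266) (nat_lit 202) (nat_lit 132)) (XT.lf (nat_lit 0) (nat_lit 25469398050836) (nat_lit 76) (nat_lit 2807595520253) (nat_lit 76) (nat_lit 2794280682992) (nat_lit 1) (nat_lit 4) (nat_lit 2) (nat_lit 5) (nat_lit 2) (nat_lit 4) (nat_lit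 271) (nat_lit 202) (nat_lit 127))))))) (XT.nd (nat_lit 26598) (nat_lit 0) (nat_lit 76) (XT.nd (nat_lit 26052) (nat_lit 0) (nat_lit 608) (XT.nd (nat_lit 234) (nat_lit 0) (nat_lit 0) (XT.nd (nat_lit 78) (nat_lit 0) (nat_lit 0) (XT.lf (nat_lit 0) (nat_lit 29299463269278) (nat_lit 76) (nat_lit 3222481614969) (nat_lit 76) (nat_lit 3209166729021) (nat_lit 1) (nat_lit 4) (nat_lit 2) (nat_lit 5) (nat_lit 2) (nat_lit 4) (nat_lit 272) (nat_lit 202) (nat_lit 126)) (XT.nd (nat_lit 78) (nat_lit 0) (nat_lit 0) (XT.lf (nat_lit 0) (nat_lit 33704038204486) (nat_lit 76) (nat_lit 3699600652984) (nat_lit 76) (nat_lit 3686285724701) (nat_lit 1) (nat_lit 4) (nat_lit 2) (nat_lit 5) (nat_lit 2) (nat_lit 4) (nat_lit 273) (nat_lit 202) (nat_lit 125)) (XT.lf (nat_lit 0) (nat_lit 38769299322583) (nat_lit 76) (nat_lit 4248287571998) (nat_lit 76) (nat_lit 4234972606901) (nat_lit 1) (nat_lit 4) (nat_lit 2) (nat_lit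 5) (nat_lit 2) (nat_lit 4) (nat_lit 274) (nat_lit 202) (nat_lit 124)))) (XT.nd (nat_lit 25662) (nat_lit 0) (nat_lit 1064) (XT.lf (nat_lit 0) (nat_lit 44594349558489) (nat_lit 76) (nat_lit 4879277550862) (nat_lit 76) (nat_lit 4865962553753) (nat_lit 1) (nat_lit 4) (nat_lit 2) (nat_lit 5) (nat_lit 2) (nat_lit 4) (nat_lit 275) (nat_lit 202) (nat_lit 123)) (XT.nd (nat_lit 78) (nat_lit 0) (nat_lit 0) (XT.lf (nat_lit 0) (nat_lit 2726797167) (nat_lit 228) (nat_lit 470654190) (nat_lit 228) (nat_lit 470654190) (nat_lit 15) (nat_lit 3) (nat_lit 18) (nat_lit 3) (nat_lit 18) (nat_lit 5) (nat_lit 203) (nat_lit 203) (nat_lit 194)) (XT.lf (nat_lit 76) (nat_lit 2181779597) (nat_lit 0) (nat_lit 4944404200) (nat_lit 228) (nat_lit 540854409) (nat_lit 16) (nat_lit 5) (nat_lit 15) (nat_lit 3) (nat_lit 18) (nat_lit 5) (nat_lit 204) (nat_lit 203) (nat_lit 193))))) (XT.nd (nat_lit 234) (nat_lit 228) (nat_lit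 0) (XT.nd (nat_lit 78) (nat_lit 0) (nat_lit 0) (XT.lf (nat_lit 0) (nat_lit 734966119) (nat_lit 228) (nat_lit 2366654632) (nat_lit 304) (nat_lit 4970963997) (nat_lit 12) (nat_lit 5) (nat_lit 15) (nat_lit 3) (nat_lit 16) (nat_lit 5) (nat_lit 205) (nat_lit 203) (nat_lit 192)) (XT.nd (nat_lit 78) (nat_lit 0) (nat_lit 76) (XT.lf (nat_lit 76) (nat_lit 1156199533) (nat_lit 0) (nat_lit 838868233) (nat_lit 304) (nat_lit 6566809348) (nat_lit 13) (nat_lit 5) (nat_lit 12) (nat_lit 5) (nat_lit 16) (nat_lit 5) (nat_lit 206) (nat_lit 203) (nat_lit 191)) (XT.lf (nat_lit 0) (nat_lit 3469534191) (nat_lit 228) (nat_lit 3877990976) (nat_lit 76) (nat_lit 1776730752) (nat_lit 13) (nat_lit 5) (nat_lit 16) (nat_lit 5) (nat_lit 14) (nat_lit 5) (nat_lit 207) (nat_lit 203) (nat_lit 190)))) (XT.nd (nat_lit 156) (nat_lit 76) (nat_lit 0) (XT.nd (nat_lit 78) (nat_lit 228) (nat_lit 0) (XT.lf (nat_lit 0) (nat_lit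 5050971157) (nat_lit 228) (nat_lit 5915314) (nat_lit 76) (nat_lit 4734274134) (nat_lit 13) (nat_lit 5) (nat_lit 16) (nat_lit 5) (nat_lit 14) (nat_lit 5) (nat_lit 208) (nat_lit 203) (nat_lit 189)) (XT.lf (nat_lit 0) (nat_lit 4743326915) (nat_lit 228) (nat_lit 2188668213) (nat_lit 304) (nat_lit 3619392880) (nat_lit 10) (nat_lit 5) (nat_lit 13) (nat_lit 5) (nat_lit 14) (nat_lit 5) (nat_lit 209) (nat_lit 203) (nat_lit 188))) (XT.nd (nat_lit 78) (nat_lit 76) (nat_lit 0) (XT.lf (nat_lit 0) (nat_lit 9019971824) (nat_lit 304) (nat_lit 1406738945) (nat_lit 76) (nat_lit 1012516915) (nat_lit 10) (nat_lit 5) (nat_lit 14) (nat_lit 5) (nat_lit 11) (nat_lit 4) (nat_lit 210) (nat_lit 203) (nat_lit 187)) (XT.lf (nat_lit 0) (nat_lit 3763157516) (nat_lit 76) (nat_lit 7812400612) (nat_lit 152) (nat_lit 863521504) (nat_lit 9) (nat_lit 5) (nat_lit 10) (nat_lit 5) (nat_lit 11) (nat_lit 4) (nat_lit 211)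 (nat_lit 203) (nat_lit 186)))))) (XT.nd (nat_lit 546) (nat_lit 228) (nat_lit 0) (XT.nd (nat_lit 234) (nat_lit 76) (nat_lit 0) (XT.nd (nat_lit 78) (nat_lit 152) (nat_lit 0) (XT.lf (nat_lit 0) (nat_lit 817326247) (nat_lit 152) (nat_lit 3881494781) (nat_lit 76) (nat_lit 8889727313) (nat_lit 8) (nat_lit 5) (nat_lit 10) (nat_lit 5) (nat_lit 9) (nat_lit 5) (nat_lit 212) (nat_lit 203) (nat_lit 185)) (XT.nd (nat_lit 78) (nat_lit 0) (nat_lit 0) (XT.lf (nat_lit 0) (nat_lit 1623871250) (nat_lit 152) (nat_lit 1015800582) (nat_lit 228) (nat_lit 12269244596) (nat_lit 6) (nat_lit 5) (nat_lit 8) (nat_lit 5) (nat_lit 9) (nat_lit 5) (nat_lit 213) (nat_lit 203) (nat_lit 184)) (XT.lf (nat_lit 0) (nat_lit 4998029934) (nat_lit 228) (nat_lit 8267678696) (nat_lit 76) (nat_lit 3123374525) (nat_lit 6) (nat_lit 5) (nat_lit 9) (nat_lit 5) (nat_lit 7) (nat_lit 4) (nat_lit 214) (nat_lit 203) (nat_lit 183))))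 (XT.nd (nat_lit 156) (nat_lit 0) (nat_lit 0) (XT.nd (nat_lit 78) (nat_lit 76) (nat_lit 0) (XT.lf (nat_lit 0) (nat_lit 7686150458) (nat_lit 228) (nat_lit 2649610144) (nat_lit 76) (nat_lit 7760106484) (nat_lit 6) (nat_lit 5) (nat_lit 9) (nat_lit 5) (nat_lit 7) (nat_lit 4) (nat_lit 215) (nat_lit 203) (nat_lit 182)) (XT.lf (nat_lit 0) (nat_lit 4084798337) (nat_lit 76) (nat_lit 6798909383) (nat_lit 152) (nat_lit 9159892003) (nat_lit 5) (nat_lit 5) (nat_lit 6) (nat_lit 5) (nat_lit 7) (nat_lit 4) (nat_lit 216) (nat_lit 203) (nat_lit 181))) (XT.nd (nat_lit 78) (nat_lit 0) (nat_lit 0) (XT.lf (nat_lit 0) (nat_lit 12041212947) (nat_lit 76) (nat_lit 2599912945) (nat_lit 152) (nat_lit 7631083494) (nat_lit 5) (nat_lit 5) (nat_lit 6) (nat_lit 5) (nat_lit 7) (nat_lit 4) (nat_lit 217) (nat_lit 203) (nat_lit 180)) (XT.lf (nat_lit 0) (nat_lit 19002782261) (nat_lit 152) (nat_lit 3818300747) (nat_lit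 0) (nat_lit 2008586916) (nat_lit 5) (nat_lit 5) (nat_lit 7) (nat_lit 4) (nat_lit 5) (nat_lit 4) (nat_lit 218) (nat_lit 203) (nat_lit 179))))) (XT.nd (nat_lit 234) (nat_lit 76) (nat_lit 0) (XT.nd (nat_lit 78) (nat_lit 76) (nat_lit 0) (XT.lf (nat_lit 0) (nat_lit 3689684130) (nat_lit 76) (nat_lit 20560659942) (nat_lit 76) (nat_lit 3486224958) (nat_lit 4) (nat_lit 4) (nat_lit 5) (nat_lit 5) (nat_lit 5) (nat_lit 4) (nat_lit 219) (nat_lit 203) (nat_lit 178)) (XT.nd (nat_lit 78) (nat_lit 76) (nat_lit 0) (XT.lf (nat_lit 0) (nat_lit 12684941188) (nat_lit 76) (nat_lit 17757804274) (nat_lit 76) (nat_lit 613595690) (nat_lit 4) (nat_lit 4) (nat_lit 5) (nat_lit 5) (nat_lit 5) (nat_lit 4) (nat_lit 220) (nat_lit 203) (nat_lit 177)) (XT.lf (nat_lit 0) (nat_lit 2411902143) (nat_lit 152) (nat_lit 12019291671) (nat_lit 76) (nat_lit 20432333622) (nat_lit 3) (nat_lit 5) (nat_lit 5) (nat_lit 5) (nat_lit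 4) (nat_lit 4) (nat_lit 221) (nat_lit 203) (nat_lit 176)))) (XT.nd (nat_lit 156) (nat_lit 0) (nat_lit 0) (XT.nd (nat_lit 78) (nat_lit 76) (nat_lit 0) (XT.lf (nat_lit 0) (nat_lit 5794882545) (nat_lit 152) (nat_lit 4798642672) (nat_lit 76) (nat_lit 28649236635) (nat_lit 3) (nat_lit 5) (nat_lit 5) (nat_lit 5) (nat_lit 4) (nat_lit 4) (nat_lit 222) (nat_lit 203) (nat_lit 175)) (XT.lf (nat_lit 0) (nat_lit 3795093779) (nat_lit 76) (nat_lit 6018213754) (nat_lit 152) (nat_lit 34446656684) (nat_lit 2) (nat_lit 5) (nat_lit 3) (nat_lit 5) (nat_lit 4) (nat_lit 4) (nat_lit 223) (nat_lit 203) (nat_lit 174))) (XT.nd (nat_lit 78) (nat_lit 0) (nat_lit 0) (XT.lf (nat_lit 0) (nat_lit 14171493464) (nat_lit 76) (nat_lit 486601495) (nat_lit 152) (nat_lit 35338357752) (nat_lit 2) (nat_lit 5) (nat_lit 3) (nat_lit 5) (nat_lit 4) (nat_lit 4) (nat_lit 224) (nat_lit 203) (nat_lit 173)) (XT.lf (nat_lit 0) (nat_lit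 20448510321) (nat_lit 152) (nat_lit 30775162661) (nat_lit 0) (nat_lit 5337118573) (nat_lit 2) (nat_lit 5) (nat_lit 4) (nat_lit 4) (nat_lit 2) (nat_lit 4) (nat_lit 225) (nat_lit 203) (nat_lit 172))))))))
noncomputable def xc29 : XT := (XT.nd (nat_lit 2106) (nat_lit 0) (nat_lit 0) (XT.nd (nat_lit 1014) (nat_lit 0) (nat_lit 0) (XT.nd (nat_lit 468) (nat_lit 0) (nat_lit 0) (XT.nd (nat_lit 234) (nat_lit 76) (nat_lit 0) (XT.nd (nat_lit 78) (nat_lit 0) (nat_lit 0) (XT.lf (nat_lit 0) (nat_lit 27109484567) (nat_lit 152) (nat_lit 25028320524) (nat_lit 0) (nat_lit 11971862338) (nat_lit 2) (nat_lit 5) (nat_lit 4) (nat_lit 4) (nat_lit 2) (nat_lit 4) (nat_lit 226) (nat_lit 203) (nat_lit 171)) (XT.nd (nat_lit 78) (nat_lit 0) (nat_lit 0) (XT.lf (nat_lit 0) (nat_lit 34751191977) (nat_lit 152) (nat_lit 18451845491) (nat_lit 0) (nat_lit 19590760635) (nat_lit 2) (nat_lit 5) (nat_lit 4) (nat_lit 4) (nat_lit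 2) (nat_lit 4) (nat_lit 227) (nat_lit 203) (nat_lit 170)) (XT.lf (nat_lit 0) (nat_lit 43523144217) (nat_lit 152) (nat_lit 10917067399) (nat_lit 0) (nat_lit 28342878863) (nat_lit 2) (nat_lit 5) (nat_lit 4) (nat_lit 4) (nat_lit 2) (nat_lit 4) (nat_lit 228) (nat_lit 203) (nat_lit 169)))) (XT.nd (nat_lit 78) (nat_lit 76) (nat_lit 0) (XT.lf (nat_lit 0) (nat_lit 53596966441) (nat_lit 152) (nat_lit 2276566676) (nat_lit 0) (nat_lit 38399454120) (nat_lit 2) (nat_lit 5) (nat_lit 4) (nat_lit 4) (nat_lit 2) (nat_lit 4) (nat_lit 229) (nat_lit 203) (nat_lit 168)) (XT.nd (nat_lit 78) (nat_lit 0) (nat_lit 0) (XT.lf (nat_lit 0) (nat_lit 8385220242) (nat_lit 76) (nat_lit 57131749015) (nat_lit 76) (nat_lit 41919239332) (nat_lit 1) (nat_lit 4) (nat_lit 2) (nat_lit 5) (nat_lit 2) (nat_lit 4) (nat_lit 230) (nat_lit 203) (nat_lit 167)) (XT.lf (nat_lit 0) (nat_lit 20881799192) (nat_lit 76) (nat_lit 58450806110)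 (nat_lit 76) (nat_lit 43225255243) (nat_lit 1) (nat_lit 4) (nat_lit 2) (nat_lit 5) (nat_lit 2) (nat_lit 4) (nat_lit 231) (nat_lit 203) (nat_lit 166))))) (XT.nd (nat_lit 234) (nat_lit 0) (nat_lit 0) (XT.nd (nat_lit 78) (nat_lit 0) (nat_lit 0) (XT.lf (nat_lit 0) (nat_lit 35235185805) (nat_lit 76) (nat_lit 59975514391) (nat_lit 76) (nat_lit 44738623363) (nat_lit 1) (nat_lit 4) (nat_lit 2) (nat_lit 5) (nat_lit 2) (nat_lit 4) (nat_lit 232) (nat_lit 203) (nat_lit 165)) (XT.nd (nat_lit 78) (nat_lit 0) (nat_lit 0) (XT.lf (nat_lit 0) (nat_lit 51726207209) (nat_lit 76) (nat_lit 61735705106) (nat_lit 76) (nat_lit 46488953069) (nat_lit 1) (nat_lit 4) (nat_lit 2) (nat_lit 5) (nat_lit 2) (nat_lit 4) (nat_lit 233) (nat_lit 203) (nat_lit 164)) (XT.lf (nat_lit 0) (nat_lit 70677513824) (nat_lit 76) (nat_lit 63765816770) (nat_lit 76) (nat_lit 48510489942) (nat_lit 1) (nat_lit 4) (nat_lit 2) (nat_lit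 5) (nat_lit 2) (nat_lit 4) (nat_lit 234) (nat_lit 203) (nat_lit 163)))) (XT.nd (nat_lit 156) (nat_lit 0) (nat_lit 0) (XT.nd (nat_lit 78) (nat_lit 0) (nat_lit 0) (XT.lf (nat_lit 0) (nat_lit 92459892083) (nat_lit 76) (nat_lit 66105568958) (nat_lit 76) (nat_lit 50842785790) (nat_lit 1) (nat_lit 4) (nat_lit 2) (nat_lit 5) (nat_lit 2) (nat_lit 4) (nat_lit 235) (nat_lit 203) (nat_lit 162)) (XT.lf (nat_lit 0) (nat_lit 117499518953) (nat_lit 76) (nat_lit 68800739430) (nat_lit 76) (nat_lit 53531472489) (nat_lit 1) (nat_lit 4) (nat_lit 2) (nat_lit 5) (nat_lit 2) (nat_lit 4) (nat_lit 236) (nat_lit 203) (nat_lit 161))) (XT.nd (nat_lit 78) (nat_lit 0) (nat_lit 0) (XT.lf (nat_lit 0) (nat_lit 146286300176) (nat_lit 76) (nat_lit 71904059784) (nat_lit 76) (nat_lit 56629154778) (nat_lit 1) (nat_lit 4) (nat_lit 2) (nat_lit 5) (nat_lit 2) (nat_lit 4) (nat_lit 237) (nat_lit 203) (nat_lit 160)) (XT.lf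 (nat_lit 0) (nat_lit 179383455385) (nat_lit 76) (nat_lit 75476247155) (nat_lit 76) (nat_lit 60196439485) (nat_lit 1) (nat_lit 4) (nat_lit 2) (nat_lit 5) (nat_lit 2) (nat_lit 4) (nat_lit 238) (nat_lit 203) (nat_lit 159)))))) (XT.nd (nat_lit 546) (nat_lit 0) (nat_lit 0) (XT.nd (nat_lit 234) (nat_lit 0) (nat_lit 0) (XT.nd (nat_lit 78) (nat_lit 0) (nat_lit 0) (XT.lf (nat_lit 0) (nat_lit 217438537617) (nat_lit 76) (nat_lit 79587192167) (nat_lit 76) (nat_lit 64303121311) (nat_lit 1) (nat_lit 4) (nat_lit 2) (nat_lit 5) (nat_lit 2) (nat_lit 4) (nat_lit 239) (nat_lit 203) (nat_lit 158)) (XT.nd (nat_lit 78) (nat_lit 0) (nat_lit 0) (XT.lf (nat_lit 0) (nat_lit 261196102828) (nat_lit 76) (nat_lit 84317326353) (nat_lit 76) (nat_lit 69029548378) (nat_lit 1) (nat_lit 4) (nat_lit 2) (nat_lit 5) (nat_lit 2) (nat_lit 4) (nat_lit 240) (nat_lit 203) (nat_lit 157)) (XT.lf (nat_lit 0) (nat_lit 311512277294)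 (nat_lit 76) (nat_lit 89759195815) (nat_lit 76) (nat_lit 74468194259) (nat_lit 1) (nat_lit 4) (nat_lit 2) (nat_lit 5) (nat_lit 2) (nat_lit 4) (nat_lit 241) (nat_lit 203) (nat_lit 156)))) (XT.nd (nat_lit 156) (nat_lit 0) (nat_lit 0) (XT.nd (nat_lit 78) (nat_lit 0) (nat_lit 0) (XT.lf (nat_lit 0) (nat_lit 369371507908) (nat_lit 76) (nat_lit 96019271914) (nat_lit 76) (nat_lit 80725467244) (nat_lit 1) (nat_lit 4) (nat_lit 2) (nat_lit 5) (nat_lit 2) (nat_lit 4) (nat_lit 242) (nat_lit 203) (nat_lit 155)) (XT.lf (nat_lit 0) (nat_lit 435905823093) (nat_lit 76) (nat_lit 103220034399) (nat_lit 76) (nat_lit 87923792238) (nat_lit 1) (nat_lit 4) (nat_lit 2) (nat_lit 5) (nat_lit 2) (nat_lit 4) (nat_lit 243) (nat_lit 203) (nat_lit 154))) (XT.nd (nat_lit 78) (nat_lit 0) (nat_lit 0) (XT.lf (nat_lit 0) (nat_lit 512416981192) (nat_lit 76) (nat_lit 111502367753) (nat_lit 76) (nat_lit 96204006035) (nat_lit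 1) (nat_lit 4) (nat_lit 2) (nat_lit 5) (nat_lit 2) (nat_lit 4) (nat_lit 244) (nat_lit 203) (nat_lit 153)) (XT.lf (nat_lit 0) (nat_lit 600401939644) (nat_lit 76) (nat_lit 121028317629) (nat_lit 76) (nat_lit 105728112818) (nat_lit 1) (nat_lit 4) (nat_lit 2) (nat_lit 5) (nat_lit 2) (nat_lit 4) (nat_lit 245) (nat_lit 203) (nat_lit 152))))) (XT.nd (nat_lit 234) (nat_lit 0) (nat_lit 0) (XT.nd (nat_lit 78) (nat_lit 0) (nat_lit 0) (XT.lf (nat_lit 0) (nat_lit 701582143288) (nat_lit 76) (nat_lit 131984261307) (nat_lit 76) (nat_lit 116682453807) (nat_lit 1) (nat_lit 4) (nat_lit 2) (nat_lit 5) (nat_lit 2) (nat_lit 4) (nat_lit 246) (nat_lit 203) (nat_lit 151)) (XT.nd (nat_lit 78) (nat_lit 0) (nat_lit 0) (XT.lf (nat_lit 0) (nat_lit 817937204806) (nat_lit 76) (nat_lit 144584554207) (nat_lit 76) (nat_lit 129281353063) (nat_lit 1) (nat_lit 4) (nat_lit 2) (nat_lit 5) (nat_lit 2) (nat_lit 4) (nat_lit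 247) (nat_lit 203) (nat_lit 150)) (XT.lf (nat_lit 0) (nat_lit 951743636270) (nat_lit 76) (nat_lit 159075723799) (nat_lit 76) (nat_lit 143771310791) (nat_lit 1) (nat_lit 4) (nat_lit 2) (nat_lit 5) (nat_lit 2) (nat_lit 4) (nat_lit 248) (nat_lit 203) (nat_lit 149)))) (XT.nd (nat_lit 156) (nat_lit 0) (nat_lit 0) (XT.nd (nat_lit 78) (nat_lit 0) (nat_lit 0) (XT.lf (nat_lit 0) (nat_lit 1105619389601) (nat_lit 76) (nat_lit 175741292966) (nat_lit 76) (nat_lit 160435826163) (nat_lit 1) (nat_lit 4) (nat_lit 2) (nat_lit 5) (nat_lit 2) (nat_lit 4) (nat_lit 249) (nat_lit 203) (nat_lit 148)) (XT.lf (nat_lit 0) (nat_lit 1282575077362) (nat_lit 76) (nat_lit 194907327191) (nat_lit 76) (nat_lit 179600944046) (nat_lit 1) (nat_lit 4) (nat_lit 2) (nat_lit 5) (nat_lit 2) (nat_lit 4) (nat_lit 250) (nat_lit 203) (nat_lit 147))) (XT.nd (nat_lit 78) (nat_lit 0) (nat_lit 0) (XT.lf (nat_lit 0) (nat_lit 1486072876055)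 (nat_lit 76) (nat_lit 216948814101) (nat_lit 76) (nat_lit 201641634136) (nat_lit 1) (nat_lit 4) (nat_lit 2) (nat_lit 5) (nat_lit 2) (nat_lit 4) (nat_lit 251) (nat_lit 203) (nat_lit 146)) (XT.lf (nat_lit 0) (nat_lit 1720094264348) (nat_lit 76) (nat_lit 242297000179) (nat_lit 76) (nat_lit 226989127327) (nat_lit 1) (nat_lit 4) (nat_lit 2) (nat_lit 5) (nat_lit 2) (nat_lit 4) (nat_lit 252) (nat_lit 203) (nat_lit 145))))))) (XT.nd (nat_lit 1014) (nat_lit 0) (nat_lit 0) (XT.nd (nat_lit 468) (nat_lit 0) (nat_lit 0) (XT.nd (nat_lit 234) (nat_lit 0) (nat_lit 0) (XT.nd (nat_lit 78) (nat_lit 0) (nat_lit 0) (XT.lf (nat_lit 0) (nat_lit 1989217921579) (nat_lit 76) (nat_lit 271447828196) (nat_lit 76) (nat_lit 256139352833) (nat_lit 1) (nat_lit 4) (nat_lit 2) (nat_lit 5) (nat_lit 2) (nat_lit 4) (nat_lit 253) (nat_lit 203) (nat_lit 144)) (XT.nd (nat_lit 78) (nat_lit 0) (nat_lit 0) (XT.lf (nat_lit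 0) (nat_lit 2298709310605) (nat_lit 76) (nat_lit 304971640439) (nat_lit 76) (nat_lit 289662641154) (nat_lit 1) (nat_lit 4) (nat_lit 2) (nat_lit 5) (nat_lit 2) (nat_lit 4) (nat_lit 254) (nat_lit 203) (nat_lit 143)) (XT.lf (nat_lit 0) (nat_lit 2654623697735) (nat_lit 76) (nat_lit 343524337582) (nat_lit 76) (nat_lit 328214882713) (nat_lit 1) (nat_lit 4) (nat_lit 2) (nat_lit 5) (nat_lit 2) (nat_lit 4) (nat_lit 255) (nat_lit 203) (nat_lit 142)))) (XT.nd (nat_lit 78) (nat_lit 0) (nat_lit 0) (XT.lf (nat_lit 0) (nat_lit 3063924625325) (nat_lit 76) (nat_lit 387860211527) (nat_lit 76) (nat_lit 372550360498) (nat_lit 1) (nat_lit 4) (nat_lit 2) (nat_lit 5) (nat_lit 2) (nat_lit 4) (nat_lit 256) (nat_lit 203) (nat_lit 141)) (XT.nd (nat_lit 78) (nat_lit 0) (nat_lit 0) (XT.lf (nat_lit 0) (nat_lit 3534620155002) (nat_lit 76) (nat_lit 438846703285) (nat_lit 76) (nat_lit 423536507768) (nat_lit 1) (nat_lit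 4) (nat_lit 2) (nat_lit 5) (nat_lit 2) (nat_lit 4) (nat_lit 257) (nat_lit 203) (nat_lit 140)) (XT.lf (nat_lit 0) (nat_lit 4075919547128) (nat_lit 76) (nat_lit 497481374651) (nat_lit 76) (nat_lit 482170879580) (nat_lit 1) (nat_lit 4) (nat_lit 2) (nat_lit 5) (nat_lit 2) (nat_lit 4) (nat_lit 258) (nat_lit 203) (nat_lit 139))))) (XT.nd (nat_lit 234) (nat_lit 0) (nat_lit 0) (XT.nd (nat_lit 78) (nat_lit 0) (nat_lit 0) (XT.lf (nat_lit 0) (nat_lit 4698413441985) (nat_lit 76) (nat_lit 564911425718) (nat_lit 76) (nat_lit 549600670165) (nat_lit 1) (nat_lit 4) (nat_lit 2) (nat_lit 5) (nat_lit 2) (nat_lit 4) (nat_lit 259) (nat_lit 203) (nat_lit 138)) (XT.nd (nat_lit 78) (nat_lit 0) (nat_lit 0) (XT.lf (nat_lit 0) (nat_lit 5414281067951) (nat_lit 76) (nat_lit 642456140092) (nat_lit 76) (nat_lit 627145158034) (nat_lit 1) (nat_lit 4) (nat_lit 2) (nat_lit 5) (nat_lit 2) (nat_lit 4) (nat_lit 260) (nat_lit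 203) (nat_lit 137)) (XT.lf (nat_lit 0) (nat_lit 6237528530751) (nat_lit 76) (nat_lit 731632696970) (nat_lit 76) (nat_lit 716321517949) (nat_lit 1) (nat_lit 4) (nat_lit 2) (nat_lit 5) (nat_lit 2) (nat_lit 4) (nat_lit 261) (nat_lit 203) (nat_lit 136)))) (XT.nd (nat_lit 156) (nat_lit 0) (nat_lit 0) (XT.nd (nat_lit 78) (nat_lit 0) (nat_lit 0) (XT.lf (nat_lit 0) (nat_lit 7184262845960) (nat_lit 76) (nat_lit 834185855071) (nat_lit 76) (nat_lit 818874504779) (nat_lit 1) (nat_lit 4) (nat_lit 2) (nat_lit 5) (nat_lit 2) (nat_lit 4) (nat_lit 262) (nat_lit 203) (nat_lit 135)) (XT.lf (nat_lit 0) (nat_lit 8273007076269) (nat_lit 76) (nat_lit 952122089228) (nat_lit 76) (nat_lit 936810590006) (nat_lit 1) (nat_lit 4) (nat_lit 2) (nat_lit 5) (nat_lit 2) (nat_lit 4) (nat_lit 263) (nat_lit 203) (nat_lit 134))) (XT.nd (nat_lit 78) (nat_lit 0) (nat_lit 0) (XT.lf (nat_lit 0) (nat_lit 9525062739227) (nat_lit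 76) (nat_lit 1087748847502) (nat_lit 76) (nat_lit 1072437218774) (nat_lit 1) (nat_lit 4) (nat_lit 2) (nat_lit 5) (nat_lit 2) (nat_lit 4) (nat_lit 264) (nat_lit 203) (nat_lit 133)) (XT.lf (nat_lit 0) (nat_lit 10964926576065) (nat_lit 76) (nat_lit 1243719696901) (nat_lit 76) (nat_lit 1228407955559) (nat_lit 1) (nat_lit 4) (nat_lit 2) (nat_lit 5) (nat_lit 2) (nat_lit 4) (nat_lit 265) (nat_lit 203) (nat_lit 132)))))) (XT.nd (nat_lit 26676) (nat_lit 0) (nat_lit 532) (XT.nd (nat_lit 1014) (nat_lit 0) (nat_lit 0) (XT.nd (nat_lit 468) (nat_lit 0) (nat_lit 0) (XT.lf (nat_lit 0) (nat_lit 12620769835765) (nat_lit 76) (nat_lit 1423086241001) (nat_lit 76) (nat_lit 1407774401735) (nat_lit 1) (nat_lit 4) (nat_lit 2) (nat_lit 5) (nat_lit 2) (nat_lit 4) (nat_lit 266) (nat_lit 203) (nat_lit 131)) (XT.nd (nat_lit 78) (nat_lit 0) (nat_lit 0) (XT.lf (nat_lit 0) (nat_lit 29289808469120) (nat_lit 76) (nat_lit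 3228734535048) (nat_lit 76) (nat_lit 3213422325186) (nat_lit 1) (nat_lit 4) (nat_lit 2) (nat_lit 5) (nat_lit 2) (nat_lit 4) (nat_lit 272) (nat_lit 203) (nat_lit 125)) (XT.lf (nat_lit 0) (nat_lit 33694383377634) (nat_lit 76) (nat_lit 3705853584829) (nat_lit 76) (nat_lit 3690541338154) (nat_lit 1) (nat_lit 4) (nat_lit 2) (nat_lit 5) (nat_lit 2) (nat_lit 4) (nat_lit 273) (nat_lit 203) (nat_lit 124)))) (XT.nd (nat_lit 25506) (nat_lit 0) (nat_lit 836) (XT.nd (nat_lit 25428) (nat_lit 0) (nat_lit 836) (XT.lf (nat_lit 0) (nat_lit 78034353438768) (nat_lit 76) (nat_lit 8508915747749) (nat_lit 76) (nat_lit 8493603361754) (nat_lit 1) (nat_lit 4) (nat_lit 2) (nat_lit 5) (nat_lit 2) (nat_lit 4) (nat_lit 279) (nat_lit 203) (nat_lit 118)) (XT.lf (nat_lit 0) (nat_lit 114285623) (nat_lit 0) (nat_lit 114285623) (nat_lit 228) (nat_lit 3789383772) (nat_lit 12) (nat_lit 5) (nat_lit 12) (nat_lit 3) (nat_lit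 15) (nat_lit 3) (nat_lit 204) (nat_lit 204) (nat_lit 192))) (XT.nd (nat_lit 78) (nat_lit 0) (nat_lit 0) (XT.lf (nat_lit 0) (nat_lit 1582513110) (nat_lit 228) (nat_lit 4767116172) (nat_lit 304) (nat_lit 2105682279) (nat_lit 12) (nat_lit 5) (nat_lit 15) (nat_lit 3) (nat_lit 16) (nat_lit 5) (nat_lit 205) (nat_lit 204) (nat_lit 191)) (XT.lf (nat_lit 0) (nat_lit 2714013203) (nat_lit 228) (nat_lit 1404108256) (nat_lit 304) (nat_lit 4847398287) (nat_lit 12) (nat_lit 5) (nat_lit 15) (nat_lit 3) (nat_lit 16) (nat_lit 5) (nat_lit 206) (nat_lit 204) (nat_lit 190))))) (XT.nd (nat_lit 234) (nat_lit 152) (nat_lit 0) (XT.nd (nat_lit 78) (nat_lit 152) (nat_lit 0) (XT.lf (nat_lit 76) (nat_lit 2587285644) (nat_lit 0) (nat_lit 1384164508) (nat_lit 304) (nat_lit 5590416377) (nat_lit 13) (nat_lit 5) (nat_lit 12) (nat_lit 5) (nat_lit 16) (nat_lit 5) (nat_lit 207) (nat_lit 204) (nat_lit 189)) (XT.nd (nat_lit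 78) (nat_lit 228) (nat_lit 0) (XT.lf (nat_lit 0) (nat_lit 5433227823) (nat_lit 228) (nat_lit 3103761339) (nat_lit 76) (nat_lit 1710960127) (nat_lit 13) (nat_lit 5) (nat_lit 16) (nat_lit 5) (nat_lit 14) (nat_lit 5) (nat_lit 208) (nat_lit 204) (nat_lit 188)) (XT.lf (nat_lit 0) (nat_lit 1286827768) (nat_lit 228) (nat_lit 5830085598) (nat_lit 304) (nat_lit 3921932943) (nat_lit 10) (nat_lit 5) (nat_lit 13) (nat_lit 5) (nat_lit 14) (nat_lit 5) (nat_lit 209) (nat_lit 204) (nat_lit 187)))) (XT.nd (nat_lit 156) (nat_lit 152) (nat_lit 0) (XT.nd (nat_lit 78) (nat_lit 0) (nat_lit 0) (XT.lf (nat_lit 0) (nat_lit 6580300022) (nat_lit 228) (nat_lit 2529412415) (nat_lit 304) (nat_lit 2832179626) (nat_lit 10) (nat_lit 5) (nat_lit 13) (nat_lit 5) (nat_lit 14) (nat_lit 5) (nat_lit 210) (nat_lit 204) (nat_lit 186)) (XT.lf (nat_lit 0) (nat_lit 11362013477) (nat_lit 304) (nat_lit 471494574) (nat_lit 76)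 (nat_lit 1154536956) (nat_lit 10) (nat_lit 5) (nat_lit 14) (nat_lit 5) (nat_lit 11) (nat_lit 4) (nat_lit 211) (nat_lit 204) (nat_lit 185))) (XT.nd (nat_lit 78) (nat_lit 0) (nat_lit 0) (XT.lf (nat_lit 0) (nat_lit 58637679) (nat_lit 152) (nat_lit 8733751595) (nat_lit 76) (nat_lit 5360081016) (nat_lit 8) (nat_lit 5) (nat_lit 10) (nat_lit 5) (nat_lit 9) (nat_lit 5) (nat_lit 212) (nat_lit 204) (nat_lit 184)) (XT.lf (nat_lit 0) (nat_lit 1777559319) (nat_lit 152) (nat_lit 3418120071) (nat_lit 76) (nat_lit 10293203988) (nat_lit 8) (nat_lit 5) (nat_lit 10) (nat_lit 5) (nat_lit 9) (nat_lit 5) (nat_lit 213) (nat_lit 204) (nat_lit 183))))))))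
noncomputable def xc30 : XT := (XT.nd (nat_lit 2106) (nat_lit 0) (nat_lit 0) (XT.nd (nat_lit 1014) (nat_lit 76) (nat_lit 0) (XT.nd (nat_lit 468) (nat_lit 228) (nat_lit 0) (XT.nd (nat_lit 234) (nat_lit 76) (nat_lit 0) (XT.nd (nat_lit 78) (nat_lit 0) (nat_lit 0) (XT.lf (nat_lit 0) (nat_lit 2865523642) (nat_lit 152) (nat_lit 939804495) (nat_lit 228) (nat_lit 13213772453) (nat_lit 6) (nat_lit 5) (nat_lit 8) (nat_lit 5) (nat_lit 9) (nat_lit 5) (nat_lit 214) (nat_lit 204) (nat_lit 182)) (XT.nd (nat_lit 78) (nat_lit 0) (nat_lit 0) (XT.lf (nat_lit 0) (nat_lit 6425266325) (nat_lit 228) (nat_lit 8538466282) (nat_lit 76) (nat_lit 3772781086) (nat_lit 6) (nat_lit 5) (nat_lit 9) (nat_lit 5) (nat_lit 7) (nat_lit 4) (nat_lit 215) (nat_lit 204) (nat_lit 181)) (XT.lf (nat_lit 0) (nat_lit 9428231201) (nat_lit 228) (nat_lit 2204126259) (nat_lit 76) (nat_lit 9081427136) (nat_lit 6) (nat_lit 5) (nat_lit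 9) (nat_lit 5) (nat_lit 7) (nat_lit 4) (nat_lit 216) (nat_lit 204) (nat_lit 180)))) (XT.nd (nat_lit 78) (nat_lit 0) (nat_lit 0) (XT.lf (nat_lit 0) (nat_lit 5502128704) (nat_lit 76) (nat_lit 7559763840) (nat_lit 152) (nat_lit 9899369075) (nat_lit 5) (nat_lit 5) (nat_lit 6) (nat_lit 5) (nat_lit 7) (nat_lit 4) (nat_lit 217) (nat_lit 204) (nat_lit 179)) (XT.nd (nat_lit 78) (nat_lit 0) (nat_lit 0) (XT.lf (nat_lit 0) (nat_lit 14547056294) (nat_lit 76) (nat_lit 2764698191) (nat_lit 152) (nat_lit 8224001037) (nat_lit 5) (nat_lit 5) (nat_lit 6) (nat_lit 5) (nat_lit 7) (nat_lit 4) (nat_lit 218) (nat_lit 204) (nat_lit 178)) (XT.lf (nat_lit 0) (nat_lit 22273882062) (nat_lit 152) (nat_lit 3723548854) (nat_lit 0) (nat_lit 2488268591) (nat_lit 5) (nat_lit 5) (nat_lit 7) (nat_lit 4) (nat_lit 5) (nat_lit 4) (nat_lit 219) (nat_lit 204) (nat_lit 177))))) (XT.nd (nat_lit 234) (nat_lit 76) (nat_lit 0)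 (XT.nd (nat_lit 78) (nat_lit 76) (nat_lit 0) (XT.lf (nat_lit 0) (nat_lit 4880292981) (nat_lit 76) (nat_lit 23399796819) (nat_lit 76) (nat_lit 3553510653) (nat_lit 4) (nat_lit 4) (nat_lit 5) (nat_lit 5) (nat_lit 5) (nat_lit 4) (nat_lit 220) (nat_lit 204) (nat_lit 176)) (XT.nd (nat_lit 78) (nat_lit 76) (nat_lit 0) (XT.lf (nat_lit 0) (nat_lit 15141731263) (nat_lit 76) (nat_lit 20208464381) (nat_lit 76) (nat_lit 309419350) (nat_lit 4) (nat_lit 4) (nat_lit 5) (nat_lit 5) (nat_lit 5) (nat_lit 4) (nat_lit 221) (nat_lit 204) (nat_lit 175)) (XT.lf (nat_lit 0) (nat_lit 3087549928) (nat_lit 152) (nat_lit 13306689960) (nat_lit 76) (nat_lit 23648696405) (nat_lit 3) (nat_lit 5) (nat_lit 5) (nat_lit 5) (nat_lit 4) (nat_lit 4) (nat_lit 222) (nat_lit 204) (nat_lit 174)))) (XT.nd (nat_lit 156) (nat_lit 0) (nat_lit 0) (XT.nd (nat_lit 78) (nat_lit 76) (nat_lit 0) (XT.lf (nat_lit 0) (nat_lit 6937038808)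 (nat_lit 152) (nat_lit 5070182149) (nat_lit 76) (nat_lit 33078372339) (nat_lit 3) (nat_lit 5) (nat_lit 5) (nat_lit 5) (nat_lit 4) (nat_lit 4) (nat_lit 223) (nat_lit 204) (nat_lit 173)) (XT.lf (nat_lit 0) (nat_lit 4792239454) (nat_lit 76) (nat_lit 6748106988) (nat_lit 152) (nat_lit 39318056641) (nat_lit 2) (nat_lit 5) (nat_lit 3) (nat_lit 5) (nat_lit 4) (nat_lit 4) (nat_lit 224) (nat_lit 204) (nat_lit 172))) (XT.nd (nat_lit 78) (nat_lit 0) (nat_lit 0) (XT.lf (nat_lit 0) (nat_lit 16669288448) (nat_lit 76) (nat_lit 409297085) (nat_lit 152) (nat_lit 40382069202) (nat_lit 2) (nat_lit 5) (nat_lit 3) (nat_lit 5) (nat_lit 4) (nat_lit 4) (nat_lit 225) (nat_lit 204) (nat_lit 171)) (XT.lf (nat_lit 0) (nat_lit 23714047487) (nat_lit 152) (nat_lit 35042642740) (nat_lit 0) (nat_lit 6256742330) (nat_lit 2) (nat_lit 5) (nat_lit 4) (nat_lit 4) (nat_lit 2) (nat_lit 4) (nat_lit 226) (nat_lit 204) (nat_lit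 170)))))) (XT.nd (nat_lit 546) (nat_lit 0) (nat_lit 0) (XT.nd (nat_lit 234) (nat_lit 76) (nat_lit 0) (XT.nd (nat_lit 78) (nat_lit 0) (nat_lit 0) (XT.lf (nat_lit 0) (nat_lit 31348307789) (nat_lit 152) (nat_lit 28479269194) (nat_lit 0) (nat_lit 13871168620) (nat_lit 2) (nat_lit 5) (nat_lit 4) (nat_lit 4) (nat_lit 2) (nat_lit 4) (nat_lit 227) (nat_lit 204) (nat_lit 169)) (XT.nd (nat_lit 78) (nat_lit 0) (nat_lit 0) (XT.lf (nat_lit 0) (nat_lit 40113784284) (nat_lit 152) (nat_lit 20955883699) (nat_lit 0) (nat_lit 22619398148) (nat_lit 2) (nat_lit 5) (nat_lit 4) (nat_lit 4) (nat_lit 2) (nat_lit 4) (nat_lit 228) (nat_lit 204) (nat_lit 168)) (XT.lf (nat_lit 0) (nat_lit 50181975424) (nat_lit 152) (nat_lit 12325289582) (nat_lit 0) (nat_lit 32672591926) (nat_lit 2) (nat_lit 5) (nat_lit 4) (nat_lit 4) (nat_lit 2) (nat_lit 4) (nat_lit 229) (nat_lit 204) (nat_lit 167)))) (XT.nd (nat_lit 156) (nat_lit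 0) (nat_lit 0) (XT.nd (nat_lit 78) (nat_lit 76) (nat_lit 0) (XT.lf (nat_lit 0) (nat_lit 61749867558) (nat_lit 152) (nat_lit 2418627393) (nat_lit 0) (nat_lit 44227442876) (nat_lit 2) (nat_lit 5) (nat_lit 4) (nat_lit 4) (nat_lit 2) (nat_lit 4) (nat_lit 230) (nat_lit 204) (nat_lit 166)) (XT.lf (nat_lit 0) (nat_lit 9833362822) (nat_lit 76) (nat_lit 65617604773) (nat_lit 76) (nat_lit 48083839930) (nat_lit 1) (nat_lit 4) (nat_lit 2) (nat_lit 5) (nat_lit 2) (nat_lit 4) (nat_lit 231) (nat_lit 204) (nat_lit 165))) (XT.nd (nat_lit 78) (nat_lit 0) (nat_lit 0) (XT.lf (nat_lit 0) (nat_lit 24179599109) (nat_lit 76) (nat_lit 67145464771) (nat_lit 76) (nat_lit 49601838919) (nat_lit 1) (nat_lit 4) (nat_lit 2) (nat_lit 5) (nat_lit 2) (nat_lit 4) (nat_lit 232) (nat_lit 204) (nat_lit 164)) (XT.lf (nat_lit 0) (nat_lit 40664402839) (nat_lit 76) (nat_lit 68908396110) (nat_lit 76) (nat_lit 51356195467)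 (nat_lit 1) (nat_lit 4) (nat_lit 2) (nat_lit 5) (nat_lit 2) (nat_lit 4) (nat_lit 233) (nat_lit 204) (nat_lit 163))))) (XT.nd (nat_lit 234) (nat_lit 0) (nat_lit 0) (XT.nd (nat_lit 78) (nat_lit 0) (nat_lit 0) (XT.lf (nat_lit 0) (nat_lit 59610302781) (nat_lit 76) (nat_lit 70940890924) (nat_lit 76) (nat_lit 53381233942) (nat_lit 1) (nat_lit 4) (nat_lit 2) (nat_lit 5) (nat_lit 2) (nat_lit 4) (nat_lit 234) (nat_lit 204) (nat_lit 162)) (XT.nd (nat_lit 78) (nat_lit 0) (nat_lit 0) (XT.lf (nat_lit 0) (nat_lit 81387979585) (nat_lit 76) (nat_lit 73282715418) (nat_lit 76) (nat_lit 55716574661) (nat_lit 1) (nat_lit 4) (nat_lit 2) (nat_lit 5) (nat_lit 2) (nat_lit 4) (nat_lit 235) (nat_lit 204) (nat_lit 161)) (XT.lf (nat_lit 0) (nat_lit 106423518233) (nat_lit 76) (nat_lit 75979687895) (nat_lit 76) (nat_lit 58407909075) (nat_lit 1) (nat_lit 4) (nat_lit 2) (nat_lit 5) (nat_lit 2) (nat_lit 4) (nat_lit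 236) (nat_lit 204) (nat_lit 160)))) (XT.nd (nat_lit 156) (nat_lit 0) (nat_lit 0) (XT.nd (nat_lit 78) (nat_lit 0) (nat_lit 0) (XT.lf (nat_lit 0) (nat_lit 135206744480) (nat_lit 76) (nat_lit 79084575209) (nat_lit 76) (nat_lit 61507893724) (nat_lit 1) (nat_lit 4) (nat_lit 2) (nat_lit 5) (nat_lit 2) (nat_lit 4) (nat_lit 237) (nat_lit 204) (nat_lit 159)) (XT.lf (nat_lit 0) (nat_lit 168300808406) (nat_lit 76) (nat_lit 82658125154) (nat_lit 76) (nat_lit 65077180484) (nat_lit 1) (nat_lit 4) (nat_lit 2) (nat_lit 5) (nat_lit 2) (nat_lit 4) (nat_lit 238) (nat_lit 204) (nat_lit 158))) (XT.nd (nat_lit 78) (nat_lit 0) (nat_lit 0) (XT.lf (nat_lit 0) (nat_lit 206353202566) (nat_lit 76) (nat_lit 86770255014) (nat_lit 76) (nat_lit 69185603224) (nat_lit 1) (nat_lit 4) (nat_lit 2) (nat_lit 5) (nat_lit 2) (nat_lit 4) (nat_lit 239) (nat_lit 204) (nat_lit 157)) (XT.lf (nat_lit 0) (nat_lit 250108430323)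 (nat_lit 76) (nat_lit 91501419501) (nat_lit 76) (nat_lit 73913544131) (nat_lit 1) (nat_lit 4) (nat_lit 2) (nat_lit 5) (nat_lit 2) (nat_lit 4) (nat_lit 240) (nat_lit 204) (nat_lit 156))))))) (XT.nd (nat_lit 1014) (nat_lit 0) (nat_lit 0) (XT.nd (nat_lit 468) (nat_lit 0) (nat_lit 0) (XT.nd (nat_lit 234) (nat_lit 0) (nat_lit 0) (XT.nd (nat_lit 78) (nat_lit 0) (nat_lit 0) (XT.lf (nat_lit 0) (nat_lit 300422572220) (nat_lit 76) (nat_lit 96944184879) (nat_lit 76) (nat_lit 79353506394) (nat_lit 1) (nat_lit 4) (nat_lit 2) (nat_lit 5) (nat_lit 2) (nat_lit 4) (nat_lit 241) (nat_lit 204) (nat_lit 155)) (XT.nd (nat_lit 78) (nat_lit 0) (nat_lit 0) (XT.lf (nat_lit 0) (nat_lit 358280035383) (nat_lit 76) (nat_lit 103205040034) (nat_lit 76) (nat_lit 85611924058) (nat_lit 1) (nat_lit 4) (nat_lit 2) (nat_lit 5) (nat_lit 2) (nat_lit 4) (nat_lit 242) (nat_lit 204) (nat_lit 154)) (XT.lf (nat_lit 0) (nat_lit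 424812813654) (nat_lit 76) (nat_lit 110406479959) (nat_lit 76) (nat_lit 92811244426) (nat_lit 1) (nat_lit 4) (nat_lit 2) (nat_lit 5) (nat_lit 2) (nat_lit 4) (nat_lit 243) (nat_lit 204) (nat_lit 153)))) (XT.nd (nat_lit 78) (nat_lit 0) (nat_lit 0) (XT.lf (nat_lit 0) (nat_lit 501322635305) (nat_lit 76) (nat_lit 118689402392) (nat_lit 76) (nat_lit 101092323766) (nat_lit 1) (nat_lit 4) (nat_lit 2) (nat_lit 5) (nat_lit 2) (nat_lit 4) (nat_lit 244) (nat_lit 204) (nat_lit 152)) (XT.nd (nat_lit 78) (nat_lit 0) (nat_lit 0) (XT.lf (nat_lit 0) (nat_lit 589306431629) (nat_lit 76) (nat_lit 128215864510) (nat_lit 76) (nat_lit 110617183194) (nat_lit 1) (nat_lit 4) (nat_lit 2) (nat_lit 5) (nat_lit 2) (nat_lit 4) (nat_lit 245) (nat_lit 204) (nat_lit 151)) (XT.lf (nat_lit 0) (nat_lit 690485624728) (nat_lit 76) (nat_lit 139172253616) (nat_lit 76) (nat_lit 121572178657) (nat_lit 1) (nat_lit 4) (nat_lit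 2) (nat_lit 5) (nat_lit 2) (nat_lit 4) (nat_lit 246) (nat_lit 204) (nat_lit 150))))) (XT.nd (nat_lit 234) (nat_lit 0) (nat_lit 0) (XT.nd (nat_lit 78) (nat_lit 0) (nat_lit 0) (XT.lf (nat_lit 0) (nat_lit 806839807511) (nat_lit 76) (nat_lit 151772933845) (nat_lit 76) (nat_lit 134171647022) (nat_lit 1) (nat_lit 4) (nat_lit 2) (nat_lit 5) (nat_lit 2) (nat_lit 4) (nat_lit 247) (nat_lit 204) (nat_lit 149)) (XT.nd (nat_lit 78) (nat_lit 0) (nat_lit 0) (XT.lf (nat_lit 0) (nat_lit 940645474857) (nat_lit 76) (nat_lit 166264440244) (nat_lit 76) (nat_lit 148662099627) (nat_lit 1) (nat_lit 4) (nat_lit 2) (nat_lit 5) (nat_lit 2) (nat_lit 4) (nat_lit 248) (nat_lit 204) (nat_lit 148)) (XT.lf (nat_lit 0) (nat_lit 1094520563737) (nat_lit 76) (nat_lit 182930302286) (nat_lit 76) (nat_lit 165327045327) (nat_lit 1) (nat_lit 4) (nat_lit 2) (nat_lit 5) (nat_lit 2) (nat_lit 4) (nat_lit 249) (nat_lit 204) (nat_lit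 147)))) (XT.nd (nat_lit 156) (nat_lit 0) (nat_lit 0) (XT.nd (nat_lit 78) (nat_lit 0) (nat_lit 0) (XT.lf (nat_lit 0) (nat_lit 1271475673715) (nat_lit 76) (nat_lit 202096591187) (nat_lit 76) (nat_lit 184492537407) (nat_lit 1) (nat_lit 4) (nat_lit 2) (nat_lit 5) (nat_lit 2) (nat_lit 4) (nat_lit 250) (nat_lit 204) (nat_lit 146)) (XT.lf (nat_lit 0) (nat_lit 1474972969988) (nat_lit 76) (nat_lit 224138299553) (nat_lit 76) (nat_lit 206533552886) (nat_lit 1) (nat_lit 4) (nat_lit 2) (nat_lit 5) (nat_lit 2) (nat_lit 4) (nat_lit 251) (nat_lit 204) (nat_lit 145))) (XT.nd (nat_lit 78) (nat_lit 0) (nat_lit 0) (XT.lf (nat_lit 0) (nat_lit 1708993921394) (nat_lit 76) (nat_lit 249486678202) (nat_lit 76) (nat_lit 231881329025) (nat_lit 1) (nat_lit 4) (nat_lit 2) (nat_lit 5) (nat_lit 2) (nat_lit 4) (nat_lit 252) (nat_lit 204) (nat_lit 144)) (XT.lf (nat_lit 0) (nat_lit 1978117198723) (nat_lit 76) (nat_lit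 278637673672) (nat_lit 76) (nat_lit 261031800572) (nat_lit 1) (nat_lit 4) (nat_lit 2) (nat_lit 5) (nat_lit 2) (nat_lit 4) (nat_lit 253) (nat_lit 204) (nat_lit 143)))))) (XT.nd (nat_lit 546) (nat_lit 0) (nat_lit 0) (XT.nd (nat_lit 234) (nat_lit 0) (nat_lit 0) (XT.nd (nat_lit 78) (nat_lit 0) (nat_lit 0) (XT.lf (nat_lit 0) (nat_lit 2287608257401) (nat_lit 76) (nat_lit 312161631526) (nat_lit 76) (nat_lit 294555302842) (nat_lit 1) (nat_lit 4) (nat_lit 2) (nat_lit 5) (nat_lit 2) (nat_lit 4) (nat_lit 254) (nat_lit 204) (nat_lit 142)) (XT.nd (nat_lit 78) (nat_lit 0) (nat_lit 0) (XT.lf (nat_lit 0) (nat_lit 2643522357270) (nat_lit 76) (nat_lit 350714455288) (nat_lit 76) (nat_lit 333107730444) (nat_lit 1) (nat_lit 4) (nat_lit 2) (nat_lit 5) (nat_lit 2) (nat_lit 4) (nat_lit 255) (nat_lit 204) (nat_lit 141)) (XT.lf (nat_lit 0) (nat_lit 3052823035069) (nat_lit 76) (nat_lit 395050439336) (nat_lit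 76) (nat_lit 377443370004) (nat_lit 1) (nat_lit 4) (nat_lit 2) (nat_lit 5) (nat_lit 2) (nat_lit 4) (nat_lit 256) (nat_lit 204) (nat_lit 140)))) (XT.nd (nat_lit 156) (nat_lit 0) (nat_lit 0) (XT.nd (nat_lit 78) (nat_lit 0) (nat_lit 0) (XT.lf (nat_lit 0) (nat_lit 3523518347535) (nat_lit 76) (nat_lit 446037026835) (nat_lit 76) (nat_lit 428429657949) (nat_lit 1) (nat_lit 4) (nat_lit 2) (nat_lit 5) (nat_lit 2) (nat_lit 4) (nat_lit 257) (nat_lit 204) (nat_lit 139)) (XT.lf (nat_lit 0) (nat_lit 4064817550784) (nat_lit 76) (nat_lit 504671781455) (nat_lit 76) (nat_lit 487064152088) (nat_lit 1) (nat_lit 4) (nat_lit 2) (nat_lit 5) (nat_lit 2) (nat_lit 4) (nat_lit 258) (nat_lit 204) (nat_lit 138))) (XT.nd (nat_lit 78) (nat_lit 0) (nat_lit 0) (XT.lf (nat_lit 0) (nat_lit 4687311281399) (nat_lit 76) (nat_lit 572101904916) (nat_lit 76) (nat_lit 554494049043) (nat_lit 1) (nat_lit 4) (nat_lit 2) (nat_lit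 5) (nat_lit 2) (nat_lit 4) (nat_lit 259) (nat_lit 204) (nat_lit 137)) (XT.lf (nat_lit 0) (nat_lit 5403178764545) (nat_lit 76) (nat_lit 649646682243) (nat_lit 76) (nat_lit 632038629407) (nat_lit 1) (nat_lit 4) (nat_lit 2) (nat_lit 5) (nat_lit 2) (nat_lit 4) (nat_lit 260) (nat_lit 204) (nat_lit 136))))) (XT.nd (nat_lit 234) (nat_lit 0) (nat_lit 0) (XT.nd (nat_lit 78) (nat_lit 0) (nat_lit 0) (XT.lf (nat_lit 0) (nat_lit 6226426103154) (nat_lit 76) (nat_lit 738823293861) (nat_lit 76) (nat_lit 721215069754) (nat_lit 1) (nat_lit 4) (nat_lit 2) (nat_lit 5) (nat_lit 2) (nat_lit 4) (nat_lit 261) (nat_lit 204) (nat_lit 135)) (XT.nd (nat_lit 78) (nat_lit 0) (nat_lit 0) (XT.lf (nat_lit 0) (nat_lit 7173160310372) (nat_lit 76) (nat_lit 841376499562) (nat_lit 76) (nat_lit 823768126525) (nat_lit 1) (nat_lit 4) (nat_lit 2) (nat_lit 5) (nat_lit 2) (nat_lit 4) (nat_lit 262) (nat_lit 204) (nat_lit 134))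 (XT.lf (nat_lit 0) (nat_lit 8261904446775) (nat_lit 76) (nat_lit 959312775112) (nat_lit 76) (nat_lit 941704272568) (nat_lit 1) (nat_lit 4) (nat_lit 2) (nat_lit 5) (nat_lit 2) (nat_lit 4) (nat_lit 263) (nat_lit 204) (nat_lit 133)))) (XT.nd (nat_lit 156) (nat_lit 0) (nat_lit 0) (XT.nd (nat_lit 78) (nat_lit 0) (nat_lit 0) (XT.lf (nat_lit 0) (nat_lit 9513960028076) (nat_lit 76) (nat_lit 1094939569378) (nat_lit 76) (nat_lit 1077330954221) (nat_lit 1) (nat_lit 4) (nat_lit 2) (nat_lit 5) (nat_lit 2) (nat_lit 4) (nat_lit 264) (nat_lit 204) (nat_lit 132)) (XT.lf (nat_lit 0) (nat_lit 10953823793908) (nat_lit 76) (nat_lit 1250910450075) (nat_lit 76) (nat_lit 1233301736994) (nat_lit 1) (nat_lit 4) (nat_lit 2) (nat_lit 5) (nat_lit 2) (nat_lit 4) (nat_lit 265) (nat_lit 204) (nat_lit 131))) (XT.nd (nat_lit 936) (nat_lit 0) (nat_lit 0) (XT.lf (nat_lit 0) (nat_lit 12609666991863) (nat_lit 76) (nat_lit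 1430277021391) (nat_lit 76) (nat_lit 1412668223158) (nat_lit 1) (nat_lit 4) (nat_lit 2) (nat_lit 5) (nat_lit 2) (nat_lit 4) (nat_lit 266) (nat_lit 204) (nat_lit 130)) (XT.lf (nat_lit 0) (nat_lit 67835201184727) (nat_lit 76) (nat_lit 7412501173559) (nat_lit 76) (nat_lit 7394891913749) (nat_lit 1) (nat_lit 4) (nat_lit 2) (nat_lit 5) (nat_lit 2) (nat_lit 4) (nat_lit 278) (nat_lit 204) (nat_lit 118))))))))
noncomputable def xc31 : XT := (XT.nd (nat_lit 27456) (nat_lit 0) (nat_lit 0) (XT.nd (nat_lit 26364) (nat_lit 0) (nat_lit 76) (XT.nd (nat_lit 25818) (nat_lit 0) (nat_lit 380) (XT.nd (nat_lit 25584) (nat_lit 0) (nat_lit 836) (XT.nd (nat_lit 78) (nat_lit 0) (nat_lit 0) (XT.lf (nat_lit 0) (nat_lit 78023250250137) (nat_lit 76) (nat_lit 8516106680089) (nat_lit 76) (nat_lit 8498497406439) (nat_lit 1) (nat_lit 4) (nat_lit 2) (nat_lit 5) (nat_lit 2) (nat_lit 4) (nat_lit 279) (nat_lit 204)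 (nat_lit 117)) (XT.nd (nat_lit 25428) (nat_lit 0) (nat_lit 836) (XT.lf (nat_lit 0) (nat_lit 89739506656597) (nat_lit 76) (nat_lit 9785253020868) (nat_lit 76) (nat_lit 9767643735184) (nat_lit 1) (nat_lit 4) (nat_lit 2) (nat_lit 5) (nat_lit 2) (nat_lit 4) (nat_lit 280) (nat_lit 204) (nat_lit 116)) (XT.lf (nat_lit 0) (nat_lit 608506398) (nat_lit 0) (nat_lit 608506398) (nat_lit 228) (nat_lit 3241695900) (nat_lit 12) (nat_lit 5) (nat_lit 12) (nat_lit 3) (nat_lit 15) (nat_lit 3) (nat_lit 205) (nat_lit 205) (nat_lit 190)))) (XT.nd (nat_lit 78) (nat_lit 0) (nat_lit 0) (XT.lf (nat_lit 0) (nat_lit 3444935438) (nat_lit 228) (nat_lit 4336492666) (nat_lit 304) (nat_lit 1665699569) (nat_lit 12) (nat_lit 5) (nat_lit 15) (nat_lit 3) (nat_lit 16) (nat_lit 5) (nat_lit 206) (nat_lit 205) (nat_lit 189)) (XT.nd (nat_lit 78) (nat_lit 0) (nat_lit 0) (XT.lf (nat_lit 0) (nat_lit 4534198107) (nat_lit 228)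 (nat_lit 618471510) (nat_lit 304) (nat_lit 4917260159) (nat_lit 12) (nat_lit 5) (nat_lit 15) (nat_lit 3) (nat_lit 16) (nat_lit 5) (nat_lit 207) (nat_lit 205) (nat_lit 188)) (XT.lf (nat_lit 76) (nat_lit 3926347248) (nat_lit 0) (nat_lit 1908965775) (nat_lit 304) (nat_lit 4945867776) (nat_lit 13) (nat_lit 5) (nat_lit 12) (nat_lit 5) (nat_lit 16) (nat_lit 5) (nat_lit 208) (nat_lit 205) (nat_lit 187))))) (XT.nd (nat_lit 234) (nat_lit 304) (nat_lit 0) (XT.nd (nat_lit 78) (nat_lit 228) (nat_lit 0) (XT.lf (nat_lit 0) (nat_lit 7339526554) (nat_lit 228) (nat_lit 2544048955) (nat_lit 76) (nat_lit 1716352549) (nat_lit 13) (nat_lit 5) (nat_lit 16) (nat_lit 5) (nat_lit 14) (nat_lit 5) (nat_lit 209) (nat_lit 205) (nat_lit 186)) (XT.nd (nat_lit 78) (nat_lit 0) (nat_lit 0) (XT.lf (nat_lit 0) (nat_lit 2458525037) (nat_lit 228) (nat_lit 6715419280) (nat_lit 304) (nat_lit 3353594896) (nat_lit 10) (nat_lit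 5) (nat_lit 13) (nat_lit 5) (nat_lit 14) (nat_lit 5) (nat_lit 210) (nat_lit 205) (nat_lit 185)) (XT.lf (nat_lit 0) (nat_lit 8418365116) (nat_lit 228) (nat_lit 2918233706) (nat_lit 304) (nat_lit 2251243102) (nat_lit 10) (nat_lit 5) (nat_lit 13) (nat_lit 5) (nat_lit 14) (nat_lit 5) (nat_lit 211) (nat_lit 205) (nat_lit 184)))) (XT.nd (nat_lit 156) (nat_lit 152) (nat_lit 0) (XT.nd (nat_lit 78) (nat_lit 76) (nat_lit 0) (XT.lf (nat_lit 0) (nat_lit 356228812) (nat_lit 76) (nat_lit 13472698139) (nat_lit 152) (nat_lit 978785679) (nat_lit 9) (nat_lit 5) (nat_lit 10) (nat_lit 5) (nat_lit 11) (nat_lit 4) (nat_lit 212) (nat_lit 205) (nat_lit 183)) (XT.lf (nat_lit 0) (nat_lit 795810839) (nat_lit 152) (nat_lit 9134597876) (nat_lit 76) (nat_lit 6224978019) (nat_lit 8) (nat_lit 5) (nat_lit 10) (nat_lit 5) (nat_lit 9) (nat_lit 5) (nat_lit 213) (nat_lit 205) (nat_lit 182))) (XT.nd (nat_lit 78) (nat_lit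 152) (nat_lit 0) (XT.lf (nat_lit 0) (nat_lit 2677564963) (nat_lit 152) (nat_lit 3140215074) (nat_lit 76) (nat_lit 11890127934) (nat_lit 8) (nat_lit 5) (nat_lit 10) (nat_lit 5) (nat_lit 9) (nat_lit 5) (nat_lit 214) (nat_lit 205) (nat_lit 181)) (XT.lf (nat_lit 0) (nat_lit 4050037786) (nat_lit 152) (nat_lit 908097533) (nat_lit 228) (nat_lit 14518440338) (nat_lit 6) (nat_lit 5) (nat_lit 8) (nat_lit 5) (nat_lit 9) (nat_lit 5) (nat_lit 215) (nat_lit 205) (nat_lit 180)))))) (XT.nd (nat_lit 546) (nat_lit 152) (nat_lit 0) (XT.nd (nat_lit 234) (nat_lit 76) (nat_lit 0) (XT.nd (nat_lit 78) (nat_lit 76) (nat_lit 0) (XT.lf (nat_lit 0) (nat_lit 7901367729) (nat_lit 228) (nat_lit 9086257610) (nat_lit 76) (nat_lit 4475484926) (nat_lit 6) (nat_lit 5) (nat_lit 9) (nat_lit 5) (nat_lit 7) (nat_lit 4) (nat_lit 216) (nat_lit 205) (nat_lit 179)) (XT.nd (nat_lit 78) (nat_lit 76) (nat_lit 0) (XT.lf (nat_lit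 0) (nat_lit 11287954104) (nat_lit 228) (nat_lit 1897372490) (nat_lit 76) (nat_lit 10562586143) (nat_lit 6) (nat_lit 5) (nat_lit 9) (nat_lit 5) (nat_lit 7) (nat_lit 4) (nat_lit 217) (nat_lit 205) (nat_lit 178)) (XT.lf (nat_lit 0) (nat_lit 6935849231) (nat_lit 76) (nat_lit 8497900854) (nat_lit 152) (nat_lit 10904496192) (nat_lit 5) (nat_lit 5) (nat_lit 6) (nat_lit 5) (nat_lit 7) (nat_lit 4) (nat_lit 218) (nat_lit 205) (nat_lit 177)))) (XT.nd (nat_lit 156) (nat_lit 76) (nat_lit 0) (XT.nd (nat_lit 78) (nat_lit 0) (nat_lit 0) (XT.lf (nat_lit 0) (nat_lit 17258159279) (nat_lit 76) (nat_lit 3009118084) (nat_lit 152) (nat_lit 9040402719) (nat_lit 5) (nat_lit 5) (nat_lit 6) (nat_lit 5) (nat_lit 7) (nat_lit 4) (nat_lit 219) (nat_lit 205) (nat_lit 176)) (XT.lf (nat_lit 0) (nat_lit 25933060751) (nat_lit 152) (nat_lit 3777357550) (nat_lit 0) (nat_lit 2996400099) (nat_lit 5) (nat_lit 5) (nat_lit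 7) (nat_lit 4) (nat_lit 5) (nat_lit 4) (nat_lit 220) (nat_lit 205) (nat_lit 175))) (XT.nd (nat_lit 78) (nat_lit 0) (nat_lit 0) (XT.lf (nat_lit 0) (nat_lit 6094118578) (nat_lit 76) (nat_lit 26724539791) (nat_lit 76) (nat_lit 3742001865) (nat_lit 4) (nat_lit 4) (nat_lit 5) (nat_lit 5) (nat_lit 5) (nat_lit 4) (nat_lit 221) (nat_lit 205) (nat_lit 174)) (XT.lf (nat_lit 0) (nat_lit 17831931518) (nat_lit 76) (nat_lit 23078667472) (nat_lit 76) (nat_lit 56236264) (nat_lit 4) (nat_lit 4) (nat_lit 5) (nat_lit 5) (nat_lit 5) (nat_lit 4) (nat_lit 222) (nat_lit 205) (nat_lit 173))))) (XT.nd (nat_lit 234) (nat_lit 0) (nat_lit 0) (XT.nd (nat_lit 78) (nat_lit 76) (nat_lit 0) (XT.lf (nat_lit 0) (nat_lit 3788007531) (nat_lit 152) (nat_lit 14912904825) (nat_lit 76) (nat_lit 27310566263) (nat_lit 3) (nat_lit 5) (nat_lit 5) (nat_lit 5) (nat_lit 4) (nat_lit 4) (nat_lit 223) (nat_lit 205) (nat_lit 172))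 (XT.nd (nat_lit 78) (nat_lit 76) (nat_lit 0) (XT.lf (nat_lit 0) (nat_lit 8183964293) (nat_lit 152) (nat_lit 5491762838) (nat_lit 76) (nat_lit 38139750275) (nat_lit 3) (nat_lit 5) (nat_lit 5) (nat_lit 5) (nat_lit 4) (nat_lit 4) (nat_lit 224) (nat_lit 205) (nat_lit 171)) (XT.lf (nat_lit 0) (nat_lit 5834615341) (nat_lit 76) (nat_lit 7629632050) (nat_lit 152) (nat_lit 44992250169) (nat_lit 2) (nat_lit 5) (nat_lit 3) (nat_lit 5) (nat_lit 4) (nat_lit 4) (nat_lit 225) (nat_lit 205) (nat_lit 170)))) (XT.nd (nat_lit 156) (nat_lit 0) (nat_lit 0) (XT.nd (nat_lit 78) (nat_lit 0) (nat_lit 0) (XT.lf (nat_lit 0) (nat_lit 19451020819) (nat_lit 76) (nat_lit 357047312) (nat_lit 152) (nat_lit 46245018740) (nat_lit 2) (nat_lit 5) (nat_lit 3) (nat_lit 5) (nat_lit 4) (nat_lit 4) (nat_lit 226) (nat_lit 205) (nat_lit 169)) (XT.lf (nat_lit 0) (nat_lit 27421068120) (nat_lit 152) (nat_lit 40035300535) (nat_lit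 0) (nat_lit 7285277098) (nat_lit 2) (nat_lit 5) (nat_lit 4) (nat_lit 4) (nat_lit 2) (nat_lit 4) (nat_lit 227) (nat_lit 205) (nat_lit 168))) (XT.nd (nat_lit 78) (nat_lit 0) (nat_lit 0) (XT.lf (nat_lit 0) (nat_lit 36180913532) (nat_lit 152) (nat_lit 32521821646) (nat_lit 0) (nat_lit 16030125147) (nat_lit 2) (nat_lit 5) (nat_lit 4) (nat_lit 4) (nat_lit 2) (nat_lit 4) (nat_lit 228) (nat_lit 205) (nat_lit 167)) (XT.lf (nat_lit 0) (nat_lit 46244208078) (nat_lit 152) (nat_lit 23899841969) (nat_lit 0) (nat_lit 26080378509) (nat_lit 2) (nat_lit 5) (nat_lit 4) (nat_lit 4) (nat_lit 2) (nat_lit 4) (nat_lit 229) (nat_lit 205) (nat_lit 166))))))) (XT.nd (nat_lit 1014) (nat_lit 0) (nat_lit 0) (XT.nd (nat_lit 468) (nat_lit 0) (nat_lit 0) (XT.nd (nat_lit 234) (nat_lit 0) (nat_lit 0) (XT.nd (nat_lit 78) (nat_lit 76) (nat_lit 0) (XT.lf (nat_lit 0) (nat_lit 57807842304) (nat_lit 152) (nat_lit 14000670598)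 (nat_lit 0) (nat_lit 37632672574) (nat_lit 2) (nat_lit 5) (nat_lit 4) (nat_lit 4) (nat_lit 2) (nat_lit 4) (nat_lit 230) (nat_lit 205) (nat_lit 165)) (XT.nd (nat_lit 78) (nat_lit 76) (nat_lit 0) (XT.lf (nat_lit 0) (nat_lit 71098061228) (nat_lit 152) (nat_lit 2630628093) (nat_lit 0) (nat_lit 50913030489) (nat_lit 2) (nat_lit 5) (nat_lit 4) (nat_lit 4) (nat_lit 2) (nat_lit 4) (nat_lit 231) (nat_lit 205) (nat_lit 164)) (XT.lf (nat_lit 0) (nat_lit 11452306409) (nat_lit 76) (nat_lit 75396800048) (nat_lit 76) (nat_lit 55203194519) (nat_lit 1) (nat_lit 4) (nat_lit 2) (nat_lit 5) (nat_lit 2) (nat_lit 4) (nat_lit 232) (nat_lit 205) (nat_lit 163)))) (XT.nd (nat_lit 78) (nat_lit 0) (nat_lit 0) (XT.lf (nat_lit 0) (nat_lit 27931703466) (nat_lit 76) (nat_lit 77162114538) (nat_lit 76) (nat_lit 56961052669) (nat_lit 1) (nat_lit 4) (nat_lit 2) (nat_lit 5) (nat_lit 2) (nat_lit 4) (nat_lit 233) (nat_lit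 205) (nat_lit 162)) (XT.nd (nat_lit 78) (nat_lit 0) (nat_lit 0) (XT.lf (nat_lit 0) (nat_lit 46872901952) (nat_lit 76) (nat_lit 79196681658) (nat_lit 76) (nat_lit 58989136015) (nat_lit 1) (nat_lit 4) (nat_lit 2) (nat_lit 5) (nat_lit 2) (nat_lit 4) (nat_lit 234) (nat_lit 205) (nat_lit 161)) (XT.lf (nat_lit 0) (nat_lit 68646490535) (nat_lit 76) (nat_lit 81540308156) (nat_lit 76) (nat_lit 61327124449) (nat_lit 1) (nat_lit 4) (nat_lit 2) (nat_lit 5) (nat_lit 2) (nat_lit 4) (nat_lit 235) (nat_lit 205) (nat_lit 160))))) (XT.nd (nat_lit 234) (nat_lit 0) (nat_lit 0) (XT.nd (nat_lit 78) (nat_lit 0) (nat_lit 0) (XT.lf (nat_lit 0) (nat_lit 93678474207) (nat_lit 76) (nat_lit 84238847594) (nat_lit 76) (nat_lit 64020761222) (nat_lit 1) (nat_lit 4) (nat_lit 2) (nat_lit 5) (nat_lit 2) (nat_lit 4) (nat_lit 236) (nat_lit 205) (nat_lit 159)) (XT.nd (nat_lit 78) (nat_lit 0) (nat_lit 0) (XT.lf (nat_lit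 0) (nat_lit 122458609171) (nat_lit 76) (nat_lit 87345097482) (nat_lit 76) (nat_lit 67122747924) (nat_lit 1) (nat_lit 4) (nat_lit 2) (nat_lit 5) (nat_lit 2) (nat_lit 4) (nat_lit 237) (nat_lit 205) (nat_lit 158)) (XT.lf (nat_lit 0) (nat_lit 155549985025) (nat_lit 76) (nat_lit 90919832275) (nat_lit 76) (nat_lit 70693775599) (nat_lit 1) (nat_lit 4) (nat_lit 2) (nat_lit 5) (nat_lit 2) (nat_lit 4) (nat_lit 238) (nat_lit 205) (nat_lit 157)))) (XT.nd (nat_lit 156) (nat_lit 0) (nat_lit 0) (XT.nd (nat_lit 78) (nat_lit 0) (nat_lit 0) (XT.lf (nat_lit 0) (nat_lit 193600041730) (nat_lit 76) (nat_lit 95032992437) (nat_lit 76) (nat_lit 74803712179) (nat_lit 1) (nat_lit 4) (nat_lit 2) (nat_lit 5) (nat_lit 2) (nat_lit 4) (nat_lit 239) (nat_lit 205) (nat_lit 156)) (XT.lf (nat_lit 0) (nat_lit 237353236918) (nat_lit 76) (nat_lit 99765052839) (nat_lit 76) (nat_lit 79532969467) (nat_lit 1) (nat_lit 4)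 (nat_lit 2) (nat_lit 5) (nat_lit 2) (nat_lit 4) (nat_lit 240) (nat_lit 205) (nat_lit 155))) (XT.nd (nat_lit 78) (nat_lit 0) (nat_lit 0) (XT.lf (nat_lit 0) (nat_lit 287665611365) (nat_lit 76) (nat_lit 105208597273) (nat_lit 76) (nat_lit 84974076410) (nat_lit 1) (nat_lit 4) (nat_lit 2) (nat_lit 5) (nat_lit 2) (nat_lit 4) (nat_lit 241) (nat_lit 205) (nat_lit 154)) (XT.lf (nat_lit 0) (nat_lit 345521537613) (nat_lit 76) (nat_lit 111470129868) (nat_lit 76) (nat_lit 91233489448) (nat_lit 1) (nat_lit 4) (nat_lit 2) (nat_lit 5) (nat_lit 2) (nat_lit 4) (nat_lit 242) (nat_lit 205) (nat_lit 153)))))) (XT.nd (nat_lit 546) (nat_lit 0) (nat_lit 0) (XT.nd (nat_lit 234) (nat_lit 0) (nat_lit 0) (XT.nd (nat_lit 78) (nat_lit 0) (nat_lit 0) (XT.lf (nat_lit 0) (nat_lit 412052979438) (nat_lit 76) (nat_lit 118672158872) (nat_lit 76) (nat_lit 98433675359) (nat_lit 1) (nat_lit 4) (nat_lit 2) (nat_lit 5) (nat_lit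 2) (nat_lit 4) (nat_lit 243) (nat_lit 205) (nat_lit 152)) (XT.nd (nat_lit 78) (nat_lit 0) (nat_lit 0) (XT.lf (nat_lit 0) (nat_lit 488561638961) (nat_lit 76) (nat_lit 126955593547) (nat_lit 76) (nat_lit 106715507344) (nat_lit 1) (nat_lit 4) (nat_lit 2) (nat_lit 5) (nat_lit 2) (nat_lit 4) (nat_lit 244) (nat_lit 205) (nat_lit 151)) (XT.lf (nat_lit 0) (nat_lit 576544424739) (nat_lit 76) (nat_lit 136482501093) (nat_lit 76) (nat_lit 116241021247) (nat_lit 1) (nat_lit 4) (nat_lit 2) (nat_lit 5) (nat_lit 2) (nat_lit 4) (nat_lit 245) (nat_lit 205) (nat_lit 150)))) (XT.nd (nat_lit 156) (nat_lit 0) (nat_lit 0) (XT.nd (nat_lit 78) (nat_lit 0) (nat_lit 0) (XT.lf (nat_lit 0) (nat_lit 677722739103) (nat_lit 76) (nat_lit 147439277527) (nat_lit 76) (nat_lit 127196585818) (nat_lit 1) (nat_lit 4) (nat_lit 2) (nat_lit 5) (nat_lit 2) (nat_lit 4) (nat_lit 246) (nat_lit 205) (nat_lit 149)) (XT.lf (nat_lit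 0) (nat_lit 794076157767) (nat_lit 76) (nat_lit 160040294564) (nat_lit 76) (nat_lit 139796549060) (nat_lit 1) (nat_lit 4) (nat_lit 2) (nat_lit 5) (nat_lit 2) (nat_lit 4) (nat_lit 247) (nat_lit 205) (nat_lit 148))) (XT.nd (nat_lit 78) (nat_lit 0) (nat_lit 0) (XT.lf (nat_lit 0) (nat_lit 927881160663) (nat_lit 76) (nat_lit 174532093839) (nat_lit 76) (nat_lit 154287431992) (nat_lit 1) (nat_lit 4) (nat_lit 2) (nat_lit 5) (nat_lit 2) (nat_lit 4) (nat_lit 248) (nat_lit 205) (nat_lit 147)) (XT.lf (nat_lit 0) (nat_lit 1081755671760) (nat_lit 76) (nat_lit 191198210557) (nat_lit 76) (nat_lit 170952751890) (nat_lit 1) (nat_lit 4) (nat_lit 2) (nat_lit 5) (nat_lit 2) (nat_lit 4) (nat_lit 249) (nat_lit 205) (nat_lit 146))))) (XT.nd (nat_lit 234) (nat_lit 0) (nat_lit 0) (XT.nd (nat_lit 78) (nat_lit 0) (nat_lit 0) (XT.lf (nat_lit 0) (nat_lit 1258710279318) (nat_lit 76) (nat_lit 210364720913) (nat_lit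 76) (nat_lit 190118569359) (nat_lit 1) (nat_lit 4) (nat_lit 2) (nat_lit 5) (nat_lit 2) (nat_lit 4) (nat_lit 250) (nat_lit 205) (nat_lit 145)) (XT.nd (nat_lit 78) (nat_lit 0) (nat_lit 0) (XT.lf (nat_lit 0) (nat_lit 1462207138704) (nat_lit 76) (nat_lit 232406621851) (nat_lit 76) (nat_lit 212159867786) (nat_lit 1) (nat_lit 4) (nat_lit 2) (nat_lit 5) (nat_lit 2) (nat_lit 4) (nat_lit 251) (nat_lit 205) (nat_lit 144)) (XT.lf (nat_lit 0) (nat_lit 1696227710209) (nat_lit 76) (nat_lit 257755167952) (nat_lit 76) (nat_lit 237507889966) (nat_lit 1) (nat_lit 4) (nat_lit 2) (nat_lit 5) (nat_lit 2) (nat_lit 4) (nat_lit 252) (nat_lit 205) (nat_lit 143)))) (XT.nd (nat_lit 156) (nat_lit 0) (nat_lit 0) (XT.nd (nat_lit 78) (nat_lit 0) (nat_lit 0) (XT.lf (nat_lit 0) (nat_lit 1965350657189) (nat_lit 76) (nat_lit 286906309033) (nat_lit 76) (nat_lit 266658575462) (nat_lit 1) (nat_lit 4) (nat_lit 2) (nat_lit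 5) (nat_lit 2) (nat_lit 4) (nat_lit 253) (nat_lit 205) (nat_lit 142)) (XT.lf (nat_lit 0) (nat_lit 2274841428606) (nat_lit 76) (nat_lit 320430393506) (nat_lit 76) (nat_lit 300182263774) (nat_lit 1) (nat_lit 4) (nat_lit 2) (nat_lit 5) (nat_lit 2) (nat_lit 4) (nat_lit 254) (nat_lit 205) (nat_lit 141))) (XT.nd (nat_lit 78) (nat_lit 0) (nat_lit 0) (XT.lf (nat_lit 0) (nat_lit 2630755278684) (nat_lit 76) (nat_lit 358983327371) (nat_lit 76) (nat_lit 338734853152) (nat_lit 1) (nat_lit 4) (nat_lit 2) (nat_lit 5) (nat_lit 2) (nat_lit 4) (nat_lit 255) (nat_lit 205) (nat_lit 140)) (XT.lf (nat_lit 0) (nat_lit 3040055739272) (nat_lit 76) (nat_lit 403319407160) (nat_lit 76) (nat_lit 383070633387) (nat_lit 1) (nat_lit 4) (nat_lit 2) (nat_lit 5) (nat_lit 2) (nat_lit 4) (nat_lit 256) (nat_lit 205) (nat_lit 139))))))))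
noncomputable def xc32 : XT := (XT.nd (nat_lit 28236) (nat_lit 0) (nat_lit 0) (XT.nd (nat_lit 1794) (nat_lit 0) (nat_lit 0) (XT.nd (nat_lit 468) (nat_lit 0) (nat_lit 0) (XT.nd (nat_lit 234) (nat_lit 0) (nat_lit 0) (XT.nd (nat_lit 78) (nat_lit 0) (nat_lit 0) (XT.lf (nat_lit 0) (nat_lit 3510750862861) (nat_lit 76) (nat_lit 454306077913) (nat_lit 76) (nat_lit 434057043659) (nat_lit 1) (nat_lit 4) (nat_lit 2) (nat_lit 5) (nat_lit 2) (nat_lit 4) (nat_lit 257) (nat_lit 205) (nat_lit 138)) (XT.nd (nat_lit 78) (nat_lit 0) (nat_lit 0) (XT.lf (nat_lit 0) (nat_lit 4052049901867) (nat_lit 76) (nat_lit 512940904928) (nat_lit 76) (nat_lit 492691644167) (nat_lit 1) (nat_lit 4) (nat_lit 2) (nat_lit 5) (nat_lit 2) (nat_lit 4) (nat_lit 258) (nat_lit 205) (nat_lit 137)) (XT.lf (nat_lit 0) (nat_lit 4674543489663) (nat_lit 76) (nat_lit 580371091341) (nat_lit 76) (nat_lit 560121633618) (nat_lit 1) (nat_lit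 4) (nat_lit 2) (nat_lit 5) (nat_lit 2) (nat_lit 4) (nat_lit 259) (nat_lit 205) (nat_lit 136)))) (XT.nd (nat_lit 78) (nat_lit 0) (nat_lit 0) (XT.lf (nat_lit 0) (nat_lit 5390410848619) (nat_lit 76) (nat_lit 657915923408) (nat_lit 76) (nat_lit 637666294414) (nat_lit 1) (nat_lit 4) (nat_lit 2) (nat_lit 5) (nat_lit 2) (nat_lit 4) (nat_lit 260) (nat_lit 205) (nat_lit 135)) (XT.nd (nat_lit 78) (nat_lit 0) (nat_lit 0) (XT.lf (nat_lit 0) (nat_lit 6213658079237) (nat_lit 76) (nat_lit 747092582626) (nat_lit 76) (nat_lit 726842804702) (nat_lit 1) (nat_lit 4) (nat_lit 2) (nat_lit 5) (nat_lit 2) (nat_lit 4) (nat_lit 261) (nat_lit 205) (nat_lit 134)) (XT.lf (nat_lit 0) (nat_lit 7160392192549) (nat_lit 76) (nat_lit 849645829720) (nat_lit 76) (nat_lit 829395922290) (nat_lit 1) (nat_lit 4) (nat_lit 2) (nat_lit 5) (nat_lit 2) (nat_lit 4) (nat_lit 262) (nat_lit 205) (nat_lit 133))))) (XT.nd (nat_lit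 234) (nat_lit 0) (nat_lit 0) (XT.nd (nat_lit 78) (nat_lit 0) (nat_lit 0) (XT.lf (nat_lit 0) (nat_lit 8249136247294) (nat_lit 76) (nat_lit 967582141262) (nat_lit 76) (nat_lit 947332121218) (nat_lit 1) (nat_lit 4) (nat_lit 2) (nat_lit 5) (nat_lit 2) (nat_lit 4) (nat_lit 263) (nat_lit 205) (nat_lit 132)) (XT.nd (nat_lit 78) (nat_lit 0) (nat_lit 0) (XT.lf (nat_lit 0) (nat_lit 9501191757589) (nat_lit 76) (nat_lit 1103208966827) (nat_lit 76) (nat_lit 1082958848858) (nat_lit 1) (nat_lit 4) (nat_lit 2) (nat_lit 5) (nat_lit 2) (nat_lit 4) (nat_lit 264) (nat_lit 205) (nat_lit 131)) (XT.lf (nat_lit 0) (nat_lit 10941055461676) (nat_lit 76) (nat_lit 1259179874740) (nat_lit 76) (nat_lit 1238929671619) (nat_lit 1) (nat_lit 4) (nat_lit 2) (nat_lit 5) (nat_lit 2) (nat_lit 4) (nat_lit 265) (nat_lit 205) (nat_lit 130)))) (XT.nd (nat_lit 936) (nat_lit 0) (nat_lit 0) (XT.nd (nat_lit 858) (nat_lit 0)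 (nat_lit 0) (XT.lf (nat_lit 0) (nat_lit 12596898605940) (nat_lit 76) (nat_lit 1438546469721) (nat_lit 76) (nat_lit 1418296192556) (nat_lit 1) (nat_lit 4) (nat_lit 2) (nat_lit 5) (nat_lit 2) (nat_lit 4) (nat_lit 266) (nat_lit 205) (nat_lit 129)) (XT.lf (nat_lit 0) (nat_lit 58963259398682) (nat_lit 76) (nat_lit 6461113791819) (nat_lit 76) (nat_lit 6440863127122) (nat_lit 1) (nat_lit 4) (nat_lit 2) (nat_lit 5) (nat_lit 2) (nat_lit 4) (nat_lit 277) (nat_lit 205) (nat_lit 118))) (XT.nd (nat_lit 78) (nat_lit 0) (nat_lit 0) (XT.lf (nat_lit 0) (nat_lit 67822432507765) (nat_lit 76) (nat_lit 7420770750172) (nat_lit 76) (nat_lit 7400520071636) (nat_lit 1) (nat_lit 4) (nat_lit 2) (nat_lit 5) (nat_lit 2) (nat_lit 4) (nat_lit 278) (nat_lit 205) (nat_lit 117)) (XT.lf (nat_lit 0) (nat_lit 78010481564449) (nat_lit 76) (nat_lit 8524376260549) (nat_lit 76) (nat_lit 8504125569978) (nat_lit 1) (nat_lit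 4) (nat_lit 2) (nat_lit 5) (nat_lit 2) (nat_lit 4) (nat_lit 279) (nat_lit 205) (nat_lit 116)))))) (XT.nd (nat_lit 25896) (nat_lit 0) (nat_lit 380) (XT.nd (nat_lit 25662) (nat_lit 0) (nat_lit 836) (XT.nd (nat_lit 25506) (nat_lit 0) (nat_lit 836) (XT.lf (nat_lit 0) (nat_lit 89726737963321) (nat_lit 76) (nat_lit 9793522604673) (nat_lit 76) (nat_lit 9773271903637) (nat_lit 1) (nat_lit 4) (nat_lit 2) (nat_lit 5) (nat_lit 2) (nat_lit 4) (nat_lit 280) (nat_lit 205) (nat_lit 115)) (XT.nd (nat_lit 78) (nat_lit 0) (nat_lit 0) (XT.lf (nat_lit 0) (nat_lit 1060521814) (nat_lit 0) (nat_lit 1060521814) (nat_lit 228) (nat_lit 2884021788) (nat_lit 12) (nat_lit 5) (nat_lit 12) (nat_lit 3) (nat_lit 15) (nat_lit 3) (nat_lit 206) (nat_lit 206) (nat_lit 188)) (XT.lf (nat_lit 0) (nat_lit 5190443513) (nat_lit 228) (nat_lit 4120659624) (nat_lit 304) (nat_lit 1344034616) (nat_lit 12) (nat_lit 5) (nat_lit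 15) (nat_lit 3) (nat_lit 16) (nat_lit 5) (nat_lit 207) (nat_lit 206) (nat_lit 187)))) (XT.nd (nat_lit 78) (nat_lit 0) (nat_lit 0) (XT.lf (nat_lit 76) (nat_lit 46179352) (nat_lit 0) (nat_lit 6238554363) (nat_lit 304) (nat_lit 5113608203) (nat_lit 13) (nat_lit 5) (nat_lit 12) (nat_lit 5) (nat_lit 16) (nat_lit 5) (nat_lit 208) (nat_lit 206) (nat_lit 186)) (XT.nd (nat_lit 78) (nat_lit 0) (nat_lit 76) (XT.lf (nat_lit 76) (nat_lit 5234368339) (nat_lit 0) (nat_lit 2435141712) (nat_lit 304) (nat_lit 4566302909) (nat_lit 13) (nat_lit 5) (nat_lit 12) (nat_lit 5) (nat_lit 16) (nat_lit 5) (nat_lit 209) (nat_lit 206) (nat_lit 185)) (XT.lf (nat_lit 0) (nat_lit 9265646129) (nat_lit 228) (nat_lit 2150399901) (nat_lit 76) (nat_lit 1783823127) (nat_lit 13) (nat_lit 5) (nat_lit 16) (nat_lit 5) (nat_lit 14) (nat_lit 5) (nat_lit 210) (nat_lit 206) (nat_lit 184))))) (XT.nd (nat_lit 234) (nat_lit 228)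 (nat_lit 0) (XT.nd (nat_lit 78) (nat_lit 76) (nat_lit 0) (XT.lf (nat_lit 0) (nat_lit 3567321262) (nat_lit 228) (nat_lit 7730914284) (nat_lit 304) (nat_lit 2982057203) (nat_lit 10) (nat_lit 5) (nat_lit 13) (nat_lit 5) (nat_lit 14) (nat_lit 5) (nat_lit 211) (nat_lit 206) (nat_lit 183)) (XT.nd (nat_lit 78) (nat_lit 76) (nat_lit 0) (XT.lf (nat_lit 0) (nat_lit 10324613335) (nat_lit 228) (nat_lit 3363083642) (nat_lit 304) (nat_lit 1828427891) (nat_lit 10) (nat_lit 5) (nat_lit 13) (nat_lit 5) (nat_lit 14) (nat_lit 5) (nat_lit 212) (nat_lit 206) (nat_lit 182)) (XT.lf (nat_lit 0) (nat_lit 1129086296) (nat_lit 76) (nat_lit 15369459668) (nat_lit 152) (nat_lit 430334091) (nat_lit 9) (nat_lit 5) (nat_lit 10) (nat_lit 5) (nat_lit 11) (nat_lit 4) (nat_lit 213) (nat_lit 206) (nat_lit 181)))) (XT.nd (nat_lit 156) (nat_lit 152) (nat_lit 0) (XT.nd (nat_lit 78) (nat_lit 0) (nat_lit 0) (XT.lf (nat_lit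 0) (nat_lit 1465940505) (nat_lit 152) (nat_lit 9817289290) (nat_lit 76) (nat_lit 7204762416) (nat_lit 8) (nat_lit 5) (nat_lit 10) (nat_lit 5) (nat_lit 9) (nat_lit 5) (nat_lit 214) (nat_lit 206) (nat_lit 180)) (XT.lf (nat_lit 0) (nat_lit 3558119743) (nat_lit 152) (nat_lit 3013422755) (nat_lit 76) (nat_lit 13713679902) (nat_lit 8) (nat_lit 5) (nat_lit 10) (nat_lit 5) (nat_lit 9) (nat_lit 5) (nat_lit 215) (nat_lit 206) (nat_lit 179))) (XT.nd (nat_lit 78) (nat_lit 0) (nat_lit 0) (XT.lf (nat_lit 0) (nat_lit 5228194190) (nat_lit 152) (nat_lit 913743062) (nat_lit 228) (nat_lit 16183996194) (nat_lit 6) (nat_lit 5) (nat_lit 8) (nat_lit 5) (nat_lit 9) (nat_lit 5) (nat_lit 216) (nat_lit 206) (nat_lit 178)) (XT.lf (nat_lit 0) (nat_lit 9473953952) (nat_lit 228) (nat_lit 9894959114) (nat_lit 76) (nat_lit 5250238045) (nat_lit 6) (nat_lit 5) (nat_lit 9) (nat_lit 5) (nat_lit 7) (nat_lit 4) (nat_lit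 217) (nat_lit 206) (nat_lit 177))))))) (XT.nd (nat_lit 1014) (nat_lit 76) (nat_lit 0) (XT.nd (nat_lit 468) (nat_lit 76) (nat_lit 0) (XT.nd (nat_lit 234) (nat_lit 152) (nat_lit 0) (XT.nd (nat_lit 78) (nat_lit 76) (nat_lit 0) (XT.lf (nat_lit 0) (nat_lit 13318000318) (nat_lit 228) (nat_lit 1700033026) (nat_lit 76) (nat_lit 12236913526) (nat_lit 6) (nat_lit 5) (nat_lit 9) (nat_lit 5) (nat_lit 7) (nat_lit 4) (nat_lit 218) (nat_lit 206) (nat_lit 176)) (XT.nd (nat_lit 78) (nat_lit 0) (nat_lit 0) (XT.lf (nat_lit 0) (nat_lit 8436265347) (nat_lit 76) (nat_lit 9624512212) (nat_lit 152) (nat_lit 12177389339) (nat_lit 5) (nat_lit 5) (nat_lit 6) (nat_lit 5) (nat_lit 7) (nat_lit 4) (nat_lit 219) (nat_lit 206) (nat_lit 175)) (XT.lf (nat_lit 0) (nat_lit 20246916850) (nat_lit 76) (nat_lit 3331725996) (nat_lit 152) (nat_lit 10081001143) (nat_lit 5) (nat_lit 5) (nat_lit 6) (nat_lit 5) (nat_lit 7) (nat_lit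 4) (nat_lit 220) (nat_lit 206) (nat_lit 174)))) (XT.nd (nat_lit 78) (nat_lit 152) (nat_lit 0) (XT.lf (nat_lit 0) (nat_lit 30063546426) (nat_lit 152) (nat_lit 3962317604) (nat_lit 0) (nat_lit 3547857256) (nat_lit 5) (nat_lit 5) (nat_lit 7) (nat_lit 4) (nat_lit 5) (nat_lit 4) (nat_lit 221) (nat_lit 206) (nat_lit 173)) (XT.nd (nat_lit 78) (nat_lit 76) (nat_lit 0) (XT.lf (nat_lit 0) (nat_lit 7372532507) (nat_lit 76) (nat_lit 30593162876) (nat_lit 76) (nat_lit 4042783895) (nat_lit 4) (nat_lit 4) (nat_lit 5) (nat_lit 5) (nat_lit 5) (nat_lit 4) (nat_lit 222) (nat_lit 206) (nat_lit 172)) (XT.lf (nat_lit 0) (nat_lit 147455482) (nat_lit 152) (nat_lit 26263514746) (nat_lit 76) (nat_lit 20668337118) (nat_lit 3) (nat_lit 5) (nat_lit 5) (nat_lit 5) (nat_lit 4) (nat_lit 4) (nat_lit 223) (nat_lit 206) (nat_lit 171))))) (XT.nd (nat_lit 234) (nat_lit 0) (nat_lit 0) (XT.nd (nat_lit 78) (nat_lit 76)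 (nat_lit 0) (XT.lf (nat_lit 0) (nat_lit 4535660543) (nat_lit 152) (nat_lit 16855104345) (nat_lit 76) (nat_lit 31493779103) (nat_lit 3) (nat_lit 5) (nat_lit 5) (nat_lit 5) (nat_lit 4) (nat_lit 4) (nat_lit 224) (nat_lit 206) (nat_lit 170)) (XT.nd (nat_lit 78) (nat_lit 76) (nat_lit 0) (XT.lf (nat_lit 0) (nat_lit 9567604052) (nat_lit 152) (nat_lit 6059234913) (nat_lit 76) (nat_lit 43936041425) (nat_lit 3) (nat_lit 5) (nat_lit 5) (nat_lit 5) (nat_lit 4) (nat_lit 4) (nat_lit 225) (nat_lit 206) (nat_lit 169)) (XT.lf (nat_lit 0) (nat_lit 6954450341) (nat_lit 76) (nat_lit 8675255696) (nat_lit 152) (nat_lit 51572078267) (nat_lit 2) (nat_lit 5) (nat_lit 3) (nat_lit 5) (nat_lit 4) (nat_lit 4) (nat_lit 226) (nat_lit 206) (nat_lit 168)))) (XT.nd (nat_lit 156) (nat_lit 0) (nat_lit 0) (XT.nd (nat_lit 78) (nat_lit 0) (nat_lit 0) (XT.lf (nat_lit 0) (nat_lit 22581406723) (nat_lit 76) (nat_lit 324672964)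 (nat_lit 152) (nat_lit 53034806831) (nat_lit 2) (nat_lit 5) (nat_lit 3) (nat_lit 5) (nat_lit 4) (nat_lit 4) (nat_lit 227) (nat_lit 206) (nat_lit 167)) (XT.lf (nat_lit 0) (nat_lit 31647584490) (nat_lit 152) (nat_lit 45841171332) (nat_lit 0) (nat_lit 8446139300) (nat_lit 2) (nat_lit 5) (nat_lit 4) (nat_lit 4) (nat_lit 2) (nat_lit 4) (nat_lit 228) (nat_lit 206) (nat_lit 166))) (XT.nd (nat_lit 78) (nat_lit 0) (nat_lit 0) (XT.lf (nat_lit 0) (nat_lit 41706621128) (nat_lit 152) (nat_lit 37226682472) (nat_lit 0) (nat_lit 18493835778) (nat_lit 2) (nat_lit 5) (nat_lit 4) (nat_lit 4) (nat_lit 2) (nat_lit 4) (nat_lit 229) (nat_lit 206) (nat_lit 165)) (XT.lf (nat_lit 0) (nat_lit 53266552826) (nat_lit 152) (nat_lit 27334024855) (nat_lit 0) (nat_lit 30043906467) (nat_lit 2) (nat_lit 5) (nat_lit 4) (nat_lit 4) (nat_lit 2) (nat_lit 4) (nat_lit 230) (nat_lit 206) (nat_lit 164)))))) (XT.nd (nat_lit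 546) (nat_lit 0) (nat_lit 0) (XT.nd (nat_lit 234) (nat_lit 0) (nat_lit 0) (XT.nd (nat_lit 78) (nat_lit 76) (nat_lit 0) (XT.lf (nat_lit 0) (nat_lit 66553552160) (nat_lit 152) (nat_lit 15969646484) (nat_lit 0) (nat_lit 43322331010) (nat_lit 2) (nat_lit 5) (nat_lit 4) (nat_lit 4) (nat_lit 2) (nat_lit 4) (nat_lit 231) (nat_lit 206) (nat_lit 163)) (XT.nd (nat_lit 78) (nat_lit 76) (nat_lit 0) (XT.lf (nat_lit 0) (nat_lit 81827582160) (nat_lit 152) (nat_lit 2911200825) (nat_lit 0) (nat_lit 58588904670) (nat_lit 2) (nat_lit 5) (nat_lit 4) (nat_lit 4) (nat_lit 2) (nat_lit 4) (nat_lit 232) (nat_lit 206) (nat_lit 162)) (XT.lf (nat_lit 0) (nat_lit 13278991058) (nat_lit 76) (nat_lit 86658346188) (nat_lit 76) (nat_lit 63413184925) (nat_lit 1) (nat_lit 4) (nat_lit 2) (nat_lit 5) (nat_lit 2) (nat_lit 4) (nat_lit 233) (nat_lit 206) (nat_lit 161)))) (XT.nd (nat_lit 156) (nat_lit 0) (nat_lit 0) (XT.nd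 (nat_lit 78) (nat_lit 0) (nat_lit 0) (XT.lf (nat_lit 0) (nat_lit 32216101323) (nat_lit 76) (nat_lit 88694715312) (nat_lit 76) (nat_lit 65443915985) (nat_lit 1) (nat_lit 4) (nat_lit 2) (nat_lit 5) (nat_lit 2) (nat_lit 4) (nat_lit 234) (nat_lit 206) (nat_lit 160)) (XT.lf (nat_lit 0) (nat_lit 53986134929) (nat_lit 76) (nat_lit 91039908771) (nat_lit 76) (nat_lit 67784206779) (nat_lit 1) (nat_lit 4) (nat_lit 2) (nat_lit 5) (nat_lit 2) (nat_lit 4) (nat_lit 235) (nat_lit 206) (nat_lit 159))) (XT.nd (nat_lit 78) (nat_lit 0) (nat_lit 0) (XT.lf (nat_lit 0) (nat_lit 79015027318) (nat_lit 76) (nat_lit 93739810783) (nat_lit 76) (nat_lit 70479845605) (nat_lit 1) (nat_lit 4) (nat_lit 2) (nat_lit 5) (nat_lit 2) (nat_lit 4) (nat_lit 236) (nat_lit 206) (nat_lit 158)) (XT.lf (nat_lit 0) (nat_lit 107792474211) (nat_lit 76) (nat_lit 96847245518) (nat_lit 76) (nat_lit 73583573222) (nat_lit 1) (nat_lit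 4) (nat_lit 2) (nat_lit 5) (nat_lit 2) (nat_lit 4) (nat_lit 237) (nat_lit 206) (nat_lit 157))))) (XT.nd (nat_lit 234) (nat_lit 0) (nat_lit 0) (XT.nd (nat_lit 78) (nat_lit 0) (nat_lit 0) (XT.lf (nat_lit 0) (nat_lit 140881512610) (nat_lit 76) (nat_lit 100423010613) (nat_lit 76) (nat_lit 77156114736) (nat_lit 1) (nat_lit 4) (nat_lit 2) (nat_lit 5) (nat_lit 2) (nat_lit 4) (nat_lit 238) (nat_lit 206) (nat_lit 156)) (XT.nd (nat_lit 78) (nat_lit 0) (nat_lit 0) (XT.lf (nat_lit 0) (nat_lit 178929536747) (nat_lit 76) (nat_lit 104537066690) (nat_lit 76) (nat_lit 81267367697) (nat_lit 1) (nat_lit 4) (nat_lit 2) (nat_lit 5) (nat_lit 2) (nat_lit 4) (nat_lit 239) (nat_lit 206) (nat_lit 155)) (XT.lf (nat_lit 0) (nat_lit 222680964484) (nat_lit 76) (nat_lit 109269906148) (nat_lit 76) (nat_lit 85997769665) (nat_lit 1) (nat_lit 4) (nat_lit 2) (nat_lit 5) (nat_lit 2) (nat_lit 4) (nat_lit 240) (nat_lit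 206) (nat_lit 154)))) (XT.nd (nat_lit 156) (nat_lit 0) (nat_lit 0) (XT.nd (nat_lit 78) (nat_lit 0) (nat_lit 0) (XT.lf (nat_lit 0) (nat_lit 272991802016) (nat_lit 76) (nat_lit 114714128022) (nat_lit 76) (nat_lit 91439871982) (nat_lit 1) (nat_lit 4) (nat_lit 2) (nat_lit 5) (nat_lit 2) (nat_lit 4) (nat_lit 241) (nat_lit 206) (nat_lit 153)) (XT.lf (nat_lit 0) (nat_lit 330846391817) (nat_lit 76) (nat_lit 120976249696) (nat_lit 76) (nat_lit 97700150563) (nat_lit 1) (nat_lit 4) (nat_lit 2) (nat_lit 5) (nat_lit 2) (nat_lit 4) (nat_lit 242) (nat_lit 206) (nat_lit 152))) (XT.nd (nat_lit 78) (nat_lit 0) (nat_lit 0) (XT.lf (nat_lit 0) (nat_lit 397376671514) (nat_lit 76) (nat_lit 128178790942) (nat_lit 76) (nat_lit 104901089119) (nat_lit 1) (nat_lit 4) (nat_lit 2) (nat_lit 5) (nat_lit 2) (nat_lit 4) (nat_lit 243) (nat_lit 206) (nat_lit 151)) (XT.lf (nat_lit 0) (nat_lit 473884320492) (nat_lit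 76) (nat_lit 136462671045) (nat_lit 76) (nat_lit 113183575579) (nat_lit 1) (nat_lit 4) (nat_lit 2) (nat_lit 5) (nat_lit 2) (nat_lit 4) (nat_lit 244) (nat_lit 206) (nat_lit 150))))))))
noncomputable def xc33 : XT := (XT.nd (nat_lit 2730) (nat_lit 0) (nat_lit 0) (XT.nd (nat_lit 1014) (nat_lit 0) (nat_lit 0) (XT.nd (nat_lit 468) (nat_lit 0) (nat_lit 0) (XT.nd (nat_lit 234) (nat_lit 0) (nat_lit 0) (XT.nd (nat_lit 78) (nat_lit 0) (nat_lit 0) (XT.lf (nat_lit 0) (nat_lit 561866227534) (nat_lit 76) (nat_lit 145989965920) (nat_lit 76) (nat_lit 122709658590) (nat_lit 1) (nat_lit 4) (nat_lit 2) (nat_lit 5) (nat_lit 2) (nat_lit 4) (nat_lit 245) (nat_lit 206) (nat_lit 149)) (XT.nd (nat_lit 78) (nat_lit 0) (nat_lit 0) (XT.lf (nat_lit 0) (nat_lit 663043777780) (nat_lit 76) (nat_lit 156947079162) (nat_lit 76) (nat_lit 133665718038) (nat_lit 1) (nat_lit 4) (nat_lit 2) (nat_lit 5) (nat_lit 2) (nat_lit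 4) (nat_lit 246) (nat_lit 206) (nat_lit 148)) (XT.lf (nat_lit 0) (nat_lit 779396531994) (nat_lit 76) (nat_lit 169548389074) (nat_lit 76) (nat_lit 146266111607) (nat_lit 1) (nat_lit 4) (nat_lit 2) (nat_lit 5) (nat_lit 2) (nat_lit 4) (nat_lit 247) (nat_lit 206) (nat_lit 147)))) (XT.nd (nat_lit 78) (nat_lit 0) (nat_lit 0) (XT.lf (nat_lit 0) (nat_lit 913200957107) (nat_lit 76) (nat_lit 184040443025) (nat_lit 76) (nat_lit 160757368737) (nat_lit 1) (nat_lit 4) (nat_lit 2) (nat_lit 5) (nat_lit 2) (nat_lit 4) (nat_lit 248) (nat_lit 206) (nat_lit 146)) (XT.nd (nat_lit 78) (nat_lit 0) (nat_lit 0) (XT.lf (nat_lit 0) (nat_lit 1067074965784) (nat_lit 76) (nat_lit 200706781199) (nat_lit 76) (nat_lit 177423014025) (nat_lit 1) (nat_lit 4) (nat_lit 2) (nat_lit 5) (nat_lit 2) (nat_lit 4) (nat_lit 249) (nat_lit 206) (nat_lit 145)) (XT.lf (nat_lit 0) (nat_lit 1244029136455) (nat_lit 76) (nat_lit 219873484126)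 (nat_lit 76) (nat_lit 196589114442) (nat_lit 1) (nat_lit 4) (nat_lit 2) (nat_lit 5) (nat_lit 2) (nat_lit 4) (nat_lit 250) (nat_lit 206) (nat_lit 144))))) (XT.nd (nat_lit 234) (nat_lit 0) (nat_lit 0) (XT.nd (nat_lit 78) (nat_lit 0) (nat_lit 0) (XT.lf (nat_lit 0) (nat_lit 1447525615939) (nat_lit 76) (nat_lit 241915552516) (nat_lit 76) (nat_lit 218630658910) (nat_lit 1) (nat_lit 4) (nat_lit 2) (nat_lit 5) (nat_lit 2) (nat_lit 4) (nat_lit 251) (nat_lit 206) (nat_lit 143)) (XT.nd (nat_lit 78) (nat_lit 0) (nat_lit 0) (XT.lf (nat_lit 0) (nat_lit 1681545857095) (nat_lit 76) (nat_lit 267264244229) (nat_lit 76) (nat_lit 243978895038) (nat_lit 1) (nat_lit 4) (nat_lit 2) (nat_lit 5) (nat_lit 2) (nat_lit 4) (nat_lit 252) (nat_lit 206) (nat_lit 142)) (XT.lf (nat_lit 0) (nat_lit 1950668516815) (nat_lit 76) (nat_lit 296415511928) (nat_lit 76) (nat_lit 273129766577) (nat_lit 1) (nat_lit 4) (nat_lit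 2) (nat_lit 5) (nat_lit 2) (nat_lit 4) (nat_lit 253) (nat_lit 206) (nat_lit 141)))) (XT.nd (nat_lit 156) (nat_lit 0) (nat_lit 0) (XT.nd (nat_lit 78) (nat_lit 0) (nat_lit 0) (XT.lf (nat_lit 0) (nat_lit 2260159038440) (nat_lit 76) (nat_lit 329939706504) (nat_lit 76) (nat_lit 306653616665) (nat_lit 1) (nat_lit 4) (nat_lit 2) (nat_lit 5) (nat_lit 2) (nat_lit 4) (nat_lit 254) (nat_lit 206) (nat_lit 140)) (XT.lf (nat_lit 0) (nat_lit 2616072671308) (nat_lit 76) (nat_lit 368492736111) (nat_lit 76) (nat_lit 345206346718) (nat_lit 1) (nat_lit 4) (nat_lit 2) (nat_lit 5) (nat_lit 2) (nat_lit 4) (nat_lit 255) (nat_lit 206) (nat_lit 139))) (XT.nd (nat_lit 78) (nat_lit 0) (nat_lit 0) (XT.lf (nat_lit 0) (nat_lit 3025372943019) (nat_lit 76) (nat_lit 412828899154) (nat_lit 76) (nat_lit 389542249279) (nat_lit 1) (nat_lit 4) (nat_lit 2) (nat_lit 5) (nat_lit 2) (nat_lit 4) (nat_lit 256) (nat_lit 206)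 (nat_lit 138)) (XT.lf (nat_lit 0) (nat_lit 3496067902365) (nat_lit 76) (nat_lit 463815642302) (nat_lit 76) (nat_lit 440528765921) (nat_lit 1) (nat_lit 4) (nat_lit 2) (nat_lit 5) (nat_lit 2) (nat_lit 4) (nat_lit 257) (nat_lit 206) (nat_lit 137)))))) (XT.nd (nat_lit 546) (nat_lit 0) (nat_lit 0) (XT.nd (nat_lit 234) (nat_lit 0) (nat_lit 0) (XT.nd (nat_lit 78) (nat_lit 0) (nat_lit 0) (XT.lf (nat_lit 0) (nat_lit 4037366798552) (nat_lit 76) (nat_lit 522450532268) (nat_lit 76) (nat_lit 499163458925) (nat_lit 1) (nat_lit 4) (nat_lit 2) (nat_lit 5) (nat_lit 2) (nat_lit 4) (nat_lit 258) (nat_lit 206) (nat_lit 136)) (XT.nd (nat_lit 78) (nat_lit 0) (nat_lit 0) (XT.lf (nat_lit 0) (nat_lit 4659860262158) (nat_lit 76) (nat_lit 589880773421) (nat_lit 76) (nat_lit 566593528808) (nat_lit 1) (nat_lit 4) (nat_lit 2) (nat_lit 5) (nat_lit 2) (nat_lit 4) (nat_lit 259) (nat_lit 206) (nat_lit 135)) (XT.lf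 (nat_lit 0) (nat_lit 5375727513122) (nat_lit 76) (nat_lit 667425653089) (nat_lit 76) (nat_lit 644138259544) (nat_lit 1) (nat_lit 4) (nat_lit 2) (nat_lit 5) (nat_lit 2) (nat_lit 4) (nat_lit 260) (nat_lit 206) (nat_lit 134)))) (XT.nd (nat_lit 156) (nat_lit 0) (nat_lit 0) (XT.nd (nat_lit 78) (nat_lit 0) (nat_lit 0) (XT.lf (nat_lit 0) (nat_lit 6198974649833) (nat_lit 76) (nat_lit 756602353699) (nat_lit 76) (nat_lit 733314830649) (nat_lit 1) (nat_lit 4) (nat_lit 2) (nat_lit 5) (nat_lit 2) (nat_lit 4) (nat_lit 261) (nat_lit 206) (nat_lit 133)) (XT.lf (nat_lit 0) (nat_lit 7145708681488) (nat_lit 76) (nat_lit 859155636786) (nat_lit 76) (nat_lit 835868001122) (nat_lit 1) (nat_lit 4) (nat_lit 2) (nat_lit 5) (nat_lit 2) (nat_lit 4) (nat_lit 262) (nat_lit 206) (nat_lit 132))) (XT.nd (nat_lit 78) (nat_lit 0) (nat_lit 0) (XT.lf (nat_lit 0) (nat_lit 8234452665228) (nat_lit 76) (nat_lit 977091979626)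 (nat_lit 76) (nat_lit 953804246037) (nat_lit 1) (nat_lit 4) (nat_lit 2) (nat_lit 5) (nat_lit 2) (nat_lit 4) (nat_lit 263) (nat_lit 206) (nat_lit 131)) (XT.lf (nat_lit 0) (nat_lit 9486508113777) (nat_lit 76) (nat_lit 1112718832406) (nat_lit 76) (nat_lit 1089431013666) (nat_lit 1) (nat_lit 4) (nat_lit 2) (nat_lit 5) (nat_lit 2) (nat_lit 4) (nat_lit 264) (nat_lit 206) (nat_lit 130))))) (XT.nd (nat_lit 390) (nat_lit 0) (nat_lit 0) (XT.nd (nat_lit 78) (nat_lit 0) (nat_lit 0) (XT.lf (nat_lit 0) (nat_lit 10926371764173) (nat_lit 76) (nat_lit 1268689763985) (nat_lit 76) (nat_lit 1245401871199) (nat_lit 1) (nat_lit 4) (nat_lit 2) (nat_lit 5) (nat_lit 2) (nat_lit 4) (nat_lit 265) (nat_lit 206) (nat_lit 129)) (XT.nd (nat_lit 234) (nat_lit 0) (nat_lit 0) (XT.lf (nat_lit 0) (nat_lit 12582214861750) (nat_lit 76) (nat_lit 1448056379546) (nat_lit 76) (nat_lit 1424768422373) (nat_lit 1) (nat_lit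 4) (nat_lit 2) (nat_lit 5) (nat_lit 2) (nat_lit 4) (nat_lit 266) (nat_lit 206) (nat_lit 128)) (XT.lf (nat_lit 0) (nat_lit 19194616759248) (nat_lit 76) (nat_lit 2164334772583) (nat_lit 76) (nat_lit 2141046668399) (nat_lit 1) (nat_lit 4) (nat_lit 2) (nat_lit 5) (nat_lit 2) (nat_lit 4) (nat_lit 269) (nat_lit 206) (nat_lit 125)))) (XT.nd (nat_lit 624) (nat_lit 0) (nat_lit 0) (XT.nd (nat_lit 546) (nat_lit 0) (nat_lit 0) (XT.lf (nat_lit 0) (nat_lit 22090696319507) (nat_lit 76) (nat_lit 2478048265751) (nat_lit 76) (nat_lit 2454760124755) (nat_lit 1) (nat_lit 4) (nat_lit 2) (nat_lit 5) (nat_lit 2) (nat_lit 4) (nat_lit 270) (nat_lit 206) (nat_lit 124)) (XT.lf (nat_lit 0) (nat_lit 58948575410141) (nat_lit 76) (nat_lit 6470623809348) (nat_lit 76) (nat_lit 6447335515191) (nat_lit 1) (nat_lit 4) (nat_lit 2) (nat_lit 5) (nat_lit 2) (nat_lit 4) (nat_lit 277) (nat_lit 206) (nat_lit 117))) (XT.nd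 (nat_lit 78) (nat_lit 0) (nat_lit 0) (XT.lf (nat_lit 0) (nat_lit 67807748510498) (nat_lit 76) (nat_lit 7430280771548) (nat_lit 76) (nat_lit 7406992465357) (nat_lit 1) (nat_lit 4) (nat_lit 2) (nat_lit 5) (nat_lit 2) (nat_lit 4) (nat_lit 278) (nat_lit 206) (nat_lit 116)) (XT.lf (nat_lit 0) (nat_lit 77995797559594) (nat_lit 76) (nat_lit 8533886285269) (nat_lit 76) (nat_lit 8510597968614) (nat_lit 1) (nat_lit 4) (nat_lit 2) (nat_lit 5) (nat_lit 2) (nat_lit 4) (nat_lit 279) (nat_lit 206) (nat_lit 115))))))) (XT.nd (nat_lit 26520) (nat_lit 0) (nat_lit 76) (XT.nd (nat_lit 25974) (nat_lit 0) (nat_lit 380) (XT.nd (nat_lit 25740) (nat_lit 0) (nat_lit 836) (XT.nd (nat_lit 25584) (nat_lit 0) (nat_lit 836) (XT.lf (nat_lit 0) (nat_lit 89712053951868) (nat_lit 76) (nat_lit 9803032632302) (nat_lit 76) (nat_lit 9779744306546) (nat_lit 1) (nat_lit 4) (nat_lit 2) (nat_lit 5) (nat_lit 2) (nat_lit 4)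 (nat_lit 280) (nat_lit 206) (nat_lit 114)) (XT.nd (nat_lit 78) (nat_lit 0) (nat_lit 0) (XT.lf (nat_lit 0) (nat_lit 1492370942) (nat_lit 0) (nat_lit 1492370942) (nat_lit 228) (nat_lit 2678493868) (nat_lit 12) (nat_lit 5) (nat_lit 12) (nat_lit 3) (nat_lit 15) (nat_lit 3) (nat_lit 207) (nat_lit 207) (nat_lit 186)) (XT.lf (nat_lit 0) (nat_lit 6898135000) (nat_lit 228) (nat_lit 4083706059) (nat_lit 304) (nat_lit 1113488664) (nat_lit 12) (nat_lit 5) (nat_lit 15) (nat_lit 3) (nat_lit 16) (nat_lit 5) (nat_lit 208) (nat_lit 207) (nat_lit 185)))) (XT.nd (nat_lit 78) (nat_lit 0) (nat_lit 0) (XT.lf (nat_lit 76) (nat_lit 678383649) (nat_lit 0) (nat_lit 7382886275) (nat_lit 304) (nat_lit 4905479839) (nat_lit 13) (nat_lit 5) (nat_lit 12) (nat_lit 5) (nat_lit 16) (nat_lit 5) (nat_lit 209) (nat_lit 207) (nat_lit 184)) (XT.nd (nat_lit 78) (nat_lit 0) (nat_lit 76) (XT.lf (nat_lit 76) (nat_lit 6563243064)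 (nat_lit 0) (nat_lit 2981759713) (nat_lit 304) (nat_lit 4403274785) (nat_lit 13) (nat_lit 5) (nat_lit 12) (nat_lit 5) (nat_lit 16) (nat_lit 5) (nat_lit 210) (nat_lit 207) (nat_lit 183)) (XT.lf (nat_lit 0) (nat_lit 11279455689) (nat_lit 228) (nat_lit 1886754671) (nat_lit 76) (nat_lit 1907742680) (nat_lit 13) (nat_lit 5) (nat_lit 16) (nat_lit 5) (nat_lit 14) (nat_lit 5) (nat_lit 211) (nat_lit 207) (nat_lit 182))))) (XT.nd (nat_lit 234) (nat_lit 152) (nat_lit 0) (XT.nd (nat_lit 78) (nat_lit 152) (nat_lit 0) (XT.lf (nat_lit 0) (nat_lit 4661978975) (nat_lit 228) (nat_lit 8896738279) (nat_lit 304) (nat_lit 2768059977) (nat_lit 10) (nat_lit 5) (nat_lit 13) (nat_lit 5) (nat_lit 14) (nat_lit 5) (nat_lit 212) (nat_lit 207) (nat_lit 181)) (XT.nd (nat_lit 78) (nat_lit 152) (nat_lit 0) (XT.lf (nat_lit 0) (nat_lit 12359878835) (nat_lit 228) (nat_lit 3872926059) (nat_lit 304) (nat_lit 1527643548)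 (nat_lit 10) (nat_lit 5) (nat_lit 13) (nat_lit 5) (nat_lit 14) (nat_lit 5) (nat_lit 213) (nat_lit 207) (nat_lit 180)) (XT.lf (nat_lit 0) (nat_lit 28093843) (nat_lit 152) (nat_lit 17551446143) (nat_lit 76) (nat_lit 1812874124) (nat_lit 8) (nat_lit 5) (nat_lit 10) (nat_lit 5) (nat_lit 9) (nat_lit 5) (nat_lit 214) (nat_lit 207) (nat_lit 179)))) (XT.nd (nat_lit 156) (nat_lit 152) (nat_lit 0) (XT.nd (nat_lit 78) (nat_lit 0) (nat_lit 0) (XT.lf (nat_lit 0) (nat_lit 2102283785) (nat_lit 152) (nat_lit 10770035222) (nat_lit 76) (nat_lit 8320287890) (nat_lit 8) (nat_lit 5) (nat_lit 10) (nat_lit 5) (nat_lit 9) (nat_lit 5) (nat_lit 215) (nat_lit 207) (nat_lit 178)) (XT.lf (nat_lit 0) (nat_lit 4453970056) (nat_lit 152) (nat_lit 3013394897) (nat_lit 76) (nat_lit 15801002418) (nat_lit 8) (nat_lit 5) (nat_lit 10) (nat_lit 5) (nat_lit 9) (nat_lit 5) (nat_lit 216) (nat_lit 207) (nat_lit 177))) (XT.nd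 (nat_lit 78) (nat_lit 0) (nat_lit 0) (XT.lf (nat_lit 0) (nat_lit 6443917259) (nat_lit 152) (nat_lit 952075522) (nat_lit 228) (nat_lit 18224291128) (nat_lit 6) (nat_lit 5) (nat_lit 8) (nat_lit 5) (nat_lit 9) (nat_lit 5) (nat_lit 217) (nat_lit 207) (nat_lit 176)) (XT.lf (nat_lit 0) (nat_lit 11187962783) (nat_lit 228) (nat_lit 10960120079) (nat_lit 76) (nat_lit 6115981979) (nat_lit 6) (nat_lit 5) (nat_lit 9) (nat_lit 5) (nat_lit 7) (nat_lit 4) (nat_lit 218) (nat_lit 207) (nat_lit 175)))))) (XT.nd (nat_lit 546) (nat_lit 76) (nat_lit 0) (XT.nd (nat_lit 234) (nat_lit 152) (nat_lit 0) (XT.nd (nat_lit 78) (nat_lit 76) (nat_lit 0) (XT.lf (nat_lit 0) (nat_lit 15570409703) (nat_lit 228) (nat_lit 1590618065) (nat_lit 76) (nat_lit 14140457708) (nat_lit 6) (nat_lit 5) (nat_lit 9) (nat_lit 5) (nat_lit 7) (nat_lit 4) (nat_lit 219) (nat_lit 207) (nat_lit 174)) (XT.nd (nat_lit 78) (nat_lit 0) (nat_lit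 0) (XT.lf (nat_lit 0) (nat_lit 10049560522) (nat_lit 76) (nat_lit 10956224000) (nat_lit 152) (nat_lit 13729682972) (nat_lit 5) (nat_lit 5) (nat_lit 6) (nat_lit 5) (nat_lit 7) (nat_lit 4) (nat_lit 220) (nat_lit 207) (nat_lit 173)) (XT.lf (nat_lit 0) (nat_lit 23586437311) (nat_lit 76) (nat_lit 3734123988) (nat_lit 152) (nat_lit 11354616733) (nat_lit 5) (nat_lit 5) (nat_lit 6) (nat_lit 5) (nat_lit 7) (nat_lit 4) (nat_lit 221) (nat_lit 207) (nat_lit 172)))) (XT.nd (nat_lit 156) (nat_lit 76) (nat_lit 0) (XT.nd (nat_lit 78) (nat_lit 76) (nat_lit 0) (XT.lf (nat_lit 0) (nat_lit 34754951028) (nat_lit 152) (nat_lit 4268087869) (nat_lit 0) (nat_lit 4157160337) (nat_lit 5) (nat_lit 5) (nat_lit 7) (nat_lit 4) (nat_lit 5) (nat_lit 4) (nat_lit 222) (nat_lit 207) (nat_lit 171)) (XT.lf (nat_lit 0) (nat_lit 8753872605) (nat_lit 76) (nat_lit 35076233425) (nat_lit 76) (nat_lit 4452212254) (nat_lit 4)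 (nat_lit 4) (nat_lit 5) (nat_lit 5) (nat_lit 5) (nat_lit 4) (nat_lit 223) (nat_lit 207) (nat_lit 170))) (XT.nd (nat_lit 78) (nat_lit 0) (nat_lit 0) (XT.lf (nat_lit 0) (nat_lit 325618919) (nat_lit 152) (nat_lit 29946749607) (nat_lit 76) (nat_lit 23843916294) (nat_lit 3) (nat_lit 5) (nat_lit 5) (nat_lit 5) (nat_lit 4) (nat_lit 4) (nat_lit 224) (nat_lit 207) (nat_lit 169)) (XT.lf (nat_lit 0) (nat_lit 5351701029) (nat_lit 152) (nat_lit 19160507083) (nat_lit 76) (nat_lit 36283349107) (nat_lit 3) (nat_lit 5) (nat_lit 5) (nat_lit 5) (nat_lit 4) (nat_lit 4) (nat_lit 225) (nat_lit 207) (nat_lit 168))))) (XT.nd (nat_lit 234) (nat_lit 0) (nat_lit 0) (XT.nd (nat_lit 78) (nat_lit 76) (nat_lit 0) (XT.lf (nat_lit 0) (nat_lit 11120737186) (nat_lit 152) (nat_lit 6774326312) (nat_lit 76) (nat_lit 50583406889) (nat_lit 3) (nat_lit 5) (nat_lit 5) (nat_lit 5) (nat_lit 4) (nat_lit 4) (nat_lit 226) (nat_lit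 207) (nat_lit 167)) (XT.nd (nat_lit 78) (nat_lit 0) (nat_lit 0) (XT.lf (nat_lit 0) (nat_lit 8182602919) (nat_lit 76) (nat_lit 9901821054) (nat_lit 152) (nat_lit 59180094599) (nat_lit 2) (nat_lit 5) (nat_lit 3) (nat_lit 5) (nat_lit 4) (nat_lit 4) (nat_lit 227) (nat_lit 207) (nat_lit 166)) (XT.lf (nat_lit 0) (nat_lit 26129474276) (nat_lit 76) (nat_lit 308397391) (nat_lit 152) (nat_lit 60878901414) (nat_lit 2) (nat_lit 5) (nat_lit 3) (nat_lit 5) (nat_lit 4) (nat_lit 4) (nat_lit 228) (nat_lit 207) (nat_lit 165)))) (XT.nd (nat_lit 156) (nat_lit 0) (nat_lit 0) (XT.nd (nat_lit 78) (nat_lit 0) (nat_lit 0) (XT.lf (nat_lit 0) (nat_lit 36480435699) (nat_lit 152) (nat_lit 52566553622) (nat_lit 0) (nat_lit 9764531377) (nat_lit 2) (nat_lit 5) (nat_lit 4) (nat_lit 4) (nat_lit 2) (nat_lit 4) (nat_lit 229) (nat_lit 207) (nat_lit 164)) (XT.lf (nat_lit 0) (nat_lit 48037147807) (nat_lit 152) (nat_lit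 42679560139) (nat_lit 0) (nat_lit 21312668694) (nat_lit 2) (nat_lit 5) (nat_lit 4) (nat_lit 4) (nat_lit 2) (nat_lit 4) (nat_lit 230) (nat_lit 207) (nat_lit 163))) (XT.nd (nat_lit 78) (nat_lit 0) (nat_lit 0) (XT.lf (nat_lit 0) (nat_lit 61321347497) (nat_lit 152) (nat_lit 31320107102) (nat_lit 0) (nat_lit 34589412045) (nat_lit 2) (nat_lit 5) (nat_lit 4) (nat_lit 4) (nat_lit 2) (nat_lit 4) (nat_lit 231) (nat_lit 207) (nat_lit 162)) (XT.lf (nat_lit 0) (nat_lit 76592943025) (nat_lit 152) (nat_lit 18265944342) (nat_lit 0) (nat_lit 49854523799) (nat_lit 2) (nat_lit 5) (nat_lit 4) (nat_lit 4) (nat_lit 2) (nat_lit 4) (nat_lit 232) (nat_lit 207) (nat_lit 161))))))))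
noncomputable def xc34 : XT := (XT.nd (nat_lit 2028) (nat_lit 0) (nat_lit 0) (XT.nd (nat_lit 1014) (nat_lit 0) (nat_lit 0) (XT.nd (nat_lit 468) (nat_lit 0) (nat_lit 0) (XT.nd (nat_lit 234) (nat_lit 0) (nat_lit 0) (XT.nd (nat_lit 78) (nat_lit 76) (nat_lit 0) (XT.lf (nat_lit 0) (nat_lit 94150726477) (nat_lit 152) (nat_lit 3261664328) (nat_lit 0) (nat_lit 67406669186) (nat_lit 2) (nat_lit 5) (nat_lit 4) (nat_lit 4) (nat_lit 2) (nat_lit 4) (nat_lit 233) (nat_lit 207) (nat_lit 160)) (XT.nd (nat_lit 78) (nat_lit 0) (nat_lit 0) (XT.lf (nat_lit 0) (nat_lit 15353137401) (nat_lit 76) (nat_lit 99620822980) (nat_lit 76) (nat_lit 72871863025) (nat_lit 1) (nat_lit 4) (nat_lit 2) (nat_lit 5) (nat_lit 2) (nat_lit 4) (nat_lit 234) (nat_lit 207) (nat_lit 159)) (XT.lf (nat_lit 0) (nat_lit 37120079725) (nat_lit 76) (nat_lit 101967379012) (nat_lit 76) (nat_lit 75214155871) (nat_lit 1) (nat_lit 4) (nat_lit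 2) (nat_lit 5) (nat_lit 2) (nat_lit 4) (nat_lit 235) (nat_lit 207) (nat_lit 158)))) (XT.nd (nat_lit 78) (nat_lit 0) (nat_lit 0) (XT.lf (nat_lit 0) (nat_lit 62146284041) (nat_lit 76) (nat_lit 104668465872) (nat_lit 76) (nat_lit 77911535612) (nat_lit 1) (nat_lit 4) (nat_lit 2) (nat_lit 5) (nat_lit 2) (nat_lit 4) (nat_lit 236) (nat_lit 207) (nat_lit 157)) (XT.nd (nat_lit 78) (nat_lit 0) (nat_lit 0) (XT.lf (nat_lit 0) (nat_lit 90921393479) (nat_lit 76) (nat_lit 107776930909) (nat_lit 76) (nat_lit 81016777068) (nat_lit 1) (nat_lit 4) (nat_lit 2) (nat_lit 5) (nat_lit 2) (nat_lit 4) (nat_lit 237) (nat_lit 207) (nat_lit 156)) (XT.lf (nat_lit 0) (nat_lit 124008399310) (nat_lit 76) (nat_lit 111353591919) (nat_lit 76) (nat_lit 84590634964) (nat_lit 1) (nat_lit 4) (nat_lit 2) (nat_lit 5) (nat_lit 2) (nat_lit 4) (nat_lit 238) (nat_lit 207) (nat_lit 155))))) (XT.nd (nat_lit 234) (nat_lit 0) (nat_lit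 0) (XT.nd (nat_lit 78) (nat_lit 0) (nat_lit 0) (XT.lf (nat_lit 0) (nat_lit 162054655996) (nat_lit 76) (nat_lit 115468427052) (nat_lit 76) (nat_lit 88703032606) (nat_lit 1) (nat_lit 4) (nat_lit 2) (nat_lit 5) (nat_lit 2) (nat_lit 4) (nat_lit 239) (nat_lit 207) (nat_lit 154)) (XT.nd (nat_lit 78) (nat_lit 0) (nat_lit 0) (XT.lf (nat_lit 0) (nat_lit 205804546819) (nat_lit 76) (nat_lit 120201943951) (nat_lit 76) (nat_lit 93434429948) (nat_lit 1) (nat_lit 4) (nat_lit 2) (nat_lit 5) (nat_lit 2) (nat_lit 4) (nat_lit 240) (nat_lit 207) (nat_lit 153)) (XT.lf (nat_lit 0) (nat_lit 256114047904) (nat_lit 76) (nat_lit 125646754903) (nat_lit 76) (nat_lit 98877397807) (nat_lit 1) (nat_lit 4) (nat_lit 2) (nat_lit 5) (nat_lit 2) (nat_lit 4) (nat_lit 241) (nat_lit 207) (nat_lit 152)))) (XT.nd (nat_lit 156) (nat_lit 0) (nat_lit 0) (XT.nd (nat_lit 78) (nat_lit 0) (nat_lit 0) (XT.lf (nat_lit 0) (nat_lit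 313967475578) (nat_lit 76) (nat_lit 131909388819) (nat_lit 76) (nat_lit 105138429034) (nat_lit 1) (nat_lit 4) (nat_lit 2) (nat_lit 5) (nat_lit 2) (nat_lit 4) (nat_lit 242) (nat_lit 207) (nat_lit 151)) (XT.lf (nat_lit 0) (nat_lit 380496744728) (nat_lit 76) (nat_lit 139112375493) (nat_lit 76) (nat_lit 112340022064) (nat_lit 1) (nat_lit 4) (nat_lit 2) (nat_lit 5) (nat_lit 2) (nat_lit 4) (nat_lit 243) (nat_lit 207) (nat_lit 150))) (XT.nd (nat_lit 78) (nat_lit 0) (nat_lit 0) (XT.lf (nat_lit 0) (nat_lit 457003514970) (nat_lit 76) (nat_lit 147396642925) (nat_lit 76) (nat_lit 120623077632) (nat_lit 1) (nat_lit 4) (nat_lit 2) (nat_lit 5) (nat_lit 2) (nat_lit 4) (nat_lit 244) (nat_lit 207) (nat_lit 149)) (XT.lf (nat_lit 0) (nat_lit 544984657895) (nat_lit 76) (nat_lit 156924274607) (nat_lit 76) (nat_lit 130149655520) (nat_lit 1) (nat_lit 4) (nat_lit 2) (nat_lit 5) (nat_lit 2) (nat_lit 4) (nat_lit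 245) (nat_lit 207) (nat_lit 148)))))) (XT.nd (nat_lit 468) (nat_lit 0) (nat_lit 0) (XT.nd (nat_lit 234) (nat_lit 0) (nat_lit 0) (XT.nd (nat_lit 78) (nat_lit 0) (nat_lit 0) (XT.lf (nat_lit 0) (nat_lit 646161543690) (nat_lit 76) (nat_lit 167881680725) (nat_lit 76) (nat_lit 141106145295) (nat_lit 1) (nat_lit 4) (nat_lit 2) (nat_lit 5) (nat_lit 2) (nat_lit 4) (nat_lit 246) (nat_lit 207) (nat_lit 147)) (XT.nd (nat_lit 78) (nat_lit 0) (nat_lit 0) (XT.lf (nat_lit 0) (nat_lit 762513720121) (nat_lit 76) (nat_lit 180483245313) (nat_lit 76) (nat_lit 153706913062) (nat_lit 1) (nat_lit 4) (nat_lit 2) (nat_lit 5) (nat_lit 2) (nat_lit 4) (nat_lit 247) (nat_lit 207) (nat_lit 146)) (XT.lf (nat_lit 0) (nat_lit 896317642814) (nat_lit 76) (nat_lit 194975520719) (nat_lit 76) (nat_lit 168198495582) (nat_lit 1) (nat_lit 4) (nat_lit 2) (nat_lit 5) (nat_lit 2) (nat_lit 4) (nat_lit 248) (nat_lit 207) (nat_lit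 145)))) (XT.nd (nat_lit 78) (nat_lit 0) (nat_lit 0) (XT.lf (nat_lit 0) (nat_lit 1050191214604) (nat_lit 76) (nat_lit 211642051464) (nat_lit 76) (nat_lit 184864423817) (nat_lit 1) (nat_lit 4) (nat_lit 2) (nat_lit 5) (nat_lit 2) (nat_lit 4) (nat_lit 249) (nat_lit 207) (nat_lit 144)) (XT.nd (nat_lit 78) (nat_lit 0) (nat_lit 0) (XT.lf (nat_lit 0) (nat_lit 1227145005374) (nat_lit 76) (nat_lit 230808921844) (nat_lit 76) (nat_lit 204030770275) (nat_lit 1) (nat_lit 4) (nat_lit 2) (nat_lit 5) (nat_lit 2) (nat_lit 4) (nat_lit 250) (nat_lit 207) (nat_lit 143)) (XT.lf (nat_lit 0) (nat_lit 1430641154509) (nat_lit 76) (nat_lit 252851135846) (nat_lit 76) (nat_lit 226072528692) (nat_lit 1) (nat_lit 4) (nat_lit 2) (nat_lit 5) (nat_lit 2) (nat_lit 4) (nat_lit 251) (nat_lit 207) (nat_lit 142))))) (XT.nd (nat_lit 234) (nat_lit 0) (nat_lit 0) (XT.nd (nat_lit 78) (nat_lit 0) (nat_lit 0) (XT.lf (nat_lit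 0) (nat_lit 1664661108405) (nat_lit 76) (nat_lit 278199954177) (nat_lit 76) (nat_lit 251420950863) (nat_lit 1) (nat_lit 4) (nat_lit 2) (nat_lit 5) (nat_lit 2) (nat_lit 4) (nat_lit 252) (nat_lit 207) (nat_lit 141)) (XT.nd (nat_lit 78) (nat_lit 0) (nat_lit 0) (XT.lf (nat_lit 0) (nat_lit 1933783518333) (nat_lit 76) (nat_lit 307351331979) (nat_lit 76) (nat_lit 280571984178) (nat_lit 1) (nat_lit 4) (nat_lit 2) (nat_lit 5) (nat_lit 2) (nat_lit 4) (nat_lit 253) (nat_lit 207) (nat_lit 140)) (XT.lf (nat_lit 0) (nat_lit 2243273822748) (nat_lit 76) (nat_lit 340875622297) (nat_lit 76) (nat_lit 314095974941) (nat_lit 1) (nat_lit 4) (nat_lit 2) (nat_lit 5) (nat_lit 2) (nat_lit 4) (nat_lit 254) (nat_lit 207) (nat_lit 139)))) (XT.nd (nat_lit 156) (nat_lit 0) (nat_lit 0) (XT.nd (nat_lit 78) (nat_lit 0) (nat_lit 0) (XT.lf (nat_lit 0) (nat_lit 2599187266738) (nat_lit 76) (nat_lit 379428735157) (nat_lit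 76) (nat_lit 352648827319) (nat_lit 1) (nat_lit 4) (nat_lit 2) (nat_lit 5) (nat_lit 2) (nat_lit 4) (nat_lit 255) (nat_lit 207) (nat_lit 138)) (XT.lf (nat_lit 0) (nat_lit 3008487374206) (nat_lit 76) (nat_lit 423764970595) (nat_lit 76) (nat_lit 396984836251) (nat_lit 1) (nat_lit 4) (nat_lit 2) (nat_lit 5) (nat_lit 2) (nat_lit 4) (nat_lit 256) (nat_lit 207) (nat_lit 137))) (XT.nd (nat_lit 78) (nat_lit 0) (nat_lit 0) (XT.lf (nat_lit 0) (nat_lit 3479182190734) (nat_lit 76) (nat_lit 474751776694) (nat_lit 76) (nat_lit 447971445389) (nat_lit 1) (nat_lit 4) (nat_lit 2) (nat_lit 5) (nat_lit 2) (nat_lit 4) (nat_lit 257) (nat_lit 207) (nat_lit 136)) (XT.lf (nat_lit 0) (nat_lit 4020480962730) (nat_lit 76) (nat_lit 533386721401) (nat_lit 76) (nat_lit 506606218824) (nat_lit 1) (nat_lit 4) (nat_lit 2) (nat_lit 5) (nat_lit 2) (nat_lit 4) (nat_lit 258) (nat_lit 207) (nat_lit 135))))))) (XT.nd (nat_lit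 27534) (nat_lit 0) (nat_lit 228) (XT.nd (nat_lit 468) (nat_lit 0) (nat_lit 0) (XT.nd (nat_lit 234) (nat_lit 0) (nat_lit 0) (XT.nd (nat_lit 78) (nat_lit 0) (nat_lit 0) (XT.lf (nat_lit 0) (nat_lit 4642974318344) (nat_lit 76) (nat_lit 600817010155) (nat_lit 76) (nat_lit 574036358647) (nat_lit 1) (nat_lit 4) (nat_lit 2) (nat_lit 5) (nat_lit 2) (nat_lit 4) (nat_lit 259) (nat_lit 207) (nat_lit 134)) (XT.nd (nat_lit 78) (nat_lit 0) (nat_lit 0) (XT.lf (nat_lit 0) (nat_lit 5358841475403) (nat_lit 76) (nat_lit 678361931215) (nat_lit 76) (nat_lit 651581150201) (nat_lit 1) (nat_lit 4) (nat_lit 2) (nat_lit 5) (nat_lit 2) (nat_lit 4) (nat_lit 260) (nat_lit 207) (nat_lit 133)) (XT.lf (nat_lit 0) (nat_lit 6182088530457) (nat_lit 76) (nat_lit 767538667818) (nat_lit 76) (nat_lit 740757774191) (nat_lit 1) (nat_lit 4) (nat_lit 2) (nat_lit 5) (nat_lit 2) (nat_lit 4) (nat_lit 261) (nat_lit 207) (nat_lit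 132)))) (XT.nd (nat_lit 78) (nat_lit 0) (nat_lit 0) (XT.lf (nat_lit 0) (nat_lit 7128822491105) (nat_lit 76) (nat_lit 870091982202) (nat_lit 76) (nat_lit 843310990650) (nat_lit 1) (nat_lit 4) (nat_lit 2) (nat_lit 5) (nat_lit 2) (nat_lit 4) (nat_lit 262) (nat_lit 207) (nat_lit 131)) (XT.nd (nat_lit 78) (nat_lit 0) (nat_lit 0) (XT.lf (nat_lit 0) (nat_lit 8217566413100) (nat_lit 76) (nat_lit 988028352258) (nat_lit 76) (nat_lit 961247275555) (nat_lit 1) (nat_lit 4) (nat_lit 2) (nat_lit 5) (nat_lit 2) (nat_lit 4) (nat_lit 263) (nat_lit 207) (nat_lit 130)) (XT.lf (nat_lit 0) (nat_lit 9469621807958) (nat_lit 76) (nat_lit 1123655228704) (nat_lit 76) (nat_lit 1096874077956) (nat_lit 1) (nat_lit 4) (nat_lit 2) (nat_lit 5) (nat_lit 2) (nat_lit 4) (nat_lit 264) (nat_lit 207) (nat_lit 129))))) (XT.nd (nat_lit 390) (nat_lit 0) (nat_lit 0) (XT.nd (nat_lit 234) (nat_lit 0) (nat_lit 0) (XT.lf (nat_lit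 0) (nat_lit 10909485411667) (nat_lit 76) (nat_lit 1279626180863) (nat_lit 76) (nat_lit 1252844965727) (nat_lit 1) (nat_lit 4) (nat_lit 2) (nat_lit 5) (nat_lit 2) (nat_lit 4) (nat_lit 265) (nat_lit 207) (nat_lit 128)) (XT.nd (nat_lit 78) (nat_lit 0) (nat_lit 0) (XT.lf (nat_lit 0) (nat_lit 16659400197838) (nat_lit 76) (nat_lit 1902476916558) (nat_lit 76) (nat_lit 1875695554412) (nat_lit 1) (nat_lit 4) (nat_lit 2) (nat_lit 5) (nat_lit 2) (nat_lit 4) (nat_lit 268) (nat_lit 207) (nat_lit 125)) (XT.lf (nat_lit 0) (nat_lit 19177730273449) (nat_lit 76) (nat_lit 2175271248213) (nat_lit 76) (nat_lit 2148489849253) (nat_lit 1) (nat_lit 4) (nat_lit 2) (nat_lit 5) (nat_lit 2) (nat_lit 4) (nat_lit 269) (nat_lit 207) (nat_lit 124)))) (XT.nd (nat_lit 26520) (nat_lit 0) (nat_lit 836) (XT.nd (nat_lit 26442) (nat_lit 0) (nat_lit 836) (XT.lf (nat_lit 0) (nat_lit 22073809810495) (nat_lit 76) (nat_lit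 2488984751613) (nat_lit 76) (nat_lit 2462203320641) (nat_lit 1) (nat_lit 4) (nat_lit 2) (nat_lit 5) (nat_lit 2) (nat_lit 4) (nat_lit 270) (nat_lit 207) (nat_lit 123)) (XT.lf (nat_lit 0) (nat_lit 1922480539) (nat_lit 0) (nat_lit 1922480539) (nat_lit 228) (nat_lit 2597749091) (nat_lit 12) (nat_lit 5) (nat_lit 12) (nat_lit 3) (nat_lit 15) (nat_lit 3) (nat_lit 208) (nat_lit 208) (nat_lit 184))) (XT.nd (nat_lit 78) (nat_lit 0) (nat_lit 0) (XT.lf (nat_lit 0) (nat_lit 8635407204) (nat_lit 228) (nat_lit 4200948162) (nat_lit 304) (nat_lit 953743613) (nat_lit 12) (nat_lit 5) (nat_lit 15) (nat_lit 3) (nat_lit 16) (nat_lit 5) (nat_lit 209) (nat_lit 208) (nat_lit 183)) (XT.lf (nat_lit 76) (nat_lit 1252940739) (nat_lit 0) (nat_lit 8648012038) (nat_lit 304) (nat_lit 4903933502) (nat_lit 13) (nat_lit 5) (nat_lit 12) (nat_lit 5) (nat_lit 16) (nat_lit 5) (nat_lit 210) (nat_lit 208) (nat_lit 182))))))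 (XT.nd (nat_lit 546) (nat_lit 304) (nat_lit 0) (XT.nd (nat_lit 234) (nat_lit 152) (nat_lit 0) (XT.nd (nat_lit 78) (nat_lit 152) (nat_lit 0) (XT.lf (nat_lit 76) (nat_lit 7958859560) (nat_lit 0) (nat_lit 3566147863) (nat_lit 304) (nat_lit 4422576165) (nat_lit 13) (nat_lit 5) (nat_lit 12) (nat_lit 5) (nat_lit 16) (nat_lit 5) (nat_lit 211) (nat_lit 208) (nat_lit 181)) (XT.nd (nat_lit 78) (nat_lit 228) (nat_lit 0) (XT.lf (nat_lit 0) (nat_lit 13443179441) (nat_lit 228) (nat_lit 1726512510) (nat_lit 76) (nat_lit 2085281083) (nat_lit 13) (nat_lit 5) (nat_lit 16) (nat_lit 5) (nat_lit 14) (nat_lit 5) (nat_lit 212) (nat_lit 208) (nat_lit 180)) (XT.lf (nat_lit 0) (nat_lit 5784383212) (nat_lit 228) (nat_lit 10235927170) (nat_lit 304) (nat_lit 2683226776) (nat_lit 10) (nat_lit 5) (nat_lit 13) (nat_lit 5) (nat_lit 14) (nat_lit 5) (nat_lit 213) (nat_lit 208) (nat_lit 179)))) (XT.nd (nat_lit 156)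 (nat_lit 0) (nat_lit 0) (XT.nd (nat_lit 78) (nat_lit 152) (nat_lit 0) (XT.lf (nat_lit 0) (nat_lit 14581780130) (nat_lit 228) (nat_lit 4457932924) (nat_lit 304) (nat_lit 1321970778) (nat_lit 10) (nat_lit 5) (nat_lit 13) (nat_lit 5) (nat_lit 14) (nat_lit 5) (nat_lit 214) (nat_lit 208) (nat_lit 178)) (XT.lf (nat_lit 0) (nat_lit 394440272) (nat_lit 152) (nat_lit 19732121794) (nat_lit 76) (nat_lit 2115075774) (nat_lit 8) (nat_lit 5) (nat_lit 10) (nat_lit 5) (nat_lit 9) (nat_lit 5) (nat_lit 215) (nat_lit 208) (nat_lit 177))) (XT.nd (nat_lit 78) (nat_lit 0) (nat_lit 0) (XT.lf (nat_lit 0) (nat_lit 2732524050) (nat_lit 152) (nat_lit 11992461140) (nat_lit 76) (nat_lit 9594653274) (nat_lit 8) (nat_lit 5) (nat_lit 10) (nat_lit 5) (nat_lit 9) (nat_lit 5) (nat_lit 216) (nat_lit 208) (nat_lit 176)) (XT.lf (nat_lit 0) (nat_lit 5395889649) (nat_lit 152) (nat_lit 3123595988) (nat_lit 76) (nat_lit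 18194041651) (nat_lit 8) (nat_lit 5) (nat_lit 10) (nat_lit 5) (nat_lit 9) (nat_lit 5) (nat_lit 217) (nat_lit 208) (nat_lit 175))))) (XT.nd (nat_lit 234) (nat_lit 152) (nat_lit 0) (XT.nd (nat_lit 78) (nat_lit 0) (nat_lit 0) (XT.lf (nat_lit 0) (nat_lit 7736776258) (nat_lit 152) (nat_lit 1020233543) (nat_lit 228) (nat_lit 20665076956) (nat_lit 6) (nat_lit 5) (nat_lit 8) (nat_lit 5) (nat_lit 9) (nat_lit 5) (nat_lit 218) (nat_lit 208) (nat_lit 174)) (XT.nd (nat_lit 78) (nat_lit 0) (nat_lit 0) (XT.lf (nat_lit 0) (nat_lit 13087643580) (nat_lit 228) (nat_lit 12287251208) (nat_lit 76) (nat_lit 7092515932) (nat_lit 6) (nat_lit 5) (nat_lit 9) (nat_lit 5) (nat_lit 7) (nat_lit 4) (nat_lit 219) (nat_lit 208) (nat_lit 173)) (XT.lf (nat_lit 0) (nat_lit 18098568011) (nat_lit 228) (nat_lit 1553656964) (nat_lit 76) (nat_lit 16312949544) (nat_lit 6) (nat_lit 5) (nat_lit 9) (nat_lit 5) (nat_lit 7) (nat_lit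 4) (nat_lit 220) (nat_lit 208) (nat_lit 172)))) (XT.nd (nat_lit 156) (nat_lit 76) (nat_lit 0) (XT.nd (nat_lit 78) (nat_lit 0) (nat_lit 0) (XT.lf (nat_lit 0) (nat_lit 11820023238) (nat_lit 76) (nat_lit 12514995941) (nat_lit 152) (nat_lit 15581714043) (nat_lit 5) (nat_lit 5) (nat_lit 6) (nat_lit 5) (nat_lit 7) (nat_lit 4) (nat_lit 221) (nat_lit 208) (nat_lit 171)) (XT.lf (nat_lit 0) (nat_lit 27353123462) (nat_lit 76) (nat_lit 4220623753) (nat_lit 152) (nat_lit 12877442830) (nat_lit 5) (nat_lit 5) (nat_lit 6) (nat_lit 5) (nat_lit 7) (nat_lit 4) (nat_lit 222) (nat_lit 208) (nat_lit 170))) (XT.nd (nat_lit 78) (nat_lit 76) (nat_lit 0) (XT.lf (nat_lit 0) (nat_lit 40105715525) (nat_lit 152) (nat_lit 4690095095) (nat_lit 0) (nat_lit 4839051584) (nat_lit 5) (nat_lit 5) (nat_lit 7) (nat_lit 4) (nat_lit 5) (nat_lit 4) (nat_lit 223) (nat_lit 208) (nat_lit 169)) (XT.lf (nat_lit 0) (nat_lit 10275240998)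 (nat_lit 76) (nat_lit 40257589890) (nat_lit 76) (nat_lit 4971091937) (nat_lit 4) (nat_lit 4) (nat_lit 5) (nat_lit 5) (nat_lit 5) (nat_lit 4) (nat_lit 224) (nat_lit 208) (nat_lit 168))))))))
noncomputable def xc35 : XT := (XT.nd (nat_lit 2106) (nat_lit 0) (nat_lit 0) (XT.nd (nat_lit 1014) (nat_lit 0) (nat_lit 0) (XT.nd (nat_lit 468) (nat_lit 76) (nat_lit 0) (XT.nd (nat_lit 234) (nat_lit 76) (nat_lit 0) (XT.nd (nat_lit 78) (nat_lit 0) (nat_lit 0) (XT.lf (nat_lit 0) (nat_lit 492454282) (nat_lit 152) (nat_lit 34244968211) (nat_lit 76) (nat_lit 27477462989) (nat_lit 3) (nat_lit 5) (nat_lit 5) (nat_lit 5) (nat_lit 4) (nat_lit 4) (nat_lit 225) (nat_lit 208) (nat_lit 167)) (XT.nd (nat_lit 78) (nat_lit 0) (nat_lit 0) (XT.lf (nat_lit 0) (nat_lit 6257058379) (nat_lit 152) (nat_lit 21866066765) (nat_lit 76) (nat_lit 41775381256) (nat_lit 3) (nat_lit 5) (nat_lit 5) (nat_lit 5) (nat_lit 4) (nat_lit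 4) (nat_lit 226) (nat_lit 208) (nat_lit 166)) (XT.lf (nat_lit 0) (nat_lit 12878067065) (nat_lit 152) (nat_lit 7643939276) (nat_lit 76) (nat_lit 58213987299) (nat_lit 3) (nat_lit 5) (nat_lit 5) (nat_lit 5) (nat_lit 4) (nat_lit 4) (nat_lit 227) (nat_lit 208) (nat_lit 165)))) (XT.nd (nat_lit 78) (nat_lit 0) (nat_lit 0) (XT.lf (nat_lit 0) (nat_lit 9549868614) (nat_lit 76) (nat_lit 11330592893) (nat_lit 152) (nat_lit 67960477100) (nat_lit 2) (nat_lit 5) (nat_lit 3) (nat_lit 5) (nat_lit 4) (nat_lit 4) (nat_lit 228) (nat_lit 208) (nat_lit 164)) (XT.nd (nat_lit 78) (nat_lit 0) (nat_lit 0) (XT.lf (nat_lit 0) (nat_lit 30170526076) (nat_lit 76) (nat_lit 305525417) (nat_lit 152) (nat_lit 69926709071) (nat_lit 2) (nat_lit 5) (nat_lit 3) (nat_lit 5) (nat_lit 4) (nat_lit 4) (nat_lit 229) (nat_lit 208) (nat_lit 163)) (XT.lf (nat_lit 0) (nat_lit 42017312802) (nat_lit 152) (nat_lit 60337515183) (nat_lit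 0) (nat_lit 11268130692) (nat_lit 2) (nat_lit 5) (nat_lit 4) (nat_lit 4) (nat_lit 2) (nat_lit 4) (nat_lit 230) (nat_lit 208) (nat_lit 162))))) (XT.nd (nat_lit 234) (nat_lit 76) (nat_lit 0) (XT.nd (nat_lit 78) (nat_lit 0) (nat_lit 0) (XT.lf (nat_lit 0) (nat_lit 55299078020) (nat_lit 152) (nat_lit 48982345045) (nat_lit 0) (nat_lit 24543412136) (nat_lit 2) (nat_lit 5) (nat_lit 4) (nat_lit 4) (nat_lit 2) (nat_lit 4) (nat_lit 231) (nat_lit 208) (nat_lit 161)) (XT.nd (nat_lit 78) (nat_lit 0) (nat_lit 0) (XT.lf (nat_lit 0) (nat_lit 70568556615) (nat_lit 152) (nat_lit 35931906546) (nat_lit 0) (nat_lit 39807252667) (nat_lit 2) (nat_lit 5) (nat_lit 4) (nat_lit 4) (nat_lit 2) (nat_lit 4) (nat_lit 232) (nat_lit 208) (nat_lit 160)) (XT.lf (nat_lit 0) (nat_lit 88124499255) (nat_lit 152) (nat_lit 20930865018) (nat_lit 0) (nat_lit 57358292643) (nat_lit 2) (nat_lit 5) (nat_lit 4) (nat_lit 4) (nat_lit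 2) (nat_lit 4) (nat_lit 233) (nat_lit 208) (nat_lit 159)))) (XT.nd (nat_lit 156) (nat_lit 0) (nat_lit 0) (XT.nd (nat_lit 78) (nat_lit 76) (nat_lit 0) (XT.lf (nat_lit 0) (nat_lit 108310391775) (nat_lit 152) (nat_lit 3685721825) (nat_lit 0) (nat_lit 77539921977) (nat_lit 2) (nat_lit 5) (nat_lit 4) (nat_lit 4) (nat_lit 2) (nat_lit 4) (nat_lit 234) (nat_lit 208) (nat_lit 158)) (XT.lf (nat_lit 0) (nat_lit 17718336884) (nat_lit 76) (nat_lit 114536517212) (nat_lit 76) (nat_lit 83762340295) (nat_lit 1) (nat_lit 4) (nat_lit 2) (nat_lit 5) (nat_lit 2) (nat_lit 4) (nat_lit 235) (nat_lit 208) (nat_lit 157))) (XT.nd (nat_lit 78) (nat_lit 0) (nat_lit 0) (XT.lf (nat_lit 0) (nat_lit 42742203746) (nat_lit 76) (nat_lit 117238634373) (nat_lit 76) (nat_lit 86461233875) (nat_lit 1) (nat_lit 4) (nat_lit 2) (nat_lit 5) (nat_lit 2) (nat_lit 4) (nat_lit 236) (nat_lit 208) (nat_lit 156)) (XT.lf (nat_lit 0)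 (nat_lit 71515280616) (nat_lit 76) (nat_lit 120347995326) (nat_lit 76) (nat_lit 89567791713) (nat_lit 1) (nat_lit 4) (nat_lit 2) (nat_lit 5) (nat_lit 2) (nat_lit 4) (nat_lit 237) (nat_lit 208) (nat_lit 155)))))) (XT.nd (nat_lit 546) (nat_lit 0) (nat_lit 0) (XT.nd (nat_lit 234) (nat_lit 0) (nat_lit 0) (XT.nd (nat_lit 78) (nat_lit 0) (nat_lit 0) (XT.lf (nat_lit 0) (nat_lit 104600518995) (nat_lit 76) (nat_lit 123925435392) (nat_lit 76) (nat_lit 93142794288) (nat_lit 1) (nat_lit 4) (nat_lit 2) (nat_lit 5) (nat_lit 2) (nat_lit 4) (nat_lit 238) (nat_lit 208) (nat_lit 154)) (XT.nd (nat_lit 78) (nat_lit 0) (nat_lit 0) (XT.lf (nat_lit 0) (nat_lit 142645238767) (nat_lit 76) (nat_lit 128040947965) (nat_lit 76) (nat_lit 97256187304) (nat_lit 1) (nat_lit 4) (nat_lit 2) (nat_lit 5) (nat_lit 2) (nat_lit 4) (nat_lit 239) (nat_lit 208) (nat_lit 153)) (XT.lf (nat_lit 0) (nat_lit 186393793143) (nat_lit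 76) (nat_lit 132775053942) (nat_lit 76) (nat_lit 101988450188) (nat_lit 1) (nat_lit 4) (nat_lit 2) (nat_lit 5) (nat_lit 2) (nat_lit 4) (nat_lit 240) (nat_lit 208) (nat_lit 152)))) (XT.nd (nat_lit 156) (nat_lit 0) (nat_lit 0) (XT.nd (nat_lit 78) (nat_lit 0) (nat_lit 0) (XT.lf (nat_lit 0) (nat_lit 236702132100) (nat_lit 76) (nat_lit 138220377137) (nat_lit 76) (nat_lit 107432170694) (nat_lit 1) (nat_lit 4) (nat_lit 2) (nat_lit 5) (nat_lit 2) (nat_lit 4) (nat_lit 241) (nat_lit 208) (nat_lit 151)) (XT.lf (nat_lit 0) (nat_lit 294554549228) (nat_lit 76) (nat_lit 144483456481) (nat_lit 76) (nat_lit 113693856394) (nat_lit 1) (nat_lit 4) (nat_lit 2) (nat_lit 5) (nat_lit 2) (nat_lit 4) (nat_lit 242) (nat_lit 208) (nat_lit 150))) (XT.nd (nat_lit 78) (nat_lit 0) (nat_lit 0) (XT.lf (nat_lit 0) (nat_lit 361082939643) (nat_lit 76) (nat_lit 151686830483) (nat_lit 76) (nat_lit 120896018533) (nat_lit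 1) (nat_lit 4) (nat_lit 2) (nat_lit 5) (nat_lit 2) (nat_lit 4) (nat_lit 243) (nat_lit 208) (nat_lit 149)) (XT.lf (nat_lit 0) (nat_lit 437588945767) (nat_lit 76) (nat_lit 159971434722) (nat_lit 76) (nat_lit 129179568978) (nat_lit 1) (nat_lit 4) (nat_lit 2) (nat_lit 5) (nat_lit 2) (nat_lit 4) (nat_lit 244) (nat_lit 208) (nat_lit 148))))) (XT.nd (nat_lit 234) (nat_lit 0) (nat_lit 0) (XT.nd (nat_lit 78) (nat_lit 0) (nat_lit 0) (XT.lf (nat_lit 0) (nat_lit 525569424241) (nat_lit 76) (nat_lit 169499359281) (nat_lit 76) (nat_lit 138706577193) (nat_lit 1) (nat_lit 4) (nat_lit 2) (nat_lit 5) (nat_lit 2) (nat_lit 4) (nat_lit 245) (nat_lit 208) (nat_lit 147)) (XT.nd (nat_lit 78) (nat_lit 0) (nat_lit 0) (XT.lf (nat_lit 0) (nat_lit 626745732254) (nat_lit 76) (nat_lit 180457020074) (nat_lit 76) (nat_lit 149663441167) (nat_lit 1) (nat_lit 4) (nat_lit 2) (nat_lit 5) (nat_lit 2) (nat_lit 4) (nat_lit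 246) (nat_lit 208) (nat_lit 146)) (XT.lf (nat_lit 0) (nat_lit 743097406265) (nat_lit 76) (nat_lit 193058806118) (nat_lit 76) (nat_lit 162264534323) (nat_lit 1) (nat_lit 4) (nat_lit 2) (nat_lit 5) (nat_lit 2) (nat_lit 4) (nat_lit 247) (nat_lit 208) (nat_lit 145)))) (XT.nd (nat_lit 156) (nat_lit 0) (nat_lit 0) (XT.nd (nat_lit 78) (nat_lit 0) (nat_lit 0) (XT.lf (nat_lit 0) (nat_lit 876900892071) (nat_lit 76) (nat_lit 207551274095) (nat_lit 76) (nat_lit 176756399790) (nat_lit 1) (nat_lit 4) (nat_lit 2) (nat_lit 5) (nat_lit 2) (nat_lit 4) (nat_lit 248) (nat_lit 208) (nat_lit 144)) (XT.lf (nat_lit 0) (nat_lit 1030774083959) (nat_lit 76) (nat_lit 224217972293) (nat_lit 76) (nat_lit 193422574066) (nat_lit 1) (nat_lit 4) (nat_lit 2) (nat_lit 5) (nat_lit 2) (nat_lit 4) (nat_lit 249) (nat_lit 208) (nat_lit 143))) (XT.nd (nat_lit 78) (nat_lit 0) (nat_lit 0) (XT.lf (nat_lit 0) (nat_lit 1207727544380)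 (nat_lit 76) (nat_lit 243384988285) (nat_lit 76) (nat_lit 212589134473) (nat_lit 1) (nat_lit 4) (nat_lit 2) (nat_lit 5) (nat_lit 2) (nat_lit 4) (nat_lit 250) (nat_lit 208) (nat_lit 142)) (XT.lf (nat_lit 0) (nat_lit 1411223406255) (nat_lit 76) (nat_lit 265427328904) (nat_lit 76) (nat_lit 234631078932) (nat_lit 1) (nat_lit 4) (nat_lit 2) (nat_lit 5) (nat_lit 2) (nat_lit 4) (nat_lit 251) (nat_lit 208) (nat_lit 141))))))) (XT.nd (nat_lit 1014) (nat_lit 0) (nat_lit 0) (XT.nd (nat_lit 468) (nat_lit 0) (nat_lit 0) (XT.nd (nat_lit 234) (nat_lit 0) (nat_lit 0) (XT.nd (nat_lit 78) (nat_lit 0) (nat_lit 0) (XT.lf (nat_lit 0) (nat_lit 1645243110359) (nat_lit 76) (nat_lit 290776257339) (nat_lit 76) (nat_lit 259979662879) (nat_lit 1) (nat_lit 4) (nat_lit 2) (nat_lit 5) (nat_lit 2) (nat_lit 4) (nat_lit 252) (nat_lit 208) (nat_lit 140)) (XT.nd (nat_lit 78) (nat_lit 0) (nat_lit 0) (XT.lf (nat_lit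 0) (nat_lit 1914365303077) (nat_lit 76) (nat_lit 319927730883) (nat_lit 76) (nat_lit 289130836869) (nat_lit 1) (nat_lit 4) (nat_lit 2) (nat_lit 5) (nat_lit 2) (nat_lit 4) (nat_lit 253) (nat_lit 208) (nat_lit 139)) (XT.lf (nat_lit 0) (nat_lit 2223855418614) (nat_lit 76) (nat_lit 353452104454) (nat_lit 76) (nat_lit 322654949958) (nat_lit 1) (nat_lit 4) (nat_lit 2) (nat_lit 5) (nat_lit 2) (nat_lit 4) (nat_lit 254) (nat_lit 208) (nat_lit 138)))) (XT.nd (nat_lit 78) (nat_lit 0) (nat_lit 0) (XT.lf (nat_lit 0) (nat_lit 2579768698362) (nat_lit 76) (nat_lit 392005289709) (nat_lit 76) (nat_lit 361207908707) (nat_lit 1) (nat_lit 4) (nat_lit 2) (nat_lit 5) (nat_lit 2) (nat_lit 4) (nat_lit 255) (nat_lit 208) (nat_lit 137)) (XT.nd (nat_lit 78) (nat_lit 0) (nat_lit 0) (XT.lf (nat_lit 0) (nat_lit 2989068663011) (nat_lit 76) (nat_lit 436341588098) (nat_lit 76) (nat_lit 405544010135) (nat_lit 1) (nat_lit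 4) (nat_lit 2) (nat_lit 5) (nat_lit 2) (nat_lit 4) (nat_lit 256) (nat_lit 208) (nat_lit 136)) (XT.lf (nat_lit 0) (nat_lit 3459763355348) (nat_lit 76) (nat_lit 487328448938) (nat_lit 76) (nat_lit 456530699704) (nat_lit 1) (nat_lit 4) (nat_lit 2) (nat_lit 5) (nat_lit 2) (nat_lit 4) (nat_lit 257) (nat_lit 208) (nat_lit 135))))) (XT.nd (nat_lit 234) (nat_lit 0) (nat_lit 0) (XT.nd (nat_lit 78) (nat_lit 0) (nat_lit 0) (XT.lf (nat_lit 0) (nat_lit 4001062019353) (nat_lit 76) (nat_lit 545963441245) (nat_lit 76) (nat_lit 515165543080) (nat_lit 1) (nat_lit 4) (nat_lit 2) (nat_lit 5) (nat_lit 2) (nat_lit 4) (nat_lit 258) (nat_lit 208) (nat_lit 134)) (XT.nd (nat_lit 78) (nat_lit 0) (nat_lit 0) (XT.lf (nat_lit 0) (nat_lit 4623555281061) (nat_lit 76) (nat_lit 613393771391) (nat_lit 76) (nat_lit 582595743720) (nat_lit 1) (nat_lit 4) (nat_lit 2) (nat_lit 5) (nat_lit 2) (nat_lit 4) (nat_lit 259) (nat_lit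 208) (nat_lit 133)) (XT.lf (nat_lit 0) (nat_lit 5339422356462) (nat_lit 76) (nat_lit 690938728444) (nat_lit 76) (nat_lit 660140588159) (nat_lit 1) (nat_lit 4) (nat_lit 2) (nat_lit 5) (nat_lit 2) (nat_lit 4) (nat_lit 260) (nat_lit 208) (nat_lit 132)))) (XT.nd (nat_lit 156) (nat_lit 0) (nat_lit 0) (XT.nd (nat_lit 78) (nat_lit 0) (nat_lit 0) (XT.lf (nat_lit 0) (nat_lit 6162669340510) (nat_lit 76) (nat_lit 780115496345) (nat_lit 76) (nat_lit 749317258136) (nat_lit 1) (nat_lit 4) (nat_lit 2) (nat_lit 5) (nat_lit 2) (nat_lit 4) (nat_lit 261) (nat_lit 208) (nat_lit 131)) (XT.lf (nat_lit 0) (nat_lit 7109403239414) (nat_lit 76) (nat_lit 882668837945) (nat_lit 76) (nat_lit 851870514584) (nat_lit 1) (nat_lit 4) (nat_lit 2) (nat_lit 5) (nat_lit 2) (nat_lit 4) (nat_lit 262) (nat_lit 208) (nat_lit 130))) (XT.nd (nat_lit 78) (nat_lit 0) (nat_lit 0) (XT.lf (nat_lit 0) (nat_lit 8198147107717) (nat_lit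 76) (nat_lit 1000605231667) (nat_lit 76) (nat_lit 969806834261) (nat_lit 1) (nat_lit 4) (nat_lit 2) (nat_lit 5) (nat_lit 2) (nat_lit 4) (nat_lit 263) (nat_lit 208) (nat_lit 129)) (XT.lf (nat_lit 0) (nat_lit 9450202455888) (nat_lit 76) (nat_lit 1136232128692) (nat_lit 76) (nat_lit 1105433666899) (nat_lit 1) (nat_lit 4) (nat_lit 2) (nat_lit 5) (nat_lit 2) (nat_lit 4) (nat_lit 264) (nat_lit 208) (nat_lit 128)))))) (XT.nd (nat_lit 27066) (nat_lit 0) (nat_lit 532) (XT.nd (nat_lit 312) (nat_lit 0) (nat_lit 0) (XT.nd (nat_lit 156) (nat_lit 0) (nat_lit 0) (XT.lf (nat_lit 0) (nat_lit 10890066018998) (nat_lit 76) (nat_lit 1292203098745) (nat_lit 76) (nat_lit 1261404580963) (nat_lit 1) (nat_lit 4) (nat_lit 2) (nat_lit 5) (nat_lit 2) (nat_lit 4) (nat_lit 265) (nat_lit 208) (nat_lit 127)) (XT.nd (nat_lit 78) (nat_lit 0) (nat_lit 0) (XT.lf (nat_lit 0) (nat_lit 14450128449601) (nat_lit 76) (nat_lit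 1677841423222) (nat_lit 76) (nat_lit 1647042814418) (nat_lit 1) (nat_lit 4) (nat_lit 2) (nat_lit 5) (nat_lit 2) (nat_lit 4) (nat_lit 267) (nat_lit 208) (nat_lit 125)) (XT.lf (nat_lit 0) (nat_lit 16639980712475) (nat_lit 76) (nat_lit 1915053875299) (nat_lit 76) (nat_lit 1884255229682) (nat_lit 1) (nat_lit 4) (nat_lit 2) (nat_lit 5) (nat_lit 2) (nat_lit 4) (nat_lit 268) (nat_lit 208) (nat_lit 124)))) (XT.nd (nat_lit 26598) (nat_lit 0) (nat_lit 836) (XT.nd (nat_lit 78) (nat_lit 0) (nat_lit 0) (XT.lf (nat_lit 0) (nat_lit 19158310764874) (nat_lit 76) (nat_lit 2187848217185) (nat_lit 76) (nat_lit 2157049539556) (nat_lit 1) (nat_lit 4) (nat_lit 2) (nat_lit 5) (nat_lit 2) (nat_lit 4) (nat_lit 269) (nat_lit 208) (nat_lit 123)) (XT.lf (nat_lit 0) (nat_lit 22054390281736) (nat_lit 76) (nat_lit 2501561729482) (nat_lit 76) (nat_lit 2470763024016) (nat_lit 1) (nat_lit 4) (nat_lit 2) (nat_lit 5)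 (nat_lit 2) (nat_lit 4) (nat_lit 270) (nat_lit 208) (nat_lit 122))) (XT.nd (nat_lit 78) (nat_lit 0) (nat_lit 0) (XT.lf (nat_lit 0) (nat_lit 2366810241) (nat_lit 0) (nat_lit 2366810241) (nat_lit 228) (nat_lit 2622557877) (nat_lit 12) (nat_lit 5) (nat_lit 12) (nat_lit 3) (nat_lit 15) (nat_lit 3) (nat_lit 209) (nat_lit 209) (nat_lit 182)) (XT.lf (nat_lit 0) (nat_lit 10461948496) (nat_lit 228) (nat_lit 4456561988) (nat_lit 304) (nat_lit 849721336) (nat_lit 12) (nat_lit 5) (nat_lit 15) (nat_lit 3) (nat_lit 16) (nat_lit 5) (nat_lit 210) (nat_lit 209) (nat_lit 181))))) (XT.nd (nat_lit 234) (nat_lit 304) (nat_lit 0) (XT.nd (nat_lit 78) (nat_lit 0) (nat_lit 0) (XT.lf (nat_lit 76) (nat_lit 1798386229) (nat_lit 0) (nat_lit 10064452272) (nat_lit 304) (nat_lit 5081967146) (nat_lit 13) (nat_lit 5) (nat_lit 12) (nat_lit 5) (nat_lit 16) (nat_lit 5) (nat_lit 211) (nat_lit 209) (nat_lit 180)) (XT.nd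 (nat_lit 78) (nat_lit 0) (nat_lit 76) (XT.lf (nat_lit 76) (nat_lit 9463561868) (nat_lit 0) (nat_lit 4204755633) (nat_lit 304) (nat_lit 4601130955) (nat_lit 13) (nat_lit 5) (nat_lit 12) (nat_lit 5) (nat_lit 16) (nat_lit 5) (nat_lit 212) (nat_lit 209) (nat_lit 179)) (XT.lf (nat_lit 0) (nat_lit 15816409022) (nat_lit 228) (nat_lit 1650324653) (nat_lit 76) (nat_lit 2315938652) (nat_lit 13) (nat_lit 5) (nat_lit 16) (nat_lit 5) (nat_lit 14) (nat_lit 5) (nat_lit 213) (nat_lit 209) (nat_lit 178)))) (XT.nd (nat_lit 156) (nat_lit 152) (nat_lit 0) (XT.nd (nat_lit 78) (nat_lit 0) (nat_lit 0) (XT.lf (nat_lit 0) (nat_lit 6971970667) (nat_lit 228) (nat_lit 11774853598) (nat_lit 304) (nat_lit 2707607052) (nat_lit 10) (nat_lit 5) (nat_lit 13) (nat_lit 5) (nat_lit 14) (nat_lit 5) (nat_lit 214) (nat_lit 209) (nat_lit 177)) (XT.lf (nat_lit 0) (nat_lit 17047247126) (nat_lit 228) (nat_lit 5129698822) (nat_lit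 304) (nat_lit 1191480533) (nat_lit 10) (nat_lit 5) (nat_lit 13) (nat_lit 5) (nat_lit 14) (nat_lit 5) (nat_lit 215) (nat_lit 209) (nat_lit 176))) (XT.nd (nat_lit 78) (nat_lit 0) (nat_lit 0) (XT.lf (nat_lit 0) (nat_lit 727430397) (nat_lit 152) (nat_lit 22350131919) (nat_lit 76) (nat_lit 2455226010) (nat_lit 8) (nat_lit 5) (nat_lit 10) (nat_lit 5) (nat_lit 9) (nat_lit 5) (nat_lit 216) (nat_lit 209) (nat_lit 175)) (XT.lf (nat_lit 0) (nat_lit 3380510557) (nat_lit 152) (nat_lit 13494105837) (nat_lit 76) (nat_lit 11053754631) (nat_lit 8) (nat_lit 5) (nat_lit 10) (nat_lit 5) (nat_lit 9) (nat_lit 5) (nat_lit 217) (nat_lit 209) (nat_lit 174))))))))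
noncomputable def xc36 : XT := (XT.nd (nat_lit 2028) (nat_lit 0) (nat_lit 0) (XT.nd (nat_lit 1014) (nat_lit 76) (nat_lit 0) (XT.nd (nat_lit 468) (nat_lit 228) (nat_lit 0) (XT.nd (nat_lit 234) (nat_lit 76) (nat_lit 0) (XT.nd (nat_lit 78) (nat_lit 152) (nat_lit 0) (XT.lf (nat_lit 0) (nat_lit 6412323444) (nat_lit 152) (nat_lit 3333679322) (nat_lit 76) (nat_lit 20940455174) (nat_lit 8) (nat_lit 5) (nat_lit 10) (nat_lit 5) (nat_lit 9) (nat_lit 5) (nat_lit 218) (nat_lit 209) (nat_lit 173)) (XT.nd (nat_lit 78) (nat_lit 0) (nat_lit 0) (XT.lf (nat_lit 0) (nat_lit 9144000758) (nat_lit 152) (nat_lit 1116819948) (nat_lit 228) (nat_lit 23543395897) (nat_lit 6) (nat_lit 5) (nat_lit 8) (nat_lit 5) (nat_lit 9) (nat_lit 5) (nat_lit 219) (nat_lit 209) (nat_lit 172)) (XT.lf (nat_lit 0) (nat_lit 15218265641) (nat_lit 228) (nat_lit 13890726880) (nat_lit 76) (nat_lit 8201109129) (nat_lit 6) (nat_lit 5)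 (nat_lit 9) (nat_lit 5) (nat_lit 7) (nat_lit 4) (nat_lit 220) (nat_lit 209) (nat_lit 171)))) (XT.nd (nat_lit 78) (nat_lit 76) (nat_lit 0) (XT.lf (nat_lit 0) (nat_lit 20958984103) (nat_lit 228) (nat_lit 1578347240) (nat_lit 76) (nat_lit 18798775286) (nat_lit 6) (nat_lit 5) (nat_lit 9) (nat_lit 5) (nat_lit 7) (nat_lit 4) (nat_lit 221) (nat_lit 209) (nat_lit 170)) (XT.nd (nat_lit 78) (nat_lit 0) (nat_lit 0) (XT.lf (nat_lit 0) (nat_lit 13791914162) (nat_lit 76) (nat_lit 14328228955) (nat_lit 152) (nat_lit 17762130790) (nat_lit 5) (nat_lit 5) (nat_lit 6) (nat_lit 5) (nat_lit 7) (nat_lit 4) (nat_lit 222) (nat_lit 209) (nat_lit 169)) (XT.lf (nat_lit 0) (nat_lit 31629037581) (nat_lit 76) (nat_lit 4798050901) (nat_lit 152) (nat_lit 14672676334) (nat_lit 5) (nat_lit 5) (nat_lit 6) (nat_lit 5) (nat_lit 7) (nat_lit 4) (nat_lit 223) (nat_lit 209) (nat_lit 168))))) (XT.nd (nat_lit 234) (nat_lit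 76) (nat_lit 0) (XT.nd (nat_lit 78) (nat_lit 152) (nat_lit 0) (XT.lf (nat_lit 0) (nat_lit 46225559124) (nat_lit 152) (nat_lit 5228614309) (nat_lit 0) (nat_lit 5609005500) (nat_lit 5) (nat_lit 5) (nat_lit 7) (nat_lit 4) (nat_lit 5) (nat_lit 4) (nat_lit 224) (nat_lit 209) (nat_lit 167)) (XT.nd (nat_lit 78) (nat_lit 76) (nat_lit 0) (XT.lf (nat_lit 0) (nat_lit 11974022424) (nat_lit 76) (nat_lit 46235677485) (nat_lit 76) (nat_lit 5604126499) (nat_lit 4) (nat_lit 4) (nat_lit 5) (nat_lit 5) (nat_lit 5) (nat_lit 4) (nat_lit 225) (nat_lit 209) (nat_lit 166)) (XT.lf (nat_lit 0) (nat_lit 655541726) (nat_lit 152) (nat_lit 39235177459) (nat_lit 76) (nat_lit 31642151814) (nat_lit 3) (nat_lit 5) (nat_lit 5) (nat_lit 5) (nat_lit 4) (nat_lit 4) (nat_lit 226) (nat_lit 209) (nat_lit 165)))) (XT.nd (nat_lit 156) (nat_lit 76) (nat_lit 0) (XT.nd (nat_lit 78) (nat_lit 0) (nat_lit 0) (XT.lf (nat_lit 0)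 (nat_lit 7273199137) (nat_lit 152) (nat_lit 25018554186) (nat_lit 76) (nat_lit 48079140077) (nat_lit 3) (nat_lit 5) (nat_lit 5) (nat_lit 5) (nat_lit 4) (nat_lit 4) (nat_lit 227) (nat_lit 209) (nat_lit 164)) (XT.lf (nat_lit 0) (nat_lit 14877239734) (nat_lit 152) (nat_lit 8679727912) (nat_lit 76) (nat_lit 66978652031) (nat_lit 3) (nat_lit 5) (nat_lit 5) (nat_lit 5) (nat_lit 4) (nat_lit 4) (nat_lit 228) (nat_lit 209) (nat_lit 163))) (XT.nd (nat_lit 78) (nat_lit 0) (nat_lit 0) (XT.lf (nat_lit 0) (nat_lit 11088114696) (nat_lit 76) (nat_lit 12987458711) (nat_lit 152) (nat_lit 78081481225) (nat_lit 2) (nat_lit 5) (nat_lit 3) (nat_lit 5) (nat_lit 4) (nat_lit 4) (nat_lit 229) (nat_lit 209) (nat_lit 162)) (XT.lf (nat_lit 0) (nat_lit 34788075239) (nat_lit 76) (nat_lit 314203695) (nat_lit 152) (nat_lit 80352178527) (nat_lit 2) (nat_lit 5) (nat_lit 3) (nat_lit 5) (nat_lit 4) (nat_lit 4) (nat_lit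 230) (nat_lit 209) (nat_lit 161)))))) (XT.nd (nat_lit 468) (nat_lit 0) (nat_lit 0) (XT.nd (nat_lit 234) (nat_lit 76) (nat_lit 0) (XT.nd (nat_lit 78) (nat_lit 0) (nat_lit 0) (XT.lf (nat_lit 0) (nat_lit 48368916715) (nat_lit 152) (nat_lit 69301925840) (nat_lit 0) (nat_lit 12987779111) (nat_lit 2) (nat_lit 5) (nat_lit 4) (nat_lit 4) (nat_lit 2) (nat_lit 4) (nat_lit 231) (nat_lit 209) (nat_lit 160)) (XT.nd (nat_lit 78) (nat_lit 0) (nat_lit 0) (XT.lf (nat_lit 0) (nat_lit 63636554499) (nat_lit 152) (nat_lit 56254725827) (nat_lit 0) (nat_lit 28250514230) (nat_lit 2) (nat_lit 5) (nat_lit 4) (nat_lit 4) (nat_lit 2) (nat_lit 4) (nat_lit 232) (nat_lit 209) (nat_lit 159)) (XT.lf (nat_lit 0) (nat_lit 81190896434) (nat_lit 152) (nat_lit 41256500375) (nat_lit 0) (nat_lit 45800592979) (nat_lit 2) (nat_lit 5) (nat_lit 4) (nat_lit 4) (nat_lit 2) (nat_lit 4) (nat_lit 233) (nat_lit 209) (nat_lit 158))))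 (XT.nd (nat_lit 78) (nat_lit 76) (nat_lit 0) (XT.lf (nat_lit 0) (nat_lit 101375397036) (nat_lit 152) (nat_lit 24013805943) (nat_lit 0) (nat_lit 65981386463) (nat_lit 2) (nat_lit 5) (nat_lit 4) (nat_lit 4) (nat_lit 2) (nat_lit 4) (nat_lit 234) (nat_lit 209) (nat_lit 157)) (XT.nd (nat_lit 78) (nat_lit 76) (nat_lit 0) (XT.lf (nat_lit 0) (nat_lit 124584970448) (nat_lit 152) (nat_lit 4189285465) (nat_lit 0) (nat_lit 89187736294) (nat_lit 2) (nat_lit 5) (nat_lit 4) (nat_lit 4) (nat_lit 2) (nat_lit 4) (nat_lit 235) (nat_lit 209) (nat_lit 156)) (XT.lf (nat_lit 0) (nat_lit 20423141384) (nat_lit 76) (nat_lit 131696254367) (nat_lit 76) (nat_lit 96296217098) (nat_lit 1) (nat_lit 4) (nat_lit 2) (nat_lit 5) (nat_lit 2) (nat_lit 4) (nat_lit 236) (nat_lit 209) (nat_lit 155))))) (XT.nd (nat_lit 234) (nat_lit 0) (nat_lit 0) (XT.nd (nat_lit 78) (nat_lit 0) (nat_lit 0) (XT.lf (nat_lit 0) (nat_lit 49194450802)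 (nat_lit 76) (nat_lit 134806394376) (nat_lit 76) (nat_lit 99403919616) (nat_lit 1) (nat_lit 4) (nat_lit 2) (nat_lit 5) (nat_lit 2) (nat_lit 4) (nat_lit 237) (nat_lit 209) (nat_lit 154)) (XT.nd (nat_lit 78) (nat_lit 0) (nat_lit 0) (XT.lf (nat_lit 0) (nat_lit 82278152268) (nat_lit 76) (nat_lit 138384511882) (nat_lit 76) (nat_lit 102979917565) (nat_lit 1) (nat_lit 4) (nat_lit 2) (nat_lit 5) (nat_lit 2) (nat_lit 4) (nat_lit 238) (nat_lit 209) (nat_lit 153)) (XT.lf (nat_lit 0) (nat_lit 120321535592) (nat_lit 76) (nat_lit 142500613533) (nat_lit 76) (nat_lit 107094176124) (nat_lit 1) (nat_lit 4) (nat_lit 2) (nat_lit 5) (nat_lit 2) (nat_lit 4) (nat_lit 239) (nat_lit 209) (nat_lit 152)))) (XT.nd (nat_lit 156) (nat_lit 0) (nat_lit 0) (XT.nd (nat_lit 78) (nat_lit 0) (nat_lit 0) (XT.lf (nat_lit 0) (nat_lit 164068927841) (nat_lit 76) (nat_lit 147235231753) (nat_lit 76) (nat_lit 111827191653)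 (nat_lit 1) (nat_lit 4) (nat_lit 2) (nat_lit 5) (nat_lit 2) (nat_lit 4) (nat_lit 240) (nat_lit 209) (nat_lit 151)) (XT.lf (nat_lit 0) (nat_lit 214376256252) (nat_lit 76) (nat_lit 152681000376) (nat_lit 76) (nat_lit 117271566633) (nat_lit 1) (nat_lit 4) (nat_lit 2) (nat_lit 5) (nat_lit 2) (nat_lit 4) (nat_lit 241) (nat_lit 209) (nat_lit 150))) (XT.nd (nat_lit 78) (nat_lit 0) (nat_lit 0) (XT.lf (nat_lit 0) (nat_lit 272227794644) (nat_lit 76) (nat_lit 158944467048) (nat_lit 76) (nat_lit 123533821442) (nat_lit 1) (nat_lit 4) (nat_lit 2) (nat_lit 5) (nat_lit 2) (nat_lit 4) (nat_lit 242) (nat_lit 209) (nat_lit 149)) (XT.lf (nat_lit 0) (nat_lit 338755420942) (nat_lit 76) (nat_lit 166148177858) (nat_lit 76) (nat_lit 130736478458) (nat_lit 1) (nat_lit 4) (nat_lit 2) (nat_lit 5) (nat_lit 2) (nat_lit 4) (nat_lit 243) (nat_lit 209) (nat_lit 148))))))) (XT.nd (nat_lit 1014) (nat_lit 0) (nat_lit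 0) (XT.nd (nat_lit 468) (nat_lit 0) (nat_lit 0) (XT.nd (nat_lit 234) (nat_lit 0) (nat_lit 0) (XT.nd (nat_lit 78) (nat_lit 0) (nat_lit 0) (XT.lf (nat_lit 0) (nat_lit 415260762615) (nat_lit 76) (nat_lit 174433074974) (nat_lit 76) (nat_lit 139020459230) (nat_lit 1) (nat_lit 4) (nat_lit 2) (nat_lit 5) (nat_lit 2) (nat_lit 4) (nat_lit 244) (nat_lit 209) (nat_lit 147)) (XT.nd (nat_lit 78) (nat_lit 0) (nat_lit 0) (XT.lf (nat_lit 0) (nat_lit 503240663307) (nat_lit 76) (nat_lit 183961254207) (nat_lit 76) (nat_lit 148547841643) (nat_lit 1) (nat_lit 4) (nat_lit 2) (nat_lit 5) (nat_lit 2) (nat_lit 4) (nat_lit 245) (nat_lit 209) (nat_lit 146)) (XT.lf (nat_lit 0) (nat_lit 604416468899) (nat_lit 76) (nat_lit 194919136457) (nat_lit 76) (nat_lit 159505031006) (nat_lit 1) (nat_lit 4) (nat_lit 2) (nat_lit 5) (nat_lit 2) (nat_lit 4) (nat_lit 246) (nat_lit 209) (nat_lit 145)))) (XT.nd (nat_lit 78) (nat_lit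 0) (nat_lit 0) (XT.lf (nat_lit 0) (nat_lit 720767706023) (nat_lit 76) (nat_lit 207521115071) (nat_lit 76) (nat_lit 172106407110) (nat_lit 1) (nat_lit 4) (nat_lit 2) (nat_lit 5) (nat_lit 2) (nat_lit 4) (nat_lit 247) (nat_lit 209) (nat_lit 144)) (XT.nd (nat_lit 78) (nat_lit 0) (nat_lit 0) (XT.lf (nat_lit 0) (nat_lit 854570811928) (nat_lit 76) (nat_lit 222013750502) (nat_lit 76) (nat_lit 186598518618) (nat_lit 1) (nat_lit 4) (nat_lit 2) (nat_lit 5) (nat_lit 2) (nat_lit 4) (nat_lit 248) (nat_lit 209) (nat_lit 143)) (XT.lf (nat_lit 0) (nat_lit 1008443673467) (nat_lit 76) (nat_lit 238680594310) (nat_lit 76) (nat_lit 203264906843) (nat_lit 1) (nat_lit 4) (nat_lit 2) (nat_lit 5) (nat_lit 2) (nat_lit 4) (nat_lit 249) (nat_lit 209) (nat_lit 142))))) (XT.nd (nat_lit 234) (nat_lit 0) (nat_lit 0) (XT.nd (nat_lit 78) (nat_lit 0) (nat_lit 0) (XT.lf (nat_lit 0) (nat_lit 1185396846628) (nat_lit 76)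 (nat_lit 257847736920) (nat_lit 76) (nat_lit 222431653292) (nat_lit 1) (nat_lit 4) (nat_lit 2) (nat_lit 5) (nat_lit 2) (nat_lit 4) (nat_lit 250) (nat_lit 209) (nat_lit 141)) (XT.nd (nat_lit 78) (nat_lit 0) (nat_lit 0) (XT.lf (nat_lit 0) (nat_lit 1388892458711) (nat_lit 76) (nat_lit 279890187643) (nat_lit 76) (nat_lit 244473759528) (nat_lit 1) (nat_lit 4) (nat_lit 2) (nat_lit 5) (nat_lit 2) (nat_lit 4) (nat_lit 251) (nat_lit 209) (nat_lit 140)) (XT.lf (nat_lit 0) (nat_lit 1622911945604) (nat_lit 76) (nat_lit 305239211819) (nat_lit 76) (nat_lit 269822484150) (nat_lit 1) (nat_lit 4) (nat_lit 2) (nat_lit 5) (nat_lit 2) (nat_lit 4) (nat_lit 252) (nat_lit 209) (nat_lit 139)))) (XT.nd (nat_lit 156) (nat_lit 0) (nat_lit 0) (XT.nd (nat_lit 78) (nat_lit 0) (nat_lit 0) (XT.lf (nat_lit 0) (nat_lit 1892033949444) (nat_lit 76) (nat_lit 334390768617) (nat_lit 76) (nat_lit 298973780465) (nat_lit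 1) (nat_lit 4) (nat_lit 2) (nat_lit 5) (nat_lit 2) (nat_lit 4) (nat_lit 253) (nat_lit 209) (nat_lit 138)) (XT.lf (nat_lit 0) (nat_lit 2201523900740) (nat_lit 76) (nat_lit 367915214582) (nat_lit 76) (nat_lit 332497999925) (nat_lit 1) (nat_lit 4) (nat_lit 2) (nat_lit 5) (nat_lit 2) (nat_lit 4) (nat_lit 254) (nat_lit 209) (nat_lit 137))) (XT.nd (nat_lit 78) (nat_lit 0) (nat_lit 0) (XT.lf (nat_lit 0) (nat_lit 2557437037669) (nat_lit 76) (nat_lit 406468462789) (nat_lit 76) (nat_lit 371051051170) (nat_lit 1) (nat_lit 4) (nat_lit 2) (nat_lit 5) (nat_lit 2) (nat_lit 4) (nat_lit 255) (nat_lit 209) (nat_lit 136)) (XT.lf (nat_lit 0) (nat_lit 2966736878127) (nat_lit 76) (nat_lit 450804815919) (nat_lit 76) (nat_lit 415387233029) (nat_lit 1) (nat_lit 4) (nat_lit 2) (nat_lit 5) (nat_lit 2) (nat_lit 4) (nat_lit 256) (nat_lit 209) (nat_lit 135)))))) (XT.nd (nat_lit 546) (nat_lit 0) (nat_lit 0) (XT.nd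 (nat_lit 234) (nat_lit 0) (nat_lit 0) (XT.nd (nat_lit 78) (nat_lit 0) (nat_lit 0) (XT.lf (nat_lit 0) (nat_lit 3437431462472) (nat_lit 76) (nat_lit 501791724360) (nat_lit 76) (nat_lit 466373992538) (nat_lit 1) (nat_lit 4) (nat_lit 2) (nat_lit 5) (nat_lit 2) (nat_lit 4) (nat_lit 257) (nat_lit 209) (nat_lit 134)) (XT.nd (nat_lit 78) (nat_lit 0) (nat_lit 0) (XT.lf (nat_lit 0) (nat_lit 3978730032571) (nat_lit 76) (nat_lit 560426758059) (nat_lit 76) (nat_lit 525008896732) (nat_lit 1) (nat_lit 4) (nat_lit 2) (nat_lit 5) (nat_lit 2) (nat_lit 4) (nat_lit 258) (nat_lit 209) (nat_lit 133)) (XT.lf (nat_lit 0) (nat_lit 4601223212622) (nat_lit 76) (nat_lit 627857124198) (nat_lit 76) (nat_lit 592439150257) (nat_lit 1) (nat_lit 4) (nat_lit 2) (nat_lit 5) (nat_lit 2) (nat_lit 4) (nat_lit 259) (nat_lit 209) (nat_lit 132)))) (XT.nd (nat_lit 156) (nat_lit 0) (nat_lit 0) (XT.nd (nat_lit 78) (nat_lit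 0) (nat_lit 0) (XT.lf (nat_lit 0) (nat_lit 5317090217017) (nat_lit 76) (nat_lit 705402112548) (nat_lit 76) (nat_lit 669984040683) (nat_lit 1) (nat_lit 4) (nat_lit 2) (nat_lit 5) (nat_lit 2) (nat_lit 4) (nat_lit 260) (nat_lit 209) (nat_lit 131)) (XT.lf (nat_lit 0) (nat_lit 6140337139320) (nat_lit 76) (nat_lit 794578907665) (nat_lit 76) (nat_lit 759160750648) (nat_lit 1) (nat_lit 4) (nat_lit 2) (nat_lit 5) (nat_lit 2) (nat_lit 4) (nat_lit 261) (nat_lit 209) (nat_lit 130))) (XT.nd (nat_lit 78) (nat_lit 0) (nat_lit 0) (XT.lf (nat_lit 0) (nat_lit 7087070984533) (nat_lit 76) (nat_lit 897132272931) (nat_lit 76) (nat_lit 861714041869) (nat_lit 1) (nat_lit 4) (nat_lit 2) (nat_lit 5) (nat_lit 2) (nat_lit 4) (nat_lit 262) (nat_lit 209) (nat_lit 129)) (XT.lf (nat_lit 0) (nat_lit 8175814806149) (nat_lit 76) (nat_lit 1015068687232) (nat_lit 76) (nat_lit 979650391783) (nat_lit 1) (nat_lit 4) (nat_lit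 2) (nat_lit 5) (nat_lit 2) (nat_lit 4) (nat_lit 263) (nat_lit 209) (nat_lit 128))))) (XT.nd (nat_lit 234) (nat_lit 0) (nat_lit 0) (XT.nd (nat_lit 78) (nat_lit 0) (nat_lit 0) (XT.lf (nat_lit 0) (nat_lit 9427870113721) (nat_lit 76) (nat_lit 1150695602152) (nat_lit 76) (nat_lit 1115277250714) (nat_lit 1) (nat_lit 4) (nat_lit 2) (nat_lit 5) (nat_lit 2) (nat_lit 4) (nat_lit 264) (nat_lit 209) (nat_lit 127)) (XT.nd (nat_lit 78) (nat_lit 0) (nat_lit 0) (XT.lf (nat_lit 0) (nat_lit 10867733641529) (nat_lit 76) (nat_lit 1306666587766) (nat_lit 76) (nat_lit 1271248187642) (nat_lit 1) (nat_lit 4) (nat_lit 2) (nat_lit 5) (nat_lit 2) (nat_lit 4) (nat_lit 265) (nat_lit 209) (nat_lit 126)) (XT.lf (nat_lit 0) (nat_lit 12523576632507) (nat_lit 76) (nat_lit 1486033250313) (nat_lit 76) (nat_lit 1450614807853) (nat_lit 1) (nat_lit 4) (nat_lit 2) (nat_lit 5) (nat_lit 2) (nat_lit 4) (nat_lit 266) (nat_lit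 209) (nat_lit 125)))) (XT.nd (nat_lit 156) (nat_lit 0) (nat_lit 0) (XT.nd (nat_lit 78) (nat_lit 0) (nat_lit 0) (XT.lf (nat_lit 0) (nat_lit 14427796014739) (nat_lit 76) (nat_lit 1692304937540) (nat_lit 76) (nat_lit 1656886458266) (nat_lit 1) (nat_lit 4) (nat_lit 2) (nat_lit 5) (nat_lit 2) (nat_lit 4) (nat_lit 267) (nat_lit 209) (nat_lit 124)) (XT.lf (nat_lit 0) (nat_lit 16617648254401) (nat_lit 76) (nat_lit 1929517399848) (nat_lit 76) (nat_lit 1894098888563) (nat_lit 1) (nat_lit 4) (nat_lit 2) (nat_lit 5) (nat_lit 2) (nat_lit 4) (nat_lit 268) (nat_lit 209) (nat_lit 123))) (XT.nd (nat_lit 78) (nat_lit 0) (nat_lit 0) (XT.lf (nat_lit 0) (nat_lit 19135978286616) (nat_lit 76) (nat_lit 2202311750631) (nat_lit 76) (nat_lit 2166893211509) (nat_lit 1) (nat_lit 4) (nat_lit 2) (nat_lit 5) (nat_lit 2) (nat_lit 4) (nat_lit 269) (nat_lit 209) (nat_lit 122)) (XT.lf (nat_lit 0) (nat_lit 22032057785926)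 (nat_lit 76) (nat_lit 2516025270664) (nat_lit 76) (nat_lit 2480606707337) (nat_lit 1) (nat_lit 4) (nat_lit 2) (nat_lit 5) (nat_lit 2) (nat_lit 4) (nat_lit 270) (nat_lit 209) (nat_lit 121))))))))
noncomputable def xc37 : XT := (XT.nd (nat_lit 2106) (nat_lit 76) (nat_lit 0) (XT.nd (nat_lit 1014) (nat_lit 304) (nat_lit 0) (XT.nd (nat_lit 468) (nat_lit 304) (nat_lit 0) (XT.nd (nat_lit 234) (nat_lit 152) (nat_lit 0) (XT.nd (nat_lit 78) (nat_lit 0) (nat_lit 0) (XT.lf (nat_lit 0) (nat_lit 2839758146) (nat_lit 0) (nat_lit 2839758146) (nat_lit 228) (nat_lit 2740059836) (nat_lit 12) (nat_lit 5) (nat_lit 12) (nat_lit 3) (nat_lit 15) (nat_lit 3) (nat_lit 210) (nat_lit 210) (nat_lit 180)) (XT.nd (nat_lit 78) (nat_lit 0) (nat_lit 0) (XT.lf (nat_lit 0) (nat_lit 12432927131) (nat_lit 228) (nat_lit 4841849010) (nat_lit 304) (nat_lit 790348671) (nat_lit 12) (nat_lit 5) (nat_lit 15) (nat_lit 3) (nat_lit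 16) (nat_lit 5) (nat_lit 211) (nat_lit 210) (nat_lit 179)) (XT.lf (nat_lit 76) (nat_lit 2338468836) (nat_lit 0) (nat_lit 11664281496) (nat_lit 304) (nat_lit 5422669492) (nat_lit 13) (nat_lit 5) (nat_lit 12) (nat_lit 5) (nat_lit 16) (nat_lit 5) (nat_lit 212) (nat_lit 210) (nat_lit 178)))) (XT.nd (nat_lit 78) (nat_lit 152) (nat_lit 0) (XT.lf (nat_lit 76) (nat_lit 11118161081) (nat_lit 0) (nat_lit 4913870180) (nat_lit 304) (nat_lit 4924698227) (nat_lit 13) (nat_lit 5) (nat_lit 12) (nat_lit 5) (nat_lit 16) (nat_lit 5) (nat_lit 213) (nat_lit 210) (nat_lit 177)) (XT.nd (nat_lit 78) (nat_lit 228) (nat_lit 0) (XT.lf (nat_lit 0) (nat_lit 18458626644) (nat_lit 228) (nat_lit 1644440659) (nat_lit 76) (nat_lit 2601223898) (nat_lit 13) (nat_lit 5) (nat_lit 16) (nat_lit 5) (nat_lit 14) (nat_lit 5) (nat_lit 214) (nat_lit 210) (nat_lit 176)) (XT.lf (nat_lit 0) (nat_lit 8259679291) (nat_lit 228) (nat_lit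 13543756385) (nat_lit 304) (nat_lit 2827847361) (nat_lit 10) (nat_lit 5) (nat_lit 13) (nat_lit 5) (nat_lit 14) (nat_lit 5) (nat_lit 215) (nat_lit 210) (nat_lit 175))))) (XT.nd (nat_lit 234) (nat_lit 152) (nat_lit 0) (XT.nd (nat_lit 78) (nat_lit 152) (nat_lit 0) (XT.lf (nat_lit 0) (nat_lit 19814693346) (nat_lit 228) (nat_lit 5901479512) (nat_lit 304) (nat_lit 1121593266) (nat_lit 10) (nat_lit 5) (nat_lit 13) (nat_lit 5) (nat_lit 14) (nat_lit 5) (nat_lit 216) (nat_lit 210) (nat_lit 174)) (XT.nd (nat_lit 78) (nat_lit 0) (nat_lit 0) (XT.lf (nat_lit 0) (nat_lit 1043595304) (nat_lit 152) (nat_lit 25444195643) (nat_lit 76) (nat_lit 2840817187) (nat_lit 8) (nat_lit 5) (nat_lit 10) (nat_lit 5) (nat_lit 9) (nat_lit 5) (nat_lit 217) (nat_lit 210) (nat_lit 173)) (XT.lf (nat_lit 0) (nat_lit 4067630921) (nat_lit 152) (nat_lit 15293477310) (nat_lit 76) (nat_lit 12726867630) (nat_lit 8) (nat_lit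 5) (nat_lit 10) (nat_lit 5) (nat_lit 9) (nat_lit 5) (nat_lit 218) (nat_lit 210) (nat_lit 172)))) (XT.nd (nat_lit 156) (nat_lit 0) (nat_lit 0) (XT.nd (nat_lit 78) (nat_lit 152) (nat_lit 0) (XT.lf (nat_lit 0) (nat_lit 7530731769) (nat_lit 152) (nat_lit 3638301305) (nat_lit 76) (nat_lit 24094610236) (nat_lit 8) (nat_lit 5) (nat_lit 10) (nat_lit 5) (nat_lit 9) (nat_lit 5) (nat_lit 219) (nat_lit 210) (nat_lit 171)) (XT.lf (nat_lit 0) (nat_lit 10702147609) (nat_lit 152) (nat_lit 1241659670) (nat_lit 228) (nat_lit 26907462860) (nat_lit 6) (nat_lit 5) (nat_lit 8) (nat_lit 5) (nat_lit 9) (nat_lit 5) (nat_lit 220) (nat_lit 210) (nat_lit 170))) (XT.nd (nat_lit 78) (nat_lit 0) (nat_lit 0) (XT.lf (nat_lit 0) (nat_lit 17627641044) (nat_lit 228) (nat_lit 15793154809) (nat_lit 76) (nat_lit 9465087073) (nat_lit 6) (nat_lit 5) (nat_lit 9) (nat_lit 5) (nat_lit 7) (nat_lit 4) (nat_lit 221) (nat_lit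 210) (nat_lit 169)) (XT.lf (nat_lit 0) (nat_lit 24212949593) (nat_lit 228) (nat_lit 1657550540) (nat_lit 76) (nat_lit 21647992948) (nat_lit 6) (nat_lit 5) (nat_lit 9) (nat_lit 5) (nat_lit 7) (nat_lit 4) (nat_lit 222) (nat_lit 210) (nat_lit 168)))))) (XT.nd (nat_lit 546) (nat_lit 76) (nat_lit 0) (XT.nd (nat_lit 234) (nat_lit 152) (nat_lit 0) (XT.nd (nat_lit 78) (nat_lit 0) (nat_lit 0) (XT.lf (nat_lit 0) (nat_lit 16011088764) (nat_lit 76) (nat_lit 16429057721) (nat_lit 152) (nat_lit 20307856564) (nat_lit 5) (nat_lit 5) (nat_lit 6) (nat_lit 5) (nat_lit 7) (nat_lit 4) (nat_lit 223) (nat_lit 210) (nat_lit 167)) (XT.nd (nat_lit 78) (nat_lit 0) (nat_lit 0) (XT.lf (nat_lit 0) (nat_lit 36504164937) (nat_lit 76) (nat_lit 5475666729) (nat_lit 152) (nat_lit 16770452702) (nat_lit 5) (nat_lit 5) (nat_lit 6) (nat_lit 5) (nat_lit 7) (nat_lit 4) (nat_lit 224) (nat_lit 210) (nat_lit 166)) (XT.lf (nat_lit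 0) (nat_lit 53238021553) (nat_lit 152) (nat_lit 5888146492) (nat_lit 0) (nat_lit 6483699372) (nat_lit 5) (nat_lit 5) (nat_lit 7) (nat_lit 4) (nat_lit 5) (nat_lit 4) (nat_lit 225) (nat_lit 210) (nat_lit 165)))) (XT.nd (nat_lit 156) (nat_lit 0) (nat_lit 0) (XT.nd (nat_lit 78) (nat_lit 76) (nat_lit 0) (XT.lf (nat_lit 0) (nat_lit 13889214843) (nat_lit 76) (nat_lit 53125243937) (nat_lit 76) (nat_lit 6359581595) (nat_lit 4) (nat_lit 4) (nat_lit 5) (nat_lit 5) (nat_lit 5) (nat_lit 4) (nat_lit 226) (nat_lit 210) (nat_lit 164)) (XT.lf (nat_lit 0) (nat_lit 821335594) (nat_lit 152) (nat_lit 45009651822) (nat_lit 76) (nat_lit 36421041223) (nat_lit 3) (nat_lit 5) (nat_lit 5) (nat_lit 5) (nat_lit 4) (nat_lit 4) (nat_lit 227) (nat_lit 210) (nat_lit 163))) (XT.nd (nat_lit 78) (nat_lit 0) (nat_lit 0) (XT.lf (nat_lit 0) (nat_lit 8422842146) (nat_lit 152) (nat_lit 28674987526) (nat_lit 76) (nat_lit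 55319329902) (nat_lit 3) (nat_lit 5) (nat_lit 5) (nat_lit 5) (nat_lit 4) (nat_lit 4) (nat_lit 228) (nat_lit 210) (nat_lit 162)) (XT.lf (nat_lit 0) (nat_lit 17159837119) (nat_lit 152) (nat_lit 9897904674) (nat_lit 76) (nat_lit 77050074891) (nat_lit 3) (nat_lit 5) (nat_lit 5) (nat_lit 5) (nat_lit 4) (nat_lit 4) (nat_lit 229) (nat_lit 210) (nat_lit 161))))) (XT.nd (nat_lit 234) (nat_lit 0) (nat_lit 0) (XT.nd (nat_lit 78) (nat_lit 0) (nat_lit 0) (XT.lf (nat_lit 0) (nat_lit 12831306032) (nat_lit 76) (nat_lit 14903272705) (nat_lit 152) (nat_lit 89738453927) (nat_lit 2) (nat_lit 5) (nat_lit 3) (nat_lit 5) (nat_lit 4) (nat_lit 4) (nat_lit 230) (nat_lit 210) (nat_lit 160)) (XT.nd (nat_lit 78) (nat_lit 0) (nat_lit 0) (XT.lf (nat_lit 0) (nat_lit 40075829249) (nat_lit 76) (nat_lit 333243107) (nat_lit 152) (nat_lit 92356962279) (nat_lit 2) (nat_lit 5) (nat_lit 3) (nat_lit 5) (nat_lit 4) (nat_lit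 4) (nat_lit 231) (nat_lit 210) (nat_lit 159)) (XT.lf (nat_lit 0) (nat_lit 55661310549) (nat_lit 152) (nat_lit 79632022563) (nat_lit 0) (nat_lit 14958198390) (nat_lit 2) (nat_lit 5) (nat_lit 4) (nat_lit 4) (nat_lit 2) (nat_lit 4) (nat_lit 232) (nat_lit 210) (nat_lit 158)))) (XT.nd (nat_lit 156) (nat_lit 0) (nat_lit 0) (XT.nd (nat_lit 78) (nat_lit 0) (nat_lit 0) (XT.lf (nat_lit 0) (nat_lit 73214260567) (nat_lit 152) (nat_lit 64636245873) (nat_lit 0) (nat_lit 32507441289) (nat_lit 2) (nat_lit 5) (nat_lit 4) (nat_lit 4) (nat_lit 2) (nat_lit 4) (nat_lit 233) (nat_lit 210) (nat_lit 157)) (XT.lf (nat_lit 0) (nat_lit 93397550806) (nat_lit 152) (nat_lit 47395680799) (nat_lit 0) (nat_lit 52687507947) (nat_lit 2) (nat_lit 5) (nat_lit 4) (nat_lit 4) (nat_lit 2) (nat_lit 4) (nat_lit 234) (nat_lit 210) (nat_lit 156))) (XT.nd (nat_lit 78) (nat_lit 0) (nat_lit 0) (XT.lf (nat_lit 0) (nat_lit 116606071728)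 (nat_lit 152) (nat_lit 27573011936) (nat_lit 0) (nat_lit 75893225755) (nat_lit 2) (nat_lit 5) (nat_lit 4) (nat_lit 4) (nat_lit 2) (nat_lit 4) (nat_lit 235) (nat_lit 210) (nat_lit 155)) (XT.lf (nat_lit 0) (nat_lit 143293903091) (nat_lit 152) (nat_lit 4780404461) (nat_lit 0) (nat_lit 102578619627) (nat_lit 2) (nat_lit 5) (nat_lit 4) (nat_lit 4) (nat_lit 2) (nat_lit 4) (nat_lit 236) (nat_lit 210) (nat_lit 154))))))) (XT.nd (nat_lit 1014) (nat_lit 0) (nat_lit 0) (XT.nd (nat_lit 468) (nat_lit 0) (nat_lit 0) (XT.nd (nat_lit 234) (nat_lit 0) (nat_lit 0) (XT.nd (nat_lit 78) (nat_lit 0) (nat_lit 0) (XT.lf (nat_lit 0) (nat_lit 23522192152) (nat_lit 76) (nat_lit 151435009780) (nat_lit 76) (nat_lit 110717606758) (nat_lit 1) (nat_lit 4) (nat_lit 2) (nat_lit 5) (nat_lit 2) (nat_lit 4) (nat_lit 237) (nat_lit 210) (nat_lit 153)) (XT.nd (nat_lit 78) (nat_lit 0) (nat_lit 0) (XT.lf (nat_lit 0) (nat_lit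 56604557170) (nat_lit 76) (nat_lit 155013716365) (nat_lit 76) (nat_lit 114294470250) (nat_lit 1) (nat_lit 4) (nat_lit 2) (nat_lit 5) (nat_lit 2) (nat_lit 4) (nat_lit 238) (nat_lit 210) (nat_lit 152)) (XT.lf (nat_lit 0) (nat_lit 94646778367) (nat_lit 76) (nat_lit 159130330258) (nat_lit 76) (nat_lit 118409481454) (nat_lit 1) (nat_lit 4) (nat_lit 2) (nat_lit 5) (nat_lit 2) (nat_lit 4) (nat_lit 239) (nat_lit 210) (nat_lit 151)))) (XT.nd (nat_lit 78) (nat_lit 0) (nat_lit 0) (XT.lf (nat_lit 0) (nat_lit 138393160069) (nat_lit 76) (nat_lit 163865393906) (nat_lit 76) (nat_lit 123143151458) (nat_lit 1) (nat_lit 4) (nat_lit 2) (nat_lit 5) (nat_lit 2) (nat_lit 4) (nat_lit 240) (nat_lit 210) (nat_lit 150)) (XT.nd (nat_lit 78) (nat_lit 0) (nat_lit 0) (XT.lf (nat_lit 0) (nat_lit 188699609746) (nat_lit 76) (nat_lit 169311549857) (nat_lit 76) (nat_lit 128588095546) (nat_lit 1) (nat_lit 4) (nat_lit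 2) (nat_lit 5) (nat_lit 2) (nat_lit 4) (nat_lit 241) (nat_lit 210) (nat_lit 149)) (XT.lf (nat_lit 0) (nat_lit 246550384020) (nat_lit 76) (nat_lit 175575353337) (nat_lit 76) (nat_lit 134850845232) (nat_lit 1) (nat_lit 4) (nat_lit 2) (nat_lit 5) (nat_lit 2) (nat_lit 4) (nat_lit 242) (nat_lit 210) (nat_lit 148))))) (XT.nd (nat_lit 234) (nat_lit 0) (nat_lit 0) (XT.nd (nat_lit 78) (nat_lit 0) (nat_lit 0) (XT.lf (nat_lit 0) (nat_lit 313077345867) (nat_lit 76) (nat_lit 182779357023) (nat_lit 76) (nat_lit 142053932575) (nat_lit 1) (nat_lit 4) (nat_lit 2) (nat_lit 5) (nat_lit 2) (nat_lit 4) (nat_lit 243) (nat_lit 210) (nat_lit 147)) (XT.nd (nat_lit 78) (nat_lit 0) (nat_lit 0) (XT.lf (nat_lit 0) (nat_lit 389582109757) (nat_lit 76) (nat_lit 191064508813) (nat_lit 76) (nat_lit 150338287545) (nat_lit 1) (nat_lit 4) (nat_lit 2) (nat_lit 5) (nat_lit 2) (nat_lit 4) (nat_lit 244) (nat_lit 210) (nat_lit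 146)) (XT.lf (nat_lit 0) (nat_lit 477561508029) (nat_lit 76) (nat_lit 200592909503) (nat_lit 76) (nat_lit 159865995348) (nat_lit 1) (nat_lit 4) (nat_lit 2) (nat_lit 5) (nat_lit 2) (nat_lit 4) (nat_lit 245) (nat_lit 210) (nat_lit 145)))) (XT.nd (nat_lit 156) (nat_lit 0) (nat_lit 0) (XT.nd (nat_lit 78) (nat_lit 0) (nat_lit 0) (XT.lf (nat_lit 0) (nat_lit 578736876734) (nat_lit 76) (nat_lit 211550984324) (nat_lit 76) (nat_lit 170823467658) (nat_lit 1) (nat_lit 4) (nat_lit 2) (nat_lit 5) (nat_lit 2) (nat_lit 4) (nat_lit 246) (nat_lit 210) (nat_lit 144)) (XT.lf (nat_lit 0) (nat_lit 695087733957) (nat_lit 76) (nat_lit 224153130391) (nat_lit 76) (nat_lit 183425089803) (nat_lit 1) (nat_lit 4) (nat_lit 2) (nat_lit 5) (nat_lit 2) (nat_lit 4) (nat_lit 247) (nat_lit 210) (nat_lit 143))) (XT.nd (nat_lit 78) (nat_lit 0) (nat_lit 0) (XT.lf (nat_lit 0) (nat_lit 828890509512) (nat_lit 76) (nat_lit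 238645911433) (nat_lit 76) (nat_lit 197917415260) (nat_lit 1) (nat_lit 4) (nat_lit 2) (nat_lit 5) (nat_lit 2) (nat_lit 4) (nat_lit 248) (nat_lit 210) (nat_lit 142)) (XT.lf (nat_lit 0) (nat_lit 982763083791) (nat_lit 76) (nat_lit 255312881860) (nat_lit 76) (nat_lit 214583989527) (nat_lit 1) (nat_lit 4) (nat_lit 2) (nat_lit 5) (nat_lit 2) (nat_lit 4) (nat_lit 249) (nat_lit 210) (nat_lit 141)))))) (XT.nd (nat_lit 546) (nat_lit 0) (nat_lit 0) (XT.nd (nat_lit 234) (nat_lit 0) (nat_lit 0) (XT.nd (nat_lit 78) (nat_lit 0) (nat_lit 0) (XT.lf (nat_lit 0) (nat_lit 1159716007160) (nat_lit 76) (nat_lit 274480134573) (nat_lit 76) (nat_lit 233750897753) (nat_lit 1) (nat_lit 4) (nat_lit 2) (nat_lit 5) (nat_lit 2) (nat_lit 4) (nat_lit 250) (nat_lit 210) (nat_lit 140)) (XT.nd (nat_lit 78) (nat_lit 0) (nat_lit 0) (XT.lf (nat_lit 0) (nat_lit 1363211402033) (nat_lit 76) (nat_lit 296522681038) (nat_lit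 76) (nat_lit 255793144663) (nat_lit 1) (nat_lit 4) (nat_lit 2) (nat_lit 5) (nat_lit 2) (nat_lit 4) (nat_lit 251) (nat_lit 210) (nat_lit 139)) (XT.lf (nat_lit 0) (nat_lit 1597230700049) (nat_lit 76) (nat_lit 321871788467) (nat_lit 76) (nat_lit 281141991611) (nat_lit 1) (nat_lit 4) (nat_lit 2) (nat_lit 5) (nat_lit 2) (nat_lit 4) (nat_lit 252) (nat_lit 210) (nat_lit 138)))) (XT.nd (nat_lit 156) (nat_lit 0) (nat_lit 0) (XT.nd (nat_lit 78) (nat_lit 0) (nat_lit 0) (XT.lf (nat_lit 0) (nat_lit 1866352539647) (nat_lit 76) (nat_lit 351023417659) (nat_lit 76) (nat_lit 310293394297) (nat_lit 1) (nat_lit 4) (nat_lit 2) (nat_lit 5) (nat_lit 2) (nat_lit 4) (nat_lit 253) (nat_lit 210) (nat_lit 137)) (XT.lf (nat_lit 0) (nat_lit 2175842348123) (nat_lit 76) (nat_lit 384547926577) (nat_lit 76) (nat_lit 343817706253) (nat_lit 1) (nat_lit 4) (nat_lit 2) (nat_lit 5) (nat_lit 2) (nat_lit 4) (nat_lit 254)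 (nat_lit 210) (nat_lit 136))) (XT.nd (nat_lit 78) (nat_lit 0) (nat_lit 0) (XT.lf (nat_lit 0) (nat_lit 2531755360861) (nat_lit 76) (nat_lit 423101229524) (nat_lit 76) (nat_lit 382370837929) (nat_lit 1) (nat_lit 4) (nat_lit 2) (nat_lit 5) (nat_lit 2) (nat_lit 4) (nat_lit 255) (nat_lit 210) (nat_lit 135)) (XT.lf (nat_lit 0) (nat_lit 2941055093328) (nat_lit 76) (nat_lit 467437630255) (nat_lit 76) (nat_lit 426707089728) (nat_lit 1) (nat_lit 4) (nat_lit 2) (nat_lit 5) (nat_lit 2) (nat_lit 4) (nat_lit 256) (nat_lit 210) (nat_lit 134))))) (XT.nd (nat_lit 234) (nat_lit 0) (nat_lit 0) (XT.nd (nat_lit 78) (nat_lit 0) (nat_lit 0) (XT.lf (nat_lit 0) (nat_lit 3411749583767) (nat_lit 76) (nat_lit 518424580087) (nat_lit 76) (nat_lit 477693910055) (nat_lit 1) (nat_lit 4) (nat_lit 2) (nat_lit 5) (nat_lit 2) (nat_lit 4) (nat_lit 257) (nat_lit 210) (nat_lit 133)) (XT.nd (nat_lit 78) (nat_lit 0) (nat_lit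 0) (XT.lf (nat_lit 0) (nat_lit 3953048072209) (nat_lit 76) (nat_lit 577059649779) (nat_lit 76) (nat_lit 536328867134) (nat_lit 1) (nat_lit 4) (nat_lit 2) (nat_lit 5) (nat_lit 2) (nat_lit 4) (nat_lit 258) (nat_lit 210) (nat_lit 132)) (XT.lf (nat_lit 0) (nat_lit 4575541181253) (nat_lit 76) (nat_lit 644490047216) (nat_lit 76) (nat_lit 603759166646) (nat_lit 1) (nat_lit 4) (nat_lit 2) (nat_lit 5) (nat_lit 2) (nat_lit 4) (nat_lit 259) (nat_lit 210) (nat_lit 131)))) (XT.nd (nat_lit 156) (nat_lit 0) (nat_lit 0) (XT.nd (nat_lit 78) (nat_lit 0) (nat_lit 0) (XT.lf (nat_lit 0) (nat_lit 5291408123904) (nat_lit 76) (nat_lit 722035062782) (nat_lit 76) (nat_lit 681304097060) (nat_lit 1) (nat_lit 4) (nat_lit 2) (nat_lit 5) (nat_lit 2) (nat_lit 4) (nat_lit 260) (nat_lit 210) (nat_lit 130)) (XT.lf (nat_lit 0) (nat_lit 6114654992516) (nat_lit 76) (nat_lit 811211881565) (nat_lit 76) (nat_lit 770480841798)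 (nat_lit 1) (nat_lit 4) (nat_lit 2) (nat_lit 5) (nat_lit 2) (nat_lit 4) (nat_lit 261) (nat_lit 210) (nat_lit 129))) (XT.nd (nat_lit 78) (nat_lit 0) (nat_lit 0) (XT.lf (nat_lit 0) (nat_lit 7061388791041) (nat_lit 76) (nat_lit 913765267410) (nat_lit 76) (nat_lit 873034163256) (nat_lit 1) (nat_lit 4) (nat_lit 2) (nat_lit 5) (nat_lit 2) (nat_lit 4) (nat_lit 262) (nat_lit 210) (nat_lit 128)) (XT.lf (nat_lit 0) (nat_lit 8150132572059) (nat_lit 76) (nat_lit 1031701699606) (nat_lit 76) (nat_lit 990970539463) (nat_lit 1) (nat_lit 4) (nat_lit 2) (nat_lit 5) (nat_lit 2) (nat_lit 4) (nat_lit 263) (nat_lit 210) (nat_lit 127))))))))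
noncomputable def xc38 : XT := (XT.nd (nat_lit 28626) (nat_lit 0) (nat_lit 0) (XT.nd (nat_lit 27612) (nat_lit 0) (nat_lit 152) (XT.nd (nat_lit 468) (nat_lit 0) (nat_lit 0) (XT.nd (nat_lit 234) (nat_lit 0) (nat_lit 0) (XT.nd (nat_lit 78) (nat_lit 0) (nat_lit 0) (XT.lf (nat_lit 0) (nat_lit 9402187844328) (nat_lit 76) (nat_lit 1167328630087) (nat_lit 76) (nat_lit 1126597421258) (nat_lit 1) (nat_lit 4) (nat_lit 2) (nat_lit 5) (nat_lit 2) (nat_lit 4) (nat_lit 264) (nat_lit 210) (nat_lit 126)) (XT.nd (nat_lit 78) (nat_lit 0) (nat_lit 0) (XT.lf (nat_lit 0) (nat_lit 10842051341438) (nat_lit 76) (nat_lit 1323299629232) (nat_lit 76) (nat_lit 1282568378067) (nat_lit 1) (nat_lit 4) (nat_lit 2) (nat_lit 5) (nat_lit 2) (nat_lit 4) (nat_lit 265) (nat_lit 210) (nat_lit 125)) (XT.lf (nat_lit 0) (nat_lit 12497894305722) (nat_lit 76) (nat_lit 1502666303545) (nat_lit 76) (nat_lit 1461935015567) (nat_lit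 1) (nat_lit 4) (nat_lit 2) (nat_lit 5) (nat_lit 2) (nat_lit 4) (nat_lit 266) (nat_lit 210) (nat_lit 124)))) (XT.nd (nat_lit 78) (nat_lit 0) (nat_lit 0) (XT.lf (nat_lit 0) (nat_lit 14402113664743) (nat_lit 76) (nat_lit 1708938001003) (nat_lit 76) (nat_lit 1668206681013) (nat_lit 1) (nat_lit 4) (nat_lit 2) (nat_lit 5) (nat_lit 2) (nat_lit 4) (nat_lit 267) (nat_lit 210) (nat_lit 123)) (XT.nd (nat_lit 78) (nat_lit 0) (nat_lit 0) (XT.lf (nat_lit 0) (nat_lit 16591965884220) (nat_lit 76) (nat_lit 1946150472208) (nat_lit 76) (nat_lit 1905419124382) (nat_lit 1) (nat_lit 4) (nat_lit 2) (nat_lit 5) (nat_lit 2) (nat_lit 4) (nat_lit 268) (nat_lit 210) (nat_lit 122)) (XT.lf (nat_lit 0) (nat_lit 19110295898883) (nat_lit 76) (nat_lit 2218944830727) (nat_lit 76) (nat_lit 2178213458696) (nat_lit 1) (nat_lit 4) (nat_lit 2) (nat_lit 5) (nat_lit 2) (nat_lit 4) (nat_lit 269) (nat_lit 210) (nat_lit 121)))))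 (XT.nd (nat_lit 26832) (nat_lit 0) (nat_lit 684) (XT.nd (nat_lit 26676) (nat_lit 0) (nat_lit 836) (XT.lf (nat_lit 0) (nat_lit 22006375382931) (nat_lit 76) (nat_lit 2532658357488) (nat_lit 76) (nat_lit 2491926964408) (nat_lit 1) (nat_lit 4) (nat_lit 2) (nat_lit 5) (nat_lit 2) (nat_lit 4) (nat_lit 270) (nat_lit 210) (nat_lit 120)) (XT.nd (nat_lit 78) (nat_lit 0) (nat_lit 0) (XT.lf (nat_lit 0) (nat_lit 3354891144) (nat_lit 0) (nat_lit 3354891144) (nat_lit 228) (nat_lit 2942462594) (nat_lit 12) (nat_lit 5) (nat_lit 12) (nat_lit 3) (nat_lit 15) (nat_lit 3) (nat_lit 211) (nat_lit 211) (nat_lit 178)) (XT.lf (nat_lit 0) (nat_lit 14601598798) (nat_lit 228) (nat_lit 5353988535) (nat_lit 304) (nat_lit 767629996) (nat_lit 12) (nat_lit 5) (nat_lit 15) (nat_lit 3) (nat_lit 16) (nat_lit 5) (nat_lit 212) (nat_lit 211) (nat_lit 177)))) (XT.nd (nat_lit 156) (nat_lit 152) (nat_lit 0) (XT.nd (nat_lit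 78) (nat_lit 0) (nat_lit 0) (XT.lf (nat_lit 76) (nat_lit 2893643451) (nat_lit 0) (nat_lit 13482098678) (nat_lit 304) (nat_lit 5917285246) (nat_lit 13) (nat_lit 5) (nat_lit 12) (nat_lit 5) (nat_lit 16) (nat_lit 5) (nat_lit 213) (nat_lit 211) (nat_lit 176)) (XT.lf (nat_lit 76) (nat_lit 12963628103) (nat_lit 0) (nat_lit 5710233280) (nat_lit 304) (nat_lit 5386198901) (nat_lit 13) (nat_lit 5) (nat_lit 12) (nat_lit 5) (nat_lit 16) (nat_lit 5) (nat_lit 214) (nat_lit 211) (nat_lit 175))) (XT.nd (nat_lit 78) (nat_lit 228) (nat_lit 0) (XT.lf (nat_lit 0) (nat_lit 21431395134) (nat_lit 228) (nat_lit 1699475233) (nat_lit 76) (nat_lit 2944446763) (nat_lit 13) (nat_lit 5) (nat_lit 16) (nat_lit 5) (nat_lit 14) (nat_lit 5) (nat_lit 215) (nat_lit 211) (nat_lit 174)) (XT.lf (nat_lit 0) (nat_lit 9681552186) (nat_lit 228) (nat_lit 15577342336) (nat_lit 304) (nat_lit 3035842424) (nat_lit 10) (nat_lit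 5) (nat_lit 13) (nat_lit 5) (nat_lit 14) (nat_lit 5) (nat_lit 216) (nat_lit 211) (nat_lit 173)))))) (XT.nd (nat_lit 468) (nat_lit 228) (nat_lit 0) (XT.nd (nat_lit 234) (nat_lit 152) (nat_lit 0) (XT.nd (nat_lit 78) (nat_lit 152) (nat_lit 0) (XT.lf (nat_lit 0) (nat_lit 22945959088) (nat_lit 228) (nat_lit 6788460128) (nat_lit 304) (nat_lit 1101847872) (nat_lit 10) (nat_lit 5) (nat_lit 13) (nat_lit 5) (nat_lit 14) (nat_lit 5) (nat_lit 217) (nat_lit 211) (nat_lit 172)) (XT.nd (nat_lit 78) (nat_lit 0) (nat_lit 0) (XT.lf (nat_lit 0) (nat_lit 1356694408) (nat_lit 152) (nat_lit 29065395074) (nat_lit 76) (nat_lit 3280026551) (nat_lit 8) (nat_lit 5) (nat_lit 10) (nat_lit 5) (nat_lit 9) (nat_lit 5) (nat_lit 218) (nat_lit 211) (nat_lit 171)) (XT.lf (nat_lit 0) (nat_lit 4813914524) (nat_lit 152) (nat_lit 17417559849) (nat_lit 76) (nat_lit 14647277588) (nat_lit 8) (nat_lit 5) (nat_lit 10) (nat_lit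 5) (nat_lit 9) (nat_lit 5) (nat_lit 219) (nat_lit 211) (nat_lit 170)))) (XT.nd (nat_lit 78) (nat_lit 152) (nat_lit 0) (XT.lf (nat_lit 0) (nat_lit 8778723243) (nat_lit 152) (nat_lit 4036273408) (nat_lit 76) (nat_lit 27718697261) (nat_lit 8) (nat_lit 5) (nat_lit 10) (nat_lit 5) (nat_lit 9) (nat_lit 5) (nat_lit 220) (nat_lit 211) (nat_lit 169)) (XT.nd (nat_lit 78) (nat_lit 0) (nat_lit 0) (XT.lf (nat_lit 0) (nat_lit 12448525885) (nat_lit 152) (nat_lit 1395633935) (nat_lit 228) (nat_lit 30816971763) (nat_lit 6) (nat_lit 5) (nat_lit 8) (nat_lit 5) (nat_lit 9) (nat_lit 5) (nat_lit 221) (nat_lit 211) (nat_lit 168)) (XT.lf (nat_lit 0) (nat_lit 20367541875) (nat_lit 228) (nat_lit 18025129086) (nat_lit 76) (nat_lit 10910416542) (nat_lit 6) (nat_lit 5) (nat_lit 9) (nat_lit 5) (nat_lit 7) (nat_lit 4) (nat_lit 222) (nat_lit 211) (nat_lit 167))))) (XT.nd (nat_lit 234) (nat_lit 152) (nat_lit 0)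 (XT.nd (nat_lit 78) (nat_lit 76) (nat_lit 0) (XT.lf (nat_lit 0) (nat_lit 27928156967) (nat_lit 228) (nat_lit 1787053605) (nat_lit 76) (nat_lit 24917423550) (nat_lit 6) (nat_lit 5) (nat_lit 9) (nat_lit 5) (nat_lit 7) (nat_lit 4) (nat_lit 223) (nat_lit 211) (nat_lit 166)) (XT.nd (nat_lit 78) (nat_lit 0) (nat_lit 0) (XT.lf (nat_lit 0) (nat_lit 18526466617) (nat_lit 76) (nat_lit 18856814807) (nat_lit 152) (nat_lit 23264361065) (nat_lit 5) (nat_lit 5) (nat_lit 6) (nat_lit 5) (nat_lit 7) (nat_lit 4) (nat_lit 224) (nat_lit 211) (nat_lit 165)) (XT.lf (nat_lit 0) (nat_lit 42078671885) (nat_lit 76) (nat_lit 6265189285) (nat_lit 152) (nat_lit 19208043230) (nat_lit 5) (nat_lit 5) (nat_lit 6) (nat_lit 5) (nat_lit 7) (nat_lit 4) (nat_lit 225) (nat_lit 211) (nat_lit 164)))) (XT.nd (nat_lit 156) (nat_lit 76) (nat_lit 0) (XT.nd (nat_lit 78) (nat_lit 76) (nat_lit 0) (XT.lf (nat_lit 0) (nat_lit 61283179274)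 (nat_lit 152) (nat_lit 6677032010) (nat_lit 0) (nat_lit 7481466411) (nat_lit 5) (nat_lit 5) (nat_lit 7) (nat_lit 4) (nat_lit 5) (nat_lit 4) (nat_lit 226) (nat_lit 211) (nat_lit 163)) (XT.lf (nat_lit 0) (nat_lit 16062645505) (nat_lit 76) (nat_lit 61059410361) (nat_lit 76) (nat_lit 7249122708) (nat_lit 4) (nat_lit 4) (nat_lit 5) (nat_lit 5) (nat_lit 5) (nat_lit 4) (nat_lit 227) (nat_lit 211) (nat_lit 162))) (XT.nd (nat_lit 78) (nat_lit 0) (nat_lit 0) (XT.lf (nat_lit 0) (nat_lit 995547358) (nat_lit 152) (nat_lit 51677317171) (nat_lit 76) (nat_lit 41908822462) (nat_lit 3) (nat_lit 5) (nat_lit 5) (nat_lit 5) (nat_lit 4) (nat_lit 4) (nat_lit 228) (nat_lit 211) (nat_lit 161)) (XT.lf (nat_lit 0) (nat_lit 9730626229) (nat_lit 152) (nat_lit 32903381373) (nat_lit 76) (nat_lit 63638642480) (nat_lit 3) (nat_lit 5) (nat_lit 5) (nat_lit 5) (nat_lit 4) (nat_lit 4) (nat_lit 229) (nat_lit 211) (nat_lit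 160))))))) (XT.nd (nat_lit 1014) (nat_lit 0) (nat_lit 0) (XT.nd (nat_lit 468) (nat_lit 76) (nat_lit 0) (XT.nd (nat_lit 234) (nat_lit 0) (nat_lit 0) (XT.nd (nat_lit 78) (nat_lit 76) (nat_lit 0) (XT.lf (nat_lit 0) (nat_lit 19772384652) (nat_lit 152) (nat_lit 11319238826) (nat_lit 76) (nat_lit 88626206205) (nat_lit 3) (nat_lit 5) (nat_lit 5) (nat_lit 5) (nat_lit 4) (nat_lit 4) (nat_lit 230) (nat_lit 211) (nat_lit 159)) (XT.nd (nat_lit 78) (nat_lit 0) (nat_lit 0) (XT.lf (nat_lit 0) (nat_lit 14816473871) (nat_lit 76) (nat_lit 17114336531) (nat_lit 152) (nat_lit 103157445470) (nat_lit 2) (nat_lit 5) (nat_lit 3) (nat_lit 5) (nat_lit 4) (nat_lit 4) (nat_lit 231) (nat_lit 211) (nat_lit 158)) (XT.lf (nat_lit 0) (nat_lit 46139787926) (nat_lit 76) (nat_lit 361988635) (nat_lit 152) (nat_lit 106174179190) (nat_lit 2) (nat_lit 5) (nat_lit 3) (nat_lit 5) (nat_lit 4) (nat_lit 4) (nat_lit 232) (nat_lit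 211) (nat_lit 157)))) (XT.nd (nat_lit 78) (nat_lit 0) (nat_lit 0) (XT.lf (nat_lit 0) (nat_lit 64038527038) (nat_lit 152) (nat_lit 91527531315) (nat_lit 0) (nat_lit 17218754169) (nat_lit 2) (nat_lit 5) (nat_lit 4) (nat_lit 4) (nat_lit 2) (nat_lit 4) (nat_lit 233) (nat_lit 211) (nat_lit 156)) (XT.nd (nat_lit 78) (nat_lit 0) (nat_lit 0) (XT.lf (nat_lit 0) (nat_lit 84220764788) (nat_lit 152) (nat_lit 74288817856) (nat_lit 0) (nat_lit 37398188804) (nat_lit 2) (nat_lit 5) (nat_lit 4) (nat_lit 4) (nat_lit 2) (nat_lit 4) (nat_lit 234) (nat_lit 211) (nat_lit 155)) (XT.lf (nat_lit 0) (nat_lit 107428370502) (nat_lit 152) (nat_lit 54467759094) (nat_lit 0) (nat_lit 60603357028) (nat_lit 2) (nat_lit 5) (nat_lit 4) (nat_lit 4) (nat_lit 2) (nat_lit 4) (nat_lit 235) (nat_lit 211) (nat_lit 154))))) (XT.nd (nat_lit 234) (nat_lit 0) (nat_lit 0) (XT.nd (nat_lit 78) (nat_lit 76) (nat_lit 0) (XT.lf (nat_lit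 0) (nat_lit 134115406031) (nat_lit 152) (nat_lit 31676551705) (nat_lit 0) (nat_lit 87288273000) (nat_lit 2) (nat_lit 5) (nat_lit 4) (nat_lit 4) (nat_lit 2) (nat_lit 4) (nat_lit 236) (nat_lit 211) (nat_lit 153)) (XT.nd (nat_lit 78) (nat_lit 76) (nat_lit 0) (XT.lf (nat_lit 0) (nat_lit 164804009027) (nat_lit 152) (nat_lit 5469280763) (nat_lit 0) (nat_lit 117975032903) (nat_lit 2) (nat_lit 5) (nat_lit 4) (nat_lit 4) (nat_lit 2) (nat_lit 4) (nat_lit 237) (nat_lit 211) (nat_lit 152)) (XT.lf (nat_lit 0) (nat_lit 27077424234) (nat_lit 76) (nat_lit 174138402840) (nat_lit 76) (nat_lit 127307824026) (nat_lit 1) (nat_lit 4) (nat_lit 2) (nat_lit 5) (nat_lit 2) (nat_lit 4) (nat_lit 238) (nat_lit 211) (nat_lit 151)))) (XT.nd (nat_lit 156) (nat_lit 0) (nat_lit 0) (XT.nd (nat_lit 78) (nat_lit 0) (nat_lit 0) (XT.lf (nat_lit 0) (nat_lit 65118634884) (nat_lit 76) (nat_lit 178255462162) (nat_lit 76)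 (nat_lit 131423489704) (nat_lit 1) (nat_lit 4) (nat_lit 2) (nat_lit 5) (nat_lit 2) (nat_lit 4) (nat_lit 239) (nat_lit 211) (nat_lit 150)) (XT.lf (nat_lit 0) (nat_lit 108864137851) (nat_lit 76) (nat_lit 182990913138) (nat_lit 76) (nat_lit 136157728817) (nat_lit 1) (nat_lit 4) (nat_lit 2) (nat_lit 5) (nat_lit 2) (nat_lit 4) (nat_lit 240) (nat_lit 211) (nat_lit 149))) (XT.nd (nat_lit 78) (nat_lit 0) (nat_lit 0) (XT.lf (nat_lit 0) (nat_lit 159169823409) (nat_lit 76) (nat_lit 188437405897) (nat_lit 76) (nat_lit 141603167781) (nat_lit 1) (nat_lit 4) (nat_lit 2) (nat_lit 5) (nat_lit 2) (nat_lit 4) (nat_lit 241) (nat_lit 211) (nat_lit 148)) (XT.lf (nat_lit 0) (nat_lit 217019933233) (nat_lit 76) (nat_lit 194701502253) (nat_lit 76) (nat_lit 147866347795) (nat_lit 1) (nat_lit 4) (nat_lit 2) (nat_lit 5) (nat_lit 2) (nat_lit 4) (nat_lit 242) (nat_lit 211) (nat_lit 147)))))) (XT.nd (nat_lit 546)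 (nat_lit 0) (nat_lit 0) (XT.nd (nat_lit 234) (nat_lit 0) (nat_lit 0) (XT.nd (nat_lit 78) (nat_lit 0) (nat_lit 0) (XT.lf (nat_lit 0) (nat_lit 283546317297) (nat_lit 76) (nat_lit 201905760614) (nat_lit 76) (nat_lit 155069809336) (nat_lit 1) (nat_lit 4) (nat_lit 2) (nat_lit 5) (nat_lit 2) (nat_lit 4) (nat_lit 243) (nat_lit 211) (nat_lit 146)) (XT.nd (nat_lit 78) (nat_lit 0) (nat_lit 0) (XT.lf (nat_lit 0) (nat_lit 360050578768) (nat_lit 76) (nat_lit 210191133861) (nat_lit 76) (nat_lit 163354489695) (nat_lit 1) (nat_lit 4) (nat_lit 2) (nat_lit 5) (nat_lit 2) (nat_lit 4) (nat_lit 244) (nat_lit 211) (nat_lit 145)) (XT.lf (nat_lit 0) (nat_lit 448029540152) (nat_lit 76) (nat_lit 219719727121) (nat_lit 76) (nat_lit 172882480445) (nat_lit 1) (nat_lit 4) (nat_lit 2) (nat_lit 5) (nat_lit 2) (nat_lit 4) (nat_lit 245) (nat_lit 211) (nat_lit 144)))) (XT.nd (nat_lit 156) (nat_lit 0) (nat_lit 0) (XT.nd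 (nat_lit 78) (nat_lit 0) (nat_lit 0) (XT.lf (nat_lit 0) (nat_lit 549204528956) (nat_lit 76) (nat_lit 230677969395) (nat_lit 76) (nat_lit 183840198797) (nat_lit 1) (nat_lit 4) (nat_lit 2) (nat_lit 5) (nat_lit 2) (nat_lit 4) (nat_lit 246) (nat_lit 211) (nat_lit 143)) (XT.lf (nat_lit 0) (nat_lit 665555055830) (nat_lit 76) (nat_lit 243280261073) (nat_lit 76) (nat_lit 196442034891) (nat_lit 1) (nat_lit 4) (nat_lit 2) (nat_lit 5) (nat_lit 2) (nat_lit 4) (nat_lit 247) (nat_lit 211) (nat_lit 142))) (XT.nd (nat_lit 78) (nat_lit 0) (nat_lit 0) (XT.lf (nat_lit 0) (nat_lit 799357544125) (nat_lit 76) (nat_lit 257773168733) (nat_lit 76) (nat_lit 210934546390) (nat_lit 1) (nat_lit 4) (nat_lit 2) (nat_lit 5) (nat_lit 2) (nat_lit 4) (nat_lit 248) (nat_lit 211) (nat_lit 141)) (XT.lf (nat_lit 0) (nat_lit 953229868612) (nat_lit 76) (nat_lit 274440249264) (nat_lit 76) (nat_lit 227601282433) (nat_lit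 1) (nat_lit 4) (nat_lit 2) (nat_lit 5) (nat_lit 2) (nat_lit 4) (nat_lit 249) (nat_lit 211) (nat_lit 140))))) (XT.nd (nat_lit 234) (nat_lit 0) (nat_lit 0) (XT.nd (nat_lit 78) (nat_lit 0) (nat_lit 0) (XT.lf (nat_lit 0) (nat_lit 1130182574771) (nat_lit 76) (nat_lit 293607597718) (nat_lit 76) (nat_lit 246768331334) (nat_lit 1) (nat_lit 4) (nat_lit 2) (nat_lit 5) (nat_lit 2) (nat_lit 4) (nat_lit 250) (nat_lit 211) (nat_lit 139)) (XT.nd (nat_lit 78) (nat_lit 0) (nat_lit 0) (XT.lf (nat_lit 0) (nat_lit 1333677780766) (nat_lit 76) (nat_lit 315650227436) (nat_lit 76) (nat_lit 268810700570) (nat_lit 1) (nat_lit 4) (nat_lit 2) (nat_lit 5) (nat_lit 2) (nat_lit 4) (nat_lit 251) (nat_lit 211) (nat_lit 138)) (XT.lf (nat_lit 0) (nat_lit 1567696914540) (nat_lit 76) (nat_lit 340999407261) (nat_lit 76) (nat_lit 294159653888) (nat_lit 1) (nat_lit 4) (nat_lit 2) (nat_lit 5) (nat_lit 2) (nat_lit 4) (nat_lit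 252) (nat_lit 211) (nat_lit 137)))) (XT.nd (nat_lit 156) (nat_lit 0) (nat_lit 0) (XT.nd (nat_lit 78) (nat_lit 0) (nat_lit 0) (XT.lf (nat_lit 0) (nat_lit 1836818611318) (nat_lit 76) (nat_lit 370151099405) (nat_lit 76) (nat_lit 323311149071) (nat_lit 1) (nat_lit 4) (nat_lit 2) (nat_lit 5) (nat_lit 2) (nat_lit 4) (nat_lit 253) (nat_lit 211) (nat_lit 136)) (XT.lf (nat_lit 0) (nat_lit 2146308295604) (nat_lit 76) (nat_lit 403675663062) (nat_lit 76) (nat_lit 356835541457) (nat_lit 1) (nat_lit 4) (nat_lit 2) (nat_lit 5) (nat_lit 2) (nat_lit 4) (nat_lit 254) (nat_lit 211) (nat_lit 135))) (XT.nd (nat_lit 78) (nat_lit 0) (nat_lit 0) (XT.lf (nat_lit 0) (nat_lit 2502221200351) (nat_lit 76) (nat_lit 442229013610) (nat_lit 76) (nat_lit 395388743074) (nat_lit 1) (nat_lit 4) (nat_lit 2) (nat_lit 5) (nat_lit 2) (nat_lit 4) (nat_lit 255) (nat_lit 211) (nat_lit 134)) (XT.lf (nat_lit 0) (nat_lit 2911520838912)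 (nat_lit 76) (nat_lit 486565455733) (nat_lit 76) (nat_lit 439725055691) (nat_lit 1) (nat_lit 4) (nat_lit 2) (nat_lit 5) (nat_lit 2) (nat_lit 4) (nat_lit 256) (nat_lit 211) (nat_lit 133))))))))
noncomputable def xc39 : XT := (XT.nd (nat_lit 28782) (nat_lit 0) (nat_lit 0) (XT.nd (nat_lit 1014) (nat_lit 0) (nat_lit 0) (XT.nd (nat_lit 468) (nat_lit 0) (nat_lit 0) (XT.nd (nat_lit 234) (nat_lit 0) (nat_lit 0) (XT.nd (nat_lit 78) (nat_lit 0) (nat_lit 0) (XT.lf (nat_lit 0) (nat_lit 3382215247694) (nat_lit 76) (nat_lit 537552441558) (nat_lit 76) (nat_lit 490711928903) (nat_lit 1) (nat_lit 4) (nat_lit 2) (nat_lit 5) (nat_lit 2) (nat_lit 4) (nat_lit 257) (nat_lit 211) (nat_lit 132)) (XT.nd (nat_lit 78) (nat_lit 0) (nat_lit 0) (XT.lf (nat_lit 0) (nat_lit 3923513665129) (nat_lit 76) (nat_lit 596187542548) (nat_lit 76) (nat_lit 549346931968) (nat_lit 1) (nat_lit 4) (nat_lit 2) (nat_lit 5) (nat_lit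 2) (nat_lit 4) (nat_lit 258) (nat_lit 211) (nat_lit 131)) (XT.lf (nat_lit 0) (nat_lit 4546006712429) (nat_lit 76) (nat_lit 663617967201) (nat_lit 76) (nat_lit 616777271469) (nat_lit 1) (nat_lit 4) (nat_lit 2) (nat_lit 5) (nat_lit 2) (nat_lit 4) (nat_lit 259) (nat_lit 211) (nat_lit 130)))) (XT.nd (nat_lit 78) (nat_lit 0) (nat_lit 0) (XT.lf (nat_lit 0) (nat_lit 5261873601388) (nat_lit 76) (nat_lit 741163006433) (nat_lit 76) (nat_lit 694322236656) (nat_lit 1) (nat_lit 4) (nat_lit 2) (nat_lit 5) (nat_lit 2) (nat_lit 4) (nat_lit 260) (nat_lit 211) (nat_lit 129)) (XT.nd (nat_lit 78) (nat_lit 0) (nat_lit 0) (XT.lf (nat_lit 0) (nat_lit 6085120423312) (nat_lit 76) (nat_lit 830339845795) (nat_lit 76) (nat_lit 783499011630) (nat_lit 1) (nat_lit 4) (nat_lit 2) (nat_lit 5) (nat_lit 2) (nat_lit 4) (nat_lit 261) (nat_lit 211) (nat_lit 128)) (XT.lf (nat_lit 0) (nat_lit 7031854181239) (nat_lit 76)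 (nat_lit 932893249535) (nat_lit 76) (nat_lit 886052359382) (nat_lit 1) (nat_lit 4) (nat_lit 2) (nat_lit 5) (nat_lit 2) (nat_lit 4) (nat_lit 262) (nat_lit 211) (nat_lit 127))))) (XT.nd (nat_lit 234) (nat_lit 0) (nat_lit 0) (XT.nd (nat_lit 78) (nat_lit 0) (nat_lit 0) (XT.lf (nat_lit 0) (nat_lit 8120597926954) (nat_lit 76) (nat_lit 1050829697291) (nat_lit 76) (nat_lit 1003988758452) (nat_lit 1) (nat_lit 4) (nat_lit 2) (nat_lit 5) (nat_lit 2) (nat_lit 4) (nat_lit 263) (nat_lit 211) (nat_lit 126)) (XT.nd (nat_lit 78) (nat_lit 0) (nat_lit 0) (XT.lf (nat_lit 0) (nat_lit 9372653168526) (nat_lit 76) (nat_lit 1186456641303) (nat_lit 76) (nat_lit 1139615660128) (nat_lit 1) (nat_lit 4) (nat_lit 2) (nat_lit 5) (nat_lit 2) (nat_lit 4) (nat_lit 264) (nat_lit 211) (nat_lit 125)) (XT.lf (nat_lit 0) (nat_lit 10812516638942) (nat_lit 76) (nat_lit 1342427652214) (nat_lit 76) (nat_lit 1295586634226)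 (nat_lit 1) (nat_lit 4) (nat_lit 2) (nat_lit 5) (nat_lit 2) (nat_lit 4) (nat_lit 265) (nat_lit 211) (nat_lit 124)))) (XT.nd (nat_lit 156) (nat_lit 0) (nat_lit 0) (XT.nd (nat_lit 78) (nat_lit 0) (nat_lit 0) (XT.lf (nat_lit 0) (nat_lit 12468359580014) (nat_lit 76) (nat_lit 1521794336759) (nat_lit 76) (nat_lit 1474953286759) (nat_lit 1) (nat_lit 4) (nat_lit 2) (nat_lit 5) (nat_lit 2) (nat_lit 4) (nat_lit 266) (nat_lit 211) (nat_lit 123)) (XT.lf (nat_lit 0) (nat_lit 14372578918850) (nat_lit 76) (nat_lit 1728066043114) (nat_lit 76) (nat_lit 1681224965277) (nat_lit 1) (nat_lit 4) (nat_lit 2) (nat_lit 5) (nat_lit 2) (nat_lit 4) (nat_lit 267) (nat_lit 211) (nat_lit 122))) (XT.nd (nat_lit 78) (nat_lit 0) (nat_lit 0) (XT.lf (nat_lit 0) (nat_lit 16562431120776) (nat_lit 76) (nat_lit 1965278522055) (nat_lit 76) (nat_lit 1918437420013) (nat_lit 1) (nat_lit 4) (nat_lit 2) (nat_lit 5) (nat_lit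 2) (nat_lit 4) (nat_lit 268) (nat_lit 211) (nat_lit 121)) (XT.lf (nat_lit 0) (nat_lit 19080761120176) (nat_lit 76) (nat_lit 2238072887302) (nat_lit 76) (nat_lit 2191231764212) (nat_lit 1) (nat_lit 4) (nat_lit 2) (nat_lit 5) (nat_lit 2) (nat_lit 4) (nat_lit 269) (nat_lit 211) (nat_lit 120)))))) (XT.nd (nat_lit 27222) (nat_lit 0) (nat_lit 380) (XT.nd (nat_lit 26910) (nat_lit 0) (nat_lit 684) (XT.nd (nat_lit 26754) (nat_lit 0) (nat_lit 836) (XT.lf (nat_lit 0) (nat_lit 21976840590953) (nat_lit 76) (nat_lit 2551786419913) (nat_lit 76) (nat_lit 2504945278519) (nat_lit 1) (nat_lit 4) (nat_lit 2) (nat_lit 5) (nat_lit 2) (nat_lit 4) (nat_lit 270) (nat_lit 211) (nat_lit 119)) (XT.nd (nat_lit 78) (nat_lit 0) (nat_lit 0) (XT.lf (nat_lit 0) (nat_lit 3925549600) (nat_lit 0) (nat_lit 3925549600) (nat_lit 228) (nat_lit 3226095713) (nat_lit 12) (nat_lit 5) (nat_lit 12) (nat_lit 3) (nat_lit 15) (nat_lit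 3) (nat_lit 212) (nat_lit 212) (nat_lit 176)) (XT.lf (nat_lit 0) (nat_lit 17021504098) (nat_lit 228) (nat_lit 5995167854) (nat_lit 304) (nat_lit 775953342) (nat_lit 12) (nat_lit 5) (nat_lit 15) (nat_lit 3) (nat_lit 16) (nat_lit 5) (nat_lit 213) (nat_lit 212) (nat_lit 175)))) (XT.nd (nat_lit 156) (nat_lit 152) (nat_lit 0) (XT.nd (nat_lit 78) (nat_lit 0) (nat_lit 0) (XT.lf (nat_lit 76) (nat_lit 3482248978) (nat_lit 0) (nat_lit 15555963543) (nat_lit 304) (nat_lit 6563831023) (nat_lit 13) (nat_lit 5) (nat_lit 12) (nat_lit 5) (nat_lit 16) (nat_lit 5) (nat_lit 214) (nat_lit 212) (nat_lit 174)) (XT.lf (nat_lit 76) (nat_lit 15042571457) (nat_lit 0) (nat_lit 6611594414) (nat_lit 304) (nat_lit 5984522640) (nat_lit 13) (nat_lit 5) (nat_lit 12) (nat_lit 5) (nat_lit 16) (nat_lit 5) (nat_lit 215) (nat_lit 212) (nat_lit 173))) (XT.nd (nat_lit 78) (nat_lit 228) (nat_lit 0) (XT.lf (nat_lit 0) (nat_lit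 24800338426) (nat_lit 228) (nat_lit 1809495555) (nat_lit 76) (nat_lit 3350604726) (nat_lit 13) (nat_lit 5) (nat_lit 16) (nat_lit 5) (nat_lit 14) (nat_lit 5) (nat_lit 216) (nat_lit 212) (nat_lit 172)) (XT.lf (nat_lit 0) (nat_lit 11272099570) (nat_lit 228) (nat_lit 17915472981) (nat_lit 304) (nat_lit 3327754106) (nat_lit 10) (nat_lit 5) (nat_lit 13) (nat_lit 5) (nat_lit 14) (nat_lit 5) (nat_lit 217) (nat_lit 212) (nat_lit 171))))) (XT.nd (nat_lit 234) (nat_lit 152) (nat_lit 0) (XT.nd (nat_lit 78) (nat_lit 152) (nat_lit 0) (XT.lf (nat_lit 0) (nat_lit 26508126479) (nat_lit 228) (nat_lit 7808058969) (nat_lit 304) (nat_lit 1124981852) (nat_lit 10) (nat_lit 5) (nat_lit 13) (nat_lit 5) (nat_lit 14) (nat_lit 5) (nat_lit 218) (nat_lit 212) (nat_lit 170)) (XT.nd (nat_lit 78) (nat_lit 0) (nat_lit 0) (XT.lf (nat_lit 0) (nat_lit 1678580278) (nat_lit 152) (nat_lit 33277431242) (nat_lit 76) (nat_lit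 3781926024) (nat_lit 8) (nat_lit 5) (nat_lit 10) (nat_lit 5) (nat_lit 9) (nat_lit 5) (nat_lit 219) (nat_lit 212) (nat_lit 169)) (XT.lf (nat_lit 0) (nat_lit 5638942318) (nat_lit 152) (nat_lit 19901695485) (nat_lit 76) (nat_lit 16852974000) (nat_lit 8) (nat_lit 5) (nat_lit 10) (nat_lit 5) (nat_lit 9) (nat_lit 5) (nat_lit 220) (nat_lit 212) (nat_lit 168)))) (XT.nd (nat_lit 156) (nat_lit 0) (nat_lit 0) (XT.nd (nat_lit 78) (nat_lit 152) (nat_lit 0) (XT.lf (nat_lit 0) (nat_lit 10185045308) (nat_lit 152) (nat_lit 4529976730) (nat_lit 76) (nat_lit 31883984263) (nat_lit 8) (nat_lit 5) (nat_lit 10) (nat_lit 5) (nat_lit 9) (nat_lit 5) (nat_lit 221) (nat_lit 212) (nat_lit 167)) (XT.lf (nat_lit 0) (nat_lit 14422463471) (nat_lit 152) (nat_lit 1580574727) (nat_lit 228) (nat_lit 35343781780) (nat_lit 6) (nat_lit 5) (nat_lit 8) (nat_lit 5) (nat_lit 9) (nat_lit 5) (nat_lit 222) (nat_lit 212) (nat_lit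 166))) (XT.nd (nat_lit 78) (nat_lit 0) (nat_lit 0) (XT.lf (nat_lit 0) (nat_lit 23495077446) (nat_lit 228) (nat_lit 20625307565) (nat_lit 76) (nat_lit 12566310901) (nat_lit 6) (nat_lit 5) (nat_lit 9) (nat_lit 5) (nat_lit 7) (nat_lit 4) (nat_lit 223) (nat_lit 212) (nat_lit 165)) (XT.lf (nat_lit 0) (nat_lit 32180340764) (nat_lit 228) (nat_lit 1965032616) (nat_lit 76) (nat_lit 28671847411) (nat_lit 6) (nat_lit 5) (nat_lit 9) (nat_lit 5) (nat_lit 7) (nat_lit 4) (nat_lit 224) (nat_lit 212) (nat_lit 164))))))) (XT.nd (nat_lit 1014) (nat_lit 76) (nat_lit 0) (XT.nd (nat_lit 468) (nat_lit 76) (nat_lit 0) (XT.nd (nat_lit 234) (nat_lit 152) (nat_lit 0) (XT.nd (nat_lit 78) (nat_lit 0) (nat_lit 0) (XT.lf (nat_lit 0) (nat_lit 21391421138) (nat_lit 76) (nat_lit 21657660982) (nat_lit 152) (nat_lit 26686208809) (nat_lit 5) (nat_lit 5) (nat_lit 6) (nat_lit 5) (nat_lit 7) (nat_lit 4) (nat_lit 225) (nat_lit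 212) (nat_lit 163)) (XT.nd (nat_lit 78) (nat_lit 0) (nat_lit 0) (XT.lf (nat_lit 0) (nat_lit 48465241823) (nat_lit 76) (nat_lit 7180901550) (nat_lit 152) (nat_lit 22030287614) (nat_lit 5) (nat_lit 5) (nat_lit 6) (nat_lit 5) (nat_lit 7) (nat_lit 4) (nat_lit 226) (nat_lit 212) (nat_lit 162)) (XT.lf (nat_lit 0) (nat_lit 70520612300) (nat_lit 152) (nat_lit 7607254898) (nat_lit 0) (nat_lit 8622750368) (nat_lit 5) (nat_lit 5) (nat_lit 7) (nat_lit 4) (nat_lit 5) (nat_lit 4) (nat_lit 227) (nat_lit 212) (nat_lit 161)))) (XT.nd (nat_lit 78) (nat_lit 76) (nat_lit 0) (XT.lf (nat_lit 0) (nat_lit 18540131885) (nat_lit 76) (nat_lit 70192144095) (nat_lit 76) (nat_lit 8287798390) (nat_lit 4) (nat_lit 4) (nat_lit 5) (nat_lit 5) (nat_lit 5) (nat_lit 4) (nat_lit 228) (nat_lit 212) (nat_lit 160)) (XT.nd (nat_lit 78) (nat_lit 0) (nat_lit 0) (XT.lf (nat_lit 0) (nat_lit 1183451428) (nat_lit 152) (nat_lit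 59365563198) (nat_lit 76) (nat_lit 48213765912) (nat_lit 3) (nat_lit 5) (nat_lit 5) (nat_lit 5) (nat_lit 4) (nat_lit 4) (nat_lit 229) (nat_lit 212) (nat_lit 159)) (XT.lf (nat_lit 0) (nat_lit 11223761003) (nat_lit 152) (nat_lit 37783800275) (nat_lit 76) (nat_lit 73200630226) (nat_lit 3) (nat_lit 5) (nat_lit 5) (nat_lit 5) (nat_lit 4) (nat_lit 4) (nat_lit 230) (nat_lit 212) (nat_lit 158))))) (XT.nd (nat_lit 234) (nat_lit 0) (nat_lit 0) (XT.nd (nat_lit 78) (nat_lit 76) (nat_lit 0) (XT.lf (nat_lit 0) (nat_lit 22767408298) (nat_lit 152) (nat_lit 12969221777) (nat_lit 76) (nat_lit 101934216592) (nat_lit 3) (nat_lit 5) (nat_lit 5) (nat_lit 5) (nat_lit 4) (nat_lit 4) (nat_lit 231) (nat_lit 212) (nat_lit 157)) (XT.nd (nat_lit 78) (nat_lit 0) (nat_lit 0) (XT.lf (nat_lit 0) (nat_lit 17084670421) (nat_lit 76) (nat_lit 19663016629) (nat_lit 152) (nat_lit 118599473221) (nat_lit 2) (nat_lit 5)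 (nat_lit 3) (nat_lit 5) (nat_lit 4) (nat_lit 4) (nat_lit 232) (nat_lit 212) (nat_lit 156)) (XT.lf (nat_lit 0) (nat_lit 53100517393) (nat_lit 76) (nat_lit 400225728) (nat_lit 152) (nat_lit 122072837311) (nat_lit 2) (nat_lit 5) (nat_lit 3) (nat_lit 5) (nat_lit 4) (nat_lit 4) (nat_lit 233) (nat_lit 212) (nat_lit 155)))) (XT.nd (nat_lit 156) (nat_lit 0) (nat_lit 0) (XT.nd (nat_lit 78) (nat_lit 0) (nat_lit 0) (XT.lf (nat_lit 0) (nat_lit 73665493170) (nat_lit 152) (nat_lit 105219387188) (nat_lit 0) (nat_lit 19814290183) (nat_lit 2) (nat_lit 5) (nat_lit 4) (nat_lit 4) (nat_lit 2) (nat_lit 4) (nat_lit 234) (nat_lit 212) (nat_lit 154)) (XT.lf (nat_lit 0) (nat_lit 96872303050) (nat_lit 152) (nat_lit 85399728513) (nat_lit 0) (nat_lit 43018980507) (nat_lit 2) (nat_lit 5) (nat_lit 4) (nat_lit 4) (nat_lit 2) (nat_lit 4) (nat_lit 235) (nat_lit 212) (nat_lit 153))) (XT.nd (nat_lit 78) (nat_lit 0)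 (nat_lit 0) (XT.lf (nat_lit 0) (nat_lit 123558646550) (nat_lit 152) (nat_lit 62609738592) (nat_lit 0) (nat_lit 69703480914) (nat_lit 2) (nat_lit 5) (nat_lit 4) (nat_lit 4) (nat_lit 2) (nat_lit 4) (nat_lit 236) (nat_lit 212) (nat_lit 152)) (XT.lf (nat_lit 0) (nat_lit 154246647782) (nat_lit 152) (nat_lit 36403526317) (nat_lit 0) (nat_lit 100389879456) (nat_lit 2) (nat_lit 5) (nat_lit 4) (nat_lit 4) (nat_lit 2) (nat_lit 4) (nat_lit 237) (nat_lit 212) (nat_lit 151)))))) (XT.nd (nat_lit 546) (nat_lit 0) (nat_lit 0) (XT.nd (nat_lit 234) (nat_lit 0) (nat_lit 0) (XT.nd (nat_lit 78) (nat_lit 76) (nat_lit 0) (XT.lf (nat_lit 0) (nat_lit 189536724161) (nat_lit 152) (nat_lit 6268361448) (nat_lit 0) (nat_lit 135678562191) (nat_lit 2) (nat_lit 5) (nat_lit 4) (nat_lit 4) (nat_lit 2) (nat_lit 4) (nat_lit 238) (nat_lit 212) (nat_lit 150)) (XT.nd (nat_lit 78) (nat_lit 0) (nat_lit 0) (XT.lf (nat_lit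 0) (nat_lit 31159380598) (nat_lit 76) (nat_lit 200250196607) (nat_lit 76) (nat_lit 146390822774) (nat_lit 1) (nat_lit 4) (nat_lit 2) (nat_lit 5) (nat_lit 2) (nat_lit 4) (nat_lit 239) (nat_lit 212) (nat_lit 149)) (XT.lf (nat_lit 0) (nat_lit 74904119446) (nat_lit 76) (nat_lit 204985984391) (nat_lit 76) (nat_lit 151125556764) (nat_lit 1) (nat_lit 4) (nat_lit 2) (nat_lit 5) (nat_lit 2) (nat_lit 4) (nat_lit 240) (nat_lit 212) (nat_lit 148)))) (XT.nd (nat_lit 156) (nat_lit 0) (nat_lit 0) (XT.nd (nat_lit 78) (nat_lit 0) (nat_lit 0) (XT.lf (nat_lit 0) (nat_lit 125209140554) (nat_lit 76) (nat_lit 210432770026) (nat_lit 76) (nat_lit 156571426056) (nat_lit 1) (nat_lit 4) (nat_lit 2) (nat_lit 5) (nat_lit 2) (nat_lit 4) (nat_lit 241) (nat_lit 212) (nat_lit 147)) (XT.lf (nat_lit 0) (nat_lit 183058672595) (nat_lit 76) (nat_lit 216697121058) (nat_lit 76) (nat_lit 162834980267) (nat_lit 1) (nat_lit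 4) (nat_lit 2) (nat_lit 5) (nat_lit 2) (nat_lit 4) (nat_lit 242) (nat_lit 212) (nat_lit 146))) (XT.nd (nat_lit 78) (nat_lit 0) (nat_lit 0) (XT.lf (nat_lit 0) (nat_lit 249584554239) (nat_lit 76) (nat_lit 223901600875) (nat_lit 76) (nat_lit 170038767198) (nat_lit 1) (nat_lit 4) (nat_lit 2) (nat_lit 5) (nat_lit 2) (nat_lit 4) (nat_lit 243) (nat_lit 212) (nat_lit 145)) (XT.lf (nat_lit 0) (nat_lit 326088378823) (nat_lit 76) (nat_lit 232187166692) (nat_lit 76) (nat_lit 178323730504) (nat_lit 1) (nat_lit 4) (nat_lit 2) (nat_lit 5) (nat_lit 2) (nat_lit 4) (nat_lit 244) (nat_lit 212) (nat_lit 144))))) (XT.nd (nat_lit 234) (nat_lit 0) (nat_lit 0) (XT.nd (nat_lit 78) (nat_lit 0) (nat_lit 0) (XT.lf (nat_lit 0) (nat_lit 414066960306) (nat_lit 76) (nat_lit 241715927406) (nat_lit 76) (nat_lit 187851967296) (nat_lit 1) (nat_lit 4) (nat_lit 2) (nat_lit 5) (nat_lit 2) (nat_lit 4) (nat_lit 245) (nat_lit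 212) (nat_lit 143)) (XT.nd (nat_lit 78) (nat_lit 0) (nat_lit 0) (XT.lf (nat_lit 0) (nat_lit 515241618761) (nat_lit 76) (nat_lit 252674315290) (nat_lit 76) (nat_lit 198809899596) (nat_lit 1) (nat_lit 4) (nat_lit 2) (nat_lit 5) (nat_lit 2) (nat_lit 4) (nat_lit 246) (nat_lit 212) (nat_lit 142)) (XT.lf (nat_lit 0) (nat_lit 631591858374) (nat_lit 76) (nat_lit 265276733587) (nat_lit 76) (nat_lit 211411921733) (nat_lit 1) (nat_lit 4) (nat_lit 2) (nat_lit 5) (nat_lit 2) (nat_lit 4) (nat_lit 247) (nat_lit 212) (nat_lit 141)))) (XT.nd (nat_lit 156) (nat_lit 0) (nat_lit 0) (XT.nd (nat_lit 78) (nat_lit 0) (nat_lit 0) (XT.lf (nat_lit 0) (nat_lit 765394096877) (nat_lit 76) (nat_lit 279769751350) (nat_lit 76) (nat_lit 225904595008) (nat_lit 1) (nat_lit 4) (nat_lit 2) (nat_lit 5) (nat_lit 2) (nat_lit 4) (nat_lit 248) (nat_lit 212) (nat_lit 140)) (XT.lf (nat_lit 0) (nat_lit 919266204155) (nat_lit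 76) (nat_lit 296436927622) (nat_lit 76) (nat_lit 242571471726) (nat_lit 1) (nat_lit 4) (nat_lit 2) (nat_lit 5) (nat_lit 2) (nat_lit 4) (nat_lit 249) (nat_lit 212) (nat_lit 139))) (XT.nd (nat_lit 78) (nat_lit 0) (nat_lit 0) (XT.lf (nat_lit 0) (nat_lit 1096218721436) (nat_lit 76) (nat_lit 315604359331) (nat_lit 76) (nat_lit 261738642953) (nat_lit 1) (nat_lit 4) (nat_lit 2) (nat_lit 5) (nat_lit 2) (nat_lit 4) (nat_lit 250) (nat_lit 212) (nat_lit 138)) (XT.lf (nat_lit 0) (nat_lit 1299713763188) (nat_lit 76) (nat_lit 337647061443) (nat_lit 76) (nat_lit 283781118559) (nat_lit 1) (nat_lit 4) (nat_lit 2) (nat_lit 5) (nat_lit 2) (nat_lit 4) (nat_lit 251) (nat_lit 212) (nat_lit 137))))))))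
noncomputable def xc40 : XT := (XT.nd (nat_lit 28626) (nat_lit 0) (nat_lit 0) (XT.nd (nat_lit 1014) (nat_lit 0) (nat_lit 0) (XT.nd (nat_lit 468) (nat_lit 0) (nat_lit 0) (XT.nd (nat_lit 234) (nat_lit 0) (nat_lit 0) (XT.nd (nat_lit 78) (nat_lit 0) (nat_lit 0) (XT.lf (nat_lit 0) (nat_lit 1533732754143) (nat_lit 76) (nat_lit 362996304219) (nat_lit 76) (nat_lit 309130164373) (nat_lit 1) (nat_lit 4) (nat_lit 2) (nat_lit 5) (nat_lit 2) (nat_lit 4) (nat_lit 252) (nat_lit 212) (nat_lit 136)) (XT.nd (nat_lit 78) (nat_lit 0) (nat_lit 0) (XT.lf (nat_lit 0) (nat_lit 1802854326731) (nat_lit 76) (nat_lit 392148051104) (nat_lit 76) (nat_lit 338281739987) (nat_lit 1) (nat_lit 4) (nat_lit 2) (nat_lit 5) (nat_lit 2) (nat_lit 4) (nat_lit 253) (nat_lit 212) (nat_lit 135)) (XT.lf (nat_lit 0) (nat_lit 2112343903025) (nat_lit 76) (nat_lit 425672662362) (nat_lit 76) (nat_lit 371806202314) (nat_lit 1) (nat_lit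 4) (nat_lit 2) (nat_lit 5) (nat_lit 2) (nat_lit 4) (nat_lit 254) (nat_lit 212) (nat_lit 134)))) (XT.nd (nat_lit 78) (nat_lit 0) (nat_lit 0) (XT.lf (nat_lit 0) (nat_lit 2468256713866) (nat_lit 76) (nat_lit 464226054302) (nat_lit 76) (nat_lit 410359464748) (nat_lit 1) (nat_lit 4) (nat_lit 2) (nat_lit 5) (nat_lit 2) (nat_lit 4) (nat_lit 255) (nat_lit 212) (nat_lit 133)) (XT.nd (nat_lit 78) (nat_lit 0) (nat_lit 0) (XT.lf (nat_lit 0) (nat_lit 2877556270770) (nat_lit 76) (nat_lit 508562532417) (nat_lit 76) (nat_lit 454695830250) (nat_lit 1) (nat_lit 4) (nat_lit 2) (nat_lit 5) (nat_lit 2) (nat_lit 4) (nat_lit 256) (nat_lit 212) (nat_lit 132)) (XT.lf (nat_lit 0) (nat_lit 3348250608545) (nat_lit 76) (nat_lit 559549549541) (nat_lit 76) (nat_lit 505682749449) (nat_lit 1) (nat_lit 4) (nat_lit 2) (nat_lit 5) (nat_lit 2) (nat_lit 4) (nat_lit 257) (nat_lit 212) (nat_lit 131))))) (XT.nd (nat_lit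 234) (nat_lit 0) (nat_lit 0) (XT.nd (nat_lit 78) (nat_lit 0) (nat_lit 0) (XT.lf (nat_lit 0) (nat_lit 3889548964236) (nat_lit 76) (nat_lit 618184677747) (nat_lit 76) (nat_lit 564317792503) (nat_lit 1) (nat_lit 4) (nat_lit 2) (nat_lit 5) (nat_lit 2) (nat_lit 4) (nat_lit 258) (nat_lit 212) (nat_lit 130)) (XT.nd (nat_lit 78) (nat_lit 0) (nat_lit 0) (XT.lf (nat_lit 0) (nat_lit 4512041957845) (nat_lit 76) (nat_lit 685615126065) (nat_lit 76) (nat_lit 631748166776) (nat_lit 1) (nat_lit 4) (nat_lit 2) (nat_lit 5) (nat_lit 2) (nat_lit 4) (nat_lit 259) (nat_lit 212) (nat_lit 129)) (XT.lf (nat_lit 0) (nat_lit 5227908800116) (nat_lit 76) (nat_lit 763160185876) (nat_lit 76) (nat_lit 709293162200) (nat_lit 1) (nat_lit 4) (nat_lit 2) (nat_lit 5) (nat_lit 2) (nat_lit 4) (nat_lit 260) (nat_lit 212) (nat_lit 128)))) (XT.nd (nat_lit 156) (nat_lit 0) (nat_lit 0) (XT.nd (nat_lit 78) (nat_lit 0) (nat_lit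 0) (XT.lf (nat_lit 0) (nat_lit 6051155581442) (nat_lit 76) (nat_lit 852337043133) (nat_lit 76) (nat_lit 798469963468) (nat_lit 1) (nat_lit 4) (nat_lit 2) (nat_lit 5) (nat_lit 2) (nat_lit 4) (nat_lit 261) (nat_lit 212) (nat_lit 127)) (XT.lf (nat_lit 0) (nat_lit 6997889304067) (nat_lit 76) (nat_lit 954890462434) (nat_lit 76) (nat_lit 901023334083) (nat_lit 1) (nat_lit 4) (nat_lit 2) (nat_lit 5) (nat_lit 2) (nat_lit 4) (nat_lit 262) (nat_lit 212) (nat_lit 126))) (XT.nd (nat_lit 78) (nat_lit 0) (nat_lit 0) (XT.lf (nat_lit 0) (nat_lit 8086633019084) (nat_lit 76) (nat_lit 1072826923721) (nat_lit 76) (nat_lit 1018959753035) (nat_lit 1) (nat_lit 4) (nat_lit 2) (nat_lit 5) (nat_lit 2) (nat_lit 4) (nat_lit 263) (nat_lit 212) (nat_lit 125)) (XT.lf (nat_lit 0) (nat_lit 9338688233962) (nat_lit 76) (nat_lit 1208453879499) (nat_lit 76) (nat_lit 1154586671999) (nat_lit 1) (nat_lit 4) (nat_lit 2)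 (nat_lit 5) (nat_lit 2) (nat_lit 4) (nat_lit 264) (nat_lit 212) (nat_lit 124)))))) (XT.nd (nat_lit 702) (nat_lit 0) (nat_lit 0) (XT.nd (nat_lit 234) (nat_lit 0) (nat_lit 0) (XT.nd (nat_lit 78) (nat_lit 0) (nat_lit 0) (XT.lf (nat_lit 0) (nat_lit 10778551681165) (nat_lit 76) (nat_lit 1364424900642) (nat_lit 76) (nat_lit 1310557661129) (nat_lit 1) (nat_lit 4) (nat_lit 2) (nat_lit 5) (nat_lit 2) (nat_lit 4) (nat_lit 265) (nat_lit 212) (nat_lit 123)) (XT.nd (nat_lit 78) (nat_lit 0) (nat_lit 0) (XT.lf (nat_lit 0) (nat_lit 12434394602053) (nat_lit 76) (nat_lit 1543791594083) (nat_lit 76) (nat_lit 1489924326735) (nat_lit 1) (nat_lit 4) (nat_lit 2) (nat_lit 5) (nat_lit 2) (nat_lit 4) (nat_lit 266) (nat_lit 212) (nat_lit 122)) (XT.lf (nat_lit 0) (nat_lit 14338613923337) (nat_lit 76) (nat_lit 1750063308175) (nat_lit 76) (nat_lit 1696196016621) (nat_lit 1) (nat_lit 4) (nat_lit 2) (nat_lit 5)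 (nat_lit 2) (nat_lit 4) (nat_lit 267) (nat_lit 212) (nat_lit 121)))) (XT.nd (nat_lit 78) (nat_lit 0) (nat_lit 0) (XT.lf (nat_lit 0) (nat_lit 16528466110001) (nat_lit 76) (nat_lit 1987275793844) (nat_lit 76) (nat_lit 1933408481241) (nat_lit 1) (nat_lit 4) (nat_lit 2) (nat_lit 5) (nat_lit 2) (nat_lit 4) (nat_lit 268) (nat_lit 212) (nat_lit 120)) (XT.nd (nat_lit 78) (nat_lit 0) (nat_lit 0) (XT.lf (nat_lit 0) (nat_lit 19046796096129) (nat_lit 76) (nat_lit 2260070164940) (nat_lit 76) (nat_lit 2206202834035) (nat_lit 1) (nat_lit 4) (nat_lit 2) (nat_lit 5) (nat_lit 2) (nat_lit 4) (nat_lit 269) (nat_lit 212) (nat_lit 119)) (XT.lf (nat_lit 0) (nat_lit 21942875555365) (nat_lit 76) (nat_lit 2573783702637) (nat_lit 76) (nat_lit 2519916355817) (nat_lit 1) (nat_lit 4) (nat_lit 2) (nat_lit 5) (nat_lit 2) (nat_lit 4) (nat_lit 270) (nat_lit 212) (nat_lit 118))))) (XT.nd (nat_lit 26598) (nat_lit 0)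 (nat_lit 836) (XT.nd (nat_lit 78) (nat_lit 0) (nat_lit 0) (XT.lf (nat_lit 0) (nat_lit 38573267718445) (nat_lit 76) (nat_lit 4375246537301) (nat_lit 76) (nat_lit 4321379145041) (nat_lit 1) (nat_lit 4) (nat_lit 2) (nat_lit 5) (nat_lit 2) (nat_lit 4) (nat_lit 274) (nat_lit 212) (nat_lit 114)) (XT.nd (nat_lit 26442) (nat_lit 0) (nat_lit 836) (XT.lf (nat_lit 0) (nat_lit 44398317837855) (nat_lit 76) (nat_lit 5006236567513) (nat_lit 76) (nat_lit 4952369167342) (nat_lit 1) (nat_lit 4) (nat_lit 2) (nat_lit 5) (nat_lit 2) (nat_lit 4) (nat_lit 275) (nat_lit 212) (nat_lit 113)) (XT.lf (nat_lit 0) (nat_lit 4565364863) (nat_lit 0) (nat_lit 4565364863) (nat_lit 228) (nat_lit 3590738788) (nat_lit 12) (nat_lit 5) (nat_lit 12) (nat_lit 3) (nat_lit 15) (nat_lit 3) (nat_lit 213) (nat_lit 213) (nat_lit 174)))) (XT.nd (nat_lit 156) (nat_lit 0) (nat_lit 0) (XT.nd (nat_lit 78) (nat_lit 0) (nat_lit 0) (XT.lf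 (nat_lit 0) (nat_lit 19748389812) (nat_lit 228) (nat_lit 6772009034) (nat_lit 304) (nat_lit 811574205) (nat_lit 12) (nat_lit 5) (nat_lit 15) (nat_lit 3) (nat_lit 16) (nat_lit 5) (nat_lit 214) (nat_lit 213) (nat_lit 173)) (XT.lf (nat_lit 76) (nat_lit 4121455141) (nat_lit 0) (nat_lit 17928337329) (nat_lit 304) (nat_lit 7366139507) (nat_lit 13) (nat_lit 5) (nat_lit 12) (nat_lit 5) (nat_lit 16) (nat_lit 5) (nat_lit 215) (nat_lit 213) (nat_lit 172))) (XT.nd (nat_lit 78) (nat_lit 0) (nat_lit 76) (XT.lf (nat_lit 76) (nat_lit 17400582233) (nat_lit 0) (nat_lit 7637228579) (nat_lit 304) (nat_lit 6723708715) (nat_lit 13) (nat_lit 5) (nat_lit 12) (nat_lit 5) (nat_lit 16) (nat_lit 5) (nat_lit 216) (nat_lit 213) (nat_lit 171)) (XT.lf (nat_lit 0) (nat_lit 28637012269) (nat_lit 228) (nat_lit 1971353942) (nat_lit 76) (nat_lit 3826345491) (nat_lit 13) (nat_lit 5) (nat_lit 16) (nat_lit 5) (nat_lit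 14) (nat_lit 5) (nat_lit 217) (nat_lit 213) (nat_lit 170))))))) (XT.nd (nat_lit 1014) (nat_lit 152) (nat_lit 0) (XT.nd (nat_lit 468) (nat_lit 228) (nat_lit 0) (XT.nd (nat_lit 234) (nat_lit 152) (nat_lit 0) (XT.nd (nat_lit 78) (nat_lit 152) (nat_lit 0) (XT.lf (nat_lit 0) (nat_lit 13067500182) (nat_lit 228) (nat_lit 20603950295) (nat_lit 304) (nat_lit 3703314439) (nat_lit 10) (nat_lit 5) (nat_lit 13) (nat_lit 5) (nat_lit 14) (nat_lit 5) (nat_lit 218) (nat_lit 213) (nat_lit 169)) (XT.nd (nat_lit 78) (nat_lit 152) (nat_lit 0) (XT.lf (nat_lit 0) (nat_lit 30575289517) (nat_lit 228) (nat_lit 8980273351) (nat_lit 304) (nat_lit 1186248449) (nat_lit 10) (nat_lit 5) (nat_lit 13) (nat_lit 5) (nat_lit 14) (nat_lit 5) (nat_lit 219) (nat_lit 213) (nat_lit 168)) (XT.lf (nat_lit 0) (nat_lit 2019880899) (nat_lit 152) (nat_lit 38157308240) (nat_lit 76) (nat_lit 4356697339) (nat_lit 8) (nat_lit 5) (nat_lit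 10) (nat_lit 5) (nat_lit 9) (nat_lit 5) (nat_lit 220) (nat_lit 213) (nat_lit 167)))) (XT.nd (nat_lit 78) (nat_lit 152) (nat_lit 0) (XT.lf (nat_lit 0) (nat_lit 6562621561) (nat_lit 152) (nat_lit 22789786600) (nat_lit 76) (nat_lit 19387426546) (nat_lit 8) (nat_lit 5) (nat_lit 10) (nat_lit 5) (nat_lit 9) (nat_lit 5) (nat_lit 221) (nat_lit 213) (nat_lit 166)) (XT.nd (nat_lit 78) (nat_lit 152) (nat_lit 0) (XT.lf (nat_lit 0) (nat_lit 11780487231) (nat_lit 152) (nat_lit 5124983494) (nat_lit 76) (nat_lit 36672239681) (nat_lit 8) (nat_lit 5) (nat_lit 10) (nat_lit 5) (nat_lit 9) (nat_lit 5) (nat_lit 222) (nat_lit 213) (nat_lit 165)) (XT.lf (nat_lit 0) (nat_lit 16666482294) (nat_lit 152) (nat_lit 1799207780) (nat_lit 228) (nat_lit 40572959067) (nat_lit 6) (nat_lit 5) (nat_lit 8) (nat_lit 5) (nat_lit 9) (nat_lit 5) (nat_lit 223) (nat_lit 213) (nat_lit 164))))) (XT.nd (nat_lit 234) (nat_lit 152)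 (nat_lit 0) (XT.nd (nat_lit 78) (nat_lit 76) (nat_lit 0) (XT.lf (nat_lit 0) (nat_lit 27074087109) (nat_lit 228) (nat_lit 23640774109) (nat_lit 76) (nat_lit 14465875213) (nat_lit 6) (nat_lit 5) (nat_lit 9) (nat_lit 5) (nat_lit 7) (nat_lit 4) (nat_lit 224) (nat_lit 213) (nat_lit 163)) (XT.nd (nat_lit 78) (nat_lit 76) (nat_lit 0) (XT.lf (nat_lit 0) (nat_lit 37054998875) (nat_lit 228) (nat_lit 2191674821) (nat_lit 76) (nat_lit 32985335546) (nat_lit 6) (nat_lit 5) (nat_lit 9) (nat_lit 5) (nat_lit 7) (nat_lit 4) (nat_lit 225) (nat_lit 213) (nat_lit 162)) (XT.lf (nat_lit 0) (nat_lit 24665150965) (nat_lit 76) (nat_lit 24885383062) (nat_lit 152) (nat_lit 30637868739) (nat_lit 5) (nat_lit 5) (nat_lit 6) (nat_lit 5) (nat_lit 7) (nat_lit 4) (nat_lit 226) (nat_lit 213) (nat_lit 161)))) (XT.nd (nat_lit 156) (nat_lit 152) (nat_lit 0) (XT.nd (nat_lit 78) (nat_lit 0) (nat_lit 0) (XT.lf (nat_lit 0)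 (nat_lit 55791564319) (nat_lit 76) (nat_lit 8239839333) (nat_lit 152) (nat_lit 25290246937) (nat_lit 5) (nat_lit 5) (nat_lit 6) (nat_lit 5) (nat_lit 7) (nat_lit 4) (nat_lit 227) (nat_lit 213) (nat_lit 160)) (XT.lf (nat_lit 0) (nat_lit 81132697441) (nat_lit 152) (nat_lit 8694405959) (nat_lit 0) (nat_lit 9930578042) (nat_lit 5) (nat_lit 5) (nat_lit 7) (nat_lit 4) (nat_lit 5) (nat_lit 4) (nat_lit 228) (nat_lit 213) (nat_lit 159))) (XT.nd (nat_lit 78) (nat_lit 76) (nat_lit 0) (XT.lf (nat_lit 0) (nat_lit 21372637152) (nat_lit 76) (nat_lit 80701171517) (nat_lit 76) (nat_lit 9494149454) (nat_lit 4) (nat_lit 4) (nat_lit 5) (nat_lit 5) (nat_lit 5) (nat_lit 4) (nat_lit 229) (nat_lit 213) (nat_lit 158)) (XT.lf (nat_lit 0) (nat_lit 1390135090) (nat_lit 152) (nat_lit 68222494805) (nat_lit 76) (nat_lit 55459910254) (nat_lit 3) (nat_lit 5) (nat_lit 5) (nat_lit 5) (nat_lit 4) (nat_lit 4) (nat_lit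 230) (nat_lit 213) (nat_lit 157)))))) (XT.nd (nat_lit 546) (nat_lit 76) (nat_lit 0) (XT.nd (nat_lit 234) (nat_lit 0) (nat_lit 0) (XT.nd (nat_lit 78) (nat_lit 76) (nat_lit 0) (XT.lf (nat_lit 0) (nat_lit 12932686847) (nat_lit 152) (nat_lit 43409715645) (nat_lit 76) (nat_lit 84192967765) (nat_lit 3) (nat_lit 5) (nat_lit 5) (nat_lit 5) (nat_lit 4) (nat_lit 4) (nat_lit 231) (nat_lit 213) (nat_lit 156)) (XT.nd (nat_lit 78) (nat_lit 76) (nat_lit 0) (XT.lf (nat_lit 0) (nat_lit 26204573190) (nat_lit 152) (nat_lit 14878383590) (nat_lit 76) (nat_lit 117234995172) (nat_lit 3) (nat_lit 5) (nat_lit 5) (nat_lit 5) (nat_lit 4) (nat_lit 4) (nat_lit 232) (nat_lit 213) (nat_lit 155)) (XT.lf (nat_lit 0) (nat_lit 19681946009) (nat_lit 76) (nat_lit 22598502861) (nat_lit 152) (nat_lit 136365508328) (nat_lit 2) (nat_lit 5) (nat_lit 3) (nat_lit 5) (nat_lit 4) (nat_lit 4) (nat_lit 233) (nat_lit 213) (nat_lit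 154)))) (XT.nd (nat_lit 156) (nat_lit 0) (nat_lit 0) (XT.nd (nat_lit 78) (nat_lit 0) (nat_lit 0) (XT.lf (nat_lit 0) (nat_lit 61095660241) (nat_lit 76) (nat_lit 448115012) (nat_lit 152) (nat_lit 140362992581) (nat_lit 2) (nat_lit 5) (nat_lit 3) (nat_lit 5) (nat_lit 4) (nat_lit 4) (nat_lit 234) (nat_lit 213) (nat_lit 153)) (XT.lf (nat_lit 0) (nat_lit 84731337618) (nat_lit 152) (nat_lit 120974110899) (nat_lit 0) (nat_lit 22796054043) (nat_lit 2) (nat_lit 5) (nat_lit 4) (nat_lit 4) (nat_lit 2) (nat_lit 4) (nat_lit 235) (nat_lit 213) (nat_lit 152))) (XT.nd (nat_lit 78) (nat_lit 0) (nat_lit 0) (XT.lf (nat_lit 0) (nat_lit 111417079354) (nat_lit 152) (nat_lit 98185179645) (nat_lit 0) (nat_lit 49480193089) (nat_lit 2) (nat_lit 5) (nat_lit 4) (nat_lit 4) (nat_lit 2) (nat_lit 4) (nat_lit 236) (nat_lit 213) (nat_lit 151)) (XT.lf (nat_lit 0) (nat_lit 142104557312) (nat_lit 152) (nat_lit 71979887950)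 (nat_lit 0) (nat_lit 80166277404) (nat_lit 2) (nat_lit 5) (nat_lit 4) (nat_lit 4) (nat_lit 2) (nat_lit 4) (nat_lit 237) (nat_lit 213) (nat_lit 150))))) (XT.nd (nat_lit 234) (nat_lit 0) (nat_lit 0) (XT.nd (nat_lit 78) (nat_lit 76) (nat_lit 0) (XT.lf (nat_lit 0) (nat_lit 177394178670) (nat_lit 152) (nat_lit 41845523586) (nat_lit 0) (nat_lit 115454686899) (nat_lit 2) (nat_lit 5) (nat_lit 4) (nat_lit 4) (nat_lit 2) (nat_lit 4) (nat_lit 238) (nat_lit 213) (nat_lit 149)) (XT.nd (nat_lit 78) (nat_lit 76) (nat_lit 0) (XT.lf (nat_lit 0) (nat_lit 217976392542) (nat_lit 152) (nat_lit 7192501162) (nat_lit 0) (nat_lit 156035846976) (nat_lit 2) (nat_lit 5) (nat_lit 4) (nat_lit 4) (nat_lit 2) (nat_lit 4) (nat_lit 239) (nat_lit 213) (nat_lit 148)) (XT.lf (nat_lit 0) (nat_lit 35848669713) (nat_lit 76) (nat_lit 230280946016) (nat_lit 76) (nat_lit 168339484107) (nat_lit 1) (nat_lit 4) (nat_lit 2) (nat_lit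 5) (nat_lit 2) (nat_lit 4) (nat_lit 240) (nat_lit 213) (nat_lit 147)))) (XT.nd (nat_lit 156) (nat_lit 0) (nat_lit 0) (XT.nd (nat_lit 78) (nat_lit 0) (nat_lit 0) (XT.lf (nat_lit 0) (nat_lit 86153113038) (nat_lit 76) (nat_lit 235727986326) (nat_lit 76) (nat_lit 173785727597) (nat_lit 1) (nat_lit 4) (nat_lit 2) (nat_lit 5) (nat_lit 2) (nat_lit 4) (nat_lit 241) (nat_lit 213) (nat_lit 146)) (XT.lf (nat_lit 0) (nat_lit 144002142659) (nat_lit 76) (nat_lit 241992558814) (nat_lit 76) (nat_lit 180049607198) (nat_lit 1) (nat_lit 4) (nat_lit 2) (nat_lit 5) (nat_lit 2) (nat_lit 4) (nat_lit 242) (nat_lit 213) (nat_lit 145))) (XT.nd (nat_lit 78) (nat_lit 0) (nat_lit 0) (XT.lf (nat_lit 0) (nat_lit 210527587416) (nat_lit 76) (nat_lit 249197231202) (nat_lit 76) (nat_lit 187253677076) (nat_lit 1) (nat_lit 4) (nat_lit 2) (nat_lit 5) (nat_lit 2) (nat_lit 4) (nat_lit 243) (nat_lit 213) (nat_lit 144))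 (XT.lf (nat_lit 0) (nat_lit 287031032098) (nat_lit 76) (nat_lit 257482964472) (nat_lit 76) (nat_lit 195538886424) (nat_lit 1) (nat_lit 4) (nat_lit 2) (nat_lit 5) (nat_lit 2) (nat_lit 4) (nat_lit 244) (nat_lit 213) (nat_lit 143))))))))
noncomputable def xc41 : XT := (XT.nd (nat_lit 28860) (nat_lit 0) (nat_lit 76) (XT.nd (nat_lit 1014) (nat_lit 0) (nat_lit 0) (XT.nd (nat_lit 468) (nat_lit 0) (nat_lit 0) (XT.nd (nat_lit 234) (nat_lit 0) (nat_lit 0) (XT.nd (nat_lit 78) (nat_lit 0) (nat_lit 0) (XT.lf (nat_lit 0) (nat_lit 375009283232) (nat_lit 76) (nat_lit 267011870797) (nat_lit 76) (nat_lit 205067337164) (nat_lit 1) (nat_lit 4) (nat_lit 2) (nat_lit 5) (nat_lit 2) (nat_lit 4) (nat_lit 245) (nat_lit 213) (nat_lit 142)) (XT.nd (nat_lit 78) (nat_lit 0) (nat_lit 0) (XT.lf (nat_lit 0) (nat_lit 476183654426) (nat_lit 76) (nat_lit 277970385300) (nat_lit 76) (nat_lit 216025455507) (nat_lit 1)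 (nat_lit 4) (nat_lit 2) (nat_lit 5) (nat_lit 2) (nat_lit 4) (nat_lit 246) (nat_lit 213) (nat_lit 141)) (XT.lf (nat_lit 0) (nat_lit 592533644248) (nat_lit 76) (nat_lit 290572913700) (nat_lit 76) (nat_lit 228627639419) (nat_lit 1) (nat_lit 4) (nat_lit 2) (nat_lit 5) (nat_lit 2) (nat_lit 4) (nat_lit 247) (nat_lit 213) (nat_lit 140)))) (XT.nd (nat_lit 78) (nat_lit 0) (nat_lit 0) (XT.lf (nat_lit 0) (nat_lit 726335665541) (nat_lit 76) (nat_lit 305066027205) (nat_lit 76) (nat_lit 243120453370) (nat_lit 1) (nat_lit 4) (nat_lit 2) (nat_lit 5) (nat_lit 2) (nat_lit 4) (nat_lit 248) (nat_lit 213) (nat_lit 139)) (XT.nd (nat_lit 78) (nat_lit 0) (nat_lit 0) (XT.lf (nat_lit 0) (nat_lit 880207583941) (nat_lit 76) (nat_lit 321733286730) (nat_lit 76) (nat_lit 259787452414) (nat_lit 1) (nat_lit 4) (nat_lit 2) (nat_lit 5) (nat_lit 2) (nat_lit 4) (nat_lit 249) (nat_lit 213) (nat_lit 138)) (XT.lf (nat_lit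 0) (nat_lit 1057159936980) (nat_lit 76) (nat_lit 340900790833) (nat_lit 76) (nat_lit 278954730010) (nat_lit 1) (nat_lit 4) (nat_lit 2) (nat_lit 5) (nat_lit 2) (nat_lit 4) (nat_lit 250) (nat_lit 213) (nat_lit 137))))) (XT.nd (nat_lit 234) (nat_lit 0) (nat_lit 0) (XT.nd (nat_lit 78) (nat_lit 0) (nat_lit 0) (XT.lf (nat_lit 0) (nat_lit 1260654835913) (nat_lit 76) (nat_lit 362943555898) (nat_lit 76) (nat_lit 300997298113) (nat_lit 1) (nat_lit 4) (nat_lit 2) (nat_lit 5) (nat_lit 2) (nat_lit 4) (nat_lit 251) (nat_lit 213) (nat_lit 136)) (XT.nd (nat_lit 78) (nat_lit 0) (nat_lit 0) (XT.lf (nat_lit 0) (nat_lit 1494673702677) (nat_lit 76) (nat_lit 388292853414) (nat_lit 76) (nat_lit 326346424359) (nat_lit 1) (nat_lit 4) (nat_lit 2) (nat_lit 5) (nat_lit 2) (nat_lit 4) (nat_lit 252) (nat_lit 213) (nat_lit 135)) (XT.lf (nat_lit 0) (nat_lit 1763795167274) (nat_lit 76) (nat_lit 417444647899) (nat_lit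 76) (nat_lit 355498069912) (nat_lit 1) (nat_lit 4) (nat_lit 2) (nat_lit 5) (nat_lit 2) (nat_lit 4) (nat_lit 253) (nat_lit 213) (nat_lit 134)))) (XT.nd (nat_lit 156) (nat_lit 0) (nat_lit 0) (XT.nd (nat_lit 78) (nat_lit 0) (nat_lit 0) (XT.lf (nat_lit 0) (nat_lit 2073284649662) (nat_lit 76) (nat_lit 450969300550) (nat_lit 76) (nat_lit 389022593057) (nat_lit 1) (nat_lit 4) (nat_lit 2) (nat_lit 5) (nat_lit 2) (nat_lit 4) (nat_lit 254) (nat_lit 213) (nat_lit 133)) (XT.lf (nat_lit 0) (nat_lit 2429197378845) (nat_lit 76) (nat_lit 489522728482) (nat_lit 76) (nat_lit 427575908376) (nat_lit 1) (nat_lit 4) (nat_lit 2) (nat_lit 5) (nat_lit 2) (nat_lit 4) (nat_lit 255) (nat_lit 213) (nat_lit 132))) (XT.nd (nat_lit 78) (nat_lit 0) (nat_lit 0) (XT.lf (nat_lit 0) (nat_lit 2838496864743) (nat_lit 76) (nat_lit 533859237895) (nat_lit 76) (nat_lit 471912319865) (nat_lit 1) (nat_lit 4) (nat_lit 2) (nat_lit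 5) (nat_lit 2) (nat_lit 4) (nat_lit 256) (nat_lit 213) (nat_lit 131)) (XT.lf (nat_lit 0) (nat_lit 3309191140774) (nat_lit 76) (nat_lit 584846282235) (nat_lit 76) (nat_lit 522899279052) (nat_lit 1) (nat_lit 4) (nat_lit 2) (nat_lit 5) (nat_lit 2) (nat_lit 4) (nat_lit 257) (nat_lit 213) (nat_lit 130)))))) (XT.nd (nat_lit 624) (nat_lit 0) (nat_lit 0) (XT.nd (nat_lit 234) (nat_lit 0) (nat_lit 0) (XT.nd (nat_lit 78) (nat_lit 0) (nat_lit 0) (XT.lf (nat_lit 0) (nat_lit 3850489442773) (nat_lit 76) (nat_lit 643481434107) (nat_lit 76) (nat_lit 581534356879) (nat_lit 1) (nat_lit 4) (nat_lit 2) (nat_lit 5) (nat_lit 2) (nat_lit 4) (nat_lit 258) (nat_lit 213) (nat_lit 129)) (XT.nd (nat_lit 78) (nat_lit 0) (nat_lit 0) (XT.lf (nat_lit 0) (nat_lit 4472982389694) (nat_lit 76) (nat_lit 710911903004) (nat_lit 76) (nat_lit 648964761389) (nat_lit 1) (nat_lit 4) (nat_lit 2) (nat_lit 5) (nat_lit 2) (nat_lit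 4) (nat_lit 259) (nat_lit 213) (nat_lit 128)) (XT.lf (nat_lit 0) (nat_lit 5188849191368) (nat_lit 76) (nat_lit 788456980710) (nat_lit 76) (nat_lit 726509783106) (nat_lit 1) (nat_lit 4) (nat_lit 2) (nat_lit 5) (nat_lit 2) (nat_lit 4) (nat_lit 260) (nat_lit 213) (nat_lit 127)))) (XT.nd (nat_lit 156) (nat_lit 0) (nat_lit 0) (XT.nd (nat_lit 78) (nat_lit 0) (nat_lit 0) (XT.lf (nat_lit 0) (nat_lit 6012095937391) (nat_lit 76) (nat_lit 877633853527) (nat_lit 76) (nat_lit 815686607238) (nat_lit 1) (nat_lit 4) (nat_lit 2) (nat_lit 5) (nat_lit 2) (nat_lit 4) (nat_lit 261) (nat_lit 213) (nat_lit 126)) (XT.lf (nat_lit 0) (nat_lit 6958829629317) (nat_lit 76) (nat_lit 980187286359) (nat_lit 76) (nat_lit 918239997734) (nat_lit 1) (nat_lit 4) (nat_lit 2) (nat_lit 5) (nat_lit 2) (nat_lit 4) (nat_lit 262) (nat_lit 213) (nat_lit 125))) (XT.nd (nat_lit 78) (nat_lit 0) (nat_lit 0) (XT.lf (nat_lit 0) (nat_lit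 8047573317641) (nat_lit 76) (nat_lit 1098123759413) (nat_lit 76) (nat_lit 1036176433974) (nat_lit 1) (nat_lit 4) (nat_lit 2) (nat_lit 5) (nat_lit 2) (nat_lit 4) (nat_lit 263) (nat_lit 213) (nat_lit 124)) (XT.lf (nat_lit 0) (nat_lit 9299628509306) (nat_lit 76) (nat_lit 1233750725422) (nat_lit 76) (nat_lit 1171803367972) (nat_lit 1) (nat_lit 4) (nat_lit 2) (nat_lit 5) (nat_lit 2) (nat_lit 4) (nat_lit 264) (nat_lit 213) (nat_lit 123))))) (XT.nd (nat_lit 234) (nat_lit 0) (nat_lit 0) (XT.nd (nat_lit 78) (nat_lit 0) (nat_lit 0) (XT.lf (nat_lit 0) (nat_lit 12395334839661) (nat_lit 76) (nat_lit 1569088456640) (nat_lit 76) (nat_lit 1507141047147) (nat_lit 1) (nat_lit 4) (nat_lit 2) (nat_lit 5) (nat_lit 2) (nat_lit 4) (nat_lit 266) (nat_lit 213) (nat_lit 121)) (XT.nd (nat_lit 78) (nat_lit 0) (nat_lit 0) (XT.lf (nat_lit 0) (nat_lit 14299554145684) (nat_lit 76) (nat_lit 1775360177458) (nat_lit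 76) (nat_lit 1713412746918) (nat_lit 1) (nat_lit 4) (nat_lit 2) (nat_lit 5) (nat_lit 2) (nat_lit 4) (nat_lit 267) (nat_lit 213) (nat_lit 120)) (XT.lf (nat_lit 0) (nat_lit 16489406319075) (nat_lit 76) (nat_lit 2012572668977) (nat_lit 76) (nat_lit 1950625220133) (nat_lit 1) (nat_lit 4) (nat_lit 2) (nat_lit 5) (nat_lit 2) (nat_lit 4) (nat_lit 268) (nat_lit 213) (nat_lit 119)))) (XT.nd (nat_lit 390) (nat_lit 0) (nat_lit 0) (XT.nd (nat_lit 312) (nat_lit 0) (nat_lit 0) (XT.lf (nat_lit 0) (nat_lit 19007736293664) (nat_lit 76) (nat_lit 2285367045160) (nat_lit 76) (nat_lit 2223419580401) (nat_lit 1) (nat_lit 4) (nat_lit 2) (nat_lit 5) (nat_lit 2) (nat_lit 4) (nat_lit 269) (nat_lit 213) (nat_lit 118)) (XT.lf (nat_lit 0) (nat_lit 33468946898905) (nat_lit 76) (nat_lit 3851856453978) (nat_lit 76) (nat_lit 3789908943780) (nat_lit 1) (nat_lit 4) (nat_lit 2) (nat_lit 5) (nat_lit 2) (nat_lit 4) (nat_lit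 273) (nat_lit 213) (nat_lit 114))) (XT.nd (nat_lit 78) (nat_lit 0) (nat_lit 0) (XT.lf (nat_lit 0) (nat_lit 38534207877294) (nat_lit 76) (nat_lit 4400543434573) (nat_lit 76) (nat_lit 4338595916462) (nat_lit 1) (nat_lit 4) (nat_lit 2) (nat_lit 5) (nat_lit 2) (nat_lit 4) (nat_lit 274) (nat_lit 213) (nat_lit 113)) (XT.lf (nat_lit 0) (nat_lit 44359257991714) (nat_lit 76) (nat_lit 5031533466985) (nat_lit 76) (nat_lit 4969585941994) (nat_lit 1) (nat_lit 4) (nat_lit 2) (nat_lit 5) (nat_lit 2) (nat_lit 4) (nat_lit 275) (nat_lit 213) (nat_lit 112))))))) (XT.nd (nat_lit 1014) (nat_lit 304) (nat_lit 0) (XT.nd (nat_lit 468) (nat_lit 304) (nat_lit 0) (XT.nd (nat_lit 234) (nat_lit 152) (nat_lit 0) (XT.nd (nat_lit 78) (nat_lit 0) (nat_lit 0) (XT.lf (nat_lit 0) (nat_lit 5288719932) (nat_lit 0) (nat_lit 5288719932) (nat_lit 228) (nat_lit 4039163381) (nat_lit 12) (nat_lit 5) (nat_lit 12) (nat_lit 3)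 (nat_lit 15) (nat_lit 3) (nat_lit 214) (nat_lit 214) (nat_lit 172)) (XT.nd (nat_lit 78) (nat_lit 0) (nat_lit 0) (XT.lf (nat_lit 0) (nat_lit 22841960267) (nat_lit 228) (nat_lit 7695232697) (nat_lit 304) (nat_lit 872234994) (nat_lit 12) (nat_lit 5) (nat_lit 15) (nat_lit 3) (nat_lit 16) (nat_lit 5) (nat_lit 215) (nat_lit 214) (nat_lit 171)) (XT.lf (nat_lit 76) (nat_lit 4828043027) (nat_lit 0) (nat_lit 20647061844) (nat_lit 304) (nat_lit 8333241023) (nat_lit 13) (nat_lit 5) (nat_lit 12) (nat_lit 5) (nat_lit 16) (nat_lit 5) (nat_lit 216) (nat_lit 214) (nat_lit 170)))) (XT.nd (nat_lit 78) (nat_lit 152) (nat_lit 0) (XT.lf (nat_lit 76) (nat_lit 20087512711) (nat_lit 0) (nat_lit 8808442358) (nat_lit 304) (nat_lit 7612422057) (nat_lit 13) (nat_lit 5) (nat_lit 12) (nat_lit 5) (nat_lit 16) (nat_lit 5) (nat_lit 217) (nat_lit 214) (nat_lit 169)) (XT.nd (nat_lit 78) (nat_lit 228) (nat_lit 0) (XT.lf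 (nat_lit 0) (nat_lit 33020747913) (nat_lit 228) (nat_lit 2184209437) (nat_lit 76) (nat_lit 4379994899) (nat_lit 13) (nat_lit 5) (nat_lit 16) (nat_lit 5) (nat_lit 14) (nat_lit 5) (nat_lit 218) (nat_lit 214) (nat_lit 168)) (XT.lf (nat_lit 0) (nat_lit 15106707006) (nat_lit 228) (nat_lit 23695417219) (nat_lit 304) (nat_lit 4165350143) (nat_lit 10) (nat_lit 5) (nat_lit 13) (nat_lit 5) (nat_lit 14) (nat_lit 5) (nat_lit 219) (nat_lit 214) (nat_lit 167))))) (XT.nd (nat_lit 234) (nat_lit 152) (nat_lit 0) (XT.nd (nat_lit 78) (nat_lit 152) (nat_lit 0) (XT.lf (nat_lit 0) (nat_lit 35230349724) (nat_lit 228) (nat_lit 10328074684) (nat_lit 304) (nat_lit 1282914879) (nat_lit 10) (nat_lit 5) (nat_lit 13) (nat_lit 5) (nat_lit 14) (nat_lit 5) (nat_lit 220) (nat_lit 214) (nat_lit 166)) (XT.nd (nat_lit 78) (nat_lit 0) (nat_lit 0) (XT.lf (nat_lit 0) (nat_lit 2390548159) (nat_lit 152) (nat_lit 43796414730)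 (nat_lit 76) (nat_lit 5015859719) (nat_lit 8) (nat_lit 5) (nat_lit 10) (nat_lit 5) (nat_lit 9) (nat_lit 5) (nat_lit 221) (nat_lit 214) (nat_lit 165)) (XT.lf (nat_lit 0) (nat_lit 7605871426) (nat_lit 152) (nat_lit 26134785246) (nat_lit 76) (nat_lit 22300460336) (nat_lit 8) (nat_lit 5) (nat_lit 10) (nat_lit 5) (nat_lit 9) (nat_lit 5) (nat_lit 222) (nat_lit 214) (nat_lit 164)))) (XT.nd (nat_lit 156) (nat_lit 0) (nat_lit 0) (XT.nd (nat_lit 78) (nat_lit 152) (nat_lit 0) (XT.lf (nat_lit 0) (nat_lit 13598739995) (nat_lit 152) (nat_lit 5829844632) (nat_lit 76) (nat_lit 42177353727) (nat_lit 8) (nat_lit 5) (nat_lit 10) (nat_lit 5) (nat_lit 9) (nat_lit 5) (nat_lit 223) (nat_lit 214) (nat_lit 163)) (XT.lf (nat_lit 0) (nat_lit 19227437098) (nat_lit 152) (nat_lit 2055135711) (nat_lit 228) (nat_lit 46604165703) (nat_lit 6) (nat_lit 5) (nat_lit 8) (nat_lit 5) (nat_lit 9) (nat_lit 5) (nat_lit 224)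 (nat_lit 214) (nat_lit 162))) (XT.nd (nat_lit 78) (nat_lit 0) (nat_lit 0) (XT.lf (nat_lit 0) (nat_lit 31176597564) (nat_lit 228) (nat_lit 27127661802) (nat_lit 76) (nat_lit 16646809559) (nat_lit 6) (nat_lit 5) (nat_lit 9) (nat_lit 5) (nat_lit 7) (nat_lit 4) (nat_lit 225) (nat_lit 214) (nat_lit 161)) (XT.lf (nat_lit 0) (nat_lit 42649246436) (nat_lit 228) (nat_lit 2468923067) (nat_lit 76) (nat_lit 37942747238) (nat_lit 6) (nat_lit 5) (nat_lit 9) (nat_lit 5) (nat_lit 7) (nat_lit 4) (nat_lit 226) (nat_lit 214) (nat_lit 160)))))) (XT.nd (nat_lit 546) (nat_lit 76) (nat_lit 0) (XT.nd (nat_lit 234) (nat_lit 152) (nat_lit 0) (XT.nd (nat_lit 78) (nat_lit 0) (nat_lit 0) (XT.lf (nat_lit 0) (nat_lit 28414085543) (nat_lit 76) (nat_lit 28602366652) (nat_lit 152) (nat_lit 35194780512) (nat_lit 5) (nat_lit 5) (nat_lit 6) (nat_lit 5) (nat_lit 7) (nat_lit 4) (nat_lit 227) (nat_lit 214) (nat_lit 159))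 (XT.nd (nat_lit 78) (nat_lit 0) (nat_lit 0) (XT.lf (nat_lit 0) (nat_lit 64203048474) (nat_lit 76) (nat_lit 9462055347) (nat_lit 152) (nat_lit 29050072206) (nat_lit 5) (nat_lit 5) (nat_lit 6) (nat_lit 5) (nat_lit 7) (nat_lit 4) (nat_lit 228) (nat_lit 214) (nat_lit 158)) (XT.lf (nat_lit 0) (nat_lit 93328305873) (nat_lit 152) (nat_lit 9957782599) (nat_lit 0) (nat_lit 11431064650) (nat_lit 5) (nat_lit 5) (nat_lit 7) (nat_lit 4) (nat_lit 5) (nat_lit 4) (nat_lit 229) (nat_lit 214) (nat_lit 157)))) (XT.nd (nat_lit 156) (nat_lit 0) (nat_lit 0) (XT.nd (nat_lit 78) (nat_lit 76) (nat_lit 0) (XT.lf (nat_lit 0) (nat_lit 24617463149) (nat_lit 76) (nat_lit 92791379991) (nat_lit 76) (nat_lit 10890431649) (nat_lit 4) (nat_lit 4) (nat_lit 5) (nat_lit 5) (nat_lit 5) (nat_lit 4) (nat_lit 230) (nat_lit 214) (nat_lit 156)) (XT.lf (nat_lit 0) (nat_lit 1620709000) (nat_lit 152) (nat_lit 78419647572) (nat_lit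 76) (nat_lit 63789542884) (nat_lit 3) (nat_lit 5) (nat_lit 5) (nat_lit 5) (nat_lit 4) (nat_lit 4) (nat_lit 231) (nat_lit 214) (nat_lit 155))) (XT.nd (nat_lit 78) (nat_lit 0) (nat_lit 0) (XT.lf (nat_lit 0) (nat_lit 14891766959) (nat_lit 152) (nat_lit 49889676075) (nat_lit 76) (nat_lit 96831170400) (nat_lit 3) (nat_lit 5) (nat_lit 5) (nat_lit 5) (nat_lit 4) (nat_lit 4) (nat_lit 232) (nat_lit 214) (nat_lit 154)) (XT.lf (nat_lit 0) (nat_lit 30151934893) (nat_lit 152) (nat_lit 17082752506) (nat_lit 76) (nat_lit 134828294422) (nat_lit 3) (nat_lit 5) (nat_lit 5) (nat_lit 5) (nat_lit 4) (nat_lit 4) (nat_lit 233) (nat_lit 214) (nat_lit 153))))) (XT.nd (nat_lit 234) (nat_lit 0) (nat_lit 0) (XT.nd (nat_lit 78) (nat_lit 0) (nat_lit 0) (XT.lf (nat_lit 0) (nat_lit 22660381596) (nat_lit 76) (nat_lit 25977717790) (nat_lit 152) (nat_lit 156802273424) (nat_lit 2) (nat_lit 5) (nat_lit 3) (nat_lit 5)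 (nat_lit 4) (nat_lit 4) (nat_lit 234) (nat_lit 214) (nat_lit 152)) (XT.nd (nat_lit 78) (nat_lit 0) (nat_lit 0) (XT.lf (nat_lit 0) (nat_lit 70282742917) (nat_lit 76) (nat_lit 506149220) (nat_lit 152) (nat_lit 161401736118) (nat_lit 2) (nat_lit 5) (nat_lit 3) (nat_lit 5) (nat_lit 4) (nat_lit 4) (nat_lit 235) (nat_lit 214) (nat_lit 151)) (XT.lf (nat_lit 0) (nat_lit 97453152040) (nat_lit 152) (nat_lit 139098916104) (nat_lit 0) (nat_lit 26222736502) (nat_lit 2) (nat_lit 5) (nat_lit 4) (nat_lit 4) (nat_lit 2) (nat_lit 4) (nat_lit 236) (nat_lit 214) (nat_lit 150)))) (XT.nd (nat_lit 156) (nat_lit 0) (nat_lit 0) (XT.nd (nat_lit 78) (nat_lit 0) (nat_lit 0) (XT.lf (nat_lit 0) (nat_lit 128140174978) (nat_lit 152) (nat_lit 112894424914) (nat_lit 0) (nat_lit 56908547577) (nat_lit 2) (nat_lit 5) (nat_lit 4) (nat_lit 4) (nat_lit 2) (nat_lit 4) (nat_lit 237) (nat_lit 214) (nat_lit 149)) (XT.lf (nat_lit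 0) (nat_lit 163429400666) (nat_lit 152) (nat_lit 82760756640) (nat_lit 0) (nat_lit 92196719471) (nat_lit 2) (nat_lit 5) (nat_lit 4) (nat_lit 4) (nat_lit 2) (nat_lit 4) (nat_lit 238) (nat_lit 214) (nat_lit 148))) (XT.nd (nat_lit 78) (nat_lit 0) (nat_lit 0) (XT.lf (nat_lit 0) (nat_lit 204011270477) (nat_lit 152) (nat_lit 48108339512) (nat_lit 0) (nat_lit 132777672939) (nat_lit 2) (nat_lit 5) (nat_lit 4) (nat_lit 4) (nat_lit 2) (nat_lit 4) (nat_lit 239) (nat_lit 214) (nat_lit 147)) (XT.lf (nat_lit 0) (nat_lit 250679777516) (nat_lit 152) (nat_lit 8259191457) (nat_lit 0) (nat_lit 179445383157) (nat_lit 2) (nat_lit 5) (nat_lit 4) (nat_lit 4) (nat_lit 2) (nat_lit 4) (nat_lit 240) (nat_lit 214) (nat_lit 146))))))))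
noncomputable def xc42 : XT := (XT.nd (nat_lit 2574) (nat_lit 0) (nat_lit 0) (XT.nd (nat_lit 1014) (nat_lit 0) (nat_lit 0) (XT.nd (nat_lit 468) (nat_lit 0) (nat_lit 0) (XT.nd (nat_lit 234) (nat_lit 0) (nat_lit 0) (XT.nd (nat_lit 78) (nat_lit 0) (nat_lit 0) (XT.lf (nat_lit 0) (nat_lit 41237601191) (nat_lit 76) (nat_lit 264817961202) (nat_lit 76) (nat_lit 193582873957) (nat_lit 1) (nat_lit 4) (nat_lit 2) (nat_lit 5) (nat_lit 2) (nat_lit 4) (nat_lit 241) (nat_lit 214) (nat_lit 145)) (XT.nd (nat_lit 78) (nat_lit 0) (nat_lit 0) (XT.lf (nat_lit 0) (nat_lit 99086193925) (nat_lit 76) (nat_lit 271082726261) (nat_lit 76) (nat_lit 199847036505) (nat_lit 1) (nat_lit 4) (nat_lit 2) (nat_lit 5) (nat_lit 2) (nat_lit 4) (nat_lit 242) (nat_lit 214) (nat_lit 144)) (XT.lf (nat_lit 0) (nat_lit 165611258781) (nat_lit 76) (nat_lit 278287566102) (nat_lit 76) (nat_lit 207051352424) (nat_lit 1) (nat_lit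 4) (nat_lit 2) (nat_lit 5) (nat_lit 2) (nat_lit 4) (nat_lit 243) (nat_lit 214) (nat_lit 143)))) (XT.nd (nat_lit 78) (nat_lit 0) (nat_lit 0) (XT.lf (nat_lit 0) (nat_lit 242114373114) (nat_lit 76) (nat_lit 286573444983) (nat_lit 76) (nat_lit 215336775721) (nat_lit 1) (nat_lit 4) (nat_lit 2) (nat_lit 5) (nat_lit 2) (nat_lit 4) (nat_lit 244) (nat_lit 214) (nat_lit 142)) (XT.nd (nat_lit 78) (nat_lit 0) (nat_lit 0) (XT.lf (nat_lit 0) (nat_lit 330092336987) (nat_lit 76) (nat_lit 296102477926) (nat_lit 76) (nat_lit 224865412504) (nat_lit 1) (nat_lit 4) (nat_lit 2) (nat_lit 5) (nat_lit 2) (nat_lit 4) (nat_lit 245) (nat_lit 214) (nat_lit 141)) (XT.lf (nat_lit 0) (nat_lit 431266458390) (nat_lit 76) (nat_lit 307061102533) (nat_lit 76) (nat_lit 235823692622) (nat_lit 1) (nat_lit 4) (nat_lit 2) (nat_lit 5) (nat_lit 2) (nat_lit 4) (nat_lit 246) (nat_lit 214) (nat_lit 140))))) (XT.nd (nat_lit 234)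 (nat_lit 0) (nat_lit 0) (XT.nd (nat_lit 78) (nat_lit 0) (nat_lit 0) (XT.lf (nat_lit 0) (nat_lit 547616231002) (nat_lit 76) (nat_lit 319663726674) (nat_lit 76) (nat_lit 248426017210) (nat_lit 1) (nat_lit 4) (nat_lit 2) (nat_lit 5) (nat_lit 2) (nat_lit 4) (nat_lit 247) (nat_lit 214) (nat_lit 139)) (XT.nd (nat_lit 78) (nat_lit 0) (nat_lit 0) (XT.lf (nat_lit 0) (nat_lit 681418063417) (nat_lit 76) (nat_lit 334156923433) (nat_lit 76) (nat_lit 262918953486) (nat_lit 1) (nat_lit 4) (nat_lit 2) (nat_lit 5) (nat_lit 2) (nat_lit 4) (nat_lit 248) (nat_lit 214) (nat_lit 138)) (XT.lf (nat_lit 0) (nat_lit 835289817574) (nat_lit 76) (nat_lit 350824255353) (nat_lit 76) (nat_lit 279586058901) (nat_lit 1) (nat_lit 4) (nat_lit 2) (nat_lit 5) (nat_lit 2) (nat_lit 4) (nat_lit 249) (nat_lit 214) (nat_lit 137)))) (XT.nd (nat_lit 156) (nat_lit 0) (nat_lit 0) (XT.nd (nat_lit 78) (nat_lit 0) (nat_lit 0) (XT.lf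 (nat_lit 0) (nat_lit 1012242027794) (nat_lit 76) (nat_lit 369991822407) (nat_lit 76) (nat_lit 298753428993) (nat_lit 1) (nat_lit 4) (nat_lit 2) (nat_lit 5) (nat_lit 2) (nat_lit 4) (nat_lit 250) (nat_lit 214) (nat_lit 136)) (XT.lf (nat_lit 0) (nat_lit 1215736802537) (nat_lit 76) (nat_lit 392034642212) (nat_lit 76) (nat_lit 320796077527) (nat_lit 1) (nat_lit 4) (nat_lit 2) (nat_lit 5) (nat_lit 2) (nat_lit 4) (nat_lit 251) (nat_lit 214) (nat_lit 135))) (XT.nd (nat_lit 78) (nat_lit 0) (nat_lit 0) (XT.lf (nat_lit 0) (nat_lit 1449755561310) (nat_lit 76) (nat_lit 417383987329) (nat_lit 76) (nat_lit 346145273713) (nat_lit 1) (nat_lit 4) (nat_lit 2) (nat_lit 5) (nat_lit 2) (nat_lit 4) (nat_lit 252) (nat_lit 214) (nat_lit 134)) (XT.lf (nat_lit 0) (nat_lit 1718876932000) (nat_lit 76) (nat_lit 446535823206) (nat_lit 76) (nat_lit 375296980085) (nat_lit 1) (nat_lit 4) (nat_lit 2) (nat_lit 5) (nat_lit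 2) (nat_lit 4) (nat_lit 253) (nat_lit 214) (nat_lit 133)))))) (XT.nd (nat_lit 468) (nat_lit 0) (nat_lit 0) (XT.nd (nat_lit 234) (nat_lit 0) (nat_lit 0) (XT.nd (nat_lit 78) (nat_lit 0) (nat_lit 0) (XT.lf (nat_lit 0) (nat_lit 2028366332731) (nat_lit 76) (nat_lit 480060511850) (nat_lit 76) (nat_lit 408821556114) (nat_lit 1) (nat_lit 4) (nat_lit 2) (nat_lit 5) (nat_lit 2) (nat_lit 4) (nat_lit 254) (nat_lit 214) (nat_lit 132)) (XT.nd (nat_lit 78) (nat_lit 0) (nat_lit 0) (XT.lf (nat_lit 0) (nat_lit 2384278990908) (nat_lit 76) (nat_lit 518613971080) (nat_lit 76) (nat_lit 447374917420) (nat_lit 1) (nat_lit 4) (nat_lit 2) (nat_lit 5) (nat_lit 2) (nat_lit 4) (nat_lit 255) (nat_lit 214) (nat_lit 131)) (XT.lf (nat_lit 0) (nat_lit 2793578415061) (nat_lit 76) (nat_lit 562950507709) (nat_lit 76) (nat_lit 491711368897) (nat_lit 1) (nat_lit 4) (nat_lit 2) (nat_lit 5) (nat_lit 2) (nat_lit 4) (nat_lit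 256) (nat_lit 214) (nat_lit 130)))) (XT.nd (nat_lit 78) (nat_lit 0) (nat_lit 0) (XT.lf (nat_lit 0) (nat_lit 3264272637401) (nat_lit 76) (nat_lit 613937575714) (nat_lit 76) (nat_lit 542698362857) (nat_lit 1) (nat_lit 4) (nat_lit 2) (nat_lit 5) (nat_lit 2) (nat_lit 4) (nat_lit 257) (nat_lit 214) (nat_lit 129)) (XT.nd (nat_lit 78) (nat_lit 0) (nat_lit 0) (XT.lf (nat_lit 0) (nat_lit 3805570892713) (nat_lit 76) (nat_lit 672572748165) (nat_lit 76) (nat_lit 601333470921) (nat_lit 1) (nat_lit 4) (nat_lit 2) (nat_lit 5) (nat_lit 2) (nat_lit 4) (nat_lit 258) (nat_lit 214) (nat_lit 128)) (XT.lf (nat_lit 0) (nat_lit 4428063799036) (nat_lit 76) (nat_lit 740003234958) (nat_lit 76) (nat_lit 668763901724) (nat_lit 1) (nat_lit 4) (nat_lit 2) (nat_lit 5) (nat_lit 2) (nat_lit 4) (nat_lit 259) (nat_lit 214) (nat_lit 127))))) (XT.nd (nat_lit 234) (nat_lit 0) (nat_lit 0) (XT.nd (nat_lit 78) (nat_lit 0)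 (nat_lit 0) (XT.lf (nat_lit 0) (nat_lit 5143930565406) (nat_lit 76) (nat_lit 817548328224) (nat_lit 76) (nat_lit 746308946305) (nat_lit 1) (nat_lit 4) (nat_lit 2) (nat_lit 5) (nat_lit 2) (nat_lit 4) (nat_lit 260) (nat_lit 214) (nat_lit 126)) (XT.nd (nat_lit 78) (nat_lit 0) (nat_lit 0) (XT.lf (nat_lit 0) (nat_lit 5967177280732) (nat_lit 76) (nat_lit 906725214573) (nat_lit 76) (nat_lit 835485790318) (nat_lit 1) (nat_lit 4) (nat_lit 2) (nat_lit 5) (nat_lit 2) (nat_lit 4) (nat_lit 261) (nat_lit 214) (nat_lit 125)) (XT.lf (nat_lit 0) (nat_lit 6913910945964) (nat_lit 76) (nat_lit 1009278659171) (nat_lit 76) (nat_lit 938039198103) (nat_lit 1) (nat_lit 4) (nat_lit 2) (nat_lit 5) (nat_lit 2) (nat_lit 4) (nat_lit 262) (nat_lit 214) (nat_lit 124)))) (XT.nd (nat_lit 702) (nat_lit 0) (nat_lit 0) (XT.nd (nat_lit 78) (nat_lit 0) (nat_lit 0) (XT.lf (nat_lit 0) (nat_lit 8002654611075) (nat_lit 76)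 (nat_lit 1127215142456) (nat_lit 76) (nat_lit 1055975649376) (nat_lit 1) (nat_lit 4) (nat_lit 2) (nat_lit 5) (nat_lit 2) (nat_lit 4) (nat_lit 263) (nat_lit 214) (nat_lit 123)) (XT.lf (nat_lit 0) (nat_lit 9254709782556) (nat_lit 76) (nat_lit 1262842117362) (nat_lit 76) (nat_lit 1191602596446) (nat_lit 1) (nat_lit 4) (nat_lit 2) (nat_lit 5) (nat_lit 2) (nat_lit 4) (nat_lit 264) (nat_lit 214) (nat_lit 122))) (XT.nd (nat_lit 78) (nat_lit 0) (nat_lit 0) (XT.lf (nat_lit 0) (nat_lit 29019453307038) (nat_lit 76) (nat_lit 3403828777009) (nat_lit 76) (nat_lit 3332589131182) (nat_lit 1) (nat_lit 4) (nat_lit 2) (nat_lit 5) (nat_lit 2) (nat_lit 4) (nat_lit 272) (nat_lit 214) (nat_lit 114)) (XT.lf (nat_lit 0) (nat_lit 33424028075843) (nat_lit 76) (nat_lit 3880947888370) (nat_lit 76) (nat_lit 3809708234630) (nat_lit 1) (nat_lit 4) (nat_lit 2) (nat_lit 5) (nat_lit 2) (nat_lit 4) (nat_lit 273) (nat_lit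 214) (nat_lit 113))))))) (XT.nd (nat_lit 27534) (nat_lit 0) (nat_lit 76) (XT.nd (nat_lit 26988) (nat_lit 0) (nat_lit 380) (XT.nd (nat_lit 26754) (nat_lit 0) (nat_lit 836) (XT.nd (nat_lit 78) (nat_lit 0) (nat_lit 0) (XT.lf (nat_lit 0) (nat_lit 38489289049243) (nat_lit 76) (nat_lit 4429634871164) (nat_lit 76) (nat_lit 4358395210543) (nat_lit 1) (nat_lit 4) (nat_lit 2) (nat_lit 5) (nat_lit 2) (nat_lit 4) (nat_lit 274) (nat_lit 214) (nat_lit 112)) (XT.nd (nat_lit 26598) (nat_lit 0) (nat_lit 836) (XT.lf (nat_lit 0) (nat_lit 44314339159324) (nat_lit 76) (nat_lit 5060624905488) (nat_lit 76) (nat_lit 4989385238885) (nat_lit 1) (nat_lit 4) (nat_lit 2) (nat_lit 5) (nat_lit 2) (nat_lit 4) (nat_lit 275) (nat_lit 214) (nat_lit 111)) (XT.lf (nat_lit 0) (nat_lit 6111177516) (nat_lit 0) (nat_lit 6111177516) (nat_lit 228) (nat_lit 4576844146) (nat_lit 12) (nat_lit 5) (nat_lit 12) (nat_lit 3) (nat_lit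 15) (nat_lit 3) (nat_lit 215) (nat_lit 215) (nat_lit 170)))) (XT.nd (nat_lit 78) (nat_lit 0) (nat_lit 0) (XT.lf (nat_lit 0) (nat_lit 26367545032) (nat_lit 228) (nat_lit 8779515567) (nat_lit 304) (nat_lit 956888511) (nat_lit 12) (nat_lit 5) (nat_lit 15) (nat_lit 3) (nat_lit 16) (nat_lit 5) (nat_lit 216) (nat_lit 215) (nat_lit 169)) (XT.nd (nat_lit 78) (nat_lit 0) (nat_lit 0) (XT.lf (nat_lit 76) (nat_lit 5619069606) (nat_lit 0) (nat_lit 23766407636) (nat_lit 304) (nat_lit 9479015902) (nat_lit 13) (nat_lit 5) (nat_lit 12) (nat_lit 5) (nat_lit 16) (nat_lit 5) (nat_lit 217) (nat_lit 215) (nat_lit 168)) (XT.lf (nat_lit 76) (nat_lit 23158744074) (nat_lit 0) (nat_lit 10149088290) (nat_lit 304) (nat_lit 8663666866) (nat_lit 13) (nat_lit 5) (nat_lit 12) (nat_lit 5) (nat_lit 16) (nat_lit 5) (nat_lit 218) (nat_lit 215) (nat_lit 167))))) (XT.nd (nat_lit 234) (nat_lit 304) (nat_lit 0) (XT.nd (nat_lit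 78) (nat_lit 228) (nat_lit 0) (XT.lf (nat_lit 0) (nat_lit 38040539723) (nat_lit 228) (nat_lit 2449196167) (nat_lit 76) (nat_lit 5021642592) (nat_lit 13) (nat_lit 5) (nat_lit 16) (nat_lit 5) (nat_lit 14) (nat_lit 5) (nat_lit 219) (nat_lit 215) (nat_lit 166)) (XT.nd (nat_lit 78) (nat_lit 0) (nat_lit 0) (XT.lf (nat_lit 0) (nat_lit 17432510256) (nat_lit 228) (nat_lit 27250390959) (nat_lit 304) (nat_lit 4719482371) (nat_lit 10) (nat_lit 5) (nat_lit 13) (nat_lit 5) (nat_lit 14) (nat_lit 5) (nat_lit 220) (nat_lit 215) (nat_lit 165)) (XT.lf (nat_lit 0) (nat_lit 40566899747) (nat_lit 228) (nat_lit 11877860805) (nat_lit 304) (nat_lit 1413899683) (nat_lit 10) (nat_lit 5) (nat_lit 13) (nat_lit 5) (nat_lit 14) (nat_lit 5) (nat_lit 221) (nat_lit 215) (nat_lit 164)))) (XT.nd (nat_lit 156) (nat_lit 152) (nat_lit 0) (XT.nd (nat_lit 78) (nat_lit 0) (nat_lit 0) (XT.lf (nat_lit 0) (nat_lit 2800310063)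 (nat_lit 152) (nat_lit 50301990553) (nat_lit 76) (nat_lit 5772516771) (nat_lit 8) (nat_lit 5) (nat_lit 10) (nat_lit 5) (nat_lit 9) (nat_lit 5) (nat_lit 222) (nat_lit 215) (nat_lit 163)) (XT.lf (nat_lit 0) (nat_lit 8791256209) (nat_lit 152) (nat_lit 29999449654) (nat_lit 76) (nat_lit 25649249467) (nat_lit 8) (nat_lit 5) (nat_lit 10) (nat_lit 5) (nat_lit 9) (nat_lit 5) (nat_lit 223) (nat_lit 215) (nat_lit 162))) (XT.nd (nat_lit 78) (nat_lit 152) (nat_lit 0) (XT.lf (nat_lit 0) (nat_lit 15677250184) (nat_lit 152) (nat_lit 6656014041) (nat_lit 76) (nat_lit 48507191639) (nat_lit 8) (nat_lit 5) (nat_lit 10) (nat_lit 5) (nat_lit 9) (nat_lit 5) (nat_lit 224) (nat_lit 215) (nat_lit 161)) (XT.lf (nat_lit 0) (nat_lit 22157664163) (nat_lit 152) (nat_lit 2352855415) (nat_lit 228) (nat_lit 53553401353) (nat_lit 6) (nat_lit 5) (nat_lit 8) (nat_lit 5) (nat_lit 9) (nat_lit 5) (nat_lit 225) (nat_lit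 215) (nat_lit 160)))))) (XT.nd (nat_lit 546) (nat_lit 76) (nat_lit 0) (XT.nd (nat_lit 234) (nat_lit 152) (nat_lit 0) (XT.nd (nat_lit 78) (nat_lit 76) (nat_lit 0) (XT.lf (nat_lit 0) (nat_lit 35884389571) (nat_lit 228) (nat_lit 31152025874) (nat_lit 76) (nat_lit 19152188697) (nat_lit 6) (nat_lit 5) (nat_lit 9) (nat_lit 5) (nat_lit 7) (nat_lit 4) (nat_lit 226) (nat_lit 215) (nat_lit 159)) (XT.nd (nat_lit 78) (nat_lit 76) (nat_lit 0) (XT.lf (nat_lit 0) (nat_lit 49073852856) (nat_lit 228) (nat_lit 2800317876) (nat_lit 76) (nat_lit 43641426892) (nat_lit 6) (nat_lit 5) (nat_lit 9) (nat_lit 5) (nat_lit 7) (nat_lit 4) (nat_lit 227) (nat_lit 215) (nat_lit 158)) (XT.lf (nat_lit 0) (nat_lit 32713371859) (nat_lit 76) (nat_lit 32880756531) (nat_lit 152) (nat_lit 40444683004) (nat_lit 5) (nat_lit 5) (nat_lit 6) (nat_lit 5) (nat_lit 7) (nat_lit 4) (nat_lit 228) (nat_lit 215) (nat_lit 157)))) (XT.nd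 (nat_lit 156) (nat_lit 152) (nat_lit 0) (XT.nd (nat_lit 78) (nat_lit 0) (nat_lit 0) (XT.lf (nat_lit 0) (nat_lit 73865830514) (nat_lit 76) (nat_lit 10870959198) (nat_lit 152) (nat_lit 33382092094) (nat_lit 5) (nat_lit 5) (nat_lit 6) (nat_lit 5) (nat_lit 7) (nat_lit 4) (nat_lit 229) (nat_lit 215) (nat_lit 156)) (XT.lf (nat_lit 0) (nat_lit 107346987531) (nat_lit 152) (nat_lit 11420611234) (nat_lit 0) (nat_lit 13153966238) (nat_lit 5) (nat_lit 5) (nat_lit 7) (nat_lit 4) (nat_lit 5) (nat_lit 4) (nat_lit 230) (nat_lit 215) (nat_lit 155))) (XT.nd (nat_lit 78) (nat_lit 76) (nat_lit 0) (XT.lf (nat_lit 0) (nat_lit 28339519614) (nat_lit 76) (nat_lit 106698769596) (nat_lit 76) (nat_lit 12502945188) (nat_lit 4) (nat_lit 4) (nat_lit 5) (nat_lit 5) (nat_lit 5) (nat_lit 4) (nat_lit 231) (nat_lit 215) (nat_lit 154)) (XT.lf (nat_lit 0) (nat_lit 1880491075) (nat_lit 152) (nat_lit 90155206084) (nat_lit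 76) (nat_lit 73366024291) (nat_lit 3) (nat_lit 5) (nat_lit 5) (nat_lit 5) (nat_lit 4) (nat_lit 4) (nat_lit 232) (nat_lit 215) (nat_lit 153))))) (XT.nd (nat_lit 234) (nat_lit 0) (nat_lit 0) (XT.nd (nat_lit 78) (nat_lit 76) (nat_lit 0) (XT.lf (nat_lit 0) (nat_lit 17140032633) (nat_lit 152) (nat_lit 57349311292) (nat_lit 76) (nat_lit 111362845938) (nat_lit 3) (nat_lit 5) (nat_lit 5) (nat_lit 5) (nat_lit 4) (nat_lit 4) (nat_lit 233) (nat_lit 215) (nat_lit 152)) (XT.nd (nat_lit 78) (nat_lit 76) (nat_lit 0) (XT.lf (nat_lit 0) (nat_lit 34687334372) (nat_lit 152) (nat_lit 19624455648) (nat_lit 76) (nat_lit 155058625523) (nat_lit 3) (nat_lit 5) (nat_lit 5) (nat_lit 5) (nat_lit 4) (nat_lit 4) (nat_lit 234) (nat_lit 215) (nat_lit 151)) (XT.lf (nat_lit 0) (nat_lit 26079207217) (nat_lit 76) (nat_lit 29866390203) (nat_lit 152) (nat_lit 180308957611) (nat_lit 2) (nat_lit 5) (nat_lit 3) (nat_lit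 5) (nat_lit 4) (nat_lit 4) (nat_lit 235) (nat_lit 215) (nat_lit 150)))) (XT.nd (nat_lit 156) (nat_lit 0) (nat_lit 0) (XT.nd (nat_lit 78) (nat_lit 0) (nat_lit 0) (XT.lf (nat_lit 0) (nat_lit 80842344252) (nat_lit 76) (nat_lit 575127902) (nat_lit 152) (nat_lit 185600121034) (nat_lit 2) (nat_lit 5) (nat_lit 3) (nat_lit 5) (nat_lit 4) (nat_lit 4) (nat_lit 236) (nat_lit 215) (nat_lit 149)) (XT.lf (nat_lit 0) (nat_lit 112080284603) (nat_lit 152) (nat_lit 159947639017) (nat_lit 0) (nat_lit 30161647434) (nat_lit 2) (nat_lit 5) (nat_lit 4) (nat_lit 4) (nat_lit 2) (nat_lit 4) (nat_lit 237) (nat_lit 215) (nat_lit 148))) (XT.nd (nat_lit 78) (nat_lit 0) (nat_lit 0) (XT.lf (nat_lit 0) (nat_lit 147369166231) (nat_lit 152) (nat_lit 129814576039) (nat_lit 0) (nat_lit 65449612718) (nat_lit 2) (nat_lit 5) (nat_lit 4) (nat_lit 4) (nat_lit 2) (nat_lit 4) (nat_lit 238) (nat_lit 215) (nat_lit 147)) (XT.lf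 (nat_lit 0) (nat_lit 187950736858) (nat_lit 152) (nat_lit 95162685257) (nat_lit 0) (nat_lit 106030386526) (nat_lit 2) (nat_lit 5) (nat_lit 4) (nat_lit 4) (nat_lit 2) (nat_lit 4) (nat_lit 239) (nat_lit 215) (nat_lit 146))))))))
noncomputable def xc43 : XT := (XT.nd (nat_lit 2652) (nat_lit 0) (nat_lit 0) (XT.nd (nat_lit 1014) (nat_lit 0) (nat_lit 0) (XT.nd (nat_lit 468) (nat_lit 0) (nat_lit 0) (XT.nd (nat_lit 234) (nat_lit 0) (nat_lit 0) (XT.nd (nat_lit 78) (nat_lit 76) (nat_lit 0) (XT.lf (nat_lit 0) (nat_lit 234618983738) (nat_lit 152) (nat_lit 55313994892) (nat_lit 0) (nat_lit 152697940519) (nat_lit 2) (nat_lit 5) (nat_lit 4) (nat_lit 4) (nat_lit 2) (nat_lit 4) (nat_lit 240) (nat_lit 215) (nat_lit 145)) (XT.nd (nat_lit 78) (nat_lit 76) (nat_lit 0) (XT.lf (nat_lit 0) (nat_lit 288286981264) (nat_lit 152) (nat_lit 9488856656) (nat_lit 0) (nat_lit 206365335535) (nat_lit 2) (nat_lit 5)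 (nat_lit 4) (nat_lit 4) (nat_lit 2) (nat_lit 4) (nat_lit 241) (nat_lit 215) (nat_lit 144)) (XT.lf (nat_lit 0) (nat_lit 47432036093) (nat_lit 76) (nat_lit 304536778849) (nat_lit 76) (nat_lit 222614609197) (nat_lit 1) (nat_lit 4) (nat_lit 2) (nat_lit 5) (nat_lit 2) (nat_lit 4) (nat_lit 242) (nat_lit 215) (nat_lit 143)))) (XT.nd (nat_lit 78) (nat_lit 0) (nat_lit 0) (XT.lf (nat_lit 0) (nat_lit 113956770599) (nat_lit 76) (nat_lit 311741764301) (nat_lit 76) (nat_lit 229819139065) (nat_lit 1) (nat_lit 4) (nat_lit 2) (nat_lit 5) (nat_lit 2) (nat_lit 4) (nat_lit 243) (nat_lit 215) (nat_lit 142)) (XT.nd (nat_lit 78) (nat_lit 0) (nat_lit 0) (XT.lf (nat_lit 0) (nat_lit 190459597672) (nat_lit 76) (nat_lit 320027769801) (nat_lit 76) (nat_lit 238104748404) (nat_lit 1) (nat_lit 4) (nat_lit 2) (nat_lit 5) (nat_lit 2) (nat_lit 4) (nat_lit 244) (nat_lit 215) (nat_lit 141)) (XT.lf (nat_lit 0) (nat_lit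 278437311754) (nat_lit 76) (nat_lit 329556912847) (nat_lit 76) (nat_lit 247633546963) (nat_lit 1) (nat_lit 4) (nat_lit 2) (nat_lit 5) (nat_lit 2) (nat_lit 4) (nat_lit 245) (nat_lit 215) (nat_lit 140))))) (XT.nd (nat_lit 234) (nat_lit 0) (nat_lit 0) (XT.nd (nat_lit 78) (nat_lit 0) (nat_lit 0) (XT.lf (nat_lit 0) (nat_lit 379611215947) (nat_lit 76) (nat_lit 340515633195) (nat_lit 76) (nat_lit 258591967757) (nat_lit 1) (nat_lit 4) (nat_lit 2) (nat_lit 5) (nat_lit 2) (nat_lit 4) (nat_lit 246) (nat_lit 215) (nat_lit 139)) (XT.nd (nat_lit 78) (nat_lit 0) (nat_lit 0) (XT.lf (nat_lit 0) (nat_lit 495960799680) (nat_lit 76) (nat_lit 353118340590) (nat_lit 76) (nat_lit 271194414670) (nat_lit 1) (nat_lit 4) (nat_lit 2) (nat_lit 5) (nat_lit 2) (nat_lit 4) (nat_lit 247) (nat_lit 215) (nat_lit 138)) (XT.lf (nat_lit 0) (nat_lit 629762467854) (nat_lit 76) (nat_lit 367611609743) (nat_lit 76) (nat_lit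 285687457317) (nat_lit 1) (nat_lit 4) (nat_lit 2) (nat_lit 5) (nat_lit 2) (nat_lit 4) (nat_lit 248) (nat_lit 215) (nat_lit 137)))) (XT.nd (nat_lit 156) (nat_lit 0) (nat_lit 0) (XT.nd (nat_lit 78) (nat_lit 0) (nat_lit 0) (XT.lf (nat_lit 0) (nat_lit 783634079192) (nat_lit 76) (nat_lit 384279004615) (nat_lit 76) (nat_lit 302354655227) (nat_lit 1) (nat_lit 4) (nat_lit 2) (nat_lit 5) (nat_lit 2) (nat_lit 4) (nat_lit 249) (nat_lit 215) (nat_lit 136)) (XT.lf (nat_lit 0) (nat_lit 960586165221) (nat_lit 76) (nat_lit 403446626410) (nat_lit 76) (nat_lit 321522105751) (nat_lit 1) (nat_lit 4) (nat_lit 2) (nat_lit 5) (nat_lit 2) (nat_lit 4) (nat_lit 250) (nat_lit 215) (nat_lit 135))) (XT.nd (nat_lit 78) (nat_lit 0) (nat_lit 0) (XT.lf (nat_lit 0) (nat_lit 1164080831972) (nat_lit 76) (nat_lit 425489493816) (nat_lit 76) (nat_lit 343564824225) (nat_lit 1) (nat_lit 4) (nat_lit 2) (nat_lit 5) (nat_lit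 2) (nat_lit 4) (nat_lit 251) (nat_lit 215) (nat_lit 134)) (XT.lf (nat_lit 0) (nat_lit 1398099496839) (nat_lit 76) (nat_lit 450838880324) (nat_lit 76) (nat_lit 368914081229) (nat_lit 1) (nat_lit 4) (nat_lit 2) (nat_lit 5) (nat_lit 2) (nat_lit 4) (nat_lit 252) (nat_lit 215) (nat_lit 133)))))) (XT.nd (nat_lit 546) (nat_lit 0) (nat_lit 0) (XT.nd (nat_lit 234) (nat_lit 0) (nat_lit 0) (XT.nd (nat_lit 78) (nat_lit 0) (nat_lit 0) (XT.lf (nat_lit 0) (nat_lit 1667220785872) (nat_lit 76) (nat_lit 479990752194) (nat_lit 76) (nat_lit 398065840485) (nat_lit 1) (nat_lit 4) (nat_lit 2) (nat_lit 5) (nat_lit 2) (nat_lit 4) (nat_lit 253) (nat_lit 215) (nat_lit 132)) (XT.nd (nat_lit 78) (nat_lit 0) (nat_lit 0) (XT.lf (nat_lit 0) (nat_lit 1976710115597) (nat_lit 76) (nat_lit 513515472135) (nat_lit 76) (nat_lit 431590462502) (nat_lit 1) (nat_lit 4) (nat_lit 2) (nat_lit 5) (nat_lit 2) (nat_lit 4) (nat_lit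 254) (nat_lit 215) (nat_lit 131)) (XT.lf (nat_lit 0) (nat_lit 2332622712029) (nat_lit 76) (nat_lit 552068958582) (nat_lit 76) (nat_lit 470143863796) (nat_lit 1) (nat_lit 4) (nat_lit 2) (nat_lit 5) (nat_lit 2) (nat_lit 4) (nat_lit 255) (nat_lit 215) (nat_lit 130)))) (XT.nd (nat_lit 156) (nat_lit 0) (nat_lit 0) (XT.nd (nat_lit 78) (nat_lit 0) (nat_lit 0) (XT.lf (nat_lit 0) (nat_lit 2741922082491) (nat_lit 76) (nat_lit 596405518877) (nat_lit 76) (nat_lit 514480350046) (nat_lit 1) (nat_lit 4) (nat_lit 2) (nat_lit 5) (nat_lit 2) (nat_lit 4) (nat_lit 256) (nat_lit 215) (nat_lit 129)) (XT.lf (nat_lit 0) (nat_lit 3212616258143) (nat_lit 76) (nat_lit 647392607461) (nat_lit 76) (nat_lit 565467374243) (nat_lit 1) (nat_lit 4) (nat_lit 2) (nat_lit 5) (nat_lit 2) (nat_lit 4) (nat_lit 257) (nat_lit 215) (nat_lit 128))) (XT.nd (nat_lit 78) (nat_lit 0) (nat_lit 0) (XT.lf (nat_lit 0) (nat_lit 3753914472857)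 (nat_lit 76) (nat_lit 706027797807) (nat_lit 76) (nat_lit 624102508600) (nat_lit 1) (nat_lit 4) (nat_lit 2) (nat_lit 5) (nat_lit 2) (nat_lit 4) (nat_lit 258) (nat_lit 215) (nat_lit 127)) (XT.lf (nat_lit 0) (nat_lit 4376407343877) (nat_lit 76) (nat_lit 773458300160) (nat_lit 76) (nat_lit 691532962267) (nat_lit 1) (nat_lit 4) (nat_lit 2) (nat_lit 5) (nat_lit 2) (nat_lit 4) (nat_lit 259) (nat_lit 215) (nat_lit 126))))) (XT.nd (nat_lit 234) (nat_lit 0) (nat_lit 0) (XT.nd (nat_lit 78) (nat_lit 0) (nat_lit 0) (XT.lf (nat_lit 0) (nat_lit 5092274079550) (nat_lit 76) (nat_lit 851003406958) (nat_lit 76) (nat_lit 769078026729) (nat_lit 1) (nat_lit 4) (nat_lit 2) (nat_lit 5) (nat_lit 2) (nat_lit 4) (nat_lit 260) (nat_lit 215) (nat_lit 125)) (XT.nd (nat_lit 78) (nat_lit 0) (nat_lit 0) (XT.lf (nat_lit 0) (nat_lit 5915520768181) (nat_lit 76) (nat_lit 940180305072) (nat_lit 76) (nat_lit 858254888030)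 (nat_lit 1) (nat_lit 4) (nat_lit 2) (nat_lit 5) (nat_lit 2) (nat_lit 4) (nat_lit 261) (nat_lit 215) (nat_lit 124)) (XT.lf (nat_lit 0) (nat_lit 6862254410201) (nat_lit 76) (nat_lit 1042733759902) (nat_lit 76) (nat_lit 960808310848) (nat_lit 1) (nat_lit 4) (nat_lit 2) (nat_lit 5) (nat_lit 2) (nat_lit 4) (nat_lit 262) (nat_lit 215) (nat_lit 123)))) (XT.nd (nat_lit 702) (nat_lit 0) (nat_lit 0) (XT.nd (nat_lit 78) (nat_lit 0) (nat_lit 0) (XT.lf (nat_lit 0) (nat_lit 7950998055128) (nat_lit 76) (nat_lit 1160670252084) (nat_lit 76) (nat_lit 1078744775193) (nat_lit 1) (nat_lit 4) (nat_lit 2) (nat_lit 5) (nat_lit 2) (nat_lit 4) (nat_lit 263) (nat_lit 215) (nat_lit 122)) (XT.lf (nat_lit 0) (nat_lit 9203053209058) (nat_lit 76) (nat_lit 1296297234726) (nat_lit 76) (nat_lit 1214371733631) (nat_lit 1) (nat_lit 4) (nat_lit 2) (nat_lit 5) (nat_lit 2) (nat_lit 4) (nat_lit 264) (nat_lit 215) (nat_lit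 121))) (XT.nd (nat_lit 78) (nat_lit 0) (nat_lit 0) (XT.lf (nat_lit 0) (nat_lit 28967796654779) (nat_lit 76) (nat_lit 3437283929088) (nat_lit 76) (nat_lit 3355358319375) (nat_lit 1) (nat_lit 4) (nat_lit 2) (nat_lit 5) (nat_lit 2) (nat_lit 4) (nat_lit 272) (nat_lit 215) (nat_lit 113)) (XT.lf (nat_lit 0) (nat_lit 33372371418595) (nat_lit 76) (nat_lit 3914403042649) (nat_lit 76) (nat_lit 3832477426055) (nat_lit 1) (nat_lit 4) (nat_lit 2) (nat_lit 5) (nat_lit 2) (nat_lit 4) (nat_lit 273) (nat_lit 215) (nat_lit 112))))))) (XT.nd (nat_lit 27612) (nat_lit 0) (nat_lit 76) (XT.nd (nat_lit 27066) (nat_lit 0) (nat_lit 380) (XT.nd (nat_lit 26832) (nat_lit 0) (nat_lit 836) (XT.nd (nat_lit 78) (nat_lit 0) (nat_lit 0) (XT.lf (nat_lit 0) (nat_lit 38437632387656) (nat_lit 76) (nat_lit 4463090027355) (nat_lit 76) (nat_lit 4381164404778) (nat_lit 1) (nat_lit 4) (nat_lit 2) (nat_lit 5) (nat_lit 2) (nat_lit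 4) (nat_lit 274) (nat_lit 215) (nat_lit 111)) (XT.nd (nat_lit 26676) (nat_lit 0) (nat_lit 836) (XT.lf (nat_lit 0) (nat_lit 44262682493965) (nat_lit 76) (nat_lit 5094080063343) (nat_lit 76) (nat_lit 5012154435562) (nat_lit 1) (nat_lit 4) (nat_lit 2) (nat_lit 5) (nat_lit 2) (nat_lit 4) (nat_lit 275) (nat_lit 215) (nat_lit 110)) (XT.lf (nat_lit 0) (nat_lit 7049895425) (nat_lit 0) (nat_lit 7049895425) (nat_lit 228) (nat_lit 5211806502) (nat_lit 12) (nat_lit 5) (nat_lit 12) (nat_lit 3) (nat_lit 15) (nat_lit 3) (nat_lit 216) (nat_lit 216) (nat_lit 168)))) (XT.nd (nat_lit 78) (nat_lit 0) (nat_lit 0) (XT.lf (nat_lit 0) (nat_lit 30397754840) (nat_lit 228) (nat_lit 10043511306) (nat_lit 304) (nat_lit 1065501763) (nat_lit 12) (nat_lit 5) (nat_lit 15) (nat_lit 3) (nat_lit 16) (nat_lit 5) (nat_lit 217) (nat_lit 216) (nat_lit 167)) (XT.nd (nat_lit 78) (nat_lit 0) (nat_lit 0) (XT.lf (nat_lit 76)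 (nat_lit 6512455661) (nat_lit 0) (nat_lit 27348220588) (nat_lit 304) (nat_lit 10822069592) (nat_lit 13) (nat_lit 5) (nat_lit 12) (nat_lit 5) (nat_lit 16) (nat_lit 5) (nat_lit 218) (nat_lit 216) (nat_lit 166)) (XT.lf (nat_lit 76) (nat_lit 26676491002) (nat_lit 0) (nat_lit 11686105279) (nat_lit 304) (nat_lit 9894696292) (nat_lit 13) (nat_lit 5) (nat_lit 12) (nat_lit 5) (nat_lit 16) (nat_lit 5) (nat_lit 219) (nat_lit 216) (nat_lit 165))))) (XT.nd (nat_lit 234) (nat_lit 304) (nat_lit 0) (XT.nd (nat_lit 78) (nat_lit 228) (nat_lit 0) (XT.lf (nat_lit 0) (nat_lit 43797040057) (nat_lit 228) (nat_lit 2769207210) (nat_lit 76) (nat_lit 5763281009) (nat_lit 13) (nat_lit 5) (nat_lit 16) (nat_lit 5) (nat_lit 14) (nat_lit 5) (nat_lit 220) (nat_lit 216) (nat_lit 164)) (XT.nd (nat_lit 78) (nat_lit 0) (nat_lit 0) (XT.lf (nat_lit 0) (nat_lit 20092602068) (nat_lit 228) (nat_lit 31338449532) (nat_lit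 304) (nat_lit 5373967833) (nat_lit 10) (nat_lit 5) (nat_lit 13) (nat_lit 5) (nat_lit 14) (nat_lit 5) (nat_lit 221) (nat_lit 216) (nat_lit 163)) (XT.lf (nat_lit 0) (nat_lit 46691252339) (nat_lit 228) (nat_lit 13659974647) (nat_lit 304) (nat_lit 1579517771) (nat_lit 10) (nat_lit 5) (nat_lit 13) (nat_lit 5) (nat_lit 14) (nat_lit 5) (nat_lit 222) (nat_lit 216) (nat_lit 162)))) (XT.nd (nat_lit 156) (nat_lit 152) (nat_lit 0) (XT.nd (nat_lit 78) (nat_lit 0) (nat_lit 0) (XT.lf (nat_lit 0) (nat_lit 3259055762) (nat_lit 152) (nat_lit 57798981850) (nat_lit 76) (nat_lit 6641629140) (nat_lit 8) (nat_lit 5) (nat_lit 10) (nat_lit 5) (nat_lit 9) (nat_lit 5) (nat_lit 223) (nat_lit 216) (nat_lit 161)) (XT.lf (nat_lit 0) (nat_lit 10143596110) (nat_lit 152) (nat_lit 34457360766) (nat_lit 76) (nat_lit 29499449803) (nat_lit 8) (nat_lit 5) (nat_lit 10) (nat_lit 5) (nat_lit 9) (nat_lit 5) (nat_lit 224)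 (nat_lit 216) (nat_lit 160))) (XT.nd (nat_lit 78) (nat_lit 152) (nat_lit 0) (XT.lf (nat_lit 0) (nat_lit 18058099860) (nat_lit 152) (nat_lit 7617888899) (nat_lit 76) (nat_lit 55785716399) (nat_lit 8) (nat_lit 5) (nat_lit 10) (nat_lit 5) (nat_lit 9) (nat_lit 5) (nat_lit 225) (nat_lit 216) (nat_lit 159)) (XT.lf (nat_lit 0) (nat_lit 25516180707) (nat_lit 152) (nat_lit 2697805919) (nat_lit 228) (nat_lit 61555115370) (nat_lit 6) (nat_lit 5) (nat_lit 8) (nat_lit 5) (nat_lit 9) (nat_lit 5) (nat_lit 226) (nat_lit 216) (nat_lit 158)))))) (XT.nd (nat_lit 546) (nat_lit 76) (nat_lit 0) (XT.nd (nat_lit 234) (nat_lit 152) (nat_lit 0) (XT.nd (nat_lit 78) (nat_lit 76) (nat_lit 0) (XT.lf (nat_lit 0) (nat_lit 41290717098) (nat_lit 228) (nat_lit 35790965712) (nat_lit 76) (nat_lit 22031336627) (nat_lit 6) (nat_lit 5) (nat_lit 9) (nat_lit 5) (nat_lit 7) (nat_lit 4) (nat_lit 227) (nat_lit 216) (nat_lit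 157)) (XT.nd (nat_lit 78) (nat_lit 76) (nat_lit 0) (XT.lf (nat_lit 0) (nat_lit 56455512602) (nat_lit 228) (nat_lit 3190918563) (nat_lit 76) (nat_lit 50193136252) (nat_lit 6) (nat_lit 5) (nat_lit 9) (nat_lit 5) (nat_lit 7) (nat_lit 4) (nat_lit 228) (nat_lit 216) (nat_lit 156)) (XT.lf (nat_lit 0) (nat_lit 37648486133) (nat_lit 76) (nat_lit 37803822663) (nat_lit 152) (nat_lit 46489219417) (nat_lit 5) (nat_lit 5) (nat_lit 6) (nat_lit 5) (nat_lit 7) (nat_lit 4) (nat_lit 229) (nat_lit 216) (nat_lit 155)))) (XT.nd (nat_lit 156) (nat_lit 152) (nat_lit 0) (XT.nd (nat_lit 78) (nat_lit 0) (nat_lit 0) (XT.lf (nat_lit 0) (nat_lit 84970147261) (nat_lit 76) (nat_lit 12493735818) (nat_lit 152) (nat_lit 38370131092) (nat_lit 5) (nat_lit 5) (nat_lit 6) (nat_lit 5) (nat_lit 7) (nat_lit 4) (nat_lit 230) (nat_lit 216) (nat_lit 154)) (XT.lf (nat_lit 0) (nat_lit 123463731901) (nat_lit 152) (nat_lit 13110384391)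 (nat_lit 0) (nat_lit 15133293228) (nat_lit 5) (nat_lit 5) (nat_lit 7) (nat_lit 4) (nat_lit 5) (nat_lit 4) (nat_lit 231) (nat_lit 216) (nat_lit 153))) (XT.nd (nat_lit 78) (nat_lit 76) (nat_lit 0) (XT.lf (nat_lit 0) (nat_lit 32612706153) (nat_lit 76) (nat_lit 122695027459) (nat_lit 76) (nat_lit 14362469229) (nat_lit 4) (nat_lit 4) (nat_lit 5) (nat_lit 5) (nat_lit 5) (nat_lit 4) (nat_lit 232) (nat_lit 216) (nat_lit 152)) (XT.lf (nat_lit 0) (nat_lit 2175173981) (nat_lit 152) (nat_lit 103657777263) (nat_lit 76) (nat_lit 84377014872) (nat_lit 3) (nat_lit 5) (nat_lit 5) (nat_lit 5) (nat_lit 4) (nat_lit 4) (nat_lit 233) (nat_lit 216) (nat_lit 151))))) (XT.nd (nat_lit 234) (nat_lit 0) (nat_lit 0) (XT.nd (nat_lit 78) (nat_lit 76) (nat_lit 0) (XT.lf (nat_lit 0) (nat_lit 19722002088) (nat_lit 152) (nat_lit 65933699522) (nat_lit 76) (nat_lit 128072565818) (nat_lit 3) (nat_lit 5) (nat_lit 5) (nat_lit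 5) (nat_lit 4) (nat_lit 4) (nat_lit 234) (nat_lit 216) (nat_lit 150)) (XT.nd (nat_lit 78) (nat_lit 76) (nat_lit 0) (XT.lf (nat_lit 0) (nat_lit 39899968927) (nat_lit 152) (nat_lit 22552464461) (nat_lit 76) (nat_lit 178322021950) (nat_lit 3) (nat_lit 5) (nat_lit 5) (nat_lit 5) (nat_lit 4) (nat_lit 4) (nat_lit 235) (nat_lit 216) (nat_lit 149)) (XT.lf (nat_lit 0) (nat_lit 30006036037) (nat_lit 76) (nat_lit 34340310733) (nat_lit 152) (nat_lit 207344974729) (nat_lit 2) (nat_lit 5) (nat_lit 3) (nat_lit 5) (nat_lit 4) (nat_lit 4) (nat_lit 236) (nat_lit 216) (nat_lit 148)))) (XT.nd (nat_lit 156) (nat_lit 0) (nat_lit 0) (XT.nd (nat_lit 78) (nat_lit 0) (nat_lit 0) (XT.lf (nat_lit 0) (nat_lit 92981693922) (nat_lit 76) (nat_lit 656146652) (nat_lit 152) (nat_lit 213431159604) (nat_lit 2) (nat_lit 5) (nat_lit 3) (nat_lit 5) (nat_lit 4) (nat_lit 4) (nat_lit 237) (nat_lit 216) (nat_lit 147)) (XT.lf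 (nat_lit 0) (nat_lit 128899253386) (nat_lit 152) (nat_lit 183927599990) (nat_lit 0) (nat_lit 34690053684) (nat_lit 2) (nat_lit 5) (nat_lit 4) (nat_lit 4) (nat_lit 2) (nat_lit 4) (nat_lit 238) (nat_lit 216) (nat_lit 146))) (XT.nd (nat_lit 78) (nat_lit 0) (nat_lit 0) (XT.lf (nat_lit 0) (nat_lit 169480563854) (nat_lit 152) (nat_lit 149276166898) (nat_lit 0) (nat_lit 75270671265) (nat_lit 2) (nat_lit 5) (nat_lit 4) (nat_lit 4) (nat_lit 2) (nat_lit 4) (nat_lit 239) (nat_lit 216) (nat_lit 145)) (XT.lf (nat_lit 0) (nat_lit 216148584508) (nat_lit 152) (nat_lit 109427874526) (nat_lit 0) (nat_lit 121938089409) (nat_lit 2) (nat_lit 5) (nat_lit 4) (nat_lit 4) (nat_lit 2) (nat_lit 4) (nat_lit 240) (nat_lit 216) (nat_lit 144))))))))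
noncomputable def xc44 : XT := (XT.nd (nat_lit 2418) (nat_lit 0) (nat_lit 0) (XT.nd (nat_lit 1014) (nat_lit 0) (nat_lit 0) (XT.nd (nat_lit 468) (nat_lit 0) (nat_lit 0) (XT.nd (nat_lit 234) (nat_lit 0) (nat_lit 0) (XT.nd (nat_lit 78) (nat_lit 76) (nat_lit 0) (XT.lf (nat_lit 0) (nat_lit 269816385317) (nat_lit 152) (nat_lit 63603082370) (nat_lit 0) (nat_lit 175605366295) (nat_lit 2) (nat_lit 5) (nat_lit 4) (nat_lit 4) (nat_lit 2) (nat_lit 4) (nat_lit 241) (nat_lit 216) (nat_lit 143)) (XT.nd (nat_lit 78) (nat_lit 76) (nat_lit 0) (XT.lf (nat_lit 0) (nat_lit 331533988470) (nat_lit 152) (nat_lit 10905218410) (nat_lit 0) (nat_lit 237322513864) (nat_lit 2) (nat_lit 5) (nat_lit 4) (nat_lit 4) (nat_lit 2) (nat_lit 4) (nat_lit 242) (nat_lit 216) (nat_lit 142)) (XT.lf (nat_lit 0) (nat_lit 54553491581) (nat_lit 76) (nat_lit 350214364459) (nat_lit 76) (nat_lit 256002493693) (nat_lit 1) (nat_lit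 4) (nat_lit 2) (nat_lit 5) (nat_lit 2) (nat_lit 4) (nat_lit 243) (nat_lit 216) (nat_lit 141)))) (XT.nd (nat_lit 78) (nat_lit 0) (nat_lit 0) (XT.lf (nat_lit 0) (nat_lit 131056068862) (nat_lit 76) (nat_lit 358500480062) (nat_lit 76) (nat_lit 264288264808) (nat_lit 1) (nat_lit 4) (nat_lit 2) (nat_lit 5) (nat_lit 2) (nat_lit 4) (nat_lit 244) (nat_lit 216) (nat_lit 140)) (XT.nd (nat_lit 78) (nat_lit 0) (nat_lit 0) (XT.lf (nat_lit 0) (nat_lit 219033565734) (nat_lit 76) (nat_lit 368029718850) (nat_lit 76) (nat_lit 273817204042) (nat_lit 1) (nat_lit 4) (nat_lit 2) (nat_lit 5) (nat_lit 2) (nat_lit 4) (nat_lit 245) (nat_lit 216) (nat_lit 139)) (XT.lf (nat_lit 0) (nat_lit 320207281049) (nat_lit 76) (nat_lit 378988522451) (nat_lit 76) (nat_lit 284775747162) (nat_lit 1) (nat_lit 4) (nat_lit 2) (nat_lit 5) (nat_lit 2) (nat_lit 4) (nat_lit 246) (nat_lit 216) (nat_lit 138))))) (XT.nd (nat_lit 234)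 (nat_lit 0) (nat_lit 0) (XT.nd (nat_lit 78) (nat_lit 0) (nat_lit 0) (XT.lf (nat_lit 0) (nat_lit 436556700540) (nat_lit 76) (nat_lit 391591302241) (nat_lit 76) (nat_lit 297378300445) (nat_lit 1) (nat_lit 4) (nat_lit 2) (nat_lit 5) (nat_lit 2) (nat_lit 4) (nat_lit 247) (nat_lit 216) (nat_lit 137)) (XT.nd (nat_lit 78) (nat_lit 0) (nat_lit 0) (XT.lf (nat_lit 0) (nat_lit 570358225895) (nat_lit 76) (nat_lit 406084634346) (nat_lit 76) (nat_lit 311871435588) (nat_lit 1) (nat_lit 4) (nat_lit 2) (nat_lit 5) (nat_lit 2) (nat_lit 4) (nat_lit 248) (nat_lit 216) (nat_lit 136)) (XT.lf (nat_lit 0) (nat_lit 724229713042) (nat_lit 76) (nat_lit 422752083958) (nat_lit 76) (nat_lit 328538713930) (nat_lit 1) (nat_lit 4) (nat_lit 2) (nat_lit 5) (nat_lit 2) (nat_lit 4) (nat_lit 249) (nat_lit 216) (nat_lit 135)))) (XT.nd (nat_lit 156) (nat_lit 0) (nat_lit 0) (XT.nd (nat_lit 78) (nat_lit 0) (nat_lit 0) (XT.lf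 (nat_lit 0) (nat_lit 901181691080) (nat_lit 76) (nat_lit 441919753354) (nat_lit 76) (nat_lit 347706234394) (nat_lit 1) (nat_lit 4) (nat_lit 2) (nat_lit 5) (nat_lit 2) (nat_lit 4) (nat_lit 250) (nat_lit 216) (nat_lit 134)) (XT.lf (nat_lit 0) (nat_lit 1104676263925) (nat_lit 76) (nat_lit 463962662151) (nat_lit 76) (nat_lit 369749013686) (nat_lit 1) (nat_lit 4) (nat_lit 2) (nat_lit 5) (nat_lit 2) (nat_lit 4) (nat_lit 251) (nat_lit 216) (nat_lit 133))) (XT.nd (nat_lit 78) (nat_lit 0) (nat_lit 0) (XT.lf (nat_lit 0) (nat_lit 1338694847135) (nat_lit 76) (nat_lit 489312084653) (nat_lit 76) (nat_lit 395098323574) (nat_lit 1) (nat_lit 4) (nat_lit 2) (nat_lit 5) (nat_lit 2) (nat_lit 4) (nat_lit 252) (nat_lit 216) (nat_lit 132)) (XT.lf (nat_lit 0) (nat_lit 1607816065161) (nat_lit 76) (nat_lit 518463987821) (nat_lit 76) (nat_lit 424250128817) (nat_lit 1) (nat_lit 4) (nat_lit 2) (nat_lit 5) (nat_lit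 2) (nat_lit 4) (nat_lit 253) (nat_lit 216) (nat_lit 131)))))) (XT.nd (nat_lit 468) (nat_lit 0) (nat_lit 0) (XT.nd (nat_lit 234) (nat_lit 0) (nat_lit 0) (XT.nd (nat_lit 78) (nat_lit 0) (nat_lit 0) (XT.lf (nat_lit 0) (nat_lit 1917305333141) (nat_lit 76) (nat_lit 551988734978) (nat_lit 76) (nat_lit 457774790823) (nat_lit 1) (nat_lit 4) (nat_lit 2) (nat_lit 5) (nat_lit 2) (nat_lit 4) (nat_lit 254) (nat_lit 216) (nat_lit 130)) (XT.nd (nat_lit 78) (nat_lit 0) (nat_lit 0) (XT.lf (nat_lit 0) (nat_lit 2273217875883) (nat_lit 76) (nat_lit 590542245090) (nat_lit 76) (nat_lit 496328226890) (nat_lit 1) (nat_lit 4) (nat_lit 2) (nat_lit 5) (nat_lit 2) (nat_lit 4) (nat_lit 255) (nat_lit 216) (nat_lit 129)) (XT.lf (nat_lit 0) (nat_lit 2682517199657) (nat_lit 76) (nat_lit 634878825965) (nat_lit 76) (nat_lit 540664743377) (nat_lit 1) (nat_lit 4) (nat_lit 2) (nat_lit 5) (nat_lit 2) (nat_lit 4) (nat_lit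 256) (nat_lit 216) (nat_lit 128)))) (XT.nd (nat_lit 78) (nat_lit 0) (nat_lit 0) (XT.lf (nat_lit 0) (nat_lit 3153211334711) (nat_lit 76) (nat_lit 685865932444) (nat_lit 76) (nat_lit 591651793867) (nat_lit 1) (nat_lit 4) (nat_lit 2) (nat_lit 5) (nat_lit 2) (nat_lit 4) (nat_lit 257) (nat_lit 216) (nat_lit 127)) (XT.nd (nat_lit 78) (nat_lit 0) (nat_lit 0) (XT.lf (nat_lit 0) (nat_lit 3694509514122) (nat_lit 76) (nat_lit 744501138350) (nat_lit 76) (nat_lit 650286951087) (nat_lit 1) (nat_lit 4) (nat_lit 2) (nat_lit 5) (nat_lit 2) (nat_lit 4) (nat_lit 258) (nat_lit 216) (nat_lit 126)) (XT.lf (nat_lit 0) (nat_lit 4317002354444) (nat_lit 76) (nat_lit 811931654234) (nat_lit 76) (nat_lit 717717424636) (nat_lit 1) (nat_lit 4) (nat_lit 2) (nat_lit 5) (nat_lit 2) (nat_lit 4) (nat_lit 259) (nat_lit 216) (nat_lit 125))))) (XT.nd (nat_lit 234) (nat_lit 0) (nat_lit 0) (XT.nd (nat_lit 78) (nat_lit 0)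 (nat_lit 0) (XT.lf (nat_lit 0) (nat_lit 5032869063423) (nat_lit 76) (nat_lit 889476772798) (nat_lit 76) (nat_lit 795262506386) (nat_lit 1) (nat_lit 4) (nat_lit 2) (nat_lit 5) (nat_lit 2) (nat_lit 4) (nat_lit 260) (nat_lit 216) (nat_lit 124)) (XT.nd (nat_lit 78) (nat_lit 0) (nat_lit 0) (XT.lf (nat_lit 0) (nat_lit 5856115728842) (nat_lit 76) (nat_lit 978653681144) (nat_lit 76) (nat_lit 884439382720) (nat_lit 1) (nat_lit 4) (nat_lit 2) (nat_lit 5) (nat_lit 2) (nat_lit 4) (nat_lit 261) (nat_lit 216) (nat_lit 123)) (XT.lf (nat_lit 0) (nat_lit 6802849350678) (nat_lit 76) (nat_lit 1081207144870) (nat_lit 76) (nat_lit 986992818610) (nat_lit 1) (nat_lit 4) (nat_lit 2) (nat_lit 5) (nat_lit 2) (nat_lit 4) (nat_lit 262) (nat_lit 216) (nat_lit 122)))) (XT.nd (nat_lit 156) (nat_lit 0) (nat_lit 0) (XT.nd (nat_lit 78) (nat_lit 0) (nat_lit 0) (XT.lf (nat_lit 0) (nat_lit 7891592978053) (nat_lit 76)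 (nat_lit 1199143644789) (nat_lit 76) (nat_lit 1104929294323) (nat_lit 1) (nat_lit 4) (nat_lit 2) (nat_lit 5) (nat_lit 2) (nat_lit 4) (nat_lit 263) (nat_lit 216) (nat_lit 121)) (XT.lf (nat_lit 0) (nat_lit 9143648116720) (nat_lit 76) (nat_lit 1334770634159) (nat_lit 76) (nat_lit 1240556262645) (nat_lit 1) (nat_lit 4) (nat_lit 2) (nat_lit 5) (nat_lit 2) (nat_lit 4) (nat_lit 264) (nat_lit 216) (nat_lit 120))) (XT.nd (nat_lit 468) (nat_lit 0) (nat_lit 0) (XT.lf (nat_lit 0) (nat_lit 10583511497654) (nat_lit 76) (nat_lit 1490741684511) (nat_lit 76) (nat_lit 1396527294695) (nat_lit 1) (nat_lit 4) (nat_lit 2) (nat_lit 5) (nat_lit 2) (nat_lit 4) (nat_lit 265) (nat_lit 216) (nat_lit 119)) (XT.lf (nat_lit 0) (nat_lit 25078326477602) (nat_lit 76) (nat_lit 3060871174916) (nat_lit 76) (nat_lit 2966656715832) (nat_lit 1) (nat_lit 4) (nat_lit 2) (nat_lit 5) (nat_lit 2) (nat_lit 4) (nat_lit 271) (nat_lit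 216) (nat_lit 113))))))) (XT.nd (nat_lit 27690) (nat_lit 0) (nat_lit 76) (XT.nd (nat_lit 27144) (nat_lit 0) (nat_lit 532) (XT.nd (nat_lit 234) (nat_lit 0) (nat_lit 0) (XT.nd (nat_lit 78) (nat_lit 0) (nat_lit 0) (XT.lf (nat_lit 0) (nat_lit 28908391493955) (nat_lit 76) (nat_lit 3475757358708) (nat_lit 76) (nat_lit 3381542892744) (nat_lit 1) (nat_lit 4) (nat_lit 2) (nat_lit 5) (nat_lit 2) (nat_lit 4) (nat_lit 272) (nat_lit 216) (nat_lit 112)) (XT.nd (nat_lit 78) (nat_lit 0) (nat_lit 0) (XT.lf (nat_lit 0) (nat_lit 33312966253433) (nat_lit 76) (nat_lit 3952876474181) (nat_lit 76) (nat_lit 3858662002234) (nat_lit 1) (nat_lit 4) (nat_lit 2) (nat_lit 5) (nat_lit 2) (nat_lit 4) (nat_lit 273) (nat_lit 216) (nat_lit 111)) (XT.lf (nat_lit 0) (nat_lit 38378227218721) (nat_lit 76) (nat_lit 4501563460551) (nat_lit 76) (nat_lit 4407348983400) (nat_lit 1) (nat_lit 4) (nat_lit 2) (nat_lit 5) (nat_lit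 2) (nat_lit 4) (nat_lit 274) (nat_lit 216) (nat_lit 110)))) (XT.nd (nat_lit 26754) (nat_lit 0) (nat_lit 836) (XT.lf (nat_lit 0) (nat_lit 44203277321749) (nat_lit 76) (nat_lit 5132553497984) (nat_lit 76) (nat_lit 5038339016309) (nat_lit 1) (nat_lit 4) (nat_lit 2) (nat_lit 5) (nat_lit 2) (nat_lit 4) (nat_lit 275) (nat_lit 216) (nat_lit 109)) (XT.nd (nat_lit 78) (nat_lit 0) (nat_lit 0) (XT.lf (nat_lit 0) (nat_lit 8124046115) (nat_lit 0) (nat_lit 8124046115) (nat_lit 228) (nat_lit 5954587483) (nat_lit 12) (nat_lit 5) (nat_lit 12) (nat_lit 3) (nat_lit 15) (nat_lit 3) (nat_lit 217) (nat_lit 217) (nat_lit 166)) (XT.lf (nat_lit 0) (nat_lit 35014187860) (nat_lit 228) (nat_lit 11510014111) (nat_lit 304) (nat_lit 1198922472) (nat_lit 12) (nat_lit 5) (nat_lit 15) (nat_lit 3) (nat_lit 16) (nat_lit 5) (nat_lit 218) (nat_lit 217) (nat_lit 165))))) (XT.nd (nat_lit 234) (nat_lit 304) (nat_lit 0)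 (XT.nd (nat_lit 78) (nat_lit 0) (nat_lit 0) (XT.lf (nat_lit 76) (nat_lit 7527528634) (nat_lit 0) (nat_lit 31463196064) (nat_lit 304) (nat_lit 12385796897) (nat_lit 13) (nat_lit 5) (nat_lit 12) (nat_lit 5) (nat_lit 16) (nat_lit 5) (nat_lit 219) (nat_lit 217) (nat_lit 164)) (XT.nd (nat_lit 78) (nat_lit 0) (nat_lit 76) (XT.lf (nat_lit 76) (nat_lit 30711186064) (nat_lit 0) (nat_lit 13450101408) (nat_lit 304) (nat_lit 11327089315) (nat_lit 13) (nat_lit 5) (nat_lit 12) (nat_lit 5) (nat_lit 16) (nat_lit 5) (nat_lit 220) (nat_lit 217) (nat_lit 163)) (XT.lf (nat_lit 0) (nat_lit 50404720357) (nat_lit 228) (nat_lit 3148770989) (nat_lit 76) (nat_lit 6618995866) (nat_lit 13) (nat_lit 5) (nat_lit 16) (nat_lit 5) (nat_lit 14) (nat_lit 5) (nat_lit 221) (nat_lit 217) (nat_lit 162)))) (XT.nd (nat_lit 156) (nat_lit 152) (nat_lit 0) (XT.nd (nat_lit 78) (nat_lit 0) (nat_lit 0) (XT.lf (nat_lit 0) (nat_lit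 23140681622) (nat_lit 228) (nat_lit 36039594980) (nat_lit 304) (nat_lit 6139657039) (nat_lit 10) (nat_lit 5) (nat_lit 13) (nat_lit 5) (nat_lit 14) (nat_lit 5) (nat_lit 222) (nat_lit 217) (nat_lit 161)) (XT.lf (nat_lit 0) (nat_lit 53724669966) (nat_lit 228) (nat_lit 15709299556) (nat_lit 304) (nat_lit 1781309811) (nat_lit 10) (nat_lit 5) (nat_lit 13) (nat_lit 5) (nat_lit 14) (nat_lit 5) (nat_lit 223) (nat_lit 217) (nat_lit 160))) (XT.nd (nat_lit 78) (nat_lit 0) (nat_lit 0) (XT.lf (nat_lit 0) (nat_lit 3777176275) (nat_lit 152) (nat_lit 66432301879) (nat_lit 76) (nat_lit 7640319525) (nat_lit 8) (nat_lit 5) (nat_lit 10) (nat_lit 5) (nat_lit 9) (nat_lit 5) (nat_lit 224) (nat_lit 217) (nat_lit 159)) (XT.lf (nat_lit 0) (nat_lit 11690580873) (nat_lit 152) (nat_lit 39594202056) (nat_lit 76) (nat_lit 33926494243) (nat_lit 8) (nat_lit 5) (nat_lit 10) (nat_lit 5) (nat_lit 9) (nat_lit 5) (nat_lit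 225) (nat_lit 217) (nat_lit 158)))))) (XT.nd (nat_lit 546) (nat_lit 228) (nat_lit 0) (XT.nd (nat_lit 234) (nat_lit 76) (nat_lit 0) (XT.nd (nat_lit 78) (nat_lit 152) (nat_lit 0) (XT.lf (nat_lit 0) (nat_lit 20788941226) (nat_lit 152) (nat_lit 8732952386) (nat_lit 76) (nat_lit 64155423397) (nat_lit 8) (nat_lit 5) (nat_lit 10) (nat_lit 5) (nat_lit 9) (nat_lit 5) (nat_lit 226) (nat_lit 217) (nat_lit 157)) (XT.nd (nat_lit 78) (nat_lit 0) (nat_lit 0) (XT.lf (nat_lit 0) (nat_lit 29369972213) (nat_lit 152) (nat_lit 3096444438) (nat_lit 228) (nat_lit 70764718263) (nat_lit 6) (nat_lit 5) (nat_lit 8) (nat_lit 5) (nat_lit 9) (nat_lit 5) (nat_lit 227) (nat_lit 217) (nat_lit 156)) (XT.lf (nat_lit 0) (nat_lit 47502221896) (nat_lit 228) (nat_lit 41134004486) (nat_lit 76) (nat_lit 25340815666) (nat_lit 6) (nat_lit 5) (nat_lit 9) (nat_lit 5) (nat_lit 7) (nat_lit 4) (nat_lit 228) (nat_lit 217) (nat_lit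 155)))) (XT.nd (nat_lit 156) (nat_lit 0) (nat_lit 0) (XT.nd (nat_lit 78) (nat_lit 76) (nat_lit 0) (XT.lf (nat_lit 0) (nat_lit 64939402304) (nat_lit 228) (nat_lit 3647290189) (nat_lit 76) (nat_lit 57726261946) (nat_lit 6) (nat_lit 5) (nat_lit 9) (nat_lit 5) (nat_lit 7) (nat_lit 4) (nat_lit 229) (nat_lit 217) (nat_lit 154)) (XT.lf (nat_lit 0) (nat_lit 43317013113) (nat_lit 76) (nat_lit 43467554967) (nat_lit 152) (nat_lit 53445841621) (nat_lit 5) (nat_lit 5) (nat_lit 6) (nat_lit 5) (nat_lit 7) (nat_lit 4) (nat_lit 230) (nat_lit 217) (nat_lit 153))) (XT.nd (nat_lit 78) (nat_lit 0) (nat_lit 0) (XT.lf (nat_lit 0) (nat_lit 97734151142) (nat_lit 76) (nat_lit 14361847412) (nat_lit 152) (nat_lit 44111076227) (nat_lit 5) (nat_lit 5) (nat_lit 6) (nat_lit 5) (nat_lit 7) (nat_lit 4) (nat_lit 231) (nat_lit 217) (nat_lit 152)) (XT.lf (nat_lit 0) (nat_lit 141994404156) (nat_lit 152) (nat_lit 15059309891)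 (nat_lit 0) (nat_lit 17407999540) (nat_lit 5) (nat_lit 5) (nat_lit 7) (nat_lit 4) (nat_lit 5) (nat_lit 4) (nat_lit 232) (nat_lit 217) (nat_lit 151))))) (XT.nd (nat_lit 234) (nat_lit 76) (nat_lit 0) (XT.nd (nat_lit 78) (nat_lit 76) (nat_lit 0) (XT.lf (nat_lit 0) (nat_lit 37521442772) (nat_lit 76) (nat_lit 141092810822) (nat_lit 76) (nat_lit 16504803517) (nat_lit 4) (nat_lit 4) (nat_lit 5) (nat_lit 5) (nat_lit 5) (nat_lit 4) (nat_lit 233) (nat_lit 217) (nat_lit 150)) (XT.nd (nat_lit 78) (nat_lit 0) (nat_lit 0) (XT.lf (nat_lit 0) (nat_lit 2510984478) (nat_lit 152) (nat_lit 119190784319) (nat_lit 76) (nat_lit 97038169702) (nat_lit 3) (nat_lit 5) (nat_lit 5) (nat_lit 5) (nat_lit 4) (nat_lit 4) (nat_lit 234) (nat_lit 217) (nat_lit 149)) (XT.lf (nat_lit 0) (nat_lit 22688593184) (nat_lit 152) (nat_lit 75810137464) (nat_lit 76) (nat_lit 147287452950) (nat_lit 3) (nat_lit 5) (nat_lit 5) (nat_lit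 5) (nat_lit 4) (nat_lit 4) (nat_lit 235) (nat_lit 217) (nat_lit 148)))) (XT.nd (nat_lit 156) (nat_lit 0) (nat_lit 0) (XT.nd (nat_lit 78) (nat_lit 76) (nat_lit 0) (XT.lf (nat_lit 0) (nat_lit 45892173643) (nat_lit 152) (nat_lit 25923493273) (nat_lit 76) (nat_lit 205073805469) (nat_lit 3) (nat_lit 5) (nat_lit 5) (nat_lit 5) (nat_lit 4) (nat_lit 4) (nat_lit 236) (nat_lit 217) (nat_lit 147)) (XT.lf (nat_lit 0) (nat_lit 34518244080) (nat_lit 76) (nat_lit 39486791747) (nat_lit 152) (nat_lit 238438912603) (nat_lit 2) (nat_lit 5) (nat_lit 3) (nat_lit 5) (nat_lit 4) (nat_lit 4) (nat_lit 237) (nat_lit 217) (nat_lit 146))) (XT.nd (nat_lit 78) (nat_lit 0) (nat_lit 0) (XT.lf (nat_lit 0) (nat_lit 106938776390) (nat_lit 76) (nat_lit 750598567) (nat_lit 152) (nat_lit 245439043688) (nat_lit 2) (nat_lit 5) (nat_lit 3) (nat_lit 5) (nat_lit 4) (nat_lit 4) (nat_lit 238) (nat_lit 217) (nat_lit 145)) (XT.lf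 (nat_lit 0) (nat_lit 148239378515) (nat_lit 152) (nat_lit 211507526469) (nat_lit 0) (nat_lit 39896706640) (nat_lit 2) (nat_lit 5) (nat_lit 4) (nat_lit 4) (nat_lit 2) (nat_lit 4) (nat_lit 239) (nat_lit 217) (nat_lit 144))))))))
noncomputable def xc45 : XT := (XT.nd (nat_lit 2574) (nat_lit 0) (nat_lit 0) (XT.nd (nat_lit 1014) (nat_lit 0) (nat_lit 0) (XT.nd (nat_lit 468) (nat_lit 0) (nat_lit 0) (XT.nd (nat_lit 234) (nat_lit 76) (nat_lit 0) (XT.nd (nat_lit 78) (nat_lit 0) (nat_lit 0) (XT.lf (nat_lit 0) (nat_lit 194907202451) (nat_lit 152) (nat_lit 171659580177) (nat_lit 0) (nat_lit 86564006654) (nat_lit 2) (nat_lit 5) (nat_lit 4) (nat_lit 4) (nat_lit 2) (nat_lit 4) (nat_lit 240) (nat_lit 217) (nat_lit 143)) (XT.nd (nat_lit 78) (nat_lit 0) (nat_lit 0) (XT.lf (nat_lit 0) (nat_lit 248574832200) (nat_lit 152) (nat_lit 125835088960) (nat_lit 0) (nat_lit 140231180819) (nat_lit 2) (nat_lit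 5) (nat_lit 4) (nat_lit 4) (nat_lit 2) (nat_lit 4) (nat_lit 241) (nat_lit 217) (nat_lit 142)) (XT.lf (nat_lit 0) (nat_lit 310292286607) (nat_lit 152) (nat_lit 73137486687) (nat_lit 0) (nat_lit 201948239065) (nat_lit 2) (nat_lit 5) (nat_lit 4) (nat_lit 4) (nat_lit 2) (nat_lit 4) (nat_lit 242) (nat_lit 217) (nat_lit 141)))) (XT.nd (nat_lit 78) (nat_lit 76) (nat_lit 0) (XT.lf (nat_lit 0) (nat_lit 381267081081) (nat_lit 152) (nat_lit 12535733312) (nat_lit 0) (nat_lit 272922689052) (nat_lit 2) (nat_lit 5) (nat_lit 4) (nat_lit 4) (nat_lit 2) (nat_lit 4) (nat_lit 243) (nat_lit 217) (nat_lit 140)) (XT.nd (nat_lit 78) (nat_lit 0) (nat_lit 0) (XT.lf (nat_lit 0) (nat_lit 62741543730) (nat_lit 76) (nat_lit 402744302707) (nat_lit 76) (nat_lit 294399611124) (nat_lit 1) (nat_lit 4) (nat_lit 2) (nat_lit 5) (nat_lit 2) (nat_lit 4) (nat_lit 244) (nat_lit 217) (nat_lit 139)) (XT.lf (nat_lit 0) (nat_lit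 150718851724) (nat_lit 76) (nat_lit 412273624749) (nat_lit 76) (nat_lit 303928672684) (nat_lit 1) (nat_lit 4) (nat_lit 2) (nat_lit 5) (nat_lit 2) (nat_lit 4) (nat_lit 245) (nat_lit 217) (nat_lit 138))))) (XT.nd (nat_lit 234) (nat_lit 0) (nat_lit 0) (XT.nd (nat_lit 78) (nat_lit 0) (nat_lit 0) (XT.lf (nat_lit 0) (nat_lit 251892402796) (nat_lit 76) (nat_lit 423232500745) (nat_lit 76) (nat_lit 314887322174) (nat_lit 1) (nat_lit 4) (nat_lit 2) (nat_lit 5) (nat_lit 2) (nat_lit 4) (nat_lit 246) (nat_lit 217) (nat_lit 137)) (XT.nd (nat_lit 78) (nat_lit 0) (nat_lit 0) (XT.lf (nat_lit 0) (nat_lit 368241679469) (nat_lit 76) (nat_lit 435835343486) (nat_lit 76) (nat_lit 327489967953) (nat_lit 1) (nat_lit 4) (nat_lit 2) (nat_lit 5) (nat_lit 2) (nat_lit 4) (nat_lit 247) (nat_lit 217) (nat_lit 136)) (XT.lf (nat_lit 0) (nat_lit 502043080632) (nat_lit 76) (nat_lit 450328730331) (nat_lit 76) (nat_lit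 341983183528) (nat_lit 1) (nat_lit 4) (nat_lit 2) (nat_lit 5) (nat_lit 2) (nat_lit 4) (nat_lit 248) (nat_lit 217) (nat_lit 135)))) (XT.nd (nat_lit 156) (nat_lit 0) (nat_lit 0) (XT.nd (nat_lit 78) (nat_lit 0) (nat_lit 0) (XT.lf (nat_lit 0) (nat_lit 655914459788) (nat_lit 76) (nat_lit 466996227545) (nat_lit 76) (nat_lit 358650531809) (nat_lit 1) (nat_lit 4) (nat_lit 2) (nat_lit 5) (nat_lit 2) (nat_lit 4) (nat_lit 249) (nat_lit 217) (nat_lit 134)) (XT.lf (nat_lit 0) (nat_lit 832866343920) (nat_lit 76) (nat_lit 486163938332) (nat_lit 76) (nat_lit 377818113091) (nat_lit 1) (nat_lit 4) (nat_lit 2) (nat_lit 5) (nat_lit 2) (nat_lit 4) (nat_lit 250) (nat_lit 217) (nat_lit 133))) (XT.nd (nat_lit 78) (nat_lit 0) (nat_lit 0) (XT.lf (nat_lit 0) (nat_lit 1036360835108) (nat_lit 76) (nat_lit 508206883122) (nat_lit 76) (nat_lit 399860945268) (nat_lit 1) (nat_lit 4) (nat_lit 2) (nat_lit 5) (nat_lit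 2) (nat_lit 4) (nat_lit 251) (nat_lit 217) (nat_lit 132)) (XT.lf (nat_lit 0) (nat_lit 1270379347311) (nat_lit 76) (nat_lit 533556336922) (nat_lit 76) (nat_lit 425210301143) (nat_lit 1) (nat_lit 4) (nat_lit 2) (nat_lit 5) (nat_lit 2) (nat_lit 4) (nat_lit 252) (nat_lit 217) (nat_lit 131)))))) (XT.nd (nat_lit 546) (nat_lit 0) (nat_lit 0) (XT.nd (nat_lit 234) (nat_lit 0) (nat_lit 0) (XT.nd (nat_lit 78) (nat_lit 0) (nat_lit 0) (XT.lf (nat_lit 0) (nat_lit 1539500503593) (nat_lit 76) (nat_lit 562708267306) (nat_lit 76) (nat_lit 454362146375) (nat_lit 1) (nat_lit 4) (nat_lit 2) (nat_lit 5) (nat_lit 2) (nat_lit 4) (nat_lit 253) (nat_lit 217) (nat_lit 130)) (XT.nd (nat_lit 78) (nat_lit 0) (nat_lit 0) (XT.lf (nat_lit 0) (nat_lit 1848989717882) (nat_lit 76) (nat_lit 596233038129) (nat_lit 76) (nat_lit 487886843153) (nat_lit 1) (nat_lit 4) (nat_lit 2) (nat_lit 5) (nat_lit 2) (nat_lit 4) (nat_lit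 254) (nat_lit 217) (nat_lit 129)) (XT.lf (nat_lit 0) (nat_lit 2204902213936) (nat_lit 76) (nat_lit 634786568820) (nat_lit 76) (nat_lit 526440309457) (nat_lit 1) (nat_lit 4) (nat_lit 2) (nat_lit 5) (nat_lit 2) (nat_lit 4) (nat_lit 255) (nat_lit 217) (nat_lit 128)))) (XT.nd (nat_lit 156) (nat_lit 0) (nat_lit 0) (XT.nd (nat_lit 78) (nat_lit 0) (nat_lit 0) (XT.lf (nat_lit 0) (nat_lit 2614201497111) (nat_lit 76) (nat_lit 679123167589) (nat_lit 76) (nat_lit 570776852237) (nat_lit 1) (nat_lit 4) (nat_lit 2) (nat_lit 5) (nat_lit 2) (nat_lit 4) (nat_lit 256) (nat_lit 217) (nat_lit 127)) (XT.lf (nat_lit 0) (nat_lit 3084895596863) (nat_lit 76) (nat_lit 730110289629) (nat_lit 76) (nat_lit 621763925591) (nat_lit 1) (nat_lit 4) (nat_lit 2) (nat_lit 5) (nat_lit 2) (nat_lit 4) (nat_lit 257) (nat_lit 217) (nat_lit 126))) (XT.nd (nat_lit 78) (nat_lit 0) (nat_lit 0) (XT.lf (nat_lit 0) (nat_lit 3626193745576)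 (nat_lit 76) (nat_lit 788745509066) (nat_lit 76) (nat_lit 680399102693) (nat_lit 1) (nat_lit 4) (nat_lit 2) (nat_lit 5) (nat_lit 2) (nat_lit 4) (nat_lit 258) (nat_lit 217) (nat_lit 125)) (XT.lf (nat_lit 0) (nat_lit 4248686559204) (nat_lit 76) (nat_lit 856176036717) (nat_lit 76) (nat_lit 747829593529) (nat_lit 1) (nat_lit 4) (nat_lit 2) (nat_lit 5) (nat_lit 2) (nat_lit 4) (nat_lit 259) (nat_lit 217) (nat_lit 124))))) (XT.nd (nat_lit 234) (nat_lit 0) (nat_lit 0) (XT.nd (nat_lit 78) (nat_lit 0) (nat_lit 0) (XT.lf (nat_lit 0) (nat_lit 4964553244971) (nat_lit 76) (nat_lit 933721165512) (nat_lit 76) (nat_lit 825374690313) (nat_lit 1) (nat_lit 4) (nat_lit 2) (nat_lit 5) (nat_lit 2) (nat_lit 4) (nat_lit 260) (nat_lit 217) (nat_lit 123)) (XT.nd (nat_lit 78) (nat_lit 0) (nat_lit 0) (XT.lf (nat_lit 0) (nat_lit 5787799890206) (nat_lit 76) (nat_lit 1022898082755) (nat_lit 76) (nat_lit 914551579719)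 (nat_lit 1) (nat_lit 4) (nat_lit 2) (nat_lit 5) (nat_lit 2) (nat_lit 4) (nat_lit 261) (nat_lit 217) (nat_lit 122)) (XT.lf (nat_lit 0) (nat_lit 6734533494490) (nat_lit 76) (nat_lit 1125451554217) (nat_lit 76) (nat_lit 1017105026977) (nat_lit 1) (nat_lit 4) (nat_lit 2) (nat_lit 5) (nat_lit 2) (nat_lit 4) (nat_lit 262) (nat_lit 217) (nat_lit 121)))) (XT.nd (nat_lit 156) (nat_lit 0) (nat_lit 0) (XT.nd (nat_lit 78) (nat_lit 0) (nat_lit 0) (XT.lf (nat_lit 0) (nat_lit 7823277106603) (nat_lit 76) (nat_lit 1243388060863) (nat_lit 76) (nat_lit 1135041512574) (nat_lit 1) (nat_lit 4) (nat_lit 2) (nat_lit 5) (nat_lit 2) (nat_lit 4) (nat_lit 263) (nat_lit 217) (nat_lit 120)) (XT.lf (nat_lit 0) (nat_lit 9075332231998) (nat_lit 76) (nat_lit 1379015056083) (nat_lit 76) (nat_lit 1270668489491) (nat_lit 1) (nat_lit 4) (nat_lit 2) (nat_lit 5) (nat_lit 2) (nat_lit 4) (nat_lit 264) (nat_lit 217) (nat_lit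 119))) (XT.nd (nat_lit 546) (nat_lit 0) (nat_lit 0) (XT.lf (nat_lit 0) (nat_lit 10515195601391) (nat_lit 76) (nat_lit 1534986111523) (nat_lit 76) (nat_lit 1426639529015) (nat_lit 1) (nat_lit 4) (nat_lit 2) (nat_lit 5) (nat_lit 2) (nat_lit 4) (nat_lit 265) (nat_lit 217) (nat_lit 118)) (XT.lf (nat_lit 0) (nat_lit 28840075549679) (nat_lit 76) (nat_lit 3520001806883) (nat_lit 76) (nat_lit 3411655158160) (nat_lit 1) (nat_lit 4) (nat_lit 2) (nat_lit 5) (nat_lit 2) (nat_lit 4) (nat_lit 272) (nat_lit 217) (nat_lit 111))))))) (XT.nd (nat_lit 27846) (nat_lit 0) (nat_lit 76) (XT.nd (nat_lit 27300) (nat_lit 0) (nat_lit 380) (XT.nd (nat_lit 27066) (nat_lit 0) (nat_lit 836) (XT.nd (nat_lit 78) (nat_lit 0) (nat_lit 0) (XT.lf (nat_lit 0) (nat_lit 33244650305384) (nat_lit 76) (nat_lit 3997120924019) (nat_lit 76) (nat_lit 3888774270093) (nat_lit 1) (nat_lit 4) (nat_lit 2) (nat_lit 5) (nat_lit 2) (nat_lit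 4) (nat_lit 273) (nat_lit 217) (nat_lit 110)) (XT.nd (nat_lit 26910) (nat_lit 0) (nat_lit 836) (XT.lf (nat_lit 0) (nat_lit 38309911267392) (nat_lit 76) (nat_lit 4545807911834) (nat_lit 76) (nat_lit 4437461253384) (nat_lit 1) (nat_lit 4) (nat_lit 2) (nat_lit 5) (nat_lit 2) (nat_lit 4) (nat_lit 274) (nat_lit 217) (nat_lit 109)) (XT.lf (nat_lit 0) (nat_lit 9355255206) (nat_lit 0) (nat_lit 9355255206) (nat_lit 228) (nat_lit 6818293569) (nat_lit 12) (nat_lit 5) (nat_lit 12) (nat_lit 3) (nat_lit 15) (nat_lit 3) (nat_lit 218) (nat_lit 218) (nat_lit 164)))) (XT.nd (nat_lit 78) (nat_lit 0) (nat_lit 0) (XT.lf (nat_lit 0) (nat_lit 40309242160) (nat_lit 228) (nat_lit 13206252416) (nat_lit 304) (nat_lit 1358795206) (nat_lit 12) (nat_lit 5) (nat_lit 15) (nat_lit 3) (nat_lit 16) (nat_lit 5) (nat_lit 219) (nat_lit 218) (nat_lit 163)) (XT.nd (nat_lit 78) (nat_lit 0) (nat_lit 0) (XT.lf (nat_lit 76)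 (nat_lit 8685546113) (nat_lit 0) (nat_lit 36192310549) (nat_lit 304) (nat_lit 14198613022) (nat_lit 13) (nat_lit 5) (nat_lit 12) (nat_lit 5) (nat_lit 16) (nat_lit 5) (nat_lit 220) (nat_lit 218) (nat_lit 162)) (XT.lf (nat_lit 76) (nat_lit 35342984134) (nat_lit 0) (nat_lit 15475994945) (nat_lit 304) (nat_lit 12986975834) (nat_lit 13) (nat_lit 5) (nat_lit 12) (nat_lit 5) (nat_lit 16) (nat_lit 5) (nat_lit 221) (nat_lit 218) (nat_lit 161))))) (XT.nd (nat_lit 234) (nat_lit 304) (nat_lit 0) (XT.nd (nat_lit 78) (nat_lit 228) (nat_lit 0) (XT.lf (nat_lit 0) (nat_lit 57994255852) (nat_lit 228) (nat_lit 3594003612) (nat_lit 76) (nat_lit 7605208350) (nat_lit 13) (nat_lit 5) (nat_lit 16) (nat_lit 5) (nat_lit 14) (nat_lit 5) (nat_lit 222) (nat_lit 218) (nat_lit 160)) (XT.nd (nat_lit 78) (nat_lit 0) (nat_lit 0) (XT.lf (nat_lit 0) (nat_lit 26637635845) (nat_lit 228) (nat_lit 41445820064) (nat_lit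 304) (nat_lit 7030052877) (nat_lit 10) (nat_lit 5) (nat_lit 13) (nat_lit 5) (nat_lit 14) (nat_lit 5) (nat_lit 223) (nat_lit 218) (nat_lit 159)) (XT.lf (nat_lit 0) (nat_lit 61805850444) (nat_lit 228) (nat_lit 18065943043) (nat_lit 304) (nat_lit 2021938702) (nat_lit 10) (nat_lit 5) (nat_lit 13) (nat_lit 5) (nat_lit 14) (nat_lit 5) (nat_lit 224) (nat_lit 218) (nat_lit 158)))) (XT.nd (nat_lit 156) (nat_lit 152) (nat_lit 0) (XT.nd (nat_lit 78) (nat_lit 0) (nat_lit 0) (XT.lf (nat_lit 0) (nat_lit 4365879104) (nat_lit 152) (nat_lit 76369527313) (nat_lit 76) (nat_lit 8788216991) (nat_lit 8) (nat_lit 5) (nat_lit 10) (nat_lit 5) (nat_lit 9) (nat_lit 5) (nat_lit 225) (nat_lit 218) (nat_lit 157)) (XT.lf (nat_lit 0) (nat_lit 13463408341) (nat_lit 152) (nat_lit 45509315106) (nat_lit 76) (nat_lit 39017076673) (nat_lit 8) (nat_lit 5) (nat_lit 10) (nat_lit 5) (nat_lit 9) (nat_lit 5) (nat_lit 226)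 (nat_lit 218) (nat_lit 156))) (XT.nd (nat_lit 78) (nat_lit 152) (nat_lit 0) (XT.lf (nat_lit 0) (nat_lit 23924013138) (nat_lit 152) (nat_lit 10022010671) (nat_lit 76) (nat_lit 73780135423) (nat_lit 8) (nat_lit 5) (nat_lit 10) (nat_lit 5) (nat_lit 9) (nat_lit 5) (nat_lit 227) (nat_lit 218) (nat_lit 155)) (XT.lf (nat_lit 0) (nat_lit 33795403319) (nat_lit 152) (nat_lit 3556349766) (nat_lit 228) (nat_lit 81361532307) (nat_lit 6) (nat_lit 5) (nat_lit 8) (nat_lit 5) (nat_lit 9) (nat_lit 5) (nat_lit 228) (nat_lit 218) (nat_lit 154)))))) (XT.nd (nat_lit 546) (nat_lit 76) (nat_lit 0) (XT.nd (nat_lit 234) (nat_lit 152) (nat_lit 0) (XT.nd (nat_lit 78) (nat_lit 76) (nat_lit 0) (XT.lf (nat_lit 0) (nat_lit 54641088060) (nat_lit 228) (nat_lit 47284743282) (nat_lit 76) (nat_lit 29145551282) (nat_lit 6) (nat_lit 5) (nat_lit 9) (nat_lit 5) (nat_lit 7) (nat_lit 4) (nat_lit 229) (nat_lit 218) (nat_lit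 153)) (XT.nd (nat_lit 78) (nat_lit 76) (nat_lit 0) (XT.lf (nat_lit 0) (nat_lit 74692080371) (nat_lit 228) (nat_lit 4177547303) (nat_lit 76) (nat_lit 66388343209) (nat_lit 6) (nat_lit 5) (nat_lit 9) (nat_lit 5) (nat_lit 7) (nat_lit 4) (nat_lit 230) (nat_lit 218) (nat_lit 152)) (XT.lf (nat_lit 0) (nat_lit 49830636203) (nat_lit 76) (nat_lit 49982515361) (nat_lit 152) (nat_lit 61450044361) (nat_lit 5) (nat_lit 5) (nat_lit 6) (nat_lit 5) (nat_lit 7) (nat_lit 4) (nat_lit 231) (nat_lit 218) (nat_lit 151)))) (XT.nd (nat_lit 156) (nat_lit 152) (nat_lit 0) (XT.nd (nat_lit 78) (nat_lit 0) (nat_lit 0) (XT.lf (nat_lit 0) (nat_lit 112408248703) (nat_lit 76) (nat_lit 16511626392) (nat_lit 152) (nat_lit 50716717223) (nat_lit 5) (nat_lit 5) (nat_lit 6) (nat_lit 5) (nat_lit 7) (nat_lit 4) (nat_lit 232) (nat_lit 218) (nat_lit 150)) (XT.lf (nat_lit 0) (nat_lit 163301967402) (nat_lit 152) (nat_lit 17304873930)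 (nat_lit 0) (nat_lit 20022762669) (nat_lit 5) (nat_lit 5) (nat_lit 7) (nat_lit 4) (nat_lit 5) (nat_lit 4) (nat_lit 233) (nat_lit 218) (nat_lit 149))) (XT.nd (nat_lit 78) (nat_lit 76) (nat_lit 0) (XT.lf (nat_lit 0) (nat_lit 43162385612) (nat_lit 76) (nat_lit 162251839623) (nat_lit 76) (nat_lit 18971423026) (nat_lit 4) (nat_lit 4) (nat_lit 5) (nat_lit 5) (nat_lit 5) (nat_lit 4) (nat_lit 234) (nat_lit 218) (nat_lit 148)) (XT.lf (nat_lit 0) (nat_lit 2894841526) (nat_lit 152) (nat_lit 137057561109) (nat_lit 76) (nat_lit 111597375383) (nat_lit 3) (nat_lit 5) (nat_lit 5) (nat_lit 5) (nat_lit 4) (nat_lit 4) (nat_lit 235) (nat_lit 218) (nat_lit 147))))) (XT.nd (nat_lit 234) (nat_lit 0) (nat_lit 0) (XT.nd (nat_lit 78) (nat_lit 76) (nat_lit 0) (XT.lf (nat_lit 0) (nat_lit 26098151185) (nat_lit 152) (nat_lit 87171361686) (nat_lit 76) (nat_lit 169383597177) (nat_lit 3) (nat_lit 5) (nat_lit 5)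 (nat_lit 5) (nat_lit 4) (nat_lit 4) (nat_lit 236) (nat_lit 218) (nat_lit 146)) (XT.nd (nat_lit 78) (nat_lit 76) (nat_lit 0) (XT.lf (nat_lit 0) (nat_lit 52781451013) (nat_lit 152) (nat_lit 29803063874) (nat_lit 76) (nat_lit 235837507840) (nat_lit 3) (nat_lit 5) (nat_lit 5) (nat_lit 5) (nat_lit 4) (nat_lit 4) (nat_lit 237) (nat_lit 218) (nat_lit 145)) (XT.lf (nat_lit 0) (nat_lit 39704527109) (nat_lit 76) (nat_lit 45406358263) (nat_lit 152) (nat_lit 274198845271) (nat_lit 2) (nat_lit 5) (nat_lit 3) (nat_lit 5) (nat_lit 4) (nat_lit 4) (nat_lit 238) (nat_lit 218) (nat_lit 144)))) (XT.nd (nat_lit 156) (nat_lit 0) (nat_lit 0) (XT.nd (nat_lit 78) (nat_lit 0) (nat_lit 0) (XT.lf (nat_lit 0) (nat_lit 122987024516) (nat_lit 76) (nat_lit 860186398) (nat_lit 152) (nat_lit 282249766134) (nat_lit 2) (nat_lit 5) (nat_lit 3) (nat_lit 5) (nat_lit 4) (nat_lit 4) (nat_lit 239) (nat_lit 218) (nat_lit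 143)) (XT.lf (nat_lit 0) (nat_lit 170479245308) (nat_lit 152) (nat_lit 243226688695) (nat_lit 0) (nat_lit 45883590635) (nat_lit 2) (nat_lit 5) (nat_lit 4) (nat_lit 4) (nat_lit 2) (nat_lit 4) (nat_lit 240) (nat_lit 218) (nat_lit 142))) (XT.nd (nat_lit 78) (nat_lit 0) (nat_lit 0) (XT.lf (nat_lit 0) (nat_lit 224146726311) (nat_lit 152) (nat_lit 197402459165) (nat_lit 0) (nat_lit 99550675477) (nat_lit 2) (nat_lit 5) (nat_lit 4) (nat_lit 4) (nat_lit 2) (nat_lit 4) (nat_lit 241) (nat_lit 218) (nat_lit 141)) (XT.lf (nat_lit 0) (nat_lit 285864051371) (nat_lit 152) (nat_lit 144705084445) (nat_lit 0) (nat_lit 161267656051) (nat_lit 2) (nat_lit 5) (nat_lit 4) (nat_lit 4) (nat_lit 2) (nat_lit 4) (nat_lit 242) (nat_lit 218) (nat_lit 140))))))))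
noncomputable def xc46 : XT := (XT.nd (nat_lit 29640) (nat_lit 0) (nat_lit 0) (XT.nd (nat_lit 1014) (nat_lit 0) (nat_lit 0) (XT.nd (nat_lit 468) (nat_lit 0) (nat_lit 0) (XT.nd (nat_lit 234) (nat_lit 0) (nat_lit 0) (XT.nd (nat_lit 78) (nat_lit 76) (nat_lit 0) (XT.lf (nat_lit 0) (nat_lit 356838733372) (nat_lit 152) (nat_lit 84103528943) (nat_lit 0) (nat_lit 232242038497) (nat_lit 2) (nat_lit 5) (nat_lit 4) (nat_lit 4) (nat_lit 2) (nat_lit 4) (nat_lit 243) (nat_lit 218) (nat_lit 139)) (XT.nd (nat_lit 78) (nat_lit 76) (nat_lit 0) (XT.lf (nat_lit 0) (nat_lit 438459407396) (nat_lit 152) (nat_lit 14412110050) (nat_lit 0) (nat_lit 313862452039) (nat_lit 2) (nat_lit 5) (nat_lit 4) (nat_lit 4) (nat_lit 2) (nat_lit 4) (nat_lit 244) (nat_lit 218) (nat_lit 138)) (XT.lf (nat_lit 0) (nat_lit 72156577491) (nat_lit 76) (nat_lit 463154272181) (nat_lit 76) (nat_lit 338557090318) (nat_lit 1) (nat_lit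 4) (nat_lit 2) (nat_lit 5) (nat_lit 2) (nat_lit 4) (nat_lit 245) (nat_lit 218) (nat_lit 137)))) (XT.nd (nat_lit 78) (nat_lit 0) (nat_lit 0) (XT.lf (nat_lit 0) (nat_lit 173329985744) (nat_lit 76) (nat_lit 474113211128) (nat_lit 76) (nat_lit 349515832304) (nat_lit 1) (nat_lit 4) (nat_lit 2) (nat_lit 5) (nat_lit 2) (nat_lit 4) (nat_lit 246) (nat_lit 218) (nat_lit 136)) (XT.nd (nat_lit 78) (nat_lit 0) (nat_lit 0) (XT.lf (nat_lit 0) (nat_lit 289679138226) (nat_lit 76) (nat_lit 486716108611) (nat_lit 76) (nat_lit 362118558515) (nat_lit 1) (nat_lit 4) (nat_lit 2) (nat_lit 5) (nat_lit 2) (nat_lit 4) (nat_lit 247) (nat_lit 218) (nat_lit 135)) (XT.lf (nat_lit 0) (nat_lit 423480431398) (nat_lit 76) (nat_lit 501209543056) (nat_lit 76) (nat_lit 376611844029) (nat_lit 1) (nat_lit 4) (nat_lit 2) (nat_lit 5) (nat_lit 2) (nat_lit 4) (nat_lit 248) (nat_lit 218) (nat_lit 134))))) (XT.nd (nat_lit 234)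 (nat_lit 0) (nat_lit 0) (XT.nd (nat_lit 78) (nat_lit 0) (nat_lit 0) (XT.lf (nat_lit 0) (nat_lit 577351716648) (nat_lit 76) (nat_lit 517877081661) (nat_lit 76) (nat_lit 393279253129) (nat_lit 1) (nat_lit 4) (nat_lit 2) (nat_lit 5) (nat_lit 2) (nat_lit 4) (nat_lit 249) (nat_lit 218) (nat_lit 133)) (XT.nd (nat_lit 78) (nat_lit 0) (nat_lit 0) (XT.lf (nat_lit 0) (nat_lit 754303519122) (nat_lit 76) (nat_lit 537044828442) (nat_lit 76) (nat_lit 412446887296) (nat_lit 1) (nat_lit 4) (nat_lit 2) (nat_lit 5) (nat_lit 2) (nat_lit 4) (nat_lit 250) (nat_lit 218) (nat_lit 132)) (XT.lf (nat_lit 0) (nat_lit 957797939304) (nat_lit 76) (nat_lit 559087804530) (nat_lit 76) (nat_lit 434489765459) (nat_lit 1) (nat_lit 4) (nat_lit 2) (nat_lit 5) (nat_lit 2) (nat_lit 4) (nat_lit 251) (nat_lit 218) (nat_lit 131)))) (XT.nd (nat_lit 156) (nat_lit 0) (nat_lit 0) (XT.nd (nat_lit 78) (nat_lit 0) (nat_lit 0) (XT.lf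 (nat_lit 0) (nat_lit 1191816389763) (nat_lit 76) (nat_lit 584437285546) (nat_lit 76) (nat_lit 459839161323) (nat_lit 1) (nat_lit 4) (nat_lit 2) (nat_lit 5) (nat_lit 2) (nat_lit 4) (nat_lit 252) (nat_lit 218) (nat_lit 130)) (XT.lf (nat_lit 0) (nat_lit 1460937492354) (nat_lit 76) (nat_lit 613589239595) (nat_lit 76) (nat_lit 488991041328) (nat_lit 1) (nat_lit 4) (nat_lit 2) (nat_lit 5) (nat_lit 2) (nat_lit 4) (nat_lit 253) (nat_lit 218) (nat_lit 129))) (XT.nd (nat_lit 78) (nat_lit 0) (nat_lit 0) (XT.lf (nat_lit 0) (nat_lit 1770426659955) (nat_lit 76) (nat_lit 647114030997) (nat_lit 76) (nat_lit 522515768342) (nat_lit 1) (nat_lit 4) (nat_lit 2) (nat_lit 5) (nat_lit 2) (nat_lit 4) (nat_lit 254) (nat_lit 218) (nat_lit 128)) (XT.lf (nat_lit 0) (nat_lit 2126339115411) (nat_lit 76) (nat_lit 685667579584) (nat_lit 76) (nat_lit 561069260940) (nat_lit 1) (nat_lit 4) (nat_lit 2) (nat_lit 5) (nat_lit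 2) (nat_lit 4) (nat_lit 255) (nat_lit 218) (nat_lit 127)))))) (XT.nd (nat_lit 546) (nat_lit 0) (nat_lit 0) (XT.nd (nat_lit 234) (nat_lit 0) (nat_lit 0) (XT.nd (nat_lit 78) (nat_lit 0) (nat_lit 0) (XT.lf (nat_lit 0) (nat_lit 2535638363284) (nat_lit 76) (nat_lit 730004193913) (nat_lit 76) (nat_lit 605405826583) (nat_lit 1) (nat_lit 4) (nat_lit 2) (nat_lit 5) (nat_lit 2) (nat_lit 4) (nat_lit 256) (nat_lit 218) (nat_lit 126)) (XT.nd (nat_lit 78) (nat_lit 0) (nat_lit 0) (XT.lf (nat_lit 0) (nat_lit 3006332432337) (nat_lit 76) (nat_lit 780991329484) (nat_lit 76) (nat_lit 656392919819) (nat_lit 1) (nat_lit 4) (nat_lit 2) (nat_lit 5) (nat_lit 2) (nat_lit 4) (nat_lit 257) (nat_lit 218) (nat_lit 125)) (XT.lf (nat_lit 0) (nat_lit 3547630554356) (nat_lit 76) (nat_lit 839626560687) (nat_lit 76) (nat_lit 715028114209) (nat_lit 1) (nat_lit 4) (nat_lit 2) (nat_lit 5) (nat_lit 2) (nat_lit 4) (nat_lit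 258) (nat_lit 218) (nat_lit 124)))) (XT.nd (nat_lit 156) (nat_lit 0) (nat_lit 0) (XT.nd (nat_lit 78) (nat_lit 0) (nat_lit 0) (XT.lf (nat_lit 0) (nat_lit 4170123344772) (nat_lit 76) (nat_lit 907057098569) (nat_lit 76) (nat_lit 782458620078) (nat_lit 1) (nat_lit 4) (nat_lit 2) (nat_lit 5) (nat_lit 2) (nat_lit 4) (nat_lit 259) (nat_lit 218) (nat_lit 123)) (XT.lf (nat_lit 0) (nat_lit 4885990010354) (nat_lit 76) (nat_lit 984602236261) (nat_lit 76) (nat_lit 860003729934) (nat_lit 1) (nat_lit 4) (nat_lit 2) (nat_lit 5) (nat_lit 2) (nat_lit 4) (nat_lit 260) (nat_lit 218) (nat_lit 122))) (XT.nd (nat_lit 78) (nat_lit 0) (nat_lit 0) (XT.lf (nat_lit 0) (nat_lit 5709236638038) (nat_lit 76) (nat_lit 1073779161241) (nat_lit 76) (nat_lit 949180630708) (nat_lit 1) (nat_lit 4) (nat_lit 2) (nat_lit 5) (nat_lit 2) (nat_lit 4) (nat_lit 261) (nat_lit 218) (nat_lit 121)) (XT.lf (nat_lit 0) (nat_lit 6655970227060)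 (nat_lit 76) (nat_lit 1176332639431) (nat_lit 76) (nat_lit 1051734087850) (nat_lit 1) (nat_lit 4) (nat_lit 2) (nat_lit 5) (nat_lit 2) (nat_lit 4) (nat_lit 262) (nat_lit 218) (nat_lit 120))))) (XT.nd (nat_lit 234) (nat_lit 0) (nat_lit 0) (XT.nd (nat_lit 78) (nat_lit 0) (nat_lit 0) (XT.lf (nat_lit 0) (nat_lit 7744713825901) (nat_lit 76) (nat_lit 1294269151926) (nat_lit 76) (nat_lit 1169670582043) (nat_lit 1) (nat_lit 4) (nat_lit 2) (nat_lit 5) (nat_lit 2) (nat_lit 4) (nat_lit 263) (nat_lit 218) (nat_lit 119)) (XT.nd (nat_lit 78) (nat_lit 0) (nat_lit 0) (XT.lf (nat_lit 0) (nat_lit 8996768939756) (nat_lit 76) (nat_lit 1429896152233) (nat_lit 76) (nat_lit 1305297566434) (nat_lit 1) (nat_lit 4) (nat_lit 2) (nat_lit 5) (nat_lit 2) (nat_lit 4) (nat_lit 264) (nat_lit 218) (nat_lit 118)) (XT.lf (nat_lit 0) (nat_lit 10436632299114) (nat_lit 76) (nat_lit 1585867212096) (nat_lit 76) (nat_lit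 1461268612457) (nat_lit 1) (nat_lit 4) (nat_lit 2) (nat_lit 5) (nat_lit 2) (nat_lit 4) (nat_lit 265) (nat_lit 218) (nat_lit 117)))) (XT.nd (nat_lit 27690) (nat_lit 0) (nat_lit 836) (XT.nd (nat_lit 27612) (nat_lit 0) (nat_lit 836) (XT.lf (nat_lit 0) (nat_lit 12092475143614) (nat_lit 76) (nat_lit 1765233939208) (nat_lit 76) (nat_lit 1640635327534) (nat_lit 1) (nat_lit 4) (nat_lit 2) (nat_lit 5) (nat_lit 2) (nat_lit 4) (nat_lit 266) (nat_lit 218) (nat_lit 116)) (XT.lf (nat_lit 0) (nat_lit 10768072541) (nat_lit 0) (nat_lit 10768072541) (nat_lit 228) (nat_lit 7818744949) (nat_lit 12) (nat_lit 5) (nat_lit 12) (nat_lit 3) (nat_lit 15) (nat_lit 3) (nat_lit 219) (nat_lit 219) (nat_lit 162))) (XT.nd (nat_lit 78) (nat_lit 0) (nat_lit 0) (XT.lf (nat_lit 0) (nat_lit 46388086798) (nat_lit 228) (nat_lit 15164306489) (nat_lit 304) (nat_lit 1547517596) (nat_lit 12) (nat_lit 5) (nat_lit 15) (nat_lit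 3) (nat_lit 16) (nat_lit 5) (nat_lit 220) (nat_lit 219) (nat_lit 161)) (XT.lf (nat_lit 76) (nat_lit 10010221647) (nat_lit 0) (nat_lit 41628442632) (nat_lit 304) (nat_lit 16294338125) (nat_lit 13) (nat_lit 5) (nat_lit 12) (nat_lit 5) (nat_lit 16) (nat_lit 5) (nat_lit 221) (nat_lit 219) (nat_lit 160))))))) (XT.nd (nat_lit 1014) (nat_lit 304) (nat_lit 0) (XT.nd (nat_lit 468) (nat_lit 228) (nat_lit 0) (XT.nd (nat_lit 234) (nat_lit 152) (nat_lit 0) (XT.nd (nat_lit 78) (nat_lit 152) (nat_lit 0) (XT.lf (nat_lit 76) (nat_lit 40663426204) (nat_lit 0) (nat_lit 17803729406) (nat_lit 304) (nat_lit 14905398861) (nat_lit 13) (nat_lit 5) (nat_lit 12) (nat_lit 5) (nat_lit 16) (nat_lit 5) (nat_lit 222) (nat_lit 219) (nat_lit 159)) (XT.nd (nat_lit 78) (nat_lit 228) (nat_lit 0) (XT.lf (nat_lit 0) (nat_lit 66715191918) (nat_lit 228) (nat_lit 4112625495) (nat_lit 76) (nat_lit 8740971156) (nat_lit 13)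 (nat_lit 5) (nat_lit 16) (nat_lit 5) (nat_lit 14) (nat_lit 5) (nat_lit 223) (nat_lit 219) (nat_lit 158)) (XT.lf (nat_lit 0) (nat_lit 30652829032) (nat_lit 228) (nat_lit 47662909206) (nat_lit 304) (nat_lit 8061458565) (nat_lit 10) (nat_lit 5) (nat_lit 13) (nat_lit 5) (nat_lit 14) (nat_lit 5) (nat_lit 224) (nat_lit 219) (nat_lit 157)))) (XT.nd (nat_lit 78) (nat_lit 152) (nat_lit 0) (XT.lf (nat_lit 0) (nat_lit 71093726106) (nat_lit 228) (nat_lit 20776022441) (nat_lit 304) (nat_lit 2305140600) (nat_lit 10) (nat_lit 5) (nat_lit 13) (nat_lit 5) (nat_lit 14) (nat_lit 5) (nat_lit 225) (nat_lit 219) (nat_lit 156)) (XT.nd (nat_lit 78) (nat_lit 0) (nat_lit 0) (XT.lf (nat_lit 0) (nat_lit 5037491697) (nat_lit 152) (nat_lit 87804071838) (nat_lit 76) (nat_lit 10107848056) (nat_lit 8) (nat_lit 5) (nat_lit 10) (nat_lit 5) (nat_lit 9) (nat_lit 5) (nat_lit 226) (nat_lit 219) (nat_lit 155)) (XT.lf (nat_lit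 0) (nat_lit 15497468051) (nat_lit 152) (nat_lit 52317551873) (nat_lit 76) (nat_lit 44870854275) (nat_lit 8) (nat_lit 5) (nat_lit 10) (nat_lit 5) (nat_lit 9) (nat_lit 5) (nat_lit 227) (nat_lit 219) (nat_lit 154))))) (XT.nd (nat_lit 234) (nat_lit 76) (nat_lit 0) (XT.nd (nat_lit 78) (nat_lit 152) (nat_lit 0) (XT.lf (nat_lit 0) (nat_lit 27525265943) (nat_lit 152) (nat_lit 11509520534) (nat_lit 76) (nat_lit 84848213216) (nat_lit 8) (nat_lit 5) (nat_lit 10) (nat_lit 5) (nat_lit 9) (nat_lit 5) (nat_lit 228) (nat_lit 219) (nat_lit 153)) (XT.nd (nat_lit 78) (nat_lit 0) (nat_lit 0) (XT.lf (nat_lit 0) (nat_lit 38879787748) (nat_lit 152) (nat_lit 4086353204) (nat_lit 228) (nat_lit 93552231948) (nat_lit 6) (nat_lit 5) (nat_lit 8) (nat_lit 5) (nat_lit 9) (nat_lit 5) (nat_lit 229) (nat_lit 219) (nat_lit 152)) (XT.lf (nat_lit 0) (nat_lit 62847484070) (nat_lit 228) (nat_lit 54362814414) (nat_lit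 76) (nat_lit 33520116123) (nat_lit 6) (nat_lit 5) (nat_lit 9) (nat_lit 5) (nat_lit 7) (nat_lit 4) (nat_lit 230) (nat_lit 219) (nat_lit 151)))) (XT.nd (nat_lit 156) (nat_lit 0) (nat_lit 0) (XT.nd (nat_lit 78) (nat_lit 76) (nat_lit 0) (XT.lf (nat_lit 0) (nat_lit 85904790515) (nat_lit 228) (nat_lit 4791448650) (nat_lit 76) (nat_lit 76348970471) (nat_lit 6) (nat_lit 5) (nat_lit 9) (nat_lit 5) (nat_lit 7) (nat_lit 4) (nat_lit 231) (nat_lit 219) (nat_lit 150)) (XT.lf (nat_lit 0) (nat_lit 57317383712) (nat_lit 76) (nat_lit 57475981246) (nat_lit 152) (nat_lit 70657968025) (nat_lit 5) (nat_lit 5) (nat_lit 6) (nat_lit 5) (nat_lit 7) (nat_lit 4) (nat_lit 232) (nat_lit 219) (nat_lit 149))) (XT.nd (nat_lit 78) (nat_lit 0) (nat_lit 0) (XT.lf (nat_lit 0) (nat_lit 129280053033) (nat_lit 76) (nat_lit 18984969118) (nat_lit 152) (nat_lit 58315891772) (nat_lit 5) (nat_lit 5) (nat_lit 6) (nat_lit 5)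 (nat_lit 7) (nat_lit 4) (nat_lit 233) (nat_lit 219) (nat_lit 148)) (XT.lf (nat_lit 0) (nat_lit 187803616102) (nat_lit 152) (nat_lit 19890523776) (nat_lit 0) (nat_lit 23028871358) (nat_lit 5) (nat_lit 5) (nat_lit 7) (nat_lit 4) (nat_lit 5) (nat_lit 4) (nat_lit 234) (nat_lit 219) (nat_lit 147)))))) (XT.nd (nat_lit 546) (nat_lit 76) (nat_lit 0) (XT.nd (nat_lit 234) (nat_lit 76) (nat_lit 0) (XT.nd (nat_lit 78) (nat_lit 76) (nat_lit 0) (XT.lf (nat_lit 0) (nat_lit 49646366460) (nat_lit 76) (nat_lit 186585915891) (nat_lit 76) (nat_lit 21810254803) (nat_lit 4) (nat_lit 4) (nat_lit 5) (nat_lit 5) (nat_lit 5) (nat_lit 4) (nat_lit 235) (nat_lit 219) (nat_lit 146)) (XT.nd (nat_lit 78) (nat_lit 0) (nat_lit 0) (XT.lf (nat_lit 0) (nat_lit 3334519079) (nat_lit 152) (nat_lit 157607241886) (nat_lit 76) (nat_lit 128339613242) (nat_lit 3) (nat_lit 5) (nat_lit 5) (nat_lit 5) (nat_lit 4) (nat_lit 4) (nat_lit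 236) (nat_lit 219) (nat_lit 145)) (XT.lf (nat_lit 0) (nat_lit 30017614144) (nat_lit 152) (nat_lit 100239280383) (nat_lit 76) (nat_lit 194793425058) (nat_lit 3) (nat_lit 5) (nat_lit 5) (nat_lit 5) (nat_lit 4) (nat_lit 4) (nat_lit 237) (nat_lit 219) (nat_lit 144)))) (XT.nd (nat_lit 156) (nat_lit 0) (nat_lit 0) (XT.nd (nat_lit 78) (nat_lit 76) (nat_lit 0) (XT.lf (nat_lit 0) (nat_lit 60702790650) (nat_lit 152) (nat_lit 34266753406) (nat_lit 76) (nat_lit 271215123847) (nat_lit 3) (nat_lit 5) (nat_lit 5) (nat_lit 5) (nat_lit 4) (nat_lit 4) (nat_lit 238) (nat_lit 219) (nat_lit 143)) (XT.lf (nat_lit 0) (nat_lit 45666668494) (nat_lit 76) (nat_lit 52214701608) (nat_lit 152) (nat_lit 315324207621) (nat_lit 2) (nat_lit 5) (nat_lit 3) (nat_lit 5) (nat_lit 4) (nat_lit 4) (nat_lit 239) (nat_lit 219) (nat_lit 142))) (XT.nd (nat_lit 78) (nat_lit 0) (nat_lit 0) (XT.lf (nat_lit 0) (nat_lit 141440697602)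 (nat_lit 76) (nat_lit 986944450) (nat_lit 152) (nat_lit 324583348931) (nat_lit 2) (nat_lit 5) (nat_lit 3) (nat_lit 5) (nat_lit 4) (nat_lit 4) (nat_lit 240) (nat_lit 219) (nat_lit 141)) (XT.lf (nat_lit 0) (nat_lit 196054126445) (nat_lit 152) (nat_lit 279705424140) (nat_lit 0) (nat_lit 52767927339) (nat_lit 2) (nat_lit 5) (nat_lit 4) (nat_lit 4) (nat_lit 2) (nat_lit 4) (nat_lit 241) (nat_lit 219) (nat_lit 140))))) (XT.nd (nat_lit 234) (nat_lit 76) (nat_lit 0) (XT.nd (nat_lit 78) (nat_lit 0) (nat_lit 0) (XT.lf (nat_lit 0) (nat_lit 257771339032) (nat_lit 152) (nat_lit 227008247292) (nat_lit 0) (nat_lit 114484840372) (nat_lit 2) (nat_lit 5) (nat_lit 4) (nat_lit 4) (nat_lit 2) (nat_lit 4) (nat_lit 242) (nat_lit 219) (nat_lit 139)) (XT.nd (nat_lit 78) (nat_lit 0) (nat_lit 0) (XT.lf (nat_lit 0) (nat_lit 328745923229) (nat_lit 152) (nat_lit 166406863853) (nat_lit 0) (nat_lit 185459164087)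 (nat_lit 2) (nat_lit 5) (nat_lit 4) (nat_lit 4) (nat_lit 2) (nat_lit 4) (nat_lit 243) (nat_lit 219) (nat_lit 138)) (XT.lf (nat_lit 0) (nat_lit 410366512206) (nat_lit 152) (nat_lit 96715594581) (nat_lit 0) (nat_lit 267079526558) (nat_lit 2) (nat_lit 5) (nat_lit 4) (nat_lit 4) (nat_lit 2) (nat_lit 4) (nat_lit 244) (nat_lit 219) (nat_lit 137)))) (XT.nd (nat_lit 156) (nat_lit 0) (nat_lit 0) (XT.nd (nat_lit 78) (nat_lit 76) (nat_lit 0) (XT.lf (nat_lit 0) (nat_lit 504230030529) (nat_lit 152) (nat_lit 16570914642) (nat_lit 0) (nat_lit 360942847919) (nat_lit 2) (nat_lit 5) (nat_lit 4) (nat_lit 4) (nat_lit 2) (nat_lit 4) (nat_lit 245) (nat_lit 219) (nat_lit 136)) (XT.lf (nat_lit 0) (nat_lit 82982939125) (nat_lit 76) (nat_lit 532626145762) (nat_lit 76) (nat_lit 389338791881) (nat_lit 1) (nat_lit 4) (nat_lit 2) (nat_lit 5) (nat_lit 2) (nat_lit 4) (nat_lit 246) (nat_lit 219) (nat_lit 135)))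 (XT.nd (nat_lit 78) (nat_lit 0) (nat_lit 0) (XT.lf (nat_lit 0) (nat_lit 199331983615) (nat_lit 76) (nat_lit 545229090845) (nat_lit 76) (nat_lit 401941588033) (nat_lit 1) (nat_lit 4) (nat_lit 2) (nat_lit 5) (nat_lit 2) (nat_lit 4) (nat_lit 247) (nat_lit 219) (nat_lit 134)) (XT.lf (nat_lit 0) (nat_lit 333133182881) (nat_lit 76) (nat_lit 559722566682) (nat_lit 76) (nat_lit 416434934365) (nat_lit 1) (nat_lit 4) (nat_lit 2) (nat_lit 5) (nat_lit 2) (nat_lit 4) (nat_lit 248) (nat_lit 219) (nat_lit 133))))))))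
noncomputable def xc47 : XT := (XT.nd (nat_lit 29640) (nat_lit 0) (nat_lit 0) (XT.nd (nat_lit 1014) (nat_lit 0) (nat_lit 0) (XT.nd (nat_lit 468) (nat_lit 0) (nat_lit 0) (XT.nd (nat_lit 234) (nat_lit 0) (nat_lit 0) (XT.nd (nat_lit 78) (nat_lit 0) (nat_lit 0) (XT.lf (nat_lit 0) (nat_lit 487004386474) (nat_lit 76) (nat_lit 576390141280) (nat_lit 76) (nat_lit 433102396349) (nat_lit 1) (nat_lit 4) (nat_lit 2) (nat_lit 5) (nat_lit 2) (nat_lit 4) (nat_lit 249) (nat_lit 219) (nat_lit 132)) (XT.nd (nat_lit 78) (nat_lit 0) (nat_lit 0) (XT.lf (nat_lit 0) (nat_lit 663956117942) (nat_lit 76) (nat_lit 595557919359) (nat_lit 76) (nat_lit 452270076503) (nat_lit 1) (nat_lit 4) (nat_lit 2) (nat_lit 5) (nat_lit 2) (nat_lit 4) (nat_lit 250) (nat_lit 219) (nat_lit 131)) (XT.lf (nat_lit 0) (nat_lit 867450476379) (nat_lit 76) (nat_lit 617600922663) (nat_lit 76) (nat_lit 474312994655) (nat_lit 1) (nat_lit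 4) (nat_lit 2) (nat_lit 5) (nat_lit 2) (nat_lit 4) (nat_lit 251) (nat_lit 219) (nat_lit 130)))) (XT.nd (nat_lit 78) (nat_lit 0) (nat_lit 0) (XT.lf (nat_lit 0) (nat_lit 1101468873147) (nat_lit 76) (nat_lit 642950427344) (nat_lit 76) (nat_lit 499662425291) (nat_lit 1) (nat_lit 4) (nat_lit 2) (nat_lit 5) (nat_lit 2) (nat_lit 4) (nat_lit 252) (nat_lit 219) (nat_lit 129)) (XT.nd (nat_lit 78) (nat_lit 0) (nat_lit 0) (XT.lf (nat_lit 0) (nat_lit 1370589929050) (nat_lit 76) (nat_lit 672102401973) (nat_lit 76) (nat_lit 528814335533) (nat_lit 1) (nat_lit 4) (nat_lit 2) (nat_lit 5) (nat_lit 2) (nat_lit 4) (nat_lit 253) (nat_lit 219) (nat_lit 128)) (XT.lf (nat_lit 0) (nat_lit 1680079056053) (nat_lit 76) (nat_lit 705627211270) (nat_lit 76) (nat_lit 562339088841) (nat_lit 1) (nat_lit 4) (nat_lit 2) (nat_lit 5) (nat_lit 2) (nat_lit 4) (nat_lit 254) (nat_lit 219) (nat_lit 127))))) (XT.nd (nat_lit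 234) (nat_lit 0) (nat_lit 0) (XT.nd (nat_lit 78) (nat_lit 0) (nat_lit 0) (XT.lf (nat_lit 0) (nat_lit 2035991476206) (nat_lit 76) (nat_lit 744180775417) (nat_lit 76) (nat_lit 600892604302) (nat_lit 1) (nat_lit 4) (nat_lit 2) (nat_lit 5) (nat_lit 2) (nat_lit 4) (nat_lit 255) (nat_lit 219) (nat_lit 126)) (XT.nd (nat_lit 78) (nat_lit 0) (nat_lit 0) (XT.lf (nat_lit 0) (nat_lit 2445290693381) (nat_lit 76) (nat_lit 788517403277) (nat_lit 76) (nat_lit 645229189827) (nat_lit 1) (nat_lit 4) (nat_lit 2) (nat_lit 5) (nat_lit 2) (nat_lit 4) (nat_lit 256) (nat_lit 219) (nat_lit 125)) (XT.lf (nat_lit 0) (nat_lit 2915984735740) (nat_lit 76) (nat_lit 839504550614) (nat_lit 76) (nat_lit 696216300350) (nat_lit 1) (nat_lit 4) (nat_lit 2) (nat_lit 5) (nat_lit 2) (nat_lit 4) (nat_lit 257) (nat_lit 219) (nat_lit 124)))) (XT.nd (nat_lit 156) (nat_lit 0) (nat_lit 0) (XT.nd (nat_lit 78) (nat_lit 0) (nat_lit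 0) (XT.lf (nat_lit 0) (nat_lit 3457282834547) (nat_lit 76) (nat_lit 898139792049) (nat_lit 76) (nat_lit 754851509773) (nat_lit 1) (nat_lit 4) (nat_lit 2) (nat_lit 5) (nat_lit 2) (nat_lit 4) (nat_lit 258) (nat_lit 219) (nat_lit 123)) (XT.lf (nat_lit 0) (nat_lit 4079775604779) (nat_lit 76) (nat_lit 965570338828) (nat_lit 76) (nat_lit 822282028715) (nat_lit 1) (nat_lit 4) (nat_lit 2) (nat_lit 5) (nat_lit 2) (nat_lit 4) (nat_lit 259) (nat_lit 219) (nat_lit 122))) (XT.nd (nat_lit 78) (nat_lit 0) (nat_lit 0) (XT.lf (nat_lit 0) (nat_lit 4795642252810) (nat_lit 76) (nat_lit 1043115484256) (nat_lit 76) (nat_lit 899827149938) (nat_lit 1) (nat_lit 4) (nat_lit 2) (nat_lit 5) (nat_lit 2) (nat_lit 4) (nat_lit 260) (nat_lit 219) (nat_lit 121)) (XT.lf (nat_lit 0) (nat_lit 5618888865231) (nat_lit 76) (nat_lit 1132292415963) (nat_lit 76) (nat_lit 989004060597) (nat_lit 1) (nat_lit 4) (nat_lit 2) (nat_lit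 5) (nat_lit 2) (nat_lit 4) (nat_lit 261) (nat_lit 219) (nat_lit 120)))))) (XT.nd (nat_lit 28080) (nat_lit 0) (nat_lit 532) (XT.nd (nat_lit 234) (nat_lit 0) (nat_lit 0) (XT.nd (nat_lit 78) (nat_lit 0) (nat_lit 0) (XT.lf (nat_lit 0) (nat_lit 6565622440981) (nat_lit 76) (nat_lit 1234845900003) (nat_lit 76) (nat_lit 1091557526334) (nat_lit 1) (nat_lit 4) (nat_lit 2) (nat_lit 5) (nat_lit 2) (nat_lit 4) (nat_lit 262) (nat_lit 219) (nat_lit 119)) (XT.nd (nat_lit 78) (nat_lit 0) (nat_lit 0) (XT.lf (nat_lit 0) (nat_lit 7654366028282) (nat_lit 76) (nat_lit 1352782417585) (nat_lit 76) (nat_lit 1209494028001) (nat_lit 1) (nat_lit 4) (nat_lit 2) (nat_lit 5) (nat_lit 2) (nat_lit 4) (nat_lit 263) (nat_lit 219) (nat_lit 118)) (XT.lf (nat_lit 0) (nat_lit 8906421132102) (nat_lit 76) (nat_lit 1488409422315) (nat_lit 76) (nat_lit 1345121018891) (nat_lit 1) (nat_lit 4) (nat_lit 2) (nat_lit 5) (nat_lit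 2) (nat_lit 4) (nat_lit 264) (nat_lit 219) (nat_lit 117)))) (XT.nd (nat_lit 1092) (nat_lit 0) (nat_lit 0) (XT.nd (nat_lit 78) (nat_lit 0) (nat_lit 0) (XT.lf (nat_lit 0) (nat_lit 10346284482733) (nat_lit 76) (nat_lit 1644380486024) (nat_lit 76) (nat_lit 1501092070566) (nat_lit 1) (nat_lit 4) (nat_lit 2) (nat_lit 5) (nat_lit 2) (nat_lit 4) (nat_lit 265) (nat_lit 219) (nat_lit 116)) (XT.lf (nat_lit 0) (nat_lit 12002127319645) (nat_lit 76) (nat_lit 1823747216481) (nat_lit 76) (nat_lit 1680458790558) (nat_lit 1) (nat_lit 4) (nat_lit 2) (nat_lit 5) (nat_lit 2) (nat_lit 4) (nat_lit 266) (nat_lit 219) (nat_lit 115))) (XT.nd (nat_lit 26676) (nat_lit 0) (nat_lit 836) (XT.lf (nat_lit 0) (nat_lit 77415708562158) (nat_lit 76) (nat_lit 8909577763684) (nat_lit 76) (nat_lit 8766289279335) (nat_lit 1) (nat_lit 4) (nat_lit 2) (nat_lit 5) (nat_lit 2) (nat_lit 4) (nat_lit 279) (nat_lit 219) (nat_lit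 102)) (XT.lf (nat_lit 0) (nat_lit 12390488757) (nat_lit 0) (nat_lit 12390488757) (nat_lit 228) (nat_lit 8974700241) (nat_lit 12) (nat_lit 5) (nat_lit 12) (nat_lit 3) (nat_lit 15) (nat_lit 3) (nat_lit 220) (nat_lit 220) (nat_lit 160))))) (XT.nd (nat_lit 234) (nat_lit 304) (nat_lit 0) (XT.nd (nat_lit 78) (nat_lit 0) (nat_lit 0) (XT.lf (nat_lit 0) (nat_lit 53370842966) (nat_lit 228) (nat_lit 17421649029) (nat_lit 304) (nat_lit 1768229818) (nat_lit 12) (nat_lit 5) (nat_lit 15) (nat_lit 3) (nat_lit 16) (nat_lit 5) (nat_lit 221) (nat_lit 220) (nat_lit 159)) (XT.nd (nat_lit 78) (nat_lit 0) (nat_lit 0) (XT.lf (nat_lit 76) (nat_lit 11528271807) (nat_lit 0) (nat_lit 47878217913) (nat_lit 304) (nat_lit 18712729411) (nat_lit 13) (nat_lit 5) (nat_lit 12) (nat_lit 5) (nat_lit 16) (nat_lit 5) (nat_lit 222) (nat_lit 220) (nat_lit 158)) (XT.lf (nat_lit 76) (nat_lit 46777302667) (nat_lit 0) (nat_lit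 20479079152) (nat_lit 304) (nat_lit 17118809183) (nat_lit 13) (nat_lit 5) (nat_lit 12) (nat_lit 5) (nat_lit 16) (nat_lit 5) (nat_lit 223) (nat_lit 220) (nat_lit 157)))) (XT.nd (nat_lit 156) (nat_lit 152) (nat_lit 0) (XT.nd (nat_lit 78) (nat_lit 228) (nat_lit 0) (XT.lf (nat_lit 0) (nat_lit 76738952889) (nat_lit 228) (nat_lit 4714034511) (nat_lit 76) (nat_lit 10048322163) (nat_lit 13) (nat_lit 5) (nat_lit 16) (nat_lit 5) (nat_lit 14) (nat_lit 5) (nat_lit 224) (nat_lit 220) (nat_lit 156)) (XT.lf (nat_lit 0) (nat_lit 35265534340) (nat_lit 228) (nat_lit 54812509015) (nat_lit 304) (nat_lit 9253208734) (nat_lit 10) (nat_lit 5) (nat_lit 13) (nat_lit 5) (nat_lit 14) (nat_lit 5) (nat_lit 225) (nat_lit 220) (nat_lit 155))) (XT.nd (nat_lit 78) (nat_lit 152) (nat_lit 0) (XT.lf (nat_lit 0) (nat_lit 81770638025) (nat_lit 228) (nat_lit 23892567918) (nat_lit 304) (nat_lit 2635721590) (nat_lit 10)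 (nat_lit 5) (nat_lit 13) (nat_lit 5) (nat_lit 14) (nat_lit 5) (nat_lit 226) (nat_lit 220) (nat_lit 154)) (XT.lf (nat_lit 0) (nat_lit 5805766286) (nat_lit 152) (nat_lit 100958890876) (nat_lit 76) (nat_lit 11625082744) (nat_lit 8) (nat_lit 5) (nat_lit 10) (nat_lit 5) (nat_lit 9) (nat_lit 5) (nat_lit 227) (nat_lit 220) (nat_lit 153))))))) (XT.nd (nat_lit 1014) (nat_lit 76) (nat_lit 0) (XT.nd (nat_lit 468) (nat_lit 228) (nat_lit 0) (XT.nd (nat_lit 234) (nat_lit 76) (nat_lit 0) (XT.nd (nat_lit 78) (nat_lit 152) (nat_lit 0) (XT.lf (nat_lit 0) (nat_lit 17833088984) (nat_lit 152) (nat_lit 60151452709) (nat_lit 76) (nat_lit 51602401964) (nat_lit 8) (nat_lit 5) (nat_lit 10) (nat_lit 5) (nat_lit 9) (nat_lit 5) (nat_lit 228) (nat_lit 220) (nat_lit 152)) (XT.nd (nat_lit 78) (nat_lit 152) (nat_lit 0) (XT.lf (nat_lit 0) (nat_lit 31663621683) (nat_lit 152) (nat_lit 13224007792) (nat_lit 76) (nat_lit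 97576244805) (nat_lit 8) (nat_lit 5) (nat_lit 10) (nat_lit 5) (nat_lit 9) (nat_lit 5) (nat_lit 229) (nat_lit 220) (nat_lit 151)) (XT.lf (nat_lit 0) (nat_lit 44723153968) (nat_lit 152) (nat_lit 4696698225) (nat_lit 228) (nat_lit 107574835961) (nat_lit 6) (nat_lit 5) (nat_lit 8) (nat_lit 5) (nat_lit 9) (nat_lit 5) (nat_lit 230) (nat_lit 220) (nat_lit 150)))) (XT.nd (nat_lit 78) (nat_lit 76) (nat_lit 0) (XT.lf (nat_lit 0) (nat_lit 72282344149) (nat_lit 228) (nat_lit 62506166360) (nat_lit 76) (nat_lit 38550199438) (nat_lit 6) (nat_lit 5) (nat_lit 9) (nat_lit 5) (nat_lit 7) (nat_lit 4) (nat_lit 231) (nat_lit 220) (nat_lit 149)) (XT.nd (nat_lit 78) (nat_lit 76) (nat_lit 0) (XT.lf (nat_lit 0) (nat_lit 98797237326) (nat_lit 228) (nat_lit 5500539673) (nat_lit 76) (nat_lit 87803112474) (nat_lit 6) (nat_lit 5) (nat_lit 9) (nat_lit 5) (nat_lit 7) (nat_lit 4) (nat_lit 232) (nat_lit 220) (nat_lit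 148)) (XT.lf (nat_lit 0) (nat_lit 65924179985) (nat_lit 76) (nat_lit 66094420839) (nat_lit 152) (nat_lit 81249417112) (nat_lit 5) (nat_lit 5) (nat_lit 6) (nat_lit 5) (nat_lit 7) (nat_lit 4) (nat_lit 233) (nat_lit 220) (nat_lit 147))))) (XT.nd (nat_lit 234) (nat_lit 152) (nat_lit 0) (XT.nd (nat_lit 78) (nat_lit 76) (nat_lit 0) (XT.lf (nat_lit 0) (nat_lit 148680051176) (nat_lit 76) (nat_lit 21830142664) (nat_lit 152) (nat_lit 67056974567) (nat_lit 5) (nat_lit 5) (nat_lit 6) (nat_lit 5) (nat_lit 7) (nat_lit 4) (nat_lit 234) (nat_lit 220) (nat_lit 146)) (XT.nd (nat_lit 78) (nat_lit 76) (nat_lit 0) (XT.lf (nat_lit 0) (nat_lit 215978962745) (nat_lit 152) (nat_lit 22866479474) (nat_lit 0) (nat_lit 26485239331) (nat_lit 5) (nat_lit 5) (nat_lit 7) (nat_lit 4) (nat_lit 5) (nat_lit 4) (nat_lit 235) (nat_lit 220) (nat_lit 145)) (XT.lf (nat_lit 0) (nat_lit 57100597803) (nat_lit 76) (nat_lit 214571005788)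 (nat_lit 76) (nat_lit 25076589487) (nat_lit 4) (nat_lit 4) (nat_lit 5) (nat_lit 5) (nat_lit 5) (nat_lit 4) (nat_lit 236) (nat_lit 220) (nat_lit 144)))) (XT.nd (nat_lit 156) (nat_lit 76) (nat_lit 0) (XT.nd (nat_lit 78) (nat_lit 0) (nat_lit 0) (XT.lf (nat_lit 0) (nat_lit 3838818925) (nat_lit 152) (nat_lit 181241558120) (nat_lit 76) (nat_lit 147592545059) (nat_lit 3) (nat_lit 5) (nat_lit 5) (nat_lit 5) (nat_lit 4) (nat_lit 4) (nat_lit 237) (nat_lit 220) (nat_lit 143)) (XT.lf (nat_lit 0) (nat_lit 34523840600) (nat_lit 152) (nat_lit 115269285442) (nat_lit 76) (nat_lit 224014169105) (nat_lit 3) (nat_lit 5) (nat_lit 5) (nat_lit 5) (nat_lit 4) (nat_lit 4) (nat_lit 238) (nat_lit 220) (nat_lit 142))) (XT.nd (nat_lit 78) (nat_lit 76) (nat_lit 0) (XT.lf (nat_lit 0) (nat_lit 69811326060) (nat_lit 152) (nat_lit 39401647288) (nat_lit 76) (nat_lit 311898897022) (nat_lit 3) (nat_lit 5) (nat_lit 5)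 (nat_lit 5) (nat_lit 4) (nat_lit 4) (nat_lit 239) (nat_lit 220) (nat_lit 141)) (XT.lf (nat_lit 0) (nat_lit 52521555210) (nat_lit 76) (nat_lit 60044933016) (nat_lit 152) (nat_lit 362619463005) (nat_lit 2) (nat_lit 5) (nat_lit 3) (nat_lit 5) (nat_lit 4) (nat_lit 4) (nat_lit 240) (nat_lit 220) (nat_lit 140)))))) (XT.nd (nat_lit 546) (nat_lit 0) (nat_lit 0) (XT.nd (nat_lit 234) (nat_lit 76) (nat_lit 0) (XT.nd (nat_lit 78) (nat_lit 0) (nat_lit 0) (XT.lf (nat_lit 0) (nat_lit 162661051322) (nat_lit 76) (nat_lit 1133269741) (nat_lit 152) (nat_lit 373267915829) (nat_lit 2) (nat_lit 5) (nat_lit 3) (nat_lit 5) (nat_lit 4) (nat_lit 4) (nat_lit 241) (nat_lit 220) (nat_lit 139)) (XT.nd (nat_lit 78) (nat_lit 0) (nat_lit 0) (XT.lf (nat_lit 0) (nat_lit 225464509564) (nat_lit 152) (nat_lit 321657254502) (nat_lit 0) (nat_lit 60684476068) (nat_lit 2) (nat_lit 5) (nat_lit 4) (nat_lit 4) (nat_lit 2) (nat_lit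 4) (nat_lit 242) (nat_lit 220) (nat_lit 138)) (XT.lf (nat_lit 0) (nat_lit 296439008714) (nat_lit 152) (nat_lit 261056020683) (nat_lit 0) (nat_lit 131658748713) (nat_lit 2) (nat_lit 5) (nat_lit 4) (nat_lit 4) (nat_lit 2) (nat_lit 4) (nat_lit 243) (nat_lit 220) (nat_lit 137)))) (XT.nd (nat_lit 156) (nat_lit 76) (nat_lit 0) (XT.nd (nat_lit 78) (nat_lit 0) (nat_lit 0) (XT.lf (nat_lit 0) (nat_lit 378059523738) (nat_lit 152) (nat_lit 191364881515) (nat_lit 0) (nat_lit 213279066775) (nat_lit 2) (nat_lit 5) (nat_lit 4) (nat_lit 4) (nat_lit 2) (nat_lit 4) (nat_lit 244) (nat_lit 220) (nat_lit 136)) (XT.lf (nat_lit 0) (nat_lit 471922977754) (nat_lit 152) (nat_lit 111220314711) (nat_lit 0) (nat_lit 307142349519) (nat_lit 2) (nat_lit 5) (nat_lit 4) (nat_lit 4) (nat_lit 2) (nat_lit 4) (nat_lit 245) (nat_lit 220) (nat_lit 135))) (XT.nd (nat_lit 78) (nat_lit 76) (nat_lit 0) (XT.lf (nat_lit 0) (nat_lit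 579865829645) (nat_lit 152) (nat_lit 19054274397) (nat_lit 0) (nat_lit 415085052479) (nat_lit 2) (nat_lit 5) (nat_lit 4) (nat_lit 4) (nat_lit 2) (nat_lit 4) (nat_lit 246) (nat_lit 220) (nat_lit 134)) (XT.lf (nat_lit 0) (nat_lit 95432553915) (nat_lit 76) (nat_lit 612519109406) (nat_lit 76) (nat_lit 447738202735) (nat_lit 1) (nat_lit 4) (nat_lit 2) (nat_lit 5) (nat_lit 2) (nat_lit 4) (nat_lit 247) (nat_lit 220) (nat_lit 133))))) (XT.nd (nat_lit 234) (nat_lit 0) (nat_lit 0) (XT.nd (nat_lit 78) (nat_lit 0) (nat_lit 0) (XT.lf (nat_lit 0) (nat_lit 229233671524) (nat_lit 76) (nat_lit 627012621237) (nat_lit 76) (nat_lit 462231601952) (nat_lit 1) (nat_lit 4) (nat_lit 2) (nat_lit 5) (nat_lit 2) (nat_lit 4) (nat_lit 248) (nat_lit 220) (nat_lit 132)) (XT.nd (nat_lit 78) (nat_lit 0) (nat_lit 0) (XT.lf (nat_lit 0) (nat_lit 383104804110) (nat_lit 76) (nat_lit 643680227133) (nat_lit 76) (nat_lit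 478899109924) (nat_lit 1) (nat_lit 4) (nat_lit 2) (nat_lit 5) (nat_lit 2) (nat_lit 4) (nat_lit 249) (nat_lit 220) (nat_lit 131)) (XT.lf (nat_lit 0) (nat_lit 560056473834) (nat_lit 76) (nat_lit 662848032427) (nat_lit 76) (nat_lit 498066830066) (nat_lit 1) (nat_lit 4) (nat_lit 2) (nat_lit 5) (nat_lit 2) (nat_lit 4) (nat_lit 250) (nat_lit 220) (nat_lit 130)))) (XT.nd (nat_lit 156) (nat_lit 0) (nat_lit 0) (XT.nd (nat_lit 78) (nat_lit 0) (nat_lit 0) (XT.lf (nat_lit 0) (nat_lit 763550778580) (nat_lit 76) (nat_lit 684891059397) (nat_lit 76) (nat_lit 520109782991) (nat_lit 1) (nat_lit 4) (nat_lit 2) (nat_lit 5) (nat_lit 2) (nat_lit 4) (nat_lit 251) (nat_lit 220) (nat_lit 129)) (XT.lf (nat_lit 0) (nat_lit 997569128659) (nat_lit 76) (nat_lit 710240584658) (nat_lit 76) (nat_lit 545459243864) (nat_lit 1) (nat_lit 4) (nat_lit 2) (nat_lit 5) (nat_lit 2) (nat_lit 4) (nat_lit 252) (nat_lit 220)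 (nat_lit 128))) (XT.nd (nat_lit 78) (nat_lit 0) (nat_lit 0) (XT.lf (nat_lit 0) (nat_lit 1266690143965) (nat_lit 76) (nat_lit 739392577181) (nat_lit 76) (nat_lit 574611180399) (nat_lit 1) (nat_lit 4) (nat_lit 2) (nat_lit 5) (nat_lit 2) (nat_lit 4) (nat_lit 253) (nat_lit 220) (nat_lit 127)) (XT.lf (nat_lit 0) (nat_lit 1576179235665) (nat_lit 76) (nat_lit 772917402039) (nat_lit 76) (nat_lit 608135956570) (nat_lit 1) (nat_lit 4) (nat_lit 2) (nat_lit 5) (nat_lit 2) (nat_lit 4) (nat_lit 254) (nat_lit 220) (nat_lit 126))))))))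
noncomputable def xc48 : XT := (XT.nd (nat_lit 29640) (nat_lit 0) (nat_lit 0) (XT.nd (nat_lit 28626) (nat_lit 0) (nat_lit 380) (XT.nd (nat_lit 468) (nat_lit 0) (nat_lit 0) (XT.nd (nat_lit 234) (nat_lit 0) (nat_lit 0) (XT.nd (nat_lit 78) (nat_lit 0) (nat_lit 0) (XT.lf (nat_lit 0) (nat_lit 1932091625120) (nat_lit 76) (nat_lit 811470979717) (nat_lit 76) (nat_lit 646689491913) (nat_lit 1) (nat_lit 4) (nat_lit 2) (nat_lit 5) (nat_lit 2) (nat_lit 4) (nat_lit 255) (nat_lit 220) (nat_lit 125)) (XT.nd (nat_lit 78) (nat_lit 0) (nat_lit 0) (XT.lf (nat_lit 0) (nat_lit 2341390815601) (nat_lit 76) (nat_lit 855807619343) (nat_lit 76) (nat_lit 691026094726) (nat_lit 1) (nat_lit 4) (nat_lit 2) (nat_lit 5) (nat_lit 2) (nat_lit 4) (nat_lit 256) (nat_lit 220) (nat_lit 124)) (XT.lf (nat_lit 0) (nat_lit 2812084834748) (nat_lit 76) (nat_lit 906794776912) (nat_lit 76) (nat_lit 742013220282) (nat_lit 1)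 (nat_lit 4) (nat_lit 2) (nat_lit 5) (nat_lit 2) (nat_lit 4) (nat_lit 257) (nat_lit 220) (nat_lit 123)))) (XT.nd (nat_lit 78) (nat_lit 0) (nat_lit 0) (XT.lf (nat_lit 0) (nat_lit 3353382913371) (nat_lit 76) (nat_lit 965430027244) (nat_lit 76) (nat_lit 800648442778) (nat_lit 1) (nat_lit 4) (nat_lit 2) (nat_lit 5) (nat_lit 2) (nat_lit 4) (nat_lit 258) (nat_lit 220) (nat_lit 122)) (XT.nd (nat_lit 78) (nat_lit 0) (nat_lit 0) (XT.lf (nat_lit 0) (nat_lit 3975875666051) (nat_lit 76) (nat_lit 1032860581759) (nat_lit 76) (nat_lit 868078973087) (nat_lit 1) (nat_lit 4) (nat_lit 2) (nat_lit 5) (nat_lit 2) (nat_lit 4) (nat_lit 259) (nat_lit 220) (nat_lit 121)) (XT.lf (nat_lit 0) (nat_lit 4691742298819) (nat_lit 76) (nat_lit 1110405733914) (nat_lit 76) (nat_lit 945624104195) (nat_lit 1) (nat_lit 4) (nat_lit 2) (nat_lit 5) (nat_lit 2) (nat_lit 4) (nat_lit 260) (nat_lit 220) (nat_lit 120))))) (XT.nd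 (nat_lit 234) (nat_lit 0) (nat_lit 0) (XT.nd (nat_lit 78) (nat_lit 0) (nat_lit 0) (XT.lf (nat_lit 0) (nat_lit 5514988897969) (nat_lit 76) (nat_lit 1199582671471) (nat_lit 76) (nat_lit 1034801023449) (nat_lit 1) (nat_lit 4) (nat_lit 2) (nat_lit 5) (nat_lit 2) (nat_lit 4) (nat_lit 261) (nat_lit 220) (nat_lit 119)) (XT.nd (nat_lit 78) (nat_lit 0) (nat_lit 0) (XT.lf (nat_lit 0) (nat_lit 6461722462178) (nat_lit 76) (nat_lit 1302136160598) (nat_lit 76) (nat_lit 1137354496660) (nat_lit 1) (nat_lit 4) (nat_lit 2) (nat_lit 5) (nat_lit 2) (nat_lit 4) (nat_lit 262) (nat_lit 220) (nat_lit 118)) (XT.lf (nat_lit 0) (nat_lit 7550466039444) (nat_lit 76) (nat_lit 1420072682603) (nat_lit 76) (nat_lit 1255291004826) (nat_lit 1) (nat_lit 4) (nat_lit 2) (nat_lit 5) (nat_lit 2) (nat_lit 4) (nat_lit 263) (nat_lit 220) (nat_lit 117)))) (XT.nd (nat_lit 156) (nat_lit 0) (nat_lit 0) (XT.nd (nat_lit 78) (nat_lit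 0) (nat_lit 0) (XT.lf (nat_lit 0) (nat_lit 8802521134537) (nat_lit 76) (nat_lit 1555699691180) (nat_lit 76) (nat_lit 1390918001368) (nat_lit 1) (nat_lit 4) (nat_lit 2) (nat_lit 5) (nat_lit 2) (nat_lit 4) (nat_lit 264) (nat_lit 220) (nat_lit 116)) (XT.lf (nat_lit 0) (nat_lit 10242384477581) (nat_lit 76) (nat_lit 1711670758234) (nat_lit 76) (nat_lit 1546889057957) (nat_lit 1) (nat_lit 4) (nat_lit 2) (nat_lit 5) (nat_lit 2) (nat_lit 4) (nat_lit 265) (nat_lit 220) (nat_lit 115))) (XT.nd (nat_lit 1014) (nat_lit 0) (nat_lit 0) (XT.lf (nat_lit 0) (nat_lit 11898227307894) (nat_lit 76) (nat_lit 1891037491599) (nat_lit 76) (nat_lit 1726255782222) (nat_lit 1) (nat_lit 4) (nat_lit 2) (nat_lit 5) (nat_lit 2) (nat_lit 4) (nat_lit 266) (nat_lit 220) (nat_lit 114)) (XT.lf (nat_lit 0) (nat_lit 77311808513568) (nat_lit 76) (nat_lit 8976868055040) (nat_lit 76) (nat_lit 8812086294859) (nat_lit 1) (nat_lit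 4) (nat_lit 2) (nat_lit 5) (nat_lit 2) (nat_lit 4) (nat_lit 279) (nat_lit 220) (nat_lit 101)))))) (XT.nd (nat_lit 468) (nat_lit 304) (nat_lit 0) (XT.nd (nat_lit 234) (nat_lit 152) (nat_lit 0) (XT.nd (nat_lit 78) (nat_lit 0) (nat_lit 0) (XT.lf (nat_lit 0) (nat_lit 14254510338) (nat_lit 0) (nat_lit 14254510338) (nat_lit 228) (nat_lit 10308159380) (nat_lit 12) (nat_lit 5) (nat_lit 12) (nat_lit 3) (nat_lit 15) (nat_lit 3) (nat_lit 221) (nat_lit 221) (nat_lit 158)) (XT.nd (nat_lit 78) (nat_lit 0) (nat_lit 0) (XT.lf (nat_lit 0) (nat_lit 61395027558) (nat_lit 228) (nat_lit 20021812503) (nat_lit 304) (nat_lit 2024832594) (nat_lit 12) (nat_lit 5) (nat_lit 15) (nat_lit 3) (nat_lit 16) (nat_lit 5) (nat_lit 222) (nat_lit 221) (nat_lit 157)) (XT.lf (nat_lit 76) (nat_lit 13270001737) (nat_lit 0) (nat_lit 55064116109) (nat_lit 304) (nat_lit 21500160990) (nat_lit 13) (nat_lit 5) (nat_lit 12) (nat_lit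 5) (nat_lit 16) (nat_lit 5) (nat_lit 223) (nat_lit 221) (nat_lit 156)))) (XT.nd (nat_lit 78) (nat_lit 152) (nat_lit 0) (XT.lf (nat_lit 76) (nat_lit 53804758206) (nat_lit 0) (nat_lit 23554563207) (nat_lit 304) (nat_lit 19669693315) (nat_lit 13) (nat_lit 5) (nat_lit 12) (nat_lit 5) (nat_lit 16) (nat_lit 5) (nat_lit 224) (nat_lit 221) (nat_lit 155)) (XT.nd (nat_lit 78) (nat_lit 228) (nat_lit 0) (XT.lf (nat_lit 0) (nat_lit 88262258721) (nat_lit 228) (nat_lit 5409430948) (nat_lit 76) (nat_lit 11552701174) (nat_lit 13) (nat_lit 5) (nat_lit 16) (nat_lit 5) (nat_lit 14) (nat_lit 5) (nat_lit 225) (nat_lit 221) (nat_lit 154)) (XT.lf (nat_lit 0) (nat_lit 40566541015) (nat_lit 228) (nat_lit 63034508943) (nat_lit 304) (nat_lit 10627981261) (nat_lit 10) (nat_lit 5) (nat_lit 13) (nat_lit 5) (nat_lit 14) (nat_lit 5) (nat_lit 226) (nat_lit 221) (nat_lit 153))))) (XT.nd (nat_lit 234) (nat_lit 152)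 (nat_lit 0) (XT.nd (nat_lit 78) (nat_lit 152) (nat_lit 0) (XT.lf (nat_lit 0) (nat_lit 94045952446) (nat_lit 228) (nat_lit 27476560563) (nat_lit 304) (nat_lit 3019593930) (nat_lit 10) (nat_lit 5) (nat_lit 13) (nat_lit 5) (nat_lit 14) (nat_lit 5) (nat_lit 227) (nat_lit 221) (nat_lit 152)) (XT.nd (nat_lit 78) (nat_lit 0) (nat_lit 0) (XT.lf (nat_lit 0) (nat_lit 6686197077) (nat_lit 152) (nat_lit 116090783685) (nat_lit 76) (nat_lit 13369644762) (nat_lit 8) (nat_lit 5) (nat_lit 10) (nat_lit 5) (nat_lit 9) (nat_lit 5) (nat_lit 228) (nat_lit 221) (nat_lit 151)) (XT.lf (nat_lit 0) (nat_lit 20516370461) (nat_lit 152) (nat_lit 69163787291) (nat_lit 76) (nat_lit 59343457568) (nat_lit 8) (nat_lit 5) (nat_lit 10) (nat_lit 5) (nat_lit 9) (nat_lit 5) (nat_lit 229) (nat_lit 221) (nat_lit 150)))) (XT.nd (nat_lit 156) (nat_lit 0) (nat_lit 0) (XT.nd (nat_lit 78) (nat_lit 152) (nat_lit 0) (XT.lf (nat_lit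 0) (nat_lit 36420398091) (nat_lit 152) (nat_lit 15198579983) (nat_lit 76) (nat_lit 112213286143) (nat_lit 8) (nat_lit 5) (nat_lit 10) (nat_lit 5) (nat_lit 9) (nat_lit 5) (nat_lit 230) (nat_lit 221) (nat_lit 149)) (XT.lf (nat_lit 0) (nat_lit 51440245633) (nat_lit 152) (nat_lit 5399230966) (nat_lit 228) (nat_lit 123703325417) (nat_lit 6) (nat_lit 5) (nat_lit 8) (nat_lit 5) (nat_lit 9) (nat_lit 5) (nat_lit 231) (nat_lit 221) (nat_lit 148))) (XT.nd (nat_lit 78) (nat_lit 0) (nat_lit 0) (XT.lf (nat_lit 0) (nat_lit 83130546408) (nat_lit 228) (nat_lit 71873720641) (nat_lit 76) (nat_lit 44334291468) (nat_lit 6) (nat_lit 5) (nat_lit 9) (nat_lit 5) (nat_lit 7) (nat_lit 4) (nat_lit 232) (nat_lit 221) (nat_lit 147)) (XT.lf (nat_lit 0) (nat_lit 113621910435) (nat_lit 228) (nat_lit 6318341778) (nat_lit 76) (nat_lit 100974937706) (nat_lit 6) (nat_lit 5) (nat_lit 9) (nat_lit 5) (nat_lit 7) (nat_lit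 4) (nat_lit 233) (nat_lit 221) (nat_lit 146))))))) (XT.nd (nat_lit 1014) (nat_lit 76) (nat_lit 0) (XT.nd (nat_lit 468) (nat_lit 76) (nat_lit 0) (XT.nd (nat_lit 234) (nat_lit 152) (nat_lit 0) (XT.nd (nat_lit 78) (nat_lit 0) (nat_lit 0) (XT.lf (nat_lit 0) (nat_lit 75819754973) (nat_lit 76) (nat_lit 76006347599) (nat_lit 152) (nat_lit 93431350574) (nat_lit 5) (nat_lit 5) (nat_lit 6) (nat_lit 5) (nat_lit 7) (nat_lit 4) (nat_lit 234) (nat_lit 221) (nat_lit 145)) (XT.nd (nat_lit 78) (nat_lit 0) (nat_lit 0) (XT.lf (nat_lit 0) (nat_lit 170988100583) (nat_lit 76) (nat_lit 25102719398) (nat_lit 152) (nat_lit 77110756312) (nat_lit 5) (nat_lit 5) (nat_lit 6) (nat_lit 5) (nat_lit 7) (nat_lit 4) (nat_lit 235) (nat_lit 221) (nat_lit 144)) (XT.lf (nat_lit 0) (nat_lit 248379439842) (nat_lit 152) (nat_lit 26290687412) (nat_lit 0) (nat_lit 30459565699) (nat_lit 5) (nat_lit 5) (nat_lit 7) (nat_lit 4)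 (nat_lit 5) (nat_lit 4) (nat_lit 236) (nat_lit 221) (nat_lit 143)))) (XT.nd (nat_lit 78) (nat_lit 76) (nat_lit 0) (XT.lf (nat_lit 0) (nat_lit 65671189458) (nat_lit 76) (nat_lit 246754541354) (nat_lit 76) (nat_lit 28834143289) (nat_lit 4) (nat_lit 4) (nat_lit 5) (nat_lit 5) (nat_lit 5) (nat_lit 4) (nat_lit 237) (nat_lit 221) (nat_lit 142)) (XT.nd (nat_lit 78) (nat_lit 0) (nat_lit 0) (XT.lf (nat_lit 0) (nat_lit 4417758577) (nat_lit 152) (nat_lit 208422672709) (nat_lit 76) (nat_lit 169732931415) (nat_lit 3) (nat_lit 5) (nat_lit 5) (nat_lit 5) (nat_lit 4) (nat_lit 4) (nat_lit 238) (nat_lit 221) (nat_lit 141)) (XT.lf (nat_lit 0) (nat_lit 39705126962) (nat_lit 152) (nat_lit 132555226841) (nat_lit 76) (nat_lit 257617602816) (nat_lit 3) (nat_lit 5) (nat_lit 5) (nat_lit 5) (nat_lit 4) (nat_lit 4) (nat_lit 239) (nat_lit 221) (nat_lit 140))))) (XT.nd (nat_lit 234) (nat_lit 0) (nat_lit 0) (XT.nd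 (nat_lit 78) (nat_lit 76) (nat_lit 0) (XT.lf (nat_lit 0) (nat_lit 80285381727) (nat_lit 152) (nat_lit 45308023584) (nat_lit 76) (nat_lit 358684869267) (nat_lit 3) (nat_lit 5) (nat_lit 5) (nat_lit 5) (nat_lit 4) (nat_lit 4) (nat_lit 240) (nat_lit 221) (nat_lit 139)) (XT.nd (nat_lit 78) (nat_lit 0) (nat_lit 0) (XT.lf (nat_lit 0) (nat_lit 60403483344) (nat_lit 76) (nat_lit 69050180467) (nat_lit 152) (nat_lit 417009829897) (nat_lit 2) (nat_lit 5) (nat_lit 3) (nat_lit 5) (nat_lit 4) (nat_lit 4) (nat_lit 241) (nat_lit 221) (nat_lit 138)) (XT.lf (nat_lit 0) (nat_lit 187063421935) (nat_lit 76) (nat_lit 1301962375) (nat_lit 152) (nat_lit 429255883587) (nat_lit 2) (nat_lit 5) (nat_lit 3) (nat_lit 5) (nat_lit 4) (nat_lit 4) (nat_lit 242) (nat_lit 221) (nat_lit 137)))) (XT.nd (nat_lit 156) (nat_lit 0) (nat_lit 0) (XT.nd (nat_lit 78) (nat_lit 0) (nat_lit 0) (XT.lf (nat_lit 0) (nat_lit 259285898022)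 (nat_lit 152) (nat_lit 369902830762) (nat_lit 0) (nat_lit 69788175553) (nat_lit 2) (nat_lit 5) (nat_lit 4) (nat_lit 4) (nat_lit 2) (nat_lit 4) (nat_lit 243) (nat_lit 221) (nat_lit 136)) (XT.lf (nat_lit 0) (nat_lit 340906348738) (nat_lit 152) (nat_lit 300211804728) (nat_lit 0) (nat_lit 151408454998) (nat_lit 2) (nat_lit 5) (nat_lit 4) (nat_lit 4) (nat_lit 2) (nat_lit 4) (nat_lit 244) (nat_lit 221) (nat_lit 135))) (XT.nd (nat_lit 78) (nat_lit 0) (nat_lit 0) (XT.lf (nat_lit 0) (nat_lit 434769746835) (nat_lit 152) (nat_lit 220067336301) (nat_lit 0) (nat_lit 245271704163) (nat_lit 2) (nat_lit 5) (nat_lit 4) (nat_lit 4) (nat_lit 2) (nat_lit 4) (nat_lit 245) (nat_lit 221) (nat_lit 134)) (XT.lf (nat_lit 0) (nat_lit 542712550100) (nat_lit 152) (nat_lit 127901381534) (nat_lit 0) (nat_lit 353214377923) (nat_lit 2) (nat_lit 5) (nat_lit 4) (nat_lit 4) (nat_lit 2) (nat_lit 4) (nat_lit 246) (nat_lit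 221) (nat_lit 133)))))) (XT.nd (nat_lit 546) (nat_lit 0) (nat_lit 0) (XT.nd (nat_lit 234) (nat_lit 0) (nat_lit 0) (XT.nd (nat_lit 78) (nat_lit 76) (nat_lit 0) (XT.lf (nat_lit 0) (nat_lit 666846682947) (nat_lit 152) (nat_lit 21910693485) (nat_lit 0) (nat_lit 477348398156) (nat_lit 2) (nat_lit 5) (nat_lit 4) (nat_lit 4) (nat_lit 2) (nat_lit 4) (nat_lit 247) (nat_lit 221) (nat_lit 132)) (XT.nd (nat_lit 78) (nat_lit 0) (nat_lit 0) (XT.lf (nat_lit 0) (nat_lit 109749080799) (nat_lit 76) (nat_lit 704396251266) (nat_lit 76) (nat_lit 514897868550) (nat_lit 1) (nat_lit 4) (nat_lit 2) (nat_lit 5) (nat_lit 2) (nat_lit 4) (nat_lit 248) (nat_lit 221) (nat_lit 131)) (XT.lf (nat_lit 0) (nat_lit 263620151641) (nat_lit 76) (nat_lit 721063884377) (nat_lit 76) (nat_lit 531565416510) (nat_lit 1) (nat_lit 4) (nat_lit 2) (nat_lit 5) (nat_lit 2) (nat_lit 4) (nat_lit 249) (nat_lit 221) (nat_lit 130)))) (XT.nd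 (nat_lit 156) (nat_lit 0) (nat_lit 0) (XT.nd (nat_lit 78) (nat_lit 0) (nat_lit 0) (XT.lf (nat_lit 0) (nat_lit 440571767673) (nat_lit 76) (nat_lit 740231713337) (nat_lit 76) (nat_lit 550733171425) (nat_lit 1) (nat_lit 4) (nat_lit 2) (nat_lit 5) (nat_lit 2) (nat_lit 4) (nat_lit 250) (nat_lit 221) (nat_lit 129)) (XT.lf (nat_lit 0) (nat_lit 644066025732) (nat_lit 76) (nat_lit 762274760887) (nat_lit 76) (nat_lit 572776154587) (nat_lit 1) (nat_lit 4) (nat_lit 2) (nat_lit 5) (nat_lit 2) (nat_lit 4) (nat_lit 251) (nat_lit 221) (nat_lit 128))) (XT.nd (nat_lit 78) (nat_lit 0) (nat_lit 0) (XT.lf (nat_lit 0) (nat_lit 878084335213) (nat_lit 76) (nat_lit 787624304042) (nat_lit 76) (nat_lit 598125641753) (nat_lit 1) (nat_lit 4) (nat_lit 2) (nat_lit 5) (nat_lit 2) (nat_lit 4) (nat_lit 252) (nat_lit 221) (nat_lit 127)) (XT.lf (nat_lit 0) (nat_lit 1147205315216) (nat_lit 76) (nat_lit 816776312126)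 (nat_lit 76) (nat_lit 627277601152) (nat_lit 1) (nat_lit 4) (nat_lit 2) (nat_lit 5) (nat_lit 2) (nat_lit 4) (nat_lit 253) (nat_lit 221) (nat_lit 126))))) (XT.nd (nat_lit 234) (nat_lit 0) (nat_lit 0) (XT.nd (nat_lit 78) (nat_lit 0) (nat_lit 0) (XT.lf (nat_lit 0) (nat_lit 1456694376218) (nat_lit 76) (nat_lit 850301150515) (nat_lit 76) (nat_lit 660802397205) (nat_lit 1) (nat_lit 4) (nat_lit 2) (nat_lit 5) (nat_lit 2) (nat_lit 4) (nat_lit 254) (nat_lit 221) (nat_lit 125)) (XT.nd (nat_lit 78) (nat_lit 0) (nat_lit 0) (XT.lf (nat_lit 0) (nat_lit 1812606738979) (nat_lit 76) (nat_lit 888854739959) (nat_lit 76) (nat_lit 699355949835) (nat_lit 1) (nat_lit 4) (nat_lit 2) (nat_lit 5) (nat_lit 2) (nat_lit 4) (nat_lit 255) (nat_lit 221) (nat_lit 124)) (XT.lf (nat_lit 0) (nat_lit 2221905906248) (nat_lit 76) (nat_lit 933191389817) (nat_lit 76) (nat_lit 743692567681) (nat_lit 1) (nat_lit 4) (nat_lit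 2) (nat_lit 5) (nat_lit 2) (nat_lit 4) (nat_lit 256) (nat_lit 221) (nat_lit 123)))) (XT.nd (nat_lit 156) (nat_lit 0) (nat_lit 0) (XT.nd (nat_lit 78) (nat_lit 0) (nat_lit 0) (XT.lf (nat_lit 0) (nat_lit 2692599905211) (nat_lit 76) (nat_lit 984178556282) (nat_lit 76) (nat_lit 794679706310) (nat_lit 1) (nat_lit 4) (nat_lit 2) (nat_lit 5) (nat_lit 2) (nat_lit 4) (nat_lit 257) (nat_lit 221) (nat_lit 122)) (XT.lf (nat_lit 0) (nat_lit 3233897966282) (nat_lit 76) (nat_lit 1042813814350) (nat_lit 76) (nat_lit 853314940173) (nat_lit 1) (nat_lit 4) (nat_lit 2) (nat_lit 5) (nat_lit 2) (nat_lit 4) (nat_lit 258) (nat_lit 221) (nat_lit 121))) (XT.nd (nat_lit 78) (nat_lit 0) (nat_lit 0) (XT.lf (nat_lit 0) (nat_lit 3856390703700) (nat_lit 76) (nat_lit 1110244375593) (nat_lit 76) (nat_lit 920745480367) (nat_lit 1) (nat_lit 4) (nat_lit 2) (nat_lit 5) (nat_lit 2) (nat_lit 4) (nat_lit 259) (nat_lit 221)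 (nat_lit 120)) (XT.lf (nat_lit 0) (nat_lit 4572257323196) (nat_lit 76) (nat_lit 1187789533598) (nat_lit 76) (nat_lit 998290620070) (nat_lit 1) (nat_lit 4) (nat_lit 2) (nat_lit 5) (nat_lit 2) (nat_lit 4) (nat_lit 260) (nat_lit 221) (nat_lit 119))))))))
noncomputable def xc49 : XT := (XT.nd (nat_lit 29874) (nat_lit 0) (nat_lit 0) (XT.nd (nat_lit 28782) (nat_lit 0) (nat_lit 76) (XT.nd (nat_lit 28236) (nat_lit 0) (nat_lit 684) (XT.nd (nat_lit 234) (nat_lit 0) (nat_lit 0) (XT.nd (nat_lit 78) (nat_lit 0) (nat_lit 0) (XT.lf (nat_lit 0) (nat_lit 5395503910805) (nat_lit 76) (nat_lit 1276966476242) (nat_lit 76) (nat_lit 1087467546798) (nat_lit 1) (nat_lit 4) (nat_lit 2) (nat_lit 5) (nat_lit 2) (nat_lit 4) (nat_lit 261) (nat_lit 221) (nat_lit 118)) (XT.nd (nat_lit 78) (nat_lit 0) (nat_lit 0) (XT.lf (nat_lit 0) (nat_lit 6342237464979) (nat_lit 76) (nat_lit 1379519969792) (nat_lit 76) (nat_lit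 1190021026508) (nat_lit 1) (nat_lit 4) (nat_lit 2) (nat_lit 5) (nat_lit 2) (nat_lit 4) (nat_lit 262) (nat_lit 221) (nat_lit 117)) (XT.lf (nat_lit 0) (nat_lit 7430981033519) (nat_lit 76) (nat_lit 1497456495644) (nat_lit 76) (nat_lit 1307957540326) (nat_lit 1) (nat_lit 4) (nat_lit 2) (nat_lit 5) (nat_lit 2) (nat_lit 4) (nat_lit 263) (nat_lit 221) (nat_lit 116)))) (XT.nd (nat_lit 78) (nat_lit 0) (nat_lit 0) (XT.lf (nat_lit 0) (nat_lit 8683036121024) (nat_lit 76) (nat_lit 1633083507565) (nat_lit 76) (nat_lit 1443584541782) (nat_lit 1) (nat_lit 4) (nat_lit 2) (nat_lit 5) (nat_lit 2) (nat_lit 4) (nat_lit 264) (nat_lit 221) (nat_lit 115)) (XT.nd (nat_lit 390) (nat_lit 0) (nat_lit 0) (XT.lf (nat_lit 0) (nat_lit 10122899457469) (nat_lit 76) (nat_lit 1789054577527) (nat_lit 76) (nat_lit 1599555602645) (nat_lit 1) (nat_lit 4) (nat_lit 2) (nat_lit 5) (nat_lit 2) (nat_lit 4) (nat_lit 265) (nat_lit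 221) (nat_lit 114)) (XT.lf (nat_lit 0) (nat_lit 21287222960390) (nat_lit 76) (nat_lit 2998413543175) (nat_lit 76) (nat_lit 2808914537789) (nat_lit 1) (nat_lit 4) (nat_lit 2) (nat_lit 5) (nat_lit 2) (nat_lit 4) (nat_lit 270) (nat_lit 221) (nat_lit 109))))) (XT.nd (nat_lit 234) (nat_lit 152) (nat_lit 0) (XT.nd (nat_lit 78) (nat_lit 0) (nat_lit 0) (XT.lf (nat_lit 0) (nat_lit 16396806562) (nat_lit 0) (nat_lit 16396806562) (nat_lit 228) (nat_lit 11844745556) (nat_lit 12) (nat_lit 5) (nat_lit 12) (nat_lit 3) (nat_lit 15) (nat_lit 3) (nat_lit 222) (nat_lit 222) (nat_lit 156)) (XT.nd (nat_lit 78) (nat_lit 0) (nat_lit 0) (XT.lf (nat_lit 0) (nat_lit 70618314316) (nat_lit 228) (nat_lit 23015191085) (nat_lit 304) (nat_lit 2322030681) (nat_lit 12) (nat_lit 5) (nat_lit 15) (nat_lit 3) (nat_lit 16) (nat_lit 5) (nat_lit 223) (nat_lit 222) (nat_lit 155)) (XT.lf (nat_lit 76) (nat_lit 15269945596)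 (nat_lit 0) (nat_lit 63326883249) (nat_lit 304) (nat_lit 24710457099) (nat_lit 13) (nat_lit 5) (nat_lit 12) (nat_lit 5) (nat_lit 16) (nat_lit 5) (nat_lit 224) (nat_lit 222) (nat_lit 154)))) (XT.nd (nat_lit 156) (nat_lit 152) (nat_lit 0) (XT.nd (nat_lit 78) (nat_lit 0) (nat_lit 76) (XT.lf (nat_lit 76) (nat_lit 61883683761) (nat_lit 0) (nat_lit 27090486578) (nat_lit 304) (nat_lit 22607340322) (nat_lit 13) (nat_lit 5) (nat_lit 12) (nat_lit 5) (nat_lit 16) (nat_lit 5) (nat_lit 225) (nat_lit 222) (nat_lit 153)) (XT.lf (nat_lit 0) (nat_lit 101511021271) (nat_lit 228) (nat_lit 6211992101) (nat_lit 76) (nat_lit 13283436738) (nat_lit 13) (nat_lit 5) (nat_lit 16) (nat_lit 5) (nat_lit 14) (nat_lit 5) (nat_lit 226) (nat_lit 222) (nat_lit 152))) (XT.nd (nat_lit 78) (nat_lit 0) (nat_lit 0) (XT.lf (nat_lit 0) (nat_lit 46659973226) (nat_lit 228) (nat_lit 72489778724) (nat_lit 304) (nat_lit 12212190712)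 (nat_lit 10) (nat_lit 5) (nat_lit 13) (nat_lit 5) (nat_lit 14) (nat_lit 5) (nat_lit 227) (nat_lit 222) (nat_lit 151)) (XT.lf (nat_lit 0) (nat_lit 108160194059) (nat_lit 228) (nat_lit 31598125900) (nat_lit 304) (nat_lit 3463848030) (nat_lit 10) (nat_lit 5) (nat_lit 13) (nat_lit 5) (nat_lit 14) (nat_lit 5) (nat_lit 228) (nat_lit 222) (nat_lit 150)))))) (XT.nd (nat_lit 546) (nat_lit 228) (nat_lit 0) (XT.nd (nat_lit 234) (nat_lit 228) (nat_lit 0) (XT.nd (nat_lit 78) (nat_lit 0) (nat_lit 0) (XT.lf (nat_lit 0) (nat_lit 7696359794) (nat_lit 152) (nat_lit 133495372260) (nat_lit 76) (nat_lit 15375696094) (nat_lit 8) (nat_lit 5) (nat_lit 10) (nat_lit 5) (nat_lit 9) (nat_lit 5) (nat_lit 229) (nat_lit 222) (nat_lit 149)) (XT.nd (nat_lit 78) (nat_lit 0) (nat_lit 0) (XT.lf (nat_lit 0) (nat_lit 23600115730) (nat_lit 152) (nat_lit 79530504101) (nat_lit 76) (nat_lit 68245501958) (nat_lit 8) (nat_lit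 5) (nat_lit 10) (nat_lit 5) (nat_lit 9) (nat_lit 5) (nat_lit 230) (nat_lit 222) (nat_lit 148)) (XT.lf (nat_lit 0) (nat_lit 41888927109) (nat_lit 152) (nat_lit 17471539777) (nat_lit 76) (nat_lit 129045736242) (nat_lit 8) (nat_lit 5) (nat_lit 10) (nat_lit 5) (nat_lit 9) (nat_lit 5) (nat_lit 231) (nat_lit 222) (nat_lit 147)))) (XT.nd (nat_lit 156) (nat_lit 76) (nat_lit 0) (XT.nd (nat_lit 78) (nat_lit 0) (nat_lit 0) (XT.lf (nat_lit 0) (nat_lit 59162799354) (nat_lit 152) (nat_lit 6207624502) (nat_lit 228) (nat_lit 142252974749) (nat_lit 6) (nat_lit 5) (nat_lit 8) (nat_lit 5) (nat_lit 9) (nat_lit 5) (nat_lit 232) (nat_lit 222) (nat_lit 146)) (XT.lf (nat_lit 0) (nat_lit 95604552292) (nat_lit 228) (nat_lit 82648449305) (nat_lit 76) (nat_lit 50985616372) (nat_lit 6) (nat_lit 5) (nat_lit 9) (nat_lit 5) (nat_lit 7) (nat_lit 4) (nat_lit 233) (nat_lit 222) (nat_lit 145))) (XT.nd (nat_lit 78)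 (nat_lit 76) (nat_lit 0) (XT.lf (nat_lit 0) (nat_lit 130669043890) (nat_lit 228) (nat_lit 7260589191) (nat_lit 76) (nat_lit 116122205478) (nat_lit 6) (nat_lit 5) (nat_lit 9) (nat_lit 5) (nat_lit 7) (nat_lit 4) (nat_lit 234) (nat_lit 222) (nat_lit 144)) (XT.lf (nat_lit 0) (nat_lit 87197971898) (nat_lit 76) (nat_lit 87405608724) (nat_lit 152) (nat_lit 107441910169) (nat_lit 5) (nat_lit 5) (nat_lit 6) (nat_lit 5) (nat_lit 7) (nat_lit 4) (nat_lit 235) (nat_lit 222) (nat_lit 143))))) (XT.nd (nat_lit 234) (nat_lit 152) (nat_lit 0) (XT.nd (nat_lit 78) (nat_lit 76) (nat_lit 0) (XT.lf (nat_lit 0) (nat_lit 196640884087) (nat_lit 76) (nat_lit 28866656861) (nat_lit 152) (nat_lit 88673767158) (nat_lit 5) (nat_lit 5) (nat_lit 6) (nat_lit 5) (nat_lit 7) (nat_lit 4) (nat_lit 236) (nat_lit 222) (nat_lit 142)) (XT.nd (nat_lit 78) (nat_lit 76) (nat_lit 0) (XT.lf (nat_lit 0) (nat_lit 285639102651) (nat_lit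 152) (nat_lit 30229932123) (nat_lit 0) (nat_lit 35029665369) (nat_lit 5) (nat_lit 5) (nat_lit 7) (nat_lit 4) (nat_lit 5) (nat_lit 4) (nat_lit 237) (nat_lit 222) (nat_lit 141)) (XT.lf (nat_lit 0) (nat_lit 75526028168) (nat_lit 76) (nat_lit 283766123085) (nat_lit 76) (nat_lit 33156289643) (nat_lit 4) (nat_lit 4) (nat_lit 5) (nat_lit 5) (nat_lit 5) (nat_lit 4) (nat_lit 238) (nat_lit 222) (nat_lit 140)))) (XT.nd (nat_lit 156) (nat_lit 76) (nat_lit 0) (XT.nd (nat_lit 78) (nat_lit 0) (nat_lit 0) (XT.lf (nat_lit 0) (nat_lit 5082779121) (nat_lit 152) (nat_lit 239682202818) (nat_lit 76) (nat_lit 195194008820) (nat_lit 3) (nat_lit 5) (nat_lit 5) (nat_lit 5) (nat_lit 4) (nat_lit 4) (nat_lit 239) (nat_lit 222) (nat_lit 139)) (XT.lf (nat_lit 0) (nat_lit 45662945361) (nat_lit 152) (nat_lit 152435144956) (nat_lit 76) (nat_lit 296261232536) (nat_lit 3) (nat_lit 5) (nat_lit 5) (nat_lit 5) (nat_lit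 4) (nat_lit 4) (nat_lit 240) (nat_lit 222) (nat_lit 138))) (XT.nd (nat_lit 78) (nat_lit 76) (nat_lit 0) (XT.lf (nat_lit 0) (nat_lit 92329971033) (nat_lit 152) (nat_lit 52101300243) (nat_lit 76) (nat_lit 412488459916) (nat_lit 3) (nat_lit 5) (nat_lit 5) (nat_lit 5) (nat_lit 4) (nat_lit 4) (nat_lit 241) (nat_lit 222) (nat_lit 137)) (XT.lf (nat_lit 0) (nat_lit 69466799685) (nat_lit 76) (nat_lit 79406578992) (nat_lit 152) (nat_lit 479559374281) (nat_lit 2) (nat_lit 5) (nat_lit 3) (nat_lit 5) (nat_lit 4) (nat_lit 4) (nat_lit 242) (nat_lit 222) (nat_lit 136))))))) (XT.nd (nat_lit 1014) (nat_lit 0) (nat_lit 0) (XT.nd (nat_lit 468) (nat_lit 76) (nat_lit 0) (XT.nd (nat_lit 234) (nat_lit 0) (nat_lit 0) (XT.nd (nat_lit 78) (nat_lit 0) (nat_lit 0) (XT.lf (nat_lit 0) (nat_lit 215125364651) (nat_lit 76) (nat_lit 1496275388) (nat_lit 152) (nat_lit 493642587776) (nat_lit 2) (nat_lit 5) (nat_lit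 3) (nat_lit 5) (nat_lit 4) (nat_lit 4) (nat_lit 243) (nat_lit 222) (nat_lit 135)) (XT.nd (nat_lit 78) (nat_lit 0) (nat_lit 0) (XT.lf (nat_lit 0) (nat_lit 298180077262) (nat_lit 152) (nat_lit 425385977935) (nat_lit 0) (nat_lit 80257179258) (nat_lit 2) (nat_lit 5) (nat_lit 4) (nat_lit 4) (nat_lit 2) (nat_lit 4) (nat_lit 244) (nat_lit 222) (nat_lit 134)) (XT.lf (nat_lit 0) (nat_lit 392043426733) (nat_lit 152) (nat_lit 345241595054) (nat_lit 0) (nat_lit 174120399224) (nat_lit 2) (nat_lit 5) (nat_lit 4) (nat_lit 4) (nat_lit 2) (nat_lit 4) (nat_lit 245) (nat_lit 222) (nat_lit 133)))) (XT.nd (nat_lit 78) (nat_lit 0) (nat_lit 0) (XT.lf (nat_lit 0) (nat_lit 499986187715) (nat_lit 152) (nat_lit 253075714674) (nat_lit 0) (nat_lit 282063047593) (nat_lit 2) (nat_lit 5) (nat_lit 4) (nat_lit 4) (nat_lit 2) (nat_lit 4) (nat_lit 246) (nat_lit 222) (nat_lit 132)) (XT.nd (nat_lit 78) (nat_lit 0) (nat_lit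 0) (XT.lf (nat_lit 0) (nat_lit 624120283794) (nat_lit 152) (nat_lit 147085091310) (nat_lit 0) (nat_lit 406197045746) (nat_lit 2) (nat_lit 5) (nat_lit 4) (nat_lit 4) (nat_lit 2) (nat_lit 4) (nat_lit 247) (nat_lit 222) (nat_lit 131)) (XT.lf (nat_lit 0) (nat_lit 766874425544) (nat_lit 152) (nat_lit 25195995373) (nat_lit 0) (nat_lit 548951102345) (nat_lit 2) (nat_lit 5) (nat_lit 4) (nat_lit 4) (nat_lit 2) (nat_lit 4) (nat_lit 248) (nat_lit 222) (nat_lit 130))))) (XT.nd (nat_lit 234) (nat_lit 0) (nat_lit 0) (XT.nd (nat_lit 78) (nat_lit 0) (nat_lit 0) (XT.lf (nat_lit 0) (nat_lit 126212685865) (nat_lit 76) (nat_lit 810055141090) (nat_lit 76) (nat_lit 592131743845) (nat_lit 1) (nat_lit 4) (nat_lit 2) (nat_lit 5) (nat_lit 2) (nat_lit 4) (nat_lit 249) (nat_lit 222) (nat_lit 129)) (XT.nd (nat_lit 78) (nat_lit 0) (nat_lit 0) (XT.lf (nat_lit 0) (nat_lit 303164255210) (nat_lit 76) (nat_lit 829222990629)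 (nat_lit 76) (nat_lit 611299528997) (nat_lit 1) (nat_lit 4) (nat_lit 2) (nat_lit 5) (nat_lit 2) (nat_lit 4) (nat_lit 250) (nat_lit 222) (nat_lit 128)) (XT.lf (nat_lit 0) (nat_lit 506658472670) (nat_lit 76) (nat_lit 851266056073) (nat_lit 76) (nat_lit 633342538452) (nat_lit 1) (nat_lit 4) (nat_lit 2) (nat_lit 5) (nat_lit 2) (nat_lit 4) (nat_lit 251) (nat_lit 222) (nat_lit 127)))) (XT.nd (nat_lit 156) (nat_lit 0) (nat_lit 0) (XT.nd (nat_lit 78) (nat_lit 0) (nat_lit 0) (XT.lf (nat_lit 0) (nat_lit 740676746849) (nat_lit 76) (nat_lit 876615614789) (nat_lit 76) (nat_lit 658692048483) (nat_lit 1) (nat_lit 4) (nat_lit 2) (nat_lit 5) (nat_lit 2) (nat_lit 4) (nat_lit 252) (nat_lit 222) (nat_lit 126)) (XT.lf (nat_lit 0) (nat_lit 1009797696154) (nat_lit 76) (nat_lit 905767636405) (nat_lit 76) (nat_lit 687844027762) (nat_lit 1) (nat_lit 4) (nat_lit 2) (nat_lit 5) (nat_lit 2) (nat_lit 4) (nat_lit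 253) (nat_lit 222) (nat_lit 125))) (XT.nd (nat_lit 78) (nat_lit 0) (nat_lit 0) (XT.lf (nat_lit 0) (nat_lit 1319286730462) (nat_lit 76) (nat_lit 939292486559) (nat_lit 76) (nat_lit 721368841103) (nat_lit 1) (nat_lit 4) (nat_lit 2) (nat_lit 5) (nat_lit 2) (nat_lit 4) (nat_lit 254) (nat_lit 222) (nat_lit 124)) (XT.lf (nat_lit 0) (nat_lit 1675199070011) (nat_lit 76) (nat_lit 977846086235) (nat_lit 76) (nat_lit 759922408767) (nat_lit 1) (nat_lit 4) (nat_lit 2) (nat_lit 5) (nat_lit 2) (nat_lit 4) (nat_lit 255) (nat_lit 222) (nat_lit 123)))))) (XT.nd (nat_lit 546) (nat_lit 0) (nat_lit 0) (XT.nd (nat_lit 234) (nat_lit 0) (nat_lit 0) (XT.nd (nat_lit 78) (nat_lit 0) (nat_lit 0) (XT.lf (nat_lit 0) (nat_lit 2084498217095) (nat_lit 76) (nat_lit 1022182744990) (nat_lit 76) (nat_lit 804259039686) (nat_lit 1) (nat_lit 4) (nat_lit 2) (nat_lit 5) (nat_lit 2) (nat_lit 4) (nat_lit 256) (nat_lit 222)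 (nat_lit 122)) (XT.nd (nat_lit 78) (nat_lit 0) (nat_lit 0) (XT.lf (nat_lit 0) (nat_lit 2555192198507) (nat_lit 76) (nat_lit 1073169919191) (nat_lit 76) (nat_lit 855246189682) (nat_lit 1) (nat_lit 4) (nat_lit 2) (nat_lit 5) (nat_lit 2) (nat_lit 4) (nat_lit 257) (nat_lit 222) (nat_lit 121)) (XT.lf (nat_lit 0) (nat_lit 3096490244315) (nat_lit 76) (nat_lit 1131805183987) (nat_lit 76) (nat_lit 913881433429) (nat_lit 1) (nat_lit 4) (nat_lit 2) (nat_lit 5) (nat_lit 2) (nat_lit 4) (nat_lit 258) (nat_lit 222) (nat_lit 120)))) (XT.nd (nat_lit 156) (nat_lit 0) (nat_lit 0) (XT.nd (nat_lit 78) (nat_lit 0) (nat_lit 0) (XT.lf (nat_lit 0) (nat_lit 3718982968462) (nat_lit 76) (nat_lit 1199235751079) (nat_lit 76) (nat_lit 981311982219) (nat_lit 1) (nat_lit 4) (nat_lit 2) (nat_lit 5) (nat_lit 2) (nat_lit 4) (nat_lit 259) (nat_lit 222) (nat_lit 119)) (XT.lf (nat_lit 0) (nat_lit 4434849576418) (nat_lit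 76) (nat_lit 1276780914172) (nat_lit 76) (nat_lit 1058857129396) (nat_lit 1) (nat_lit 4) (nat_lit 2) (nat_lit 5) (nat_lit 2) (nat_lit 4) (nat_lit 260) (nat_lit 222) (nat_lit 118))) (XT.nd (nat_lit 78) (nat_lit 0) (nat_lit 0) (XT.lf (nat_lit 0) (nat_lit 5258096153991) (nat_lit 76) (nat_lit 1365957861238) (nat_lit 76) (nat_lit 1148034062623) (nat_lit 1) (nat_lit 4) (nat_lit 2) (nat_lit 5) (nat_lit 2) (nat_lit 4) (nat_lit 261) (nat_lit 222) (nat_lit 117)) (XT.lf (nat_lit 0) (nat_lit 6204829699439) (nat_lit 76) (nat_lit 1468511358635) (nat_lit 76) (nat_lit 1250587547985) (nat_lit 1) (nat_lit 4) (nat_lit 2) (nat_lit 5) (nat_lit 2) (nat_lit 4) (nat_lit 262) (nat_lit 222) (nat_lit 116))))) (XT.nd (nat_lit 390) (nat_lit 0) (nat_lit 0) (XT.nd (nat_lit 78) (nat_lit 0) (nat_lit 0) (XT.lf (nat_lit 0) (nat_lit 7293573260390) (nat_lit 76) (nat_lit 1586447887831) (nat_lit 76) (nat_lit 1368524066717)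 (nat_lit 1) (nat_lit 4) (nat_lit 2) (nat_lit 5) (nat_lit 2) (nat_lit 4) (nat_lit 263) (nat_lit 222) (nat_lit 115)) (XT.nd (nat_lit 78) (nat_lit 0) (nat_lit 0) (XT.lf (nat_lit 0) (nat_lit 8545628341298) (nat_lit 76) (nat_lit 1722074902661) (nat_lit 76) (nat_lit 1504151072446) (nat_lit 1) (nat_lit 4) (nat_lit 2) (nat_lit 5) (nat_lit 2) (nat_lit 4) (nat_lit 264) (nat_lit 222) (nat_lit 114)) (XT.lf (nat_lit 0) (nat_lit 9985491672005) (nat_lit 76) (nat_lit 1878045975152) (nat_lit 76) (nat_lit 1660122137025) (nat_lit 1) (nat_lit 4) (nat_lit 2) (nat_lit 5) (nat_lit 2) (nat_lit 4) (nat_lit 265) (nat_lit 222) (nat_lit 113)))) (XT.nd (nat_lit 156) (nat_lit 0) (nat_lit 0) (XT.nd (nat_lit 78) (nat_lit 0) (nat_lit 0) (XT.lf (nat_lit 0) (nat_lit 15735405834854) (nat_lit 76) (nat_lit 2500896985596) (nat_lit 76) (nat_lit 2282973129402) (nat_lit 1) (nat_lit 4) (nat_lit 2) (nat_lit 5) (nat_lit 2)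 (nat_lit 4) (nat_lit 268) (nat_lit 222) (nat_lit 110)) (XT.lf (nat_lit 0) (nat_lit 18253735754375) (nat_lit 76) (nat_lit 2773691386051) (nat_lit 76) (nat_lit 2555767525333) (nat_lit 1) (nat_lit 4) (nat_lit 2) (nat_lit 5) (nat_lit 2) (nat_lit 4) (nat_lit 269) (nat_lit 222) (nat_lit 109))) (XT.nd (nat_lit 27612) (nat_lit 0) (nat_lit 836) (XT.lf (nat_lit 0) (nat_lit 21149815155692) (nat_lit 76) (nat_lit 3087404949278) (nat_lit 76) (nat_lit 2869481084626) (nat_lit 1) (nat_lit 4) (nat_lit 2) (nat_lit 5) (nat_lit 2) (nat_lit 4) (nat_lit 270) (nat_lit 222) (nat_lit 108)) (XT.lf (nat_lit 0) (nat_lit 18859442611) (nat_lit 0) (nat_lit 18859442611) (nat_lit 228) (nat_lit 13614169881) (nat_lit 12) (nat_lit 5) (nat_lit 12) (nat_lit 3) (nat_lit 15) (nat_lit 3) (nat_lit 223) (nat_lit 223) (nat_lit 154))))))))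
noncomputable def xc50 : XT := (XT.nd (nat_lit 2028) (nat_lit 76) (nat_lit 0) (XT.nd (nat_lit 1014) (nat_lit 228) (nat_lit 0) (XT.nd (nat_lit 468) (nat_lit 380) (nat_lit 0) (XT.nd (nat_lit 234) (nat_lit 152) (nat_lit 0) (XT.nd (nat_lit 78) (nat_lit 0) (nat_lit 0) (XT.lf (nat_lit 0) (nat_lit 81221672144) (nat_lit 228) (nat_lit 26459988996) (nat_lit 304) (nat_lit 2665400084) (nat_lit 12) (nat_lit 5) (nat_lit 15) (nat_lit 3) (nat_lit 16) (nat_lit 5) (nat_lit 224) (nat_lit 223) (nat_lit 153)) (XT.nd (nat_lit 78) (nat_lit 0) (nat_lit 0) (XT.lf (nat_lit 76) (nat_lit 17567578153) (nat_lit 0) (nat_lit 72828297379) (nat_lit 304) (nat_lit 28405889150) (nat_lit 13) (nat_lit 5) (nat_lit 12) (nat_lit 5) (nat_lit 16) (nat_lit 5) (nat_lit 225) (nat_lit 223) (nat_lit 152)) (XT.lf (nat_lit 76) (nat_lit 71172445645) (nat_lit 0) (nat_lit 31156130558) (nat_lit 304) (nat_lit 25988757445) (nat_lit 13)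 (nat_lit 5) (nat_lit 12) (nat_lit 5) (nat_lit 16) (nat_lit 5) (nat_lit 226) (nat_lit 223) (nat_lit 151)))) (XT.nd (nat_lit 78) (nat_lit 228) (nat_lit 0) (XT.lf (nat_lit 0) (nat_lit 116744800164) (nat_lit 228) (nat_lit 7137096406) (nat_lit 76) (nat_lit 15274311709) (nat_lit 13) (nat_lit 5) (nat_lit 16) (nat_lit 5) (nat_lit 14) (nat_lit 5) (nat_lit 227) (nat_lit 223) (nat_lit 150)) (XT.nd (nat_lit 78) (nat_lit 0) (nat_lit 0) (XT.lf (nat_lit 0) (nat_lit 53665359424) (nat_lit 228) (nat_lit 83363316187) (nat_lit 304) (nat_lit 14036467155) (nat_lit 10) (nat_lit 5) (nat_lit 13) (nat_lit 5) (nat_lit 14) (nat_lit 5) (nat_lit 228) (nat_lit 223) (nat_lit 149)) (XT.lf (nat_lit 0) (nat_lit 124389779875) (nat_lit 228) (nat_lit 36337906223) (nat_lit 304) (nat_lit 3976858135) (nat_lit 10) (nat_lit 5) (nat_lit 13) (nat_lit 5) (nat_lit 14) (nat_lit 5) (nat_lit 229) (nat_lit 223) (nat_lit 148)))))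 (XT.nd (nat_lit 234) (nat_lit 228) (nat_lit 0) (XT.nd (nat_lit 78) (nat_lit 0) (nat_lit 0) (XT.lf (nat_lit 0) (nat_lit 8856283067) (nat_lit 152) (nat_lit 153512850895) (nat_lit 76) (nat_lit 17682507685) (nat_lit 8) (nat_lit 5) (nat_lit 10) (nat_lit 5) (nat_lit 9) (nat_lit 5) (nat_lit 230) (nat_lit 223) (nat_lit 147)) (XT.nd (nat_lit 78) (nat_lit 0) (nat_lit 0) (XT.lf (nat_lit 0) (nat_lit 27144889007) (nat_lit 152) (nat_lit 91454143017) (nat_lit 76) (nat_lit 78482724797) (nat_lit 8) (nat_lit 5) (nat_lit 10) (nat_lit 5) (nat_lit 9) (nat_lit 5) (nat_lit 231) (nat_lit 223) (nat_lit 146)) (XT.lf (nat_lit 0) (nat_lit 48176401755) (nat_lit 152) (nat_lit 20087108396) (nat_lit 76) (nat_lit 148402942370) (nat_lit 8) (nat_lit 5) (nat_lit 10) (nat_lit 5) (nat_lit 9) (nat_lit 5) (nat_lit 232) (nat_lit 223) (nat_lit 145)))) (XT.nd (nat_lit 156) (nat_lit 76) (nat_lit 0) (XT.nd (nat_lit 78) (nat_lit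 0) (nat_lit 0) (XT.lf (nat_lit 0) (nat_lit 68042146952) (nat_lit 152) (nat_lit 7137640684) (nat_lit 228) (nat_lit 163586497913) (nat_lit 6) (nat_lit 5) (nat_lit 8) (nat_lit 5) (nat_lit 9) (nat_lit 5) (nat_lit 233) (nat_lit 223) (nat_lit 144)) (XT.lf (nat_lit 0) (nat_lit 109948580257) (nat_lit 228) (nat_lit 95040930741) (nat_lit 76) (nat_lit 58634351971) (nat_lit 6) (nat_lit 5) (nat_lit 9) (nat_lit 5) (nat_lit 7) (nat_lit 4) (nat_lit 234) (nat_lit 223) (nat_lit 143))) (XT.nd (nat_lit 78) (nat_lit 76) (nat_lit 0) (XT.lf (nat_lit 0) (nat_lit 150272309274) (nat_lit 228) (nat_lit 8345515865) (nat_lit 76) (nat_lit 133541312946) (nat_lit 6) (nat_lit 5) (nat_lit 9) (nat_lit 5) (nat_lit 7) (nat_lit 4) (nat_lit 235) (nat_lit 223) (nat_lit 142)) (XT.lf (nat_lit 0) (nat_lit 100281640218) (nat_lit 76) (nat_lit 100515171384) (nat_lit 152) (nat_lit 123555063998) (nat_lit 5) (nat_lit 5) (nat_lit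 6) (nat_lit 5) (nat_lit 7) (nat_lit 4) (nat_lit 236) (nat_lit 223) (nat_lit 141)))))) (XT.nd (nat_lit 468) (nat_lit 76) (nat_lit 0) (XT.nd (nat_lit 234) (nat_lit 76) (nat_lit 0) (XT.nd (nat_lit 78) (nat_lit 76) (nat_lit 0) (XT.lf (nat_lit 0) (nat_lit 226140471079) (nat_lit 76) (nat_lit 33195543520) (nat_lit 152) (nat_lit 101972108148) (nat_lit 5) (nat_lit 5) (nat_lit 6) (nat_lit 5) (nat_lit 7) (nat_lit 4) (nat_lit 237) (nat_lit 223) (nat_lit 140)) (XT.nd (nat_lit 78) (nat_lit 76) (nat_lit 0) (XT.lf (nat_lit 0) (nat_lit 328487045049) (nat_lit 152) (nat_lit 34761126366) (nat_lit 0) (nat_lit 40284995943) (nat_lit 5) (nat_lit 5) (nat_lit 7) (nat_lit 4) (nat_lit 5) (nat_lit 4) (nat_lit 238) (nat_lit 223) (nat_lit 139)) (XT.lf (nat_lit 0) (nat_lit 86858078170) (nat_lit 76) (nat_lit 326329832117) (nat_lit 76) (nat_lit 38127483457) (nat_lit 4) (nat_lit 4) (nat_lit 5) (nat_lit 5) (nat_lit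 5) (nat_lit 4) (nat_lit 239) (nat_lit 223) (nat_lit 138)))) (XT.nd (nat_lit 78) (nat_lit 0) (nat_lit 0) (XT.lf (nat_lit 0) (nat_lit 5846978037) (nat_lit 152) (nat_lit 275631606362) (nat_lit 76) (nat_lit 224473970401) (nat_lit 3) (nat_lit 5) (nat_lit 5) (nat_lit 5) (nat_lit 4) (nat_lit 4) (nat_lit 240) (nat_lit 223) (nat_lit 137)) (XT.nd (nat_lit 78) (nat_lit 0) (nat_lit 0) (XT.lf (nat_lit 0) (nat_lit 52513936772) (nat_lit 152) (nat_lit 175297871588) (nat_lit 76) (nat_lit 340701165468) (nat_lit 3) (nat_lit 5) (nat_lit 5) (nat_lit 5) (nat_lit 4) (nat_lit 4) (nat_lit 241) (nat_lit 223) (nat_lit 136)) (XT.lf (nat_lit 0) (nat_lit 106180814172) (nat_lit 152) (nat_lit 59914282138) (nat_lit 76) (nat_lit 474362379383) (nat_lit 3) (nat_lit 5) (nat_lit 5) (nat_lit 5) (nat_lit 4) (nat_lit 4) (nat_lit 242) (nat_lit 223) (nat_lit 135))))) (XT.nd (nat_lit 234) (nat_lit 0) (nat_lit 0) (XT.nd (nat_lit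 78) (nat_lit 0) (nat_lit 0) (XT.lf (nat_lit 0) (nat_lit 79888932181) (nat_lit 76) (nat_lit 91316712498) (nat_lit 152) (nat_lit 551491820989) (nat_lit 2) (nat_lit 5) (nat_lit 3) (nat_lit 5) (nat_lit 4) (nat_lit 4) (nat_lit 243) (nat_lit 223) (nat_lit 134)) (XT.nd (nat_lit 78) (nat_lit 0) (nat_lit 0) (XT.lf (nat_lit 0) (nat_lit 247396006343) (nat_lit 76) (nat_lit 1719974659) (nat_lit 152) (nat_lit 567687706870) (nat_lit 2) (nat_lit 5) (nat_lit 3) (nat_lit 5) (nat_lit 4) (nat_lit 4) (nat_lit 244) (nat_lit 223) (nat_lit 133)) (XT.lf (nat_lit 0) (nat_lit 342908067707) (nat_lit 152) (nat_lit 489192152553) (nat_lit 0) (nat_lit 92296343952) (nat_lit 2) (nat_lit 5) (nat_lit 4) (nat_lit 4) (nat_lit 2) (nat_lit 4) (nat_lit 245) (nat_lit 223) (nat_lit 132)))) (XT.nd (nat_lit 156) (nat_lit 0) (nat_lit 0) (XT.nd (nat_lit 78) (nat_lit 0) (nat_lit 0) (XT.lf (nat_lit 0) (nat_lit 450850791921) (nat_lit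 152) (nat_lit 397026336858) (nat_lit 0) (nat_lit 200238970242) (nat_lit 2) (nat_lit 5) (nat_lit 4) (nat_lit 4) (nat_lit 2) (nat_lit 4) (nat_lit 246) (nat_lit 223) (nat_lit 131)) (XT.lf (nat_lit 0) (nat_lit 574984856028) (nat_lit 152) (nat_lit 291035769741) (nat_lit 0) (nat_lit 324372949196) (nat_lit 2) (nat_lit 5) (nat_lit 4) (nat_lit 4) (nat_lit 2) (nat_lit 4) (nat_lit 247) (nat_lit 223) (nat_lit 130))) (XT.nd (nat_lit 78) (nat_lit 0) (nat_lit 0) (XT.lf (nat_lit 0) (nat_lit 717738969977) (nat_lit 152) (nat_lit 169146722715) (nat_lit 0) (nat_lit 467126989100) (nat_lit 2) (nat_lit 5) (nat_lit 4) (nat_lit 4) (nat_lit 2) (nat_lit 4) (nat_lit 248) (nat_lit 223) (nat_lit 129)) (XT.lf (nat_lit 0) (nat_lit 881906149040) (nat_lit 152) (nat_lit 28974410078) (nat_lit 0) (nat_lit 631294103776) (nat_lit 2) (nat_lit 5) (nat_lit 4) (nat_lit 4) (nat_lit 2) (nat_lit 4) (nat_lit 249) (nat_lit 223)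 (nat_lit 128))))))) (XT.nd (nat_lit 1014) (nat_lit 0) (nat_lit 0) (XT.nd (nat_lit 468) (nat_lit 0) (nat_lit 0) (XT.nd (nat_lit 234) (nat_lit 0) (nat_lit 0) (XT.nd (nat_lit 78) (nat_lit 0) (nat_lit 0) (XT.lf (nat_lit 0) (nat_lit 145145528591) (nat_lit 76) (nat_lit 931562997989) (nat_lit 76) (nat_lit 680950896736) (nat_lit 1) (nat_lit 4) (nat_lit 2) (nat_lit 5) (nat_lit 2) (nat_lit 4) (nat_lit 250) (nat_lit 223) (nat_lit 127)) (XT.nd (nat_lit 78) (nat_lit 0) (nat_lit 0) (XT.lf (nat_lit 0) (nat_lit 348639710749) (nat_lit 76) (nat_lit 953606078993) (nat_lit 76) (nat_lit 702993929055) (nat_lit 1) (nat_lit 4) (nat_lit 2) (nat_lit 5) (nat_lit 2) (nat_lit 4) (nat_lit 251) (nat_lit 223) (nat_lit 126)) (XT.lf (nat_lit 0) (nat_lit 582657954230) (nat_lit 76) (nat_lit 978955651240) (nat_lit 76) (nat_lit 728343458966) (nat_lit 1) (nat_lit 4) (nat_lit 2) (nat_lit 5) (nat_lit 2) (nat_lit 4) (nat_lit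 252) (nat_lit 223) (nat_lit 125)))) (XT.nd (nat_lit 78) (nat_lit 0) (nat_lit 0) (XT.lf (nat_lit 0) (nat_lit 851778876840) (nat_lit 76) (nat_lit 1008107684622) (nat_lit 76) (nat_lit 757495455534) (nat_lit 1) (nat_lit 4) (nat_lit 2) (nat_lit 5) (nat_lit 2) (nat_lit 4) (nat_lit 253) (nat_lit 223) (nat_lit 124)) (XT.nd (nat_lit 78) (nat_lit 0) (nat_lit 0) (XT.lf (nat_lit 0) (nat_lit 1161267887937) (nat_lit 76) (nat_lit 1041632545008) (nat_lit 76) (nat_lit 791020283908) (nat_lit 1) (nat_lit 4) (nat_lit 2) (nat_lit 5) (nat_lit 2) (nat_lit 4) (nat_lit 254) (nat_lit 223) (nat_lit 123)) (XT.lf (nat_lit 0) (nat_lit 1517180207301) (nat_lit 76) (nat_lit 1080186153580) (nat_lit 76) (nat_lit 829573864644) (nat_lit 1) (nat_lit 4) (nat_lit 2) (nat_lit 5) (nat_lit 2) (nat_lit 4) (nat_lit 255) (nat_lit 223) (nat_lit 122))))) (XT.nd (nat_lit 234) (nat_lit 0) (nat_lit 0) (XT.nd (nat_lit 78) (nat_lit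 0) (nat_lit 0) (XT.lf (nat_lit 0) (nat_lit 1926479336834) (nat_lit 76) (nat_lit 1124522820072) (nat_lit 76) (nat_lit 873910506930) (nat_lit 1) (nat_lit 4) (nat_lit 2) (nat_lit 5) (nat_lit 2) (nat_lit 4) (nat_lit 256) (nat_lit 223) (nat_lit 121)) (XT.nd (nat_lit 78) (nat_lit 0) (nat_lit 0) (XT.lf (nat_lit 0) (nat_lit 2397173302983) (nat_lit 76) (nat_lit 1175510001001) (nat_lit 76) (nat_lit 924897666811) (nat_lit 1) (nat_lit 4) (nat_lit 2) (nat_lit 5) (nat_lit 2) (nat_lit 4) (nat_lit 257) (nat_lit 223) (nat_lit 120)) (XT.lf (nat_lit 0) (nat_lit 2938471335520) (nat_lit 76) (nat_lit 1234145271646) (nat_lit 76) (nat_lit 983532919154) (nat_lit 1) (nat_lit 4) (nat_lit 2) (nat_lit 5) (nat_lit 2) (nat_lit 4) (nat_lit 258) (nat_lit 223) (nat_lit 119)))) (XT.nd (nat_lit 156) (nat_lit 0) (nat_lit 0) (XT.nd (nat_lit 78) (nat_lit 0) (nat_lit 0) (XT.lf (nat_lit 0) (nat_lit 3560964048126) (nat_lit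 76) (nat_lit 1301575843825) (nat_lit 76) (nat_lit 1050963475417) (nat_lit 1) (nat_lit 4) (nat_lit 2) (nat_lit 5) (nat_lit 2) (nat_lit 4) (nat_lit 259) (nat_lit 223) (nat_lit 118)) (XT.lf (nat_lit 0) (nat_lit 4276830646046) (nat_lit 76) (nat_lit 1379121011341) (nat_lit 76) (nat_lit 1128508629093) (nat_lit 1) (nat_lit 4) (nat_lit 2) (nat_lit 5) (nat_lit 2) (nat_lit 4) (nat_lit 260) (nat_lit 223) (nat_lit 117))) (XT.nd (nat_lit 78) (nat_lit 0) (nat_lit 0) (XT.lf (nat_lit 0) (nat_lit 5100077214894) (nat_lit 76) (nat_lit 1468297962254) (nat_lit 76) (nat_lit 1217685567972) (nat_lit 1) (nat_lit 4) (nat_lit 2) (nat_lit 5) (nat_lit 2) (nat_lit 4) (nat_lit 261) (nat_lit 223) (nat_lit 116)) (XT.lf (nat_lit 0) (nat_lit 6046810752754) (nat_lit 76) (nat_lit 1570851462995) (nat_lit 76) (nat_lit 1320239058248) (nat_lit 1) (nat_lit 4) (nat_lit 2) (nat_lit 5) (nat_lit 2) (nat_lit 4) (nat_lit 262)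 (nat_lit 223) (nat_lit 115)))))) (XT.nd (nat_lit 28314) (nat_lit 0) (nat_lit 532) (XT.nd (nat_lit 390) (nat_lit 0) (nat_lit 0) (XT.nd (nat_lit 78) (nat_lit 0) (nat_lit 0) (XT.lf (nat_lit 0) (nat_lit 7135554307107) (nat_lit 76) (nat_lit 1688787995100) (nat_lit 76) (nat_lit 1438175581254) (nat_lit 1) (nat_lit 4) (nat_lit 2) (nat_lit 5) (nat_lit 2) (nat_lit 4) (nat_lit 263) (nat_lit 223) (nat_lit 114)) (XT.nd (nat_lit 234) (nat_lit 0) (nat_lit 0) (XT.lf (nat_lit 0) (nat_lit 8387609382276) (nat_lit 76) (nat_lit 1824415012459) (nat_lit 76) (nat_lit 1573802590700) (nat_lit 1) (nat_lit 4) (nat_lit 2) (nat_lit 5) (nat_lit 2) (nat_lit 4) (nat_lit 264) (nat_lit 223) (nat_lit 113)) (XT.lf (nat_lit 0) (nat_lit 13387534752667) (nat_lit 76) (nat_lit 2366024581736) (nat_lit 76) (nat_lit 2115412141910) (nat_lit 1) (nat_lit 4) (nat_lit 2) (nat_lit 5) (nat_lit 2) (nat_lit 4) (nat_lit 267) (nat_lit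 223) (nat_lit 110)))) (XT.nd (nat_lit 156) (nat_lit 0) (nat_lit 0) (XT.nd (nat_lit 78) (nat_lit 0) (nat_lit 0) (XT.lf (nat_lit 0) (nat_lit 15577386859451) (nat_lit 76) (nat_lit 2603237102614) (nat_lit 76) (nat_lit 2352624658264) (nat_lit 1) (nat_lit 4) (nat_lit 2) (nat_lit 5) (nat_lit 2) (nat_lit 4) (nat_lit 268) (nat_lit 223) (nat_lit 109)) (XT.lf (nat_lit 0) (nat_lit 18095716776120) (nat_lit 76) (nat_lit 2876031504327) (nat_lit 76) (nat_lit 2625419056043) (nat_lit 1) (nat_lit 4) (nat_lit 2) (nat_lit 5) (nat_lit 2) (nat_lit 4) (nat_lit 269) (nat_lit 223) (nat_lit 108))) (XT.nd (nat_lit 27690) (nat_lit 0) (nat_lit 836) (XT.lf (nat_lit 0) (nat_lit 20991796174957) (nat_lit 76) (nat_lit 3189745068647) (nat_lit 76) (nat_lit 2939132616942) (nat_lit 1) (nat_lit 4) (nat_lit 2) (nat_lit 5) (nat_lit 2) (nat_lit 4) (nat_lit 270) (nat_lit 223) (nat_lit 107)) (XT.lf (nat_lit 0) (nat_lit 21690714439)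 (nat_lit 0) (nat_lit 21690714439) (nat_lit 228) (nat_lit 15650784960) (nat_lit 12) (nat_lit 5) (nat_lit 12) (nat_lit 3) (nat_lit 15) (nat_lit 3) (nat_lit 224) (nat_lit 224) (nat_lit 152))))) (XT.nd (nat_lit 234) (nat_lit 304) (nat_lit 0) (XT.nd (nat_lit 78) (nat_lit 0) (nat_lit 0) (XT.lf (nat_lit 0) (nat_lit 93412946165) (nat_lit 228) (nat_lit 30423330823) (nat_lit 304) (nat_lit 3061478376) (nat_lit 12) (nat_lit 5) (nat_lit 15) (nat_lit 3) (nat_lit 16) (nat_lit 5) (nat_lit 225) (nat_lit 224) (nat_lit 151)) (XT.nd (nat_lit 78) (nat_lit 0) (nat_lit 0) (XT.lf (nat_lit 76) (nat_lit 20208114284) (nat_lit 0) (nat_lit 83754342851) (nat_lit 304) (nat_lit 32658351718) (nat_lit 13) (nat_lit 5) (nat_lit 12) (nat_lit 5) (nat_lit 16) (nat_lit 5) (nat_lit 226) (nat_lit 224) (nat_lit 150)) (XT.lf (nat_lit 76) (nat_lit 81853007629) (nat_lit 0) (nat_lit 35831116111) (nat_lit 304) (nat_lit 29879748623)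 (nat_lit 13) (nat_lit 5) (nat_lit 12) (nat_lit 5) (nat_lit 16) (nat_lit 5) (nat_lit 227) (nat_lit 224) (nat_lit 149)))) (XT.nd (nat_lit 156) (nat_lit 152) (nat_lit 0) (XT.nd (nat_lit 78) (nat_lit 228) (nat_lit 0) (XT.lf (nat_lit 0) (nat_lit 134261908243) (nat_lit 228) (nat_lit 8202598856) (nat_lit 76) (nat_lit 17564217983) (nat_lit 13) (nat_lit 5) (nat_lit 16) (nat_lit 5) (nat_lit 14) (nat_lit 5) (nat_lit 228) (nat_lit 224) (nat_lit 148)) (XT.lf (nat_lit 0) (nat_lit 61719995257) (nat_lit 228) (nat_lit 95867867040) (nat_lit 304) (nat_lit 16136226707) (nat_lit 10) (nat_lit 5) (nat_lit 13) (nat_lit 5) (nat_lit 14) (nat_lit 5) (nat_lit 229) (nat_lit 224) (nat_lit 147))) (XT.nd (nat_lit 78) (nat_lit 152) (nat_lit 0) (XT.lf (nat_lit 0) (nat_lit 143052448526) (nat_lit 228) (nat_lit 41788638613) (nat_lit 304) (nat_lit 4568421185) (nat_lit 10) (nat_lit 5) (nat_lit 13) (nat_lit 5) (nat_lit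 14) (nat_lit 5) (nat_lit 230) (nat_lit 224) (nat_lit 146)) (XT.lf (nat_lit 0) (nat_lit 10188861108) (nat_lit 152) (nat_lit 176534616183) (nat_lit 76) (nat_lit 20335229530) (nat_lit 8) (nat_lit 5) (nat_lit 10) (nat_lit 5) (nat_lit 9) (nat_lit 5) (nat_lit 231) (nat_lit 224) (nat_lit 145))))))))
noncomputable def xc51 : XT := (XT.nd (nat_lit 2106) (nat_lit 0) (nat_lit 0) (XT.nd (nat_lit 1014) (nat_lit 76) (nat_lit 0) (XT.nd (nat_lit 468) (nat_lit 228) (nat_lit 0) (XT.nd (nat_lit 234) (nat_lit 76) (nat_lit 0) (XT.nd (nat_lit 78) (nat_lit 152) (nat_lit 0) (XT.lf (nat_lit 0) (nat_lit 31220218514) (nat_lit 152) (nat_lit 105167775472) (nat_lit 76) (nat_lit 90255434118) (nat_lit 8) (nat_lit 5) (nat_lit 10) (nat_lit 5) (nat_lit 9) (nat_lit 5) (nat_lit 232) (nat_lit 224) (nat_lit 144)) (XT.nd (nat_lit 78) (nat_lit 152) (nat_lit 0) (XT.lf (nat_lit 0) (nat_lit 55405989111) (nat_lit 152) (nat_lit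 23096271180) (nat_lit 76) (nat_lit 170663645118) (nat_lit 8) (nat_lit 5) (nat_lit 10) (nat_lit 5) (nat_lit 9) (nat_lit 5) (nat_lit 233) (nat_lit 224) (nat_lit 143)) (XT.lf (nat_lit 0) (nat_lit 78252195040) (nat_lit 152) (nat_lit 8207434240) (nat_lit 228) (nat_lit 188121128141) (nat_lit 6) (nat_lit 5) (nat_lit 8) (nat_lit 5) (nat_lit 9) (nat_lit 5) (nat_lit 234) (nat_lit 224) (nat_lit 142)))) (XT.nd (nat_lit 78) (nat_lit 76) (nat_lit 0) (XT.lf (nat_lit 0) (nat_lit 126443396687) (nat_lit 228) (nat_lit 109293451479) (nat_lit 76) (nat_lit 67430180113) (nat_lit 6) (nat_lit 5) (nat_lit 9) (nat_lit 5) (nat_lit 7) (nat_lit 4) (nat_lit 235) (nat_lit 224) (nat_lit 141)) (XT.nd (nat_lit 78) (nat_lit 76) (nat_lit 0) (XT.lf (nat_lit 0) (nat_lit 172815355136) (nat_lit 228) (nat_lit 9594196399) (nat_lit 76) (nat_lit 153573097145) (nat_lit 6) (nat_lit 5) (nat_lit 9) (nat_lit 5) (nat_lit 7) (nat_lit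 4) (nat_lit 236) (nat_lit 224) (nat_lit 140)) (XT.lf (nat_lit 0) (nat_lit 115326890059) (nat_lit 76) (nat_lit 115591480248) (nat_lit 152) (nat_lit 142085954829) (nat_lit 5) (nat_lit 5) (nat_lit 6) (nat_lit 5) (nat_lit 7) (nat_lit 4) (nat_lit 237) (nat_lit 224) (nat_lit 139))))) (XT.nd (nat_lit 234) (nat_lit 152) (nat_lit 0) (XT.nd (nat_lit 78) (nat_lit 76) (nat_lit 0) (XT.lf (nat_lit 0) (nat_lit 260064153748) (nat_lit 76) (nat_lit 38174034316) (nat_lit 152) (nat_lit 117265864572) (nat_lit 5) (nat_lit 5) (nat_lit 6) (nat_lit 5) (nat_lit 7) (nat_lit 4) (nat_lit 238) (nat_lit 224) (nat_lit 138)) (XT.nd (nat_lit 78) (nat_lit 76) (nat_lit 0) (XT.lf (nat_lit 0) (nat_lit 377761672317) (nat_lit 152) (nat_lit 39972803391) (nat_lit 0) (nat_lit 46328411321) (nat_lit 5) (nat_lit 5) (nat_lit 7) (nat_lit 4) (nat_lit 5) (nat_lit 4) (nat_lit 239) (nat_lit 224) (nat_lit 137)) (XT.lf (nat_lit 0) (nat_lit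 99889168556) (nat_lit 76) (nat_lit 375278392432) (nat_lit 76) (nat_lit 43844904930) (nat_lit 4) (nat_lit 4) (nat_lit 5) (nat_lit 5) (nat_lit 5) (nat_lit 4) (nat_lit 240) (nat_lit 224) (nat_lit 136)))) (XT.nd (nat_lit 156) (nat_lit 76) (nat_lit 0) (XT.nd (nat_lit 78) (nat_lit 0) (nat_lit 0) (XT.lf (nat_lit 0) (nat_lit 6725372226) (nat_lit 152) (nat_lit 316974134175) (nat_lit 76) (nat_lit 258145716441) (nat_lit 3) (nat_lit 5) (nat_lit 5) (nat_lit 5) (nat_lit 4) (nat_lit 4) (nat_lit 241) (nat_lit 224) (nat_lit 135)) (XT.lf (nat_lit 0) (nat_lit 60392199012) (nat_lit 152) (nat_lit 201590627856) (nat_lit 76) (nat_lit 391806905922) (nat_lit 3) (nat_lit 5) (nat_lit 5) (nat_lit 5) (nat_lit 4) (nat_lit 4) (nat_lit 242) (nat_lit 224) (nat_lit 134))) (XT.nd (nat_lit 78) (nat_lit 76) (nat_lit 0) (XT.lf (nat_lit 0) (nat_lit 122108955190) (nat_lit 152) (nat_lit 68899751007) (nat_lit 76) (nat_lit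 545517228146) (nat_lit 3) (nat_lit 5) (nat_lit 5) (nat_lit 5) (nat_lit 4) (nat_lit 4) (nat_lit 243) (nat_lit 224) (nat_lit 133)) (XT.lf (nat_lit 0) (nat_lit 91873869395) (nat_lit 76) (nat_lit 105013574123) (nat_lit 152) (nat_lit 634214490596) (nat_lit 2) (nat_lit 5) (nat_lit 3) (nat_lit 5) (nat_lit 4) (nat_lit 4) (nat_lit 244) (nat_lit 224) (nat_lit 132)))))) (XT.nd (nat_lit 546) (nat_lit 0) (nat_lit 0) (XT.nd (nat_lit 234) (nat_lit 76) (nat_lit 0) (XT.nd (nat_lit 78) (nat_lit 0) (nat_lit 0) (XT.lf (nat_lit 0) (nat_lit 284506796326) (nat_lit 76) (nat_lit 1977409771) (nat_lit 152) (nat_lit 652839903299) (nat_lit 2) (nat_lit 5) (nat_lit 3) (nat_lit 5) (nat_lit 4) (nat_lit 4) (nat_lit 245) (nat_lit 224) (nat_lit 131)) (XT.nd (nat_lit 78) (nat_lit 0) (nat_lit 0) (XT.lf (nat_lit 0) (nat_lit 394345018018) (nat_lit 152) (nat_lit 562569673302) (nat_lit 0) (nat_lit 106141240010) (nat_lit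 2) (nat_lit 5) (nat_lit 4) (nat_lit 4) (nat_lit 2) (nat_lit 4) (nat_lit 246) (nat_lit 224) (nat_lit 130)) (XT.lf (nat_lit 0) (nat_lit 518479054323) (nat_lit 152) (nat_lit 456579155096) (nat_lit 0) (nat_lit 230275202270) (nat_lit 2) (nat_lit 5) (nat_lit 4) (nat_lit 4) (nat_lit 2) (nat_lit 4) (nat_lit 247) (nat_lit 224) (nat_lit 129)))) (XT.nd (nat_lit 156) (nat_lit 76) (nat_lit 0) (XT.nd (nat_lit 78) (nat_lit 0) (nat_lit 0) (XT.lf (nat_lit 0) (nat_lit 661233144096) (nat_lit 152) (nat_lit 334690150602) (nat_lit 0) (nat_lit 373029227655) (nat_lit 2) (nat_lit 5) (nat_lit 4) (nat_lit 4) (nat_lit 2) (nat_lit 4) (nat_lit 248) (nat_lit 224) (nat_lit 128)) (XT.lf (nat_lit 0) (nat_lit 825400302137) (nat_lit 152) (nat_lit 194517874948) (nat_lit 0) (nat_lit 537196329708) (nat_lit 2) (nat_lit 5) (nat_lit 4) (nat_lit 4) (nat_lit 2) (nat_lit 4) (nat_lit 249) (nat_lit 224) (nat_lit 127))) (XT.nd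 (nat_lit 78) (nat_lit 76) (nat_lit 0) (XT.lf (nat_lit 0) (nat_lit 1014192494582) (nat_lit 152) (nat_lit 33319827091) (nat_lit 0) (nat_lit 725988473467) (nat_lit 2) (nat_lit 5) (nat_lit 4) (nat_lit 4) (nat_lit 2) (nat_lit 4) (nat_lit 250) (nat_lit 224) (nat_lit 126)) (XT.lf (nat_lit 0) (nat_lit 166918068539) (nat_lit 76) (nat_lit 1071297134443) (nat_lit 76) (nat_lit 783093070992) (nat_lit 1) (nat_lit 4) (nat_lit 2) (nat_lit 5) (nat_lit 2) (nat_lit 4) (nat_lit 251) (nat_lit 224) (nat_lit 125))))) (XT.nd (nat_lit 234) (nat_lit 0) (nat_lit 0) (XT.nd (nat_lit 78) (nat_lit 0) (nat_lit 0) (XT.lf (nat_lit 0) (nat_lit 400936285325) (nat_lit 76) (nat_lit 1096646718457) (nat_lit 76) (nat_lit 808442618192) (nat_lit 1) (nat_lit 4) (nat_lit 2) (nat_lit 5) (nat_lit 2) (nat_lit 4) (nat_lit 252) (nat_lit 224) (nat_lit 124)) (XT.nd (nat_lit 78) (nat_lit 0) (nat_lit 0) (XT.lf (nat_lit 0) (nat_lit 670057184724)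 (nat_lit 76) (nat_lit 1125798762069) (nat_lit 76) (nat_lit 837594629793) (nat_lit 1) (nat_lit 4) (nat_lit 2) (nat_lit 5) (nat_lit 2) (nat_lit 4) (nat_lit 253) (nat_lit 224) (nat_lit 123)) (XT.lf (nat_lit 0) (nat_lit 979546175636) (nat_lit 76) (nat_lit 1159323631352) (nat_lit 76) (nat_lit 871119471240) (nat_lit 1) (nat_lit 4) (nat_lit 2) (nat_lit 5) (nat_lit 2) (nat_lit 4) (nat_lit 254) (nat_lit 224) (nat_lit 122)))) (XT.nd (nat_lit 156) (nat_lit 0) (nat_lit 0) (XT.nd (nat_lit 78) (nat_lit 0) (nat_lit 0) (XT.lf (nat_lit 0) (nat_lit 1335458477449) (nat_lit 76) (nat_lit 1197877247661) (nat_lit 76) (nat_lit 909673063343) (nat_lit 1) (nat_lit 4) (nat_lit 2) (nat_lit 5) (nat_lit 2) (nat_lit 4) (nat_lit 255) (nat_lit 224) (nat_lit 121)) (XT.lf (nat_lit 0) (nat_lit 1744757591719) (nat_lit 76) (nat_lit 1242213920880) (nat_lit 76) (nat_lit 954009715514) (nat_lit 1) (nat_lit 4) (nat_lit 2)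 (nat_lit 5) (nat_lit 2) (nat_lit 4) (nat_lit 256) (nat_lit 224) (nat_lit 120))) (XT.nd (nat_lit 78) (nat_lit 0) (nat_lit 0) (XT.lf (nat_lit 0) (nat_lit 2215451544596) (nat_lit 76) (nat_lit 1293201107659) (nat_lit 76) (nat_lit 1004996883989) (nat_lit 1) (nat_lit 4) (nat_lit 2) (nat_lit 5) (nat_lit 2) (nat_lit 4) (nat_lit 257) (nat_lit 224) (nat_lit 119)) (XT.lf (nat_lit 0) (nat_lit 2756749565593) (nat_lit 76) (nat_lit 1351836383391) (nat_lit 76) (nat_lit 1063632143806) (nat_lit 1) (nat_lit 4) (nat_lit 2) (nat_lit 5) (nat_lit 2) (nat_lit 4) (nat_lit 258) (nat_lit 224) (nat_lit 118))))))) (XT.nd (nat_lit 28938) (nat_lit 0) (nat_lit 152) (XT.nd (nat_lit 702) (nat_lit 0) (nat_lit 0) (XT.nd (nat_lit 234) (nat_lit 0) (nat_lit 0) (XT.nd (nat_lit 78) (nat_lit 0) (nat_lit 0) (XT.lf (nat_lit 0) (nat_lit 3379242268164) (nat_lit 76) (nat_lit 1419266959993) (nat_lit 76) (nat_lit 1131062706569)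 (nat_lit 1) (nat_lit 4) (nat_lit 2) (nat_lit 5) (nat_lit 2) (nat_lit 4) (nat_lit 259) (nat_lit 224) (nat_lit 117)) (XT.nd (nat_lit 78) (nat_lit 0) (nat_lit 0) (XT.lf (nat_lit 0) (nat_lit 4095108857358) (nat_lit 76) (nat_lit 1496812131356) (nat_lit 76) (nat_lit 1208607865897) (nat_lit 1) (nat_lit 4) (nat_lit 2) (nat_lit 5) (nat_lit 2) (nat_lit 4) (nat_lit 260) (nat_lit 224) (nat_lit 116)) (XT.lf (nat_lit 0) (nat_lit 4918355418617) (nat_lit 76) (nat_lit 1585989085613) (nat_lit 76) (nat_lit 1297784809690) (nat_lit 1) (nat_lit 4) (nat_lit 2) (nat_lit 5) (nat_lit 2) (nat_lit 4) (nat_lit 261) (nat_lit 224) (nat_lit 115)))) (XT.nd (nat_lit 312) (nat_lit 0) (nat_lit 0) (XT.lf (nat_lit 0) (nat_lit 5865088949879) (nat_lit 76) (nat_lit 1688542589263) (nat_lit 76) (nat_lit 1400338304239) (nat_lit 1) (nat_lit 4) (nat_lit 2) (nat_lit 5) (nat_lit 2) (nat_lit 4) (nat_lit 262) (nat_lit 224) (nat_lit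 114)) (XT.nd (nat_lit 78) (nat_lit 0) (nat_lit 0) (XT.lf (nat_lit 0) (nat_lit 11301593701530) (nat_lit 76) (nat_lit 2277443961726) (nat_lit 76) (nat_lit 1989239650723) (nat_lit 1) (nat_lit 4) (nat_lit 2) (nat_lit 5) (nat_lit 2) (nat_lit 4) (nat_lit 266) (nat_lit 224) (nat_lit 110)) (XT.lf (nat_lit 0) (nat_lit 13205812927673) (nat_lit 76) (nat_lit 2483715717753) (nat_lit 76) (nat_lit 2195511402226) (nat_lit 1) (nat_lit 4) (nat_lit 2) (nat_lit 5) (nat_lit 2) (nat_lit 4) (nat_lit 267) (nat_lit 224) (nat_lit 109))))) (XT.nd (nat_lit 27924) (nat_lit 0) (nat_lit 836) (XT.nd (nat_lit 78) (nat_lit 0) (nat_lit 0) (XT.lf (nat_lit 0) (nat_lit 15395665031605) (nat_lit 76) (nat_lit 2720928239888) (nat_lit 76) (nat_lit 2432723920427) (nat_lit 1) (nat_lit 4) (nat_lit 2) (nat_lit 5) (nat_lit 2) (nat_lit 4) (nat_lit 268) (nat_lit 224) (nat_lit 108)) (XT.nd (nat_lit 78) (nat_lit 0) (nat_lit 0) (XT.lf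 (nat_lit 0) (nat_lit 17913994945794) (nat_lit 76) (nat_lit 2993722642695) (nat_lit 76) (nat_lit 2705518319813) (nat_lit 1) (nat_lit 4) (nat_lit 2) (nat_lit 5) (nat_lit 2) (nat_lit 4) (nat_lit 269) (nat_lit 224) (nat_lit 107)) (XT.lf (nat_lit 0) (nat_lit 20810074342473) (nat_lit 76) (nat_lit 3307436207966) (nat_lit 76) (nat_lit 3019231882109) (nat_lit 1) (nat_lit 4) (nat_lit 2) (nat_lit 5) (nat_lit 2) (nat_lit 4) (nat_lit 270) (nat_lit 224) (nat_lit 106)))) (XT.nd (nat_lit 156) (nat_lit 0) (nat_lit 0) (XT.nd (nat_lit 78) (nat_lit 0) (nat_lit 0) (XT.lf (nat_lit 0) (nat_lit 24946102653) (nat_lit 0) (nat_lit 24946102653) (nat_lit 228) (nat_lit 17994236048) (nat_lit 12) (nat_lit 5) (nat_lit 12) (nat_lit 3) (nat_lit 15) (nat_lit 3) (nat_lit 225) (nat_lit 225) (nat_lit 150)) (XT.lf (nat_lit 0) (nat_lit 107430954780) (nat_lit 228) (nat_lit 34982553302) (nat_lit 304) (nat_lit 3517878415)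 (nat_lit 12) (nat_lit 5) (nat_lit 15) (nat_lit 3) (nat_lit 16) (nat_lit 5) (nat_lit 226) (nat_lit 225) (nat_lit 149))) (XT.nd (nat_lit 78) (nat_lit 0) (nat_lit 0) (XT.lf (nat_lit 76) (nat_lit 23243414155) (nat_lit 0) (nat_lit 96318855991) (nat_lit 304) (nat_lit 37550737138) (nat_lit 13) (nat_lit 5) (nat_lit 12) (nat_lit 5) (nat_lit 16) (nat_lit 5) (nat_lit 227) (nat_lit 225) (nat_lit 148)) (XT.lf (nat_lit 76) (nat_lit 94134508972) (nat_lit 0) (nat_lit 41206967626) (nat_lit 304) (nat_lit 34356174101) (nat_lit 13) (nat_lit 5) (nat_lit 12) (nat_lit 5) (nat_lit 16) (nat_lit 5) (nat_lit 228) (nat_lit 225) (nat_lit 147)))))) (XT.nd (nat_lit 546) (nat_lit 228) (nat_lit 0) (XT.nd (nat_lit 234) (nat_lit 304) (nat_lit 0) (XT.nd (nat_lit 78) (nat_lit 228) (nat_lit 0) (XT.lf (nat_lit 0) (nat_lit 154405268624) (nat_lit 228) (nat_lit 9429161076) (nat_lit 76) (nat_lit 20197912696) (nat_lit 13)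 (nat_lit 5) (nat_lit 16) (nat_lit 5) (nat_lit 14) (nat_lit 5) (nat_lit 229) (nat_lit 225) (nat_lit 146)) (XT.nd (nat_lit 78) (nat_lit 0) (nat_lit 0) (XT.lf (nat_lit 0) (nat_lit 70981648171) (nat_lit 228) (nat_lit 110248087493) (nat_lit 304) (nat_lit 18552342738) (nat_lit 10) (nat_lit 5) (nat_lit 13) (nat_lit 5) (nat_lit 14) (nat_lit 5) (nat_lit 230) (nat_lit 225) (nat_lit 145)) (XT.lf (nat_lit 0) (nat_lit 164513492871) (nat_lit 228) (nat_lit 48056969533) (nat_lit 304) (nat_lit 5249929602) (nat_lit 10) (nat_lit 5) (nat_lit 13) (nat_lit 5) (nat_lit 14) (nat_lit 5) (nat_lit 231) (nat_lit 225) (nat_lit 144)))) (XT.nd (nat_lit 156) (nat_lit 152) (nat_lit 0) (XT.nd (nat_lit 78) (nat_lit 0) (nat_lit 0) (XT.lf (nat_lit 0) (nat_lit 11720317366) (nat_lit 152) (nat_lit 203010905134) (nat_lit 76) (nat_lit 23385775352) (nat_lit 8) (nat_lit 5) (nat_lit 10) (nat_lit 5) (nat_lit 9) (nat_lit 5) (nat_lit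 232) (nat_lit 225) (nat_lit 143)) (XT.lf (nat_lit 0) (nat_lit 35905970503) (nat_lit 152) (nat_lit 120939547466) (nat_lit 76) (nat_lit 103793976534) (nat_lit 8) (nat_lit 5) (nat_lit 10) (nat_lit 5) (nat_lit 9) (nat_lit 5) (nat_lit 233) (nat_lit 225) (nat_lit 142))) (XT.nd (nat_lit 78) (nat_lit 152) (nat_lit 0) (XT.lf (nat_lit 0) (nat_lit 63719252009) (nat_lit 152) (nat_lit 26557760268) (nat_lit 76) (nat_lit 196263389536) (nat_lit 8) (nat_lit 5) (nat_lit 10) (nat_lit 5) (nat_lit 9) (nat_lit 5) (nat_lit 234) (nat_lit 225) (nat_lit 141)) (XT.lf (nat_lit 0) (nat_lit 89992841722) (nat_lit 152) (nat_lit 9437904729) (nat_lit 228) (nat_lit 216336768470) (nat_lit 6) (nat_lit 5) (nat_lit 8) (nat_lit 5) (nat_lit 9) (nat_lit 5) (nat_lit 235) (nat_lit 225) (nat_lit 140))))) (XT.nd (nat_lit 234) (nat_lit 152) (nat_lit 0) (XT.nd (nat_lit 78) (nat_lit 76) (nat_lit 0) (XT.lf (nat_lit 0) (nat_lit 145411818774)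 (nat_lit 228) (nat_lit 125684732813) (nat_lit 76) (nat_lit 77545217788) (nat_lit 6) (nat_lit 5) (nat_lit 9) (nat_lit 5) (nat_lit 7) (nat_lit 4) (nat_lit 236) (nat_lit 225) (nat_lit 139)) (XT.nd (nat_lit 78) (nat_lit 76) (nat_lit 0) (XT.lf (nat_lit 0) (nat_lit 198739321523) (nat_lit 228) (nat_lit 11030946391) (nat_lit 76) (nat_lit 176609505767) (nat_lit 6) (nat_lit 5) (nat_lit 9) (nat_lit 5) (nat_lit 7) (nat_lit 4) (nat_lit 237) (nat_lit 225) (nat_lit 138)) (XT.lf (nat_lit 0) (nat_lit 132628194878) (nat_lit 76) (nat_lit 132929471213) (nat_lit 152) (nat_lit 163397056924) (nat_lit 5) (nat_lit 5) (nat_lit 6) (nat_lit 5) (nat_lit 7) (nat_lit 4) (nat_lit 238) (nat_lit 225) (nat_lit 137)))) (XT.nd (nat_lit 156) (nat_lit 152) (nat_lit 0) (XT.nd (nat_lit 78) (nat_lit 0) (nat_lit 0) (XT.lf (nat_lit 0) (nat_lit 299075751863) (nat_lit 76) (nat_lit 43899503748) (nat_lit 152) (nat_lit 134854186754)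 (nat_lit 5) (nat_lit 5) (nat_lit 6) (nat_lit 5) (nat_lit 7) (nat_lit 4) (nat_lit 239) (nat_lit 225) (nat_lit 136)) (XT.lf (nat_lit 0) (nat_lit 434427110696) (nat_lit 152) (nat_lit 45966839644) (nat_lit 0) (nat_lit 53278176601) (nat_lit 5) (nat_lit 5) (nat_lit 7) (nat_lit 4) (nat_lit 5) (nat_lit 4) (nat_lit 240) (nat_lit 225) (nat_lit 135))) (XT.nd (nat_lit 78) (nat_lit 76) (nat_lit 0) (XT.lf (nat_lit 0) (nat_lit 114874342448) (nat_lit 76) (nat_lit 431569459801) (nat_lit 76) (nat_lit 50420354435) (nat_lit 4) (nat_lit 4) (nat_lit 5) (nat_lit 5) (nat_lit 5) (nat_lit 4) (nat_lit 241) (nat_lit 225) (nat_lit 134)) (XT.lf (nat_lit 0) (nat_lit 7735196952) (nat_lit 152) (nat_lit 364518580849) (nat_lit 76) (nat_lit 296868065763) (nat_lit 3) (nat_lit 5) (nat_lit 5) (nat_lit 5) (nat_lit 4) (nat_lit 4) (nat_lit 242) (nat_lit 225) (nat_lit 133))))))))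
noncomputable def xc52 : XT := (XT.nd (nat_lit 30030) (nat_lit 0) (nat_lit 0) (XT.nd (nat_lit 1014) (nat_lit 0) (nat_lit 0) (XT.nd (nat_lit 468) (nat_lit 76) (nat_lit 0) (XT.nd (nat_lit 234) (nat_lit 0) (nat_lit 0) (XT.nd (nat_lit 78) (nat_lit 76) (nat_lit 0) (XT.lf (nat_lit 0) (nat_lit 69451914857) (nat_lit 152) (nat_lit 231827766858) (nat_lit 76) (nat_lit 450578369511) (nat_lit 3) (nat_lit 5) (nat_lit 5) (nat_lit 5) (nat_lit 4) (nat_lit 4) (nat_lit 243) (nat_lit 225) (nat_lit 132)) (XT.nd (nat_lit 78) (nat_lit 76) (nat_lit 0) (XT.lf (nat_lit 0) (nat_lit 140426068896) (nat_lit 152) (nat_lit 79233448287) (nat_lit 76) (nat_lit 627345184281) (nat_lit 3) (nat_lit 5) (nat_lit 5) (nat_lit 5) (nat_lit 4) (nat_lit 4) (nat_lit 244) (nat_lit 225) (nat_lit 131)) (XT.lf (nat_lit 0) (nat_lit 105656157658) (nat_lit 76) (nat_lit 120765122341) (nat_lit 152) (nat_lit 729345829750) (nat_lit 2) (nat_lit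 5) (nat_lit 3) (nat_lit 5) (nat_lit 4) (nat_lit 4) (nat_lit 245) (nat_lit 225) (nat_lit 130)))) (XT.nd (nat_lit 78) (nat_lit 0) (nat_lit 0) (XT.lf (nat_lit 0) (nat_lit 327183866083) (nat_lit 76) (nat_lit 2273596975) (nat_lit 152) (nat_lit 750765163198) (nat_lit 2) (nat_lit 5) (nat_lit 3) (nat_lit 5) (nat_lit 4) (nat_lit 4) (nat_lit 246) (nat_lit 225) (nat_lit 129)) (XT.nd (nat_lit 78) (nat_lit 0) (nat_lit 0) (XT.lf (nat_lit 0) (nat_lit 453497330385) (nat_lit 152) (nat_lit 646954139696) (nat_lit 0) (nat_lit 122062762091) (nat_lit 2) (nat_lit 5) (nat_lit 4) (nat_lit 4) (nat_lit 2) (nat_lit 4) (nat_lit 247) (nat_lit 225) (nat_lit 128)) (XT.lf (nat_lit 0) (nat_lit 596251399136) (nat_lit 152) (nat_lit 525065172186) (nat_lit 0) (nat_lit 264816774853) (nat_lit 2) (nat_lit 5) (nat_lit 4) (nat_lit 4) (nat_lit 2) (nat_lit 4) (nat_lit 248) (nat_lit 225) (nat_lit 127))))) (XT.nd (nat_lit 234)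 (nat_lit 76) (nat_lit 0) (XT.nd (nat_lit 78) (nat_lit 0) (nat_lit 0) (XT.lf (nat_lit 0) (nat_lit 760418538897) (nat_lit 152) (nat_lit 384892928692) (nat_lit 0) (nat_lit 428983865928) (nat_lit 2) (nat_lit 5) (nat_lit 4) (nat_lit 4) (nat_lit 2) (nat_lit 4) (nat_lit 249) (nat_lit 225) (nat_lit 126)) (XT.nd (nat_lit 78) (nat_lit 0) (nat_lit 0) (XT.lf (nat_lit 0) (nat_lit 949210715446) (nat_lit 152) (nat_lit 223694908800) (nat_lit 0) (nat_lit 617776000142) (nat_lit 2) (nat_lit 5) (nat_lit 4) (nat_lit 4) (nat_lit 2) (nat_lit 4) (nat_lit 250) (nat_lit 225) (nat_lit 125)) (XT.lf (nat_lit 0) (nat_lit 1166321688759) (nat_lit 152) (nat_lit 38317238206) (nat_lit 0) (nat_lit 834886936641) (nat_lit 2) (nat_lit 5) (nat_lit 4) (nat_lit 4) (nat_lit 2) (nat_lit 4) (nat_lit 251) (nat_lit 225) (nat_lit 124)))) (XT.nd (nat_lit 156) (nat_lit 0) (nat_lit 0) (XT.nd (nat_lit 78) (nat_lit 0) (nat_lit 0) (XT.lf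 (nat_lit 0) (nat_lit 191956316180) (nat_lit 76) (nat_lit 1231991467753) (nat_lit 76) (nat_lit 900556683623) (nat_lit 1) (nat_lit 4) (nat_lit 2) (nat_lit 5) (nat_lit 2) (nat_lit 4) (nat_lit 252) (nat_lit 225) (nat_lit 123)) (XT.lf (nat_lit 0) (nat_lit 461077195394) (nat_lit 76) (nat_lit 1261143520262) (nat_lit 76) (nat_lit 929708708296) (nat_lit 1) (nat_lit 4) (nat_lit 2) (nat_lit 5) (nat_lit 2) (nat_lit 4) (nat_lit 253) (nat_lit 225) (nat_lit 122))) (XT.nd (nat_lit 78) (nat_lit 0) (nat_lit 0) (XT.lf (nat_lit 0) (nat_lit 770566168754) (nat_lit 76) (nat_lit 1294668397282) (nat_lit 76) (nat_lit 963233561110) (nat_lit 1) (nat_lit 4) (nat_lit 2) (nat_lit 5) (nat_lit 2) (nat_lit 4) (nat_lit 254) (nat_lit 225) (nat_lit 121)) (XT.lf (nat_lit 0) (nat_lit 1126478455304) (nat_lit 76) (nat_lit 1333222020318) (nat_lit 76) (nat_lit 1001787163098) (nat_lit 1) (nat_lit 4) (nat_lit 2) (nat_lit 5)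 (nat_lit 2) (nat_lit 4) (nat_lit 255) (nat_lit 225) (nat_lit 120)))))) (XT.nd (nat_lit 468) (nat_lit 0) (nat_lit 0) (XT.nd (nat_lit 234) (nat_lit 0) (nat_lit 0) (XT.nd (nat_lit 78) (nat_lit 0) (nat_lit 0) (XT.lf (nat_lit 0) (nat_lit 1535777556303) (nat_lit 76) (nat_lit 1377558699386) (nat_lit 76) (nat_lit 1046123823864) (nat_lit 1) (nat_lit 4) (nat_lit 2) (nat_lit 5) (nat_lit 2) (nat_lit 4) (nat_lit 256) (nat_lit 225) (nat_lit 119)) (XT.nd (nat_lit 78) (nat_lit 0) (nat_lit 0) (XT.lf (nat_lit 0) (nat_lit 2006471497640) (nat_lit 76) (nat_lit 1428545891252) (nat_lit 76) (nat_lit 1097110999814) (nat_lit 1) (nat_lit 4) (nat_lit 2) (nat_lit 5) (nat_lit 2) (nat_lit 4) (nat_lit 257) (nat_lit 225) (nat_lit 118)) (XT.lf (nat_lit 0) (nat_lit 2547769508602) (nat_lit 76) (nat_lit 1487181171408) (nat_lit 76) (nat_lit 1155746266130) (nat_lit 1) (nat_lit 4) (nat_lit 2) (nat_lit 5) (nat_lit 2) (nat_lit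 4) (nat_lit 258) (nat_lit 225) (nat_lit 117)))) (XT.nd (nat_lit 78) (nat_lit 0) (nat_lit 0) (XT.lf (nat_lit 0) (nat_lit 3170262202446) (nat_lit 76) (nat_lit 1554611751856) (nat_lit 76) (nat_lit 1223176834544) (nat_lit 1) (nat_lit 4) (nat_lit 2) (nat_lit 5) (nat_lit 2) (nat_lit 4) (nat_lit 259) (nat_lit 225) (nat_lit 116)) (XT.nd (nat_lit 78) (nat_lit 0) (nat_lit 0) (XT.lf (nat_lit 0) (nat_lit 3886128784052) (nat_lit 76) (nat_lit 1632156926563) (nat_lit 76) (nat_lit 1300721998787) (nat_lit 1) (nat_lit 4) (nat_lit 2) (nat_lit 5) (nat_lit 2) (nat_lit 4) (nat_lit 260) (nat_lit 225) (nat_lit 115)) (XT.lf (nat_lit 0) (nat_lit 4709375338713) (nat_lit 76) (nat_lit 1721333883729) (nat_lit 76) (nat_lit 1389898946853) (nat_lit 1) (nat_lit 4) (nat_lit 2) (nat_lit 5) (nat_lit 2) (nat_lit 4) (nat_lit 261) (nat_lit 225) (nat_lit 114))))) (XT.nd (nat_lit 468) (nat_lit 0) (nat_lit 0) (XT.nd (nat_lit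 312) (nat_lit 0) (nat_lit 0) (XT.lf (nat_lit 0) (nat_lit 5656108864237) (nat_lit 76) (nat_lit 1823887389908) (nat_lit 76) (nat_lit 1492452445119) (nat_lit 1) (nat_lit 4) (nat_lit 2) (nat_lit 5) (nat_lit 2) (nat_lit 4) (nat_lit 262) (nat_lit 225) (nat_lit 113)) (XT.nd (nat_lit 78) (nat_lit 0) (nat_lit 0) (XT.lf (nat_lit 0) (nat_lit 11092613599507) (nat_lit 76) (nat_lit 2412788769591) (nat_lit 76) (nat_lit 2081353802211) (nat_lit 1) (nat_lit 4) (nat_lit 2) (nat_lit 5) (nat_lit 2) (nat_lit 4) (nat_lit 266) (nat_lit 225) (nat_lit 109)) (XT.lf (nat_lit 0) (nat_lit 12996832822798) (nat_lit 76) (nat_lit 2619060526876) (nat_lit 76) (nat_lit 2287625555562) (nat_lit 1) (nat_lit 4) (nat_lit 2) (nat_lit 5) (nat_lit 2) (nat_lit 4) (nat_lit 267) (nat_lit 225) (nat_lit 108)))) (XT.nd (nat_lit 156) (nat_lit 0) (nat_lit 0) (XT.nd (nat_lit 78) (nat_lit 0) (nat_lit 0) (XT.lf (nat_lit 0) (nat_lit 15186684924249)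 (nat_lit 76) (nat_lit 2856273050105) (nat_lit 76) (nat_lit 2524838075370) (nat_lit 1) (nat_lit 4) (nat_lit 2) (nat_lit 5) (nat_lit 2) (nat_lit 4) (nat_lit 268) (nat_lit 225) (nat_lit 107)) (XT.lf (nat_lit 0) (nat_lit 17705014836281) (nat_lit 76) (nat_lit 3129067453862) (nat_lit 76) (nat_lit 2797632476152) (nat_lit 1) (nat_lit 4) (nat_lit 2) (nat_lit 5) (nat_lit 2) (nat_lit 4) (nat_lit 269) (nat_lit 225) (nat_lit 106))) (XT.nd (nat_lit 27846) (nat_lit 0) (nat_lit 836) (XT.lf (nat_lit 0) (nat_lit 20601094231084) (nat_lit 76) (nat_lit 3442781019960) (nat_lit 76) (nat_lit 3111346039663) (nat_lit 1) (nat_lit 4) (nat_lit 2) (nat_lit 5) (nat_lit 2) (nat_lit 4) (nat_lit 270) (nat_lit 225) (nat_lit 105)) (XT.lf (nat_lit 0) (nat_lit 28689364780) (nat_lit 0) (nat_lit 28689364780) (nat_lit 228) (nat_lit 20690220864) (nat_lit 12) (nat_lit 5) (nat_lit 12) (nat_lit 3) (nat_lit 15) (nat_lit 3) (nat_lit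 226) (nat_lit 226) (nat_lit 148))))))) (XT.nd (nat_lit 1014) (nat_lit 304) (nat_lit 0) (XT.nd (nat_lit 468) (nat_lit 380) (nat_lit 0) (XT.nd (nat_lit 234) (nat_lit 152) (nat_lit 0) (XT.nd (nat_lit 78) (nat_lit 0) (nat_lit 0) (XT.lf (nat_lit 0) (nat_lit 123550185288) (nat_lit 228) (nat_lit 40226702162) (nat_lit 304) (nat_lit 4043426555) (nat_lit 12) (nat_lit 5) (nat_lit 15) (nat_lit 3) (nat_lit 16) (nat_lit 5) (nat_lit 227) (nat_lit 226) (nat_lit 147)) (XT.nd (nat_lit 78) (nat_lit 0) (nat_lit 0) (XT.lf (nat_lit 76) (nat_lit 26733013407) (nat_lit 0) (nat_lit 110767714039) (nat_lit 304) (nat_lit 43178533087) (nat_lit 13) (nat_lit 5) (nat_lit 12) (nat_lit 5) (nat_lit 16) (nat_lit 5) (nat_lit 228) (nat_lit 226) (nat_lit 146)) (XT.lf (nat_lit 76) (nat_lit 108257369778) (nat_lit 0) (nat_lit 47388908118) (nat_lit 304) (nat_lit 39505413589) (nat_lit 13) (nat_lit 5) (nat_lit 12) (nat_lit 5)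 (nat_lit 16) (nat_lit 5) (nat_lit 229) (nat_lit 226) (nat_lit 145)))) (XT.nd (nat_lit 78) (nat_lit 228) (nat_lit 0) (XT.lf (nat_lit 0) (nat_lit 177569139555) (nat_lit 228) (nat_lit 10840641017) (nat_lit 76) (nat_lit 23226890351) (nat_lit 13) (nat_lit 5) (nat_lit 16) (nat_lit 5) (nat_lit 14) (nat_lit 5) (nat_lit 230) (nat_lit 226) (nat_lit 144)) (XT.nd (nat_lit 78) (nat_lit 0) (nat_lit 0) (XT.lf (nat_lit 0) (nat_lit 81631658063) (nat_lit 228) (nat_lit 126785331163) (nat_lit 304) (nat_lit 21331929140) (nat_lit 10) (nat_lit 5) (nat_lit 13) (nat_lit 5) (nat_lit 14) (nat_lit 5) (nat_lit 231) (nat_lit 226) (nat_lit 143)) (XT.lf (nat_lit 0) (nat_lit 189192919120) (nat_lit 228) (nat_lit 55265541524) (nat_lit 304) (nat_lit 6034579904) (nat_lit 10) (nat_lit 5) (nat_lit 13) (nat_lit 5) (nat_lit 14) (nat_lit 5) (nat_lit 232) (nat_lit 226) (nat_lit 142))))) (XT.nd (nat_lit 234) (nat_lit 228)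 (nat_lit 0) (XT.nd (nat_lit 78) (nat_lit 0) (nat_lit 0) (XT.lf (nat_lit 0) (nat_lit 13480729503) (nat_lit 152) (nat_lit 233459589316) (nat_lit 76) (nat_lit 26893839306) (nat_lit 8) (nat_lit 5) (nat_lit 10) (nat_lit 5) (nat_lit 9) (nat_lit 5) (nat_lit 233) (nat_lit 226) (nat_lit 141)) (XT.nd (nat_lit 78) (nat_lit 0) (nat_lit 0) (XT.lf (nat_lit 0) (nat_lit 41293922192) (nat_lit 152) (nat_lit 139077912987) (nat_lit 76) (nat_lit 119363244884) (nat_lit 8) (nat_lit 5) (nat_lit 10) (nat_lit 5) (nat_lit 9) (nat_lit 5) (nat_lit 234) (nat_lit 226) (nat_lit 140)) (XT.lf (nat_lit 0) (nat_lit 73278927736) (nat_lit 152) (nat_lit 30539192483) (nat_lit 76) (nat_lit 225703047419) (nat_lit 8) (nat_lit 5) (nat_lit 10) (nat_lit 5) (nat_lit 9) (nat_lit 5) (nat_lit 235) (nat_lit 226) (nat_lit 139)))) (XT.nd (nat_lit 156) (nat_lit 76) (nat_lit 0) (XT.nd (nat_lit 78) (nat_lit 0) (nat_lit 0) (XT.lf (nat_lit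 0) (nat_lit 103493898359) (nat_lit 152) (nat_lit 10853102992) (nat_lit 228) (nat_lit 248785371535) (nat_lit 6) (nat_lit 5) (nat_lit 8) (nat_lit 5) (nat_lit 9) (nat_lit 5) (nat_lit 236) (nat_lit 226) (nat_lit 138)) (XT.lf (nat_lit 0) (nat_lit 167225037779) (nat_lit 228) (nat_lit 144535373632) (nat_lit 76) (nat_lit 89177386587) (nat_lit 6) (nat_lit 5) (nat_lit 9) (nat_lit 5) (nat_lit 7) (nat_lit 4) (nat_lit 237) (nat_lit 226) (nat_lit 137))) (XT.nd (nat_lit 78) (nat_lit 76) (nat_lit 0) (XT.lf (nat_lit 0) (nat_lit 228551477306) (nat_lit 228) (nat_lit 12683789130) (nat_lit 76) (nat_lit 203101267399) (nat_lit 6) (nat_lit 5) (nat_lit 9) (nat_lit 5) (nat_lit 7) (nat_lit 4) (nat_lit 238) (nat_lit 226) (nat_lit 136)) (XT.lf (nat_lit 0) (nat_lit 152524141547) (nat_lit 76) (nat_lit 152868339100) (nat_lit 152) (nat_lit 187905261112) (nat_lit 5) (nat_lit 5) (nat_lit 6) (nat_lit 5) (nat_lit 7)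 (nat_lit 4) (nat_lit 239) (nat_lit 226) (nat_lit 135)))))) (XT.nd (nat_lit 546) (nat_lit 76) (nat_lit 0) (XT.nd (nat_lit 234) (nat_lit 152) (nat_lit 0) (XT.nd (nat_lit 78) (nat_lit 76) (nat_lit 0) (XT.lf (nat_lit 0) (nat_lit 343938608066) (nat_lit 76) (nat_lit 50483948619) (nat_lit 152) (nat_lit 155081137071) (nat_lit 5) (nat_lit 5) (nat_lit 6) (nat_lit 5) (nat_lit 7) (nat_lit 4) (nat_lit 240) (nat_lit 226) (nat_lit 134)) (XT.nd (nat_lit 78) (nat_lit 76) (nat_lit 0) (XT.lf (nat_lit 0) (nat_lit 499592075244) (nat_lit 152) (nat_lit 52860440822) (nat_lit 0) (nat_lit 61270283872) (nat_lit 5) (nat_lit 5) (nat_lit 7) (nat_lit 4) (nat_lit 5) (nat_lit 4) (nat_lit 241) (nat_lit 226) (nat_lit 133)) (XT.lf (nat_lit 0) (nat_lit 132106853821) (nat_lit 76) (nat_lit 496304355900) (nat_lit 76) (nat_lit 57982435022) (nat_lit 4) (nat_lit 4) (nat_lit 5) (nat_lit 5) (nat_lit 5) (nat_lit 4) (nat_lit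 242) (nat_lit 226) (nat_lit 132)))) (XT.nd (nat_lit 156) (nat_lit 76) (nat_lit 0) (XT.nd (nat_lit 78) (nat_lit 0) (nat_lit 0) (XT.lf (nat_lit 0) (nat_lit 8896246923) (nat_lit 152) (nat_lit 419195102606) (nat_lit 76) (nat_lit 341398647541) (nat_lit 3) (nat_lit 5) (nat_lit 5) (nat_lit 5) (nat_lit 4) (nat_lit 4) (nat_lit 243) (nat_lit 226) (nat_lit 131)) (XT.lf (nat_lit 0) (nat_lit 79870372023) (nat_lit 152) (nat_lit 266600831565) (nat_lit 76) (nat_lit 518165448341) (nat_lit 3) (nat_lit 5) (nat_lit 5) (nat_lit 5) (nat_lit 4) (nat_lit 4) (nat_lit 244) (nat_lit 226) (nat_lit 130))) (XT.nd (nat_lit 78) (nat_lit 76) (nat_lit 0) (XT.lf (nat_lit 0) (nat_lit 161490561785) (nat_lit 152) (nat_lit 91117508728) (nat_lit 76) (nat_lit 721447243144) (nat_lit 3) (nat_lit 5) (nat_lit 5) (nat_lit 5) (nat_lit 4) (nat_lit 4) (nat_lit 245) (nat_lit 226) (nat_lit 129)) (XT.lf (nat_lit 0) (nat_lit 121505494618)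 (nat_lit 76) (nat_lit 138879521768) (nat_lit 152) (nat_lit 838747073259) (nat_lit 2) (nat_lit 5) (nat_lit 3) (nat_lit 5) (nat_lit 4) (nat_lit 4) (nat_lit 246) (nat_lit 226) (nat_lit 128))))) (XT.nd (nat_lit 234) (nat_lit 76) (nat_lit 0) (XT.nd (nat_lit 78) (nat_lit 0) (nat_lit 0) (XT.lf (nat_lit 0) (nat_lit 376262240178) (nat_lit 76) (nat_lit 2614315718) (nat_lit 152) (nat_lit 863379389022) (nat_lit 2) (nat_lit 5) (nat_lit 3) (nat_lit 5) (nat_lit 4) (nat_lit 4) (nat_lit 247) (nat_lit 226) (nat_lit 127)) (XT.nd (nat_lit 78) (nat_lit 0) (nat_lit 0) (XT.lf (nat_lit 0) (nat_lit 521522353129) (nat_lit 152) (nat_lit 743996516151) (nat_lit 0) (nat_lit 140372430529) (nat_lit 2) (nat_lit 5) (nat_lit 4) (nat_lit 4) (nat_lit 2) (nat_lit 4) (nat_lit 248) (nat_lit 226) (nat_lit 126)) (XT.lf (nat_lit 0) (nat_lit 685689476994) (nat_lit 152) (nat_lit 603824300623) (nat_lit 0) (nat_lit 304539512059)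 (nat_lit 2) (nat_lit 5) (nat_lit 4) (nat_lit 4) (nat_lit 2) (nat_lit 4) (nat_lit 249) (nat_lit 226) (nat_lit 125)))) (XT.nd (nat_lit 156) (nat_lit 76) (nat_lit 0) (XT.nd (nat_lit 78) (nat_lit 0) (nat_lit 0) (XT.lf (nat_lit 0) (nat_lit 874481639721) (nat_lit 152) (nat_lit 442626305048) (nat_lit 0) (nat_lit 493331637972) (nat_lit 2) (nat_lit 5) (nat_lit 4) (nat_lit 4) (nat_lit 2) (nat_lit 4) (nat_lit 250) (nat_lit 226) (nat_lit 124)) (XT.lf (nat_lit 0) (nat_lit 1091592601015) (nat_lit 152) (nat_lit 257248655599) (nat_lit 0) (nat_lit 710442567254) (nat_lit 2) (nat_lit 5) (nat_lit 4) (nat_lit 4) (nat_lit 2) (nat_lit 4) (nat_lit 251) (nat_lit 226) (nat_lit 123))) (XT.nd (nat_lit 78) (nat_lit 76) (nat_lit 0) (XT.lf (nat_lit 0) (nat_lit 1341270184031) (nat_lit 152) (nat_lit 44064398267) (nat_lit 0) (nat_lit 960120122434) (nat_lit 2) (nat_lit 5) (nat_lit 4) (nat_lit 4) (nat_lit 2) (nat_lit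 4) (nat_lit 252) (nat_lit 226) (nat_lit 122)) (XT.lf (nat_lit 0) (nat_lit 220750169928) (nat_lit 76) (nat_lit 1416790008817) (nat_lit 76) (nat_lit 1035639923015) (nat_lit 1) (nat_lit 4) (nat_lit 2) (nat_lit 5) (nat_lit 2) (nat_lit 4) (nat_lit 253) (nat_lit 226) (nat_lit 121))))))))
noncomputable def xc53 : XT := (XT.nd (nat_lit 30264) (nat_lit 0) (nat_lit 0) (XT.nd (nat_lit 29172) (nat_lit 0) (nat_lit 304) (XT.nd (nat_lit 468) (nat_lit 0) (nat_lit 0) (XT.nd (nat_lit 234) (nat_lit 0) (nat_lit 0) (XT.nd (nat_lit 78) (nat_lit 0) (nat_lit 0) (XT.lf (nat_lit 0) (nat_lit 530239128026) (nat_lit 76) (nat_lit 1450314892564) (nat_lit 76) (nat_lit 1069164785713) (nat_lit 1) (nat_lit 4) (nat_lit 2) (nat_lit 5) (nat_lit 2) (nat_lit 4) (nat_lit 254) (nat_lit 226) (nat_lit 120)) (XT.nd (nat_lit 78) (nat_lit 0) (nat_lit 0) (XT.lf (nat_lit 0) (nat_lit 886151401305) (nat_lit 76) (nat_lit 1488868521450)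 (nat_lit 76) (nat_lit 1107718396296) (nat_lit 1) (nat_lit 4) (nat_lit 2) (nat_lit 5) (nat_lit 2) (nat_lit 4) (nat_lit 255) (nat_lit 226) (nat_lit 119)) (XT.lf (nat_lit 0) (nat_lit 1295450490763) (nat_lit 76) (nat_lit 1533205205605) (nat_lit 76) (nat_lit 1152055064536) (nat_lit 1) (nat_lit 4) (nat_lit 2) (nat_lit 5) (nat_lit 2) (nat_lit 4) (nat_lit 256) (nat_lit 226) (nat_lit 118)))) (XT.nd (nat_lit 78) (nat_lit 0) (nat_lit 0) (XT.lf (nat_lit 0) (nat_lit 1766144422065) (nat_lit 76) (nat_lit 1584192401894) (nat_lit 76) (nat_lit 1203042246986) (nat_lit 1) (nat_lit 4) (nat_lit 2) (nat_lit 5) (nat_lit 2) (nat_lit 4) (nat_lit 257) (nat_lit 226) (nat_lit 117)) (XT.nd (nat_lit 78) (nat_lit 0) (nat_lit 0) (XT.lf (nat_lit 0) (nat_lit 2307442424300) (nat_lit 76) (nat_lit 1642827685896) (nat_lit 76) (nat_lit 1261677518953) (nat_lit 1) (nat_lit 4) (nat_lit 2) (nat_lit 5) (nat_lit 2) (nat_lit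 4) (nat_lit 258) (nat_lit 226) (nat_lit 116)) (XT.lf (nat_lit 0) (nat_lit 2929935110556) (nat_lit 76) (nat_lit 1710258269690) (nat_lit 76) (nat_lit 1329108092282) (nat_lit 1) (nat_lit 4) (nat_lit 2) (nat_lit 5) (nat_lit 2) (nat_lit 4) (nat_lit 259) (nat_lit 226) (nat_lit 115))))) (XT.nd (nat_lit 546) (nat_lit 0) (nat_lit 0) (XT.nd (nat_lit 78) (nat_lit 0) (nat_lit 0) (XT.lf (nat_lit 0) (nat_lit 3645801685564) (nat_lit 76) (nat_lit 1787803447305) (nat_lit 76) (nat_lit 1406653260798) (nat_lit 1) (nat_lit 4) (nat_lit 2) (nat_lit 5) (nat_lit 2) (nat_lit 4) (nat_lit 260) (nat_lit 226) (nat_lit 114)) (XT.nd (nat_lit 390) (nat_lit 0) (nat_lit 0) (XT.lf (nat_lit 0) (nat_lit 4469048234487) (nat_lit 76) (nat_lit 1876980407000) (nat_lit 76) (nat_lit 1495830212580) (nat_lit 1) (nat_lit 4) (nat_lit 2) (nat_lit 5) (nat_lit 2) (nat_lit 4) (nat_lit 261) (nat_lit 226) (nat_lit 113)) (XT.lf (nat_lit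 0) (nat_lit 10852286476047) (nat_lit 76) (nat_lit 2568435301340) (nat_lit 76) (nat_lit 2187285080395) (nat_lit 1) (nat_lit 4) (nat_lit 2) (nat_lit 5) (nat_lit 2) (nat_lit 4) (nat_lit 266) (nat_lit 226) (nat_lit 108)))) (XT.nd (nat_lit 156) (nat_lit 0) (nat_lit 0) (XT.nd (nat_lit 78) (nat_lit 0) (nat_lit 0) (XT.lf (nat_lit 0) (nat_lit 12756505696858) (nat_lit 76) (nat_lit 2774707059718) (nat_lit 76) (nat_lit 2393556835352) (nat_lit 1) (nat_lit 4) (nat_lit 2) (nat_lit 5) (nat_lit 2) (nat_lit 4) (nat_lit 267) (nat_lit 226) (nat_lit 107)) (XT.lf (nat_lit 0) (nat_lit 14946357796152) (nat_lit 76) (nat_lit 3011919583898) (nat_lit 76) (nat_lit 2630769356557) (nat_lit 1) (nat_lit 4) (nat_lit 2) (nat_lit 5) (nat_lit 2) (nat_lit 4) (nat_lit 268) (nat_lit 226) (nat_lit 106))) (XT.nd (nat_lit 78) (nat_lit 0) (nat_lit 0) (XT.lf (nat_lit 0) (nat_lit 17464687706308) (nat_lit 76) (nat_lit 3284713988481)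 (nat_lit 76) (nat_lit 2903563758553) (nat_lit 1) (nat_lit 4) (nat_lit 2) (nat_lit 5) (nat_lit 2) (nat_lit 4) (nat_lit 269) (nat_lit 226) (nat_lit 105)) (XT.lf (nat_lit 0) (nat_lit 20360767099481) (nat_lit 76) (nat_lit 3598427555298) (nat_lit 76) (nat_lit 3217277323121) (nat_lit 1) (nat_lit 4) (nat_lit 2) (nat_lit 5) (nat_lit 2) (nat_lit 4) (nat_lit 270) (nat_lit 226) (nat_lit 104)))))) (XT.nd (nat_lit 546) (nat_lit 380) (nat_lit 0) (XT.nd (nat_lit 234) (nat_lit 152) (nat_lit 0) (XT.nd (nat_lit 78) (nat_lit 0) (nat_lit 0) (XT.lf (nat_lit 0) (nat_lit 32993787817) (nat_lit 0) (nat_lit 32993787817) (nat_lit 228) (nat_lit 23791371694) (nat_lit 12) (nat_lit 5) (nat_lit 12) (nat_lit 3) (nat_lit 15) (nat_lit 3) (nat_lit 227) (nat_lit 227) (nat_lit 146)) (XT.nd (nat_lit 78) (nat_lit 0) (nat_lit 0) (XT.lf (nat_lit 0) (nat_lit 142086181731) (nat_lit 228) (nat_lit 46258262016) (nat_lit 304)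 (nat_lit 4648327212) (nat_lit 12) (nat_lit 5) (nat_lit 15) (nat_lit 3) (nat_lit 16) (nat_lit 5) (nat_lit 228) (nat_lit 227) (nat_lit 145)) (XT.lf (nat_lit 76) (nat_lit 30745299732) (nat_lit 0) (nat_lit 127383649709) (nat_lit 304) (nat_lit 49651672504) (nat_lit 13) (nat_lit 5) (nat_lit 12) (nat_lit 5) (nat_lit 16) (nat_lit 5) (nat_lit 229) (nat_lit 227) (nat_lit 144)))) (XT.nd (nat_lit 156) (nat_lit 152) (nat_lit 0) (XT.nd (nat_lit 78) (nat_lit 0) (nat_lit 76) (XT.lf (nat_lit 76) (nat_lit 124498005083) (nat_lit 0) (nat_lit 54497921347) (nat_lit 304) (nat_lit 45428059935) (nat_lit 13) (nat_lit 5) (nat_lit 12) (nat_lit 5) (nat_lit 16) (nat_lit 5) (nat_lit 230) (nat_lit 227) (nat_lit 143)) (XT.lf (nat_lit 0) (nat_lit 204206839893) (nat_lit 228) (nat_lit 12464548722) (nat_lit 76) (nat_lit 26710387608) (nat_lit 13) (nat_lit 5) (nat_lit 16) (nat_lit 5) (nat_lit 14) (nat_lit 5) (nat_lit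 231) (nat_lit 227) (nat_lit 142))) (XT.nd (nat_lit 78) (nat_lit 0) (nat_lit 0) (XT.lf (nat_lit 0) (nat_lit 93878495745) (nat_lit 228) (nat_lit 145803153935) (nat_lit 304) (nat_lit 24529249695) (nat_lit 10) (nat_lit 5) (nat_lit 13) (nat_lit 5) (nat_lit 14) (nat_lit 5) (nat_lit 232) (nat_lit 227) (nat_lit 141)) (XT.lf (nat_lit 0) (nat_lit 217573673485) (nat_lit 228) (nat_lit 63555392838) (nat_lit 304) (nat_lit 6937620093) (nat_lit 10) (nat_lit 5) (nat_lit 13) (nat_lit 5) (nat_lit 14) (nat_lit 5) (nat_lit 233) (nat_lit 227) (nat_lit 140))))) (XT.nd (nat_lit 234) (nat_lit 228) (nat_lit 0) (XT.nd (nat_lit 78) (nat_lit 0) (nat_lit 0) (XT.lf (nat_lit 0) (nat_lit 15504626854) (nat_lit 152) (nat_lit 268476295888) (nat_lit 76) (nat_lit 30928064654) (nat_lit 8) (nat_lit 5) (nat_lit 10) (nat_lit 5) (nat_lit 9) (nat_lit 5) (nat_lit 234) (nat_lit 227) (nat_lit 139)) (XT.nd (nat_lit 78) (nat_lit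 0) (nat_lit 0) (XT.lf (nat_lit 0) (nat_lit 47489565239) (nat_lit 152) (nat_lit 159937659217) (nat_lit 76) (nat_lit 137267861575) (nat_lit 8) (nat_lit 5) (nat_lit 10) (nat_lit 5) (nat_lit 9) (nat_lit 5) (nat_lit 235) (nat_lit 227) (nat_lit 138)) (XT.lf (nat_lit 0) (nat_lit 84272118825) (nat_lit 152) (nat_lit 35118383776) (nat_lit 76) (nat_lit 259558617539) (nat_lit 8) (nat_lit 5) (nat_lit 10) (nat_lit 5) (nat_lit 9) (nat_lit 5) (nat_lit 236) (nat_lit 227) (nat_lit 137)))) (XT.nd (nat_lit 156) (nat_lit 76) (nat_lit 0) (XT.nd (nat_lit 78) (nat_lit 0) (nat_lit 0) (XT.lf (nat_lit 0) (nat_lit 119019593985) (nat_lit 152) (nat_lit 12480699861) (nat_lit 228) (nat_lit 286101731363) (nat_lit 6) (nat_lit 5) (nat_lit 8) (nat_lit 5) (nat_lit 9) (nat_lit 5) (nat_lit 237) (nat_lit 227) (nat_lit 136)) (XT.lf (nat_lit 0) (nat_lit 192309886971) (nat_lit 228) (nat_lit 166214115138) (nat_lit 76) (nat_lit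 102554286545) (nat_lit 6) (nat_lit 5) (nat_lit 9) (nat_lit 5) (nat_lit 7) (nat_lit 4) (nat_lit 238) (nat_lit 227) (nat_lit 135))) (XT.nd (nat_lit 78) (nat_lit 76) (nat_lit 0) (XT.lf (nat_lit 0) (nat_lit 262835149794) (nat_lit 228) (nat_lit 14584997031) (nat_lit 76) (nat_lit 233566711396) (nat_lit 6) (nat_lit 5) (nat_lit 9) (nat_lit 5) (nat_lit 7) (nat_lit 4) (nat_lit 239) (nat_lit 227) (nat_lit 134)) (XT.lf (nat_lit 0) (nat_lit 175404061408) (nat_lit 76) (nat_lit 175798171972) (nat_lit 152) (nat_lit 216090026195) (nat_lit 5) (nat_lit 5) (nat_lit 6) (nat_lit 5) (nat_lit 7) (nat_lit 4) (nat_lit 240) (nat_lit 227) (nat_lit 133))))))) (XT.nd (nat_lit 1014) (nat_lit 76) (nat_lit 0) (XT.nd (nat_lit 468) (nat_lit 76) (nat_lit 0) (XT.nd (nat_lit 234) (nat_lit 76) (nat_lit 0) (XT.nd (nat_lit 78) (nat_lit 76) (nat_lit 0) (XT.lf (nat_lit 0) (nat_lit 395530528518) (nat_lit 76) (nat_lit 58056177440)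 (nat_lit 152) (nat_lit 178342417123) (nat_lit 5) (nat_lit 5) (nat_lit 6) (nat_lit 5) (nat_lit 7) (nat_lit 4) (nat_lit 241) (nat_lit 227) (nat_lit 132)) (XT.nd (nat_lit 78) (nat_lit 76) (nat_lit 0) (XT.lf (nat_lit 0) (nat_lit 574531565506) (nat_lit 152) (nat_lit 60788429615) (nat_lit 0) (nat_lit 70461114377) (nat_lit 5) (nat_lit 5) (nat_lit 7) (nat_lit 4) (nat_lit 5) (nat_lit 4) (nat_lit 242) (nat_lit 227) (nat_lit 131)) (XT.lf (nat_lit 0) (nat_lit 151923910255) (nat_lit 76) (nat_lit 570749613921) (nat_lit 76) (nat_lit 66679064867) (nat_lit 4) (nat_lit 4) (nat_lit 5) (nat_lit 5) (nat_lit 5) (nat_lit 4) (nat_lit 243) (nat_lit 227) (nat_lit 130)))) (XT.nd (nat_lit 78) (nat_lit 0) (nat_lit 0) (XT.lf (nat_lit 0) (nat_lit 10231266516) (nat_lit 152) (nat_lit 482073411195) (nat_lit 76) (nat_lit 392608725892) (nat_lit 3) (nat_lit 5) (nat_lit 5) (nat_lit 5) (nat_lit 4) (nat_lit 4) (nat_lit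 244) (nat_lit 227) (nat_lit 129)) (XT.nd (nat_lit 78) (nat_lit 0) (nat_lit 0) (XT.lf (nat_lit 0) (nat_lit 91851434396) (nat_lit 152) (nat_lit 306590124298) (nat_lit 76) (nat_lit 595890510131) (nat_lit 3) (nat_lit 5) (nat_lit 5) (nat_lit 5) (nat_lit 4) (nat_lit 4) (nat_lit 245) (nat_lit 227) (nat_lit 128)) (XT.lf (nat_lit 0) (nat_lit 185714586548) (nat_lit 152) (nat_lit 104784411558) (nat_lit 76) (nat_lit 829664542258) (nat_lit 3) (nat_lit 5) (nat_lit 5) (nat_lit 5) (nat_lit 4) (nat_lit 4) (nat_lit 246) (nat_lit 227) (nat_lit 127))))) (XT.nd (nat_lit 234) (nat_lit 0) (nat_lit 0) (XT.nd (nat_lit 78) (nat_lit 0) (nat_lit 0) (XT.lf (nat_lit 0) (nat_lit 139732009405) (nat_lit 76) (nat_lit 159711171074) (nat_lit 152) (nat_lit 964558657157) (nat_lit 2) (nat_lit 5) (nat_lit 3) (nat_lit 5) (nat_lit 4) (nat_lit 4) (nat_lit 247) (nat_lit 227) (nat_lit 126)) (XT.nd (nat_lit 78) (nat_lit 0) (nat_lit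 0) (XT.lf (nat_lit 0) (nat_lit 432702176722) (nat_lit 76) (nat_lit 3006220503) (nat_lit 152) (nat_lit 992885882514) (nat_lit 2) (nat_lit 5) (nat_lit 3) (nat_lit 5) (nat_lit 4) (nat_lit 4) (nat_lit 248) (nat_lit 227) (nat_lit 125)) (XT.lf (nat_lit 0) (nat_lit 599751026088) (nat_lit 152) (nat_lit 855595430626) (nat_lit 0) (nat_lit 161428487263) (nat_lit 2) (nat_lit 5) (nat_lit 4) (nat_lit 4) (nat_lit 2) (nat_lit 4) (nat_lit 249) (nat_lit 227) (nat_lit 124)))) (XT.nd (nat_lit 156) (nat_lit 0) (nat_lit 0) (XT.nd (nat_lit 78) (nat_lit 0) (nat_lit 0) (XT.lf (nat_lit 0) (nat_lit 788543176795) (nat_lit 152) (nat_lit 694397456196) (nat_lit 0) (nat_lit 350220605958) (nat_lit 2) (nat_lit 5) (nat_lit 4) (nat_lit 4) (nat_lit 2) (nat_lit 4) (nat_lit 250) (nat_lit 227) (nat_lit 123)) (XT.lf (nat_lit 0) (nat_lit 1005654127637) (nat_lit 152) (nat_lit 509019825135) (nat_lit 0) (nat_lit 567331528964)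 (nat_lit 2) (nat_lit 5) (nat_lit 4) (nat_lit 4) (nat_lit 2) (nat_lit 4) (nat_lit 251) (nat_lit 227) (nat_lit 122))) (XT.nd (nat_lit 78) (nat_lit 0) (nat_lit 0) (XT.lf (nat_lit 0) (nat_lit 1255331701565) (nat_lit 152) (nat_lit 295835583791) (nat_lit 0) (nat_lit 817009078687) (nat_lit 2) (nat_lit 5) (nat_lit 4) (nat_lit 4) (nat_lit 2) (nat_lit 4) (nat_lit 252) (nat_lit 227) (nat_lit 121)) (XT.lf (nat_lit 0) (nat_lit 1542460894591) (nat_lit 152) (nat_lit 50673736139) (nat_lit 0) (nat_lit 1104138250664) (nat_lit 2) (nat_lit 5) (nat_lit 4) (nat_lit 4) (nat_lit 2) (nat_lit 4) (nat_lit 253) (nat_lit 227) (nat_lit 120)))))) (XT.nd (nat_lit 546) (nat_lit 0) (nat_lit 0) (XT.nd (nat_lit 234) (nat_lit 0) (nat_lit 0) (XT.nd (nat_lit 78) (nat_lit 0) (nat_lit 0) (XT.lf (nat_lit 0) (nat_lit 253863002655) (nat_lit 76) (nat_lit 1629308374716) (nat_lit 76) (nat_lit 1190985712487) (nat_lit 1) (nat_lit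 4) (nat_lit 2) (nat_lit 5) (nat_lit 2) (nat_lit 4) (nat_lit 254) (nat_lit 227) (nat_lit 119)) (XT.nd (nat_lit 78) (nat_lit 0) (nat_lit 0) (XT.lf (nat_lit 0) (nat_lit 609775264393) (nat_lit 76) (nat_lit 1667862008689) (nat_lit 76) (nat_lit 1229539330544) (nat_lit 1) (nat_lit 4) (nat_lit 2) (nat_lit 5) (nat_lit 2) (nat_lit 4) (nat_lit 255) (nat_lit 227) (nat_lit 118)) (XT.lf (nat_lit 0) (nat_lit 1019074343816) (nat_lit 76) (nat_lit 1712198697268) (nat_lit 76) (nat_lit 1273876005283) (nat_lit 1) (nat_lit 4) (nat_lit 2) (nat_lit 5) (nat_lit 2) (nat_lit 4) (nat_lit 256) (nat_lit 227) (nat_lit 117)))) (XT.nd (nat_lit 156) (nat_lit 0) (nat_lit 0) (XT.nd (nat_lit 78) (nat_lit 0) (nat_lit 0) (XT.lf (nat_lit 0) (nat_lit 1489768266391) (nat_lit 76) (nat_lit 1763185897403) (nat_lit 76) (nat_lit 1324863193384) (nat_lit 1) (nat_lit 4) (nat_lit 2) (nat_lit 5) (nat_lit 2) (nat_lit 4) (nat_lit 257)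 (nat_lit 227) (nat_lit 116)) (XT.lf (nat_lit 0) (nat_lit 2031066261038) (nat_lit 76) (nat_lit 1821821184750) (nat_lit 76) (nat_lit 1383498470266) (nat_lit 1) (nat_lit 4) (nat_lit 2) (nat_lit 5) (nat_lit 2) (nat_lit 4) (nat_lit 258) (nat_lit 227) (nat_lit 115))) (XT.nd (nat_lit 78) (nat_lit 0) (nat_lit 0) (XT.lf (nat_lit 0) (nat_lit 2653558940696) (nat_lit 76) (nat_lit 1889251771451) (nat_lit 76) (nat_lit 1450929047868) (nat_lit 1) (nat_lit 4) (nat_lit 2) (nat_lit 5) (nat_lit 2) (nat_lit 4) (nat_lit 259) (nat_lit 227) (nat_lit 114)) (XT.lf (nat_lit 0) (nat_lit 3369425509966) (nat_lit 76) (nat_lit 1966796951596) (nat_lit 76) (nat_lit 1528474220099) (nat_lit 1) (nat_lit 4) (nat_lit 2) (nat_lit 5) (nat_lit 2) (nat_lit 4) (nat_lit 260) (nat_lit 227) (nat_lit 113))))) (XT.nd (nat_lit 624) (nat_lit 0) (nat_lit 0) (XT.nd (nat_lit 468) (nat_lit 0) (nat_lit 0) (XT.lf (nat_lit 0) (nat_lit 4192672053900)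 (nat_lit 76) (nat_lit 2055973913490) (nat_lit 76) (nat_lit 1617651175113) (nat_lit 1) (nat_lit 4) (nat_lit 2) (nat_lit 5) (nat_lit 2) (nat_lit 4) (nat_lit 261) (nat_lit 227) (nat_lit 112)) (XT.nd (nat_lit 78) (nat_lit 0) (nat_lit 0) (XT.lf (nat_lit 0) (nat_lit 12480129497389) (nat_lit 76) (nat_lit 2953700574531) (nat_lit 76) (nat_lit 2515377810114) (nat_lit 1) (nat_lit 4) (nat_lit 2) (nat_lit 5) (nat_lit 2) (nat_lit 4) (nat_lit 267) (nat_lit 227) (nat_lit 106)) (XT.lf (nat_lit 0) (nat_lit 14669981594808) (nat_lit 76) (nat_lit 3190913099537) (nat_lit 76) (nat_lit 2752590332533) (nat_lit 1) (nat_lit 4) (nat_lit 2) (nat_lit 5) (nat_lit 2) (nat_lit 4) (nat_lit 268) (nat_lit 227) (nat_lit 105)))) (XT.nd (nat_lit 28158) (nat_lit 0) (nat_lit 836) (XT.nd (nat_lit 28080) (nat_lit 0) (nat_lit 836) (XT.lf (nat_lit 0) (nat_lit 17188311503333) (nat_lit 76) (nat_lit 3463707504839) (nat_lit 76)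 (nat_lit 3025384735586) (nat_lit 1) (nat_lit 4) (nat_lit 2) (nat_lit 5) (nat_lit 2) (nat_lit 4) (nat_lit 269) (nat_lit 227) (nat_lit 104)) (XT.lf (nat_lit 0) (nat_lit 37943625986) (nat_lit 0) (nat_lit 37943625986) (nat_lit 228) (nat_lit 27358276087) (nat_lit 12) (nat_lit 5) (nat_lit 12) (nat_lit 3) (nat_lit 15) (nat_lit 3) (nat_lit 228) (nat_lit 228) (nat_lit 144))) (XT.nd (nat_lit 78) (nat_lit 0) (nat_lit 0) (XT.lf (nat_lit 0) (nat_lit 163401731789) (nat_lit 228) (nat_lit 53195152191) (nat_lit 304) (nat_lit 5344356388) (nat_lit 12) (nat_lit 5) (nat_lit 15) (nat_lit 3) (nat_lit 16) (nat_lit 5) (nat_lit 229) (nat_lit 228) (nat_lit 143)) (XT.lf (nat_lit 76) (nat_lit 35358859768) (nat_lit 0) (nat_lit 146491785871) (nat_lit 304) (nat_lit 57096670603) (nat_lit 13) (nat_lit 5) (nat_lit 12) (nat_lit 5) (nat_lit 16) (nat_lit 5) (nat_lit 230) (nat_lit 228) (nat_lit 142))))))))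
noncomputable def xc54 : XT := (XT.nd (nat_lit 2028) (nat_lit 0) (nat_lit 0) (XT.nd (nat_lit 1014) (nat_lit 304) (nat_lit 0) (XT.nd (nat_lit 468) (nat_lit 228) (nat_lit 0) (XT.nd (nat_lit 234) (nat_lit 152) (nat_lit 0) (XT.nd (nat_lit 78) (nat_lit 152) (nat_lit 0) (XT.lf (nat_lit 76) (nat_lit 143174240694) (nat_lit 0) (nat_lit 62673121467) (nat_lit 304) (nat_lit 52239875207) (nat_lit 13) (nat_lit 5) (nat_lit 12) (nat_lit 5) (nat_lit 16) (nat_lit 5) (nat_lit 231) (nat_lit 228) (nat_lit 141)) (XT.nd (nat_lit 78) (nat_lit 228) (nat_lit 0) (XT.lf (nat_lit 0) (nat_lit 234839627242) (nat_lit 228) (nat_lit 14332576250) (nat_lit 76) (nat_lit 30716540233) (nat_lit 13) (nat_lit 5) (nat_lit 16) (nat_lit 5) (nat_lit 14) (nat_lit 5) (nat_lit 232) (nat_lit 228) (nat_lit 140)) (XT.lf (nat_lit 0) (nat_lit 107961849670) (nat_lit 228) (nat_lit 167673644490) (nat_lit 304) (nat_lit 28206770370) (nat_lit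 10) (nat_lit 5) (nat_lit 13) (nat_lit 5) (nat_lit 14) (nat_lit 5) (nat_lit 233) (nat_lit 228) (nat_lit 139)))) (XT.nd (nat_lit 78) (nat_lit 152) (nat_lit 0) (XT.lf (nat_lit 0) (nat_lit 250211098042) (nat_lit 228) (nat_lit 73088716950) (nat_lit 304) (nat_lit 7976639821) (nat_lit 10) (nat_lit 5) (nat_lit 13) (nat_lit 5) (nat_lit 14) (nat_lit 5) (nat_lit 234) (nat_lit 228) (nat_lit 138)) (XT.nd (nat_lit 78) (nat_lit 0) (nat_lit 0) (XT.lf (nat_lit 0) (nat_lit 17831672810) (nat_lit 152) (nat_lit 308746052691) (nat_lit 76) (nat_lit 35567387359) (nat_lit 8) (nat_lit 5) (nat_lit 10) (nat_lit 5) (nat_lit 9) (nat_lit 5) (nat_lit 235) (nat_lit 228) (nat_lit 137)) (XT.lf (nat_lit 0) (nat_lit 54614175615) (nat_lit 152) (nat_lit 183926840639) (nat_lit 76) (nat_lit 157858139079) (nat_lit 8) (nat_lit 5) (nat_lit 10) (nat_lit 5) (nat_lit 9) (nat_lit 5) (nat_lit 236) (nat_lit 228) (nat_lit 136)))))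 (XT.nd (nat_lit 234) (nat_lit 76) (nat_lit 0) (XT.nd (nat_lit 78) (nat_lit 152) (nat_lit 0) (XT.lf (nat_lit 0) (nat_lit 96913958901) (nat_lit 152) (nat_lit 40384865289) (nat_lit 76) (nat_lit 298492495620) (nat_lit 8) (nat_lit 5) (nat_lit 10) (nat_lit 5) (nat_lit 9) (nat_lit 5) (nat_lit 237) (nat_lit 228) (nat_lit 135)) (XT.nd (nat_lit 78) (nat_lit 0) (nat_lit 0) (XT.lf (nat_lit 0) (nat_lit 136873751134) (nat_lit 152) (nat_lit 14352526141) (nat_lit 228) (nat_lit 329015897758) (nat_lit 6) (nat_lit 5) (nat_lit 8) (nat_lit 5) (nat_lit 9) (nat_lit 5) (nat_lit 238) (nat_lit 228) (nat_lit 134)) (XT.lf (nat_lit 0) (nat_lit 221157196880) (nat_lit 228) (nat_lit 191145049393) (nat_lit 76) (nat_lit 117937650299) (nat_lit 6) (nat_lit 5) (nat_lit 9) (nat_lit 5) (nat_lit 7) (nat_lit 4) (nat_lit 239) (nat_lit 228) (nat_lit 133)))) (XT.nd (nat_lit 156) (nat_lit 0) (nat_lit 0) (XT.nd (nat_lit 78)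 (nat_lit 76) (nat_lit 0) (XT.lf (nat_lit 0) (nat_lit 302261141275) (nat_lit 228) (nat_lit 16771717876) (nat_lit 76) (nat_lit 268601910080) (nat_lit 6) (nat_lit 5) (nat_lit 9) (nat_lit 5) (nat_lit 7) (nat_lit 4) (nat_lit 240) (nat_lit 228) (nat_lit 132)) (XT.lf (nat_lit 0) (nat_lit 201715652570) (nat_lit 76) (nat_lit 202167581706) (nat_lit 152) (nat_lit 248502755769) (nat_lit 5) (nat_lit 5) (nat_lit 6) (nat_lit 5) (nat_lit 7) (nat_lit 4) (nat_lit 241) (nat_lit 228) (nat_lit 131))) (XT.nd (nat_lit 78) (nat_lit 0) (nat_lit 0) (XT.lf (nat_lit 0) (nat_lit 454860961666) (nat_lit 76) (nat_lit 66764329219) (nat_lit 152) (nat_lit 205093106340) (nat_lit 5) (nat_lit 5) (nat_lit 6) (nat_lit 5) (nat_lit 7) (nat_lit 4) (nat_lit 242) (nat_lit 228) (nat_lit 130)) (XT.lf (nat_lit 0) (nat_lit 660711813735) (nat_lit 152) (nat_lit 69905879441) (nat_lit 0) (nat_lit 81030499246) (nat_lit 5) (nat_lit 5)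 (nat_lit 7) (nat_lit 4) (nat_lit 5) (nat_lit 4) (nat_lit 243) (nat_lit 228) (nat_lit 129)))))) (XT.nd (nat_lit 468) (nat_lit 76) (nat_lit 0) (XT.nd (nat_lit 234) (nat_lit 76) (nat_lit 0) (XT.nd (nat_lit 78) (nat_lit 76) (nat_lit 0) (XT.lf (nat_lit 0) (nat_lit 174713274381) (nat_lit 76) (nat_lit 656361757056) (nat_lit 76) (nat_lit 76680368522) (nat_lit 4) (nat_lit 4) (nat_lit 5) (nat_lit 5) (nat_lit 5) (nat_lit 4) (nat_lit 244) (nat_lit 228) (nat_lit 128)) (XT.nd (nat_lit 78) (nat_lit 0) (nat_lit 0) (XT.lf (nat_lit 0) (nat_lit 11766396988) (nat_lit 152) (nat_lit 554383699394) (nat_lit 76) (nat_lit 451500247419) (nat_lit 3) (nat_lit 5) (nat_lit 5) (nat_lit 5) (nat_lit 4) (nat_lit 4) (nat_lit 245) (nat_lit 228) (nat_lit 127)) (XT.lf (nat_lit 0) (nat_lit 105629532595) (nat_lit 152) (nat_lit 352578013830) (nat_lit 76) (nat_lit 685274271558) (nat_lit 3) (nat_lit 5) (nat_lit 5) (nat_lit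 5) (nat_lit 4) (nat_lit 4) (nat_lit 246) (nat_lit 228) (nat_lit 126)))) (XT.nd (nat_lit 78) (nat_lit 76) (nat_lit 0) (XT.lf (nat_lit 0) (nat_lit 213572107608) (nat_lit 152) (nat_lit 120501526237) (nat_lit 76) (nat_lit 954114384386) (nat_lit 3) (nat_lit 5) (nat_lit 5) (nat_lit 5) (nat_lit 4) (nat_lit 4) (nat_lit 247) (nat_lit 228) (nat_lit 125)) (XT.nd (nat_lit 78) (nat_lit 0) (nat_lit 0) (XT.lf (nat_lit 0) (nat_lit 160692333004) (nat_lit 76) (nat_lit 183667635802) (nat_lit 152) (nat_lit 1109242094980) (nat_lit 2) (nat_lit 5) (nat_lit 3) (nat_lit 5) (nat_lit 4) (nat_lit 4) (nat_lit 248) (nat_lit 228) (nat_lit 124)) (XT.lf (nat_lit 0) (nat_lit 497607957307) (nat_lit 76) (nat_lit 3456970158) (nat_lit 152) (nat_lit 1141818451195) (nat_lit 2) (nat_lit 5) (nat_lit 3) (nat_lit 5) (nat_lit 4) (nat_lit 4) (nat_lit 249) (nat_lit 228) (nat_lit 123))))) (XT.nd (nat_lit 234) (nat_lit 76) (nat_lit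 0) (XT.nd (nat_lit 78) (nat_lit 0) (nat_lit 0) (XT.lf (nat_lit 0) (nat_lit 689713921959) (nat_lit 152) (nat_lit 983934319549) (nat_lit 0) (nat_lit 185642905649) (nat_lit 2) (nat_lit 5) (nat_lit 4) (nat_lit 4) (nat_lit 2) (nat_lit 4) (nat_lit 250) (nat_lit 228) (nat_lit 122)) (XT.nd (nat_lit 78) (nat_lit 0) (nat_lit 0) (XT.lf (nat_lit 0) (nat_lit 906824863713) (nat_lit 152) (nat_lit 798556704478) (nat_lit 0) (nat_lit 402753823197) (nat_lit 2) (nat_lit 5) (nat_lit 4) (nat_lit 4) (nat_lit 2) (nat_lit 4) (nat_lit 251) (nat_lit 228) (nat_lit 121)) (XT.lf (nat_lit 0) (nat_lit 1156502429738) (nat_lit 152) (nat_lit 585372477038) (nat_lit 0) (nat_lit 652431368174) (nat_lit 2) (nat_lit 5) (nat_lit 4) (nat_lit 4) (nat_lit 2) (nat_lit 4) (nat_lit 252) (nat_lit 228) (nat_lit 120)))) (XT.nd (nat_lit 156) (nat_lit 76) (nat_lit 0) (XT.nd (nat_lit 78) (nat_lit 0) (nat_lit 0) (XT.lf (nat_lit 0) (nat_lit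 1443631615891) (nat_lit 152) (nat_lit 340210641475) (nat_lit 0) (nat_lit 939560536025) (nat_lit 2) (nat_lit 5) (nat_lit 4) (nat_lit 4) (nat_lit 2) (nat_lit 4) (nat_lit 253) (nat_lit 228) (nat_lit 119)) (XT.lf (nat_lit 0) (nat_lit 1773830167120) (nat_lit 152) (nat_lit 58274553182) (nat_lit 0) (nat_lit 1269759071338) (nat_lit 2) (nat_lit 5) (nat_lit 4) (nat_lit 4) (nat_lit 2) (nat_lit 4) (nat_lit 254) (nat_lit 228) (nat_lit 118))) (XT.nd (nat_lit 78) (nat_lit 0) (nat_lit 0) (XT.lf (nat_lit 0) (nat_lit 291942685368) (nat_lit 76) (nat_lit 1873704528524) (nat_lit 76) (nat_lit 1369633418902) (nat_lit 1) (nat_lit 4) (nat_lit 2) (nat_lit 5) (nat_lit 2) (nat_lit 4) (nat_lit 255) (nat_lit 228) (nat_lit 117)) (XT.lf (nat_lit 0) (nat_lit 701241756065) (nat_lit 76) (nat_lit 1918041220949) (nat_lit 76) (nat_lit 1413970099293) (nat_lit 1) (nat_lit 4) (nat_lit 2) (nat_lit 5) (nat_lit 2) (nat_lit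 4) (nat_lit 256) (nat_lit 228) (nat_lit 116))))))) (XT.nd (nat_lit 29562) (nat_lit 0) (nat_lit 152) (XT.nd (nat_lit 1404) (nat_lit 0) (nat_lit 0) (XT.nd (nat_lit 234) (nat_lit 0) (nat_lit 0) (XT.nd (nat_lit 78) (nat_lit 0) (nat_lit 0) (XT.lf (nat_lit 0) (nat_lit 1171935671052) (nat_lit 76) (nat_lit 1969028424429) (nat_lit 76) (nat_lit 1464957292308) (nat_lit 1) (nat_lit 4) (nat_lit 2) (nat_lit 5) (nat_lit 2) (nat_lit 4) (nat_lit 257) (nat_lit 228) (nat_lit 115)) (XT.nd (nat_lit 78) (nat_lit 0) (nat_lit 0) (XT.lf (nat_lit 0) (nat_lit 1713233659101) (nat_lit 76) (nat_lit 2027663714684) (nat_lit 76) (nat_lit 1523592573463) (nat_lit 1) (nat_lit 4) (nat_lit 2) (nat_lit 5) (nat_lit 2) (nat_lit 4) (nat_lit 258) (nat_lit 228) (nat_lit 114)) (XT.lf (nat_lit 0) (nat_lit 2335726333021) (nat_lit 76) (nat_lit 2095094303915) (nat_lit 76) (nat_lit 1591023154781) (nat_lit 1) (nat_lit 4) (nat_lit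 2) (nat_lit 5) (nat_lit 2) (nat_lit 4) (nat_lit 259) (nat_lit 228) (nat_lit 113)))) (XT.nd (nat_lit 78) (nat_lit 0) (nat_lit 0) (XT.lf (nat_lit 0) (nat_lit 3051592897302) (nat_lit 76) (nat_lit 2172639486258) (nat_lit 76) (nat_lit 1668568330244) (nat_lit 1) (nat_lit 4) (nat_lit 2) (nat_lit 5) (nat_lit 2) (nat_lit 4) (nat_lit 260) (nat_lit 228) (nat_lit 112)) (XT.nd (nat_lit 1014) (nat_lit 0) (nat_lit 0) (XT.lf (nat_lit 0) (nat_lit 3874839436898) (nat_lit 76) (nat_lit 2261816450065) (nat_lit 76) (nat_lit 1757745288067) (nat_lit 1) (nat_lit 4) (nat_lit 2) (nat_lit 5) (nat_lit 2) (nat_lit 4) (nat_lit 261) (nat_lit 228) (nat_lit 111)) (XT.lf (nat_lit 0) (nat_lit 36396950224283) (nat_lit 76) (nat_lit 5784726539116) (nat_lit 76) (nat_lit 5280655343713) (nat_lit 1) (nat_lit 4) (nat_lit 2) (nat_lit 5) (nat_lit 2) (nat_lit 4) (nat_lit 274) (nat_lit 228) (nat_lit 98))))) (XT.nd (nat_lit 27846)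 (nat_lit 0) (nat_lit 684) (XT.nd (nat_lit 27690) (nat_lit 0) (nat_lit 836) (XT.lf (nat_lit 0) (nat_lit 42222000309529) (nat_lit 76) (nat_lit 6415716584388) (nat_lit 76) (nat_lit 5911645388139) (nat_lit 1) (nat_lit 4) (nat_lit 2) (nat_lit 5) (nat_lit 2) (nat_lit 4) (nat_lit 275) (nat_lit 228) (nat_lit 97)) (XT.nd (nat_lit 78) (nat_lit 0) (nat_lit 0) (XT.lf (nat_lit 0) (nat_lit 43635752112) (nat_lit 0) (nat_lit 43635752112) (nat_lit 228) (nat_lit 31460655413) (nat_lit 12) (nat_lit 5) (nat_lit 12) (nat_lit 3) (nat_lit 15) (nat_lit 3) (nat_lit 229) (nat_lit 229) (nat_lit 142)) (XT.lf (nat_lit 0) (nat_lit 187913974769) (nat_lit 228) (nat_lit 61173026814) (nat_lit 304) (nat_lit 6145087422) (nat_lit 12) (nat_lit 5) (nat_lit 15) (nat_lit 3) (nat_lit 16) (nat_lit 5) (nat_lit 230) (nat_lit 229) (nat_lit 141)))) (XT.nd (nat_lit 156) (nat_lit 152) (nat_lit 0) (XT.nd (nat_lit 78) (nat_lit 0)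 (nat_lit 0) (XT.lf (nat_lit 76) (nat_lit 40664023384) (nat_lit 0) (nat_lit 168465998898) (nat_lit 304) (nat_lit 65659089700) (nat_lit 13) (nat_lit 5) (nat_lit 12) (nat_lit 5) (nat_lit 16) (nat_lit 5) (nat_lit 231) (nat_lit 229) (nat_lit 140)) (XT.lf (nat_lit 76) (nat_lit 164651537364) (nat_lit 0) (nat_lit 72074476771) (nat_lit 304) (nat_lit 60074046493) (nat_lit 13) (nat_lit 5) (nat_lit 12) (nat_lit 5) (nat_lit 16) (nat_lit 5) (nat_lit 232) (nat_lit 229) (nat_lit 139))) (XT.nd (nat_lit 78) (nat_lit 228) (nat_lit 0) (XT.lf (nat_lit 0) (nat_lit 270066903173) (nat_lit 228) (nat_lit 16481211436) (nat_lit 76) (nat_lit 35323714640) (nat_lit 13) (nat_lit 5) (nat_lit 16) (nat_lit 5) (nat_lit 14) (nat_lit 5) (nat_lit 233) (nat_lit 229) (nat_lit 138)) (XT.lf (nat_lit 0) (nat_lit 124157321497) (nat_lit 228) (nat_lit 192824704369) (nat_lit 304) (nat_lit 32436374372) (nat_lit 10) (nat_lit 5)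 (nat_lit 13) (nat_lit 5) (nat_lit 14) (nat_lit 5) (nat_lit 234) (nat_lit 229) (nat_lit 137)))))) (XT.nd (nat_lit 546) (nat_lit 228) (nat_lit 0) (XT.nd (nat_lit 234) (nat_lit 152) (nat_lit 0) (XT.nd (nat_lit 78) (nat_lit 152) (nat_lit 0) (XT.lf (nat_lit 0) (nat_lit 287743801336) (nat_lit 228) (nat_lit 84052035976) (nat_lit 304) (nat_lit 9171908356) (nat_lit 10) (nat_lit 5) (nat_lit 13) (nat_lit 5) (nat_lit 14) (nat_lit 5) (nat_lit 235) (nat_lit 229) (nat_lit 136)) (XT.nd (nat_lit 78) (nat_lit 0) (nat_lit 0) (XT.lf (nat_lit 0) (nat_lit 20507445984) (nat_lit 152) (nat_lit 355056684542) (nat_lit 76) (nat_lit 40902580913) (nat_lit 8) (nat_lit 5) (nat_lit 10) (nat_lit 5) (nat_lit 9) (nat_lit 5) (nat_lit 236) (nat_lit 229) (nat_lit 135)) (XT.lf (nat_lit 0) (nat_lit 62807190872) (nat_lit 152) (nat_lit 211514757123) (nat_lit 76) (nat_lit 181536934245) (nat_lit 8) (nat_lit 5) (nat_lit 10)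 (nat_lit 5) (nat_lit 9) (nat_lit 5) (nat_lit 237) (nat_lit 229) (nat_lit 134)))) (XT.nd (nat_lit 156) (nat_lit 0) (nat_lit 0) (XT.nd (nat_lit 78) (nat_lit 152) (nat_lit 0) (XT.lf (nat_lit 0) (nat_lit 111451825706) (nat_lit 152) (nat_lit 46441630203) (nat_lit 76) (nat_lit 343266434575) (nat_lit 8) (nat_lit 5) (nat_lit 10) (nat_lit 5) (nat_lit 9) (nat_lit 5) (nat_lit 238) (nat_lit 229) (nat_lit 133)) (XT.lf (nat_lit 0) (nat_lit 157405734825) (nat_lit 152) (nat_lit 16505194326) (nat_lit 228) (nat_lit 378367455722) (nat_lit 6) (nat_lit 5) (nat_lit 8) (nat_lit 5) (nat_lit 9) (nat_lit 5) (nat_lit 239) (nat_lit 229) (nat_lit 132))) (XT.nd (nat_lit 78) (nat_lit 0) (nat_lit 0) (XT.lf (nat_lit 0) (nat_lit 254331401639) (nat_lit 228) (nat_lit 219815912272) (nat_lit 76) (nat_lit 135628464778) (nat_lit 6) (nat_lit 5) (nat_lit 9) (nat_lit 5) (nat_lit 7) (nat_lit 4) (nat_lit 240) (nat_lit 229)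 (nat_lit 131)) (XT.lf (nat_lit 0) (nat_lit 347600856142) (nat_lit 228) (nat_lit 19286697705) (nat_lit 76) (nat_lit 308892341754) (nat_lit 6) (nat_lit 5) (nat_lit 9) (nat_lit 5) (nat_lit 7) (nat_lit 4) (nat_lit 241) (nat_lit 229) (nat_lit 130))))) (XT.nd (nat_lit 234) (nat_lit 152) (nat_lit 0) (XT.nd (nat_lit 78) (nat_lit 0) (nat_lit 0) (XT.lf (nat_lit 0) (nat_lit 231973742950) (nat_lit 76) (nat_lit 232492479973) (nat_lit 152) (nat_lit 285777583611) (nat_lit 5) (nat_lit 5) (nat_lit 6) (nat_lit 5) (nat_lit 7) (nat_lit 4) (nat_lit 242) (nat_lit 229) (nat_lit 129)) (XT.nd (nat_lit 78) (nat_lit 0) (nat_lit 0) (XT.lf (nat_lit 0) (nat_lit 523090751564) (nat_lit 76) (nat_lit 76778770785) (nat_lit 152) (nat_lit 235856563141) (nat_lit 5) (nat_lit 5) (nat_lit 6) (nat_lit 5) (nat_lit 7) (nat_lit 4) (nat_lit 243) (nat_lit 229) (nat_lit 128)) (XT.lf (nat_lit 0) (nat_lit 759818974001) (nat_lit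 152) (nat_lit 80391145391) (nat_lit 0) (nat_lit 93185238755) (nat_lit 5) (nat_lit 5) (nat_lit 7) (nat_lit 4) (nat_lit 5) (nat_lit 4) (nat_lit 244) (nat_lit 229) (nat_lit 127)))) (XT.nd (nat_lit 156) (nat_lit 0) (nat_lit 0) (XT.nd (nat_lit 78) (nat_lit 76) (nat_lit 0) (XT.lf (nat_lit 0) (nat_lit 200920853507) (nat_lit 76) (nat_lit 754815794563) (nat_lit 76) (nat_lit 88182003328) (nat_lit 4) (nat_lit 4) (nat_lit 5) (nat_lit 5) (nat_lit 5) (nat_lit 4) (nat_lit 245) (nat_lit 229) (nat_lit 126)) (XT.lf (nat_lit 0) (nat_lit 13531689614) (nat_lit 152) (nat_lit 637540707249) (nat_lit 76) (nat_lit 519225445320) (nat_lit 3) (nat_lit 5) (nat_lit 5) (nat_lit 5) (nat_lit 4) (nat_lit 4) (nat_lit 246) (nat_lit 229) (nat_lit 125))) (XT.nd (nat_lit 78) (nat_lit 0) (nat_lit 0) (XT.lf (nat_lit 0) (nat_lit 121474252116) (nat_lit 152) (nat_lit 405464240205) (nat_lit 76) (nat_lit 788065552108) (nat_lit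 3) (nat_lit 5) (nat_lit 5) (nat_lit 5) (nat_lit 4) (nat_lit 4) (nat_lit 247) (nat_lit 229) (nat_lit 124)) (XT.lf (nat_lit 0) (nat_lit 245608175604) (nat_lit 152) (nat_lit 138576341521) (nat_lit 76) (nat_lit 1097231663623) (nat_lit 3) (nat_lit 5) (nat_lit 5) (nat_lit 5) (nat_lit 4) (nat_lit 4) (nat_lit 248) (nat_lit 229) (nat_lit 123))))))))
noncomputable def xc55 : XT := (XT.nd (nat_lit 30654) (nat_lit 0) (nat_lit 0) (XT.nd (nat_lit 1872) (nat_lit 0) (nat_lit 0) (XT.nd (nat_lit 468) (nat_lit 76) (nat_lit 0) (XT.nd (nat_lit 234) (nat_lit 0) (nat_lit 0) (XT.nd (nat_lit 78) (nat_lit 0) (nat_lit 0) (XT.lf (nat_lit 0) (nat_lit 184796577804) (nat_lit 76) (nat_lit 211217621677) (nat_lit 152) (nat_lit 1275628136449) (nat_lit 2) (nat_lit 5) (nat_lit 3) (nat_lit 5) (nat_lit 4) (nat_lit 4) (nat_lit 249) (nat_lit 229) (nat_lit 122)) (XT.nd (nat_lit 78) (nat_lit 0) (nat_lit 0) (XT.lf (nat_lit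 0) (nat_lit 572249494251) (nat_lit 76) (nat_lit 3975376990) (nat_lit 152) (nat_lit 1313090981676) (nat_lit 2) (nat_lit 5) (nat_lit 3) (nat_lit 5) (nat_lit 4) (nat_lit 4) (nat_lit 250) (nat_lit 229) (nat_lit 121)) (XT.lf (nat_lit 0) (nat_lit 793171193208) (nat_lit 152) (nat_lit 1131524145614) (nat_lit 0) (nat_lit 213489451361) (nat_lit 2) (nat_lit 5) (nat_lit 4) (nat_lit 4) (nat_lit 2) (nat_lit 4) (nat_lit 251) (nat_lit 229) (nat_lit 120)))) (XT.nd (nat_lit 78) (nat_lit 0) (nat_lit 0) (XT.lf (nat_lit 0) (nat_lit 1042848752361) (nat_lit 152) (nat_lit 918339930264) (nat_lit 0) (nat_lit 463166992211) (nat_lit 2) (nat_lit 5) (nat_lit 4) (nat_lit 4) (nat_lit 2) (nat_lit 4) (nat_lit 252) (nat_lit 229) (nat_lit 119)) (XT.nd (nat_lit 78) (nat_lit 0) (nat_lit 0) (XT.lf (nat_lit 0) (nat_lit 1329977932539) (nat_lit 152) (nat_lit 673178105215) (nat_lit 0) (nat_lit 750296156474) (nat_lit 2) (nat_lit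 5) (nat_lit 4) (nat_lit 4) (nat_lit 2) (nat_lit 4) (nat_lit 253) (nat_lit 229) (nat_lit 118)) (XT.lf (nat_lit 0) (nat_lit 1660176478571) (nat_lit 152) (nat_lit 391242026063) (nat_lit 0) (nat_lit 1080494688666) (nat_lit 2) (nat_lit 5) (nat_lit 4) (nat_lit 4) (nat_lit 2) (nat_lit 4) (nat_lit 254) (nat_lit 229) (nat_lit 117))))) (XT.nd (nat_lit 234) (nat_lit 0) (nat_lit 0) (XT.nd (nat_lit 78) (nat_lit 76) (nat_lit 0) (XT.lf (nat_lit 0) (nat_lit 2039904796793) (nat_lit 152) (nat_lit 67015552130) (nat_lit 0) (nat_lit 1460222994854) (nat_lit 2) (nat_lit 5) (nat_lit 4) (nat_lit 4) (nat_lit 2) (nat_lit 4) (nat_lit 255) (nat_lit 229) (nat_lit 116)) (XT.nd (nat_lit 78) (nat_lit 0) (nat_lit 0) (XT.lf (nat_lit 0) (nat_lit 335734263838) (nat_lit 76) (nat_lit 2154760130373) (nat_lit 76) (nat_lit 1575078317969) (nat_lit 1) (nat_lit 4) (nat_lit 2) (nat_lit 5) (nat_lit 2) (nat_lit 4) (nat_lit 256)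 (nat_lit 229) (nat_lit 115)) (XT.lf (nat_lit 0) (nat_lit 806428172227) (nat_lit 76) (nat_lit 2205747336762) (nat_lit 76) (nat_lit 1626065515258) (nat_lit 1) (nat_lit 4) (nat_lit 2) (nat_lit 5) (nat_lit 2) (nat_lit 4) (nat_lit 257) (nat_lit 229) (nat_lit 114)))) (XT.nd (nat_lit 156) (nat_lit 0) (nat_lit 0) (XT.nd (nat_lit 78) (nat_lit 0) (nat_lit 0) (XT.lf (nat_lit 0) (nat_lit 1347726154538) (nat_lit 76) (nat_lit 2264382629546) (nat_lit 76) (nat_lit 1684700800129) (nat_lit 1) (nat_lit 4) (nat_lit 2) (nat_lit 5) (nat_lit 2) (nat_lit 4) (nat_lit 258) (nat_lit 229) (nat_lit 113)) (XT.lf (nat_lit 0) (nat_lit 1970218823468) (nat_lit 76) (nat_lit 2331813220976) (nat_lit 76) (nat_lit 1752131384678) (nat_lit 1) (nat_lit 4) (nat_lit 2) (nat_lit 5) (nat_lit 2) (nat_lit 4) (nat_lit 259) (nat_lit 229) (nat_lit 112))) (XT.nd (nat_lit 78) (nat_lit 0) (nat_lit 0) (XT.lf (nat_lit 0) (nat_lit 2686085383411)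 (nat_lit 76) (nat_lit 2409358405232) (nat_lit 76) (nat_lit 1829676562951) (nat_lit 1) (nat_lit 4) (nat_lit 2) (nat_lit 5) (nat_lit 2) (nat_lit 4) (nat_lit 260) (nat_lit 229) (nat_lit 111)) (XT.lf (nat_lit 0) (nat_lit 3509331919234) (nat_lit 76) (nat_lit 2498535370701) (nat_lit 76) (nat_lit 1918853523218) (nat_lit 1) (nat_lit 4) (nat_lit 2) (nat_lit 5) (nat_lit 2) (nat_lit 4) (nat_lit 261) (nat_lit 229) (nat_lit 110)))))) (XT.nd (nat_lit 28236) (nat_lit 0) (nat_lit 380) (XT.nd (nat_lit 27924) (nat_lit 0) (nat_lit 836) (XT.nd (nat_lit 78) (nat_lit 0) (nat_lit 0) (XT.lf (nat_lit 0) (nat_lit 30966181741331) (nat_lit 76) (nat_lit 5472758473383) (nat_lit 76) (nat_lit 4893076597698) (nat_lit 1) (nat_lit 4) (nat_lit 2) (nat_lit 5) (nat_lit 2) (nat_lit 4) (nat_lit 273) (nat_lit 229) (nat_lit 98)) (XT.nd (nat_lit 78) (nat_lit 0) (nat_lit 0) (XT.lf (nat_lit 0) (nat_lit 36031442685556) (nat_lit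 76) (nat_lit 6021445469037) (nat_lit 76) (nat_lit 5441763592505) (nat_lit 1) (nat_lit 4) (nat_lit 2) (nat_lit 5) (nat_lit 2) (nat_lit 4) (nat_lit 274) (nat_lit 229) (nat_lit 97)) (XT.lf (nat_lit 0) (nat_lit 41856492770269) (nat_lit 76) (nat_lit 6652435514543) (nat_lit 76) (nat_lit 6072753637277) (nat_lit 1) (nat_lit 4) (nat_lit 2) (nat_lit 5) (nat_lit 2) (nat_lit 4) (nat_lit 275) (nat_lit 229) (nat_lit 96)))) (XT.nd (nat_lit 156) (nat_lit 0) (nat_lit 0) (XT.nd (nat_lit 78) (nat_lit 0) (nat_lit 0) (XT.lf (nat_lit 0) (nat_lit 50181555177) (nat_lit 0) (nat_lit 50181555177) (nat_lit 228) (nat_lit 36178723791) (nat_lit 12) (nat_lit 5) (nat_lit 12) (nat_lit 3) (nat_lit 15) (nat_lit 3) (nat_lit 230) (nat_lit 230) (nat_lit 140)) (XT.lf (nat_lit 0) (nat_lit 216102570578) (nat_lit 228) (nat_lit 70347923591) (nat_lit 304) (nat_lit 7066153050) (nat_lit 12) (nat_lit 5) (nat_lit 15) (nat_lit 3)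 (nat_lit 16) (nat_lit 5) (nat_lit 231) (nat_lit 230) (nat_lit 139))) (XT.nd (nat_lit 78) (nat_lit 0) (nat_lit 0) (XT.lf (nat_lit 76) (nat_lit 46764636080) (nat_lit 0) (nat_lit 193736235327) (nat_lit 304) (nat_lit 75506379247) (nat_lit 13) (nat_lit 5) (nat_lit 12) (nat_lit 5) (nat_lit 16) (nat_lit 5) (nat_lit 232) (nat_lit 230) (nat_lit 138)) (XT.lf (nat_lit 76) (nat_lit 189350145524) (nat_lit 0) (nat_lit 82885940978) (nat_lit 304) (nat_lit 69083784851) (nat_lit 13) (nat_lit 5) (nat_lit 12) (nat_lit 5) (nat_lit 16) (nat_lit 5) (nat_lit 233) (nat_lit 230) (nat_lit 137))))) (XT.nd (nat_lit 234) (nat_lit 304) (nat_lit 0) (XT.nd (nat_lit 78) (nat_lit 228) (nat_lit 0) (XT.lf (nat_lit 0) (nat_lit 310577945715) (nat_lit 228) (nat_lit 18952447025) (nat_lit 76) (nat_lit 40622039981) (nat_lit 13) (nat_lit 5) (nat_lit 16) (nat_lit 5) (nat_lit 14) (nat_lit 5) (nat_lit 234) (nat_lit 230) (nat_lit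 136)) (XT.nd (nat_lit 78) (nat_lit 0) (nat_lit 0) (XT.lf (nat_lit 0) (nat_lit 142781822842) (nat_lit 228) (nat_lit 221748420010) (nat_lit 304) (nat_lit 37300763190) (nat_lit 10) (nat_lit 5) (nat_lit 13) (nat_lit 5) (nat_lit 14) (nat_lit 5) (nat_lit 235) (nat_lit 230) (nat_lit 135)) (XT.lf (nat_lit 0) (nat_lit 330906156859) (nat_lit 228) (nat_lit 96659850055) (nat_lit 304) (nat_lit 10546766490) (nat_lit 10) (nat_lit 5) (nat_lit 13) (nat_lit 5) (nat_lit 14) (nat_lit 5) (nat_lit 236) (nat_lit 230) (nat_lit 134)))) (XT.nd (nat_lit 156) (nat_lit 152) (nat_lit 0) (XT.nd (nat_lit 78) (nat_lit 0) (nat_lit 0) (XT.lf (nat_lit 0) (nat_lit 23584335851) (nat_lit 152) (nat_lit 408314222343) (nat_lit 76) (nat_lit 47038032662) (nat_lit 8) (nat_lit 5) (nat_lit 10) (nat_lit 5) (nat_lit 9) (nat_lit 5) (nat_lit 237) (nat_lit 230) (nat_lit 133)) (XT.lf (nat_lit 0) (nat_lit 72228941651) (nat_lit 152)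 (nat_lit 243241131666) (nat_lit 76) (nat_lit 208767530566) (nat_lit 8) (nat_lit 5) (nat_lit 10) (nat_lit 5) (nat_lit 9) (nat_lit 5) (nat_lit 238) (nat_lit 230) (nat_lit 132))) (XT.nd (nat_lit 78) (nat_lit 152) (nat_lit 0) (XT.lf (nat_lit 0) (nat_lit 128170184038) (nat_lit 152) (nat_lit 53407145145) (nat_lit 76) (nat_lit 394756448618) (nat_lit 8) (nat_lit 5) (nat_lit 10) (nat_lit 5) (nat_lit 9) (nat_lit 5) (nat_lit 239) (nat_lit 230) (nat_lit 131)) (XT.lf (nat_lit 0) (nat_lit 181017291474) (nat_lit 152) (nat_lit 18980814128) (nat_lit 228) (nat_lit 435121948977) (nat_lit 6) (nat_lit 5) (nat_lit 8) (nat_lit 5) (nat_lit 9) (nat_lit 5) (nat_lit 240) (nat_lit 230) (nat_lit 130))))))) (XT.nd (nat_lit 1014) (nat_lit 76) (nat_lit 0) (XT.nd (nat_lit 468) (nat_lit 152) (nat_lit 0) (XT.nd (nat_lit 234) (nat_lit 76) (nat_lit 0) (XT.nd (nat_lit 78) (nat_lit 76) (nat_lit 0) (XT.lf (nat_lit 0) (nat_lit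 292481584646) (nat_lit 228) (nat_lit 252787622720) (nat_lit 76) (nat_lit 155972860722) (nat_lit 6) (nat_lit 5) (nat_lit 9) (nat_lit 5) (nat_lit 7) (nat_lit 4) (nat_lit 241) (nat_lit 230) (nat_lit 129)) (XT.nd (nat_lit 78) (nat_lit 76) (nat_lit 0) (XT.lf (nat_lit 0) (nat_lit 399741395660) (nat_lit 228) (nat_lit 22179114193) (nat_lit 76) (nat_lit 355226302779) (nat_lit 6) (nat_lit 5) (nat_lit 9) (nat_lit 5) (nat_lit 7) (nat_lit 4) (nat_lit 242) (nat_lit 230) (nat_lit 128)) (XT.lf (nat_lit 0) (nat_lit 266770365826) (nat_lit 76) (nat_lit 267366171259) (nat_lit 152) (nat_lit 328643778414) (nat_lit 5) (nat_lit 5) (nat_lit 6) (nat_lit 5) (nat_lit 7) (nat_lit 4) (nat_lit 243) (nat_lit 230) (nat_lit 127)))) (XT.nd (nat_lit 78) (nat_lit 76) (nat_lit 0) (XT.lf (nat_lit 0) (nat_lit 601554852501) (nat_lit 76) (nat_lit 88295429264) (nat_lit 152) (nat_lit 271234662621) (nat_lit 5) (nat_lit 5) (nat_lit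 6) (nat_lit 5) (nat_lit 7) (nat_lit 4) (nat_lit 244) (nat_lit 230) (nat_lit 126)) (XT.nd (nat_lit 78) (nat_lit 76) (nat_lit 0) (XT.lf (nat_lit 0) (nat_lit 873792113641) (nat_lit 152) (nat_lit 92449351440) (nat_lit 0) (nat_lit 107163149046) (nat_lit 5) (nat_lit 5) (nat_lit 7) (nat_lit 4) (nat_lit 5) (nat_lit 4) (nat_lit 245) (nat_lit 230) (nat_lit 125)) (XT.lf (nat_lit 0) (nat_lit 231059426121) (nat_lit 76) (nat_lit 868037992820) (nat_lit 76) (nat_lit 101408985890) (nat_lit 4) (nat_lit 4) (nat_lit 5) (nat_lit 5) (nat_lit 5) (nat_lit 4) (nat_lit 246) (nat_lit 230) (nat_lit 124))))) (XT.nd (nat_lit 234) (nat_lit 76) (nat_lit 0) (XT.nd (nat_lit 78) (nat_lit 0) (nat_lit 0) (XT.lf (nat_lit 0) (nat_lit 15561694911) (nat_lit 152) (nat_lit 733171399684) (nat_lit 76) (nat_lit 597109383697) (nat_lit 3) (nat_lit 5) (nat_lit 5) (nat_lit 5) (nat_lit 4) (nat_lit 4) (nat_lit 247) (nat_lit 230) (nat_lit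 123)) (XT.nd (nat_lit 78) (nat_lit 0) (nat_lit 0) (XT.lf (nat_lit 0) (nat_lit 139695608938) (nat_lit 152) (nat_lit 466283516538) (nat_lit 76) (nat_lit 906275490645) (nat_lit 3) (nat_lit 5) (nat_lit 5) (nat_lit 5) (nat_lit 4) (nat_lit 4) (nat_lit 248) (nat_lit 230) (nat_lit 122)) (XT.lf (nat_lit 0) (nat_lit 282449592382) (nat_lit 152) (nat_lit 159362479969) (nat_lit 76) (nat_lit 1261816505098) (nat_lit 3) (nat_lit 5) (nat_lit 5) (nat_lit 5) (nat_lit 4) (nat_lit 4) (nat_lit 249) (nat_lit 230) (nat_lit 121)))) (XT.nd (nat_lit 156) (nat_lit 0) (nat_lit 0) (XT.nd (nat_lit 78) (nat_lit 0) (nat_lit 0) (XT.lf (nat_lit 0) (nat_lit 212516363038) (nat_lit 76) (nat_lit 242900144327) (nat_lit 152) (nat_lit 1466972150657) (nat_lit 2) (nat_lit 5) (nat_lit 3) (nat_lit 5) (nat_lit 4) (nat_lit 4) (nat_lit 250) (nat_lit 230) (nat_lit 120)) (XT.lf (nat_lit 0) (nat_lit 658087178009) (nat_lit 76) (nat_lit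 4571578667) (nat_lit 152) (nat_lit 1510054449571) (nat_lit 2) (nat_lit 5) (nat_lit 3) (nat_lit 5) (nat_lit 4) (nat_lit 4) (nat_lit 251) (nat_lit 230) (nat_lit 119))) (XT.nd (nat_lit 78) (nat_lit 0) (nat_lit 0) (XT.lf (nat_lit 0) (nat_lit 912147010530) (nat_lit 152) (nat_lit 1301252524078) (nat_lit 0) (nat_lit 245512952139) (nat_lit 2) (nat_lit 5) (nat_lit 4) (nat_lit 4) (nat_lit 2) (nat_lit 4) (nat_lit 252) (nat_lit 230) (nat_lit 118)) (XT.lf (nat_lit 0) (nat_lit 1199276185511) (nat_lit 152) (nat_lit 1056090708171) (nat_lit 0) (nat_lit 532642113281) (nat_lit 2) (nat_lit 5) (nat_lit 4) (nat_lit 4) (nat_lit 2) (nat_lit 4) (nat_lit 253) (nat_lit 230) (nat_lit 117)))))) (XT.nd (nat_lit 546) (nat_lit 0) (nat_lit 0) (XT.nd (nat_lit 234) (nat_lit 76) (nat_lit 0) (XT.nd (nat_lit 78) (nat_lit 0) (nat_lit 0) (XT.lf (nat_lit 0) (nat_lit 1529474727025) (nat_lit 152) (nat_lit 774154636968) (nat_lit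 0) (nat_lit 862840642760) (nat_lit 2) (nat_lit 5) (nat_lit 4) (nat_lit 4) (nat_lit 2) (nat_lit 4) (nat_lit 254) (nat_lit 230) (nat_lit 116)) (XT.nd (nat_lit 78) (nat_lit 0) (nat_lit 0) (XT.lf (nat_lit 0) (nat_lit 1909203041318) (nat_lit 152) (nat_lit 449928169948) (nat_lit 0) (nat_lit 1242568946589) (nat_lit 2) (nat_lit 5) (nat_lit 4) (nat_lit 4) (nat_lit 2) (nat_lit 4) (nat_lit 255) (nat_lit 230) (nat_lit 115)) (XT.lf (nat_lit 0) (nat_lit 2345890595409) (nat_lit 152) (nat_lit 77067745797) (nat_lit 0) (nat_lit 1679256491580) (nat_lit 2) (nat_lit 5) (nat_lit 4) (nat_lit 4) (nat_lit 2) (nat_lit 4) (nat_lit 256) (nat_lit 230) (nat_lit 114)))) (XT.nd (nat_lit 156) (nat_lit 0) (nat_lit 0) (XT.nd (nat_lit 78) (nat_lit 0) (nat_lit 0) (XT.lf (nat_lit 0) (nat_lit 386094536241) (nat_lit 76) (nat_lit 2477974091382) (nat_lit 76) (nat_lit 1811339979640) (nat_lit 1) (nat_lit 4) (nat_lit 2) (nat_lit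 5) (nat_lit 2) (nat_lit 4) (nat_lit 257) (nat_lit 230) (nat_lit 113)) (XT.lf (nat_lit 0) (nat_lit 927392513562) (nat_lit 76) (nat_lit 2536609386365) (nat_lit 76) (nat_lit 1869975267743) (nat_lit 1) (nat_lit 4) (nat_lit 2) (nat_lit 5) (nat_lit 2) (nat_lit 4) (nat_lit 258) (nat_lit 230) (nat_lit 112))) (XT.nd (nat_lit 78) (nat_lit 0) (nat_lit 0) (XT.lf (nat_lit 0) (nat_lit 1549885178155) (nat_lit 76) (nat_lit 2604039979707) (nat_lit 76) (nat_lit 1937405855102) (nat_lit 1) (nat_lit 4) (nat_lit 2) (nat_lit 5) (nat_lit 2) (nat_lit 4) (nat_lit 259) (nat_lit 230) (nat_lit 111)) (XT.lf (nat_lit 0) (nat_lit 2265751734325) (nat_lit 76) (nat_lit 2681585165626) (nat_lit 76) (nat_lit 2014951035818) (nat_lit 1) (nat_lit 4) (nat_lit 2) (nat_lit 5) (nat_lit 2) (nat_lit 4) (nat_lit 260) (nat_lit 230) (nat_lit 110))))) (XT.nd (nat_lit 1014) (nat_lit 0) (nat_lit 0) (XT.nd (nat_lit 858) (nat_lit 0)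 (nat_lit 0) (XT.lf (nat_lit 0) (nat_lit 3088998266867) (nat_lit 76) (nat_lit 2770762132542) (nat_lit 76) (nat_lit 2104127998209) (nat_lit 1) (nat_lit 4) (nat_lit 2) (nat_lit 5) (nat_lit 2) (nat_lit 4) (nat_lit 261) (nat_lit 230) (nat_lit 109)) (XT.nd (nat_lit 78) (nat_lit 0) (nat_lit 0) (XT.lf (nat_lit 0) (nat_lit 26141273336539) (nat_lit 76) (nat_lit 5267866116642) (nat_lit 76) (nat_lit 4601231958631) (nat_lit 1) (nat_lit 4) (nat_lit 2) (nat_lit 5) (nat_lit 2) (nat_lit 4) (nat_lit 272) (nat_lit 230) (nat_lit 98)) (XT.lf (nat_lit 0) (nat_lit 30545848071182) (nat_lit 76) (nat_lit 5744985243062) (nat_lit 76) (nat_lit 5078351084206) (nat_lit 1) (nat_lit 4) (nat_lit 2) (nat_lit 5) (nat_lit 2) (nat_lit 4) (nat_lit 273) (nat_lit 230) (nat_lit 97)))) (XT.nd (nat_lit 27924) (nat_lit 0) (nat_lit 836) (XT.nd (nat_lit 78) (nat_lit 0) (nat_lit 0) (XT.lf (nat_lit 0) (nat_lit 35611109014874) (nat_lit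 76) (nat_lit 6293672238950) (nat_lit 76) (nat_lit 5627038079358) (nat_lit 1) (nat_lit 4) (nat_lit 2) (nat_lit 5) (nat_lit 2) (nat_lit 4) (nat_lit 274) (nat_lit 230) (nat_lit 96)) (XT.lf (nat_lit 0) (nat_lit 41436159099123) (nat_lit 76) (nat_lit 6924662284661) (nat_lit 76) (nat_lit 6258028124430) (nat_lit 1) (nat_lit 4) (nat_lit 2) (nat_lit 5) (nat_lit 2) (nat_lit 4) (nat_lit 275) (nat_lit 230) (nat_lit 95))) (XT.nd (nat_lit 78) (nat_lit 0) (nat_lit 0) (XT.lf (nat_lit 0) (nat_lit 57709121344) (nat_lit 0) (nat_lit 57709121344) (nat_lit 228) (nat_lit 41604753582) (nat_lit 12) (nat_lit 5) (nat_lit 12) (nat_lit 3) (nat_lit 15) (nat_lit 3) (nat_lit 231) (nat_lit 231) (nat_lit 138)) (XT.lf (nat_lit 0) (nat_lit 248519090072) (nat_lit 228) (nat_lit 80899312701) (nat_lit 304) (nat_lit 8125548609) (nat_lit 12) (nat_lit 5) (nat_lit 15) (nat_lit 3) (nat_lit 16) (nat_lit 5) (nat_lit 232) (nat_lit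 231) (nat_lit 137))))))))
noncomputable def xc56 : XT := (XT.nd (nat_lit 2028) (nat_lit 0) (nat_lit 0) (XT.nd (nat_lit 1014) (nat_lit 304) (nat_lit 0) (XT.nd (nat_lit 468) (nat_lit 228) (nat_lit 0) (XT.nd (nat_lit 234) (nat_lit 304) (nat_lit 0) (XT.nd (nat_lit 78) (nat_lit 0) (nat_lit 0) (XT.lf (nat_lit 76) (nat_lit 53780094583) (nat_lit 0) (nat_lit 222796925140) (nat_lit 304) (nat_lit 86831146033) (nat_lit 13) (nat_lit 5) (nat_lit 12) (nat_lit 5) (nat_lit 16) (nat_lit 5) (nat_lit 233) (nat_lit 231) (nat_lit 136)) (XT.nd (nat_lit 78) (nat_lit 0) (nat_lit 76) (XT.lf (nat_lit 76) (nat_lit 217753330910) (nat_lit 0) (nat_lit 95319053441) (nat_lit 304) (nat_lit 79445317708) (nat_lit 13) (nat_lit 5) (nat_lit 12) (nat_lit 5) (nat_lit 16) (nat_lit 5) (nat_lit 234) (nat_lit 231) (nat_lit 135)) (XT.lf (nat_lit 0) (nat_lit 357165399059) (nat_lit 228) (nat_lit 21794598671) (nat_lit 76) (nat_lit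 46715170662) (nat_lit 13) (nat_lit 5) (nat_lit 16) (nat_lit 5) (nat_lit 14) (nat_lit 5) (nat_lit 235) (nat_lit 231) (nat_lit 134)))) (XT.nd (nat_lit 78) (nat_lit 152) (nat_lit 0) (XT.lf (nat_lit 0) (nat_lit 164199779157) (nat_lit 228) (nat_lit 255010690562) (nat_lit 304) (nat_lit 42895070609) (nat_lit 10) (nat_lit 5) (nat_lit 13) (nat_lit 5) (nat_lit 14) (nat_lit 5) (nat_lit 236) (nat_lit 231) (nat_lit 133)) (XT.nd (nat_lit 78) (nat_lit 152) (nat_lit 0) (XT.lf (nat_lit 0) (nat_lit 380542674204) (nat_lit 228) (nat_lit 111158834129) (nat_lit 304) (nat_lit 12128079672) (nat_lit 10) (nat_lit 5) (nat_lit 13) (nat_lit 5) (nat_lit 14) (nat_lit 5) (nat_lit 237) (nat_lit 231) (nat_lit 132)) (XT.lf (nat_lit 0) (nat_lit 27122570705) (nat_lit 152) (nat_lit 469560626107) (nat_lit 76) (nat_lit 54093786418) (nat_lit 8) (nat_lit 5) (nat_lit 10) (nat_lit 5) (nat_lit 9) (nat_lit 5) (nat_lit 238) (nat_lit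 231) (nat_lit 131))))) (XT.nd (nat_lit 234) (nat_lit 76) (nat_lit 0) (XT.nd (nat_lit 78) (nat_lit 152) (nat_lit 0) (XT.lf (nat_lit 0) (nat_lit 83063791138) (nat_lit 152) (nat_lit 279726666992) (nat_lit 76) (nat_lit 240082702635) (nat_lit 8) (nat_lit 5) (nat_lit 10) (nat_lit 5) (nat_lit 9) (nat_lit 5) (nat_lit 239) (nat_lit 231) (nat_lit 130)) (XT.nd (nat_lit 78) (nat_lit 152) (nat_lit 0) (XT.lf (nat_lit 0) (nat_lit 147396153592) (nat_lit 152) (nat_lit 61417665244) (nat_lit 76) (nat_lit 453969952853) (nat_lit 8) (nat_lit 5) (nat_lit 10) (nat_lit 5) (nat_lit 9) (nat_lit 5) (nat_lit 240) (nat_lit 231) (nat_lit 129)) (XT.lf (nat_lit 0) (nat_lit 208170411792) (nat_lit 152) (nat_lit 21827815758) (nat_lit 228) (nat_lit 500389768656) (nat_lit 6) (nat_lit 5) (nat_lit 8) (nat_lit 5) (nat_lit 9) (nat_lit 5) (nat_lit 241) (nat_lit 231) (nat_lit 128)))) (XT.nd (nat_lit 156) (nat_lit 76) (nat_lit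 0) (XT.nd (nat_lit 78) (nat_lit 0) (nat_lit 0) (XT.lf (nat_lit 0) (nat_lit 336354179819) (nat_lit 228) (nat_lit 290705254677) (nat_lit 76) (nat_lit 179368885276) (nat_lit 6) (nat_lit 5) (nat_lit 9) (nat_lit 5) (nat_lit 7) (nat_lit 4) (nat_lit 242) (nat_lit 231) (nat_lit 127)) (XT.lf (nat_lit 0) (nat_lit 459702915857) (nat_lit 228) (nat_lit 25505536582) (nat_lit 76) (nat_lit 408510331192) (nat_lit 6) (nat_lit 5) (nat_lit 9) (nat_lit 5) (nat_lit 7) (nat_lit 4) (nat_lit 243) (nat_lit 231) (nat_lit 126))) (XT.nd (nat_lit 78) (nat_lit 0) (nat_lit 0) (XT.lf (nat_lit 0) (nat_lit 306786345224) (nat_lit 76) (nat_lit 307470960305) (nat_lit 152) (nat_lit 377940010401) (nat_lit 5) (nat_lit 5) (nat_lit 6) (nat_lit 5) (nat_lit 7) (nat_lit 4) (nat_lit 244) (nat_lit 231) (nat_lit 125)) (XT.lf (nat_lit 0) (nat_lit 691788449528) (nat_lit 76) (nat_lit 101539624834) (nat_lit 152) (nat_lit 311919570905)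 (nat_lit 5) (nat_lit 5) (nat_lit 6) (nat_lit 5) (nat_lit 7) (nat_lit 4) (nat_lit 245) (nat_lit 231) (nat_lit 124)))))) (XT.nd (nat_lit 468) (nat_lit 76) (nat_lit 0) (XT.nd (nat_lit 234) (nat_lit 76) (nat_lit 0) (XT.nd (nat_lit 78) (nat_lit 152) (nat_lit 0) (XT.lf (nat_lit 0) (nat_lit 1004861152645) (nat_lit 152) (nat_lit 106316401975) (nat_lit 0) (nat_lit 123237715526) (nat_lit 5) (nat_lit 5) (nat_lit 7) (nat_lit 4) (nat_lit 5) (nat_lit 4) (nat_lit 246) (nat_lit 231) (nat_lit 123)) (XT.nd (nat_lit 78) (nat_lit 76) (nat_lit 0) (XT.lf (nat_lit 0) (nat_lit 265718676212) (nat_lit 76) (nat_lit 998243562498) (nat_lit 76) (nat_lit 116620093367) (nat_lit 4) (nat_lit 4) (nat_lit 5) (nat_lit 5) (nat_lit 5) (nat_lit 4) (nat_lit 247) (nat_lit 231) (nat_lit 122)) (XT.lf (nat_lit 0) (nat_lit 17896139586) (nat_lit 152) (nat_lit 843146796857) (nat_lit 76) (nat_lit 686675883183) (nat_lit 3) (nat_lit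 5) (nat_lit 5) (nat_lit 5) (nat_lit 4) (nat_lit 4) (nat_lit 248) (nat_lit 231) (nat_lit 121)))) (XT.nd (nat_lit 78) (nat_lit 76) (nat_lit 0) (XT.lf (nat_lit 0) (nat_lit 160650115877) (nat_lit 152) (nat_lit 536225772036) (nat_lit 76) (nat_lit 1042216894182) (nat_lit 3) (nat_lit 5) (nat_lit 5) (nat_lit 5) (nat_lit 4) (nat_lit 4) (nat_lit 249) (nat_lit 231) (nat_lit 120)) (XT.nd (nat_lit 78) (nat_lit 76) (nat_lit 0) (XT.lf (nat_lit 0) (nat_lit 324817175238) (nat_lit 152) (nat_lit 183266615458) (nat_lit 76) (nat_lit 1451089050376) (nat_lit 3) (nat_lit 5) (nat_lit 5) (nat_lit 5) (nat_lit 4) (nat_lit 4) (nat_lit 250) (nat_lit 231) (nat_lit 119)) (XT.lf (nat_lit 0) (nat_lit 244394043250) (nat_lit 76) (nat_lit 279335074784) (nat_lit 152) (nat_lit 1687017817293) (nat_lit 2) (nat_lit 5) (nat_lit 3) (nat_lit 5) (nat_lit 4) (nat_lit 4) (nat_lit 251) (nat_lit 231) (nat_lit 118))))) (XT.nd (nat_lit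 234) (nat_lit 76) (nat_lit 0) (XT.nd (nat_lit 78) (nat_lit 0) (nat_lit 0) (XT.lf (nat_lit 0) (nat_lit 756800451020) (nat_lit 76) (nat_lit 5257236170) (nat_lit 152) (nat_lit 1736562481387) (nat_lit 2) (nat_lit 5) (nat_lit 3) (nat_lit 5) (nat_lit 4) (nat_lit 4) (nat_lit 252) (nat_lit 231) (nat_lit 117)) (XT.nd (nat_lit 78) (nat_lit 0) (nat_lit 0) (XT.lf (nat_lit 0) (nat_lit 1048969166714) (nat_lit 152) (nat_lit 1496440218661) (nat_lit 0) (nat_lit 282339957776) (nat_lit 2) (nat_lit 5) (nat_lit 4) (nat_lit 4) (nat_lit 2) (nat_lit 4) (nat_lit 253) (nat_lit 231) (nat_lit 116)) (XT.lf (nat_lit 0) (nat_lit 1379167704299) (nat_lit 152) (nat_lit 1214504154371) (nat_lit 0) (nat_lit 612538484896) (nat_lit 2) (nat_lit 5) (nat_lit 4) (nat_lit 4) (nat_lit 2) (nat_lit 4) (nat_lit 254) (nat_lit 231) (nat_lit 115)))) (XT.nd (nat_lit 156) (nat_lit 76) (nat_lit 0) (XT.nd (nat_lit 78) (nat_lit 0) (nat_lit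 0) (XT.lf (nat_lit 0) (nat_lit 1758896015175) (nat_lit 152) (nat_lit 890277693361) (nat_lit 0) (nat_lit 992266786672) (nat_lit 2) (nat_lit 5) (nat_lit 4) (nat_lit 4) (nat_lit 2) (nat_lit 4) (nat_lit 255) (nat_lit 231) (nat_lit 114)) (XT.lf (nat_lit 0) (nat_lit 2195583566295) (nat_lit 152) (nat_lit 517417274438) (nat_lit 0) (nat_lit 1428954329879) (nat_lit 2) (nat_lit 5) (nat_lit 4) (nat_lit 4) (nat_lit 2) (nat_lit 4) (nat_lit 256) (nat_lit 231) (nat_lit 113))) (XT.nd (nat_lit 78) (nat_lit 76) (nat_lit 0) (XT.lf (nat_lit 0) (nat_lit 2697774244529) (nat_lit 152) (nat_lit 88627802448) (nat_lit 0) (nat_lit 1931145001232) (nat_lit 2) (nat_lit 5) (nat_lit 4) (nat_lit 4) (nat_lit 2) (nat_lit 4) (nat_lit 257) (nat_lit 231) (nat_lit 112)) (XT.lf (nat_lit 0) (nat_lit 444008817113) (nat_lit 76) (nat_lit 2849670160819) (nat_lit 76) (nat_lit 2083040911539) (nat_lit 1) (nat_lit 4) (nat_lit 2)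 (nat_lit 5) (nat_lit 2) (nat_lit 4) (nat_lit 258) (nat_lit 231) (nat_lit 111))))))) (XT.nd (nat_lit 29640) (nat_lit 0) (nat_lit 152) (XT.nd (nat_lit 1170) (nat_lit 0) (nat_lit 0) (XT.nd (nat_lit 390) (nat_lit 0) (nat_lit 0) (XT.nd (nat_lit 78) (nat_lit 0) (nat_lit 0) (XT.lf (nat_lit 0) (nat_lit 1066501477933) (nat_lit 76) (nat_lit 2917100755824) (nat_lit 76) (nat_lit 2150471501341) (nat_lit 1) (nat_lit 4) (nat_lit 2) (nat_lit 5) (nat_lit 2) (nat_lit 4) (nat_lit 259) (nat_lit 231) (nat_lit 110)) (XT.nd (nat_lit 78) (nat_lit 0) (nat_lit 0) (XT.lf (nat_lit 0) (nat_lit 1782368030822) (nat_lit 76) (nat_lit 2994645943189) (nat_lit 76) (nat_lit 2228016684182) (nat_lit 1) (nat_lit 4) (nat_lit 2) (nat_lit 5) (nat_lit 2) (nat_lit 4) (nat_lit 260) (nat_lit 231) (nat_lit 109)) (XT.lf (nat_lit 0) (nat_lit 2605614560512) (nat_lit 76) (nat_lit 3083822911362) (nat_lit 76) (nat_lit 2317193648421)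 (nat_lit 1) (nat_lit 4) (nat_lit 2) (nat_lit 5) (nat_lit 2) (nat_lit 4) (nat_lit 261) (nat_lit 231) (nat_lit 108)))) (XT.nd (nat_lit 78) (nat_lit 0) (nat_lit 0) (XT.lf (nat_lit 0) (nat_lit 5893146638489) (nat_lit 76) (nat_lit 3439940000975) (nat_lit 76) (nat_lit 2673310729051) (nat_lit 1) (nat_lit 4) (nat_lit 2) (nat_lit 5) (nat_lit 2) (nat_lit 4) (nat_lit 264) (nat_lit 231) (nat_lit 105)) (XT.nd (nat_lit 624) (nat_lit 0) (nat_lit 0) (XT.lf (nat_lit 0) (nat_lit 7333009941819) (nat_lit 76) (nat_lit 3595911085533) (nat_lit 76) (nat_lit 2829281811361) (nat_lit 1) (nat_lit 4) (nat_lit 2) (nat_lit 5) (nat_lit 2) (nat_lit 4) (nat_lit 265) (nat_lit 231) (nat_lit 104)) (XT.lf (nat_lit 0) (nat_lit 30062464349363) (nat_lit 76) (nat_lit 6058046028698) (nat_lit 76) (nat_lit 5291416744432) (nat_lit 1) (nat_lit 4) (nat_lit 2) (nat_lit 5) (nat_lit 2) (nat_lit 4) (nat_lit 273) (nat_lit 231) (nat_lit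 96))))) (XT.nd (nat_lit 28158) (nat_lit 0) (nat_lit 684) (XT.nd (nat_lit 28002) (nat_lit 0) (nat_lit 836) (XT.lf (nat_lit 0) (nat_lit 35127725292592) (nat_lit 76) (nat_lit 6606733024790) (nat_lit 76) (nat_lit 5840103739885) (nat_lit 1) (nat_lit 4) (nat_lit 2) (nat_lit 5) (nat_lit 2) (nat_lit 4) (nat_lit 274) (nat_lit 231) (nat_lit 95)) (XT.nd (nat_lit 78) (nat_lit 0) (nat_lit 0) (XT.lf (nat_lit 0) (nat_lit 66365741259) (nat_lit 0) (nat_lit 66365741259) (nat_lit 228) (nat_lit 47844877751) (nat_lit 12) (nat_lit 5) (nat_lit 12) (nat_lit 3) (nat_lit 15) (nat_lit 3) (nat_lit 232) (nat_lit 232) (nat_lit 136)) (XT.lf (nat_lit 0) (nat_lit 285797810981) (nat_lit 228) (nat_lit 93033605124) (nat_lit 304) (nat_lit 9343982111) (nat_lit 12) (nat_lit 5) (nat_lit 15) (nat_lit 3) (nat_lit 16) (nat_lit 5) (nat_lit 233) (nat_lit 232) (nat_lit 135)))) (XT.nd (nat_lit 156) (nat_lit 152) (nat_lit 0) (XT.nd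 (nat_lit 78) (nat_lit 0) (nat_lit 0) (XT.lf (nat_lit 76) (nat_lit 61847685777) (nat_lit 0) (nat_lit 256216656360) (nat_lit 304) (nat_lit 99854918050) (nat_lit 13) (nat_lit 5) (nat_lit 12) (nat_lit 5) (nat_lit 16) (nat_lit 5) (nat_lit 234) (nat_lit 232) (nat_lit 134)) (XT.lf (nat_lit 76) (nat_lit 250416832291) (nat_lit 0) (nat_lit 109617078804) (nat_lit 304) (nat_lit 91361332854) (nat_lit 13) (nat_lit 5) (nat_lit 12) (nat_lit 5) (nat_lit 16) (nat_lit 5) (nat_lit 235) (nat_lit 232) (nat_lit 133))) (XT.nd (nat_lit 78) (nat_lit 228) (nat_lit 0) (XT.lf (nat_lit 0) (nat_lit 410740784711) (nat_lit 228) (nat_lit 25063247522) (nat_lit 76) (nat_lit 53722313698) (nat_lit 13) (nat_lit 5) (nat_lit 16) (nat_lit 5) (nat_lit 14) (nat_lit 5) (nat_lit 236) (nat_lit 232) (nat_lit 132)) (XT.lf (nat_lit 0) (nat_lit 188830262393) (nat_lit 228) (nat_lit 293262299856) (nat_lit 304) (nat_lit 49328720946)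 (nat_lit 10) (nat_lit 5) (nat_lit 13) (nat_lit 5) (nat_lit 14) (nat_lit 5) (nat_lit 237) (nat_lit 232) (nat_lit 131)))))) (XT.nd (nat_lit 546) (nat_lit 228) (nat_lit 0) (XT.nd (nat_lit 234) (nat_lit 152) (nat_lit 0) (XT.nd (nat_lit 78) (nat_lit 152) (nat_lit 0) (XT.lf (nat_lit 0) (nat_lit 437624524345) (nat_lit 228) (nat_lit 127832664213) (nat_lit 304) (nat_lit 13946760968) (nat_lit 10) (nat_lit 5) (nat_lit 13) (nat_lit 5) (nat_lit 14) (nat_lit 5) (nat_lit 238) (nat_lit 232) (nat_lit 130)) (XT.nd (nat_lit 78) (nat_lit 0) (nat_lit 0) (XT.lf (nat_lit 0) (nat_lit 31191398258) (nat_lit 152) (nat_lit 539994168351) (nat_lit 76) (nat_lit 62207891323) (nat_lit 8) (nat_lit 5) (nat_lit 10) (nat_lit 5) (nat_lit 9) (nat_lit 5) (nat_lit 239) (nat_lit 232) (nat_lit 129)) (XT.lf (nat_lit 0) (nat_lit 95523744111) (nat_lit 152) (nat_lit 321685187325) (nat_lit 76) (nat_lit 276095140154) (nat_lit 8)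 (nat_lit 5) (nat_lit 10) (nat_lit 5) (nat_lit 9) (nat_lit 5) (nat_lit 240) (nat_lit 232) (nat_lit 128)))) (XT.nd (nat_lit 156) (nat_lit 0) (nat_lit 0) (XT.nd (nat_lit 78) (nat_lit 152) (nat_lit 0) (XT.lf (nat_lit 0) (nat_lit 169505910807) (nat_lit 152) (nat_lit 70629897887) (nat_lit 76) (nat_lit 522065473714) (nat_lit 8) (nat_lit 5) (nat_lit 10) (nat_lit 5) (nat_lit 9) (nat_lit 5) (nat_lit 241) (nat_lit 232) (nat_lit 127)) (XT.lf (nat_lit 0) (nat_lit 239396371744) (nat_lit 152) (nat_lit 25101897014) (nat_lit 228) (nat_lit 575447876549) (nat_lit 6) (nat_lit 5) (nat_lit 8) (nat_lit 5) (nat_lit 9) (nat_lit 5) (nat_lit 242) (nat_lit 232) (nat_lit 126))) (XT.nd (nat_lit 78) (nat_lit 0) (nat_lit 0) (XT.lf (nat_lit 0) (nat_lit 386807577095) (nat_lit 228) (nat_lit 334310656149) (nat_lit 76) (nat_lit 206274290238) (nat_lit 6) (nat_lit 5) (nat_lit 9) (nat_lit 5) (nat_lit 7) (nat_lit 4) (nat_lit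 243) (nat_lit 232) (nat_lit 125)) (XT.lf (nat_lit 0) (nat_lit 528658588282) (nat_lit 228) (nat_lit 29331030782) (nat_lit 76) (nat_lit 469786943628) (nat_lit 6) (nat_lit 5) (nat_lit 9) (nat_lit 5) (nat_lit 7) (nat_lit 4) (nat_lit 244) (nat_lit 232) (nat_lit 124))))) (XT.nd (nat_lit 234) (nat_lit 152) (nat_lit 0) (XT.nd (nat_lit 78) (nat_lit 0) (nat_lit 0) (XT.lf (nat_lit 0) (nat_lit 352804618009) (nat_lit 76) (nat_lit 353591501030) (nat_lit 152) (nat_lit 434630758823) (nat_lit 5) (nat_lit 5) (nat_lit 6) (nat_lit 5) (nat_lit 7) (nat_lit 4) (nat_lit 245) (nat_lit 232) (nat_lit 123)) (XT.nd (nat_lit 78) (nat_lit 0) (nat_lit 0) (XT.lf (nat_lit 0) (nat_lit 795556996089) (nat_lit 76) (nat_lit 116770478714) (nat_lit 152) (nat_lit 358707286421) (nat_lit 5) (nat_lit 5) (nat_lit 6) (nat_lit 5) (nat_lit 7) (nat_lit 4) (nat_lit 246) (nat_lit 232) (nat_lit 122)) (XT.lf (nat_lit 0) (nat_lit 1155590493374)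 (nat_lit 152) (nat_lit 122263595972) (nat_lit 0) (nat_lit 141723444025) (nat_lit 5) (nat_lit 5) (nat_lit 7) (nat_lit 4) (nat_lit 5) (nat_lit 4) (nat_lit 247) (nat_lit 232) (nat_lit 121)))) (XT.nd (nat_lit 156) (nat_lit 0) (nat_lit 0) (XT.nd (nat_lit 78) (nat_lit 76) (nat_lit 0) (XT.lf (nat_lit 0) (nat_lit 305576731839) (nat_lit 76) (nat_lit 1147979999145) (nat_lit 76) (nat_lit 134112925590) (nat_lit 4) (nat_lit 4) (nat_lit 5) (nat_lit 5) (nat_lit 5) (nat_lit 4) (nat_lit 248) (nat_lit 232) (nat_lit 120)) (XT.lf (nat_lit 0) (nat_lit 20580704522) (nat_lit 152) (nat_lit 969618579879) (nat_lit 76) (nat_lit 789677335174) (nat_lit 3) (nat_lit 5) (nat_lit 5) (nat_lit 5) (nat_lit 4) (nat_lit 4) (nat_lit 249) (nat_lit 232) (nat_lit 119))) (XT.nd (nat_lit 78) (nat_lit 0) (nat_lit 0) (XT.lf (nat_lit 0) (nat_lit 184747758475) (nat_lit 152) (nat_lit 616659432184) (nat_lit 76) (nat_lit 1198549488756)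 (nat_lit 3) (nat_lit 5) (nat_lit 5) (nat_lit 5) (nat_lit 4) (nat_lit 4) (nat_lit 250) (nat_lit 232) (nat_lit 118)) (XT.lf (nat_lit 0) (nat_lit 373539860408) (nat_lit 152) (nat_lit 210756428943) (nat_lit 76) (nat_lit 1668752460494) (nat_lit 3) (nat_lit 5) (nat_lit 5) (nat_lit 5) (nat_lit 4) (nat_lit 4) (nat_lit 251) (nat_lit 232) (nat_lit 117))))))))
noncomputable def xc57 : XT := (XT.nd (nat_lit 30966) (nat_lit 0) (nat_lit 0) (XT.nd (nat_lit 29874) (nat_lit 0) (nat_lit 304) (XT.nd (nat_lit 468) (nat_lit 76) (nat_lit 0) (XT.nd (nat_lit 234) (nat_lit 0) (nat_lit 0) (XT.nd (nat_lit 78) (nat_lit 0) (nat_lit 0) (XT.lf (nat_lit 0) (nat_lit 281053320442) (nat_lit 76) (nat_lit 321235267047) (nat_lit 152) (nat_lit 1940070371957) (nat_lit 2) (nat_lit 5) (nat_lit 3) (nat_lit 5) (nat_lit 4) (nat_lit 4) (nat_lit 252) (nat_lit 232) (nat_lit 116)) (XT.nd (nat_lit 78) (nat_lit 0) (nat_lit 0) (XT.lf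 (nat_lit 0) (nat_lit 870320667112) (nat_lit 76) (nat_lit 6045761635) (nat_lit 152) (nat_lit 1997046751048) (nat_lit 2) (nat_lit 5) (nat_lit 3) (nat_lit 5) (nat_lit 4) (nat_lit 4) (nat_lit 253) (nat_lit 232) (nat_lit 115)) (XT.lf (nat_lit 0) (nat_lit 1206314620818) (nat_lit 152) (nat_lit 1720906112308) (nat_lit 0) (nat_lit 324690998940) (nat_lit 2) (nat_lit 5) (nat_lit 4) (nat_lit 4) (nat_lit 2) (nat_lit 4) (nat_lit 254) (nat_lit 232) (nat_lit 114)))) (XT.nd (nat_lit 78) (nat_lit 0) (nat_lit 0) (XT.lf (nat_lit 0) (nat_lit 1586042928723) (nat_lit 152) (nat_lit 1396679656525) (nat_lit 0) (nat_lit 704419298932) (nat_lit 2) (nat_lit 5) (nat_lit 4) (nat_lit 4) (nat_lit 2) (nat_lit 4) (nat_lit 255) (nat_lit 232) (nat_lit 113)) (XT.nd (nat_lit 78) (nat_lit 0) (nat_lit 0) (XT.lf (nat_lit 0) (nat_lit 2022730477260) (nat_lit 152) (nat_lit 1023819242147) (nat_lit 0) (nat_lit 1141106840588) (nat_lit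 2) (nat_lit 5) (nat_lit 4) (nat_lit 4) (nat_lit 2) (nat_lit 4) (nat_lit 256) (nat_lit 232) (nat_lit 112)) (XT.lf (nat_lit 0) (nat_lit 2524921153247) (nat_lit 152) (nat_lit 595029774109) (nat_lit 0) (nat_lit 1643297510592) (nat_lit 2) (nat_lit 5) (nat_lit 4) (nat_lit 4) (nat_lit 2) (nat_lit 4) (nat_lit 257) (nat_lit 232) (nat_lit 111))))) (XT.nd (nat_lit 390) (nat_lit 0) (nat_lit 0) (XT.nd (nat_lit 78) (nat_lit 76) (nat_lit 0) (XT.lf (nat_lit 0) (nat_lit 3102440426432) (nat_lit 152) (nat_lit 101921893254) (nat_lit 0) (nat_lit 2220816778574) (nat_lit 2) (nat_lit 5) (nat_lit 4) (nat_lit 4) (nat_lit 2) (nat_lit 4) (nat_lit 258) (nat_lit 232) (nat_lit 110)) (XT.nd (nat_lit 78) (nat_lit 0) (nat_lit 0) (XT.lf (nat_lit 0) (nat_lit 510610215625) (nat_lit 76) (nat_lit 3277120651467) (nat_lit 76) (nat_lit 2395496999085) (nat_lit 1) (nat_lit 4) (nat_lit 2) (nat_lit 5) (nat_lit 2) (nat_lit 4)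 (nat_lit 259) (nat_lit 232) (nat_lit 109)) (XT.lf (nat_lit 0) (nat_lit 1226476765662) (nat_lit 76) (nat_lit 3354665840089) (nat_lit 76) (nat_lit 2473042183773) (nat_lit 1) (nat_lit 4) (nat_lit 2) (nat_lit 5) (nat_lit 2) (nat_lit 4) (nat_lit 260) (nat_lit 232) (nat_lit 108)))) (XT.nd (nat_lit 156) (nat_lit 0) (nat_lit 0) (XT.nd (nat_lit 78) (nat_lit 0) (nat_lit 0) (XT.lf (nat_lit 0) (nat_lit 4085200317392) (nat_lit 76) (nat_lit 3664332872039) (nat_lit 76) (nat_lit 2782709206740) (nat_lit 1) (nat_lit 4) (nat_lit 2) (nat_lit 5) (nat_lit 2) (nat_lit 4) (nat_lit 263) (nat_lit 232) (nat_lit 105)) (XT.lf (nat_lit 0) (nat_lit 5337255365184) (nat_lit 76) (nat_lit 3799959901465) (nat_lit 76) (nat_lit 2918336233917) (nat_lit 1) (nat_lit 4) (nat_lit 2) (nat_lit 5) (nat_lit 2) (nat_lit 4) (nat_lit 264) (nat_lit 232) (nat_lit 104))) (XT.nd (nat_lit 28782) (nat_lit 0) (nat_lit 836) (XT.lf (nat_lit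 0) (nat_lit 6777118667095) (nat_lit 76) (nat_lit 3955930986649) (nat_lit 76) (nat_lit 3074307317145) (nat_lit 1) (nat_lit 4) (nat_lit 2) (nat_lit 5) (nat_lit 2) (nat_lit 4) (nat_lit 265) (nat_lit 232) (nat_lit 103)) (XT.lf (nat_lit 0) (nat_lit 76320792779) (nat_lit 0) (nat_lit 76320792779) (nat_lit 228) (nat_lit 55021164145) (nat_lit 12) (nat_lit 5) (nat_lit 12) (nat_lit 3) (nat_lit 15) (nat_lit 3) (nat_lit 233) (nat_lit 233) (nat_lit 134)))))) (XT.nd (nat_lit 546) (nat_lit 228) (nat_lit 0) (XT.nd (nat_lit 234) (nat_lit 304) (nat_lit 0) (XT.nd (nat_lit 78) (nat_lit 0) (nat_lit 0) (XT.lf (nat_lit 0) (nat_lit 328668130943) (nat_lit 228) (nat_lit 106988188816) (nat_lit 304) (nat_lit 10745277885) (nat_lit 12) (nat_lit 5) (nat_lit 15) (nat_lit 3) (nat_lit 16) (nat_lit 5) (nat_lit 234) (nat_lit 233) (nat_lit 133)) (XT.nd (nat_lit 78) (nat_lit 0) (nat_lit 0) (XT.lf (nat_lit 76) (nat_lit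 71125274943) (nat_lit 0) (nat_lit 294649300333) (nat_lit 304) (nat_lit 114832475314) (nat_lit 13) (nat_lit 5) (nat_lit 12) (nat_lit 5) (nat_lit 16) (nat_lit 5) (nat_lit 235) (nat_lit 233) (nat_lit 132)) (XT.lf (nat_lit 76) (nat_lit 287979736526) (nat_lit 0) (nat_lit 126059767163) (nat_lit 304) (nat_lit 105064941091) (nat_lit 13) (nat_lit 5) (nat_lit 12) (nat_lit 5) (nat_lit 16) (nat_lit 5) (nat_lit 236) (nat_lit 233) (nat_lit 131)))) (XT.nd (nat_lit 156) (nat_lit 152) (nat_lit 0) (XT.nd (nat_lit 78) (nat_lit 228) (nat_lit 0) (XT.lf (nat_lit 0) (nat_lit 472352337801) (nat_lit 228) (nat_lit 28822325614) (nat_lit 76) (nat_lit 61780560515) (nat_lit 13) (nat_lit 5) (nat_lit 16) (nat_lit 5) (nat_lit 14) (nat_lit 5) (nat_lit 237) (nat_lit 233) (nat_lit 130)) (XT.lf (nat_lit 0) (nat_lit 217155192196) (nat_lit 228) (nat_lit 337251649152) (nat_lit 304) (nat_lit 56727567649) (nat_lit 10) (nat_lit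 5) (nat_lit 13) (nat_lit 5) (nat_lit 14) (nat_lit 5) (nat_lit 238) (nat_lit 233) (nat_lit 129))) (XT.nd (nat_lit 78) (nat_lit 152) (nat_lit 0) (XT.lf (nat_lit 0) (nat_lit 503268542513) (nat_lit 228) (nat_lit 147007567599) (nat_lit 304) (nat_lit 16038373861) (nat_lit 10) (nat_lit 5) (nat_lit 13) (nat_lit 5) (nat_lit 14) (nat_lit 5) (nat_lit 239) (nat_lit 233) (nat_lit 128)) (XT.lf (nat_lit 0) (nat_lit 35870442173) (nat_lit 152) (nat_lit 620992876459) (nat_lit 76) (nat_lit 71539102955) (nat_lit 8) (nat_lit 5) (nat_lit 10) (nat_lit 5) (nat_lit 9) (nat_lit 5) (nat_lit 240) (nat_lit 233) (nat_lit 127))))) (XT.nd (nat_lit 234) (nat_lit 76) (nat_lit 0) (XT.nd (nat_lit 78) (nat_lit 152) (nat_lit 0) (XT.lf (nat_lit 0) (nat_lit 109852596316) (nat_lit 152) (nat_lit 369937602690) (nat_lit 76) (nat_lit 317509435467) (nat_lit 8) (nat_lit 5) (nat_lit 10) (nat_lit 5) (nat_lit 9) (nat_lit 5) (nat_lit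 241) (nat_lit 233) (nat_lit 126)) (XT.nd (nat_lit 78) (nat_lit 152) (nat_lit 0) (XT.lf (nat_lit 0) (nat_lit 194932050113) (nat_lit 152) (nat_lit 81224067149) (nat_lit 76) (nat_lit 600375315894) (nat_lit 8) (nat_lit 5) (nat_lit 10) (nat_lit 5) (nat_lit 9) (nat_lit 5) (nat_lit 242) (nat_lit 233) (nat_lit 125)) (XT.lf (nat_lit 0) (nat_lit 275306128589) (nat_lit 152) (nat_lit 28867112676) (nat_lit 228) (nat_lit 661764787782) (nat_lit 6) (nat_lit 5) (nat_lit 8) (nat_lit 5) (nat_lit 9) (nat_lit 5) (nat_lit 243) (nat_lit 233) (nat_lit 124)))) (XT.nd (nat_lit 156) (nat_lit 76) (nat_lit 0) (XT.nd (nat_lit 78) (nat_lit 0) (nat_lit 0) (XT.lf (nat_lit 0) (nat_lit 444828918047) (nat_lit 228) (nat_lit 384456962148) (nat_lit 76) (nat_lit 237215488345) (nat_lit 6) (nat_lit 5) (nat_lit 9) (nat_lit 5) (nat_lit 7) (nat_lit 4) (nat_lit 244) (nat_lit 233) (nat_lit 123)) (XT.lf (nat_lit 0) (nat_lit 607957554253)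 (nat_lit 228) (nat_lit 33730431119) (nat_lit 76) (nat_lit 540255032626) (nat_lit 6) (nat_lit 5) (nat_lit 9) (nat_lit 5) (nat_lit 7) (nat_lit 4) (nat_lit 245) (nat_lit 233) (nat_lit 122))) (XT.nd (nat_lit 78) (nat_lit 0) (nat_lit 0) (XT.lf (nat_lit 0) (nat_lit 405725553434) (nat_lit 76) (nat_lit 406630148058) (nat_lit 152) (nat_lit 499825181238) (nat_lit 5) (nat_lit 5) (nat_lit 6) (nat_lit 5) (nat_lit 7) (nat_lit 4) (nat_lit 246) (nat_lit 233) (nat_lit 121)) (XT.lf (nat_lit 0) (nat_lit 914890756565) (nat_lit 76) (nat_lit 134285982586) (nat_lit 152) (nat_lit 412513212942) (nat_lit 5) (nat_lit 5) (nat_lit 6) (nat_lit 5) (nat_lit 7) (nat_lit 4) (nat_lit 247) (nat_lit 233) (nat_lit 120))))))) (XT.nd (nat_lit 1092) (nat_lit 0) (nat_lit 0) (XT.nd (nat_lit 468) (nat_lit 76) (nat_lit 0) (XT.nd (nat_lit 234) (nat_lit 76) (nat_lit 0) (XT.nd (nat_lit 78) (nat_lit 152) (nat_lit 0) (XT.lf (nat_lit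 0) (nat_lit 1328929194286) (nat_lit 152) (nat_lit 140602934007) (nat_lit 0) (nat_lit 162982014444) (nat_lit 5) (nat_lit 5) (nat_lit 7) (nat_lit 4) (nat_lit 5) (nat_lit 4) (nat_lit 248) (nat_lit 233) (nat_lit 119)) (XT.nd (nat_lit 78) (nat_lit 76) (nat_lit 0) (XT.lf (nat_lit 0) (nat_lit 351413433823) (nat_lit 76) (nat_lit 1320176925120) (nat_lit 76) (nat_lit 154229726976) (nat_lit 4) (nat_lit 4) (nat_lit 5) (nat_lit 5) (nat_lit 5) (nat_lit 4) (nat_lit 249) (nat_lit 233) (nat_lit 118)) (XT.lf (nat_lit 0) (nat_lit 23667919084) (nat_lit 152) (nat_lit 1115061188028) (nat_lit 76) (nat_lit 908128988012) (nat_lit 3) (nat_lit 5) (nat_lit 5) (nat_lit 5) (nat_lit 4) (nat_lit 4) (nat_lit 250) (nat_lit 233) (nat_lit 117)))) (XT.nd (nat_lit 78) (nat_lit 76) (nat_lit 0) (XT.lf (nat_lit 0) (nat_lit 212460016927) (nat_lit 152) (nat_lit 709158191504) (nat_lit 76) (nat_lit 1378331957776) (nat_lit 3)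 (nat_lit 5) (nat_lit 5) (nat_lit 5) (nat_lit 4) (nat_lit 4) (nat_lit 251) (nat_lit 233) (nat_lit 116)) (XT.nd (nat_lit 78) (nat_lit 76) (nat_lit 0) (XT.lf (nat_lit 0) (nat_lit 429570921800) (nat_lit 152) (nat_lit 242369758061) (nat_lit 76) (nat_lit 1919065369313) (nat_lit 3) (nat_lit 5) (nat_lit 5) (nat_lit 5) (nat_lit 4) (nat_lit 4) (nat_lit 252) (nat_lit 233) (nat_lit 115)) (XT.lf (nat_lit 0) (nat_lit 323211447585) (nat_lit 76) (nat_lit 369420504965) (nat_lit 152) (nat_lit 2231080838579) (nat_lit 2) (nat_lit 5) (nat_lit 3) (nat_lit 5) (nat_lit 4) (nat_lit 4) (nat_lit 253) (nat_lit 233) (nat_lit 114))))) (XT.nd (nat_lit 234) (nat_lit 76) (nat_lit 0) (XT.nd (nat_lit 78) (nat_lit 0) (nat_lit 0) (XT.lf (nat_lit 0) (nat_lit 1000868879419) (nat_lit 76) (nat_lit 6952580542) (nat_lit 152) (nat_lit 2296603686165) (nat_lit 2) (nat_lit 5) (nat_lit 3) (nat_lit 5) (nat_lit 4) (nat_lit 4) (nat_lit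 254) (nat_lit 233) (nat_lit 113)) (XT.nd (nat_lit 78) (nat_lit 0) (nat_lit 0) (XT.lf (nat_lit 0) (nat_lit 1387261873749) (nat_lit 152) (nat_lit 1979041923935) (nat_lit 0) (nat_lit 373394684696) (nat_lit 2) (nat_lit 5) (nat_lit 4) (nat_lit 4) (nat_lit 2) (nat_lit 4) (nat_lit 255) (nat_lit 233) (nat_lit 112)) (XT.lf (nat_lit 0) (nat_lit 1823949420039) (nat_lit 152) (nat_lit 1606181513509) (nat_lit 0) (nat_lit 810082225003) (nat_lit 2) (nat_lit 5) (nat_lit 4) (nat_lit 4) (nat_lit 2) (nat_lit 4) (nat_lit 256) (nat_lit 233) (nat_lit 111)))) (XT.nd (nat_lit 156) (nat_lit 76) (nat_lit 0) (XT.nd (nat_lit 78) (nat_lit 0) (nat_lit 0) (XT.lf (nat_lit 0) (nat_lit 2326140094073) (nat_lit 152) (nat_lit 1177392048908) (nat_lit 0) (nat_lit 1312272893833) (nat_lit 2) (nat_lit 5) (nat_lit 4) (nat_lit 4) (nat_lit 2) (nat_lit 4) (nat_lit 257) (nat_lit 233) (nat_lit 110)) (XT.lf (nat_lit 0) (nat_lit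 2903659365559) (nat_lit 152) (nat_lit 684284171042) (nat_lit 0) (nat_lit 1889792160795) (nat_lit 2) (nat_lit 5) (nat_lit 4) (nat_lit 4) (nat_lit 2) (nat_lit 4) (nat_lit 258) (nat_lit 233) (nat_lit 109))) (XT.nd (nat_lit 78) (nat_lit 76) (nat_lit 0) (XT.lf (nat_lit 0) (nat_lit 3567806524592) (nat_lit 152) (nat_lit 117210117083) (nat_lit 0) (nat_lit 2553939315895) (nat_lit 2) (nat_lit 5) (nat_lit 4) (nat_lit 4) (nat_lit 2) (nat_lit 4) (nat_lit 259) (nat_lit 233) (nat_lit 108)) (XT.lf (nat_lit 0) (nat_lit 587201805393) (nat_lit 76) (nat_lit 3768688723875) (nat_lit 76) (nat_lit 2754821511757) (nat_lit 1) (nat_lit 4) (nat_lit 2) (nat_lit 5) (nat_lit 2) (nat_lit 4) (nat_lit 260) (nat_lit 233) (nat_lit 107)))))) (XT.nd (nat_lit 29328) (nat_lit 0) (nat_lit 532) (XT.nd (nat_lit 234) (nat_lit 0) (nat_lit 0) (XT.nd (nat_lit 78) (nat_lit 0) (nat_lit 0) (XT.lf (nat_lit 0) (nat_lit 2357181830223)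 (nat_lit 76) (nat_lit 3960419211619) (nat_lit 76) (nat_lit 2946551993940) (nat_lit 1) (nat_lit 4) (nat_lit 2) (nat_lit 5) (nat_lit 2) (nat_lit 4) (nat_lit 262) (nat_lit 233) (nat_lit 105)) (XT.nd (nat_lit 78) (nat_lit 0) (nat_lit 0) (XT.lf (nat_lit 0) (nat_lit 3445925351460) (nat_lit 76) (nat_lit 4078355758321) (nat_lit 76) (nat_lit 3064488538392) (nat_lit 1) (nat_lit 4) (nat_lit 2) (nat_lit 5) (nat_lit 2) (nat_lit 4) (nat_lit 263) (nat_lit 233) (nat_lit 104)) (XT.lf (nat_lit 0) (nat_lit 4697980397834) (nat_lit 76) (nat_lit 4213982788373) (nat_lit 76) (nat_lit 3200115566487) (nat_lit 1) (nat_lit 4) (nat_lit 2) (nat_lit 5) (nat_lit 2) (nat_lit 4) (nat_lit 264) (nat_lit 233) (nat_lit 103)))) (XT.nd (nat_lit 28938) (nat_lit 0) (nat_lit 836) (XT.nd (nat_lit 28860) (nat_lit 0) (nat_lit 836) (XT.lf (nat_lit 0) (nat_lit 6137843698512) (nat_lit 76) (nat_lit 4369953874100) (nat_lit 76) (nat_lit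 3356086650514) (nat_lit 1) (nat_lit 4) (nat_lit 2) (nat_lit 5) (nat_lit 2) (nat_lit 4) (nat_lit 265) (nat_lit 233) (nat_lit 102)) (XT.lf (nat_lit 0) (nat_lit 87769055614) (nat_lit 0) (nat_lit 87769055614) (nat_lit 228) (nat_lit 63274002080) (nat_lit 12) (nat_lit 5) (nat_lit 12) (nat_lit 3) (nat_lit 15) (nat_lit 3) (nat_lit 234) (nat_lit 234) (nat_lit 132))) (XT.nd (nat_lit 78) (nat_lit 0) (nat_lit 0) (XT.lf (nat_lit 0) (nat_lit 377968840805) (nat_lit 228) (nat_lit 123036071524) (nat_lit 304) (nat_lit 12356841559) (nat_lit 12) (nat_lit 5) (nat_lit 15) (nat_lit 3) (nat_lit 16) (nat_lit 5) (nat_lit 235) (nat_lit 234) (nat_lit 131)) (XT.lf (nat_lit 76) (nat_lit 81794396090) (nat_lit 0) (nat_lit 338846805416) (nat_lit 304) (nat_lit 132056832097) (nat_lit 13) (nat_lit 5) (nat_lit 12) (nat_lit 5) (nat_lit 16) (nat_lit 5) (nat_lit 236) (nat_lit 234) (nat_lit 130))))) (XT.nd (nat_lit 234)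 (nat_lit 152) (nat_lit 0) (XT.nd (nat_lit 78) (nat_lit 152) (nat_lit 0) (XT.lf (nat_lit 76) (nat_lit 331176983879) (nat_lit 0) (nat_lit 144968827918) (nat_lit 304) (nat_lit 120824234852) (nat_lit 13) (nat_lit 5) (nat_lit 12) (nat_lit 5) (nat_lit 16) (nat_lit 5) (nat_lit 237) (nat_lit 234) (nat_lit 129)) (XT.nd (nat_lit 78) (nat_lit 228) (nat_lit 0) (XT.lf (nat_lit 0) (nat_lit 543205517683) (nat_lit 228) (nat_lit 33145365165) (nat_lit 76) (nat_lit 71047568798) (nat_lit 13) (nat_lit 5) (nat_lit 16) (nat_lit 5) (nat_lit 14) (nat_lit 5) (nat_lit 238) (nat_lit 234) (nat_lit 128)) (XT.lf (nat_lit 0) (nat_lit 249728766257) (nat_lit 228) (nat_lit 387839399789) (nat_lit 304) (nat_lit 65236353882) (nat_lit 10) (nat_lit 5) (nat_lit 13) (nat_lit 5) (nat_lit 14) (nat_lit 5) (nat_lit 239) (nat_lit 234) (nat_lit 127)))) (XT.nd (nat_lit 156) (nat_lit 0) (nat_lit 0) (XT.nd (nat_lit 78) (nat_lit 152)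 (nat_lit 0) (XT.lf (nat_lit 0) (nat_lit 578759080614) (nat_lit 228) (nat_lit 169058705578) (nat_lit 304) (nat_lit 18443826537) (nat_lit 10) (nat_lit 5) (nat_lit 13) (nat_lit 5) (nat_lit 14) (nat_lit 5) (nat_lit 240) (nat_lit 234) (nat_lit 126)) (XT.lf (nat_lit 0) (nat_lit 41251261184) (nat_lit 152) (nat_lit 714141492507) (nat_lit 76) (nat_lit 82269989521) (nat_lit 8) (nat_lit 5) (nat_lit 10) (nat_lit 5) (nat_lit 9) (nat_lit 5) (nat_lit 241) (nat_lit 234) (nat_lit 125))) (XT.nd (nat_lit 78) (nat_lit 0) (nat_lit 0) (XT.lf (nat_lit 0) (nat_lit 126330705490) (nat_lit 152) (nat_lit 425427968815) (nat_lit 76) (nat_lit 365135869154) (nat_lit 8) (nat_lit 5) (nat_lit 10) (nat_lit 5) (nat_lit 9) (nat_lit 5) (nat_lit 242) (nat_lit 234) (nat_lit 124)) (XT.lf (nat_lit 0) (nat_lit 224172048696) (nat_lit 152) (nat_lit 93407438718) (nat_lit 76) (nat_lit 690431629249) (nat_lit 8) (nat_lit 5) (nat_lit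 10) (nat_lit 5) (nat_lit 9) (nat_lit 5) (nat_lit 243) (nat_lit 234) (nat_lit 123))))))))
noncomputable def xc58 : XT := (XT.nd (nat_lit 30966) (nat_lit 0) (nat_lit 0) (XT.nd (nat_lit 1014) (nat_lit 76) (nat_lit 0) (XT.nd (nat_lit 468) (nat_lit 228) (nat_lit 0) (XT.nd (nat_lit 234) (nat_lit 76) (nat_lit 0) (XT.nd (nat_lit 78) (nat_lit 0) (nat_lit 0) (XT.lf (nat_lit 0) (nat_lit 316602275539) (nat_lit 152) (nat_lit 33197127487) (nat_lit 228) (nat_lit 761029301603) (nat_lit 6) (nat_lit 5) (nat_lit 8) (nat_lit 5) (nat_lit 9) (nat_lit 5) (nat_lit 244) (nat_lit 234) (nat_lit 122)) (XT.nd (nat_lit 78) (nat_lit 0) (nat_lit 0) (XT.lf (nat_lit 0) (nat_lit 511553410301) (nat_lit 228) (nat_lit 442125285356) (nat_lit 76) (nat_lit 272797852861) (nat_lit 6) (nat_lit 5) (nat_lit 9) (nat_lit 5) (nat_lit 7) (nat_lit 4) (nat_lit 245) (nat_lit 234) (nat_lit 121)) (XT.lf (nat_lit 0) (nat_lit 699151321779)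 (nat_lit 228) (nat_lit 38789803513) (nat_lit 76) (nat_lit 621293323401) (nat_lit 6) (nat_lit 5) (nat_lit 9) (nat_lit 5) (nat_lit 7) (nat_lit 4) (nat_lit 246) (nat_lit 234) (nat_lit 120)))) (XT.nd (nat_lit 78) (nat_lit 0) (nat_lit 0) (XT.lf (nat_lit 0) (nat_lit 466584569982) (nat_lit 76) (nat_lit 467624611193) (nat_lit 152) (nat_lit 574798813691) (nat_lit 5) (nat_lit 5) (nat_lit 6) (nat_lit 5) (nat_lit 7) (nat_lit 4) (nat_lit 247) (nat_lit 234) (nat_lit 119)) (XT.nd (nat_lit 78) (nat_lit 0) (nat_lit 0) (XT.lf (nat_lit 0) (nat_lit 1052124529645) (nat_lit 76) (nat_lit 154428828605) (nat_lit 152) (nat_lit 474390069029) (nat_lit 5) (nat_lit 5) (nat_lit 6) (nat_lit 5) (nat_lit 7) (nat_lit 4) (nat_lit 248) (nat_lit 234) (nat_lit 118)) (XT.lf (nat_lit 0) (nat_lit 1528268669387) (nat_lit 152) (nat_lit 161693221851) (nat_lit 0) (nat_lit 187429357303) (nat_lit 5) (nat_lit 5) (nat_lit 7) (nat_lit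 4) (nat_lit 5) (nat_lit 4) (nat_lit 249) (nat_lit 234) (nat_lit 117))))) (XT.nd (nat_lit 234) (nat_lit 76) (nat_lit 0) (XT.nd (nat_lit 78) (nat_lit 76) (nat_lit 0) (XT.lf (nat_lit 0) (nat_lit 404125594233) (nat_lit 76) (nat_lit 1518203408012) (nat_lit 76) (nat_lit 177364082088) (nat_lit 4) (nat_lit 4) (nat_lit 5) (nat_lit 5) (nat_lit 5) (nat_lit 4) (nat_lit 250) (nat_lit 234) (nat_lit 116)) (XT.nd (nat_lit 78) (nat_lit 0) (nat_lit 0) (XT.lf (nat_lit 0) (nat_lit 27218189278) (nat_lit 152) (nat_lit 1282320231008) (nat_lit 76) (nat_lit 1044348375959) (nat_lit 3) (nat_lit 5) (nat_lit 5) (nat_lit 5) (nat_lit 4) (nat_lit 4) (nat_lit 251) (nat_lit 234) (nat_lit 115)) (XT.lf (nat_lit 0) (nat_lit 244329091059) (nat_lit 152) (nat_lit 815531802644) (nat_lit 76) (nat_lit 1585081786003) (nat_lit 3) (nat_lit 5) (nat_lit 5) (nat_lit 5) (nat_lit 4) (nat_lit 4) (nat_lit 252) (nat_lit 234) (nat_lit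 114)))) (XT.nd (nat_lit 156) (nat_lit 0) (nat_lit 0) (XT.nd (nat_lit 78) (nat_lit 76) (nat_lit 0) (XT.lf (nat_lit 0) (nat_lit 494006622325) (nat_lit 152) (nat_lit 278725119522) (nat_lit 76) (nat_lit 2206925204762) (nat_lit 3) (nat_lit 5) (nat_lit 5) (nat_lit 5) (nat_lit 4) (nat_lit 4) (nat_lit 253) (nat_lit 234) (nat_lit 113)) (XT.lf (nat_lit 0) (nat_lit 371693262324) (nat_lit 76) (nat_lit 424833541285) (nat_lit 152) (nat_lit 2565742896940) (nat_lit 2) (nat_lit 5) (nat_lit 3) (nat_lit 5) (nat_lit 4) (nat_lit 4) (nat_lit 254) (nat_lit 234) (nat_lit 112))) (XT.nd (nat_lit 78) (nat_lit 0) (nat_lit 0) (XT.lf (nat_lit 0) (nat_lit 1150999296202) (nat_lit 76) (nat_lit 7995433340) (nat_lit 152) (nat_lit 2641094180458) (nat_lit 2) (nat_lit 5) (nat_lit 3) (nat_lit 5) (nat_lit 4) (nat_lit 4) (nat_lit 255) (nat_lit 234) (nat_lit 111)) (XT.lf (nat_lit 0) (nat_lit 1595351200035) (nat_lit 152)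 (nat_lit 2275898132965) (nat_lit 0) (nat_lit 429403914558) (nat_lit 2) (nat_lit 5) (nat_lit 4) (nat_lit 4) (nat_lit 2) (nat_lit 4) (nat_lit 256) (nat_lit 234) (nat_lit 110)))))) (XT.nd (nat_lit 546) (nat_lit 0) (nat_lit 0) (XT.nd (nat_lit 312) (nat_lit 76) (nat_lit 0) (XT.nd (nat_lit 78) (nat_lit 0) (nat_lit 0) (XT.lf (nat_lit 0) (nat_lit 2097541872370) (nat_lit 152) (nat_lit 1847108671352) (nat_lit 0) (nat_lit 931594582368) (nat_lit 2) (nat_lit 5) (nat_lit 4) (nat_lit 4) (nat_lit 2) (nat_lit 4) (nat_lit 257) (nat_lit 234) (nat_lit 109)) (XT.nd (nat_lit 78) (nat_lit 0) (nat_lit 0) (XT.lf (nat_lit 0) (nat_lit 2675061142379) (nat_lit 152) (nat_lit 1354000796085) (nat_lit 0) (nat_lit 1509113848443) (nat_lit 2) (nat_lit 5) (nat_lit 4) (nat_lit 4) (nat_lit 2) (nat_lit 4) (nat_lit 258) (nat_lit 234) (nat_lit 108)) (XT.lf (nat_lit 0) (nat_lit 3339208300128) (nat_lit 152) (nat_lit 786926744386)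 (nat_lit 0) (nat_lit 2173261002771) (nat_lit 2) (nat_lit 5) (nat_lit 4) (nat_lit 4) (nat_lit 2) (nat_lit 4) (nat_lit 259) (nat_lit 234) (nat_lit 107)))) (XT.nd (nat_lit 78) (nat_lit 0) (nat_lit 0) (XT.lf (nat_lit 0) (nat_lit 675282119624) (nat_lit 76) (nat_lit 4333992013317) (nat_lit 76) (nat_lit 3168044710399) (nat_lit 1) (nat_lit 4) (nat_lit 2) (nat_lit 5) (nat_lit 2) (nat_lit 4) (nat_lit 261) (nat_lit 234) (nat_lit 105)) (XT.nd (nat_lit 78) (nat_lit 0) (nat_lit 0) (XT.lf (nat_lit 0) (nat_lit 1622015617770) (nat_lit 76) (nat_lit 4436545531563) (nat_lit 76) (nat_lit 3270598226396) (nat_lit 1) (nat_lit 4) (nat_lit 2) (nat_lit 5) (nat_lit 2) (nat_lit 4) (nat_lit 262) (nat_lit 234) (nat_lit 104)) (XT.lf (nat_lit 0) (nat_lit 2710759137589) (nat_lit 76) (nat_lit 4554482078890) (nat_lit 76) (nat_lit 3388534771767) (nat_lit 1) (nat_lit 4) (nat_lit 2) (nat_lit 5) (nat_lit 2) (nat_lit 4)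 (nat_lit 263) (nat_lit 234) (nat_lit 103))))) (XT.nd (nat_lit 29094) (nat_lit 0) (nat_lit 836) (XT.nd (nat_lit 78) (nat_lit 0) (nat_lit 0) (XT.lf (nat_lit 0) (nat_lit 3962814182729) (nat_lit 76) (nat_lit 4690109109485) (nat_lit 76) (nat_lit 3524161800661) (nat_lit 1) (nat_lit 4) (nat_lit 2) (nat_lit 5) (nat_lit 2) (nat_lit 4) (nat_lit 264) (nat_lit 234) (nat_lit 102)) (XT.nd (nat_lit 28938) (nat_lit 0) (nat_lit 836) (XT.lf (nat_lit 0) (nat_lit 5402677482335) (nat_lit 76) (nat_lit 4846080195686) (nat_lit 76) (nat_lit 3680132885382) (nat_lit 1) (nat_lit 4) (nat_lit 2) (nat_lit 5) (nat_lit 2) (nat_lit 4) (nat_lit 265) (nat_lit 234) (nat_lit 101)) (XT.lf (nat_lit 0) (nat_lit 100934522779) (nat_lit 0) (nat_lit 100934522779) (nat_lit 228) (nat_lit 72764847808) (nat_lit 12) (nat_lit 5) (nat_lit 12) (nat_lit 3) (nat_lit 15) (nat_lit 3) (nat_lit 235) (nat_lit 235) (nat_lit 130)))) (XT.nd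 (nat_lit 156) (nat_lit 0) (nat_lit 0) (XT.nd (nat_lit 78) (nat_lit 0) (nat_lit 0) (XT.lf (nat_lit 0) (nat_lit 434664537602) (nat_lit 228) (nat_lit 141491220917) (nat_lit 304) (nat_lit 14210195385) (nat_lit 12) (nat_lit 5) (nat_lit 15) (nat_lit 3) (nat_lit 16) (nat_lit 5) (nat_lit 236) (nat_lit 235) (nat_lit 129)) (XT.lf (nat_lit 76) (nat_lit 94063804960) (nat_lit 0) (nat_lit 389673909430) (nat_lit 304) (nat_lit 151864967866) (nat_lit 13) (nat_lit 5) (nat_lit 12) (nat_lit 5) (nat_lit 16) (nat_lit 5) (nat_lit 237) (nat_lit 235) (nat_lit 128))) (XT.nd (nat_lit 78) (nat_lit 0) (nat_lit 76) (XT.lf (nat_lit 76) (nat_lit 380853748379) (nat_lit 0) (nat_lit 166714224455) (nat_lit 304) (nat_lit 138947531779) (nat_lit 13) (nat_lit 5) (nat_lit 12) (nat_lit 5) (nat_lit 16) (nat_lit 5) (nat_lit 238) (nat_lit 235) (nat_lit 127)) (XT.lf (nat_lit 0) (nat_lit 624686594266) (nat_lit 228) (nat_lit 38116936072)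 (nat_lit 76) (nat_lit 81704646807) (nat_lit 13) (nat_lit 5) (nat_lit 16) (nat_lit 5) (nat_lit 14) (nat_lit 5) (nat_lit 239) (nat_lit 235) (nat_lit 126))))))) (XT.nd (nat_lit 1014) (nat_lit 152) (nat_lit 0) (XT.nd (nat_lit 468) (nat_lit 228) (nat_lit 0) (XT.nd (nat_lit 234) (nat_lit 152) (nat_lit 0) (XT.nd (nat_lit 78) (nat_lit 152) (nat_lit 0) (XT.lf (nat_lit 0) (nat_lit 287188304433) (nat_lit 228) (nat_lit 446015312225) (nat_lit 304) (nat_lit 75021543135) (nat_lit 10) (nat_lit 5) (nat_lit 13) (nat_lit 5) (nat_lit 14) (nat_lit 5) (nat_lit 240) (nat_lit 235) (nat_lit 125)) (XT.nd (nat_lit 78) (nat_lit 152) (nat_lit 0) (XT.lf (nat_lit 0) (nat_lit 665573136825) (nat_lit 228) (nat_lit 194417513561) (nat_lit 304) (nat_lit 21210171100) (nat_lit 10) (nat_lit 5) (nat_lit 13) (nat_lit 5) (nat_lit 14) (nat_lit 5) (nat_lit 241) (nat_lit 235) (nat_lit 124)) (XT.lf (nat_lit 0) (nat_lit 47439141428)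 (nat_lit 152) (nat_lit 821262477880) (nat_lit 76) (nat_lit 94610503920) (nat_lit 8) (nat_lit 5) (nat_lit 10) (nat_lit 5) (nat_lit 9) (nat_lit 5) (nat_lit 242) (nat_lit 235) (nat_lit 123)))) (XT.nd (nat_lit 78) (nat_lit 152) (nat_lit 0) (XT.lf (nat_lit 0) (nat_lit 145280477458) (nat_lit 152) (nat_lit 489241956742) (nat_lit 76) (nat_lit 419906263415) (nat_lit 8) (nat_lit 5) (nat_lit 10) (nat_lit 5) (nat_lit 9) (nat_lit 5) (nat_lit 243) (nat_lit 235) (nat_lit 122)) (XT.nd (nat_lit 78) (nat_lit 152) (nat_lit 0) (XT.lf (nat_lit 0) (nat_lit 257798000474) (nat_lit 152) (nat_lit 107418374183) (nat_lit 76) (nat_lit 793996385713) (nat_lit 8) (nat_lit 5) (nat_lit 10) (nat_lit 5) (nat_lit 9) (nat_lit 5) (nat_lit 244) (nat_lit 235) (nat_lit 121)) (XT.lf (nat_lit 0) (nat_lit 364092789016) (nat_lit 152) (nat_lit 38176657222) (nat_lit 228) (nat_lit 875183542327) (nat_lit 6) (nat_lit 5) (nat_lit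 8) (nat_lit 5) (nat_lit 9) (nat_lit 5) (nat_lit 245) (nat_lit 235) (nat_lit 120))))) (XT.nd (nat_lit 234) (nat_lit 152) (nat_lit 0) (XT.nd (nat_lit 78) (nat_lit 76) (nat_lit 0) (XT.lf (nat_lit 0) (nat_lit 588286538705) (nat_lit 228) (nat_lit 508443910965) (nat_lit 76) (nat_lit 313717561992) (nat_lit 6) (nat_lit 5) (nat_lit 9) (nat_lit 5) (nat_lit 7) (nat_lit 4) (nat_lit 246) (nat_lit 235) (nat_lit 119)) (XT.nd (nat_lit 78) (nat_lit 76) (nat_lit 0) (XT.lf (nat_lit 0) (nat_lit 804024121663) (nat_lit 228) (nat_lit 44608128654) (nat_lit 76) (nat_lit 714487349043) (nat_lit 6) (nat_lit 5) (nat_lit 9) (nat_lit 5) (nat_lit 7) (nat_lit 4) (nat_lit 247) (nat_lit 235) (nat_lit 118)) (XT.lf (nat_lit 0) (nat_lit 536572394257) (nat_lit 76) (nat_lit 537768258203) (nat_lit 152) (nat_lit 661018526307) (nat_lit 5) (nat_lit 5) (nat_lit 6) (nat_lit 5) (nat_lit 7) (nat_lit 4) (nat_lit 248) (nat_lit 235)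 (nat_lit 117)))) (XT.nd (nat_lit 156) (nat_lit 152) (nat_lit 0) (XT.nd (nat_lit 78) (nat_lit 0) (nat_lit 0) (XT.lf (nat_lit 0) (nat_lit 1209943329768) (nat_lit 76) (nat_lit 177593114054) (nat_lit 152) (nat_lit 545548484220) (nat_lit 5) (nat_lit 5) (nat_lit 6) (nat_lit 5) (nat_lit 7) (nat_lit 4) (nat_lit 249) (nat_lit 235) (nat_lit 116)) (XT.lf (nat_lit 0) (nat_lit 1757509042354) (nat_lit 152) (nat_lit 185947090000) (nat_lit 0) (nat_lit 215543791667) (nat_lit 5) (nat_lit 5) (nat_lit 7) (nat_lit 4) (nat_lit 5) (nat_lit 4) (nat_lit 250) (nat_lit 235) (nat_lit 115))) (XT.nd (nat_lit 78) (nat_lit 76) (nat_lit 0) (XT.lf (nat_lit 0) (nat_lit 464744543264) (nat_lit 76) (nat_lit 1745933876963) (nat_lit 76) (nat_lit 203968615812) (nat_lit 4) (nat_lit 4) (nat_lit 5) (nat_lit 5) (nat_lit 5) (nat_lit 4) (nat_lit 251) (nat_lit 235) (nat_lit 114)) (XT.lf (nat_lit 0) (nat_lit 31300979925) (nat_lit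 152) (nat_lit 1474668163411) (nat_lit 76) (nat_lit 1201000662405) (nat_lit 3) (nat_lit 5) (nat_lit 5) (nat_lit 5) (nat_lit 4) (nat_lit 4) (nat_lit 252) (nat_lit 235) (nat_lit 113)))))) (XT.nd (nat_lit 624) (nat_lit 76) (nat_lit 0) (XT.nd (nat_lit 234) (nat_lit 0) (nat_lit 0) (XT.nd (nat_lit 78) (nat_lit 76) (nat_lit 0) (XT.lf (nat_lit 0) (nat_lit 280978508852) (nat_lit 152) (nat_lit 937861484129) (nat_lit 76) (nat_lit 1822844080036) (nat_lit 3) (nat_lit 5) (nat_lit 5) (nat_lit 5) (nat_lit 4) (nat_lit 4) (nat_lit 253) (nat_lit 235) (nat_lit 112)) (XT.nd (nat_lit 78) (nat_lit 76) (nat_lit 0) (XT.lf (nat_lit 0) (nat_lit 568107662747) (nat_lit 152) (nat_lit 320533810136) (nat_lit 76) (nat_lit 2537964008201) (nat_lit 3) (nat_lit 5) (nat_lit 5) (nat_lit 5) (nat_lit 4) (nat_lit 4) (nat_lit 254) (nat_lit 235) (nat_lit 111)) (XT.lf (nat_lit 0) (nat_lit 427447325472) (nat_lit 76) (nat_lit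 488558542666) (nat_lit 152) (nat_lit 2950604280496) (nat_lit 2) (nat_lit 5) (nat_lit 3) (nat_lit 5) (nat_lit 4) (nat_lit 4) (nat_lit 255) (nat_lit 235) (nat_lit 110)))) (XT.nd (nat_lit 156) (nat_lit 0) (nat_lit 0) (XT.nd (nat_lit 78) (nat_lit 0) (nat_lit 0) (XT.lf (nat_lit 0) (nat_lit 1323649254807) (nat_lit 76) (nat_lit 9194722419) (nat_lit 152) (nat_lit 3037258263192) (nat_lit 2) (nat_lit 5) (nat_lit 3) (nat_lit 5) (nat_lit 4) (nat_lit 4) (nat_lit 256) (nat_lit 235) (nat_lit 109)) (XT.lf (nat_lit 0) (nat_lit 1834653914236) (nat_lit 152) (nat_lit 2617282792750) (nat_lit 0) (nat_lit 493814522276) (nat_lit 2) (nat_lit 5) (nat_lit 4) (nat_lit 4) (nat_lit 2) (nat_lit 4) (nat_lit 257) (nat_lit 235) (nat_lit 108))) (XT.nd (nat_lit 78) (nat_lit 0) (nat_lit 0) (XT.lf (nat_lit 0) (nat_lit 2412173182961) (nat_lit 152) (nat_lit 2124174919743) (nat_lit 0) (nat_lit 1071333787579) (nat_lit 2)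 (nat_lit 5) (nat_lit 4) (nat_lit 4) (nat_lit 2) (nat_lit 4) (nat_lit 258) (nat_lit 235) (nat_lit 107)) (XT.lf (nat_lit 0) (nat_lit 3076320339593) (nat_lit 152) (nat_lit 1557100870009) (nat_lit 0) (nat_lit 1735480941237) (nat_lit 2) (nat_lit 5) (nat_lit 4) (nat_lit 4) (nat_lit 2) (nat_lit 4) (nat_lit 259) (nat_lit 235) (nat_lit 106))))) (XT.nd (nat_lit 234) (nat_lit 0) (nat_lit 0) (XT.nd (nat_lit 78) (nat_lit 76) (nat_lit 0) (XT.lf (nat_lit 0) (nat_lit 4718424178060) (nat_lit 152) (nat_lit 155010293134) (nat_lit 0) (nat_lit 3377584774868) (nat_lit 2) (nat_lit 5) (nat_lit 4) (nat_lit 4) (nat_lit 2) (nat_lit 4) (nat_lit 261) (nat_lit 235) (nat_lit 104)) (XT.nd (nat_lit 78) (nat_lit 0) (nat_lit 0) (XT.lf (nat_lit 0) (nat_lit 776574470400) (nat_lit 76) (nat_lit 4984090800843) (nat_lit 76) (nat_lit 3643251395695) (nat_lit 1) (nat_lit 4) (nat_lit 2) (nat_lit 5) (nat_lit 2) (nat_lit 4) (nat_lit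 262) (nat_lit 235) (nat_lit 103)) (XT.lf (nat_lit 0) (nat_lit 1865317988986) (nat_lit 76) (nat_lit 5102027348714) (nat_lit 76) (nat_lit 3761187941865) (nat_lit 1) (nat_lit 4) (nat_lit 2) (nat_lit 5) (nat_lit 2) (nat_lit 4) (nat_lit 263) (nat_lit 235) (nat_lit 102)))) (XT.nd (nat_lit 29094) (nat_lit 0) (nat_lit 836) (XT.nd (nat_lit 78) (nat_lit 0) (nat_lit 0) (XT.lf (nat_lit 0) (nat_lit 3117373033054) (nat_lit 76) (nat_lit 5237654379781) (nat_lit 76) (nat_lit 3896814971453) (nat_lit 1) (nat_lit 4) (nat_lit 2) (nat_lit 5) (nat_lit 2) (nat_lit 4) (nat_lit 264) (nat_lit 235) (nat_lit 101)) (XT.lf (nat_lit 0) (nat_lit 4557236331727) (nat_lit 76) (nat_lit 5393625466392) (nat_lit 76) (nat_lit 4052786056778) (nat_lit 1) (nat_lit 4) (nat_lit 2) (nat_lit 5) (nat_lit 2) (nat_lit 4) (nat_lit 265) (nat_lit 235) (nat_lit 100))) (XT.nd (nat_lit 78) (nat_lit 0) (nat_lit 0) (XT.lf (nat_lit 0) (nat_lit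 116074783481) (nat_lit 0) (nat_lit 116074783481) (nat_lit 228) (nat_lit 83679382478) (nat_lit 12) (nat_lit 5) (nat_lit 12) (nat_lit 3) (nat_lit 15) (nat_lit 3) (nat_lit 236) (nat_lit 236) (nat_lit 128)) (XT.lf (nat_lit 0) (nat_lit 499864498527) (nat_lit 228) (nat_lit 162714706449) (nat_lit 304) (nat_lit 16341594328) (nat_lit 12) (nat_lit 5) (nat_lit 15) (nat_lit 3) (nat_lit 16) (nat_lit 5) (nat_lit 237) (nat_lit 236) (nat_lit 127))))))))
noncomputable def xc59 : XT := (XT.nd (nat_lit 31278) (nat_lit 0) (nat_lit 0) (XT.nd (nat_lit 1014) (nat_lit 304) (nat_lit 0) (XT.nd (nat_lit 468) (nat_lit 228) (nat_lit 0) (XT.nd (nat_lit 234) (nat_lit 304) (nat_lit 0) (XT.nd (nat_lit 78) (nat_lit 0) (nat_lit 0) (XT.lf (nat_lit 76) (nat_lit 108173564328) (nat_lit 0) (nat_lit 448125058757) (nat_lit 304) (nat_lit 174644418871) (nat_lit 13) (nat_lit 5) (nat_lit 12) (nat_lit 5) (nat_lit 16) (nat_lit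 5) (nat_lit 238) (nat_lit 236) (nat_lit 126)) (XT.nd (nat_lit 78) (nat_lit 0) (nat_lit 76) (XT.lf (nat_lit 76) (nat_lit 437981974657) (nat_lit 0) (nat_lit 191721412829) (nat_lit 304) (nat_lit 159789405742) (nat_lit 13) (nat_lit 5) (nat_lit 12) (nat_lit 5) (nat_lit 16) (nat_lit 5) (nat_lit 239) (nat_lit 236) (nat_lit 125)) (XT.lf (nat_lit 0) (nat_lit 718389771634) (nat_lit 228) (nat_lit 43834299645) (nat_lit 76) (nat_lit 93960300493) (nat_lit 13) (nat_lit 5) (nat_lit 16) (nat_lit 5) (nat_lit 14) (nat_lit 5) (nat_lit 240) (nat_lit 236) (nat_lit 124)))) (XT.nd (nat_lit 78) (nat_lit 152) (nat_lit 0) (XT.lf (nat_lit 0) (nat_lit 330266718898) (nat_lit 228) (nat_lit 512917610925) (nat_lit 304) (nat_lit 86274575112) (nat_lit 10) (nat_lit 5) (nat_lit 13) (nat_lit 5) (nat_lit 14) (nat_lit 5) (nat_lit 241) (nat_lit 236) (nat_lit 123)) (XT.nd (nat_lit 78) (nat_lit 152) (nat_lit 0) (XT.lf (nat_lit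 0) (nat_lit 765409254132) (nat_lit 228) (nat_lit 223580142218) (nat_lit 304) (nat_lit 24391523293) (nat_lit 10) (nat_lit 5) (nat_lit 13) (nat_lit 5) (nat_lit 14) (nat_lit 5) (nat_lit 242) (nat_lit 236) (nat_lit 122)) (XT.lf (nat_lit 0) (nat_lit 54555157116) (nat_lit 152) (nat_lit 944451669219) (nat_lit 76) (nat_lit 108802091584) (nat_lit 8) (nat_lit 5) (nat_lit 10) (nat_lit 5) (nat_lit 9) (nat_lit 5) (nat_lit 243) (nat_lit 236) (nat_lit 121))))) (XT.nd (nat_lit 234) (nat_lit 76) (nat_lit 0) (XT.nd (nat_lit 78) (nat_lit 152) (nat_lit 0) (XT.lf (nat_lit 0) (nat_lit 167072674706) (nat_lit 152) (nat_lit 562628093434) (nat_lit 76) (nat_lit 482892213429) (nat_lit 8) (nat_lit 5) (nat_lit 10) (nat_lit 5) (nat_lit 9) (nat_lit 5) (nat_lit 244) (nat_lit 236) (nat_lit 120)) (XT.nd (nat_lit 78) (nat_lit 152) (nat_lit 0) (XT.lf (nat_lit 0) (nat_lit 296467809788) (nat_lit 152) (nat_lit 123530993946)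 (nat_lit 76) (nat_lit 913095852701) (nat_lit 8) (nat_lit 5) (nat_lit 10) (nat_lit 5) (nat_lit 9) (nat_lit 5) (nat_lit 245) (nat_lit 236) (nat_lit 119)) (XT.lf (nat_lit 0) (nat_lit 418706837535) (nat_lit 152) (nat_lit 43903126022) (nat_lit 228) (nat_lit 1006460956840) (nat_lit 6) (nat_lit 5) (nat_lit 8) (nat_lit 5) (nat_lit 9) (nat_lit 5) (nat_lit 246) (nat_lit 236) (nat_lit 118)))) (XT.nd (nat_lit 156) (nat_lit 76) (nat_lit 0) (XT.nd (nat_lit 78) (nat_lit 0) (nat_lit 0) (XT.lf (nat_lit 0) (nat_lit 676529607874) (nat_lit 228) (nat_lit 584710371187) (nat_lit 76) (nat_lit 360775219883) (nat_lit 6) (nat_lit 5) (nat_lit 9) (nat_lit 5) (nat_lit 7) (nat_lit 4) (nat_lit 247) (nat_lit 236) (nat_lit 117)) (XT.lf (nat_lit 0) (nat_lit 924627816750) (nat_lit 228) (nat_lit 51299238019) (nat_lit 76) (nat_lit 821660471915) (nat_lit 6) (nat_lit 5) (nat_lit 9) (nat_lit 5) (nat_lit 7) (nat_lit 4) (nat_lit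 248) (nat_lit 236) (nat_lit 116))) (XT.nd (nat_lit 78) (nat_lit 0) (nat_lit 0) (XT.lf (nat_lit 0) (nat_lit 617058358332) (nat_lit 76) (nat_lit 618433463158) (nat_lit 152) (nat_lit 760171222501) (nat_lit 5) (nat_lit 5) (nat_lit 6) (nat_lit 5) (nat_lit 7) (nat_lit 4) (nat_lit 249) (nat_lit 236) (nat_lit 115)) (XT.lf (nat_lit 0) (nat_lit 1391434920481) (nat_lit 76) (nat_lit 204232051791) (nat_lit 152) (nat_lit 627380684895) (nat_lit 5) (nat_lit 5) (nat_lit 6) (nat_lit 5) (nat_lit 7) (nat_lit 4) (nat_lit 250) (nat_lit 236) (nat_lit 114)))))) (XT.nd (nat_lit 546) (nat_lit 76) (nat_lit 0) (XT.nd (nat_lit 234) (nat_lit 76) (nat_lit 0) (XT.nd (nat_lit 78) (nat_lit 152) (nat_lit 0) (XT.lf (nat_lit 0) (nat_lit 2021135453571) (nat_lit 152) (nat_lit 213839066447) (nat_lit 0) (nat_lit 247875383683) (nat_lit 5) (nat_lit 5) (nat_lit 7) (nat_lit 4) (nat_lit 5) (nat_lit 4) (nat_lit 251) (nat_lit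 236) (nat_lit 113)) (XT.nd (nat_lit 78) (nat_lit 76) (nat_lit 0) (XT.lf (nat_lit 0) (nat_lit 534456307850) (nat_lit 76) (nat_lit 2007823926560) (nat_lit 76) (nat_lit 234563848759) (nat_lit 4) (nat_lit 4) (nat_lit 5) (nat_lit 5) (nat_lit 5) (nat_lit 4) (nat_lit 252) (nat_lit 236) (nat_lit 112)) (XT.lf (nat_lit 0) (nat_lit 35996173987) (nat_lit 152) (nat_lit 1695868310608) (nat_lit 76) (nat_lit 1381150784490) (nat_lit 3) (nat_lit 5) (nat_lit 5) (nat_lit 5) (nat_lit 4) (nat_lit 4) (nat_lit 253) (nat_lit 236) (nat_lit 111)))) (XT.nd (nat_lit 156) (nat_lit 76) (nat_lit 0) (XT.nd (nat_lit 78) (nat_lit 0) (nat_lit 0) (XT.lf (nat_lit 0) (nat_lit 323125326114) (nat_lit 152) (nat_lit 1078540639519) (nat_lit 76) (nat_lit 2096270711801) (nat_lit 3) (nat_lit 5) (nat_lit 5) (nat_lit 5) (nat_lit 4) (nat_lit 4) (nat_lit 254) (nat_lit 236) (nat_lit 110)) (XT.lf (nat_lit 0) (nat_lit 653323847754)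 (nat_lit 152) (nat_lit 368613823195) (nat_lit 76) (nat_lit 2918658626613) (nat_lit 3) (nat_lit 5) (nat_lit 5) (nat_lit 5) (nat_lit 4) (nat_lit 4) (nat_lit 255) (nat_lit 236) (nat_lit 109))) (XT.nd (nat_lit 78) (nat_lit 0) (nat_lit 0) (XT.lf (nat_lit 0) (nat_lit 491564480097) (nat_lit 76) (nat_lit 561842301525) (nat_lit 152) (nat_lit 3393194884019) (nat_lit 2) (nat_lit 5) (nat_lit 3) (nat_lit 5) (nat_lit 4) (nat_lit 4) (nat_lit 256) (nat_lit 236) (nat_lit 108)) (XT.lf (nat_lit 0) (nat_lit 1522196691553) (nat_lit 76) (nat_lit 10573911181) (nat_lit 152) (nat_lit 3492846969148) (nat_lit 2) (nat_lit 5) (nat_lit 3) (nat_lit 5) (nat_lit 4) (nat_lit 4) (nat_lit 257) (nat_lit 236) (nat_lit 107))))) (XT.nd (nat_lit 390) (nat_lit 76) (nat_lit 0) (XT.nd (nat_lit 234) (nat_lit 0) (nat_lit 0) (XT.lf (nat_lit 0) (nat_lit 2109852027229) (nat_lit 152) (nat_lit 3009875166174) (nat_lit 0) (nat_lit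 567886716144) (nat_lit 2) (nat_lit 5) (nat_lit 4) (nat_lit 4) (nat_lit 2) (nat_lit 4) (nat_lit 258) (nat_lit 236) (nat_lit 106)) (XT.nd (nat_lit 78) (nat_lit 0) (nat_lit 0) (XT.lf (nat_lit 0) (nat_lit 4416103019777) (nat_lit 152) (nat_lit 1040710544052) (nat_lit 0) (nat_lit 2874137701901) (nat_lit 2) (nat_lit 5) (nat_lit 4) (nat_lit 4) (nat_lit 2) (nat_lit 4) (nat_lit 261) (nat_lit 236) (nat_lit 103)) (XT.lf (nat_lit 0) (nat_lit 5426187819553) (nat_lit 152) (nat_lit 178261811096) (nat_lit 0) (nat_lit 3884222499975) (nat_lit 2) (nat_lit 5) (nat_lit 4) (nat_lit 4) (nat_lit 2) (nat_lit 4) (nat_lit 262) (nat_lit 236) (nat_lit 102)))) (XT.nd (nat_lit 156) (nat_lit 0) (nat_lit 0) (XT.nd (nat_lit 78) (nat_lit 0) (nat_lit 0) (XT.lf (nat_lit 0) (nat_lit 893060665787) (nat_lit 76) (nat_lit 5731704410027) (nat_lit 76) (nat_lit 4189739088970) (nat_lit 1) (nat_lit 4) (nat_lit 2) (nat_lit 5) (nat_lit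 2) (nat_lit 4) (nat_lit 263) (nat_lit 236) (nat_lit 101)) (XT.lf (nat_lit 0) (nat_lit 2145115708922) (nat_lit 76) (nat_lit 5867331441505) (nat_lit 76) (nat_lit 4325366119163) (nat_lit 1) (nat_lit 4) (nat_lit 2) (nat_lit 5) (nat_lit 2) (nat_lit 4) (nat_lit 264) (nat_lit 236) (nat_lit 100))) (XT.nd (nat_lit 29094) (nat_lit 0) (nat_lit 836) (XT.lf (nat_lit 0) (nat_lit 3584979006784) (nat_lit 76) (nat_lit 6023302528474) (nat_lit 76) (nat_lit 4481337205013) (nat_lit 1) (nat_lit 4) (nat_lit 2) (nat_lit 5) (nat_lit 2) (nat_lit 4) (nat_lit 265) (nat_lit 236) (nat_lit 99)) (XT.lf (nat_lit 0) (nat_lit 133486063223) (nat_lit 0) (nat_lit 133486063223) (nat_lit 228) (nat_lit 96231144290) (nat_lit 12) (nat_lit 5) (nat_lit 12) (nat_lit 3) (nat_lit 15) (nat_lit 3) (nat_lit 237) (nat_lit 237) (nat_lit 126))))))) (XT.nd (nat_lit 1014) (nat_lit 304) (nat_lit 0) (XT.nd (nat_lit 468) (nat_lit 380) (nat_lit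 0) (XT.nd (nat_lit 234) (nat_lit 152) (nat_lit 0) (XT.nd (nat_lit 78) (nat_lit 0) (nat_lit 0) (XT.lf (nat_lit 0) (nat_lit 574844385242) (nat_lit 228) (nat_lit 187121762997) (nat_lit 304) (nat_lit 18792734903) (nat_lit 12) (nat_lit 5) (nat_lit 15) (nat_lit 3) (nat_lit 16) (nat_lit 5) (nat_lit 238) (nat_lit 237) (nat_lit 125)) (XT.nd (nat_lit 78) (nat_lit 0) (nat_lit 0) (XT.lf (nat_lit 76) (nat_lit 124399741605) (nat_lit 0) (nat_lit 515343865141) (nat_lit 304) (nat_lit 200840859263) (nat_lit 13) (nat_lit 5) (nat_lit 12) (nat_lit 5) (nat_lit 16) (nat_lit 5) (nat_lit 239) (nat_lit 237) (nat_lit 124)) (XT.lf (nat_lit 76) (nat_lit 503679394880) (nat_lit 0) (nat_lit 220479666119) (nat_lit 304) (nat_lit 183757623178) (nat_lit 13) (nat_lit 5) (nat_lit 12) (nat_lit 5) (nat_lit 16) (nat_lit 5) (nat_lit 240) (nat_lit 237) (nat_lit 123)))) (XT.nd (nat_lit 78) (nat_lit 228) (nat_lit 0) (XT.lf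 (nat_lit 0) (nat_lit 826148379707) (nat_lit 228) (nat_lit 50409310878) (nat_lit 76) (nat_lit 108054312799) (nat_lit 13) (nat_lit 5) (nat_lit 16) (nat_lit 5) (nat_lit 14) (nat_lit 5) (nat_lit 241) (nat_lit 237) (nat_lit 122)) (XT.nd (nat_lit 78) (nat_lit 0) (nat_lit 0) (XT.lf (nat_lit 0) (nat_lit 379806854369) (nat_lit 228) (nat_lit 589855253976) (nat_lit 304) (nat_lit 99215610534) (nat_lit 10) (nat_lit 5) (nat_lit 13) (nat_lit 5) (nat_lit 14) (nat_lit 5) (nat_lit 242) (nat_lit 237) (nat_lit 121)) (XT.lf (nat_lit 0) (nat_lit 880220753240) (nat_lit 228) (nat_lit 257117164778) (nat_lit 304) (nat_lit 28050120618) (nat_lit 10) (nat_lit 5) (nat_lit 13) (nat_lit 5) (nat_lit 14) (nat_lit 5) (nat_lit 243) (nat_lit 237) (nat_lit 120))))) (XT.nd (nat_lit 234) (nat_lit 228) (nat_lit 0) (XT.nd (nat_lit 78) (nat_lit 0) (nat_lit 0) (XT.lf (nat_lit 0) (nat_lit 62738539927) (nat_lit 152) (nat_lit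 1086119283237) (nat_lit 76) (nat_lit 125122414454) (nat_lit 8) (nat_lit 5) (nat_lit 10) (nat_lit 5) (nat_lit 9) (nat_lit 5) (nat_lit 244) (nat_lit 237) (nat_lit 119)) (XT.nd (nat_lit 78) (nat_lit 0) (nat_lit 0) (XT.lf (nat_lit 0) (nat_lit 192133670905) (nat_lit 152) (nat_lit 647022188871) (nat_lit 76) (nat_lit 555326053383) (nat_lit 8) (nat_lit 5) (nat_lit 10) (nat_lit 5) (nat_lit 9) (nat_lit 5) (nat_lit 245) (nat_lit 237) (nat_lit 118)) (XT.lf (nat_lit 0) (nat_lit 340938063859) (nat_lit 152) (nat_lit 142060539926) (nat_lit 76) (nat_lit 1050060237511) (nat_lit 8) (nat_lit 5) (nat_lit 10) (nat_lit 5) (nat_lit 9) (nat_lit 5) (nat_lit 246) (nat_lit 237) (nat_lit 117)))) (XT.nd (nat_lit 156) (nat_lit 76) (nat_lit 0) (XT.nd (nat_lit 78) (nat_lit 0) (nat_lit 0) (XT.lf (nat_lit 0) (nat_lit 481512961590) (nat_lit 152) (nat_lit 50488572405) (nat_lit 228) (nat_lit 1157430012021) (nat_lit 6)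 (nat_lit 5) (nat_lit 8) (nat_lit 5) (nat_lit 9) (nat_lit 5) (nat_lit 247) (nat_lit 237) (nat_lit 116)) (XT.lf (nat_lit 0) (nat_lit 778009115870) (nat_lit 228) (nat_lit 672416831272) (nat_lit 76) (nat_lit 414891520705) (nat_lit 6) (nat_lit 5) (nat_lit 9) (nat_lit 5) (nat_lit 7) (nat_lit 4) (nat_lit 248) (nat_lit 237) (nat_lit 115))) (XT.nd (nat_lit 78) (nat_lit 76) (nat_lit 0) (XT.lf (nat_lit 0) (nat_lit 1063322047362) (nat_lit 228) (nat_lit 58994040597) (nat_lit 76) (nat_lit 944909558215) (nat_lit 6) (nat_lit 5) (nat_lit 9) (nat_lit 5) (nat_lit 7) (nat_lit 4) (nat_lit 249) (nat_lit 237) (nat_lit 114)) (XT.lf (nat_lit 0) (nat_lit 709617191429) (nat_lit 76) (nat_lit 711198457092) (nat_lit 152) (nat_lit 874196843305) (nat_lit 5) (nat_lit 5) (nat_lit 6) (nat_lit 5) (nat_lit 7) (nat_lit 4) (nat_lit 250) (nat_lit 237) (nat_lit 113)))))) (XT.nd (nat_lit 546) (nat_lit 76) (nat_lit 0) (XT.nd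 (nat_lit 234) (nat_lit 152) (nat_lit 0) (XT.nd (nat_lit 78) (nat_lit 76) (nat_lit 0) (XT.lf (nat_lit 0) (nat_lit 1600150227551) (nat_lit 76) (nat_lit 234866837352) (nat_lit 152) (nat_lit 721487733219) (nat_lit 5) (nat_lit 5) (nat_lit 6) (nat_lit 5) (nat_lit 7) (nat_lit 4) (nat_lit 251) (nat_lit 237) (nat_lit 112)) (XT.nd (nat_lit 78) (nat_lit 76) (nat_lit 0) (XT.lf (nat_lit 0) (nat_lit 2324305813093) (nat_lit 152) (nat_lit 245914860588) (nat_lit 0) (nat_lit 285056708828) (nat_lit 5) (nat_lit 5) (nat_lit 7) (nat_lit 4) (nat_lit 5) (nat_lit 4) (nat_lit 252) (nat_lit 237) (nat_lit 111)) (XT.lf (nat_lit 0) (nat_lit 614624816861) (nat_lit 76) (nat_lit 2308997491387) (nat_lit 76) (nat_lit 269748381139) (nat_lit 4) (nat_lit 4) (nat_lit 5) (nat_lit 5) (nat_lit 5) (nat_lit 4) (nat_lit 253) (nat_lit 237) (nat_lit 110)))) (XT.nd (nat_lit 156) (nat_lit 76) (nat_lit 0) (XT.nd (nat_lit 78) (nat_lit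 0) (nat_lit 0) (XT.lf (nat_lit 0) (nat_lit 41395635679) (nat_lit 152) (nat_lit 1950248498739) (nat_lit 76) (nat_lit 1588323419346) (nat_lit 3) (nat_lit 5) (nat_lit 5) (nat_lit 5) (nat_lit 4) (nat_lit 4) (nat_lit 254) (nat_lit 237) (nat_lit 109)) (XT.lf (nat_lit 0) (nat_lit 371594155982) (nat_lit 152) (nat_lit 1240321684611) (nat_lit 76) (nat_lit 2410711333513) (nat_lit 3) (nat_lit 5) (nat_lit 5) (nat_lit 5) (nat_lit 4) (nat_lit 4) (nat_lit 255) (nat_lit 237) (nat_lit 108))) (XT.nd (nat_lit 78) (nat_lit 76) (nat_lit 0) (XT.lf (nat_lit 0) (nat_lit 751322451831) (nat_lit 152) (nat_lit 423905852470) (nat_lit 76) (nat_lit 3356457433598) (nat_lit 3) (nat_lit 5) (nat_lit 5) (nat_lit 5) (nat_lit 4) (nat_lit 4) (nat_lit 256) (nat_lit 237) (nat_lit 107)) (XT.lf (nat_lit 0) (nat_lit 565299194307) (nat_lit 76) (nat_lit 646118629709) (nat_lit 152) (nat_lit 3902174087472) (nat_lit 2) (nat_lit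 5) (nat_lit 3) (nat_lit 5) (nat_lit 4) (nat_lit 4) (nat_lit 257) (nat_lit 237) (nat_lit 106))))) (XT.nd (nat_lit 468) (nat_lit 76) (nat_lit 0) (XT.nd (nat_lit 312) (nat_lit 0) (nat_lit 0) (XT.lf (nat_lit 0) (nat_lit 1750526231978) (nat_lit 76) (nat_lit 12159983037) (nat_lit 152) (nat_lit 4016773989172) (nat_lit 2) (nat_lit 5) (nat_lit 3) (nat_lit 5) (nat_lit 4) (nat_lit 4) (nat_lit 258) (nat_lit 237) (nat_lit 105)) (XT.nd (nat_lit 78) (nat_lit 0) (nat_lit 0) (XT.lf (nat_lit 0) (nat_lit 5078518485599) (nat_lit 152) (nat_lit 1196817103043) (nat_lit 0) (nat_lit 3305258364906) (nat_lit 2) (nat_lit 5) (nat_lit 4) (nat_lit 4) (nat_lit 2) (nat_lit 4) (nat_lit 262) (nat_lit 237) (nat_lit 101)) (XT.lf (nat_lit 0) (nat_lit 6240116003664) (nat_lit 152) (nat_lit 205001063094) (nat_lit 0) (nat_lit 4466855881685) (nat_lit 2) (nat_lit 5) (nat_lit 4) (nat_lit 4) (nat_lit 2) (nat_lit 4) (nat_lit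 263) (nat_lit 237) (nat_lit 100)))) (XT.nd (nat_lit 468) (nat_lit 0) (nat_lit 0) (XT.nd (nat_lit 390) (nat_lit 0) (nat_lit 0) (XT.lf (nat_lit 0) (nat_lit 1027019784427) (nat_lit 76) (nat_lit 6591460063256) (nat_lit 76) (nat_lit 4818199940158) (nat_lit 1) (nat_lit 4) (nat_lit 2) (nat_lit 5) (nat_lit 2) (nat_lit 4) (nat_lit 264) (nat_lit 237) (nat_lit 99)) (XT.lf (nat_lit 0) (nat_lit 10735127068169) (nat_lit 76) (nat_lit 7643076603655) (nat_lit 76) (nat_lit 5869816476808) (nat_lit 1) (nat_lit 4) (nat_lit 2) (nat_lit 5) (nat_lit 2) (nat_lit 4) (nat_lit 269) (nat_lit 237) (nat_lit 94))) (XT.nd (nat_lit 28782) (nat_lit 0) (nat_lit 836) (XT.lf (nat_lit 0) (nat_lit 13631206452806) (nat_lit 76) (nat_lit 7956790174234) (nat_lit 76) (nat_lit 6183530046904) (nat_lit 1) (nat_lit 4) (nat_lit 2) (nat_lit 5) (nat_lit 2) (nat_lit 4) (nat_lit 270) (nat_lit 237) (nat_lit 93)) (XT.lf (nat_lit 0) (nat_lit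 153509019753) (nat_lit 0) (nat_lit 153509019753) (nat_lit 228) (nat_lit 110665705870) (nat_lit 12) (nat_lit 5) (nat_lit 12) (nat_lit 3) (nat_lit 15) (nat_lit 3) (nat_lit 238) (nat_lit 238) (nat_lit 124))))))))
noncomputable def xc60 : XT := (XT.nd (nat_lit 31512) (nat_lit 0) (nat_lit 0) (XT.nd (nat_lit 1014) (nat_lit 304) (nat_lit 0) (XT.nd (nat_lit 468) (nat_lit 380) (nat_lit 0) (XT.nd (nat_lit 234) (nat_lit 152) (nat_lit 0) (XT.nd (nat_lit 78) (nat_lit 0) (nat_lit 0) (XT.lf (nat_lit 0) (nat_lit 661071203281) (nat_lit 228) (nat_lit 215189914464) (nat_lit 304) (nat_lit 21611570602) (nat_lit 12) (nat_lit 5) (nat_lit 15) (nat_lit 3) (nat_lit 16) (nat_lit 5) (nat_lit 239) (nat_lit 238) (nat_lit 123)) (XT.nd (nat_lit 78) (nat_lit 0) (nat_lit 0) (XT.lf (nat_lit 76) (nat_lit 143059810692) (nat_lit 0) (nat_lit 592645480882) (nat_lit 304) (nat_lit 230966819958) (nat_lit 13) (nat_lit 5) (nat_lit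 12) (nat_lit 5) (nat_lit 16) (nat_lit 5) (nat_lit 240) (nat_lit 238) (nat_lit 122)) (XT.lf (nat_lit 76) (nat_lit 579231397891) (nat_lit 0) (nat_lit 253551647315) (nat_lit 304) (nat_lit 211321120398) (nat_lit 13) (nat_lit 5) (nat_lit 12) (nat_lit 5) (nat_lit 16) (nat_lit 5) (nat_lit 241) (nat_lit 238) (nat_lit 121)))) (XT.nd (nat_lit 78) (nat_lit 228) (nat_lit 0) (XT.lf (nat_lit 0) (nat_lit 950070744283) (nat_lit 228) (nat_lit 57970606402) (nat_lit 76) (nat_lit 124262434942) (nat_lit 13) (nat_lit 5) (nat_lit 16) (nat_lit 5) (nat_lit 14) (nat_lit 5) (nat_lit 242) (nat_lit 238) (nat_lit 120)) (XT.nd (nat_lit 78) (nat_lit 0) (nat_lit 0) (XT.lf (nat_lit 0) (nat_lit 436777979037) (nat_lit 228) (nat_lit 678333543139) (nat_lit 304) (nat_lit 114097838053) (nat_lit 10) (nat_lit 5) (nat_lit 13) (nat_lit 5) (nat_lit 14) (nat_lit 5) (nat_lit 243) (nat_lit 238) (nat_lit 119)) (XT.lf (nat_lit 0)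 (nat_lit 1012253950149) (nat_lit 228) (nat_lit 295684740422) (nat_lit 304) (nat_lit 32257539527) (nat_lit 10) (nat_lit 5) (nat_lit 13) (nat_lit 5) (nat_lit 14) (nat_lit 5) (nat_lit 244) (nat_lit 238) (nat_lit 118))))) (XT.nd (nat_lit 234) (nat_lit 228) (nat_lit 0) (XT.nd (nat_lit 78) (nat_lit 0) (nat_lit 0) (XT.lf (nat_lit 0) (nat_lit 72149403519) (nat_lit 152) (nat_lit 1249037072611) (nat_lit 76) (nat_lit 143890783527) (nat_lit 8) (nat_lit 5) (nat_lit 10) (nat_lit 5) (nat_lit 9) (nat_lit 5) (nat_lit 245) (nat_lit 238) (nat_lit 117)) (XT.nd (nat_lit 78) (nat_lit 0) (nat_lit 0) (XT.lf (nat_lit 0) (nat_lit 220953793370) (nat_lit 152) (nat_lit 744075427539) (nat_lit 76) (nat_lit 638624967395) (nat_lit 8) (nat_lit 5) (nat_lit 10) (nat_lit 5) (nat_lit 9) (nat_lit 5) (nat_lit 246) (nat_lit 238) (nat_lit 116)) (XT.lf (nat_lit 0) (nat_lit 392078835898) (nat_lit 152) (nat_lit 163369542948)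 (nat_lit 76) (nat_lit 1207569278359) (nat_lit 8) (nat_lit 5) (nat_lit 10) (nat_lit 5) (nat_lit 9) (nat_lit 5) (nat_lit 247) (nat_lit 238) (nat_lit 115)))) (XT.nd (nat_lit 156) (nat_lit 76) (nat_lit 0) (XT.nd (nat_lit 78) (nat_lit 0) (nat_lit 0) (XT.lf (nat_lit 0) (nat_lit 553739980252) (nat_lit 152) (nat_lit 58061841237) (nat_lit 228) (nat_lit 1331044447022) (nat_lit 6) (nat_lit 5) (nat_lit 8) (nat_lit 5) (nat_lit 9) (nat_lit 5) (nat_lit 248) (nat_lit 238) (nat_lit 114)) (XT.lf (nat_lit 0) (nat_lit 894710533772) (nat_lit 228) (nat_lit 773279283680) (nat_lit 76) (nat_lit 477125262300) (nat_lit 6) (nat_lit 5) (nat_lit 9) (nat_lit 5) (nat_lit 7) (nat_lit 4) (nat_lit 249) (nat_lit 238) (nat_lit 113))) (XT.nd (nat_lit 78) (nat_lit 76) (nat_lit 0) (XT.lf (nat_lit 0) (nat_lit 1222820398398) (nat_lit 228) (nat_lit 67843083833) (nat_lit 76) (nat_lit 1086646003677) (nat_lit 6) (nat_lit 5)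 (nat_lit 9) (nat_lit 5) (nat_lit 7) (nat_lit 4) (nat_lit 250) (nat_lit 238) (nat_lit 112)) (XT.lf (nat_lit 0) (nat_lit 816059830140) (nat_lit 76) (nat_lit 817878206344) (nat_lit 152) (nat_lit 1005326322487) (nat_lit 5) (nat_lit 5) (nat_lit 6) (nat_lit 5) (nat_lit 7) (nat_lit 4) (nat_lit 251) (nat_lit 238) (nat_lit 111)))))) (XT.nd (nat_lit 468) (nat_lit 152) (nat_lit 0) (XT.nd (nat_lit 234) (nat_lit 76) (nat_lit 0) (XT.nd (nat_lit 78) (nat_lit 76) (nat_lit 0) (XT.lf (nat_lit 0) (nat_lit 1840172813855) (nat_lit 76) (nat_lit 270096846162) (nat_lit 152) (nat_lit 829710852060) (nat_lit 5) (nat_lit 5) (nat_lit 6) (nat_lit 5) (nat_lit 7) (nat_lit 4) (nat_lit 252) (nat_lit 238) (nat_lit 110)) (XT.nd (nat_lit 78) (nat_lit 76) (nat_lit 0) (XT.lf (nat_lit 0) (nat_lit 2672951716426) (nat_lit 152) (nat_lit 282802039904) (nat_lit 0) (nat_lit 327815228455) (nat_lit 5) (nat_lit 5) (nat_lit 7) (nat_lit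 4) (nat_lit 5) (nat_lit 4) (nat_lit 253) (nat_lit 238) (nat_lit 109)) (XT.lf (nat_lit 0) (nat_lit 706818586901) (nat_lit 76) (nat_lit 2655347096829) (nat_lit 76) (nat_lit 310210604333) (nat_lit 4) (nat_lit 4) (nat_lit 5) (nat_lit 5) (nat_lit 5) (nat_lit 4) (nat_lit 254) (nat_lit 238) (nat_lit 108)))) (XT.nd (nat_lit 78) (nat_lit 0) (nat_lit 0) (XT.lf (nat_lit 0) (nat_lit 47605007946) (nat_lit 152) (nat_lit 2242785729345) (nat_lit 76) (nat_lit 1826571945241) (nat_lit 3) (nat_lit 5) (nat_lit 5) (nat_lit 5) (nat_lit 4) (nat_lit 4) (nat_lit 255) (nat_lit 238) (nat_lit 107)) (XT.nd (nat_lit 78) (nat_lit 0) (nat_lit 0) (XT.lf (nat_lit 0) (nat_lit 427333302784) (nat_lit 152) (nat_lit 1426369898864) (nat_lit 76) (nat_lit 2772318044838) (nat_lit 3) (nat_lit 5) (nat_lit 5) (nat_lit 5) (nat_lit 4) (nat_lit 4) (nat_lit 256) (nat_lit 238) (nat_lit 106)) (XT.lf (nat_lit 0) (nat_lit 864020839957)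 (nat_lit 152) (nat_lit 487491696915) (nat_lit 76) (nat_lit 3859926058462) (nat_lit 3) (nat_lit 5) (nat_lit 5) (nat_lit 5) (nat_lit 4) (nat_lit 4) (nat_lit 257) (nat_lit 238) (nat_lit 105))))) (XT.nd (nat_lit 936) (nat_lit 0) (nat_lit 0) (XT.nd (nat_lit 780) (nat_lit 76) (nat_lit 0) (XT.lf (nat_lit 0) (nat_lit 650094105359) (nat_lit 76) (nat_lit 743036411278) (nat_lit 152) (nat_lit 4487500178551) (nat_lit 2) (nat_lit 5) (nat_lit 3) (nat_lit 5) (nat_lit 4) (nat_lit 4) (nat_lit 258) (nat_lit 238) (nat_lit 104)) (XT.nd (nat_lit 78) (nat_lit 0) (nat_lit 0) (XT.lf (nat_lit 0) (nat_lit 6930986851132) (nat_lit 76) (nat_lit 8203030111314) (nat_lit 76) (nat_lit 6163780964884) (nat_lit 1) (nat_lit 4) (nat_lit 2) (nat_lit 5) (nat_lit 2) (nat_lit 4) (nat_lit 268) (nat_lit 238) (nat_lit 94)) (XT.lf (nat_lit 0) (nat_lit 9449316751120) (nat_lit 76) (nat_lit 8475824520379) (nat_lit 76) (nat_lit 6436575373466)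 (nat_lit 1) (nat_lit 4) (nat_lit 2) (nat_lit 5) (nat_lit 2) (nat_lit 4) (nat_lit 269) (nat_lit 238) (nat_lit 93)))) (XT.nd (nat_lit 28938) (nat_lit 0) (nat_lit 836) (XT.nd (nat_lit 28860) (nat_lit 0) (nat_lit 836) (XT.lf (nat_lit 0) (nat_lit 12345396135452) (nat_lit 76) (nat_lit 8789538091093) (nat_lit 76) (nat_lit 6750288943759) (nat_lit 1) (nat_lit 4) (nat_lit 2) (nat_lit 5) (nat_lit 2) (nat_lit 4) (nat_lit 270) (nat_lit 238) (nat_lit 92)) (XT.lf (nat_lit 0) (nat_lit 176535408291) (nat_lit 0) (nat_lit 176535408291) (nat_lit 228) (nat_lit 127265478527) (nat_lit 12) (nat_lit 5) (nat_lit 12) (nat_lit 3) (nat_lit 15) (nat_lit 3) (nat_lit 239) (nat_lit 239) (nat_lit 122))) (XT.nd (nat_lit 78) (nat_lit 0) (nat_lit 0) (XT.lf (nat_lit 0) (nat_lit 760232004949) (nat_lit 228) (nat_lit 247468316203) (nat_lit 304) (nat_lit 24853249832) (nat_lit 12) (nat_lit 5) (nat_lit 15) (nat_lit 3) (nat_lit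 16) (nat_lit 5) (nat_lit 240) (nat_lit 239) (nat_lit 121)) (XT.lf (nat_lit 76) (nat_lit 164518863843) (nat_lit 0) (nat_lit 681542330213) (nat_lit 304) (nat_lit 265611715772) (nat_lit 13) (nat_lit 5) (nat_lit 12) (nat_lit 5) (nat_lit 16) (nat_lit 5) (nat_lit 241) (nat_lit 239) (nat_lit 120))))))) (XT.nd (nat_lit 1014) (nat_lit 304) (nat_lit 0) (XT.nd (nat_lit 468) (nat_lit 228) (nat_lit 0) (XT.nd (nat_lit 234) (nat_lit 152) (nat_lit 0) (XT.nd (nat_lit 78) (nat_lit 152) (nat_lit 0) (XT.lf (nat_lit 76) (nat_lit 666116178486) (nat_lit 0) (nat_lit 291584418063) (nat_lit 304) (nat_lit 243019177867) (nat_lit 13) (nat_lit 5) (nat_lit 12) (nat_lit 5) (nat_lit 16) (nat_lit 5) (nat_lit 242) (nat_lit 239) (nat_lit 119)) (XT.nd (nat_lit 78) (nat_lit 228) (nat_lit 0) (XT.lf (nat_lit 0) (nat_lit 1092581437301) (nat_lit 228) (nat_lit 66666120910) (nat_lit 76) (nat_lit 142901781448) (nat_lit 13)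 (nat_lit 5) (nat_lit 16) (nat_lit 5) (nat_lit 14) (nat_lit 5) (nat_lit 243) (nat_lit 239) (nat_lit 118)) (XT.lf (nat_lit 0) (nat_lit 502294748869) (nat_lit 228) (nat_lit 780083575417) (nat_lit 304) (nat_lit 131212427515) (nat_lit 10) (nat_lit 5) (nat_lit 13) (nat_lit 5) (nat_lit 14) (nat_lit 5) (nat_lit 244) (nat_lit 239) (nat_lit 117)))) (XT.nd (nat_lit 78) (nat_lit 152) (nat_lit 0) (XT.lf (nat_lit 0) (nat_lit 1164092106130) (nat_lit 228) (nat_lit 340037452187) (nat_lit 304) (nat_lit 37096095459) (nat_lit 10) (nat_lit 5) (nat_lit 13) (nat_lit 5) (nat_lit 14) (nat_lit 5) (nat_lit 245) (nat_lit 239) (nat_lit 116)) (XT.nd (nat_lit 78) (nat_lit 0) (nat_lit 0) (XT.lf (nat_lit 0) (nat_lit 82971876507) (nat_lit 152) (nat_lit 1436392555535) (nat_lit 76) (nat_lit 165474406277) (nat_lit 8) (nat_lit 5) (nat_lit 10) (nat_lit 5) (nat_lit 9) (nat_lit 5) (nat_lit 246) (nat_lit 239) (nat_lit 115))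 (XT.lf (nat_lit 0) (nat_lit 254096916689) (nat_lit 152) (nat_lit 855686673873) (nat_lit 76) (nat_lit 734418717045) (nat_lit 8) (nat_lit 5) (nat_lit 10) (nat_lit 5) (nat_lit 9) (nat_lit 5) (nat_lit 247) (nat_lit 239) (nat_lit 114))))) (XT.nd (nat_lit 234) (nat_lit 76) (nat_lit 0) (XT.nd (nat_lit 78) (nat_lit 152) (nat_lit 0) (XT.lf (nat_lit 0) (nat_lit 450890708511) (nat_lit 152) (nat_lit 187874915436) (nat_lit 76) (nat_lit 1388704674061) (nat_lit 8) (nat_lit 5) (nat_lit 10) (nat_lit 5) (nat_lit 9) (nat_lit 5) (nat_lit 248) (nat_lit 239) (nat_lit 113)) (XT.nd (nat_lit 78) (nat_lit 0) (nat_lit 0) (XT.lf (nat_lit 0) (nat_lit 636801033565) (nat_lit 152) (nat_lit 66771104547) (nat_lit 228) (nat_lit 1530701063564) (nat_lit 6) (nat_lit 5) (nat_lit 8) (nat_lit 5) (nat_lit 9) (nat_lit 5) (nat_lit 249) (nat_lit 239) (nat_lit 112)) (XT.lf (nat_lit 0) (nat_lit 1028917152039) (nat_lit 228) (nat_lit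 889271121576) (nat_lit 76) (nat_lit 548694061845) (nat_lit 6) (nat_lit 5) (nat_lit 9) (nat_lit 5) (nat_lit 7) (nat_lit 4) (nat_lit 250) (nat_lit 239) (nat_lit 111)))) (XT.nd (nat_lit 156) (nat_lit 0) (nat_lit 0) (XT.nd (nat_lit 78) (nat_lit 76) (nat_lit 0) (XT.lf (nat_lit 0) (nat_lit 1406243491377) (nat_lit 228) (nat_lit 78019498881) (nat_lit 76) (nat_lit 1249642913098) (nat_lit 6) (nat_lit 5) (nat_lit 9) (nat_lit 5) (nat_lit 7) (nat_lit 4) (nat_lit 251) (nat_lit 239) (nat_lit 110)) (XT.lf (nat_lit 0) (nat_lit 938468850028) (nat_lit 76) (nat_lit 940559922694) (nat_lit 152) (nat_lit 1156125235085) (nat_lit 5) (nat_lit 5) (nat_lit 6) (nat_lit 5) (nat_lit 7) (nat_lit 4) (nat_lit 252) (nat_lit 239) (nat_lit 109))) (XT.nd (nat_lit 78) (nat_lit 0) (nat_lit 0) (XT.lf (nat_lit 0) (nat_lit 2116198775383) (nat_lit 76) (nat_lit 310611360389) (nat_lit 152) (nat_lit 954167448760) (nat_lit 5)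 (nat_lit 5) (nat_lit 6) (nat_lit 5) (nat_lit 7) (nat_lit 4) (nat_lit 253) (nat_lit 239) (nat_lit 108)) (XT.lf (nat_lit 0) (nat_lit 3073894497609) (nat_lit 152) (nat_lit 325222308253) (nat_lit 0) (nat_lit 376987522781) (nat_lit 5) (nat_lit 5) (nat_lit 7) (nat_lit 4) (nat_lit 5) (nat_lit 4) (nat_lit 254) (nat_lit 239) (nat_lit 107)))))) (XT.nd (nat_lit 1170) (nat_lit 0) (nat_lit 0) (XT.nd (nat_lit 234) (nat_lit 152) (nat_lit 0) (XT.nd (nat_lit 78) (nat_lit 76) (nat_lit 0) (XT.lf (nat_lit 0) (nat_lit 812841410861) (nat_lit 76) (nat_lit 3053649147542) (nat_lit 76) (nat_lit 356742169293) (nat_lit 4) (nat_lit 4) (nat_lit 5) (nat_lit 5) (nat_lit 5) (nat_lit 4) (nat_lit 255) (nat_lit 239) (nat_lit 106)) (XT.nd (nat_lit 78) (nat_lit 0) (nat_lit 0) (XT.lf (nat_lit 0) (nat_lit 54745779489) (nat_lit 152) (nat_lit 2579203555322) (nat_lit 76) (nat_lit 2100557746851) (nat_lit 3) (nat_lit 5) (nat_lit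 5) (nat_lit 5) (nat_lit 4) (nat_lit 4) (nat_lit 256) (nat_lit 239) (nat_lit 105)) (XT.lf (nat_lit 0) (nat_lit 491433315898) (nat_lit 152) (nat_lit 1640325354629) (nat_lit 76) (nat_lit 3188165760106) (nat_lit 3) (nat_lit 5) (nat_lit 5) (nat_lit 5) (nat_lit 4) (nat_lit 4) (nat_lit 257) (nat_lit 239) (nat_lit 104)))) (XT.nd (nat_lit 780) (nat_lit 0) (nat_lit 0) (XT.nd (nat_lit 702) (nat_lit 152) (nat_lit 0) (XT.lf (nat_lit 0) (nat_lit 993623981339) (nat_lit 152) (nat_lit 560615426179) (nat_lit 76) (nat_lit 4438914974660) (nat_lit 3) (nat_lit 5) (nat_lit 5) (nat_lit 5) (nat_lit 4) (nat_lit 4) (nat_lit 258) (nat_lit 239) (nat_lit 103)) (XT.lf (nat_lit 0) (nat_lit 3262452898923) (nat_lit 76) (nat_lit 8923477686213) (nat_lit 76) (nat_lit 6578341167263) (nat_lit 1) (nat_lit 4) (nat_lit 2) (nat_lit 5) (nat_lit 2) (nat_lit 4) (nat_lit 267) (nat_lit 239) (nat_lit 94))) (XT.nd (nat_lit 78) (nat_lit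 0) (nat_lit 0) (XT.lf (nat_lit 0) (nat_lit 5452304986175) (nat_lit 76) (nat_lit 9160690215701) (nat_lit 76) (nat_lit 6815553696267) (nat_lit 1) (nat_lit 4) (nat_lit 2) (nat_lit 5) (nat_lit 2) (nat_lit 4) (nat_lit 268) (nat_lit 239) (nat_lit 93)) (XT.lf (nat_lit 0) (nat_lit 7970634885859) (nat_lit 76) (nat_lit 9433484624900) (nat_lit 76) (nat_lit 7088348105046) (nat_lit 1) (nat_lit 4) (nat_lit 2) (nat_lit 5) (nat_lit 2) (nat_lit 4) (nat_lit 269) (nat_lit 239) (nat_lit 92))))) (XT.nd (nat_lit 29094) (nat_lit 0) (nat_lit 684) (XT.nd (nat_lit 28938) (nat_lit 0) (nat_lit 836) (XT.lf (nat_lit 0) (nat_lit 10866714269925) (nat_lit 76) (nat_lit 9747198195731) (nat_lit 76) (nat_lit 7402061675511) (nat_lit 1) (nat_lit 4) (nat_lit 2) (nat_lit 5) (nat_lit 2) (nat_lit 4) (nat_lit 270) (nat_lit 239) (nat_lit 91)) (XT.nd (nat_lit 78) (nat_lit 0) (nat_lit 0) (XT.lf (nat_lit 0) (nat_lit 203015746434)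 (nat_lit 0) (nat_lit 203015746434) (nat_lit 228) (nat_lit 146355237377) (nat_lit 12) (nat_lit 5) (nat_lit 12) (nat_lit 3) (nat_lit 15) (nat_lit 3) (nat_lit 240) (nat_lit 240) (nat_lit 120)) (XT.lf (nat_lit 0) (nat_lit 874266897317) (nat_lit 228) (nat_lit 284588499036) (nat_lit 304) (nat_lit 28581194690) (nat_lit 12) (nat_lit 5) (nat_lit 15) (nat_lit 3) (nat_lit 16) (nat_lit 5) (nat_lit 241) (nat_lit 240) (nat_lit 119)))) (XT.nd (nat_lit 156) (nat_lit 152) (nat_lit 0) (XT.nd (nat_lit 78) (nat_lit 0) (nat_lit 0) (XT.lf (nat_lit 76) (nat_lit 189196755082) (nat_lit 0) (nat_lit 783773700311) (nat_lit 304) (nat_lit 305453376971) (nat_lit 13) (nat_lit 5) (nat_lit 12) (nat_lit 5) (nat_lit 16) (nat_lit 5) (nat_lit 242) (nat_lit 240) (nat_lit 118)) (XT.lf (nat_lit 76) (nat_lit 766033658878) (nat_lit 0) (nat_lit 335322098657) (nat_lit 304) (nat_lit 279471970924) (nat_lit 13) (nat_lit 5) (nat_lit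 12) (nat_lit 5) (nat_lit 16) (nat_lit 5) (nat_lit 243) (nat_lit 240) (nat_lit 117))) (XT.nd (nat_lit 78) (nat_lit 228) (nat_lit 0) (XT.lf (nat_lit 0) (nat_lit 1256468714428) (nat_lit 228) (nat_lit 76665981238) (nat_lit 76) (nat_lit 164337034499) (nat_lit 13) (nat_lit 5) (nat_lit 16) (nat_lit 5) (nat_lit 14) (nat_lit 5) (nat_lit 244) (nat_lit 240) (nat_lit 116)) (XT.lf (nat_lit 0) (nat_lit 577639016380) (nat_lit 228) (nat_lit 897096112340) (nat_lit 304) (nat_lit 150894226428) (nat_lit 10) (nat_lit 5) (nat_lit 13) (nat_lit 5) (nat_lit 14) (nat_lit 5) (nat_lit 245) (nat_lit 240) (nat_lit 115))))))))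
noncomputable def xc61 : XT := (XT.nd (nat_lit 31746) (nat_lit 0) (nat_lit 0) (XT.nd (nat_lit 1716) (nat_lit 0) (nat_lit 0) (XT.nd (nat_lit 468) (nat_lit 380) (nat_lit 0) (XT.nd (nat_lit 234) (nat_lit 152) (nat_lit 0) (XT.nd (nat_lit 78) (nat_lit 152) (nat_lit 0) (XT.lf (nat_lit 0) (nat_lit 1338705970033) (nat_lit 228) (nat_lit 391043070546) (nat_lit 304) (nat_lit 42660453070) (nat_lit 10) (nat_lit 5) (nat_lit 13) (nat_lit 5) (nat_lit 14) (nat_lit 5) (nat_lit 246) (nat_lit 240) (nat_lit 114)) (XT.nd (nat_lit 78) (nat_lit 0) (nat_lit 0) (XT.lf (nat_lit 0) (nat_lit 95417705211) (nat_lit 152) (nat_lit 1651851379911) (nat_lit 76) (nat_lit 190295571166) (nat_lit 8) (nat_lit 5) (nat_lit 10) (nat_lit 5) (nat_lit 9) (nat_lit 5) (nat_lit 247) (nat_lit 240) (nat_lit 113)) (XT.lf (nat_lit 0) (nat_lit 292211495260) (nat_lit 152) (nat_lit 984039623689) (nat_lit 76) (nat_lit 844581528034) (nat_lit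 8) (nat_lit 5) (nat_lit 10) (nat_lit 5) (nat_lit 9) (nat_lit 5) (nat_lit 248) (nat_lit 240) (nat_lit 112)))) (XT.nd (nat_lit 78) (nat_lit 152) (nat_lit 0) (XT.lf (nat_lit 0) (nat_lit 518524350500) (nat_lit 152) (nat_lit 216056108173) (nat_lit 76) (nat_lit 1597010378155) (nat_lit 8) (nat_lit 5) (nat_lit 10) (nat_lit 5) (nat_lit 9) (nat_lit 5) (nat_lit 249) (nat_lit 240) (nat_lit 111)) (XT.nd (nat_lit 78) (nat_lit 0) (nat_lit 0) (XT.lf (nat_lit 0) (nat_lit 732321231151) (nat_lit 152) (nat_lit 76786760493) (nat_lit 228) (nat_lit 1760306184905) (nat_lit 6) (nat_lit 5) (nat_lit 8) (nat_lit 5) (nat_lit 9) (nat_lit 5) (nat_lit 250) (nat_lit 240) (nat_lit 110)) (XT.lf (nat_lit 0) (nat_lit 1183254753731) (nat_lit 228) (nat_lit 1022661748485) (nat_lit 76) (nat_lit 630998178834) (nat_lit 6) (nat_lit 5) (nat_lit 9) (nat_lit 5) (nat_lit 7) (nat_lit 4) (nat_lit 251) (nat_lit 240) (nat_lit 109)))))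 (XT.nd (nat_lit 234) (nat_lit 304) (nat_lit 0) (XT.nd (nat_lit 78) (nat_lit 76) (nat_lit 0) (XT.lf (nat_lit 0) (nat_lit 1617180040201) (nat_lit 228) (nat_lit 89722387776) (nat_lit 76) (nat_lit 1437089356770) (nat_lit 6) (nat_lit 5) (nat_lit 9) (nat_lit 5) (nat_lit 7) (nat_lit 4) (nat_lit 252) (nat_lit 240) (nat_lit 108)) (XT.nd (nat_lit 78) (nat_lit 0) (nat_lit 0) (XT.lf (nat_lit 0) (nat_lit 1079239211836) (nat_lit 76) (nat_lit 1081643900056) (nat_lit 152) (nat_lit 1329543993296) (nat_lit 5) (nat_lit 5) (nat_lit 6) (nat_lit 5) (nat_lit 7) (nat_lit 4) (nat_lit 253) (nat_lit 240) (nat_lit 107)) (XT.lf (nat_lit 0) (nat_lit 2433628621520) (nat_lit 76) (nat_lit 357203054846) (nat_lit 152) (nat_lit 1097292542551) (nat_lit 5) (nat_lit 5) (nat_lit 6) (nat_lit 5) (nat_lit 7) (nat_lit 4) (nat_lit 254) (nat_lit 240) (nat_lit 106)))) (XT.nd (nat_lit 156) (nat_lit 228) (nat_lit 0) (XT.nd (nat_lit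 78) (nat_lit 76) (nat_lit 0) (XT.lf (nat_lit 0) (nat_lit 3534978690186) (nat_lit 152) (nat_lit 374005626034) (nat_lit 0) (nat_lit 433535658804) (nat_lit 5) (nat_lit 5) (nat_lit 7) (nat_lit 4) (nat_lit 5) (nat_lit 4) (nat_lit 255) (nat_lit 240) (nat_lit 105)) (XT.lf (nat_lit 0) (nat_lit 934767649655) (nat_lit 76) (nat_lit 3511696509229) (nat_lit 76) (nat_lit 410253475260) (nat_lit 4) (nat_lit 4) (nat_lit 5) (nat_lit 5) (nat_lit 5) (nat_lit 4) (nat_lit 256) (nat_lit 240) (nat_lit 104))) (XT.nd (nat_lit 780) (nat_lit 152) (nat_lit 0) (XT.lf (nat_lit 0) (nat_lit 62957661800) (nat_lit 152) (nat_lit 2966084063346) (nat_lit 76) (nat_lit 2415641416307) (nat_lit 3) (nat_lit 5) (nat_lit 5) (nat_lit 5) (nat_lit 4) (nat_lit 4) (nat_lit 257) (nat_lit 240) (nat_lit 103)) (XT.lf (nat_lit 0) (nat_lit 1561968753872) (nat_lit 76) (nat_lit 10024786806413) (nat_lit 76) (nat_lit 7327879808581) (nat_lit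 1) (nat_lit 4) (nat_lit 2) (nat_lit 5) (nat_lit 2) (nat_lit 4) (nat_lit 267) (nat_lit 240) (nat_lit 93)))))) (XT.nd (nat_lit 29484) (nat_lit 0) (nat_lit 380) (XT.nd (nat_lit 29172) (nat_lit 0) (nat_lit 836) (XT.nd (nat_lit 78) (nat_lit 0) (nat_lit 0) (XT.lf (nat_lit 0) (nat_lit 3751820840819) (nat_lit 76) (nat_lit 10261999336035) (nat_lit 76) (nat_lit 7565092337782) (nat_lit 1) (nat_lit 4) (nat_lit 2) (nat_lit 5) (nat_lit 2) (nat_lit 4) (nat_lit 268) (nat_lit 240) (nat_lit 92)) (XT.nd (nat_lit 78) (nat_lit 0) (nat_lit 0) (XT.lf (nat_lit 0) (nat_lit 6270150740238) (nat_lit 76) (nat_lit 10534793745351) (nat_lit 76) (nat_lit 7837886746733) (nat_lit 1) (nat_lit 4) (nat_lit 2) (nat_lit 5) (nat_lit 2) (nat_lit 4) (nat_lit 269) (nat_lit 240) (nat_lit 91)) (XT.lf (nat_lit 0) (nat_lit 9166230124074) (nat_lit 76) (nat_lit 10848507316283) (nat_lit 76) (nat_lit 8151600317347) (nat_lit 1) (nat_lit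 4) (nat_lit 2) (nat_lit 5) (nat_lit 2) (nat_lit 4) (nat_lit 270) (nat_lit 240) (nat_lit 90)))) (XT.nd (nat_lit 156) (nat_lit 0) (nat_lit 0) (XT.nd (nat_lit 78) (nat_lit 0) (nat_lit 0) (XT.lf (nat_lit 0) (nat_lit 233468128739) (nat_lit 0) (nat_lit 233468128739) (nat_lit 228) (nat_lit 168308475400) (nat_lit 12) (nat_lit 5) (nat_lit 12) (nat_lit 3) (nat_lit 15) (nat_lit 3) (nat_lit 241) (nat_lit 241) (nat_lit 118)) (XT.lf (nat_lit 0) (nat_lit 1005407001196) (nat_lit 228) (nat_lit 327276725046) (nat_lit 304) (nat_lit 32868341670) (nat_lit 12) (nat_lit 5) (nat_lit 15) (nat_lit 3) (nat_lit 16) (nat_lit 5) (nat_lit 242) (nat_lit 241) (nat_lit 117))) (XT.nd (nat_lit 78) (nat_lit 0) (nat_lit 0) (XT.lf (nat_lit 76) (nat_lit 217576314969) (nat_lit 0) (nat_lit 901339770908) (nat_lit 304) (nat_lit 351271310801) (nat_lit 13) (nat_lit 5) (nat_lit 12) (nat_lit 5) (nat_lit 16) (nat_lit 5) (nat_lit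 243) (nat_lit 241) (nat_lit 116)) (XT.lf (nat_lit 76) (nat_lit 880938748253) (nat_lit 0) (nat_lit 385620426978) (nat_lit 304) (nat_lit 321392703332) (nat_lit 13) (nat_lit 5) (nat_lit 12) (nat_lit 5) (nat_lit 16) (nat_lit 5) (nat_lit 244) (nat_lit 241) (nat_lit 115))))) (XT.nd (nat_lit 234) (nat_lit 304) (nat_lit 0) (XT.nd (nat_lit 78) (nat_lit 228) (nat_lit 0) (XT.lf (nat_lit 0) (nat_lit 1444939068120) (nat_lit 228) (nat_lit 88165834713) (nat_lit 76) (nat_lit 188987578962) (nat_lit 13) (nat_lit 5) (nat_lit 16) (nat_lit 5) (nat_lit 14) (nat_lit 5) (nat_lit 245) (nat_lit 241) (nat_lit 114)) (XT.nd (nat_lit 78) (nat_lit 0) (nat_lit 0) (XT.lf (nat_lit 0) (nat_lit 664284910562) (nat_lit 228) (nat_lit 1031660529652) (nat_lit 304) (nat_lit 173528311080) (nat_lit 10) (nat_lit 5) (nat_lit 13) (nat_lit 5) (nat_lit 14) (nat_lit 5) (nat_lit 246) (nat_lit 241) (nat_lit 113)) (XT.lf (nat_lit 0)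 (nat_lit 1539511901820) (nat_lit 228) (nat_lit 449699531529) (nat_lit 304) (nat_lit 49059478151) (nat_lit 10) (nat_lit 5) (nat_lit 13) (nat_lit 5) (nat_lit 14) (nat_lit 5) (nat_lit 247) (nat_lit 241) (nat_lit 112)))) (XT.nd (nat_lit 156) (nat_lit 152) (nat_lit 0) (XT.nd (nat_lit 78) (nat_lit 0) (nat_lit 0) (XT.lf (nat_lit 0) (nat_lit 109730396705) (nat_lit 152) (nat_lit 1899629042320) (nat_lit 76) (nat_lit 218839909826) (nat_lit 8) (nat_lit 5) (nat_lit 10) (nat_lit 5) (nat_lit 9) (nat_lit 5) (nat_lit 248) (nat_lit 241) (nat_lit 111)) (XT.lf (nat_lit 0) (nat_lit 336043250603) (nat_lit 152) (nat_lit 1131645528479) (nat_lit 76) (nat_lit 971268759835) (nat_lit 8) (nat_lit 5) (nat_lit 10) (nat_lit 5) (nat_lit 9) (nat_lit 5) (nat_lit 249) (nat_lit 241) (nat_lit 110))) (XT.nd (nat_lit 78) (nat_lit 152) (nat_lit 0) (XT.lf (nat_lit 0) (nat_lit 596303030078) (nat_lit 152) (nat_lit 248464490692)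 (nat_lit 76) (nat_lit 1836561937136) (nat_lit 8) (nat_lit 5) (nat_lit 10) (nat_lit 5) (nat_lit 9) (nat_lit 5) (nat_lit 250) (nat_lit 241) (nat_lit 109)) (XT.lf (nat_lit 0) (nat_lit 842169447999) (nat_lit 152) (nat_lit 88304767205) (nat_lit 228) (nat_lit 2024352083761) (nat_lit 6) (nat_lit 5) (nat_lit 8) (nat_lit 5) (nat_lit 9) (nat_lit 5) (nat_lit 251) (nat_lit 241) (nat_lit 108))))))) (XT.nd (nat_lit 30576) (nat_lit 0) (nat_lit 304) (XT.nd (nat_lit 468) (nat_lit 228) (nat_lit 0) (XT.nd (nat_lit 234) (nat_lit 76) (nat_lit 0) (XT.nd (nat_lit 78) (nat_lit 76) (nat_lit 0) (XT.lf (nat_lit 0) (nat_lit 1360742988632) (nat_lit 228) (nat_lit 1176060979508) (nat_lit 76) (nat_lit 725647911491) (nat_lit 6) (nat_lit 5) (nat_lit 9) (nat_lit 5) (nat_lit 7) (nat_lit 4) (nat_lit 252) (nat_lit 241) (nat_lit 107)) (XT.nd (nat_lit 78) (nat_lit 76) (nat_lit 0) (XT.lf (nat_lit 0) (nat_lit 1859757065224)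 (nat_lit 228) (nat_lit 103180718768) (nat_lit 76) (nat_lit 1652652765356) (nat_lit 6) (nat_lit 5) (nat_lit 9) (nat_lit 5) (nat_lit 7) (nat_lit 4) (nat_lit 253) (nat_lit 241) (nat_lit 106)) (XT.lf (nat_lit 0) (nat_lit 1241125119550) (nat_lit 76) (nat_lit 1243890476716) (nat_lit 152) (nat_lit 1528975571836) (nat_lit 5) (nat_lit 5) (nat_lit 6) (nat_lit 5) (nat_lit 7) (nat_lit 4) (nat_lit 254) (nat_lit 241) (nat_lit 105)))) (XT.nd (nat_lit 78) (nat_lit 76) (nat_lit 0) (XT.lf (nat_lit 0) (nat_lit 2798672937303) (nat_lit 76) (nat_lit 410783505813) (nat_lit 152) (nat_lit 1261886406147) (nat_lit 5) (nat_lit 5) (nat_lit 6) (nat_lit 5) (nat_lit 7) (nat_lit 4) (nat_lit 255) (nat_lit 241) (nat_lit 104)) (XT.nd (nat_lit 78) (nat_lit 76) (nat_lit 0) (XT.lf (nat_lit 0) (nat_lit 4065225507276) (nat_lit 152) (nat_lit 430106448420) (nat_lit 0) (nat_lit 498566013376) (nat_lit 5) (nat_lit 5) (nat_lit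 7) (nat_lit 4) (nat_lit 5) (nat_lit 4) (nat_lit 256) (nat_lit 241) (nat_lit 103)) (XT.lf (nat_lit 0) (nat_lit 1074982817643) (nat_lit 76) (nat_lit 4038450977717) (nat_lit 76) (nat_lit 471791481861) (nat_lit 4) (nat_lit 4) (nat_lit 5) (nat_lit 5) (nat_lit 5) (nat_lit 4) (nat_lit 257) (nat_lit 241) (nat_lit 102))))) (XT.nd (nat_lit 702) (nat_lit 152) (nat_lit 0) (XT.nd (nat_lit 78) (nat_lit 0) (nat_lit 0) (XT.lf (nat_lit 0) (nat_lit 72401322706) (nat_lit 152) (nat_lit 3410996653737) (nat_lit 76) (nat_lit 2777987634370) (nat_lit 3) (nat_lit 5) (nat_lit 5) (nat_lit 5) (nat_lit 4) (nat_lit 4) (nat_lit 258) (nat_lit 241) (nat_lit 101)) (XT.nd (nat_lit 78) (nat_lit 0) (nat_lit 0) (XT.lf (nat_lit 0) (nat_lit 649920585781) (nat_lit 152) (nat_lit 2169330239604) (nat_lit 76) (nat_lit 4216349230054) (nat_lit 3) (nat_lit 5) (nat_lit 5) (nat_lit 5) (nat_lit 4) (nat_lit 4) (nat_lit 259) (nat_lit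 241) (nat_lit 100)) (XT.lf (nat_lit 0) (nat_lit 1314067737501) (nat_lit 152) (nat_lit 741413864693) (nat_lit 76) (nat_lit 5870465064695) (nat_lit 3) (nat_lit 5) (nat_lit 5) (nat_lit 5) (nat_lit 4) (nat_lit 4) (nat_lit 260) (nat_lit 241) (nat_lit 99)))) (XT.nd (nat_lit 156) (nat_lit 0) (nat_lit 0) (XT.nd (nat_lit 78) (nat_lit 76) (nat_lit 0) (XT.lf (nat_lit 0) (nat_lit 10914001921654) (nat_lit 152) (nat_lit 358548086915) (nat_lit 0) (nat_lit 7812558873243) (nat_lit 2) (nat_lit 5) (nat_lit 4) (nat_lit 4) (nat_lit 2) (nat_lit 4) (nat_lit 267) (nat_lit 241) (nat_lit 92)) (XT.lf (nat_lit 0) (nat_lit 1796264073090) (nat_lit 76) (nat_lit 11528504824670) (nat_lit 76) (nat_lit 8427061775894) (nat_lit 1) (nat_lit 4) (nat_lit 2) (nat_lit 5) (nat_lit 2) (nat_lit 4) (nat_lit 268) (nat_lit 241) (nat_lit 91))) (XT.nd (nat_lit 29172) (nat_lit 0) (nat_lit 836) (XT.lf (nat_lit 0) (nat_lit 4314593972278)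 (nat_lit 76) (nat_lit 11801299234088) (nat_lit 76) (nat_lit 8699856184994) (nat_lit 1) (nat_lit 4) (nat_lit 2) (nat_lit 5) (nat_lit 2) (nat_lit 4) (nat_lit 269) (nat_lit 241) (nat_lit 90)) (XT.lf (nat_lit 0) (nat_lit 268488363429) (nat_lit 0) (nat_lit 268488363429) (nat_lit 228) (nat_lit 193554710730) (nat_lit 12) (nat_lit 5) (nat_lit 12) (nat_lit 3) (nat_lit 15) (nat_lit 3) (nat_lit 242) (nat_lit 242) (nat_lit 116)))))) (XT.nd (nat_lit 546) (nat_lit 228) (nat_lit 0) (XT.nd (nat_lit 234) (nat_lit 304) (nat_lit 0) (XT.nd (nat_lit 78) (nat_lit 0) (nat_lit 0) (XT.lf (nat_lit 0) (nat_lit 1156218103763) (nat_lit 228) (nat_lit 376368196869) (nat_lit 304) (nat_lit 37798568554) (nat_lit 12) (nat_lit 5) (nat_lit 15) (nat_lit 3) (nat_lit 16) (nat_lit 5) (nat_lit 243) (nat_lit 242) (nat_lit 115)) (XT.nd (nat_lit 78) (nat_lit 0) (nat_lit 0) (XT.lf (nat_lit 76) (nat_lit 250212797470) (nat_lit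 0) (nat_lit 1036540748303) (nat_lit 304) (nat_lit 403961952438) (nat_lit 13) (nat_lit 5) (nat_lit 12) (nat_lit 5) (nat_lit 16) (nat_lit 5) (nat_lit 244) (nat_lit 242) (nat_lit 114)) (XT.lf (nat_lit 76) (nat_lit 1013079591148) (nat_lit 0) (nat_lit 443463501249) (nat_lit 304) (nat_lit 369601561020) (nat_lit 13) (nat_lit 5) (nat_lit 12) (nat_lit 5) (nat_lit 16) (nat_lit 5) (nat_lit 245) (nat_lit 242) (nat_lit 113)))) (XT.nd (nat_lit 156) (nat_lit 152) (nat_lit 0) (XT.nd (nat_lit 78) (nat_lit 228) (nat_lit 0) (XT.lf (nat_lit 0) (nat_lit 1661679963519) (nat_lit 228) (nat_lit 101390676867) (nat_lit 76) (nat_lit 217335707707) (nat_lit 13) (nat_lit 5) (nat_lit 16) (nat_lit 5) (nat_lit 14) (nat_lit 5) (nat_lit 246) (nat_lit 242) (nat_lit 112)) (XT.lf (nat_lit 0) (nat_lit 763927678696) (nat_lit 228) (nat_lit 1186409609449) (nat_lit 304) (nat_lit 199557520456) (nat_lit 10) (nat_lit 5) (nat_lit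 13) (nat_lit 5) (nat_lit 14) (nat_lit 5) (nat_lit 247) (nat_lit 242) (nat_lit 111))) (XT.nd (nat_lit 78) (nat_lit 152) (nat_lit 0) (XT.lf (nat_lit 0) (nat_lit 1770438714528) (nat_lit 228) (nat_lit 517154461562) (nat_lit 304) (nat_lit 56418367450) (nat_lit 10) (nat_lit 5) (nat_lit 13) (nat_lit 5) (nat_lit 14) (nat_lit 5) (nat_lit 248) (nat_lit 242) (nat_lit 110)) (XT.lf (nat_lit 0) (nat_lit 126189983214) (nat_lit 152) (nat_lit 2184573364961) (nat_lit 76) (nat_lit 251665898557) (nat_lit 8) (nat_lit 5) (nat_lit 10) (nat_lit 5) (nat_lit 9) (nat_lit 5) (nat_lit 249) (nat_lit 242) (nat_lit 109))))) (XT.nd (nat_lit 234) (nat_lit 76) (nat_lit 0) (XT.nd (nat_lit 78) (nat_lit 152) (nat_lit 0) (XT.lf (nat_lit 0) (nat_lit 386449761675) (nat_lit 152) (nat_lit 1301392328440) (nat_lit 76) (nat_lit 1116959075773) (nat_lit 8) (nat_lit 5) (nat_lit 10) (nat_lit 5) (nat_lit 9) (nat_lit 5) (nat_lit 250)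 (nat_lit 242) (nat_lit 108)) (XT.nd (nat_lit 78) (nat_lit 152) (nat_lit 0) (XT.lf (nat_lit 0) (nat_lit 685748505008) (nat_lit 152) (nat_lit 285734138808) (nat_lit 76) (nat_lit 2112046229413) (nat_lit 8) (nat_lit 5) (nat_lit 10) (nat_lit 5) (nat_lit 9) (nat_lit 5) (nat_lit 251) (nat_lit 242) (nat_lit 107)) (XT.lf (nat_lit 0) (nat_lit 968494889528) (nat_lit 152) (nat_lit 101550476719) (nat_lit 228) (nat_lit 2328004874487) (nat_lit 6) (nat_lit 5) (nat_lit 8) (nat_lit 5) (nat_lit 9) (nat_lit 5) (nat_lit 252) (nat_lit 242) (nat_lit 106)))) (XT.nd (nat_lit 156) (nat_lit 76) (nat_lit 0) (XT.nd (nat_lit 78) (nat_lit 0) (nat_lit 0) (XT.lf (nat_lit 0) (nat_lit 1564854453443) (nat_lit 228) (nat_lit 1352470102805) (nat_lit 76) (nat_lit 834495102625) (nat_lit 6) (nat_lit 5) (nat_lit 9) (nat_lit 5) (nat_lit 7) (nat_lit 4) (nat_lit 253) (nat_lit 242) (nat_lit 105)) (XT.lf (nat_lit 0) (nat_lit 2138720639370)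 (nat_lit 228) (nat_lit 118657806037) (nat_lit 76) (nat_lit 1900550683994) (nat_lit 6) (nat_lit 5) (nat_lit 9) (nat_lit 5) (nat_lit 7) (nat_lit 4) (nat_lit 254) (nat_lit 242) (nat_lit 104))) (XT.nd (nat_lit 78) (nat_lit 0) (nat_lit 0) (XT.lf (nat_lit 0) (nat_lit 1427293907096) (nat_lit 76) (nat_lit 1430474041910) (nat_lit 152) (nat_lit 1758321892144) (nat_lit 5) (nat_lit 5) (nat_lit 6) (nat_lit 5) (nat_lit 7) (nat_lit 4) (nat_lit 255) (nat_lit 242) (nat_lit 103)) (XT.lf (nat_lit 0) (nat_lit 3218473894953) (nat_lit 76) (nat_lit 472401026196) (nat_lit 152) (nat_lit 1451169353620) (nat_lit 5) (nat_lit 5) (nat_lit 6) (nat_lit 5) (nat_lit 7) (nat_lit 4) (nat_lit 256) (nat_lit 242) (nat_lit 102))))))))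
noncomputable def xc62 : XT := (XT.nd (nat_lit 61854) (nat_lit 0) (nat_lit 0) (XT.nd (nat_lit 30888) (nat_lit 0) (nat_lit 0) (XT.nd (nat_lit 30342) (nat_lit 0) (nat_lit 380) (XT.nd (nat_lit 234) (nat_lit 0) (nat_lit 0) (XT.nd (nat_lit 78) (nat_lit 152) (nat_lit 0) (XT.lf (nat_lit 0) (nat_lit 4675009343622) (nat_lit 152) (nat_lit 494622399412) (nat_lit 0) (nat_lit 573350919731) (nat_lit 5) (nat_lit 5) (nat_lit 7) (nat_lit 4) (nat_lit 5) (nat_lit 4) (nat_lit 257) (nat_lit 242) (nat_lit 101)) (XT.nd (nat_lit 78) (nat_lit 76) (nat_lit 0) (XT.lf (nat_lit 0) (nat_lit 1236230255821) (nat_lit 76) (nat_lit 4644218618403) (nat_lit 76) (nat_lit 542560193033) (nat_lit 4) (nat_lit 4) (nat_lit 5) (nat_lit 5) (nat_lit 5) (nat_lit 4) (nat_lit 258) (nat_lit 242) (nat_lit 100)) (XT.lf (nat_lit 0) (nat_lit 83261529911) (nat_lit 152) (nat_lit 3922646137347) (nat_lit 76) (nat_lit 3194685783773) (nat_lit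 3) (nat_lit 5) (nat_lit 5) (nat_lit 5) (nat_lit 4) (nat_lit 4) (nat_lit 259) (nat_lit 242) (nat_lit 99)))) (XT.nd (nat_lit 29952) (nat_lit 0) (nat_lit 684) (XT.lf (nat_lit 0) (nat_lit 747408681300) (nat_lit 152) (nat_lit 2494729762979) (nat_lit 76) (nat_lit 4848801618255) (nat_lit 3) (nat_lit 5) (nat_lit 5) (nat_lit 5) (nat_lit 4) (nat_lit 4) (nat_lit 260) (nat_lit 242) (nat_lit 98)) (XT.nd (nat_lit 78) (nat_lit 0) (nat_lit 0) (XT.lf (nat_lit 0) (nat_lit 308761629573) (nat_lit 0) (nat_lit 308761629573) (nat_lit 228) (nat_lit 222587890134) (nat_lit 12) (nat_lit 5) (nat_lit 12) (nat_lit 3) (nat_lit 15) (nat_lit 3) (nat_lit 243) (nat_lit 243) (nat_lit 114)) (XT.lf (nat_lit 0) (nat_lit 1329650858940) (nat_lit 228) (nat_lit 432823398472) (nat_lit 304) (nat_lit 43468335413) (nat_lit 12) (nat_lit 5) (nat_lit 15) (nat_lit 3) (nat_lit 16) (nat_lit 5) (nat_lit 244) (nat_lit 243) (nat_lit 113)))))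 (XT.nd (nat_lit 234) (nat_lit 304) (nat_lit 0) (XT.nd (nat_lit 78) (nat_lit 0) (nat_lit 0) (XT.lf (nat_lit 76) (nat_lit 287744743748) (nat_lit 0) (nat_lit 1192021869440) (nat_lit 304) (nat_lit 464556203729) (nat_lit 13) (nat_lit 5) (nat_lit 12) (nat_lit 5) (nat_lit 16) (nat_lit 5) (nat_lit 245) (nat_lit 243) (nat_lit 112)) (XT.nd (nat_lit 78) (nat_lit 0) (nat_lit 76) (XT.lf (nat_lit 76) (nat_lit 1165041553001) (nat_lit 0) (nat_lit 509983034168) (nat_lit 304) (nat_lit 425041759021) (nat_lit 13) (nat_lit 5) (nat_lit 12) (nat_lit 5) (nat_lit 16) (nat_lit 5) (nat_lit 246) (nat_lit 243) (nat_lit 111)) (XT.lf (nat_lit 0) (nat_lit 1910931984649) (nat_lit 228) (nat_lit 116599253405) (nat_lit 76) (nat_lit 249936057739) (nat_lit 13) (nat_lit 5) (nat_lit 16) (nat_lit 5) (nat_lit 14) (nat_lit 5) (nat_lit 247) (nat_lit 243) (nat_lit 110)))) (XT.nd (nat_lit 156) (nat_lit 152) (nat_lit 0) (XT.nd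 (nat_lit 78) (nat_lit 0) (nat_lit 0) (XT.lf (nat_lit 0) (nat_lit 878516854357) (nat_lit 228) (nat_lit 1364371051130) (nat_lit 304) (nat_lit 229491120330) (nat_lit 10) (nat_lit 5) (nat_lit 13) (nat_lit 5) (nat_lit 14) (nat_lit 5) (nat_lit 248) (nat_lit 243) (nat_lit 109)) (XT.lf (nat_lit 0) (nat_lit 2036004542452) (nat_lit 228) (nat_lit 594727631026) (nat_lit 304) (nat_lit 64881098052) (nat_lit 10) (nat_lit 5) (nat_lit 13) (nat_lit 5) (nat_lit 14) (nat_lit 5) (nat_lit 249) (nat_lit 243) (nat_lit 108))) (XT.nd (nat_lit 78) (nat_lit 0) (nat_lit 0) (XT.lf (nat_lit 0) (nat_lit 145118501114) (nat_lit 152) (nat_lit 2512259344217) (nat_lit 76) (nat_lit 289415785048) (nat_lit 8) (nat_lit 5) (nat_lit 10) (nat_lit 5) (nat_lit 9) (nat_lit 5) (nat_lit 250) (nat_lit 243) (nat_lit 107)) (XT.lf (nat_lit 0) (nat_lit 444417243681) (nat_lit 152) (nat_lit 1496601155543) (nat_lit 76) (nat_lit 1284502938624)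 (nat_lit 8) (nat_lit 5) (nat_lit 10) (nat_lit 5) (nat_lit 9) (nat_lit 5) (nat_lit 251) (nat_lit 243) (nat_lit 106)))))) (XT.nd (nat_lit 546) (nat_lit 152) (nat_lit 0) (XT.nd (nat_lit 234) (nat_lit 76) (nat_lit 0) (XT.nd (nat_lit 78) (nat_lit 152) (nat_lit 0) (XT.lf (nat_lit 0) (nat_lit 788610796199) (nat_lit 152) (nat_lit 328594240357) (nat_lit 76) (nat_lit 2428853165116) (nat_lit 8) (nat_lit 5) (nat_lit 10) (nat_lit 5) (nat_lit 9) (nat_lit 5) (nat_lit 252) (nat_lit 243) (nat_lit 105)) (XT.nd (nat_lit 78) (nat_lit 0) (nat_lit 0) (XT.lf (nat_lit 0) (nat_lit 1113769141354) (nat_lit 152) (nat_lit 116783044018) (nat_lit 228) (nat_lit 2677205589148) (nat_lit 6) (nat_lit 5) (nat_lit 8) (nat_lit 5) (nat_lit 9) (nat_lit 5) (nat_lit 253) (nat_lit 243) (nat_lit 104)) (XT.lf (nat_lit 0) (nat_lit 1799582633947) (nat_lit 228) (nat_lit 1555340600358) (nat_lit 76) (nat_lit 959669371353) (nat_lit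 6) (nat_lit 5) (nat_lit 9) (nat_lit 5) (nat_lit 7) (nat_lit 4) (nat_lit 254) (nat_lit 243) (nat_lit 103)))) (XT.nd (nat_lit 156) (nat_lit 0) (nat_lit 0) (XT.nd (nat_lit 78) (nat_lit 76) (nat_lit 0) (XT.lf (nat_lit 0) (nat_lit 2459528746134) (nat_lit 228) (nat_lit 136456461405) (nat_lit 76) (nat_lit 2185633289493) (nat_lit 6) (nat_lit 5) (nat_lit 9) (nat_lit 5) (nat_lit 7) (nat_lit 4) (nat_lit 255) (nat_lit 243) (nat_lit 102)) (XT.lf (nat_lit 0) (nat_lit 1641388007991) (nat_lit 76) (nat_lit 1645045143424) (nat_lit 152) (nat_lit 2022070164271) (nat_lit 5) (nat_lit 5) (nat_lit 6) (nat_lit 5) (nat_lit 7) (nat_lit 4) (nat_lit 256) (nat_lit 243) (nat_lit 101))) (XT.nd (nat_lit 78) (nat_lit 0) (nat_lit 0) (XT.lf (nat_lit 0) (nat_lit 3701244992092) (nat_lit 76) (nat_lit 543261175974) (nat_lit 152) (nat_lit 1668844746493) (nat_lit 5) (nat_lit 5) (nat_lit 6) (nat_lit 5) (nat_lit 7) (nat_lit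 4) (nat_lit 257) (nat_lit 243) (nat_lit 100)) (XT.lf (nat_lit 0) (nat_lit 5376260752919) (nat_lit 152) (nat_lit 568815747021) (nat_lit 0) (nat_lit 659353560979) (nat_lit 5) (nat_lit 5) (nat_lit 7) (nat_lit 4) (nat_lit 5) (nat_lit 4) (nat_lit 258) (nat_lit 243) (nat_lit 99))))) (XT.nd (nat_lit 30108) (nat_lit 0) (nat_lit 684) (XT.nd (nat_lit 78) (nat_lit 76) (nat_lit 0) (XT.lf (nat_lit 0) (nat_lit 1421664805938) (nat_lit 76) (nat_lit 5340851406648) (nat_lit 76) (nat_lit 623944213590) (nat_lit 4) (nat_lit 4) (nat_lit 5) (nat_lit 5) (nat_lit 5) (nat_lit 4) (nat_lit 259) (nat_lit 243) (nat_lit 98)) (XT.nd (nat_lit 78) (nat_lit 0) (nat_lit 0) (XT.lf (nat_lit 0) (nat_lit 95750766050) (nat_lit 152) (nat_lit 4511043047022) (nat_lit 76) (nat_lit 3673888654551) (nat_lit 3) (nat_lit 5) (nat_lit 5) (nat_lit 5) (nat_lit 4) (nat_lit 4) (nat_lit 260) (nat_lit 243) (nat_lit 97)) (XT.lf (nat_lit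 0) (nat_lit 859519989280) (nat_lit 152) (nat_lit 2868939217924) (nat_lit 76) (nat_lit 5576121863786) (nat_lit 3) (nat_lit 5) (nat_lit 5) (nat_lit 5) (nat_lit 4) (nat_lit 4) (nat_lit 261) (nat_lit 243) (nat_lit 96)))) (XT.nd (nat_lit 156) (nat_lit 0) (nat_lit 0) (XT.nd (nat_lit 78) (nat_lit 0) (nat_lit 0) (XT.lf (nat_lit 0) (nat_lit 355075882802) (nat_lit 0) (nat_lit 355075882802) (nat_lit 228) (nat_lit 255976053082) (nat_lit 12) (nat_lit 5) (nat_lit 12) (nat_lit 3) (nat_lit 15) (nat_lit 3) (nat_lit 244) (nat_lit 244) (nat_lit 112)) (XT.lf (nat_lit 0) (nat_lit 1529098517733) (nat_lit 228) (nat_lit 497746887126) (nat_lit 304) (nat_lit 49988571793) (nat_lit 12) (nat_lit 5) (nat_lit 15) (nat_lit 3) (nat_lit 16) (nat_lit 5) (nat_lit 245) (nat_lit 244) (nat_lit 111))) (XT.nd (nat_lit 78) (nat_lit 0) (nat_lit 0) (XT.lf (nat_lit 76) (nat_lit 330906475468) (nat_lit 0) (nat_lit 1370825156579)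 (nat_lit 304) (nat_lit 534239602851) (nat_lit 13) (nat_lit 5) (nat_lit 12) (nat_lit 5) (nat_lit 16) (nat_lit 5) (nat_lit 246) (nat_lit 244) (nat_lit 110)) (XT.lf (nat_lit 76) (nat_lit 1339797803479) (nat_lit 0) (nat_lit 586480495140) (nat_lit 304) (nat_lit 488797995537) (nat_lit 13) (nat_lit 5) (nat_lit 12) (nat_lit 5) (nat_lit 16) (nat_lit 5) (nat_lit 247) (nat_lit 244) (nat_lit 109))))))) (XT.nd (nat_lit 1014) (nat_lit 76) (nat_lit 0) (XT.nd (nat_lit 468) (nat_lit 304) (nat_lit 0) (XT.nd (nat_lit 234) (nat_lit 152) (nat_lit 0) (XT.nd (nat_lit 78) (nat_lit 228) (nat_lit 0) (XT.lf (nat_lit 0) (nat_lit 2197571802461) (nat_lit 228) (nat_lit 134089122518) (nat_lit 76) (nat_lit 287426461768) (nat_lit 13) (nat_lit 5) (nat_lit 16) (nat_lit 5) (nat_lit 14) (nat_lit 5) (nat_lit 248) (nat_lit 244) (nat_lit 108)) (XT.nd (nat_lit 78) (nat_lit 0) (nat_lit 0) (XT.lf (nat_lit 0) (nat_lit 1010294400550)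 (nat_lit 228) (nat_lit 1569026708999) (nat_lit 304) (nat_lit 263914767061) (nat_lit 10) (nat_lit 5) (nat_lit 13) (nat_lit 5) (nat_lit 14) (nat_lit 5) (nat_lit 249) (nat_lit 244) (nat_lit 107)) (XT.lf (nat_lit 0) (nat_lit 2341405239505) (nat_lit 228) (nat_lit 683936775853) (nat_lit 304) (nat_lit 74613244221) (nat_lit 10) (nat_lit 5) (nat_lit 13) (nat_lit 5) (nat_lit 14) (nat_lit 5) (nat_lit 250) (nat_lit 244) (nat_lit 106)))) (XT.nd (nat_lit 78) (nat_lit 0) (nat_lit 0) (XT.lf (nat_lit 0) (nat_lit 166886291720) (nat_lit 152) (nat_lit 2889098226578) (nat_lit 76) (nat_lit 332828154096) (nat_lit 8) (nat_lit 5) (nat_lit 10) (nat_lit 5) (nat_lit 9) (nat_lit 5) (nat_lit 251) (nat_lit 244) (nat_lit 105)) (XT.nd (nat_lit 78) (nat_lit 0) (nat_lit 0) (XT.lf (nat_lit 0) (nat_lit 511079843658) (nat_lit 152) (nat_lit 1721091312116) (nat_lit 76) (nat_lit 1477178380539) (nat_lit 8) (nat_lit 5) (nat_lit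 10) (nat_lit 5) (nat_lit 9) (nat_lit 5) (nat_lit 252) (nat_lit 244) (nat_lit 104)) (XT.lf (nat_lit 0) (nat_lit 906902427303) (nat_lit 152) (nat_lit 377883361838) (nat_lit 76) (nat_lit 2793181140859) (nat_lit 8) (nat_lit 5) (nat_lit 10) (nat_lit 5) (nat_lit 9) (nat_lit 5) (nat_lit 253) (nat_lit 244) (nat_lit 103))))) (XT.nd (nat_lit 234) (nat_lit 152) (nat_lit 0) (XT.nd (nat_lit 78) (nat_lit 0) (nat_lit 0) (XT.lf (nat_lit 0) (nat_lit 1280834526467) (nat_lit 152) (nat_lit 134300497438) (nat_lit 228) (nat_lit 3078786415035) (nat_lit 6) (nat_lit 5) (nat_lit 8) (nat_lit 5) (nat_lit 9) (nat_lit 5) (nat_lit 254) (nat_lit 244) (nat_lit 102)) (XT.nd (nat_lit 78) (nat_lit 0) (nat_lit 0) (XT.lf (nat_lit 0) (nat_lit 2069520038482) (nat_lit 228) (nat_lit 1788641676902) (nat_lit 76) (nat_lit 1103619779577) (nat_lit 6) (nat_lit 5) (nat_lit 9) (nat_lit 5) (nat_lit 7) (nat_lit 4) (nat_lit 255) (nat_lit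 244) (nat_lit 101)) (XT.lf (nat_lit 0) (nat_lit 2828458066266) (nat_lit 228) (nat_lit 156924918868) (nat_lit 76) (nat_lit 2513478285110) (nat_lit 6) (nat_lit 5) (nat_lit 9) (nat_lit 5) (nat_lit 7) (nat_lit 4) (nat_lit 256) (nat_lit 244) (nat_lit 100)))) (XT.nd (nat_lit 156) (nat_lit 76) (nat_lit 0) (XT.nd (nat_lit 78) (nat_lit 0) (nat_lit 0) (XT.lf (nat_lit 0) (nat_lit 1887596220404) (nat_lit 76) (nat_lit 1891801911328) (nat_lit 152) (nat_lit 2325380680069) (nat_lit 5) (nat_lit 5) (nat_lit 6) (nat_lit 5) (nat_lit 7) (nat_lit 4) (nat_lit 257) (nat_lit 244) (nat_lit 99)) (XT.lf (nat_lit 0) (nat_lit 4256431750658) (nat_lit 76) (nat_lit 624750349232) (nat_lit 152) (nat_lit 1919171450777) (nat_lit 5) (nat_lit 5) (nat_lit 6) (nat_lit 5) (nat_lit 7) (nat_lit 4) (nat_lit 258) (nat_lit 244) (nat_lit 98))) (XT.nd (nat_lit 78) (nat_lit 76) (nat_lit 0) (XT.lf (nat_lit 0) (nat_lit 6182699871720)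 (nat_lit 152) (nat_lit 654138099771) (nat_lit 0) (nat_lit 758256597612) (nat_lit 5) (nat_lit 5) (nat_lit 7) (nat_lit 4) (nat_lit 5) (nat_lit 4) (nat_lit 259) (nat_lit 244) (nat_lit 97)) (XT.lf (nat_lit 0) (nat_lit 1634914535709) (nat_lit 76) (nat_lit 6141979114232) (nat_lit 76) (nat_lit 717535839278) (nat_lit 4) (nat_lit 4) (nat_lit 5) (nat_lit 5) (nat_lit 5) (nat_lit 4) (nat_lit 260) (nat_lit 244) (nat_lit 96)))))) (XT.nd (nat_lit 30498) (nat_lit 0) (nat_lit 152) (XT.nd (nat_lit 30186) (nat_lit 0) (nat_lit 532) (XT.nd (nat_lit 30030) (nat_lit 0) (nat_lit 684) (XT.lf (nat_lit 0) (nat_lit 110113385988) (nat_lit 152) (nat_lit 5187699495813) (nat_lit 76) (nat_lit 4224971955162) (nat_lit 3) (nat_lit 5) (nat_lit 5) (nat_lit 5) (nat_lit 4) (nat_lit 4) (nat_lit 261) (nat_lit 244) (nat_lit 95)) (XT.nd (nat_lit 78) (nat_lit 0) (nat_lit 0) (XT.lf (nat_lit 0) (nat_lit 408337271872) (nat_lit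 0) (nat_lit 408337271872) (nat_lit 228) (nat_lit 294372445489) (nat_lit 12) (nat_lit 5) (nat_lit 12) (nat_lit 3) (nat_lit 15) (nat_lit 3) (nat_lit 245) (nat_lit 245) (nat_lit 110)) (XT.lf (nat_lit 0) (nat_lit 1758463318042) (nat_lit 228) (nat_lit 572408904227) (nat_lit 304) (nat_lit 57486847028) (nat_lit 12) (nat_lit 5) (nat_lit 15) (nat_lit 3) (nat_lit 16) (nat_lit 5) (nat_lit 246) (nat_lit 245) (nat_lit 109)))) (XT.nd (nat_lit 156) (nat_lit 152) (nat_lit 0) (XT.nd (nat_lit 78) (nat_lit 0) (nat_lit 0) (XT.lf (nat_lit 76) (nat_lit 380542462030) (nat_lit 0) (nat_lit 1576448935150) (nat_lit 304) (nat_lit 614375519508) (nat_lit 13) (nat_lit 5) (nat_lit 12) (nat_lit 5) (nat_lit 16) (nat_lit 5) (nat_lit 247) (nat_lit 245) (nat_lit 108)) (XT.lf (nat_lit 76) (nat_lit 1540767487255) (nat_lit 0) (nat_lit 674452573831) (nat_lit 304) (nat_lit 562117674198) (nat_lit 13) (nat_lit 5) (nat_lit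 12) (nat_lit 5) (nat_lit 16) (nat_lit 5) (nat_lit 248) (nat_lit 245) (nat_lit 107))) (XT.nd (nat_lit 78) (nat_lit 228) (nat_lit 0) (XT.lf (nat_lit 0) (nat_lit 2527207588040) (nat_lit 228) (nat_lit 154202476607) (nat_lit 76) (nat_lit 330540427532) (nat_lit 13) (nat_lit 5) (nat_lit 16) (nat_lit 5) (nat_lit 14) (nat_lit 5) (nat_lit 249) (nat_lit 245) (nat_lit 106)) (XT.lf (nat_lit 0) (nat_lit 1161838574272) (nat_lit 228) (nat_lit 1804380715500) (nat_lit 304) (nat_lit 303501966000) (nat_lit 10) (nat_lit 5) (nat_lit 13) (nat_lit 5) (nat_lit 14) (nat_lit 5) (nat_lit 250) (nat_lit 245) (nat_lit 105))))) (XT.nd (nat_lit 312) (nat_lit 228) (nat_lit 0) (XT.nd (nat_lit 78) (nat_lit 152) (nat_lit 0) (XT.lf (nat_lit 0) (nat_lit 2692616037292) (nat_lit 228) (nat_lit 786527292362) (nat_lit 304) (nat_lit 85805216837) (nat_lit 10) (nat_lit 5) (nat_lit 13) (nat_lit 5) (nat_lit 14) (nat_lit 5) (nat_lit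 251) (nat_lit 245) (nat_lit 104)) (XT.nd (nat_lit 78) (nat_lit 0) (nat_lit 0) (XT.lf (nat_lit 0) (nat_lit 191919247153) (nat_lit 152) (nat_lit 3322462945992) (nat_lit 76) (nat_lit 382752378186) (nat_lit 8) (nat_lit 5) (nat_lit 10) (nat_lit 5) (nat_lit 9) (nat_lit 5) (nat_lit 252) (nat_lit 245) (nat_lit 103)) (XT.lf (nat_lit 0) (nat_lit 587741830359) (nat_lit 152) (nat_lit 1979254996261) (nat_lit 76) (nat_lit 1698755138469) (nat_lit 8) (nat_lit 5) (nat_lit 10) (nat_lit 5) (nat_lit 9) (nat_lit 5) (nat_lit 253) (nat_lit 245) (nat_lit 102)))) (XT.nd (nat_lit 156) (nat_lit 76) (nat_lit 0) (XT.nd (nat_lit 78) (nat_lit 0) (nat_lit 0) (XT.lf (nat_lit 0) (nat_lit 1472959715955) (nat_lit 152) (nat_lit 154445569647) (nat_lit 228) (nat_lit 3540604367849) (nat_lit 6) (nat_lit 5) (nat_lit 8) (nat_lit 5) (nat_lit 9) (nat_lit 5) (nat_lit 255) (nat_lit 245) (nat_lit 100)) (XT.lf (nat_lit 0) (nat_lit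 2379948051395) (nat_lit 228) (nat_lit 2056937918222) (nat_lit 76) (nat_lit 1269162748420) (nat_lit 6) (nat_lit 5) (nat_lit 9) (nat_lit 5) (nat_lit 7) (nat_lit 4) (nat_lit 256) (nat_lit 245) (nat_lit 99))) (XT.nd (nat_lit 78) (nat_lit 76) (nat_lit 0) (XT.lf (nat_lit 0) (nat_lit 3252726782415) (nat_lit 228) (nat_lit 180463647816) (nat_lit 76) (nat_lit 2890500029534) (nat_lit 6) (nat_lit 5) (nat_lit 9) (nat_lit 5) (nat_lit 7) (nat_lit 4) (nat_lit 257) (nat_lit 245) (nat_lit 98)) (XT.lf (nat_lit 0) (nat_lit 2170735661944) (nat_lit 76) (nat_lit 2175572195298) (nat_lit 152) (nat_lit 2674187775392) (nat_lit 5) (nat_lit 5) (nat_lit 6) (nat_lit 5) (nat_lit 7) (nat_lit 4) (nat_lit 258) (nat_lit 245) (nat_lit 97))))))))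
noncomputable def xc63 : XT := (XT.nd (nat_lit 124332) (nat_lit 0) (nat_lit 532) (XT.nd (nat_lit 31278) (nat_lit 0) (nat_lit 0) (XT.nd (nat_lit 30576) (nat_lit 0) (nat_lit 76) (XT.nd (nat_lit 30342) (nat_lit 0) (nat_lit 532) (XT.nd (nat_lit 78) (nat_lit 0) (nat_lit 0) (XT.lf (nat_lit 0) (nat_lit 4894896520630) (nat_lit 76) (nat_lit 718462899243) (nat_lit 152) (nat_lit 2207047162579) (nat_lit 5) (nat_lit 5) (nat_lit 6) (nat_lit 5) (nat_lit 7) (nat_lit 4) (nat_lit 259) (nat_lit 245) (nat_lit 96)) (XT.nd (nat_lit 30186) (nat_lit 0) (nat_lit 532) (XT.lf (nat_lit 0) (nat_lit 7110104856912) (nat_lit 152) (nat_lit 752258807703) (nat_lit 0) (nat_lit 871995089134) (nat_lit 5) (nat_lit 5) (nat_lit 7) (nat_lit 4) (nat_lit 5) (nat_lit 4) (nat_lit 260) (nat_lit 245) (nat_lit 95)) (XT.lf (nat_lit 0) (nat_lit 469587867680) (nat_lit 0) (nat_lit 469587867680) (nat_lit 228) (nat_lit 338528300551)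 (nat_lit 12) (nat_lit 5) (nat_lit 12) (nat_lit 3) (nat_lit 15) (nat_lit 3) (nat_lit 246) (nat_lit 246) (nat_lit 108)))) (XT.nd (nat_lit 78) (nat_lit 0) (nat_lit 0) (XT.lf (nat_lit 0) (nat_lit 2022232832874) (nat_lit 228) (nat_lit 658270227788) (nat_lit 304) (nat_lit 66109866117) (nat_lit 12) (nat_lit 5) (nat_lit 15) (nat_lit 3) (nat_lit 16) (nat_lit 5) (nat_lit 247) (nat_lit 246) (nat_lit 107)) (XT.nd (nat_lit 78) (nat_lit 0) (nat_lit 0) (XT.lf (nat_lit 76) (nat_lit 437623842859) (nat_lit 0) (nat_lit 1812916279266) (nat_lit 304) (nat_lit 706531829460) (nat_lit 13) (nat_lit 5) (nat_lit 12) (nat_lit 5) (nat_lit 16) (nat_lit 5) (nat_lit 248) (nat_lit 246) (nat_lit 106)) (XT.lf (nat_lit 76) (nat_lit 1771882620365) (nat_lit 0) (nat_lit 775620463249) (nat_lit 304) (nat_lit 646435309698) (nat_lit 13) (nat_lit 5) (nat_lit 12) (nat_lit 5) (nat_lit 16) (nat_lit 5) (nat_lit 249) (nat_lit 246)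 (nat_lit 105))))) (XT.nd (nat_lit 312) (nat_lit 304) (nat_lit 0) (XT.nd (nat_lit 78) (nat_lit 228) (nat_lit 0) (XT.lf (nat_lit 0) (nat_lit 2906288737747) (nat_lit 228) (nat_lit 177332837293) (nat_lit 76) (nat_lit 380121489014) (nat_lit 13) (nat_lit 5) (nat_lit 16) (nat_lit 5) (nat_lit 14) (nat_lit 5) (nat_lit 250) (nat_lit 246) (nat_lit 104)) (XT.nd (nat_lit 78) (nat_lit 0) (nat_lit 0) (XT.lf (nat_lit 0) (nat_lit 1336114370727) (nat_lit 228) (nat_lit 2075037822939) (nat_lit 304) (nat_lit 349027248711) (nat_lit 10) (nat_lit 5) (nat_lit 13) (nat_lit 5) (nat_lit 14) (nat_lit 5) (nat_lit 251) (nat_lit 246) (nat_lit 103)) (XT.lf (nat_lit 0) (nat_lit 3096508451854) (nat_lit 228) (nat_lit 904506386316) (nat_lit 304) (nat_lit 98675988764) (nat_lit 10) (nat_lit 5) (nat_lit 13) (nat_lit 5) (nat_lit 14) (nat_lit 5) (nat_lit 252) (nat_lit 246) (nat_lit 102)))) (XT.nd (nat_lit 234) (nat_lit 0)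 (nat_lit 0) (XT.nd (nat_lit 156) (nat_lit 152) (nat_lit 0) (XT.lf (nat_lit 0) (nat_lit 675903112588) (nat_lit 152) (nat_lit 2276143236119) (nat_lit 76) (nat_lit 1953568409881) (nat_lit 8) (nat_lit 5) (nat_lit 10) (nat_lit 5) (nat_lit 9) (nat_lit 5) (nat_lit 254) (nat_lit 246) (nat_lit 100)) (XT.lf (nat_lit 0) (nat_lit 1693903681302) (nat_lit 152) (nat_lit 177612403275) (nat_lit 228) (nat_lit 4071695015888) (nat_lit 6) (nat_lit 5) (nat_lit 8) (nat_lit 5) (nat_lit 9) (nat_lit 5) (nat_lit 256) (nat_lit 246) (nat_lit 98))) (XT.nd (nat_lit 78) (nat_lit 0) (nat_lit 0) (XT.lf (nat_lit 0) (nat_lit 2736940264503) (nat_lit 228) (nat_lit 2365478598231) (nat_lit 76) (nat_lit 1459537162125) (nat_lit 6) (nat_lit 5) (nat_lit 9) (nat_lit 5) (nat_lit 7) (nat_lit 4) (nat_lit 257) (nat_lit 246) (nat_lit 97)) (XT.lf (nat_lit 0) (nat_lit 3740635804472) (nat_lit 228) (nat_lit 207533188271) (nat_lit 76)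 (nat_lit 3324075035217) (nat_lit 6) (nat_lit 5) (nat_lit 9) (nat_lit 5) (nat_lit 7) (nat_lit 4) (nat_lit 258) (nat_lit 246) (nat_lit 96)))))) (XT.nd (nat_lit 30732) (nat_lit 0) (nat_lit 228) (XT.nd (nat_lit 30420) (nat_lit 0) (nat_lit 532) (XT.nd (nat_lit 78) (nat_lit 0) (nat_lit 0) (XT.lf (nat_lit 0) (nat_lit 2496346017647) (nat_lit 76) (nat_lit 2501908022529) (nat_lit 152) (nat_lit 3075315936645) (nat_lit 5) (nat_lit 5) (nat_lit 6) (nat_lit 5) (nat_lit 7) (nat_lit 4) (nat_lit 259) (nat_lit 246) (nat_lit 95)) (XT.nd (nat_lit 30264) (nat_lit 0) (nat_lit 532) (XT.lf (nat_lit 0) (nat_lit 5629131004299) (nat_lit 76) (nat_lit 826232332335) (nat_lit 152) (nat_lit 2538104232570) (nat_lit 5) (nat_lit 5) (nat_lit 6) (nat_lit 5) (nat_lit 7) (nat_lit 4) (nat_lit 260) (nat_lit 246) (nat_lit 94)) (XT.lf (nat_lit 0) (nat_lit 540026051634) (nat_lit 0) (nat_lit 540026051634) (nat_lit 228) (nat_lit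 389307536740) (nat_lit 12) (nat_lit 5) (nat_lit 12) (nat_lit 3) (nat_lit 15) (nat_lit 3) (nat_lit 247) (nat_lit 247) (nat_lit 106)))) (XT.nd (nat_lit 156) (nat_lit 0) (nat_lit 0) (XT.nd (nat_lit 78) (nat_lit 0) (nat_lit 0) (XT.lf (nat_lit 0) (nat_lit 2325567770754) (nat_lit 228) (nat_lit 757010752826) (nat_lit 304) (nat_lit 76026340012) (nat_lit 12) (nat_lit 5) (nat_lit 15) (nat_lit 3) (nat_lit 16) (nat_lit 5) (nat_lit 248) (nat_lit 247) (nat_lit 105)) (XT.lf (nat_lit 76) (nat_lit 503267428003) (nat_lit 0) (nat_lit 2084853724063) (nat_lit 304) (nat_lit 812511590288) (nat_lit 13) (nat_lit 5) (nat_lit 12) (nat_lit 5) (nat_lit 16) (nat_lit 5) (nat_lit 249) (nat_lit 247) (nat_lit 104))) (XT.nd (nat_lit 78) (nat_lit 0) (nat_lit 76) (XT.lf (nat_lit 76) (nat_lit 2037665020998) (nat_lit 0) (nat_lit 891963535263) (nat_lit 304) (nat_lit 743400594334) (nat_lit 13) (nat_lit 5) (nat_lit 12) (nat_lit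 5) (nat_lit 16) (nat_lit 5) (nat_lit 250) (nat_lit 247) (nat_lit 103)) (XT.lf (nat_lit 0) (nat_lit 3342232057105) (nat_lit 228) (nat_lit 203932754717) (nat_lit 76) (nat_lit 437139710364) (nat_lit 13) (nat_lit 5) (nat_lit 16) (nat_lit 5) (nat_lit 14) (nat_lit 5) (nat_lit 251) (nat_lit 247) (nat_lit 102))))) (XT.nd (nat_lit 31044) (nat_lit 0) (nat_lit 304) (XT.nd (nat_lit 156) (nat_lit 152) (nat_lit 0) (XT.lf (nat_lit 0) (nat_lit 1536531534134) (nat_lit 228) (nat_lit 2386293496466) (nat_lit 304) (nat_lit 401381326801) (nat_lit 10) (nat_lit 5) (nat_lit 13) (nat_lit 5) (nat_lit 14) (nat_lit 5) (nat_lit 252) (nat_lit 247) (nat_lit 101)) (XT.nd (nat_lit 30810) (nat_lit 0) (nat_lit 304) (XT.lf (nat_lit 0) (nat_lit 253813221186) (nat_lit 152) (nat_lit 4393957225071) (nat_lit 76) (nat_lit 506190021558) (nat_lit 8) (nat_lit 5) (nat_lit 10) (nat_lit 5) (nat_lit 9) (nat_lit 5) (nat_lit 254)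 (nat_lit 247) (nat_lit 99)) (XT.lf (nat_lit 0) (nat_lit 621029962254) (nat_lit 0) (nat_lit 621029962254) (nat_lit 228) (nat_lit 447703660526) (nat_lit 12) (nat_lit 5) (nat_lit 12) (nat_lit 3) (nat_lit 15) (nat_lit 3) (nat_lit 248) (nat_lit 248) (nat_lit 104)))) (XT.nd (nat_lit 156) (nat_lit 0) (nat_lit 0) (XT.nd (nat_lit 78) (nat_lit 0) (nat_lit 0) (XT.lf (nat_lit 0) (nat_lit 2674402946159) (nat_lit 228) (nat_lit 870562358847) (nat_lit 304) (nat_lit 87430286460) (nat_lit 12) (nat_lit 5) (nat_lit 15) (nat_lit 3) (nat_lit 16) (nat_lit 5) (nat_lit 249) (nat_lit 248) (nat_lit 103)) (XT.lf (nat_lit 76) (nat_lit 578757548793) (nat_lit 0) (nat_lit 2397581784870) (nat_lit 304) (nat_lit 934388318555) (nat_lit 13) (nat_lit 5) (nat_lit 12) (nat_lit 5) (nat_lit 16) (nat_lit 5) (nat_lit 250) (nat_lit 248) (nat_lit 102))) (XT.nd (nat_lit 78) (nat_lit 0) (nat_lit 76) (XT.lf (nat_lit 76) (nat_lit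 2343314779878) (nat_lit 0) (nat_lit 1025758067464) (nat_lit 304) (nat_lit 854910674548) (nat_lit 13) (nat_lit 5) (nat_lit 12) (nat_lit 5) (nat_lit 16) (nat_lit 5) (nat_lit 251) (nat_lit 248) (nat_lit 101)) (XT.lf (nat_lit 0) (nat_lit 3843566872247) (nat_lit 228) (nat_lit 234522661747) (nat_lit 76) (nat_lit 502710665405) (nat_lit 13) (nat_lit 5) (nat_lit 16) (nat_lit 5) (nat_lit 14) (nat_lit 5) (nat_lit 252) (nat_lit 248) (nat_lit 100))))))) (XT.nd (nat_lit 63024) (nat_lit 0) (nat_lit 0) (XT.nd (nat_lit 31434) (nat_lit 0) (nat_lit 0) (XT.nd (nat_lit 234) (nat_lit 0) (nat_lit 0) (XT.nd (nat_lit 78) (nat_lit 0) (nat_lit 0) (XT.lf (nat_lit 0) (nat_lit 714184458766) (nat_lit 0) (nat_lit 714184458766) (nat_lit 228) (nat_lit 514859204520) (nat_lit 12) (nat_lit 5) (nat_lit 12) (nat_lit 3) (nat_lit 15) (nat_lit 3) (nat_lit 249) (nat_lit 249) (nat_lit 102)) (XT.nd (nat_lit 78) (nat_lit 0)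 (nat_lit 0) (XT.lf (nat_lit 0) (nat_lit 3075563395486) (nat_lit 228) (nat_lit 1001146707454) (nat_lit 304) (nat_lit 100544825985) (nat_lit 12) (nat_lit 5) (nat_lit 15) (nat_lit 3) (nat_lit 16) (nat_lit 5) (nat_lit 250) (nat_lit 249) (nat_lit 101)) (XT.lf (nat_lit 76) (nat_lit 665571186095) (nat_lit 0) (nat_lit 2757219054262) (nat_lit 304) (nat_lit 1074546558568) (nat_lit 13) (nat_lit 5) (nat_lit 12) (nat_lit 5) (nat_lit 16) (nat_lit 5) (nat_lit 251) (nat_lit 249) (nat_lit 100)))) (XT.nd (nat_lit 78) (nat_lit 0) (nat_lit 0) (XT.lf (nat_lit 76) (nat_lit 2694812001192) (nat_lit 0) (nat_lit 1179621779029) (nat_lit 304) (nat_lit 983147268974) (nat_lit 13) (nat_lit 5) (nat_lit 12) (nat_lit 5) (nat_lit 16) (nat_lit 5) (nat_lit 252) (nat_lit 249) (nat_lit 99)) (XT.nd (nat_lit 31044) (nat_lit 76) (nat_lit 0) (XT.lf (nat_lit 0) (nat_lit 4420101908056) (nat_lit 228) (nat_lit 269701056338) (nat_lit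 76) (nat_lit 578117264071) (nat_lit 13) (nat_lit 5) (nat_lit 16) (nat_lit 5) (nat_lit 14) (nat_lit 5) (nat_lit 253) (nat_lit 249) (nat_lit 98)) (XT.lf (nat_lit 0) (nat_lit 821312129224) (nat_lit 0) (nat_lit 821312129224) (nat_lit 228) (nat_lit 592088081353) (nat_lit 12) (nat_lit 5) (nat_lit 12) (nat_lit 3) (nat_lit 15) (nat_lit 3) (nat_lit 250) (nat_lit 250) (nat_lit 100))))) (XT.nd (nat_lit 31278) (nat_lit 0) (nat_lit 0) (XT.nd (nat_lit 78) (nat_lit 0) (nat_lit 0) (XT.lf (nat_lit 0) (nat_lit 3536897910408) (nat_lit 228) (nat_lit 1151318709625) (nat_lit 304) (nat_lit 115626547279) (nat_lit 12) (nat_lit 5) (nat_lit 15) (nat_lit 3) (nat_lit 16) (nat_lit 5) (nat_lit 251) (nat_lit 250) (nat_lit 99)) (XT.nd (nat_lit 78) (nat_lit 0) (nat_lit 0) (XT.lf (nat_lit 76) (nat_lit 765406867776) (nat_lit 0) (nat_lit 3170801913658) (nat_lit 304) (nat_lit 1235728536477) (nat_lit 13) (nat_lit 5) (nat_lit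 12) (nat_lit 5) (nat_lit 16) (nat_lit 5) (nat_lit 252) (nat_lit 250) (nat_lit 98)) (XT.lf (nat_lit 76) (nat_lit 3099033804647) (nat_lit 0) (nat_lit 1356565046976) (nat_lit 304) (nat_lit 1130619354210) (nat_lit 13) (nat_lit 5) (nat_lit 12) (nat_lit 5) (nat_lit 16) (nat_lit 5) (nat_lit 253) (nat_lit 250) (nat_lit 97)))) (XT.nd (nat_lit 156) (nat_lit 0) (nat_lit 0) (XT.nd (nat_lit 78) (nat_lit 0) (nat_lit 0) (XT.lf (nat_lit 0) (nat_lit 944508949851) (nat_lit 0) (nat_lit 944508949851) (nat_lit 228) (nat_lit 680901290649) (nat_lit 12) (nat_lit 5) (nat_lit 12) (nat_lit 3) (nat_lit 15) (nat_lit 3) (nat_lit 251) (nat_lit 251) (nat_lit 98)) (XT.lf (nat_lit 0) (nat_lit 4067432601202) (nat_lit 228) (nat_lit 1324016513085) (nat_lit 304) (nat_lit 132970527402) (nat_lit 12) (nat_lit 5) (nat_lit 15) (nat_lit 3) (nat_lit 16) (nat_lit 5) (nat_lit 252) (nat_lit 251) (nat_lit 97))) (XT.nd (nat_lit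 78) (nat_lit 0) (nat_lit 0) (XT.lf (nat_lit 76) (nat_lit 880217900792) (nat_lit 0) (nat_lit 3646422201657) (nat_lit 304) (nat_lit 1421087812506) (nat_lit 13) (nat_lit 5) (nat_lit 12) (nat_lit 5) (nat_lit 16) (nat_lit 5) (nat_lit 253) (nat_lit 251) (nat_lit 96)) (XT.lf (nat_lit 76) (nat_lit 3563888877821) (nat_lit 0) (nat_lit 1560049804849) (nat_lit 304) (nat_lit 1300212253478) (nat_lit 13) (nat_lit 5) (nat_lit 12) (nat_lit 5) (nat_lit 16) (nat_lit 5) (nat_lit 254) (nat_lit 251) (nat_lit 95)))))) (XT.nd (nat_lit 62478) (nat_lit 0) (nat_lit 0) (XT.nd (nat_lit 31200) (nat_lit 0) (nat_lit 0) (XT.nd (nat_lit 31044) (nat_lit 76) (nat_lit 0) (XT.lf (nat_lit 0) (nat_lit 5845584780571) (nat_lit 228) (nat_lit 356679640275) (nat_lit 76) (nat_lit 764560080084) (nat_lit 13) (nat_lit 5) (nat_lit 16) (nat_lit 5) (nat_lit 14) (nat_lit 5) (nat_lit 255) (nat_lit 251) (nat_lit 94)) (XT.nd (nat_lit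 78) (nat_lit 0) (nat_lit 0) (XT.lf (nat_lit 0) (nat_lit 1086185293268) (nat_lit 0) (nat_lit 1086185293268) (nat_lit 228) (nat_lit 783036482048) (nat_lit 12) (nat_lit 5) (nat_lit 12) (nat_lit 3) (nat_lit 15) (nat_lit 3) (nat_lit 252) (nat_lit 252) (nat_lit 96)) (XT.lf (nat_lit 0) (nat_lit 4677547494583) (nat_lit 228) (nat_lit 1522618987791) (nat_lit 304) (nat_lit 152916105024) (nat_lit 12) (nat_lit 5) (nat_lit 15) (nat_lit 3) (nat_lit 16) (nat_lit 5) (nat_lit 253) (nat_lit 252) (nat_lit 95)))) (XT.nd (nat_lit 156) (nat_lit 0) (nat_lit 0) (XT.nd (nat_lit 78) (nat_lit 0) (nat_lit 0) (XT.lf (nat_lit 76) (nat_lit 1012250588065) (nat_lit 0) (nat_lit 4193385532624) (nat_lit 304) (nat_lit 1634250981022) (nat_lit 13) (nat_lit 5) (nat_lit 12) (nat_lit 5) (nat_lit 16) (nat_lit 5) (nat_lit 254) (nat_lit 252) (nat_lit 94)) (XT.lf (nat_lit 76) (nat_lit 4098472211368) (nat_lit 0) (nat_lit 1794057276201)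 (nat_lit 304) (nat_lit 1495244088579) (nat_lit 13) (nat_lit 5) (nat_lit 12) (nat_lit 5) (nat_lit 16) (nat_lit 5) (nat_lit 255) (nat_lit 252) (nat_lit 93))) (XT.nd (nat_lit 31044) (nat_lit 76) (nat_lit 0) (XT.lf (nat_lit 0) (nat_lit 6722422499806) (nat_lit 228) (nat_lit 410181584296) (nat_lit 76) (nat_lit 879244091602) (nat_lit 13) (nat_lit 5) (nat_lit 16) (nat_lit 5) (nat_lit 14) (nat_lit 5) (nat_lit 256) (nat_lit 252) (nat_lit 92)) (XT.lf (nat_lit 0) (nat_lit 1249113087969) (nat_lit 0) (nat_lit 1249113087969) (nat_lit 228) (nat_lit 900491952692) (nat_lit 12) (nat_lit 5) (nat_lit 12) (nat_lit 3) (nat_lit 15) (nat_lit 3) (nat_lit 253) (nat_lit 253) (nat_lit 94))))) (XT.nd (nat_lit 31278) (nat_lit 0) (nat_lit 0) (XT.nd (nat_lit 78) (nat_lit 0) (nat_lit 0) (XT.lf (nat_lit 0) (nat_lit 5379179621191) (nat_lit 228) (nat_lit 1751011834253) (nat_lit 304) (nat_lit 175853519651) (nat_lit 12)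 (nat_lit 5) (nat_lit 15) (nat_lit 3) (nat_lit 16) (nat_lit 5) (nat_lit 254) (nat_lit 253) (nat_lit 93)) (XT.nd (nat_lit 78) (nat_lit 0) (nat_lit 0) (XT.lf (nat_lit 76) (nat_lit 1164088177903) (nat_lit 0) (nat_lit 4822393363061) (nat_lit 304) (nat_lit 1879388625635) (nat_lit 13) (nat_lit 5) (nat_lit 12) (nat_lit 5) (nat_lit 16) (nat_lit 5) (nat_lit 255) (nat_lit 253) (nat_lit 92)) (XT.lf (nat_lit 76) (nat_lit 4713243044489) (nat_lit 0) (nat_lit 2063165868103) (nat_lit 304) (nat_lit 1719530699657) (nat_lit 13) (nat_lit 5) (nat_lit 12) (nat_lit 5) (nat_lit 16) (nat_lit 5) (nat_lit 256) (nat_lit 253) (nat_lit 91)))) (XT.nd (nat_lit 156) (nat_lit 0) (nat_lit 0) (XT.nd (nat_lit 78) (nat_lit 0) (nat_lit 0) (XT.lf (nat_lit 0) (nat_lit 1436480051702) (nat_lit 0) (nat_lit 1436480051702) (nat_lit 228) (nat_lit 1035565744339) (nat_lit 12) (nat_lit 5) (nat_lit 12) (nat_lit 3) (nat_lit 15) (nat_lit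 3) (nat_lit 254) (nat_lit 254) (nat_lit 92)) (XT.lf (nat_lit 0) (nat_lit 6186056566200) (nat_lit 228) (nat_lit 2013663608101) (nat_lit 304) (nat_lit 202231546748) (nat_lit 12) (nat_lit 5) (nat_lit 15) (nat_lit 3) (nat_lit 16) (nat_lit 5) (nat_lit 255) (nat_lit 254) (nat_lit 91))) (XT.nd (nat_lit 31200) (nat_lit 0) (nat_lit 0) (XT.lf (nat_lit 76) (nat_lit 1338701405821) (nat_lit 0) (nat_lit 5545752367932) (nat_lit 304) (nat_lit 2161296917560) (nat_lit 13) (nat_lit 5) (nat_lit 12) (nat_lit 5) (nat_lit 16) (nat_lit 5) (nat_lit 256) (nat_lit 254) (nat_lit 90)) (XT.lf (nat_lit 0) (nat_lit 1651952059863) (nat_lit 0) (nat_lit 1651952059863) (nat_lit 228) (nat_lit 1190900605040) (nat_lit 12) (nat_lit 5) (nat_lit 12) (nat_lit 3) (nat_lit 15) (nat_lit 3) (nat_lit 255) (nat_lit 255) (nat_lit 90))))))))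

set_option maxRecDepth 10000000 in
noncomputable def Tp : PT := (PT.nd (nat_lit 3166878) pc0 pc1)

set_option maxRecDepth 10000000 in
noncomputable def Tx : XT := (XT.nd (nat_lit 5026320) (nat_lit 0) (nat_lit 76) XT.nil (XT.nd (nat_lit 2969538) (nat_lit 0) (nat_lit 0) (XT.nd (nat_lit 1405716) (nat_lit 0) (nat_lit 0) (XT.nd (nat_lit 999570) (nat_lit 0) (nat_lit 0) (XT.nd (nat_lit 747084) (nat_lit 0) (nat_lit 0) (XT.nd (nat_lit 530556) (nat_lit 0) (nat_lit 0) (XT.nd (nat_lit 405132) (nat_lit 0) (nat_lit 0) (XT.nd (nat_lit 311376) (nat_lit 0) (nat_lit 0) xc0 xc1) (XT.nd (nat_lit 62790) (nat_lit 0) (nat_lit 0) xc2 xc3)) (XT.nd (nat_lit 123474) (nat_lit 0) (nat_lit 0) (XT.nd (nat_lit 61932) (nat_lit 0) (nat_lit 0) xc4 xc5) (XT.nd (nat_lit 32604) (nat_lit 0) (nat_lit 0) xc6 xc7))) (XT.nd (nat_lit 127374) (nat_lit 0) (nat_lit 0) (XT.nd (nat_lit 63960) (nat_lit 0) (nat_lit 0) (XT.nd (nat_lit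 31980) (nat_lit 0) (nat_lit 0) xc8 xc9) (XT.nd (nat_lit 31746) (nat_lit 0) (nat_lit 0) xc10 xc11)) (XT.nd (nat_lit 62868) (nat_lit 0) (nat_lit 0) (XT.nd (nat_lit 31356) (nat_lit 0) (nat_lit 0) xc12 xc13) (XT.nd (nat_lit 31278) (nat_lit 0) (nat_lit 0) xc14 xc15)))) (XT.nd (nat_lit 217230) (nat_lit 0) (nat_lit 0) (XT.nd (nat_lit 122772) (nat_lit 0) (nat_lit 0) (XT.nd (nat_lit 61620) (nat_lit 0) (nat_lit 0) (XT.nd (nat_lit 30732) (nat_lit 0) (nat_lit 0) xc16 xc17) (XT.nd (nat_lit 30576) (nat_lit 0) (nat_lit 0) xc18 xc19)) (XT.nd (nat_lit 60450) (nat_lit 0) (nat_lit 0) (XT.nd (nat_lit 30342) (nat_lit 0) (nat_lit 0) xc20 xc21) (XT.nd (nat_lit 4134) (nat_lit 0) (nat_lit 0) xc22 xc23))) (XT.nd (nat_lit 93912) (nat_lit 0) (nat_lit 0) (XT.nd (nat_lit 59748) (nat_lit 0) (nat_lit 0) (XT.nd (nat_lit 29796) (nat_lit 0) (nat_lit 0) xc24 xc25) (XT.nd (nat_lit 4134) (nat_lit 0) (nat_lit 0) xc26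 xc27)) (XT.nd (nat_lit 60372) (nat_lit 0) (nat_lit 0) (XT.nd (nat_lit 30030) (nat_lit 0) (nat_lit 0) xc28 xc29) (XT.nd (nat_lit 5070) (nat_lit 0) (nat_lit 0) xc30 xc31))))) (XT.nd (nat_lit 469014) (nat_lit 0) (nat_lit 0) (XT.nd (nat_lit 218556) (nat_lit 0) (nat_lit 0) (XT.nd (nat_lit 122070) (nat_lit 0) (nat_lit 0) (XT.nd (nat_lit 60684) (nat_lit 0) (nat_lit 0) (XT.nd (nat_lit 30342) (nat_lit 0) (nat_lit 0) xc32 xc33) (XT.nd (nat_lit 30654) (nat_lit 0) (nat_lit 0) xc34 xc35)) (XT.nd (nat_lit 34866) (nat_lit 0) (nat_lit 0) (XT.nd (nat_lit 30654) (nat_lit 0) (nat_lit 0) xc36 xc37) (XT.nd (nat_lit 30732) (nat_lit 0) (nat_lit 0) xc38 xc39))) (XT.nd (nat_lit 124254) (nat_lit 0) (nat_lit 0) (XT.nd (nat_lit 61698) (nat_lit 0) (nat_lit 0) (XT.nd (nat_lit 30732) (nat_lit 0) (nat_lit 0) xc40 xc41) (XT.nd (nat_lit 31200) (nat_lit 0) (nat_lit 0) xc42 xc43)) (XT.nd (nat_lit 62712) (nat_lit 0)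 (nat_lit 0) (XT.nd (nat_lit 31200) (nat_lit 0) (nat_lit 0) xc44 xc45) (XT.nd (nat_lit 31746) (nat_lit 0) (nat_lit 0) xc46 xc47)))) (XT.nd (nat_lit 342342) (nat_lit 0) (nat_lit 0) (XT.nd (nat_lit 155454) (nat_lit 0) (nat_lit 0) (XT.nd (nat_lit 91416) (nat_lit 0) (nat_lit 0) (XT.nd (nat_lit 31746) (nat_lit 0) (nat_lit 0) xc48 xc49) (XT.nd (nat_lit 31902) (nat_lit 0) (nat_lit 0) xc50 xc51)) (XT.nd (nat_lit 92898) (nat_lit 0) (nat_lit 0) (XT.nd (nat_lit 32136) (nat_lit 0) (nat_lit 0) xc52 xc53) (XT.nd (nat_lit 32682) (nat_lit 0) (nat_lit 0) xc54 xc55))) (XT.nd (nat_lit 219414) (nat_lit 0) (nat_lit 0) (XT.nd (nat_lit 94692) (nat_lit 0) (nat_lit 0) (XT.nd (nat_lit 32760) (nat_lit 0) (nat_lit 0) xc56 xc57) (XT.nd (nat_lit 62088) (nat_lit 0) (nat_lit 0) xc58 xc59)) (XT.nd (nat_lit 126516) (nat_lit 0) (nat_lit 152) (XT.nd (nat_lit 63102) (nat_lit 0) (nat_lit 0) xc60 xc61) (XT.nd (nat_lit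 93990) (nat_lit 0) (nat_lit 152) xc62 xc63)))))) XT.nil))

set_option maxRecDepth 10000000 in
noncomputable def Te : XT := XT.nil

set_option maxRecDepth 10000000 in
noncomputable def Tz : ZL := (ZL.cons (nat_lit 76) (nat_lit 3) (nat_lit 78765735570022635179) (ZL.cons (nat_lit 152) (nat_lit 6) (nat_lit 149220355840754279116) (ZL.cons (nat_lit 228) (nat_lit 6) (nat_lit 142376913062227355818) (ZL.cons (nat_lit 304) (nat_lit 3) (nat_lit 70557214713518860088) (ZL.cons (nat_lit 380) (nat_lit 6) (nat_lit 134506953866921394030) (ZL.cons (nat_lit 456) (nat_lit 6) (nat_lit 129268652464663894298) (ZL.cons (nat_lit 532) (nat_lit 3) (nat_lit 64085420303988627302) (ZL.cons (nat_lit 608) (nat_lit 6) (nat_lit 125297036714568878594) (ZL.cons (nat_lit 684) (nat_lit 6) (nat_lit 123244605852067769606) (ZL.cons (nat_lit 760) (nat_lit 6) (nat_lit 119631866745272970840) (ZL.cons (nat_lit 836) (nat_lit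 3) (nat_lit 59338623869729250773) (ZL.cons (nat_lit 912) (nat_lit 6) (nat_lit 116088455254600033884) (ZL.cons (nat_lit 988) (nat_lit 6) (nat_lit 117261939261590351380) (ZL.cons (nat_lit 1064) (nat_lit 6) (nat_lit 115477216772458952262) (ZL.cons (nat_lit 1140) (nat_lit 3) (nat_lit 56477113078714884825) (ZL.cons (nat_lit 1216) (nat_lit 6) (nat_lit 113581903649540869704) (ZL.cons (nat_lit 1292) (nat_lit 3) (nat_lit 56375900083111969940) (ZL.cons (nat_lit 1368) (nat_lit 6) (nat_lit 111402293558185074764) (ZL.cons (nat_lit 1444) (nat_lit 1) (nat_lit 18446744073709551617) ZL.nil)))))))))))))))))))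

noncomputable def vl : XL := ⟨(nat_lit 0), (nat_lit 76), (nat_lit 625947951), (nat_lit 152), (nat_lit 67804898), (nat_lit 152), (nat_lit 67804898), (nat_lit 1), (nat_lit 4), (nat_lit 2), (nat_lit 5), (nat_lit 2), (nat_lit 4), (nat_lit 0), (nat_lit 0), (nat_lit 0)⟩

noncomputable def cp0 : Nat := (nat_lit 212809121451758439875236895725355661529787751649087415769773375488)

noncomputable def cp1 : Nat := (nat_lit 953994273745732827370858829798645966992604054472308536627059546527872759921416609962016904721761912537782013327768438449282724281958575698972455547498682366203459759094542304344211276285071675926746434215962748394139887767126328251637450636938312191860491309911059364341784973395438550343651551075993447468963707609091058646804797038845385111077772354173670287666758000059062642102172515035264529982515310352302305432004312069509864229467597497268436992)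

noncomputable def rc0 : Nat := (nat_lit 953994273745732827370858829798645966992604054472308536627059546527872759921416609962016904721761912537782013327768438449282724281958575698972455547498682366203459759094542304344211276285071675926746434215962748394139887767126328251637450636938312191860491309911059364341784973395438550343651551075993447468963707609091058646804797038845385111077772354173670287666758000059062642102172515035264529982515310352302305432004312069509864229467597497268436992)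

end Vale.Agent.Lib.P154.PChain.BX.S0
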