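import Vale.Agent.Lib.P154.PChain.BX.R0_0

set_option linter.all false

namespace Vale.Agent.Lib.P154.PChain.BX.S1

open Vale.Agent.Lib.P154.Chain

noncomputable def pc0 : PT := (PT.nd (nat_lit 3072966) (PT.nd (nat_lit 2979288) (PT.nd (nat_lit 2885766) (PT.nd (nat_lit 2854488) (PT.nd (nat_lit 2854410) (PT.nd (nat_lit 2823210) PT.nil (PT.lf (nat_lit 76) (nat_lit 3) (nat_lit 1) (nat_lit 1) (nat_lit 105) (nat_lit 90) (nat_lit 105))) (PT.lf (nat_lit 152) (nat_lit 6) (nat_lit 2) (nat_lit 3) (nat_lit 104) (nat_lit 91) (nat_lit 105))) (PT.nd (nat_lit 31122) (PT.lf (nat_lit 152) (nat_lit 6) (nat_lit 2) (nat_lit 1) (nat_lit 105) (nat_lit 91) (nat_lit 104)) (PT.nd (nat_lit 78) (PT.lf (nat_lit 228) (nat_lit 6) (nat_lit 3) (nat_lit 3) (nat_lit 103) (nat_lit 92) (nat_lit 105)) (PT.lf (nat_lit 304) (nat_lit 3) (nat_lit 4) (nat_lit 1) (nat_lit 104) (nat_lit 92) (nat_lit 104))))) (PT.nd (nat_lit 62322)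 (PT.nd (nat_lit 31122) (PT.lf (nat_lit 228) (nat_lit 6) (nat_lit 3) (nat_lit 1) (nat_lit 105) (nat_lit 92) (nat_lit 103)) (PT.nd (nat_lit 78) (PT.lf (nat_lit 380) (nat_lit 6) (nat_lit 5) (nat_lit 3) (nat_lit 103) (nat_lit 93) (nat_lit 104)) (PT.lf (nat_lit 380) (nat_lit 6) (nat_lit 5) (nat_lit 1) (nat_lit 104) (nat_lit 93) (nat_lit 103)))) (PT.nd (nat_lit 78) (PT.lf (nat_lit 456) (nat_lit 6) (nat_lit 6) (nat_lit 3) (nat_lit 102) (nat_lit 94) (nat_lit 104)) (PT.nd (nat_lit 78) (PT.lf (nat_lit 532) (nat_lit 3) (nat_lit 7) (nat_lit 1) (nat_lit 103) (nat_lit 94) (nat_lit 103)) (PT.lf (nat_lit 456) (nat_lit 6) (nat_lit 6) (nat_lit 1) (nat_lit 104) (nat_lit 94) (nat_lit 102)))))) (PT.nd (nat_lit 31356) (PT.nd (nat_lit 156) (PT.nd (nat_lit 78) (PT.lf (nat_lit 608) (nat_lit 6) (nat_lit 8) (nat_lit 3) (nat_lit 101) (nat_lit 95) (nat_lit 104)) (PT.lf (nat_lit 684) (nat_lit 6) (nat_lit 9) (nat_lit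 3) (nat_lit 102) (nat_lit 95) (nat_lit 103))) (PT.nd (nat_lit 78) (PT.lf (nat_lit 684) (nat_lit 6) (nat_lit 9) (nat_lit 1) (nat_lit 103) (nat_lit 95) (nat_lit 102)) (PT.nd (nat_lit 31044) (PT.lf (nat_lit 608) (nat_lit 6) (nat_lit 8) (nat_lit 1) (nat_lit 104) (nat_lit 95) (nat_lit 101)) (PT.lf (nat_lit 760) (nat_lit 6) (nat_lit 10) (nat_lit 3) (nat_lit 101) (nat_lit 96) (nat_lit 103))))) (PT.nd (nat_lit 31200) (PT.nd (nat_lit 78) (PT.lf (nat_lit 836) (nat_lit 3) (nat_lit 11) (nat_lit 1) (nat_lit 102) (nat_lit 96) (nat_lit 102)) (PT.nd (nat_lit 31044) (PT.lf (nat_lit 760) (nat_lit 6) (nat_lit 10) (nat_lit 1) (nat_lit 103) (nat_lit 96) (nat_lit 101)) (PT.lf (nat_lit 988) (nat_lit 6) (nat_lit 13) (nat_lit 3) (nat_lit 100) (nat_lit 97) (nat_lit 103)))) (PT.nd (nat_lit 78) (PT.lf (nat_lit 1064) (nat_lit 6) (nat_lit 14) (nat_lit 3) (nat_lit 101) (nat_lit 97) (nat_lit 102)) (PT.nd (nat_lit 78)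 (PT.lf (nat_lit 1064) (nat_lit 6) (nat_lit 14) (nat_lit 1) (nat_lit 102) (nat_lit 97) (nat_lit 101)) (PT.lf (nat_lit 988) (nat_lit 6) (nat_lit 13) (nat_lit 1) (nat_lit 103) (nat_lit 97) (nat_lit 100))))))) (PT.nd (nat_lit 62400) (PT.nd (nat_lit 31200) (PT.nd (nat_lit 156) (PT.nd (nat_lit 78) (PT.lf (nat_lit 912) (nat_lit 6) (nat_lit 12) (nat_lit 3) (nat_lit 99) (nat_lit 98) (nat_lit 103)) (PT.lf (nat_lit 1216) (nat_lit 6) (nat_lit 16) (nat_lit 3) (nat_lit 100) (nat_lit 98) (nat_lit 102))) (PT.nd (nat_lit 78) (PT.lf (nat_lit 1292) (nat_lit 3) (nat_lit 17) (nat_lit 1) (nat_lit 101) (nat_lit 98) (nat_lit 101)) (PT.nd (nat_lit 78) (PT.lf (nat_lit 1216) (nat_lit 6) (nat_lit 16) (nat_lit 1) (nat_lit 102) (nat_lit 98) (nat_lit 100)) (PT.lf (nat_lit 912) (nat_lit 6) (nat_lit 12) (nat_lit 1) (nat_lit 103) (nat_lit 98) (nat_lit 99))))) (PT.nd (nat_lit 234) (PT.nd (nat_lit 78) (PT.lf (nat_lit 912)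 (nat_lit 6) (nat_lit 12) (nat_lit 5) (nat_lit 98) (nat_lit 99) (nat_lit 103)) (PT.nd (nat_lit 78) (PT.lf (nat_lit 1140) (nat_lit 3) (nat_lit 15) (nat_lit 3) (nat_lit 99) (nat_lit 99) (nat_lit 102)) (PT.lf (nat_lit 1368) (nat_lit 6) (nat_lit 18) (nat_lit 3) (nat_lit 100) (nat_lit 99) (nat_lit 101)))) (PT.nd (nat_lit 78) (PT.lf (nat_lit 1368) (nat_lit 6) (nat_lit 18) (nat_lit 1) (nat_lit 101) (nat_lit 99) (nat_lit 100)) (PT.nd (nat_lit 78) (PT.lf (nat_lit 1140) (nat_lit 3) (nat_lit 15) (nat_lit 0) (nat_lit 102) (nat_lit 99) (nat_lit 99)) (PT.lf (nat_lit 912) (nat_lit 6) (nat_lit 12) (nat_lit 0) (nat_lit 103) (nat_lit 99) (nat_lit 98)))))) (PT.nd (nat_lit 468) (PT.nd (nat_lit 234) (PT.nd (nat_lit 78) (PT.lf (nat_lit 988) (nat_lit 6) (nat_lit 13) (nat_lit 5) (nat_lit 97) (nat_lit 100) (nat_lit 103)) (PT.nd (nat_lit 78) (PT.lf (nat_lit 1216) (nat_lit 6) (nat_lit 16) (nat_lit 5) (nat_lit 98)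 (nat_lit 100) (nat_lit 102)) (PT.lf (nat_lit 1368) (nat_lit 6) (nat_lit 18) (nat_lit 5) (nat_lit 99) (nat_lit 100) (nat_lit 101)))) (PT.nd (nat_lit 78) (PT.lf (nat_lit 1444) (nat_lit 1) (nat_lit 19) (nat_lit 0) (nat_lit 100) (nat_lit 100) (nat_lit 100)) (PT.nd (nat_lit 78) (PT.lf (nat_lit 1368) (nat_lit 6) (nat_lit 18) (nat_lit 0) (nat_lit 101) (nat_lit 100) (nat_lit 99)) (PT.lf (nat_lit 1216) (nat_lit 6) (nat_lit 16) (nat_lit 0) (nat_lit 102) (nat_lit 100) (nat_lit 98))))) (PT.nd (nat_lit 30810) (PT.nd (nat_lit 30654) (PT.lf (nat_lit 988) (nat_lit 6) (nat_lit 13) (nat_lit 0) (nat_lit 103) (nat_lit 100) (nat_lit 97)) (PT.nd (nat_lit 78) (PT.lf (nat_lit 608) (nat_lit 6) (nat_lit 8) (nat_lit 5) (nat_lit 95) (nat_lit 101) (nat_lit 104)) (PT.lf (nat_lit 760) (nat_lit 6) (nat_lit 10) (nat_lit 5) (nat_lit 96) (nat_lit 101) (nat_lit 103)))) (PT.nd (nat_lit 78) (PT.lf (nat_lit 1064) (nat_lit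 6) (nat_lit 14) (nat_lit 5) (nat_lit 97) (nat_lit 101) (nat_lit 102)) (PT.nd (nat_lit 78) (PT.lf (nat_lit 1292) (nat_lit 3) (nat_lit 17) (nat_lit 4) (nat_lit 98) (nat_lit 101) (nat_lit 101)) (PT.lf (nat_lit 1368) (nat_lit 6) (nat_lit 18) (nat_lit 4) (nat_lit 99) (nat_lit 101) (nat_lit 100))))))))
noncomputable def pc1 : PT := (PT.nd (nat_lit 62478) (PT.nd (nat_lit 31278) (PT.nd (nat_lit 30810) (PT.nd (nat_lit 156) (PT.nd (nat_lit 78) (PT.lf (nat_lit 1368) (nat_lit 6) (nat_lit 18) (nat_lit 2) (nat_lit 100) (nat_lit 101) (nat_lit 99)) (PT.lf (nat_lit 1292) (nat_lit 3) (nat_lit 17) (nat_lit 0) (nat_lit 101) (nat_lit 101) (nat_lit 98))) (PT.nd (nat_lit 78) (PT.lf (nat_lit 1064) (nat_lit 6) (nat_lit 14) (nat_lit 0) (nat_lit 102) (nat_lit 101) (nat_lit 97)) (PT.nd (nat_lit 78) (PT.lf (nat_lit 760) (nat_lit 6) (nat_lit 10) (nat_lit 0) (nat_lit 103) (nat_lit 101) (nat_lit 96)) (PT.lf (nat_lit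 608) (nat_lit 6) (nat_lit 8) (nat_lit 0) (nat_lit 104) (nat_lit 101) (nat_lit 95))))) (PT.nd (nat_lit 234) (PT.nd (nat_lit 78) (PT.lf (nat_lit 456) (nat_lit 6) (nat_lit 6) (nat_lit 5) (nat_lit 94) (nat_lit 102) (nat_lit 104)) (PT.nd (nat_lit 78) (PT.lf (nat_lit 684) (nat_lit 6) (nat_lit 9) (nat_lit 5) (nat_lit 95) (nat_lit 102) (nat_lit 103)) (PT.lf (nat_lit 836) (nat_lit 3) (nat_lit 11) (nat_lit 4) (nat_lit 96) (nat_lit 102) (nat_lit 102)))) (PT.nd (nat_lit 78) (PT.lf (nat_lit 1064) (nat_lit 6) (nat_lit 14) (nat_lit 4) (nat_lit 97) (nat_lit 102) (nat_lit 101)) (PT.nd (nat_lit 78) (PT.lf (nat_lit 1216) (nat_lit 6) (nat_lit 16) (nat_lit 4) (nat_lit 98) (nat_lit 102) (nat_lit 100)) (PT.lf (nat_lit 1140) (nat_lit 3) (nat_lit 15) (nat_lit 2) (nat_lit 99) (nat_lit 102) (nat_lit 99)))))) (PT.nd (nat_lit 30732) (PT.nd (nat_lit 234) (PT.nd (nat_lit 78) (PT.lf (nat_lit 1216) (nat_lit 6) (nat_lit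 16) (nat_lit 2) (nat_lit 100) (nat_lit 102) (nat_lit 98)) (PT.nd (nat_lit 78) (PT.lf (nat_lit 1064) (nat_lit 6) (nat_lit 14) (nat_lit 2) (nat_lit 101) (nat_lit 102) (nat_lit 97)) (PT.lf (nat_lit 836) (nat_lit 3) (nat_lit 11) (nat_lit 0) (nat_lit 102) (nat_lit 102) (nat_lit 96)))) (PT.nd (nat_lit 78) (PT.lf (nat_lit 684) (nat_lit 6) (nat_lit 9) (nat_lit 0) (nat_lit 103) (nat_lit 102) (nat_lit 95)) (PT.nd (nat_lit 30342) (PT.lf (nat_lit 456) (nat_lit 6) (nat_lit 6) (nat_lit 0) (nat_lit 104) (nat_lit 102) (nat_lit 94)) (PT.lf (nat_lit 228) (nat_lit 6) (nat_lit 3) (nat_lit 5) (nat_lit 92) (nat_lit 103) (nat_lit 105))))) (PT.nd (nat_lit 234) (PT.nd (nat_lit 78) (PT.lf (nat_lit 380) (nat_lit 6) (nat_lit 5) (nat_lit 5) (nat_lit 93) (nat_lit 103) (nat_lit 104)) (PT.nd (nat_lit 78) (PT.lf (nat_lit 532) (nat_lit 3) (nat_lit 7) (nat_lit 4) (nat_lit 94) (nat_lit 103) (nat_lit 103)) (PT.lf (nat_lit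 684) (nat_lit 6) (nat_lit 9) (nat_lit 4) (nat_lit 95) (nat_lit 103) (nat_lit 102)))) (PT.nd (nat_lit 78) (PT.lf (nat_lit 760) (nat_lit 6) (nat_lit 10) (nat_lit 4) (nat_lit 96) (nat_lit 103) (nat_lit 101)) (PT.nd (nat_lit 78) (PT.lf (nat_lit 988) (nat_lit 6) (nat_lit 13) (nat_lit 4) (nat_lit 97) (nat_lit 103) (nat_lit 100)) (PT.lf (nat_lit 912) (nat_lit 6) (nat_lit 12) (nat_lit 4) (nat_lit 98) (nat_lit 103) (nat_lit 99))))))) (PT.nd (nat_lit 30966) (PT.nd (nat_lit 390) (PT.nd (nat_lit 156) (PT.nd (nat_lit 78) (PT.lf (nat_lit 912) (nat_lit 6) (nat_lit 12) (nat_lit 2) (nat_lit 99) (nat_lit 103) (nat_lit 98)) (PT.lf (nat_lit 988) (nat_lit 6) (nat_lit 13) (nat_lit 2) (nat_lit 100) (nat_lit 103) (nat_lit 97))) (PT.nd (nat_lit 78) (PT.lf (nat_lit 760) (nat_lit 6) (nat_lit 10) (nat_lit 2) (nat_lit 101) (nat_lit 103) (nat_lit 96)) (PT.nd (nat_lit 78) (PT.lf (nat_lit 684) (nat_lit 6) (nat_lit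 9) (nat_lit 2) (nat_lit 102) (nat_lit 103) (nat_lit 95)) (PT.lf (nat_lit 532) (nat_lit 3) (nat_lit 7) (nat_lit 0) (nat_lit 103) (nat_lit 103) (nat_lit 94))))) (PT.nd (nat_lit 30342) (PT.nd (nat_lit 78) (PT.lf (nat_lit 380) (nat_lit 6) (nat_lit 5) (nat_lit 0) (nat_lit 104) (nat_lit 103) (nat_lit 93)) (PT.nd (nat_lit 30186) (PT.lf (nat_lit 228) (nat_lit 6) (nat_lit 3) (nat_lit 0) (nat_lit 105) (nat_lit 103) (nat_lit 92)) (PT.lf (nat_lit 152) (nat_lit 6) (nat_lit 2) (nat_lit 5) (nat_lit 91) (nat_lit 104) (nat_lit 105)))) (PT.nd (nat_lit 78) (PT.lf (nat_lit 304) (nat_lit 3) (nat_lit 4) (nat_lit 4) (nat_lit 92) (nat_lit 104) (nat_lit 104)) (PT.nd (nat_lit 78) (PT.lf (nat_lit 380) (nat_lit 6) (nat_lit 5) (nat_lit 4) (nat_lit 93) (nat_lit 104) (nat_lit 103)) (PT.lf (nat_lit 456) (nat_lit 6) (nat_lit 6) (nat_lit 4) (nat_lit 94) (nat_lit 104) (nat_lit 102)))))) (PT.nd (nat_lit 30888) (PT.nd (nat_lit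 624) (PT.nd (nat_lit 468) (PT.lf (nat_lit 608) (nat_lit 6) (nat_lit 8) (nat_lit 4) (nat_lit 95) (nat_lit 104) (nat_lit 101)) (PT.nd (nat_lit 78) (PT.lf (nat_lit 608) (nat_lit 6) (nat_lit 8) (nat_lit 2) (nat_lit 101) (nat_lit 104) (nat_lit 95)) (PT.lf (nat_lit 456) (nat_lit 6) (nat_lit 6) (nat_lit 2) (nat_lit 102) (nat_lit 104) (nat_lit 94)))) (PT.nd (nat_lit 78) (PT.lf (nat_lit 380) (nat_lit 6) (nat_lit 5) (nat_lit 2) (nat_lit 103) (nat_lit 104) (nat_lit 93)) (PT.nd (nat_lit 78) (PT.lf (nat_lit 304) (nat_lit 3) (nat_lit 4) (nat_lit 0) (nat_lit 104) (nat_lit 104) (nat_lit 92)) (PT.lf (nat_lit 152) (nat_lit 6) (nat_lit 2) (nat_lit 0) (nat_lit 105) (nat_lit 104) (nat_lit 91))))) (PT.nd (nat_lit 1014) (PT.nd (nat_lit 78) (PT.lf (nat_lit 76) (nat_lit 3) (nat_lit 1) (nat_lit 4) (nat_lit 90) (nat_lit 105) (nat_lit 105)) (PT.nd (nat_lit 78) (PT.lf (nat_lit 152) (nat_lit 6) (nat_lit 2) (nat_lit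 4) (nat_lit 91) (nat_lit 105) (nat_lit 104)) (PT.lf (nat_lit 228) (nat_lit 6) (nat_lit 3) (nat_lit 4) (nat_lit 92) (nat_lit 105) (nat_lit 103)))) (PT.nd (nat_lit 78) (PT.lf (nat_lit 228) (nat_lit 6) (nat_lit 3) (nat_lit 2) (nat_lit 103) (nat_lit 105) (nat_lit 92)) (PT.nd (nat_lit 78) (PT.lf (nat_lit 152) (nat_lit 6) (nat_lit 2) (nat_lit 2) (nat_lit 104) (nat_lit 105) (nat_lit 91)) (PT.lf (nat_lit 76) (nat_lit 3) (nat_lit 1) (nat_lit 0) (nat_lit 105) (nat_lit 105) (nat_lit 90))))))))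
noncomputable def xc0 : XT := (XT.nd (nat_lit 93678) (nat_lit 0) (nat_lit 0) (XT.nd (nat_lit 62400) (nat_lit 0) (nat_lit 0) (XT.nd (nat_lit 31278) (nat_lit 0) (nat_lit 0) (XT.nd (nat_lit 31122) (nat_lit 0) (nat_lit 0) (XT.nd (nat_lit 78) (nat_lit 0) (nat_lit 0) (XT.lf (nat_lit 0) (nat_lit 1588026691227) (nat_lit 76) (nat_lit 161156325741) (nat_lit 76) (nat_lit 161156325741) (nat_lit 1) (nat_lit 4) (nat_lit 2) (nat_lit 5) (nat_lit 2) (nat_lit 4) (nat_lit 256) (nat_lit 172) (nat_lit 172)) (XT.lf (nat_lit 0) (nat_lit 3653249548312) (nat_lit 76) (nat_lit 370269737487) (nat_lit 76) (nat_lit 370223263617) (nat_lit 1) (nat_lit 4) (nat_lit 2) (nat_lit 5) (nat_lit 2) (nat_lit 4) (nat_lit 257) (nat_lit 172) (nat_lit 171))) (XT.nd (nat_lit 78) (nat_lit 0) (nat_lit 0) (XT.lf (nat_lit 0) (nat_lit 1200055145476) (nat_lit 76) (nat_lit 122235282833) (nat_lit 76) (nat_lit 122235282833) (nat_lit 1) (nat_lit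 4) (nat_lit 2) (nat_lit 5) (nat_lit 2) (nat_lit 4) (nat_lit 254) (nat_lit 173) (nat_lit 173)) (XT.lf (nat_lit 0) (nat_lit 2761033216858) (nat_lit 76) (nat_lit 280692867042) (nat_lit 76) (nat_lit 280639422092) (nat_lit 1) (nat_lit 4) (nat_lit 2) (nat_lit 5) (nat_lit 2) (nat_lit 4) (nat_lit 255) (nat_lit 173) (nat_lit 172)))) (XT.nd (nat_lit 30966) (nat_lit 0) (nat_lit 0) (XT.nd (nat_lit 78) (nat_lit 0) (nat_lit 0) (XT.lf (nat_lit 0) (nat_lit 3176017557069) (nat_lit 76) (nat_lit 322381385831) (nat_lit 76) (nat_lit 322281467011) (nat_lit 1) (nat_lit 4) (nat_lit 2) (nat_lit 5) (nat_lit 2) (nat_lit 4) (nat_lit 256) (nat_lit 173) (nat_lit 171)) (XT.lf (nat_lit 0) (nat_lit 3653182570417) (nat_lit 76) (nat_lit 370351766965) (nat_lit 76) (nat_lit 370211436084) (nat_lit 1) (nat_lit 4) (nat_lit 2) (nat_lit 5) (nat_lit 2) (nat_lit 4) (nat_lit 257) (nat_lit 173) (nat_lit 170))) (XT.nd (nat_lit 78)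 (nat_lit 0) (nat_lit 0) (XT.lf (nat_lit 0) (nat_lit 906584740976) (nat_lit 76) (nat_lit 92862074866) (nat_lit 76) (nat_lit 92862074866) (nat_lit 1) (nat_lit 4) (nat_lit 2) (nat_lit 5) (nat_lit 2) (nat_lit 4) (nat_lit 252) (nat_lit 174) (nat_lit 174)) (XT.lf (nat_lit 0) (nat_lit 2086187243848) (nat_lit 76) (nat_lit 213067246197) (nat_lit 76) (nat_lit 213005784505) (nat_lit 1) (nat_lit 4) (nat_lit 2) (nat_lit 5) (nat_lit 2) (nat_lit 4) (nat_lit 253) (nat_lit 174) (nat_lit 173))))) (XT.nd (nat_lit 30966) (nat_lit 0) (nat_lit 0) (XT.nd (nat_lit 156) (nat_lit 0) (nat_lit 0) (XT.nd (nat_lit 78) (nat_lit 0) (nat_lit 0) (XT.lf (nat_lit 0) (nat_lit 2400069091760) (nat_lit 76) (nat_lit 244549610168) (nat_lit 76) (nat_lit 244434703526) (nat_lit 1) (nat_lit 4) (nat_lit 2) (nat_lit 5) (nat_lit 2) (nat_lit 4) (nat_lit 254) (nat_lit 174) (nat_lit 172)) (XT.lf (nat_lit 0) (nat_lit 2760956192279) (nat_lit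 76) (nat_lit 280787200942) (nat_lit 76) (nat_lit 280625820430) (nat_lit 1) (nat_lit 4) (nat_lit 2) (nat_lit 5) (nat_lit 2) (nat_lit 4) (nat_lit 255) (nat_lit 174) (nat_lit 171))) (XT.nd (nat_lit 78) (nat_lit 0) (nat_lit 0) (XT.lf (nat_lit 0) (nat_lit 3175909379980) (nat_lit 76) (nat_lit 322489014859) (nat_lit 76) (nat_lit 322287222286) (nat_lit 1) (nat_lit 4) (nat_lit 2) (nat_lit 5) (nat_lit 2) (nat_lit 4) (nat_lit 256) (nat_lit 174) (nat_lit 170)) (XT.lf (nat_lit 0) (nat_lit 3653047304189) (nat_lit 76) (nat_lit 370470956975) (nat_lit 76) (nat_lit 370234023480) (nat_lit 1) (nat_lit 4) (nat_lit 2) (nat_lit 5) (nat_lit 2) (nat_lit 4) (nat_lit 257) (nat_lit 174) (nat_lit 169)))) (XT.nd (nat_lit 156) (nat_lit 0) (nat_lit 0) (XT.nd (nat_lit 78) (nat_lit 0) (nat_lit 0) (XT.lf (nat_lit 0) (nat_lit 684554549422) (nat_lit 76) (nat_lit 70716905649) (nat_lit 76) (nat_lit 70716905649) (nat_lit 1)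 (nat_lit 4) (nat_lit 2) (nat_lit 5) (nat_lit 2) (nat_lit 4) (nat_lit 250) (nat_lit 175) (nat_lit 175)) (XT.lf (nat_lit 0) (nat_lit 1575674154214) (nat_lit 76) (nat_lit 162056028097) (nat_lit 76) (nat_lit 161985347151) (nat_lit 1) (nat_lit 4) (nat_lit 2) (nat_lit 5) (nat_lit 2) (nat_lit 4) (nat_lit 251) (nat_lit 175) (nat_lit 174))) (XT.nd (nat_lit 78) (nat_lit 0) (nat_lit 0) (XT.lf (nat_lit 0) (nat_lit 1813122102881) (nat_lit 76) (nat_lit 185815050909) (nat_lit 76) (nat_lit 185682908270) (nat_lit 1) (nat_lit 4) (nat_lit 2) (nat_lit 5) (nat_lit 2) (nat_lit 4) (nat_lit 252) (nat_lit 175) (nat_lit 173)) (XT.lf (nat_lit 0) (nat_lit 2086098665581) (nat_lit 76) (nat_lit 213175730181) (nat_lit 76) (nat_lit 212990142592) (nat_lit 1) (nat_lit 4) (nat_lit 2) (nat_lit 5) (nat_lit 2) (nat_lit 4) (nat_lit 253) (nat_lit 175) (nat_lit 172)))))) (XT.nd (nat_lit 31122) (nat_lit 0) (nat_lit 0) (XT.nd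 (nat_lit 30810) (nat_lit 0) (nat_lit 0) (XT.nd (nat_lit 156) (nat_lit 0) (nat_lit 0) (XT.nd (nat_lit 78) (nat_lit 0) (nat_lit 0) (XT.lf (nat_lit 0) (nat_lit 2399944688107) (nat_lit 76) (nat_lit 244673383551) (nat_lit 76) (nat_lit 244441322092) (nat_lit 1) (nat_lit 4) (nat_lit 2) (nat_lit 5) (nat_lit 2) (nat_lit 4) (nat_lit 254) (nat_lit 175) (nat_lit 171)) (XT.lf (nat_lit 0) (nat_lit 2760800636117) (nat_lit 76) (nat_lit 280924269454) (nat_lit 76) (nat_lit 280651795935) (nat_lit 1) (nat_lit 4) (nat_lit 2) (nat_lit 5) (nat_lit 2) (nat_lit 4) (nat_lit 255) (nat_lit 175) (nat_lit 170))) (XT.nd (nat_lit 78) (nat_lit 0) (nat_lit 0) (XT.lf (nat_lit 0) (nat_lit 3175726734680) (nat_lit 76) (nat_lit 322637644353) (nat_lit 76) (nat_lit 322330029912) (nat_lit 1) (nat_lit 4) (nat_lit 2) (nat_lit 5) (nat_lit 2) (nat_lit 4) (nat_lit 256) (nat_lit 175) (nat_lit 169)) (XT.lf (nat_lit 0) (nat_lit 3652841103116)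 (nat_lit 76) (nat_lit 370629639496) (nat_lit 76) (nat_lit 370291467732) (nat_lit 1) (nat_lit 4) (nat_lit 2) (nat_lit 5) (nat_lit 2) (nat_lit 4) (nat_lit 257) (nat_lit 175) (nat_lit 168)))) (XT.nd (nat_lit 156) (nat_lit 0) (nat_lit 0) (XT.nd (nat_lit 78) (nat_lit 0) (nat_lit 0) (XT.lf (nat_lit 0) (nat_lit 516524761930) (nat_lit 76) (nat_lit 54046951555) (nat_lit 76) (nat_lit 54046951555) (nat_lit 1) (nat_lit 4) (nat_lit 2) (nat_lit 5) (nat_lit 2) (nat_lit 4) (nat_lit 248) (nat_lit 176) (nat_lit 176)) (XT.lf (nat_lit 0) (nat_lit 1189385446562) (nat_lit 76) (nat_lit 123626205446) (nat_lit 76) (nat_lit 123544922358) (nat_lit 1) (nat_lit 4) (nat_lit 2) (nat_lit 5) (nat_lit 2) (nat_lit 4) (nat_lit 249) (nat_lit 176) (nat_lit 175))) (XT.nd (nat_lit 78) (nat_lit 0) (nat_lit 0) (XT.lf (nat_lit 0) (nat_lit 1369054612912) (nat_lit 76) (nat_lit 141538347651) (nat_lit 76) (nat_lit 141386383616) (nat_lit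 1) (nat_lit 4) (nat_lit 2) (nat_lit 5) (nat_lit 2) (nat_lit 4) (nat_lit 250) (nat_lit 176) (nat_lit 174)) (XT.lf (nat_lit 0) (nat_lit 1575572289207) (nat_lit 76) (nat_lit 162180784679) (nat_lit 76) (nat_lit 161967358952) (nat_lit 1) (nat_lit 4) (nat_lit 2) (nat_lit 5) (nat_lit 2) (nat_lit 4) (nat_lit 251) (nat_lit 176) (nat_lit 173))))) (XT.nd (nat_lit 312) (nat_lit 0) (nat_lit 0) (XT.nd (nat_lit 156) (nat_lit 0) (nat_lit 0) (XT.nd (nat_lit 78) (nat_lit 0) (nat_lit 0) (XT.lf (nat_lit 0) (nat_lit 1812979038680) (nat_lit 76) (nat_lit 185957390300) (nat_lit 76) (nat_lit 185690519622) (nat_lit 1) (nat_lit 4) (nat_lit 2) (nat_lit 5) (nat_lit 2) (nat_lit 4) (nat_lit 252) (nat_lit 176) (nat_lit 172)) (XT.lf (nat_lit 0) (nat_lit 2085919775995) (nat_lit 76) (nat_lit 213333358970) (nat_lit 76) (nat_lit 213020014423) (nat_lit 1) (nat_lit 4) (nat_lit 2) (nat_lit 5) (nat_lit 2) (nat_lit 4) (nat_lit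 253) (nat_lit 176) (nat_lit 171))) (XT.nd (nat_lit 78) (nat_lit 0) (nat_lit 0) (XT.lf (nat_lit 0) (nat_lit 2399734646012) (nat_lit 76) (nat_lit 244844307469) (nat_lit 76) (nat_lit 244490550861) (nat_lit 1) (nat_lit 4) (nat_lit 2) (nat_lit 5) (nat_lit 2) (nat_lit 4) (nat_lit 254) (nat_lit 176) (nat_lit 170)) (XT.lf (nat_lit 0) (nat_lit 2760563504883) (nat_lit 76) (nat_lit 281106754353) (nat_lit 76) (nat_lit 280717856824) (nat_lit 1) (nat_lit 4) (nat_lit 2) (nat_lit 5) (nat_lit 2) (nat_lit 4) (nat_lit 255) (nat_lit 176) (nat_lit 169)))) (XT.nd (nat_lit 30498) (nat_lit 0) (nat_lit 0) (XT.nd (nat_lit 78) (nat_lit 0) (nat_lit 0) (XT.lf (nat_lit 0) (nat_lit 3175466047673) (nat_lit 76) (nat_lit 322830182280) (nat_lit 76) (nat_lit 322410727427) (nat_lit 1) (nat_lit 4) (nat_lit 2) (nat_lit 5) (nat_lit 2) (nat_lit 4) (nat_lit 256) (nat_lit 176) (nat_lit 168)) (XT.lf (nat_lit 0) (nat_lit 3652559932829)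 (nat_lit 76) (nat_lit 370830919187) (nat_lit 76) (nat_lit 370384892748) (nat_lit 1) (nat_lit 4) (nat_lit 2) (nat_lit 5) (nat_lit 2) (nat_lit 4) (nat_lit 257) (nat_lit 176) (nat_lit 167))) (XT.nd (nat_lit 78) (nat_lit 0) (nat_lit 0) (XT.lf (nat_lit 0) (nat_lit 389305578370) (nat_lit 76) (nat_lit 41528293009) (nat_lit 76) (nat_lit 41528293009) (nat_lit 1) (nat_lit 4) (nat_lit 2) (nat_lit 5) (nat_lit 2) (nat_lit 4) (nat_lit 246) (nat_lit 177) (nat_lit 177)) (XT.nd (nat_lit 78) (nat_lit 0) (nat_lit 0) (XT.lf (nat_lit 0) (nat_lit 896988098493) (nat_lit 76) (nat_lit 94731023321) (nat_lit 76) (nat_lit 94637547770) (nat_lit 1) (nat_lit 4) (nat_lit 2) (nat_lit 5) (nat_lit 2) (nat_lit 4) (nat_lit 247) (nat_lit 177) (nat_lit 176)) (XT.lf (nat_lit 0) (nat_lit 1032986865037) (nat_lit 76) (nat_lit 108214119915) (nat_lit 76) (nat_lit 108039361275) (nat_lit 1) (nat_lit 4) (nat_lit 2) (nat_lit 5) (nat_lit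 2) (nat_lit 4) (nat_lit 248) (nat_lit 177) (nat_lit 175))))))))
noncomputable def xc1 : XT := (XT.nd (nat_lit 31434) (nat_lit 0) (nat_lit 0) (XT.nd (nat_lit 624) (nat_lit 0) (nat_lit 0) (XT.nd (nat_lit 312) (nat_lit 0) (nat_lit 0) (XT.nd (nat_lit 156) (nat_lit 0) (nat_lit 0) (XT.nd (nat_lit 78) (nat_lit 0) (nat_lit 0) (XT.lf (nat_lit 0) (nat_lit 1189268301805) (nat_lit 76) (nat_lit 123769675515) (nat_lit 76) (nat_lit 123524235929) (nat_lit 1) (nat_lit 4) (nat_lit 2) (nat_lit 5) (nat_lit 2) (nat_lit 4) (nat_lit 249) (nat_lit 177) (nat_lit 174)) (XT.lf (nat_lit 0) (nat_lit 1368890089081) (nat_lit 76) (nat_lit 141702037949) (nat_lit 76) (nat_lit 141395136670) (nat_lit 1) (nat_lit 4) (nat_lit 2) (nat_lit 5) (nat_lit 2) (nat_lit 4) (nat_lit 250) (nat_lit 177) (nat_lit 173))) (XT.nd (nat_lit 78) (nat_lit 0) (nat_lit 0) (XT.lf (nat_lit 0) (nat_lit 1575366566183) (nat_lit 76) (nat_lit 162362057786)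 (nat_lit 76) (nat_lit 162001711557) (nat_lit 1) (nat_lit 4) (nat_lit 2) (nat_lit 5) (nat_lit 2) (nat_lit 4) (nat_lit 251) (nat_lit 177) (nat_lit 172)) (XT.lf (nat_lit 0) (nat_lit 1812737490271) (nat_lit 76) (nat_lit 186153952805) (nat_lit 76) (nat_lit 185747132707) (nat_lit 1) (nat_lit 4) (nat_lit 2) (nat_lit 5) (nat_lit 2) (nat_lit 4) (nat_lit 252) (nat_lit 177) (nat_lit 171)))) (XT.nd (nat_lit 156) (nat_lit 0) (nat_lit 0) (XT.nd (nat_lit 78) (nat_lit 0) (nat_lit 0) (XT.lf (nat_lit 0) (nat_lit 2085647075076) (nat_lit 76) (nat_lit 213543216605) (nat_lit 76) (nat_lit 213095984446) (nat_lit 1) (nat_lit 4) (nat_lit 2) (nat_lit 5) (nat_lit 2) (nat_lit 4) (nat_lit 253) (nat_lit 177) (nat_lit 170)) (XT.lf (nat_lit 0) (nat_lit 2399434855954) (nat_lit 76) (nat_lit 245065726085) (nat_lit 76) (nat_lit 244583353004) (nat_lit 1) (nat_lit 4) (nat_lit 2) (nat_lit 5) (nat_lit 2) (nat_lit 4) (nat_lit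 254) (nat_lit 177) (nat_lit 169))) (XT.nd (nat_lit 78) (nat_lit 0) (nat_lit 0) (XT.lf (nat_lit 0) (nat_lit 2760240159052) (nat_lit 76) (nat_lit 281338225998) (nat_lit 76) (nat_lit 280825295593) (nat_lit 1) (nat_lit 4) (nat_lit 2) (nat_lit 5) (nat_lit 2) (nat_lit 4) (nat_lit 255) (nat_lit 177) (nat_lit 168)) (XT.lf (nat_lit 0) (nat_lit 3175122218562) (nat_lit 76) (nat_lit 323070395688) (nat_lit 76) (nat_lit 322530893697) (nat_lit 1) (nat_lit 4) (nat_lit 2) (nat_lit 5) (nat_lit 2) (nat_lit 4) (nat_lit 256) (nat_lit 177) (nat_lit 167))))) (XT.nd (nat_lit 30498) (nat_lit 0) (nat_lit 0) (XT.nd (nat_lit 30342) (nat_lit 0) (nat_lit 0) (XT.nd (nat_lit 30264) (nat_lit 0) (nat_lit 0) (XT.lf (nat_lit 0) (nat_lit 3652198292169) (nat_lit 76) (nat_lit 371078734128) (nat_lit 76) (nat_lit 370516126410) (nat_lit 1) (nat_lit 4) (nat_lit 2) (nat_lit 5) (nat_lit 2) (nat_lit 4) (nat_lit 257) (nat_lit 177)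 (nat_lit 166)) (XT.lf (nat_lit 0) (nat_lit 292920395958) (nat_lit 76) (nat_lit 32161543555) (nat_lit 76) (nat_lit 32161543555) (nat_lit 1) (nat_lit 4) (nat_lit 2) (nat_lit 5) (nat_lit 2) (nat_lit 4) (nat_lit 244) (nat_lit 178) (nat_lit 178))) (XT.nd (nat_lit 78) (nat_lit 0) (nat_lit 0) (XT.lf (nat_lit 0) (nat_lit 675539969181) (nat_lit 76) (nat_lit 73069891987) (nat_lit 76) (nat_lit 72962395102) (nat_lit 1) (nat_lit 4) (nat_lit 2) (nat_lit 5) (nat_lit 2) (nat_lit 4) (nat_lit 245) (nat_lit 178) (nat_lit 177)) (XT.lf (nat_lit 0) (nat_lit 778539099093) (nat_lit 76) (nat_lit 83194835344) (nat_lit 76) (nat_lit 82993862908) (nat_lit 1) (nat_lit 4) (nat_lit 2) (nat_lit 5) (nat_lit 2) (nat_lit 4) (nat_lit 246) (nat_lit 178) (nat_lit 176)))) (XT.nd (nat_lit 156) (nat_lit 0) (nat_lit 0) (XT.nd (nat_lit 78) (nat_lit 0) (nat_lit 0) (XT.lf (nat_lit 0) (nat_lit 896853382022) (nat_lit 76) (nat_lit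 94896013901) (nat_lit 76) (nat_lit 94613758377) (nat_lit 1) (nat_lit 4) (nat_lit 2) (nat_lit 5) (nat_lit 2) (nat_lit 4) (nat_lit 247) (nat_lit 178) (nat_lit 175)) (XT.lf (nat_lit 0) (nat_lit 1032797662632) (nat_lit 76) (nat_lit 108402363759) (nat_lit 76) (nat_lit 108049427288) (nat_lit 1) (nat_lit 4) (nat_lit 2) (nat_lit 5) (nat_lit 2) (nat_lit 4) (nat_lit 248) (nat_lit 178) (nat_lit 174))) (XT.nd (nat_lit 78) (nat_lit 0) (nat_lit 0) (XT.lf (nat_lit 0) (nat_lit 1189031720327) (nat_lit 76) (nat_lit 123978139588) (nat_lit 76) (nat_lit 123563741425) (nat_lit 1) (nat_lit 4) (nat_lit 2) (nat_lit 5) (nat_lit 2) (nat_lit 4) (nat_lit 249) (nat_lit 178) (nat_lit 173)) (XT.lf (nat_lit 0) (nat_lit 1368612308410) (nat_lit 76) (nat_lit 141928084831) (nat_lit 76) (nat_lit 141460241717) (nat_lit 1) (nat_lit 4) (nat_lit 2) (nat_lit 5) (nat_lit 2) (nat_lit 4) (nat_lit 250) (nat_lit 178) (nat_lit 172))))))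 (XT.nd (nat_lit 30654) (nat_lit 0) (nat_lit 0) (XT.nd (nat_lit 312) (nat_lit 0) (nat_lit 0) (XT.nd (nat_lit 156) (nat_lit 0) (nat_lit 0) (XT.nd (nat_lit 78) (nat_lit 0) (nat_lit 0) (XT.lf (nat_lit 0) (nat_lit 1575052960126) (nat_lit 76) (nat_lit 162603394066) (nat_lit 76) (nat_lit 162089077083) (nat_lit 1) (nat_lit 4) (nat_lit 2) (nat_lit 5) (nat_lit 2) (nat_lit 4) (nat_lit 251) (nat_lit 178) (nat_lit 171)) (XT.lf (nat_lit 0) (nat_lit 1812392731704) (nat_lit 76) (nat_lit 186408584214) (nat_lit 76) (nat_lit 185853855171) (nat_lit 1) (nat_lit 4) (nat_lit 2) (nat_lit 5) (nat_lit 2) (nat_lit 4) (nat_lit 252) (nat_lit 178) (nat_lit 170))) (XT.nd (nat_lit 78) (nat_lit 0) (nat_lit 0) (XT.lf (nat_lit 0) (nat_lit 2085275227371) (nat_lit 76) (nat_lit 213809408996) (nat_lit 76) (nat_lit 213219539030) (nat_lit 1) (nat_lit 4) (nat_lit 2) (nat_lit 5) (nat_lit 2) (nat_lit 4) (nat_lit 253) (nat_lit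 178) (nat_lit 169)) (XT.lf (nat_lit 0) (nat_lit 2399039452476) (nat_lit 76) (nat_lit 245341971504) (nat_lit 76) (nat_lit 244721544215) (nat_lit 1) (nat_lit 4) (nat_lit 2) (nat_lit 5) (nat_lit 2) (nat_lit 4) (nat_lit 254) (nat_lit 178) (nat_lit 168)))) (XT.nd (nat_lit 156) (nat_lit 0) (nat_lit 0) (XT.nd (nat_lit 78) (nat_lit 0) (nat_lit 0) (XT.lf (nat_lit 0) (nat_lit 2759824272294) (nat_lit 76) (nat_lit 281623213180) (nat_lit 76) (nat_lit 280976214305) (nat_lit 1) (nat_lit 4) (nat_lit 2) (nat_lit 5) (nat_lit 2) (nat_lit 4) (nat_lit 255) (nat_lit 178) (nat_lit 167)) (XT.lf (nat_lit 0) (nat_lit 3174688520255) (nat_lit 76) (nat_lit 323362984403) (nat_lit 76) (nat_lit 322692879801) (nat_lit 1) (nat_lit 4) (nat_lit 2) (nat_lit 5) (nat_lit 2) (nat_lit 4) (nat_lit 256) (nat_lit 178) (nat_lit 166))) (XT.nd (nat_lit 30108) (nat_lit 0) (nat_lit 0) (XT.lf (nat_lit 0) (nat_lit 3651749105559) (nat_lit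 76) (nat_lit 371377932872) (nat_lit 76) (nat_lit 370687736334) (nat_lit 1) (nat_lit 4) (nat_lit 2) (nat_lit 5) (nat_lit 2) (nat_lit 4) (nat_lit 257) (nat_lit 178) (nat_lit 165)) (XT.lf (nat_lit 0) (nat_lit 219821767890) (nat_lit 76) (nat_lit 25192963439) (nat_lit 76) (nat_lit 25192963439) (nat_lit 1) (nat_lit 4) (nat_lit 2) (nat_lit 5) (nat_lit 2) (nat_lit 4) (nat_lit 242) (nat_lit 179) (nat_lit 179))))) (XT.nd (nat_lit 312) (nat_lit 0) (nat_lit 0) (XT.nd (nat_lit 156) (nat_lit 0) (nat_lit 0) (XT.nd (nat_lit 78) (nat_lit 0) (nat_lit 0) (XT.lf (nat_lit 0) (nat_lit 507686583396) (nat_lit 76) (nat_lit 56906908992) (nat_lit 76) (nat_lit 56783287575) (nat_lit 1) (nat_lit 4) (nat_lit 2) (nat_lit 5) (nat_lit 2) (nat_lit 4) (nat_lit 243) (nat_lit 179) (nat_lit 178)) (XT.lf (nat_lit 0) (nat_lit 585757925621) (nat_lit 76) (nat_lit 64482073835) (nat_lit 76) (nat_lit 64250955533) (nat_lit 1) (nat_lit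 4) (nat_lit 2) (nat_lit 5) (nat_lit 2) (nat_lit 4) (nat_lit 244) (nat_lit 179) (nat_lit 177))) (XT.nd (nat_lit 78) (nat_lit 0) (nat_lit 0) (XT.lf (nat_lit 0) (nat_lit 675385045239) (nat_lit 76) (nat_lit 73259631153) (nat_lit 76) (nat_lit 72935037300) (nat_lit 1) (nat_lit 4) (nat_lit 2) (nat_lit 5) (nat_lit 2) (nat_lit 4) (nat_lit 245) (nat_lit 179) (nat_lit 176)) (XT.lf (nat_lit 0) (nat_lit 778321516328) (nat_lit 76) (nat_lit 83411315764) (nat_lit 76) (nat_lit 83005438823) (nat_lit 1) (nat_lit 4) (nat_lit 2) (nat_lit 5) (nat_lit 2) (nat_lit 4) (nat_lit 246) (nat_lit 179) (nat_lit 175)))) (XT.nd (nat_lit 156) (nat_lit 0) (nat_lit 0) (XT.nd (nat_lit 78) (nat_lit 0) (nat_lit 0) (XT.lf (nat_lit 0) (nat_lit 896581313322) (nat_lit 76) (nat_lit 95135747585) (nat_lit 76) (nat_lit 94659189697) (nat_lit 1) (nat_lit 4) (nat_lit 2) (nat_lit 5) (nat_lit 2) (nat_lit 4) (nat_lit 247) (nat_lit 179)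 (nat_lit 174)) (XT.lf (nat_lit 0) (nat_lit 1032478214860) (nat_lit 76) (nat_lit 108662317672) (nat_lit 76) (nat_lit 108124298092) (nat_lit 1) (nat_lit 4) (nat_lit 2) (nat_lit 5) (nat_lit 2) (nat_lit 4) (nat_lit 248) (nat_lit 179) (nat_lit 173))) (XT.nd (nat_lit 78) (nat_lit 0) (nat_lit 0) (XT.lf (nat_lit 0) (nat_lit 1188671073361) (nat_lit 76) (nat_lit 124255676310) (nat_lit 76) (nat_lit 123664211780) (nat_lit 1) (nat_lit 4) (nat_lit 2) (nat_lit 5) (nat_lit 2) (nat_lit 4) (nat_lit 249) (nat_lit 179) (nat_lit 172)) (XT.nd (nat_lit 78) (nat_lit 0) (nat_lit 0) (XT.lf (nat_lit 0) (nat_lit 1368215836058) (nat_lit 76) (nat_lit 142220910951) (nat_lit 76) (nat_lit 141582972551) (nat_lit 1) (nat_lit 4) (nat_lit 2) (nat_lit 5) (nat_lit 2) (nat_lit 4) (nat_lit 250) (nat_lit 179) (nat_lit 171)) (XT.lf (nat_lit 0) (nat_lit 1574625335265) (nat_lit 76) (nat_lit 162909515315) (nat_lit 76) (nat_lit 162231164855)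 (nat_lit 1) (nat_lit 4) (nat_lit 2) (nat_lit 5) (nat_lit 2) (nat_lit 4) (nat_lit 251) (nat_lit 179) (nat_lit 170))))))))
noncomputable def xc2 : XT := (XT.nd (nat_lit 31122) (nat_lit 0) (nat_lit 0) (XT.nd (nat_lit 30498) (nat_lit 0) (nat_lit 0) (XT.nd (nat_lit 312) (nat_lit 0) (nat_lit 0) (XT.nd (nat_lit 156) (nat_lit 0) (nat_lit 0) (XT.nd (nat_lit 78) (nat_lit 0) (nat_lit 0) (XT.lf (nat_lit 0) (nat_lit 1811938017704) (nat_lit 76) (nat_lit 186726266446) (nat_lit 76) (nat_lit 186012775063) (nat_lit 1) (nat_lit 4) (nat_lit 2) (nat_lit 5) (nat_lit 2) (nat_lit 4) (nat_lit 252) (nat_lit 179) (nat_lit 169)) (XT.lf (nat_lit 0) (nat_lit 2084796957598) (nat_lit 76) (nat_lit 214137144255) (nat_lit 76) (nat_lit 213393095549) (nat_lit 1) (nat_lit 4) (nat_lit 2) (nat_lit 5) (nat_lit 2) (nat_lit 4) (nat_lit 253) (nat_lit 179) (nat_lit 168))) (XT.nd (nat_lit 78) (nat_lit 0) (nat_lit 0) (XT.lf (nat_lit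 0) (nat_lit 2398540699423) (nat_lit 76) (nat_lit 245678448526) (nat_lit 76) (nat_lit 244907828234) (nat_lit 1) (nat_lit 4) (nat_lit 2) (nat_lit 5) (nat_lit 2) (nat_lit 4) (nat_lit 254) (nat_lit 179) (nat_lit 167)) (XT.lf (nat_lit 0) (nat_lit 2759307707692) (nat_lit 76) (nat_lit 281967291735) (nat_lit 76) (nat_lit 281173565716) (nat_lit 1) (nat_lit 4) (nat_lit 2) (nat_lit 5) (nat_lit 2) (nat_lit 4) (nat_lit 255) (nat_lit 179) (nat_lit 166)))) (XT.nd (nat_lit 30030) (nat_lit 0) (nat_lit 0) (XT.nd (nat_lit 78) (nat_lit 0) (nat_lit 0) (XT.lf (nat_lit 0) (nat_lit 3174156467351) (nat_lit 76) (nat_lit 323713672987) (nat_lit 76) (nat_lit 322899855032) (nat_lit 1) (nat_lit 4) (nat_lit 2) (nat_lit 5) (nat_lit 2) (nat_lit 4) (nat_lit 256) (nat_lit 179) (nat_lit 165)) (XT.lf (nat_lit 0) (nat_lit 3651203584565) (nat_lit 76) (nat_lit 371734369308) (nat_lit 76) (nat_lit 370903080104) (nat_lit 1) (nat_lit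 4) (nat_lit 2) (nat_lit 5) (nat_lit 2) (nat_lit 4) (nat_lit 257) (nat_lit 179) (nat_lit 164))) (XT.nd (nat_lit 78) (nat_lit 0) (nat_lit 0) (XT.lf (nat_lit 0) (nat_lit 164298483008) (nat_lit 76) (nat_lit 20054848107) (nat_lit 76) (nat_lit 20054848107) (nat_lit 1) (nat_lit 4) (nat_lit 2) (nat_lit 5) (nat_lit 2) (nat_lit 4) (nat_lit 240) (nat_lit 180) (nat_lit 180)) (XT.lf (nat_lit 0) (nat_lit 380297505755) (nat_lit 76) (nat_lit 44933707691) (nat_lit 76) (nat_lit 44791543061) (nat_lit 1) (nat_lit 4) (nat_lit 2) (nat_lit 5) (nat_lit 2) (nat_lit 4) (nat_lit 241) (nat_lit 180) (nat_lit 179))))) (XT.nd (nat_lit 312) (nat_lit 0) (nat_lit 0) (XT.nd (nat_lit 156) (nat_lit 0) (nat_lit 0) (XT.nd (nat_lit 78) (nat_lit 0) (nat_lit 0) (XT.lf (nat_lit 0) (nat_lit 439548239542) (nat_lit 76) (nat_lit 50568761612) (nat_lit 76) (nat_lit 50302975566) (nat_lit 1) (nat_lit 4) (nat_lit 2) (nat_lit 5) (nat_lit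 2) (nat_lit 4) (nat_lit 242) (nat_lit 180) (nat_lit 178)) (XT.lf (nat_lit 0) (nat_lit 507508420863) (nat_lit 76) (nat_lit 57125109034) (nat_lit 76) (nat_lit 56751826103) (nat_lit 1) (nat_lit 4) (nat_lit 2) (nat_lit 5) (nat_lit 2) (nat_lit 4) (nat_lit 243) (nat_lit 180) (nat_lit 177))) (XT.nd (nat_lit 78) (nat_lit 0) (nat_lit 0) (XT.lf (nat_lit 0) (nat_lit 585507705441) (nat_lit 76) (nat_lit 64731026318) (nat_lit 76) (nat_lit 64264267835) (nat_lit 1) (nat_lit 4) (nat_lit 2) (nat_lit 5) (nat_lit 2) (nat_lit 4) (nat_lit 244) (nat_lit 180) (nat_lit 176)) (XT.lf (nat_lit 0) (nat_lit 675072166235) (nat_lit 76) (nat_lit 73535324890) (nat_lit 76) (nat_lit 72987283319) (nat_lit 1) (nat_lit 4) (nat_lit 2) (nat_lit 5) (nat_lit 2) (nat_lit 4) (nat_lit 245) (nat_lit 180) (nat_lit 175)))) (XT.nd (nat_lit 156) (nat_lit 0) (nat_lit 0) (XT.nd (nat_lit 78) (nat_lit 0) (nat_lit 0) (XT.lf (nat_lit 0) (nat_lit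 777954151390) (nat_lit 76) (nat_lit 83710262765) (nat_lit 76) (nat_lit 83091540248) (nat_lit 1) (nat_lit 4) (nat_lit 2) (nat_lit 5) (nat_lit 2) (nat_lit 4) (nat_lit 246) (nat_lit 180) (nat_lit 174)) (XT.lf (nat_lit 0) (nat_lit 896166569312) (nat_lit 76) (nat_lit 95454914815) (nat_lit 76) (nat_lit 94774730605) (nat_lit 1) (nat_lit 4) (nat_lit 2) (nat_lit 5) (nat_lit 2) (nat_lit 4) (nat_lit 247) (nat_lit 180) (nat_lit 173))) (XT.nd (nat_lit 78) (nat_lit 0) (nat_lit 0) (XT.lf (nat_lit 0) (nat_lit 1032022271655) (nat_lit 76) (nat_lit 108999067711) (nat_lit 76) (nat_lit 108265438551) (nat_lit 1) (nat_lit 4) (nat_lit 2) (nat_lit 5) (nat_lit 2) (nat_lit 4) (nat_lit 248) (nat_lit 180) (nat_lit 172)) (XT.lf (nat_lit 0) (nat_lit 1188179304771) (nat_lit 76) (nat_lit 124607715747) (nat_lit 76) (nat_lit 123827612718) (nat_lit 1) (nat_lit 4) (nat_lit 2) (nat_lit 5) (nat_lit 2) (nat_lit 4) (nat_lit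 249) (nat_lit 180) (nat_lit 171)))))) (XT.nd (nat_lit 30342) (nat_lit 0) (nat_lit 0) (XT.nd (nat_lit 312) (nat_lit 0) (nat_lit 0) (XT.nd (nat_lit 156) (nat_lit 0) (nat_lit 0) (XT.nd (nat_lit 78) (nat_lit 0) (nat_lit 0) (XT.lf (nat_lit 0) (nat_lit 1367692914959) (nat_lit 76) (nat_lit 142586245517) (nat_lit 76) (nat_lit 141765730427) (nat_lit 1) (nat_lit 4) (nat_lit 2) (nat_lit 5) (nat_lit 2) (nat_lit 4) (nat_lit 250) (nat_lit 180) (nat_lit 170)) (XT.lf (nat_lit 0) (nat_lit 1574075325027) (nat_lit 76) (nat_lit 163286410863) (nat_lit 76) (nat_lit 162430754851) (nat_lit 1) (nat_lit 4) (nat_lit 2) (nat_lit 5) (nat_lit 2) (nat_lit 4) (nat_lit 251) (nat_lit 180) (nat_lit 169))) (XT.nd (nat_lit 78) (nat_lit 0) (nat_lit 0) (XT.lf (nat_lit 0) (nat_lit 1811364451693) (nat_lit 76) (nat_lit 187113215021) (nat_lit 76) (nat_lit 186227001686) (nat_lit 1) (nat_lit 4) (nat_lit 2) (nat_lit 5) (nat_lit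 2) (nat_lit 4) (nat_lit 252) (nat_lit 180) (nat_lit 168)) (XT.lf (nat_lit 0) (nat_lit 2084202908307) (nat_lit 76) (nat_lit 214532834594) (nat_lit 76) (nat_lit 213620049672) (nat_lit 1) (nat_lit 4) (nat_lit 2) (nat_lit 5) (nat_lit 2) (nat_lit 4) (nat_lit 253) (nat_lit 180) (nat_lit 167)))) (XT.nd (nat_lit 156) (nat_lit 0) (nat_lit 0) (XT.nd (nat_lit 78) (nat_lit 0) (nat_lit 0) (XT.lf (nat_lit 0) (nat_lit 2397928838583) (nat_lit 76) (nat_lit 246081740399) (nat_lit 76) (nat_lit 245145849750) (nat_lit 1) (nat_lit 4) (nat_lit 2) (nat_lit 5) (nat_lit 2) (nat_lit 4) (nat_lit 254) (nat_lit 180) (nat_lit 166)) (XT.lf (nat_lit 0) (nat_lit 2758680358549) (nat_lit 76) (nat_lit 282377193636) (nat_lit 76) (nat_lit 281421211052) (nat_lit 1) (nat_lit 4) (nat_lit 2) (nat_lit 5) (nat_lit 2) (nat_lit 4) (nat_lit 255) (nat_lit 180) (nat_lit 165))) (XT.nd (nat_lit 78) (nat_lit 0) (nat_lit 0) (XT.lf (nat_lit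 0) (nat_lit 3173515650118) (nat_lit 76) (nat_lit 324129322740) (nat_lit 76) (nat_lit 323155868906) (nat_lit 1) (nat_lit 4) (nat_lit 2) (nat_lit 5) (nat_lit 2) (nat_lit 4) (nat_lit 256) (nat_lit 180) (nat_lit 164)) (XT.lf (nat_lit 0) (nat_lit 3650551055951) (nat_lit 76) (nat_lit 372155017191) (nat_lit 76) (nat_lit 371166370967) (nat_lit 1) (nat_lit 4) (nat_lit 2) (nat_lit 5) (nat_lit 2) (nat_lit 4) (nat_lit 257) (nat_lit 180) (nat_lit 163))))) (XT.nd (nat_lit 312) (nat_lit 0) (nat_lit 0) (XT.nd (nat_lit 156) (nat_lit 0) (nat_lit 0) (XT.nd (nat_lit 78) (nat_lit 0) (nat_lit 0) (XT.lf (nat_lit 0) (nat_lit 122027149550) (nat_lit 76) (nat_lit 16320496988) (nat_lit 76) (nat_lit 16320496988) (nat_lit 1) (nat_lit 4) (nat_lit 2) (nat_lit 5) (nat_lit 2) (nat_lit 4) (nat_lit 238) (nat_lit 181) (nat_lit 181)) (XT.lf (nat_lit 0) (nat_lit 283435088027) (nat_lit 76) (nat_lit 36165833674) (nat_lit 76)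 (nat_lit 36002344350) (nat_lit 1) (nat_lit 4) (nat_lit 2) (nat_lit 5) (nat_lit 2) (nat_lit 4) (nat_lit 239) (nat_lit 181) (nat_lit 180))) (XT.nd (nat_lit 78) (nat_lit 0) (nat_lit 0) (XT.lf (nat_lit 0) (nat_lit 328487375342) (nat_lit 76) (nat_lit 40319956158) (nat_lit 76) (nat_lit 40014302204) (nat_lit 1) (nat_lit 4) (nat_lit 2) (nat_lit 5) (nat_lit 2) (nat_lit 4) (nat_lit 240) (nat_lit 181) (nat_lit 179)) (XT.lf (nat_lit 0) (nat_lit 380092618842) (nat_lit 76) (nat_lit 45184637738) (nat_lit 76) (nat_lit 44755362368) (nat_lit 1) (nat_lit 4) (nat_lit 2) (nat_lit 5) (nat_lit 2) (nat_lit 4) (nat_lit 241) (nat_lit 181) (nat_lit 178)))) (XT.nd (nat_lit 156) (nat_lit 0) (nat_lit 0) (XT.nd (nat_lit 78) (nat_lit 0) (nat_lit 0) (XT.lf (nat_lit 0) (nat_lit 439260486334) (nat_lit 76) (nat_lit 50855056968) (nat_lit 76) (nat_lit 50318284713) (nat_lit 1) (nat_lit 4) (nat_lit 2) (nat_lit 5) (nat_lit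 2) (nat_lit 4) (nat_lit 242) (nat_lit 181) (nat_lit 177)) (XT.lf (nat_lit 0) (nat_lit 507148610009) (nat_lit 76) (nat_lit 57442156831) (nat_lit 76) (nat_lit 56811909024) (nat_lit 1) (nat_lit 4) (nat_lit 2) (nat_lit 5) (nat_lit 2) (nat_lit 4) (nat_lit 243) (nat_lit 181) (nat_lit 176))) (XT.nd (nat_lit 78) (nat_lit 0) (nat_lit 0) (XT.lf (nat_lit 0) (nat_lit 585085235763) (nat_lit 76) (nat_lit 65074815368) (nat_lit 76) (nat_lit 64363284474) (nat_lit 1) (nat_lit 4) (nat_lit 2) (nat_lit 5) (nat_lit 2) (nat_lit 4) (nat_lit 244) (nat_lit 181) (nat_lit 175)) (XT.nd (nat_lit 78) (nat_lit 0) (nat_lit 0) (XT.lf (nat_lit 0) (nat_lit 674595210623) (nat_lit 76) (nat_lit 73902367204) (nat_lit 76) (nat_lit 73120155363) (nat_lit 1) (nat_lit 4) (nat_lit 2) (nat_lit 5) (nat_lit 2) (nat_lit 4) (nat_lit 245) (nat_lit 181) (nat_lit 174)) (XT.lf (nat_lit 0) (nat_lit 777429816705) (nat_lit 76) (nat_lit 84097525309)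 (nat_lit 76) (nat_lit 83253851775) (nat_lit 1) (nat_lit 4) (nat_lit 2) (nat_lit 5) (nat_lit 2) (nat_lit 4) (nat_lit 246) (nat_lit 181) (nat_lit 173))))))))
noncomputable def xc3 : XT := (XT.nd (nat_lit 30888) (nat_lit 0) (nat_lit 0) (XT.nd (nat_lit 624) (nat_lit 0) (nat_lit 0) (XT.nd (nat_lit 312) (nat_lit 0) (nat_lit 0) (XT.nd (nat_lit 156) (nat_lit 0) (nat_lit 0) (XT.nd (nat_lit 78) (nat_lit 0) (nat_lit 0) (XT.lf (nat_lit 0) (nat_lit 895601035433) (nat_lit 76) (nat_lit 95859760168) (nat_lit 76) (nat_lit 94962641684) (nat_lit 1) (nat_lit 4) (nat_lit 2) (nat_lit 5) (nat_lit 2) (nat_lit 4) (nat_lit 247) (nat_lit 181) (nat_lit 172)) (XT.lf (nat_lit 0) (nat_lit 1031420912391) (nat_lit 76) (nat_lit 109419202462) (nat_lit 76) (nat_lit 108475610108) (nat_lit 1) (nat_lit 4) (nat_lit 2) (nat_lit 5) (nat_lit 2) (nat_lit 4) (nat_lit 248) (nat_lit 181) (nat_lit 171))) (XT.nd (nat_lit 78) (nat_lit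 0) (nat_lit 0) (XT.lf (nat_lit 0) (nat_lit 1187546792997) (nat_lit 76) (nat_lit 125041145628) (nat_lit 76) (nat_lit 124057141214) (nat_lit 1) (nat_lit 4) (nat_lit 2) (nat_lit 5) (nat_lit 2) (nat_lit 4) (nat_lit 249) (nat_lit 181) (nat_lit 170)) (XT.lf (nat_lit 0) (nat_lit 1367033314046) (nat_lit 76) (nat_lit 143031236379) (nat_lit 76) (nat_lit 142012091043) (nat_lit 1) (nat_lit 4) (nat_lit 2) (nat_lit 5) (nat_lit 2) (nat_lit 4) (nat_lit 250) (nat_lit 181) (nat_lit 169)))) (XT.nd (nat_lit 156) (nat_lit 0) (nat_lit 0) (XT.nd (nat_lit 78) (nat_lit 0) (nat_lit 0) (XT.lf (nat_lit 0) (nat_lit 1573392168341) (nat_lit 76) (nat_lit 163741454753) (nat_lit 76) (nat_lit 162691752093) (nat_lit 1) (nat_lit 4) (nat_lit 2) (nat_lit 5) (nat_lit 2) (nat_lit 4) (nat_lit 251) (nat_lit 181) (nat_lit 168)) (XT.lf (nat_lit 0) (nat_lit 1810660811727) (nat_lit 76) (nat_lit 187577000674) (nat_lit 76) (nat_lit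 186500726429) (nat_lit 1) (nat_lit 4) (nat_lit 2) (nat_lit 5) (nat_lit 2) (nat_lit 4) (nat_lit 252) (nat_lit 181) (nat_lit 167))) (XT.nd (nat_lit 78) (nat_lit 0) (nat_lit 0) (XT.lf (nat_lit 0) (nat_lit 2083481456792) (nat_lit 76) (nat_lit 215004221780) (nat_lit 76) (nat_lit 213904841808) (nat_lit 1) (nat_lit 4) (nat_lit 2) (nat_lit 5) (nat_lit 2) (nat_lit 4) (nat_lit 253) (nat_lit 181) (nat_lit 166)) (XT.lf (nat_lit 0) (nat_lit 2397191898766) (nat_lit 76) (nat_lit 246559737614) (nat_lit 76) (nat_lit 245440265705) (nat_lit 1) (nat_lit 4) (nat_lit 2) (nat_lit 5) (nat_lit 2) (nat_lit 4) (nat_lit 254) (nat_lit 181) (nat_lit 165))))) (XT.nd (nat_lit 29874) (nat_lit 0) (nat_lit 0) (XT.nd (nat_lit 156) (nat_lit 0) (nat_lit 0) (XT.nd (nat_lit 78) (nat_lit 0) (nat_lit 0) (XT.lf (nat_lit 0) (nat_lit 2757929950643) (nat_lit 76) (nat_lit 282860938703) (nat_lit 76) (nat_lit 281723995545) (nat_lit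 1) (nat_lit 4) (nat_lit 2) (nat_lit 5) (nat_lit 2) (nat_lit 4) (nat_lit 255) (nat_lit 181) (nat_lit 164)) (XT.lf (nat_lit 0) (nat_lit 3172753530829) (nat_lit 76) (nat_lit 324618065938) (nat_lit 76) (nat_lit 323465930390) (nat_lit 1) (nat_lit 4) (nat_lit 2) (nat_lit 5) (nat_lit 2) (nat_lit 4) (nat_lit 256) (nat_lit 181) (nat_lit 163))) (XT.nd (nat_lit 29640) (nat_lit 0) (nat_lit 0) (XT.lf (nat_lit 0) (nat_lit 3649778752851) (nat_lit 76) (nat_lit 372648106591) (nat_lit 76) (nat_lit 371482760268) (nat_lit 1) (nat_lit 4) (nat_lit 2) (nat_lit 5) (nat_lit 2) (nat_lit 4) (nat_lit 257) (nat_lit 181) (nat_lit 162)) (XT.lf (nat_lit 0) (nat_lit 89733032259) (nat_lit 76) (nat_lit 13670213627) (nat_lit 76) (nat_lit 13670213627) (nat_lit 1) (nat_lit 4) (nat_lit 2) (nat_lit 5) (nat_lit 2) (nat_lit 4) (nat_lit 236) (nat_lit 182) (nat_lit 182)))) (XT.nd (nat_lit 156) (nat_lit 0) (nat_lit 0) (XT.nd (nat_lit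 78) (nat_lit 0) (nat_lit 0) (XT.lf (nat_lit 0) (nat_lit 209574514866) (nat_lit 76) (nat_lit 29864485534) (nat_lit 76) (nat_lit 29676472811) (nat_lit 1) (nat_lit 4) (nat_lit 2) (nat_lit 5) (nat_lit 2) (nat_lit 4) (nat_lit 237) (nat_lit 182) (nat_lit 181)) (XT.lf (nat_lit 0) (nat_lit 243928269825) (nat_lit 76) (nat_lit 32882792912) (nat_lit 76) (nat_lit 32531290865) (nat_lit 1) (nat_lit 4) (nat_lit 2) (nat_lit 5) (nat_lit 2) (nat_lit 4) (nat_lit 238) (nat_lit 182) (nat_lit 180))) (XT.nd (nat_lit 78) (nat_lit 0) (nat_lit 0) (XT.lf (nat_lit 0) (nat_lit 283199468077) (nat_lit 76) (nat_lit 36454403229) (nat_lit 76) (nat_lit 35960736553) (nat_lit 1) (nat_lit 4) (nat_lit 2) (nat_lit 5) (nat_lit 2) (nat_lit 4) (nat_lit 239) (nat_lit 182) (nat_lit 179)) (XT.nd (nat_lit 78) (nat_lit 0) (nat_lit 0) (XT.lf (nat_lit 0) (nat_lit 328156459154) (nat_lit 76) (nat_lit 40649195817) (nat_lit 76) (nat_lit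 40031907724) (nat_lit 1) (nat_lit 4) (nat_lit 2) (nat_lit 5) (nat_lit 2) (nat_lit 4) (nat_lit 240) (nat_lit 182) (nat_lit 178)) (XT.lf (nat_lit 0) (nat_lit 379678836359) (nat_lit 76) (nat_lit 45549242705) (nat_lit 76) (nat_lit 44824457728) (nat_lit 1) (nat_lit 4) (nat_lit 2) (nat_lit 5) (nat_lit 2) (nat_lit 4) (nat_lit 241) (nat_lit 182) (nat_lit 177))))))) (XT.nd (nat_lit 624) (nat_lit 0) (nat_lit 0) (XT.nd (nat_lit 312) (nat_lit 0) (nat_lit 0) (XT.nd (nat_lit 156) (nat_lit 0) (nat_lit 0) (XT.nd (nat_lit 78) (nat_lit 0) (nat_lit 0) (XT.lf (nat_lit 0) (nat_lit 438774646204) (nat_lit 76) (nat_lit 51250414376) (nat_lit 76) (nat_lit 50432153847) (nat_lit 1) (nat_lit 4) (nat_lit 2) (nat_lit 5) (nat_lit 2) (nat_lit 4) (nat_lit 242) (nat_lit 182) (nat_lit 176)) (XT.lf (nat_lit 0) (nat_lit 506600111055) (nat_lit 76) (nat_lit 57864255493) (nat_lit 76) (nat_lit 56964711875) (nat_lit 1) (nat_lit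 4) (nat_lit 2) (nat_lit 5) (nat_lit 2) (nat_lit 4) (nat_lit 243) (nat_lit 182) (nat_lit 175))) (XT.nd (nat_lit 78) (nat_lit 0) (nat_lit 0) (XT.lf (nat_lit 0) (nat_lit 584482250875) (nat_lit 76) (nat_lit 65520167294) (nat_lit 76) (nat_lit 64549942730) (nat_lit 1) (nat_lit 4) (nat_lit 2) (nat_lit 5) (nat_lit 2) (nat_lit 4) (nat_lit 244) (nat_lit 182) (nat_lit 174)) (XT.lf (nat_lit 0) (nat_lit 673944846662) (nat_lit 76) (nat_lit 74367939360) (nat_lit 76) (nat_lit 73336253103) (nat_lit 1) (nat_lit 4) (nat_lit 2) (nat_lit 5) (nat_lit 2) (nat_lit 4) (nat_lit 245) (nat_lit 182) (nat_lit 173)))) (XT.nd (nat_lit 156) (nat_lit 0) (nat_lit 0) (XT.nd (nat_lit 78) (nat_lit 0) (nat_lit 0) (XT.lf (nat_lit 0) (nat_lit 776738253551) (nat_lit 76) (nat_lit 84580680273) (nat_lit 76) (nat_lit 83495549066) (nat_lit 1) (nat_lit 4) (nat_lit 2) (nat_lit 5) (nat_lit 2) (nat_lit 4) (nat_lit 246) (nat_lit 182)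 (nat_lit 172)) (XT.lf (nat_lit 0) (nat_lit 894873646893) (nat_lit 76) (nat_lit 96358204530) (nat_lit 76) (nat_lit 95226599454) (nat_lit 1) (nat_lit 4) (nat_lit 2) (nat_lit 5) (nat_lit 2) (nat_lit 4) (nat_lit 247) (nat_lit 182) (nat_lit 171))) (XT.nd (nat_lit 78) (nat_lit 0) (nat_lit 0) (XT.lf (nat_lit 0) (nat_lit 1030662371342) (nat_lit 76) (nat_lit 109930941953) (nat_lit 76) (nat_lit 108758924817) (nat_lit 1) (nat_lit 4) (nat_lit 2) (nat_lit 5) (nat_lit 2) (nat_lit 4) (nat_lit 248) (nat_lit 182) (nat_lit 170)) (XT.lf (nat_lit 0) (nat_lit 1186761162809) (nat_lit 76) (nat_lit 125564446101) (nat_lit 76) (nat_lit 124357288042) (nat_lit 1) (nat_lit 4) (nat_lit 2) (nat_lit 5) (nat_lit 2) (nat_lit 4) (nat_lit 249) (nat_lit 182) (nat_lit 169))))) (XT.nd (nat_lit 312) (nat_lit 0) (nat_lit 0) (XT.nd (nat_lit 156) (nat_lit 0) (nat_lit 0) (XT.nd (nat_lit 78) (nat_lit 0) (nat_lit 0) (XT.lf (nat_lit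 0) (nat_lit 1366224128086) (nat_lit 76) (nat_lit 143564589880) (nat_lit 76) (nat_lit 142326874498) (nat_lit 1) (nat_lit 4) (nat_lit 2) (nat_lit 5) (nat_lit 2) (nat_lit 4) (nat_lit 250) (nat_lit 182) (nat_lit 168)) (XT.lf (nat_lit 0) (nat_lit 1572562499100) (nat_lit 76) (nat_lit 164283550017) (nat_lit 76) (nat_lit 163019263049) (nat_lit 1) (nat_lit 4) (nat_lit 2) (nat_lit 5) (nat_lit 2) (nat_lit 4) (nat_lit 251) (nat_lit 182) (nat_lit 167))) (XT.nd (nat_lit 78) (nat_lit 0) (nat_lit 0) (XT.lf (nat_lit 0) (nat_lit 1809813330938) (nat_lit 76) (nat_lit 188126697472) (nat_lit 76) (nat_lit 186839304777) (nat_lit 1) (nat_lit 4) (nat_lit 2) (nat_lit 5) (nat_lit 2) (nat_lit 4) (nat_lit 252) (nat_lit 182) (nat_lit 166)) (XT.lf (nat_lit 0) (nat_lit 2082618487700) (nat_lit 76) (nat_lit 215560528606) (nat_lit 76) (nat_lit 214253043975) (nat_lit 1) (nat_lit 4) (nat_lit 2) (nat_lit 5) (nat_lit 2) (nat_lit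 4) (nat_lit 253) (nat_lit 182) (nat_lit 165)))) (XT.nd (nat_lit 156) (nat_lit 0) (nat_lit 0) (XT.nd (nat_lit 78) (nat_lit 0) (nat_lit 0) (XT.lf (nat_lit 0) (nat_lit 2396315461584) (nat_lit 76) (nat_lit 247121792291) (nat_lit 76) (nat_lit 245796836411) (nat_lit 1) (nat_lit 4) (nat_lit 2) (nat_lit 5) (nat_lit 2) (nat_lit 4) (nat_lit 254) (nat_lit 182) (nat_lit 164)) (XT.lf (nat_lit 0) (nat_lit 2757041802078) (nat_lit 76) (nat_lit 283427991512) (nat_lit 76) (nat_lit 282087843241) (nat_lit 1) (nat_lit 4) (nat_lit 2) (nat_lit 5) (nat_lit 2) (nat_lit 4) (nat_lit 255) (nat_lit 182) (nat_lit 163))) (XT.nd (nat_lit 78) (nat_lit 0) (nat_lit 0) (XT.lf (nat_lit 0) (nat_lit 3171855198454) (nat_lit 76) (nat_lit 325189464948) (nat_lit 76) (nat_lit 323836105903) (nat_lit 1) (nat_lit 4) (nat_lit 2) (nat_lit 5) (nat_lit 2) (nat_lit 4) (nat_lit 256) (nat_lit 182) (nat_lit 162)) (XT.nd (nat_lit 29484) (nat_lit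 0) (nat_lit 0) (XT.lf (nat_lit 0) (nat_lit 3648871564989) (nat_lit 76) (nat_lit 373223284906) (nat_lit 76) (nat_lit 371858438232) (nat_lit 1) (nat_lit 4) (nat_lit 2) (nat_lit 5) (nat_lit 2) (nat_lit 4) (nat_lit 257) (nat_lit 182) (nat_lit 161)) (XT.lf (nat_lit 0) (nat_lit 64933486361) (nat_lit 76) (nat_lit 11865654625) (nat_lit 76) (nat_lit 11865654625) (nat_lit 1) (nat_lit 4) (nat_lit 2) (nat_lit 5) (nat_lit 2) (nat_lit 4) (nat_lit 234) (nat_lit 183) (nat_lit 183))))))))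
noncomputable def xc4 : XT := (XT.nd (nat_lit 1248) (nat_lit 0) (nat_lit 0) (XT.nd (nat_lit 624) (nat_lit 0) (nat_lit 0) (XT.nd (nat_lit 312) (nat_lit 0) (nat_lit 0) (XT.nd (nat_lit 156) (nat_lit 0) (nat_lit 0) (XT.nd (nat_lit 78) (nat_lit 0) (nat_lit 0) (XT.lf (nat_lit 0) (nat_lit 153013840403) (nat_lit 76) (nat_lit 25477448957) (nat_lit 76) (nat_lit 25261234326) (nat_lit 1) (nat_lit 4) (nat_lit 2) (nat_lit 5) (nat_lit 2) (nat_lit 4) (nat_lit 235) (nat_lit 183) (nat_lit 182)) (XT.lf (nat_lit 0) (nat_lit 179321130851) (nat_lit 76) (nat_lit 27618496030) (nat_lit 76) (nat_lit 27214268677) (nat_lit 1) (nat_lit 4) (nat_lit 2) (nat_lit 5) (nat_lit 2) (nat_lit 4) (nat_lit 236) (nat_lit 183) (nat_lit 181))) (XT.nd (nat_lit 78) (nat_lit 0) (nat_lit 0) (XT.lf (nat_lit 0) (nat_lit 209303551924) (nat_lit 76) (nat_lit 30196340522) (nat_lit 76) (nat_lit 29628623844) (nat_lit 1) (nat_lit 4) (nat_lit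 2) (nat_lit 5) (nat_lit 2) (nat_lit 4) (nat_lit 237) (nat_lit 183) (nat_lit 180)) (XT.lf (nat_lit 0) (nat_lit 243547716208) (nat_lit 76) (nat_lit 33261418520) (nat_lit 76) (nat_lit 32551537212) (nat_lit 1) (nat_lit 4) (nat_lit 2) (nat_lit 5) (nat_lit 2) (nat_lit 4) (nat_lit 238) (nat_lit 183) (nat_lit 179)))) (XT.nd (nat_lit 156) (nat_lit 0) (nat_lit 0) (XT.nd (nat_lit 78) (nat_lit 0) (nat_lit 0) (XT.lf (nat_lit 0) (nat_lit 282723618221) (nat_lit 76) (nat_lit 36873698941) (nat_lit 76) (nat_lit 36040196216) (nat_lit 1) (nat_lit 4) (nat_lit 2) (nat_lit 5) (nat_lit 2) (nat_lit 4) (nat_lit 239) (nat_lit 183) (nat_lit 178)) (XT.lf (nat_lit 0) (nat_lit 327597743004) (nat_lit 76) (nat_lit 41103856836) (nat_lit 76) (nat_lit 40162857228) (nat_lit 1) (nat_lit 4) (nat_lit 2) (nat_lit 5) (nat_lit 2) (nat_lit 4) (nat_lit 240) (nat_lit 183) (nat_lit 177))) (XT.nd (nat_lit 78) (nat_lit 0) (nat_lit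 0) (XT.lf (nat_lit 0) (nat_lit 379048062562) (nat_lit 76) (nat_lit 46034656166) (nat_lit 76) (nat_lit 45000181006) (nat_lit 1) (nat_lit 4) (nat_lit 2) (nat_lit 5) (nat_lit 2) (nat_lit 4) (nat_lit 241) (nat_lit 183) (nat_lit 176)) (XT.lf (nat_lit 0) (nat_lit 438081213583) (nat_lit 76) (nat_lit 51762569091) (nat_lit 76) (nat_lit 50646810842) (nat_lit 1) (nat_lit 4) (nat_lit 2) (nat_lit 5) (nat_lit 2) (nat_lit 4) (nat_lit 242) (nat_lit 183) (nat_lit 175))))) (XT.nd (nat_lit 312) (nat_lit 0) (nat_lit 0) (XT.nd (nat_lit 156) (nat_lit 0) (nat_lit 0) (XT.nd (nat_lit 78) (nat_lit 0) (nat_lit 0) (XT.lf (nat_lit 0) (nat_lit 505852192500) (nat_lit 76) (nat_lit 58399663471) (nat_lit 76) (nat_lit 57213224276) (nat_lit 1) (nat_lit 4) (nat_lit 2) (nat_lit 5) (nat_lit 2) (nat_lit 4) (nat_lit 243) (nat_lit 183) (nat_lit 174)) (XT.lf (nat_lit 0) (nat_lit 583686953248) (nat_lit 76) (nat_lit 66075795503)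 (nat_lit 76) (nat_lit 64827894615) (nat_lit 1) (nat_lit 4) (nat_lit 2) (nat_lit 5) (nat_lit 2) (nat_lit 4) (nat_lit 244) (nat_lit 183) (nat_lit 173))) (XT.nd (nat_lit 78) (nat_lit 0) (nat_lit 0) (XT.lf (nat_lit 0) (nat_lit 673108349841) (nat_lit 76) (nat_lit 74941150376) (nat_lit 76) (nat_lit 73639804539) (nat_lit 1) (nat_lit 4) (nat_lit 2) (nat_lit 5) (nat_lit 2) (nat_lit 4) (nat_lit 245) (nat_lit 183) (nat_lit 172)) (XT.lf (nat_lit 0) (nat_lit 775865931344) (nat_lit 76) (nat_lit 85169180688) (nat_lit 76) (nat_lit 83821360981) (nat_lit 1) (nat_lit 4) (nat_lit 2) (nat_lit 5) (nat_lit 2) (nat_lit 4) (nat_lit 246) (nat_lit 183) (nat_lit 171)))) (XT.nd (nat_lit 156) (nat_lit 0) (nat_lit 0) (XT.nd (nat_lit 78) (nat_lit 0) (nat_lit 0) (XT.lf (nat_lit 0) (nat_lit 893970172177) (nat_lit 76) (nat_lit 96960000074) (nat_lit 76) (nat_lit 95571768307) (nat_lit 1) (nat_lit 4) (nat_lit 2) (nat_lit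 5) (nat_lit 2) (nat_lit 4) (nat_lit 247) (nat_lit 183) (nat_lit 170)) (XT.lf (nat_lit 0) (nat_lit 1029731807487) (nat_lit 76) (nat_lit 110544298479) (nat_lit 76) (nat_lit 109120925789) (nat_lit 1) (nat_lit 4) (nat_lit 2) (nat_lit 5) (nat_lit 2) (nat_lit 4) (nat_lit 248) (nat_lit 183) (nat_lit 169))) (XT.nd (nat_lit 78) (nat_lit 0) (nat_lit 0) (XT.lf (nat_lit 0) (nat_lit 1185807043181) (nat_lit 76) (nat_lit 126187855655) (nat_lit 76) (nat_lit 124733925641) (nat_lit 1) (nat_lit 4) (nat_lit 2) (nat_lit 5) (nat_lit 2) (nat_lit 4) (nat_lit 249) (nat_lit 183) (nat_lit 168)) (XT.lf (nat_lit 0) (nat_lit 1365249525177) (nat_lit 76) (nat_lit 144196741197) (nat_lit 76) (nat_lit 142716239598) (nat_lit 1) (nat_lit 4) (nat_lit 2) (nat_lit 5) (nat_lit 2) (nat_lit 4) (nat_lit 250) (nat_lit 183) (nat_lit 167)))))) (XT.nd (nat_lit 29874) (nat_lit 0) (nat_lit 0) (XT.nd (nat_lit 312) (nat_lit 0) (nat_lit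 0) (XT.nd (nat_lit 156) (nat_lit 0) (nat_lit 0) (XT.nd (nat_lit 78) (nat_lit 0) (nat_lit 0) (XT.lf (nat_lit 0) (nat_lit 1571570084643) (nat_lit 76) (nat_lit 164923302868) (nat_lit 76) (nat_lit 163419695542) (nat_lit 1) (nat_lit 4) (nat_lit 2) (nat_lit 5) (nat_lit 2) (nat_lit 4) (nat_lit 251) (nat_lit 183) (nat_lit 166)) (XT.lf (nat_lit 0) (nat_lit 1808805428178) (nat_lit 76) (nat_lit 188773060351) (nat_lit 76) (nat_lit 187249361089) (nat_lit 1) (nat_lit 4) (nat_lit 2) (nat_lit 5) (nat_lit 2) (nat_lit 4) (nat_lit 252) (nat_lit 183) (nat_lit 165))) (XT.nd (nat_lit 78) (nat_lit 0) (nat_lit 0) (XT.lf (nat_lit 0) (nat_lit 2081597116851) (nat_lit 76) (nat_lit 216212639337) (nat_lit 76) (nat_lit 214671468826) (nat_lit 1) (nat_lit 4) (nat_lit 2) (nat_lit 5) (nat_lit 2) (nat_lit 4) (nat_lit 253) (nat_lit 183) (nat_lit 164)) (XT.lf (nat_lit 0) (nat_lit 2395282379352) (nat_lit 76) (nat_lit 247778901153)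 (nat_lit 76) (nat_lit 246222538252) (nat_lit 1) (nat_lit 4) (nat_lit 2) (nat_lit 5) (nat_lit 2) (nat_lit 4) (nat_lit 254) (nat_lit 183) (nat_lit 163)))) (XT.nd (nat_lit 156) (nat_lit 0) (nat_lit 0) (XT.nd (nat_lit 78) (nat_lit 0) (nat_lit 0) (XT.lf (nat_lit 0) (nat_lit 2755998536036) (nat_lit 76) (nat_lit 284089446575) (nat_lit 76) (nat_lit 282519872899) (nat_lit 1) (nat_lit 4) (nat_lit 2) (nat_lit 5) (nat_lit 2) (nat_lit 4) (nat_lit 255) (nat_lit 183) (nat_lit 162)) (XT.lf (nat_lit 0) (nat_lit 3170803076925) (nat_lit 76) (nat_lit 325854699317) (nat_lit 76) (nat_lit 324273638011) (nat_lit 1) (nat_lit 4) (nat_lit 2) (nat_lit 5) (nat_lit 2) (nat_lit 4) (nat_lit 256) (nat_lit 183) (nat_lit 161))) (XT.nd (nat_lit 29328) (nat_lit 0) (nat_lit 0) (XT.lf (nat_lit 0) (nat_lit 3647811743036) (nat_lit 76) (nat_lit 373891805628) (nat_lit 76) (nat_lit 372300755079) (nat_lit 1) (nat_lit 4) (nat_lit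 2) (nat_lit 5) (nat_lit 2) (nat_lit 4) (nat_lit 257) (nat_lit 183) (nat_lit 160)) (XT.lf (nat_lit 0) (nat_lit 45743830120) (nat_lit 76) (nat_lit 10730500137) (nat_lit 76) (nat_lit 10730500137) (nat_lit 1) (nat_lit 4) (nat_lit 2) (nat_lit 5) (nat_lit 2) (nat_lit 4) (nat_lit 232) (nat_lit 184) (nat_lit 184))))) (XT.nd (nat_lit 312) (nat_lit 0) (nat_lit 0) (XT.nd (nat_lit 156) (nat_lit 0) (nat_lit 0) (XT.nd (nat_lit 78) (nat_lit 0) (nat_lit 0) (XT.lf (nat_lit 0) (nat_lit 109427654313) (nat_lit 76) (nat_lit 22594560132) (nat_lit 76) (nat_lit 22345913307) (nat_lit 1) (nat_lit 4) (nat_lit 2) (nat_lit 5) (nat_lit 2) (nat_lit 4) (nat_lit 233) (nat_lit 184) (nat_lit 183)) (XT.lf (nat_lit 0) (nat_lit 129700299006) (nat_lit 76) (nat_lit 24051088342) (nat_lit 76) (nat_lit 23586226885) (nat_lit 1) (nat_lit 4) (nat_lit 2) (nat_lit 5) (nat_lit 2) (nat_lit 4) (nat_lit 234) (nat_lit 184) (nat_lit 182)))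 (XT.nd (nat_lit 78) (nat_lit 0) (nat_lit 0) (XT.lf (nat_lit 0) (nat_lit 152702233019) (nat_lit 76) (nat_lit 25859082193) (nat_lit 76) (nat_lit 25206208014) (nat_lit 1) (nat_lit 4) (nat_lit 2) (nat_lit 5) (nat_lit 2) (nat_lit 4) (nat_lit 235) (nat_lit 184) (nat_lit 181)) (XT.lf (nat_lit 0) (nat_lit 178883494192) (nat_lit 76) (nat_lit 28053915479) (nat_lit 76) (nat_lit 27237551976) (nat_lit 1) (nat_lit 4) (nat_lit 2) (nat_lit 5) (nat_lit 2) (nat_lit 4) (nat_lit 236) (nat_lit 184) (nat_lit 180)))) (XT.nd (nat_lit 156) (nat_lit 0) (nat_lit 0) (XT.nd (nat_lit 78) (nat_lit 0) (nat_lit 0) (XT.lf (nat_lit 0) (nat_lit 208756324590) (nat_lit 76) (nat_lit 30678530591) (nat_lit 76) (nat_lit 29720002458) (nat_lit 1) (nat_lit 4) (nat_lit 2) (nat_lit 5) (nat_lit 2) (nat_lit 4) (nat_lit 237) (nat_lit 184) (nat_lit 179)) (XT.lf (nat_lit 0) (nat_lit 242905192636) (nat_lit 76) (nat_lit 33784278692) (nat_lit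 76) (nat_lit 32702129142) (nat_lit 1) (nat_lit 4) (nat_lit 2) (nat_lit 5) (nat_lit 2) (nat_lit 4) (nat_lit 238) (nat_lit 184) (nat_lit 178))) (XT.nd (nat_lit 78) (nat_lit 0) (nat_lit 0) (XT.lf (nat_lit 0) (nat_lit 281998228355) (nat_lit 76) (nat_lit 37431924421) (nat_lit 76) (nat_lit 36242277987) (nat_lit 1) (nat_lit 4) (nat_lit 2) (nat_lit 5) (nat_lit 2) (nat_lit 4) (nat_lit 239) (nat_lit 184) (nat_lit 177)) (XT.nd (nat_lit 78) (nat_lit 0) (nat_lit 0) (XT.lf (nat_lit 0) (nat_lit 326800295490) (nat_lit 76) (nat_lit 41692834758) (nat_lit 76) (nat_lit 40409712773) (nat_lit 1) (nat_lit 4) (nat_lit 2) (nat_lit 5) (nat_lit 2) (nat_lit 4) (nat_lit 240) (nat_lit 184) (nat_lit 176)) (XT.lf (nat_lit 0) (nat_lit 378187956225) (nat_lit 76) (nat_lit 46650375342) (nat_lit 76) (nat_lit 45285970268) (nat_lit 1) (nat_lit 4) (nat_lit 2) (nat_lit 5) (nat_lit 2) (nat_lit 4) (nat_lit 241) (nat_lit 184)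 (nat_lit 175))))))))
noncomputable def xc5 : XT := (XT.nd (nat_lit 30420) (nat_lit 0) (nat_lit 0) (XT.nd (nat_lit 624) (nat_lit 0) (nat_lit 0) (XT.nd (nat_lit 312) (nat_lit 0) (nat_lit 0) (XT.nd (nat_lit 156) (nat_lit 0) (nat_lit 0) (XT.nd (nat_lit 78) (nat_lit 0) (nat_lit 0) (XT.lf (nat_lit 0) (nat_lit 437166621312) (nat_lit 76) (nat_lit 52401541530) (nat_lit 76) (nat_lit 50966455510) (nat_lit 1) (nat_lit 4) (nat_lit 2) (nat_lit 5) (nat_lit 2) (nat_lit 4) (nat_lit 242) (nat_lit 184) (nat_lit 174)) (XT.lf (nat_lit 0) (nat_lit 504890221156) (nat_lit 76) (nat_lit 59058856140) (nat_lit 76) (nat_lit 57562308427) (nat_lit 1) (nat_lit 4) (nat_lit 2) (nat_lit 5) (nat_lit 2) (nat_lit 4) (nat_lit 243) (nat_lit 184) (nat_lit 173))) (XT.nd (nat_lit 78) (nat_lit 0) (nat_lit 0) (XT.lf (nat_lit 0) (nat_lit 582683782710) (nat_lit 76) (nat_lit 66752570980) (nat_lit 76) (nat_lit 65202578317) (nat_lit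 1) (nat_lit 4) (nat_lit 2) (nat_lit 5) (nat_lit 2) (nat_lit 4) (nat_lit 244) (nat_lit 184) (nat_lit 172)) (XT.lf (nat_lit 0) (nat_lit 672069353917) (nat_lit 76) (nat_lit 75633215252) (nat_lit 76) (nat_lit 74036748720) (nat_lit 1) (nat_lit 4) (nat_lit 2) (nat_lit 5) (nat_lit 2) (nat_lit 4) (nat_lit 245) (nat_lit 184) (nat_lit 171)))) (XT.nd (nat_lit 156) (nat_lit 0) (nat_lit 0) (XT.nd (nat_lit 78) (nat_lit 0) (nat_lit 0) (XT.lf (nat_lit 0) (nat_lit 774795782911) (nat_lit 76) (nat_lit 85874540693) (nat_lit 76) (nat_lit 84237662100) (nat_lit 1) (nat_lit 4) (nat_lit 2) (nat_lit 5) (nat_lit 2) (nat_lit 4) (nat_lit 246) (nat_lit 184) (nat_lit 170)) (XT.lf (nat_lit 0) (nat_lit 892872934605) (nat_lit 76) (nat_lit 97676921061) (nat_lit 76) (nat_lit 96004901546) (nat_lit 1) (nat_lit 4) (nat_lit 2) (nat_lit 5) (nat_lit 2) (nat_lit 4) (nat_lit 247) (nat_lit 184) (nat_lit 169))) (XT.nd (nat_lit 78)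 (nat_lit 0) (nat_lit 0) (XT.lf (nat_lit 0) (nat_lit 1028611014142) (nat_lit 76) (nat_lit 111271272494) (nat_lit 76) (nat_lit 109568695655) (nat_lit 1) (nat_lit 4) (nat_lit 2) (nat_lit 5) (nat_lit 2) (nat_lit 4) (nat_lit 248) (nat_lit 184) (nat_lit 168)) (XT.lf (nat_lit 0) (nat_lit 1184665766556) (nat_lit 76) (nat_lit 126923571432) (nat_lit 76) (nat_lit 125194423008) (nat_lit 1) (nat_lit 4) (nat_lit 2) (nat_lit 5) (nat_lit 2) (nat_lit 4) (nat_lit 249) (nat_lit 184) (nat_lit 167))))) (XT.nd (nat_lit 312) (nat_lit 0) (nat_lit 0) (XT.nd (nat_lit 156) (nat_lit 0) (nat_lit 0) (XT.nd (nat_lit 78) (nat_lit 0) (nat_lit 0) (XT.lf (nat_lit 0) (nat_lit 1364090437004) (nat_lit 76) (nat_lit 144940058508) (nat_lit 76) (nat_lit 143187804357) (nat_lit 1) (nat_lit 4) (nat_lit 2) (nat_lit 5) (nat_lit 2) (nat_lit 4) (nat_lit 250) (nat_lit 184) (nat_lit 166)) (XT.lf (nat_lit 0) (nat_lit 1570395508167) (nat_lit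 76) (nat_lit 165673230208) (nat_lit 76) (nat_lit 163900884120) (nat_lit 1) (nat_lit 4) (nat_lit 2) (nat_lit 5) (nat_lit 2) (nat_lit 4) (nat_lit 251) (nat_lit 184) (nat_lit 165))) (XT.nd (nat_lit 78) (nat_lit 0) (nat_lit 0) (XT.lf (nat_lit 0) (nat_lit 1807617383612) (nat_lit 76) (nat_lit 189528735542) (nat_lit 76) (nat_lit 187738918205) (nat_lit 1) (nat_lit 4) (nat_lit 2) (nat_lit 5) (nat_lit 2) (nat_lit 4) (nat_lit 252) (nat_lit 184) (nat_lit 164)) (XT.lf (nat_lit 0) (nat_lit 2080397360902) (nat_lit 76) (nat_lit 216973312659) (nat_lit 76) (nat_lit 215168302932) (nat_lit 1) (nat_lit 4) (nat_lit 2) (nat_lit 5) (nat_lit 2) (nat_lit 4) (nat_lit 253) (nat_lit 184) (nat_lit 163)))) (XT.nd (nat_lit 156) (nat_lit 0) (nat_lit 0) (XT.nd (nat_lit 78) (nat_lit 0) (nat_lit 0) (XT.lf (nat_lit 0) (nat_lit 2394072439593) (nat_lit 76) (nat_lit 248543920677) (nat_lit 76) (nat_lit 246725700176) (nat_lit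 1) (nat_lit 4) (nat_lit 2) (nat_lit 5) (nat_lit 2) (nat_lit 4) (nat_lit 254) (nat_lit 184) (nat_lit 162)) (XT.lf (nat_lit 0) (nat_lit 2754779740790) (nat_lit 76) (nat_lit 284858245404) (nat_lit 76) (nat_lit 283028537273) (nat_lit 1) (nat_lit 4) (nat_lit 2) (nat_lit 5) (nat_lit 2) (nat_lit 4) (nat_lit 255) (nat_lit 184) (nat_lit 161))) (XT.nd (nat_lit 78) (nat_lit 0) (nat_lit 0) (XT.lf (nat_lit 0) (nat_lit 3169576581255) (nat_lit 76) (nat_lit 326626784499) (nat_lit 76) (nat_lit 324787087124) (nat_lit 1) (nat_lit 4) (nat_lit 2) (nat_lit 5) (nat_lit 2) (nat_lit 4) (nat_lit 256) (nat_lit 184) (nat_lit 160)) (XT.nd (nat_lit 29172) (nat_lit 0) (nat_lit 0) (XT.lf (nat_lit 0) (nat_lit 3646578551345) (nat_lit 76) (nat_lit 374666748508) (nat_lit 76) (nat_lit 372818364835) (nat_lit 1) (nat_lit 4) (nat_lit 2) (nat_lit 5) (nat_lit 2) (nat_lit 4) (nat_lit 257) (nat_lit 184) (nat_lit 159)) (XT.lf (nat_lit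 0) (nat_lit 30730410917) (nat_lit 76) (nat_lit 10135914339) (nat_lit 76) (nat_lit 10135914339) (nat_lit 1) (nat_lit 4) (nat_lit 2) (nat_lit 5) (nat_lit 2) (nat_lit 4) (nat_lit 230) (nat_lit 185) (nat_lit 185))))))) (XT.nd (nat_lit 624) (nat_lit 0) (nat_lit 0) (XT.nd (nat_lit 312) (nat_lit 0) (nat_lit 0) (XT.nd (nat_lit 156) (nat_lit 0) (nat_lit 0) (XT.nd (nat_lit 78) (nat_lit 0) (nat_lit 0) (XT.lf (nat_lit 0) (nat_lit 75529316903) (nat_lit 76) (nat_lit 20914174271) (nat_lit 76) (nat_lit 20628230421) (nat_lit 1) (nat_lit 4) (nat_lit 2) (nat_lit 5) (nat_lit 2) (nat_lit 4) (nat_lit 231) (nat_lit 185) (nat_lit 184)) (XT.lf (nat_lit 0) (nat_lit 91295985466) (nat_lit 76) (nat_lit 21828746229) (nat_lit 76) (nat_lit 21294155554) (nat_lit 1) (nat_lit 4) (nat_lit 2) (nat_lit 5) (nat_lit 2) (nat_lit 4) (nat_lit 232) (nat_lit 185) (nat_lit 183))) (XT.nd (nat_lit 78) (nat_lit 0) (nat_lit 0) (XT.lf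 (nat_lit 0) (nat_lit 109069305822) (nat_lit 76) (nat_lit 23033438354) (nat_lit 76) (nat_lit 22282633048) (nat_lit 1) (nat_lit 4) (nat_lit 2) (nat_lit 5) (nat_lit 2) (nat_lit 4) (nat_lit 233) (nat_lit 185) (nat_lit 182)) (XT.lf (nat_lit 0) (nat_lit 129197016848) (nat_lit 76) (nat_lit 24551820708) (nat_lit 76) (nat_lit 23613002679) (nat_lit 1) (nat_lit 4) (nat_lit 2) (nat_lit 5) (nat_lit 2) (nat_lit 4) (nat_lit 234) (nat_lit 185) (nat_lit 181)))) (XT.nd (nat_lit 156) (nat_lit 0) (nat_lit 0) (XT.nd (nat_lit 78) (nat_lit 0) (nat_lit 0) (XT.lf (nat_lit 0) (nat_lit 152072921586) (nat_lit 76) (nat_lit 26413600772) (nat_lit 76) (nat_lit 25311293419) (nat_lit 1) (nat_lit 4) (nat_lit 2) (nat_lit 5) (nat_lit 2) (nat_lit 4) (nat_lit 235) (nat_lit 185) (nat_lit 180)) (XT.lf (nat_lit 0) (nat_lit 178144592084) (nat_lit 76) (nat_lit 28655204678) (nat_lit 76) (nat_lit 27410732695) (nat_lit 1) (nat_lit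 4) (nat_lit 2) (nat_lit 5) (nat_lit 2) (nat_lit 4) (nat_lit 236) (nat_lit 185) (nat_lit 179))) (XT.nd (nat_lit 78) (nat_lit 0) (nat_lit 0) (XT.lf (nat_lit 0) (nat_lit 207922126244) (nat_lit 76) (nat_lit 31320489893) (nat_lit 76) (nat_lit 29952396494) (nat_lit 1) (nat_lit 4) (nat_lit 2) (nat_lit 5) (nat_lit 2) (nat_lit 4) (nat_lit 237) (nat_lit 185) (nat_lit 178)) (XT.lf (nat_lit 0) (nat_lit 241988127995) (nat_lit 76) (nat_lit 34461603302) (nat_lit 76) (nat_lit 32986013019) (nat_lit 1) (nat_lit 4) (nat_lit 2) (nat_lit 5) (nat_lit 2) (nat_lit 4) (nat_lit 238) (nat_lit 185) (nat_lit 177))))) (XT.nd (nat_lit 312) (nat_lit 0) (nat_lit 0) (XT.nd (nat_lit 156) (nat_lit 0) (nat_lit 0) (XT.nd (nat_lit 78) (nat_lit 0) (nat_lit 0) (XT.lf (nat_lit 0) (nat_lit 281009106067) (nat_lit 76) (nat_lit 38140001473) (nat_lit 76) (nat_lit 36570935637) (nat_lit 1) (nat_lit 4) (nat_lit 2) (nat_lit 5) (nat_lit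 2) (nat_lit 4) (nat_lit 239) (nat_lit 185) (nat_lit 176)) (XT.lf (nat_lit 0) (nat_lit 325748514378) (nat_lit 76) (nat_lit 42427653064) (nat_lit 76) (nat_lit 40777304140) (nat_lit 1) (nat_lit 4) (nat_lit 2) (nat_lit 5) (nat_lit 2) (nat_lit 4) (nat_lit 240) (nat_lit 185) (nat_lit 175))) (XT.nd (nat_lit 78) (nat_lit 0) (nat_lit 0) (XT.lf (nat_lit 0) (nat_lit 377081689179) (nat_lit 76) (nat_lit 47408446911) (nat_lit 76) (nat_lit 45687417041) (nat_lit 1) (nat_lit 4) (nat_lit 2) (nat_lit 5) (nat_lit 2) (nat_lit 4) (nat_lit 241) (nat_lit 185) (nat_lit 174)) (XT.lf (nat_lit 0) (nat_lit 436012975193) (nat_lit 76) (nat_lit 53179833329) (nat_lit 76) (nat_lit 51397341767) (nat_lit 1) (nat_lit 4) (nat_lit 2) (nat_lit 5) (nat_lit 2) (nat_lit 4) (nat_lit 242) (nat_lit 185) (nat_lit 173)))) (XT.nd (nat_lit 156) (nat_lit 0) (nat_lit 0) (XT.nd (nat_lit 78) (nat_lit 0) (nat_lit 0) (XT.lf (nat_lit 0) (nat_lit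 503695375844) (nat_lit 76) (nat_lit 59854730748) (nat_lit 76) (nat_lit 58018794235) (nat_lit 1) (nat_lit 4) (nat_lit 2) (nat_lit 5) (nat_lit 2) (nat_lit 4) (nat_lit 243) (nat_lit 185) (nat_lit 172)) (XT.lf (nat_lit 0) (nat_lit 581453112012) (nat_lit 76) (nat_lit 67563734986) (nat_lit 76) (nat_lit 65681324603) (nat_lit 1) (nat_lit 4) (nat_lit 2) (nat_lit 5) (nat_lit 2) (nat_lit 4) (nat_lit 244) (nat_lit 185) (nat_lit 171))) (XT.nd (nat_lit 78) (nat_lit 0) (nat_lit 0) (XT.lf (nat_lit 0) (nat_lit 670807530710) (nat_lit 76) (nat_lit 76457674387) (nat_lit 76) (nat_lit 74534851944) (nat_lit 1) (nat_lit 4) (nat_lit 2) (nat_lit 5) (nat_lit 2) (nat_lit 4) (nat_lit 245) (nat_lit 185) (nat_lit 170)) (XT.nd (nat_lit 78) (nat_lit 0) (nat_lit 0) (XT.lf (nat_lit 0) (nat_lit 773506870565) (nat_lit 76) (nat_lit 86710560810) (nat_lit 76) (nat_lit 84752597445) (nat_lit 1) (nat_lit 4) (nat_lit 2) (nat_lit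 5) (nat_lit 2) (nat_lit 4) (nat_lit 246) (nat_lit 185) (nat_lit 169)) (XT.lf (nat_lit 0) (nat_lit 891560466486) (nat_lit 76) (nat_lit 98522994206) (nat_lit 76) (nat_lit 96534473517) (nat_lit 1) (nat_lit 4) (nat_lit 2) (nat_lit 5) (nat_lit 2) (nat_lit 4) (nat_lit 247) (nat_lit 185) (nat_lit 168))))))))
noncomputable def xc6 : XT := (XT.nd (nat_lit 30186) (nat_lit 0) (nat_lit 0) (XT.nd (nat_lit 624) (nat_lit 0) (nat_lit 0) (XT.nd (nat_lit 312) (nat_lit 0) (nat_lit 0) (XT.nd (nat_lit 156) (nat_lit 0) (nat_lit 0) (XT.nd (nat_lit 78) (nat_lit 0) (nat_lit 0) (XT.lf (nat_lit 0) (nat_lit 1027278062742) (nat_lit 76) (nat_lit 112126087402) (nat_lit 76) (nat_lit 110110995127) (nat_lit 1) (nat_lit 4) (nat_lit 2) (nat_lit 5) (nat_lit 2) (nat_lit 4) (nat_lit 248) (nat_lit 185) (nat_lit 167)) (XT.lf (nat_lit 0) (nat_lit 1183315003608) (nat_lit 76) (nat_lit 127785987873) (nat_lit 76) (nat_lit 125747789872)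 (nat_lit 1) (nat_lit 4) (nat_lit 2) (nat_lit 5) (nat_lit 2) (nat_lit 4) (nat_lit 249) (nat_lit 185) (nat_lit 166))) (XT.nd (nat_lit 78) (nat_lit 0) (nat_lit 0) (XT.lf (nat_lit 0) (nat_lit 1362724185753) (nat_lit 76) (nat_lit 145809084978) (nat_lit 76) (nat_lit 143750795041) (nat_lit 1) (nat_lit 4) (nat_lit 2) (nat_lit 5) (nat_lit 2) (nat_lit 4) (nat_lit 250) (nat_lit 185) (nat_lit 165)) (XT.lf (nat_lit 0) (nat_lit 1569015788826) (nat_lit 76) (nat_lit 166548004529) (nat_lit 76) (nat_lit 164472243342) (nat_lit 1) (nat_lit 4) (nat_lit 2) (nat_lit 5) (nat_lit 2) (nat_lit 4) (nat_lit 251) (nat_lit 185) (nat_lit 164)))) (XT.nd (nat_lit 156) (nat_lit 0) (nat_lit 0) (XT.nd (nat_lit 78) (nat_lit 0) (nat_lit 0) (XT.lf (nat_lit 0) (nat_lit 1806225952890) (nat_lit 76) (nat_lit 190408507995) (nat_lit 76) (nat_lit 188317554418) (nat_lit 1) (nat_lit 4) (nat_lit 2) (nat_lit 5) (nat_lit 2) (nat_lit 4)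 (nat_lit 252) (nat_lit 185) (nat_lit 163)) (XT.lf (nat_lit 0) (nat_lit 2078995746369) (nat_lit 76) (nat_lit 217857431313) (nat_lit 76) (nat_lit 215753266962) (nat_lit 1) (nat_lit 4) (nat_lit 2) (nat_lit 5) (nat_lit 2) (nat_lit 4) (nat_lit 253) (nat_lit 185) (nat_lit 162))) (XT.nd (nat_lit 78) (nat_lit 0) (nat_lit 0) (XT.lf (nat_lit 0) (nat_lit 2392661969573) (nat_lit 76) (nat_lit 249431818637) (nat_lit 76) (nat_lit 247316166656) (nat_lit 1) (nat_lit 4) (nat_lit 2) (nat_lit 5) (nat_lit 2) (nat_lit 4) (nat_lit 254) (nat_lit 185) (nat_lit 161)) (XT.lf (nat_lit 0) (nat_lit 2753361570346) (nat_lit 76) (nat_lit 285749429716) (nat_lit 76) (nat_lit 283623788492) (nat_lit 1) (nat_lit 4) (nat_lit 2) (nat_lit 5) (nat_lit 2) (nat_lit 4) (nat_lit 255) (nat_lit 185) (nat_lit 160))))) (XT.nd (nat_lit 29250) (nat_lit 0) (nat_lit 0) (XT.nd (nat_lit 29094) (nat_lit 0) (nat_lit 0) (XT.nd (nat_lit 78) (nat_lit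 0) (nat_lit 0) (XT.lf (nat_lit 0) (nat_lit 3168151714790) (nat_lit 76) (nat_lit 327520826509) (nat_lit 76) (nat_lit 325386498986) (nat_lit 1) (nat_lit 4) (nat_lit 2) (nat_lit 5) (nat_lit 2) (nat_lit 4) (nat_lit 256) (nat_lit 185) (nat_lit 159)) (XT.lf (nat_lit 0) (nat_lit 3645147862253) (nat_lit 76) (nat_lit 375563275472) (nat_lit 76) (nat_lit 373421394647) (nat_lit 1) (nat_lit 4) (nat_lit 2) (nat_lit 5) (nat_lit 2) (nat_lit 4) (nat_lit 257) (nat_lit 185) (nat_lit 158))) (XT.nd (nat_lit 78) (nat_lit 0) (nat_lit 0) (XT.lf (nat_lit 0) (nat_lit 18799334581) (nat_lit 76) (nat_lit 9989639246) (nat_lit 76) (nat_lit 9989639246) (nat_lit 1) (nat_lit 4) (nat_lit 2) (nat_lit 5) (nat_lit 2) (nat_lit 4) (nat_lit 228) (nat_lit 186) (nat_lit 186)) (XT.lf (nat_lit 0) (nat_lit 48815247098) (nat_lit 76) (nat_lit 20217977250) (nat_lit 76) (nat_lit 19889141823) (nat_lit 1) (nat_lit 4) (nat_lit 2) (nat_lit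 5) (nat_lit 2) (nat_lit 4) (nat_lit 229) (nat_lit 186) (nat_lit 185)))) (XT.nd (nat_lit 156) (nat_lit 0) (nat_lit 0) (XT.nd (nat_lit 78) (nat_lit 0) (nat_lit 0) (XT.lf (nat_lit 0) (nat_lit 61240395844) (nat_lit 76) (nat_lit 20694736528) (nat_lit 76) (nat_lit 20079957252) (nat_lit 1) (nat_lit 4) (nat_lit 2) (nat_lit 5) (nat_lit 2) (nat_lit 4) (nat_lit 230) (nat_lit 186) (nat_lit 184)) (XT.lf (nat_lit 0) (nat_lit 75117216138) (nat_lit 76) (nat_lit 21418884226) (nat_lit 76) (nat_lit 20555458124) (nat_lit 1) (nat_lit 4) (nat_lit 2) (nat_lit 5) (nat_lit 2) (nat_lit 4) (nat_lit 231) (nat_lit 186) (nat_lit 183))) (XT.nd (nat_lit 78) (nat_lit 0) (nat_lit 0) (XT.lf (nat_lit 0) (nat_lit 90717210984) (nat_lit 76) (nat_lit 22404588451) (nat_lit 76) (nat_lit 21324947717) (nat_lit 1) (nat_lit 4) (nat_lit 2) (nat_lit 5) (nat_lit 2) (nat_lit 4) (nat_lit 232) (nat_lit 186) (nat_lit 182)) (XT.lf (nat_lit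 0) (nat_lit 108345597673) (nat_lit 76) (nat_lit 23671134720) (nat_lit 76) (nat_lit 22403481264) (nat_lit 1) (nat_lit 4) (nat_lit 2) (nat_lit 5) (nat_lit 2) (nat_lit 4) (nat_lit 233) (nat_lit 186) (nat_lit 181)))))) (XT.nd (nat_lit 624) (nat_lit 0) (nat_lit 0) (XT.nd (nat_lit 312) (nat_lit 0) (nat_lit 0) (XT.nd (nat_lit 156) (nat_lit 0) (nat_lit 0) (XT.nd (nat_lit 78) (nat_lit 0) (nat_lit 0) (XT.lf (nat_lit 0) (nat_lit 128347279424) (nat_lit 76) (nat_lit 25243303286) (nat_lit 76) (nat_lit 23812160506) (nat_lit 1) (nat_lit 4) (nat_lit 2) (nat_lit 5) (nat_lit 2) (nat_lit 4) (nat_lit 234) (nat_lit 186) (nat_lit 180)) (XT.lf (nat_lit 0) (nat_lit 151113593487) (nat_lit 76) (nat_lit 27151853970) (nat_lit 76) (nat_lit 25578546560) (nat_lit 1) (nat_lit 4) (nat_lit 2) (nat_lit 5) (nat_lit 2) (nat_lit 4) (nat_lit 235) (nat_lit 186) (nat_lit 179))) (XT.nd (nat_lit 78) (nat_lit 0) (nat_lit 0) (XT.lf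 (nat_lit 0) (nat_lit 177089967747) (nat_lit 76) (nat_lit 29434127979) (nat_lit 76) (nat_lit 27737199153) (nat_lit 1) (nat_lit 4) (nat_lit 2) (nat_lit 5) (nat_lit 2) (nat_lit 4) (nat_lit 236) (nat_lit 186) (nat_lit 178)) (XT.lf (nat_lit 0) (nat_lit 206784635612) (nat_lit 76) (nat_lit 32134778503) (nat_lit 76) (nat_lit 30330352792) (nat_lit 1) (nat_lit 4) (nat_lit 2) (nat_lit 5) (nat_lit 2) (nat_lit 4) (nat_lit 237) (nat_lit 186) (nat_lit 177)))) (XT.nd (nat_lit 156) (nat_lit 0) (nat_lit 0) (XT.nd (nat_lit 78) (nat_lit 0) (nat_lit 0) (XT.lf (nat_lit 0) (nat_lit 240778579716) (nat_lit 76) (nat_lit 35306644354) (nat_lit 76) (nat_lit 33408743091) (nat_lit 1) (nat_lit 4) (nat_lit 2) (nat_lit 5) (nat_lit 2) (nat_lit 4) (nat_lit 238) (nat_lit 186) (nat_lit 176)) (XT.lf (nat_lit 0) (nat_lit 279736898964) (nat_lit 76) (nat_lit 39011783778) (nat_lit 76) (nat_lit 37032599427) (nat_lit 1) (nat_lit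 4) (nat_lit 2) (nat_lit 5) (nat_lit 2) (nat_lit 4) (nat_lit 239) (nat_lit 186) (nat_lit 175))) (XT.nd (nat_lit 78) (nat_lit 0) (nat_lit 0) (XT.lf (nat_lit 0) (nat_lit 324421821342) (nat_lit 76) (nat_lit 43322688633) (nat_lit 76) (nat_lit 41272823336) (nat_lit 1) (nat_lit 4) (nat_lit 2) (nat_lit 5) (nat_lit 2) (nat_lit 4) (nat_lit 240) (nat_lit 186) (nat_lit 174)) (XT.lf (nat_lit 0) (nat_lit 375707617070) (nat_lit 76) (nat_lit 48323702710) (nat_lit 76) (nat_lit 46212375720) (nat_lit 1) (nat_lit 4) (nat_lit 2) (nat_lit 5) (nat_lit 2) (nat_lit 4) (nat_lit 241) (nat_lit 186) (nat_lit 173))))) (XT.nd (nat_lit 312) (nat_lit 0) (nat_lit 0) (XT.nd (nat_lit 156) (nat_lit 0) (nat_lit 0) (XT.nd (nat_lit 78) (nat_lit 0) (nat_lit 0) (XT.lf (nat_lit 0) (nat_lit 434597703891) (nat_lit 76) (nat_lit 54112671936) (nat_lit 76) (nat_lit 51947899996) (nat_lit 1) (nat_lit 4) (nat_lit 2) (nat_lit 5) (nat_lit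 2) (nat_lit 4) (nat_lit 242) (nat_lit 186) (nat_lit 172)) (XT.lf (nat_lit 0) (nat_lit 502244279155) (nat_lit 76) (nat_lit 60802858753) (nat_lit 76) (nat_lit 58591612944) (nat_lit 1) (nat_lit 4) (nat_lit 2) (nat_lit 5) (nat_lit 2) (nat_lit 4) (nat_lit 243) (nat_lit 186) (nat_lit 171))) (XT.nd (nat_lit 78) (nat_lit 0) (nat_lit 0) (XT.lf (nat_lit 0) (nat_lit 579970862814) (nat_lit 76) (nat_lit 68525158120) (nat_lit 76) (nat_lit 66273500250) (nat_lit 1) (nat_lit 4) (nat_lit 2) (nat_lit 5) (nat_lit 2) (nat_lit 4) (nat_lit 244) (nat_lit 186) (nat_lit 170)) (XT.lf (nat_lit 0) (nat_lit 669298192373) (nat_lit 76) (nat_lit 77430658503) (nat_lit 76) (nat_lit 75143859712) (nat_lit 1) (nat_lit 4) (nat_lit 2) (nat_lit 5) (nat_lit 2) (nat_lit 4) (nat_lit 245) (nat_lit 186) (nat_lit 169)))) (XT.nd (nat_lit 156) (nat_lit 0) (nat_lit 0) (XT.nd (nat_lit 78) (nat_lit 0) (nat_lit 0) (XT.lf (nat_lit 0) (nat_lit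 771973976455) (nat_lit 76) (nat_lit 87693597954) (nat_lit 76) (nat_lit 85376241838) (nat_lit 1) (nat_lit 4) (nat_lit 2) (nat_lit 5) (nat_lit 2) (nat_lit 4) (nat_lit 246) (nat_lit 186) (nat_lit 168)) (XT.lf (nat_lit 0) (nat_lit 890007089096) (nat_lit 76) (nat_lit 99514773113) (nat_lit 76) (nat_lit 97170845411) (nat_lit 1) (nat_lit 4) (nat_lit 2) (nat_lit 5) (nat_lit 2) (nat_lit 4) (nat_lit 247) (nat_lit 186) (nat_lit 167))) (XT.nd (nat_lit 78) (nat_lit 0) (nat_lit 0) (XT.lf (nat_lit 0) (nat_lit 1025706873804) (nat_lit 76) (nat_lit 113125467842) (nat_lit 76) (nat_lit 110758434414) (nat_lit 1) (nat_lit 4) (nat_lit 2) (nat_lit 5) (nat_lit 2) (nat_lit 4) (nat_lit 248) (nat_lit 186) (nat_lit 166)) (XT.nd (nat_lit 78) (nat_lit 0) (nat_lit 0) (XT.lf (nat_lit 0) (nat_lit 1181728326367) (nat_lit 76) (nat_lit 128791978343) (nat_lit 76) (nat_lit 126404852978) (nat_lit 1) (nat_lit 4) (nat_lit 2)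 (nat_lit 5) (nat_lit 2) (nat_lit 4) (nat_lit 249) (nat_lit 186) (nat_lit 165)) (XT.lf (nat_lit 0) (nat_lit 1361124040422) (nat_lit 76) (nat_lit 146820823299) (nat_lit 76) (nat_lit 144416226685) (nat_lit 1) (nat_lit 4) (nat_lit 2) (nat_lit 5) (nat_lit 2) (nat_lit 4) (nat_lit 250) (nat_lit 186) (nat_lit 164))))))))
noncomputable def xc7 : XT := (XT.nd (nat_lit 30108) (nat_lit 0) (nat_lit 0) (XT.nd (nat_lit 29406) (nat_lit 0) (nat_lit 0) (XT.nd (nat_lit 312) (nat_lit 0) (nat_lit 0) (XT.nd (nat_lit 156) (nat_lit 0) (nat_lit 0) (XT.nd (nat_lit 78) (nat_lit 0) (nat_lit 0) (XT.lf (nat_lit 0) (nat_lit 1567403932113) (nat_lit 76) (nat_lit 167564740981) (nat_lit 76) (nat_lit 165144951977) (nat_lit 1) (nat_lit 4) (nat_lit 2) (nat_lit 5) (nat_lit 2) (nat_lit 4) (nat_lit 251) (nat_lit 186) (nat_lit 163)) (XT.lf (nat_lit 0) (nat_lit 1804603912366) (nat_lit 76) (nat_lit 191429590648) (nat_lit 76) (nat_lit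 188996590870) (nat_lit 1) (nat_lit 4) (nat_lit 2) (nat_lit 5) (nat_lit 2) (nat_lit 4) (nat_lit 252) (nat_lit 186) (nat_lit 162))) (XT.nd (nat_lit 78) (nat_lit 0) (nat_lit 0) (XT.lf (nat_lit 0) (nat_lit 2077364850358) (nat_lit 76) (nat_lit 218882293272) (nat_lit 76) (nat_lit 216437805864) (nat_lit 1) (nat_lit 4) (nat_lit 2) (nat_lit 5) (nat_lit 2) (nat_lit 4) (nat_lit 253) (nat_lit 186) (nat_lit 161)) (XT.lf (nat_lit 0) (nat_lit 2391023373138) (nat_lit 76) (nat_lit 250459966948) (nat_lit 76) (nat_lit 248005490297) (nat_lit 1) (nat_lit 4) (nat_lit 2) (nat_lit 5) (nat_lit 2) (nat_lit 4) (nat_lit 254) (nat_lit 186) (nat_lit 160)))) (XT.nd (nat_lit 156) (nat_lit 0) (nat_lit 0) (XT.nd (nat_lit 78) (nat_lit 0) (nat_lit 0) (XT.lf (nat_lit 0) (nat_lit 2751716277890) (nat_lit 76) (nat_lit 286780435726) (nat_lit 76) (nat_lit 284317272776) (nat_lit 1) (nat_lit 4) (nat_lit 2) (nat_lit 5) (nat_lit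 2) (nat_lit 4) (nat_lit 255) (nat_lit 186) (nat_lit 159)) (XT.lf (nat_lit 0) (nat_lit 3166500599707) (nat_lit 76) (nat_lit 328554317473) (nat_lit 76) (nat_lit 326083601220) (nat_lit 1) (nat_lit 4) (nat_lit 2) (nat_lit 5) (nat_lit 2) (nat_lit 4) (nat_lit 256) (nat_lit 186) (nat_lit 158))) (XT.nd (nat_lit 28860) (nat_lit 0) (nat_lit 0) (XT.lf (nat_lit 0) (nat_lit 3643491684016) (nat_lit 76) (nat_lit 376598927266) (nat_lit 76) (nat_lit 374121642924) (nat_lit 1) (nat_lit 4) (nat_lit 2) (nat_lit 5) (nat_lit 2) (nat_lit 4) (nat_lit 257) (nat_lit 186) (nat_lit 157)) (XT.lf (nat_lit 0) (nat_lit 9112136111) (nat_lit 76) (nat_lit 10227849032) (nat_lit 76) (nat_lit 10227849032) (nat_lit 1) (nat_lit 4) (nat_lit 2) (nat_lit 5) (nat_lit 2) (nat_lit 4) (nat_lit 226) (nat_lit 187) (nat_lit 187))))) (XT.nd (nat_lit 312) (nat_lit 0) (nat_lit 0) (XT.nd (nat_lit 156) (nat_lit 0) (nat_lit 0) (XT.nd (nat_lit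 78) (nat_lit 0) (nat_lit 0) (XT.lf (nat_lit 0) (nat_lit 27371207251) (nat_lit 76) (nat_lit 20352130804) (nat_lit 76) (nat_lit 19973970063) (nat_lit 1) (nat_lit 4) (nat_lit 2) (nat_lit 5) (nat_lit 2) (nat_lit 4) (nat_lit 227) (nat_lit 187) (nat_lit 186)) (XT.lf (nat_lit 0) (nat_lit 37345179273) (nat_lit 76) (nat_lit 20465622519) (nat_lit 76) (nat_lit 19758626351) (nat_lit 1) (nat_lit 4) (nat_lit 2) (nat_lit 5) (nat_lit 2) (nat_lit 4) (nat_lit 228) (nat_lit 187) (nat_lit 185))) (XT.nd (nat_lit 78) (nat_lit 0) (nat_lit 0) (XT.lf (nat_lit 0) (nat_lit 48341331218) (nat_lit 76) (nat_lit 20798393698) (nat_lit 76) (nat_lit 19805453681) (nat_lit 1) (nat_lit 4) (nat_lit 2) (nat_lit 5) (nat_lit 2) (nat_lit 4) (nat_lit 229) (nat_lit 187) (nat_lit 184)) (XT.lf (nat_lit 0) (nat_lit 60574805190) (nat_lit 76) (nat_lit 21356955082) (nat_lit 76) (nat_lit 20115368239) (nat_lit 1) (nat_lit 4) (nat_lit 2)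 (nat_lit 5) (nat_lit 2) (nat_lit 4) (nat_lit 230) (nat_lit 187) (nat_lit 183)))) (XT.nd (nat_lit 156) (nat_lit 0) (nat_lit 0) (XT.nd (nat_lit 78) (nat_lit 0) (nat_lit 0) (XT.lf (nat_lit 0) (nat_lit 74284951767) (nat_lit 76) (nat_lit 22152235046) (nat_lit 76) (nat_lit 20694433572) (nat_lit 1) (nat_lit 4) (nat_lit 2) (nat_lit 5) (nat_lit 2) (nat_lit 4) (nat_lit 231) (nat_lit 187) (nat_lit 182)) (XT.lf (nat_lit 0) (nat_lit 89740012946) (nat_lit 76) (nat_lit 23199793415) (nat_lit 76) (nat_lit 21553979219) (nat_lit 1) (nat_lit 4) (nat_lit 2) (nat_lit 5) (nat_lit 2) (nat_lit 4) (nat_lit 232) (nat_lit 187) (nat_lit 181))) (XT.nd (nat_lit 78) (nat_lit 0) (nat_lit 0) (XT.lf (nat_lit 0) (nat_lit 107242370360) (nat_lit 76) (nat_lit 24520125897) (nat_lit 76) (nat_lit 22710822376) (nat_lit 1) (nat_lit 4) (nat_lit 2) (nat_lit 5) (nat_lit 2) (nat_lit 4) (nat_lit 233) (nat_lit 187) (nat_lit 180)) (XT.nd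 (nat_lit 78) (nat_lit 0) (nat_lit 0) (XT.lf (nat_lit 0) (nat_lit 127134461436) (nat_lit 76) (nat_lit 26139065083) (nat_lit 76) (nat_lit 24187596933) (nat_lit 1) (nat_lit 4) (nat_lit 2) (nat_lit 5) (nat_lit 2) (nat_lit 4) (nat_lit 234) (nat_lit 187) (nat_lit 179)) (XT.lf (nat_lit 0) (nat_lit 149805479261) (nat_lit 76) (nat_lit 28088285871) (nat_lit 76) (nat_lit 26013196303) (nat_lit 1) (nat_lit 4) (nat_lit 2) (nat_lit 5) (nat_lit 2) (nat_lit 4) (nat_lit 235) (nat_lit 187) (nat_lit 178))))))) (XT.nd (nat_lit 624) (nat_lit 0) (nat_lit 0) (XT.nd (nat_lit 312) (nat_lit 0) (nat_lit 0) (XT.nd (nat_lit 156) (nat_lit 0) (nat_lit 0) (XT.nd (nat_lit 78) (nat_lit 0) (nat_lit 0) (XT.lf (nat_lit 0) (nat_lit 175698987226) (nat_lit 76) (nat_lit 30405925188) (nat_lit 76) (nat_lit 28223338737) (nat_lit 1) (nat_lit 4) (nat_lit 2) (nat_lit 5) (nat_lit 2) (nat_lit 4) (nat_lit 236) (nat_lit 187) (nat_lit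 177)) (XT.lf (nat_lit 0) (nat_lit 205321597444) (nat_lit 76) (nat_lit 33137328153) (nat_lit 76) (nat_lit 30861266150) (nat_lit 1) (nat_lit 4) (nat_lit 2) (nat_lit 5) (nat_lit 2) (nat_lit 4) (nat_lit 237) (nat_lit 187) (nat_lit 176))) (XT.nd (nat_lit 78) (nat_lit 0) (nat_lit 0) (XT.lf (nat_lit 0) (nat_lit 239252882724) (nat_lit 76) (nat_lit 36335935258) (nat_lit 76) (nat_lit 33978590166) (nat_lit 1) (nat_lit 4) (nat_lit 2) (nat_lit 5) (nat_lit 2) (nat_lit 4) (nat_lit 238) (nat_lit 187) (nat_lit 175)) (XT.lf (nat_lit 0) (nat_lit 278156716038) (nat_lit 76) (nat_lit 40064327946) (nat_lit 76) (nat_lit 37636301908) (nat_lit 1) (nat_lit 4) (nat_lit 2) (nat_lit 5) (nat_lit 2) (nat_lit 4) (nat_lit 239) (nat_lit 187) (nat_lit 174)))) (XT.nd (nat_lit 156) (nat_lit 0) (nat_lit 0) (XT.nd (nat_lit 78) (nat_lit 0) (nat_lit 0) (XT.lf (nat_lit 0) (nat_lit 322794259343) (nat_lit 76) (nat_lit 44395453030)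 (nat_lit 76) (nat_lit 41905965300) (nat_lit 1) (nat_lit 4) (nat_lit 2) (nat_lit 5) (nat_lit 2) (nat_lit 4) (nat_lit 240) (nat_lit 187) (nat_lit 173)) (XT.lf (nat_lit 0) (nat_lit 374038855878) (nat_lit 76) (nat_lit 49414049915) (nat_lit 76) (nat_lit 46871117235) (nat_lit 1) (nat_lit 4) (nat_lit 2) (nat_lit 5) (nat_lit 2) (nat_lit 4) (nat_lit 241) (nat_lit 187) (nat_lit 172))) (XT.nd (nat_lit 78) (nat_lit 0) (nat_lit 0) (XT.lf (nat_lit 0) (nat_lit 432893117313) (nat_lit 76) (nat_lit 55218308540) (nat_lit 76) (nat_lit 52628901990) (nat_lit 1) (nat_lit 4) (nat_lit 2) (nat_lit 5) (nat_lit 2) (nat_lit 4) (nat_lit 242) (nat_lit 187) (nat_lit 171)) (XT.lf (nat_lit 0) (nat_lit 500508540068) (nat_lit 76) (nat_lit 61921790486) (nat_lit 76) (nat_lit 59291971876) (nat_lit 1) (nat_lit 4) (nat_lit 2) (nat_lit 5) (nat_lit 2) (nat_lit 4) (nat_lit 243) (nat_lit 187) (nat_lit 170))))) (XT.nd (nat_lit 312)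 (nat_lit 0) (nat_lit 0) (XT.nd (nat_lit 156) (nat_lit 0) (nat_lit 0) (XT.nd (nat_lit 78) (nat_lit 0) (nat_lit 0) (XT.lf (nat_lit 0) (nat_lit 578208034588) (nat_lit 76) (nat_lit 69655650836) (nat_lit 76) (nat_lit 66990691303) (nat_lit 1) (nat_lit 4) (nat_lit 2) (nat_lit 5) (nat_lit 2) (nat_lit 4) (nat_lit 244) (nat_lit 187) (nat_lit 169)) (XT.lf (nat_lit 0) (nat_lit 667511808374) (nat_lit 76) (nat_lit 78571204247) (nat_lit 76) (nat_lit 75875687390) (nat_lit 1) (nat_lit 4) (nat_lit 2) (nat_lit 5) (nat_lit 2) (nat_lit 4) (nat_lit 245) (nat_lit 187) (nat_lit 168))) (XT.nd (nat_lit 78) (nat_lit 0) (nat_lit 0) (XT.lf (nat_lit 0) (nat_lit 770167109176) (nat_lit 76) (nat_lit 88842885460) (nat_lit 76) (nat_lit 86120797018) (nat_lit 1) (nat_lit 4) (nat_lit 2) (nat_lit 5) (nat_lit 2) (nat_lit 4) (nat_lit 246) (nat_lit 187) (nat_lit 167)) (XT.lf (nat_lit 0) (nat_lit 888182410268) (nat_lit 76) (nat_lit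 100671662152) (nat_lit 76) (nat_lit 97926467983) (nat_lit 1) (nat_lit 4) (nat_lit 2) (nat_lit 5) (nat_lit 2) (nat_lit 4) (nat_lit 247) (nat_lit 187) (nat_lit 166)))) (XT.nd (nat_lit 156) (nat_lit 0) (nat_lit 0) (XT.nd (nat_lit 78) (nat_lit 0) (nat_lit 0) (XT.lf (nat_lit 0) (nat_lit 1023866706673) (nat_lit 76) (nat_lit 114288966910) (nat_lit 76) (nat_lit 111523680805) (nat_lit 1) (nat_lit 4) (nat_lit 2) (nat_lit 5) (nat_lit 2) (nat_lit 4) (nat_lit 248) (nat_lit 187) (nat_lit 165)) (XT.lf (nat_lit 0) (nat_lit 1179874691147) (nat_lit 76) (nat_lit 129961225262) (nat_lit 76) (nat_lit 127178467908) (nat_lit 1) (nat_lit 4) (nat_lit 2) (nat_lit 5) (nat_lit 2) (nat_lit 4) (nat_lit 249) (nat_lit 187) (nat_lit 164))) (XT.nd (nat_lit 78) (nat_lit 0) (nat_lit 0) (XT.lf (nat_lit 0) (nat_lit 1359258693820) (nat_lit 76) (nat_lit 147995068350) (nat_lit 76) (nat_lit 145197118605) (nat_lit 1) (nat_lit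 4) (nat_lit 2) (nat_lit 5) (nat_lit 2) (nat_lit 4) (nat_lit 250) (nat_lit 187) (nat_lit 163)) (XT.nd (nat_lit 78) (nat_lit 0) (nat_lit 0) (XT.lf (nat_lit 0) (nat_lit 1565528401700) (nat_lit 76) (nat_lit 168743332233) (nat_lit 76) (nat_lit 165932171715) (nat_lit 1) (nat_lit 4) (nat_lit 2) (nat_lit 5) (nat_lit 2) (nat_lit 4) (nat_lit 251) (nat_lit 187) (nat_lit 162)) (XT.lf (nat_lit 0) (nat_lit 1802719526465) (nat_lit 76) (nat_lit 192611961206) (nat_lit 76) (nat_lit 189789313057) (nat_lit 1) (nat_lit 4) (nat_lit 2) (nat_lit 5) (nat_lit 2) (nat_lit 4) (nat_lit 252) (nat_lit 187) (nat_lit 161))))))))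
noncomputable def xc8 : XT := (XT.nd (nat_lit 29874) (nat_lit 0) (nat_lit 0) (XT.nd (nat_lit 29250) (nat_lit 0) (nat_lit 0) (XT.nd (nat_lit 312) (nat_lit 0) (nat_lit 0) (XT.nd (nat_lit 156) (nat_lit 0) (nat_lit 0) (XT.nd (nat_lit 78) (nat_lit 0) (nat_lit 0) (XT.lf (nat_lit 0) (nat_lit 2075472764034) (nat_lit 76) (nat_lit 220067950183) (nat_lit 76) (nat_lit 217235312791) (nat_lit 1) (nat_lit 4) (nat_lit 2) (nat_lit 5) (nat_lit 2) (nat_lit 4) (nat_lit 253) (nat_lit 187) (nat_lit 160)) (XT.lf (nat_lit 0) (nat_lit 2389124590793) (nat_lit 76) (nat_lit 251648481557) (nat_lit 76) (nat_lit 248807157866) (nat_lit 1) (nat_lit 4) (nat_lit 2) (nat_lit 5) (nat_lit 2) (nat_lit 4) (nat_lit 254) (nat_lit 187) (nat_lit 159))) (XT.nd (nat_lit 78) (nat_lit 0) (nat_lit 0) (XT.lf (nat_lit 0) (nat_lit 2749811672918) (nat_lit 76) (nat_lit 287971435289) (nat_lit 76) (nat_lit 285122558295) (nat_lit 1) (nat_lit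 4) (nat_lit 2) (nat_lit 5) (nat_lit 2) (nat_lit 4) (nat_lit 255) (nat_lit 187) (nat_lit 158)) (XT.lf (nat_lit 0) (nat_lit 3164590931581) (nat_lit 76) (nat_lit 329747477866) (nat_lit 76) (nat_lit 326892032783) (nat_lit 1) (nat_lit 4) (nat_lit 2) (nat_lit 5) (nat_lit 2) (nat_lit 4) (nat_lit 256) (nat_lit 187) (nat_lit 157)))) (XT.nd (nat_lit 28782) (nat_lit 0) (nat_lit 0) (XT.nd (nat_lit 28704) (nat_lit 0) (nat_lit 0) (XT.lf (nat_lit 0) (nat_lit 3641577613148) (nat_lit 76) (nat_lit 377793966643) (nat_lit 76) (nat_lit 374932810177) (nat_lit 1) (nat_lit 4) (nat_lit 2) (nat_lit 5) (nat_lit 2) (nat_lit 4) (nat_lit 257) (nat_lit 187) (nat_lit 156)) (XT.lf (nat_lit 0) (nat_lit 1021793082) (nat_lit 76) (nat_lit 10809106839) (nat_lit 76) (nat_lit 10809106839) (nat_lit 1) (nat_lit 4) (nat_lit 2) (nat_lit 5) (nat_lit 2) (nat_lit 4) (nat_lit 224) (nat_lit 188) (nat_lit 188))) (XT.nd (nat_lit 78)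 (nat_lit 0) (nat_lit 0) (XT.lf (nat_lit 0) (nat_lit 9725412414) (nat_lit 76) (nat_lit 21213235466) (nat_lit 76) (nat_lit 20778350613) (nat_lit 1) (nat_lit 4) (nat_lit 2) (nat_lit 5) (nat_lit 2) (nat_lit 4) (nat_lit 225) (nat_lit 188) (nat_lit 187)) (XT.lf (nat_lit 0) (nat_lit 17932758850) (nat_lit 76) (nat_lit 21014993694) (nat_lit 76) (nat_lit 20201948101) (nat_lit 1) (nat_lit 4) (nat_lit 2) (nat_lit 5) (nat_lit 2) (nat_lit 4) (nat_lit 226) (nat_lit 188) (nat_lit 186))))) (XT.nd (nat_lit 312) (nat_lit 0) (nat_lit 0) (XT.nd (nat_lit 156) (nat_lit 0) (nat_lit 0) (XT.nd (nat_lit 78) (nat_lit 0) (nat_lit 0) (XT.lf (nat_lit 0) (nat_lit 26826203990) (nat_lit 76) (nat_lit 21019609719) (nat_lit 76) (nat_lit 19877728699) (nat_lit 1) (nat_lit 4) (nat_lit 2) (nat_lit 5) (nat_lit 2) (nat_lit 4) (nat_lit 227) (nat_lit 188) (nat_lit 185)) (XT.lf (nat_lit 0) (nat_lit 36579750021) (nat_lit 76) (nat_lit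 21227173856) (nat_lit 76) (nat_lit 19799348987) (nat_lit 1) (nat_lit 4) (nat_lit 2) (nat_lit 5) (nat_lit 2) (nat_lit 4) (nat_lit 228) (nat_lit 188) (nat_lit 184))) (XT.nd (nat_lit 78) (nat_lit 0) (nat_lit 0) (XT.lf (nat_lit 0) (nat_lit 47384227192) (nat_lit 76) (nat_lit 21641747141) (nat_lit 76) (nat_lit 19965275446) (nat_lit 1) (nat_lit 4) (nat_lit 2) (nat_lit 5) (nat_lit 2) (nat_lit 4) (nat_lit 229) (nat_lit 188) (nat_lit 183)) (XT.lf (nat_lit 0) (nat_lit 59451027447) (nat_lit 76) (nat_lit 22271440792) (nat_lit 76) (nat_lit 20378754466) (nat_lit 1) (nat_lit 4) (nat_lit 2) (nat_lit 5) (nat_lit 2) (nat_lit 4) (nat_lit 230) (nat_lit 188) (nat_lit 182)))) (XT.nd (nat_lit 156) (nat_lit 0) (nat_lit 0) (XT.nd (nat_lit 78) (nat_lit 0) (nat_lit 0) (XT.lf (nat_lit 0) (nat_lit 73016240356) (nat_lit 76) (nat_lit 23128574900) (nat_lit 76) (nat_lit 21047875852) (nat_lit 1) (nat_lit 4) (nat_lit 2)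 (nat_lit 5) (nat_lit 2) (nat_lit 4) (nat_lit 231) (nat_lit 188) (nat_lit 181)) (XT.lf (nat_lit 0) (nat_lit 88345272260) (nat_lit 76) (nat_lit 24229919482) (nat_lit 76) (nat_lit 21985731109) (nat_lit 1) (nat_lit 4) (nat_lit 2) (nat_lit 5) (nat_lit 2) (nat_lit 4) (nat_lit 232) (nat_lit 188) (nat_lit 180))) (XT.nd (nat_lit 78) (nat_lit 0) (nat_lit 0) (XT.lf (nat_lit 0) (nat_lit 105738039000) (nat_lit 76) (nat_lit 25597022583) (nat_lit 76) (nat_lit 23210669581) (nat_lit 1) (nat_lit 4) (nat_lit 2) (nat_lit 5) (nat_lit 2) (nat_lit 4) (nat_lit 233) (nat_lit 188) (nat_lit 179)) (XT.lf (nat_lit 0) (nat_lit 125534833837) (nat_lit 76) (nat_lit 27256631873) (nat_lit 76) (nat_lit 24746657454) (nat_lit 1) (nat_lit 4) (nat_lit 2) (nat_lit 5) (nat_lit 2) (nat_lit 4) (nat_lit 234) (nat_lit 188) (nat_lit 178)))))) (XT.nd (nat_lit 624) (nat_lit 0) (nat_lit 0) (XT.nd (nat_lit 312) (nat_lit 0) (nat_lit 0)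 (XT.nd (nat_lit 156) (nat_lit 0) (nat_lit 0) (XT.nd (nat_lit 78) (nat_lit 0) (nat_lit 0) (XT.lf (nat_lit 0) (nat_lit 148122985367) (nat_lit 76) (nat_lit 29241217969) (nat_lit 76) (nat_lit 26623746665) (nat_lit 1) (nat_lit 4) (nat_lit 2) (nat_lit 5) (nat_lit 2) (nat_lit 4) (nat_lit 235) (nat_lit 188) (nat_lit 177)) (XT.lf (nat_lit 0) (nat_lit 173944435685) (nat_lit 76) (nat_lit 31589609728) (nat_lit 76) (nat_lit 28878662873) (nat_lit 1) (nat_lit 4) (nat_lit 2) (nat_lit 5) (nat_lit 2) (nat_lit 4) (nat_lit 236) (nat_lit 188) (nat_lit 176))) (XT.nd (nat_lit 78) (nat_lit 0) (nat_lit 0) (XT.lf (nat_lit 0) (nat_lit 203504387080) (nat_lit 76) (nat_lit 34347753946) (nat_lit 76) (nat_lit 31555524003) (nat_lit 1) (nat_lit 4) (nat_lit 2) (nat_lit 5) (nat_lit 2) (nat_lit 4) (nat_lit 237) (nat_lit 188) (nat_lit 175)) (XT.lf (nat_lit 0) (nat_lit 237381186426) (nat_lit 76) (nat_lit 37569614315) (nat_lit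 76) (nat_lit 34706703425) (nat_lit 1) (nat_lit 4) (nat_lit 2) (nat_lit 5) (nat_lit 2) (nat_lit 4) (nat_lit 238) (nat_lit 188) (nat_lit 174)))) (XT.nd (nat_lit 156) (nat_lit 0) (nat_lit 0) (XT.nd (nat_lit 78) (nat_lit 0) (nat_lit 0) (XT.lf (nat_lit 0) (nat_lit 276237640668) (nat_lit 76) (nat_lit 41318227233) (nat_lit 76) (nat_lit 38393854650) (nat_lit 1) (nat_lit 4) (nat_lit 2) (nat_lit 5) (nat_lit 2) (nat_lit 4) (nat_lit 239) (nat_lit 188) (nat_lit 173)) (XT.lf (nat_lit 0) (nat_lit 320833984779) (nat_lit 76) (nat_lit 45666935125) (nat_lit 76) (nat_lit 42689117593) (nat_lit 1) (nat_lit 4) (nat_lit 2) (nat_lit 5) (nat_lit 2) (nat_lit 4) (nat_lit 240) (nat_lit 188) (nat_lit 172))) (XT.nd (nat_lit 78) (nat_lit 0) (nat_lit 0) (XT.lf (nat_lit 0) (nat_lit 372042755927) (nat_lit 76) (nat_lit 50700821409) (nat_lit 76) (nat_lit 47676530007) (nat_lit 1) (nat_lit 4) (nat_lit 2) (nat_lit 5) (nat_lit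 2) (nat_lit 4) (nat_lit 241) (nat_lit 188) (nat_lit 171)) (XT.lf (nat_lit 0) (nat_lit 430865864853) (nat_lit 76) (nat_lit 56518375163) (nat_lit 76) (nat_lit 53453671700) (nat_lit 1) (nat_lit 4) (nat_lit 2) (nat_lit 5) (nat_lit 2) (nat_lit 4) (nat_lit 242) (nat_lit 188) (nat_lit 170))))) (XT.nd (nat_lit 312) (nat_lit 0) (nat_lit 0) (XT.nd (nat_lit 156) (nat_lit 0) (nat_lit 0) (XT.nd (nat_lit 78) (nat_lit 0) (nat_lit 0) (XT.lf (nat_lit 0) (nat_lit 498454198469) (nat_lit 76) (nat_lit 63233418091) (nat_lit 76) (nat_lit 60133573706) (nat_lit 1) (nat_lit 4) (nat_lit 2) (nat_lit 5) (nat_lit 2) (nat_lit 4) (nat_lit 243) (nat_lit 188) (nat_lit 169)) (XT.lf (nat_lit 0) (nat_lit 576130137216) (nat_lit 76) (nat_lit 70977331468) (nat_lit 76) (nat_lit 67846929759) (nat_lit 1) (nat_lit 4) (nat_lit 2) (nat_lit 5) (nat_lit 2) (nat_lit 4) (nat_lit 244) (nat_lit 188) (nat_lit 168))) (XT.nd (nat_lit 78)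 (nat_lit 0) (nat_lit 0) (XT.lf (nat_lit 0) (nat_lit 665413427723) (nat_lit 76) (nat_lit 79901626642) (nat_lit 76) (nat_lit 76744653348) (nat_lit 1) (nat_lit 4) (nat_lit 2) (nat_lit 5) (nat_lit 2) (nat_lit 4) (nat_lit 245) (nat_lit 188) (nat_lit 167)) (XT.lf (nat_lit 0) (nat_lit 768050916976) (nat_lit 76) (nat_lit 90180909389) (nat_lit 76) (nat_lit 87000830368) (nat_lit 1) (nat_lit 4) (nat_lit 2) (nat_lit 5) (nat_lit 2) (nat_lit 4) (nat_lit 246) (nat_lit 188) (nat_lit 166)))) (XT.nd (nat_lit 156) (nat_lit 0) (nat_lit 0) (XT.nd (nat_lit 78) (nat_lit 0) (nat_lit 0) (XT.lf (nat_lit 0) (nat_lit 886050729765) (nat_lit 76) (nat_lit 102016296110) (nat_lit 76) (nat_lit 98816125153) (nat_lit 1) (nat_lit 4) (nat_lit 2) (nat_lit 5) (nat_lit 2) (nat_lit 4) (nat_lit 247) (nat_lit 188) (nat_lit 165)) (XT.lf (nat_lit 0) (nat_lit 1021721558081) (nat_lit 76) (nat_lit 115639348719) (nat_lit 76) (nat_lit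 112421706513) (nat_lit 1) (nat_lit 4) (nat_lit 2) (nat_lit 5) (nat_lit 2) (nat_lit 4) (nat_lit 248) (nat_lit 188) (nat_lit 164))) (XT.nd (nat_lit 78) (nat_lit 0) (nat_lit 0) (XT.lf (nat_lit 0) (nat_lit 1177717831172) (nat_lit 76) (nat_lit 131316605203) (nat_lit 76) (nat_lit 128083770606) (nat_lit 1) (nat_lit 4) (nat_lit 2) (nat_lit 5) (nat_lit 2) (nat_lit 4) (nat_lit 249) (nat_lit 188) (nat_lit 163)) (XT.nd (nat_lit 78) (nat_lit 0) (nat_lit 0) (XT.lf (nat_lit 0) (nat_lit 1357091650034) (nat_lit 76) (nat_lit 149354794492) (nat_lit 76) (nat_lit 146108749121) (nat_lit 1) (nat_lit 4) (nat_lit 2) (nat_lit 5) (nat_lit 2) (nat_lit 4) (nat_lit 250) (nat_lit 188) (nat_lit 162)) (XT.lf (nat_lit 0) (nat_lit 1563352502428) (nat_lit 76) (nat_lit 170106837681) (nat_lit 76) (nat_lit 166849304680) (nat_lit 1) (nat_lit 4) (nat_lit 2) (nat_lit 5) (nat_lit 2) (nat_lit 4) (nat_lit 251) (nat_lit 188) (nat_lit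 161))))))))
noncomputable def xc9 : XT := (XT.nd (nat_lit 29796) (nat_lit 0) (nat_lit 0) (XT.nd (nat_lit 29094) (nat_lit 0) (nat_lit 0) (XT.nd (nat_lit 312) (nat_lit 0) (nat_lit 0) (XT.nd (nat_lit 156) (nat_lit 0) (nat_lit 0) (XT.nd (nat_lit 78) (nat_lit 0) (nat_lit 0) (XT.lf (nat_lit 0) (nat_lit 1800535926769) (nat_lit 76) (nat_lit 193978753006) (nat_lit 76) (nat_lit 190711230762) (nat_lit 1) (nat_lit 4) (nat_lit 2) (nat_lit 5) (nat_lit 2) (nat_lit 4) (nat_lit 252) (nat_lit 188) (nat_lit 160)) (XT.lf (nat_lit 0) (nat_lit 2073282468316) (nat_lit 76) (nat_lit 221437599681) (nat_lit 76) (nat_lit 218161391138) (nat_lit 1) (nat_lit 4) (nat_lit 2) (nat_lit 5) (nat_lit 2) (nat_lit 4) (nat_lit 253) (nat_lit 188) (nat_lit 159))) (XT.nd (nat_lit 78) (nat_lit 0) (nat_lit 0) (XT.lf (nat_lit 0) (nat_lit 2386928472448) (nat_lit 76) (nat_lit 253020616009) (nat_lit 76) (nat_lit 249736854163) (nat_lit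 1) (nat_lit 4) (nat_lit 2) (nat_lit 5) (nat_lit 2) (nat_lit 4) (nat_lit 254) (nat_lit 188) (nat_lit 158)) (XT.lf (nat_lit 0) (nat_lit 2747610491420) (nat_lit 76) (nat_lit 289345730572) (nat_lit 76) (nat_lit 286055400636) (nat_lit 1) (nat_lit 4) (nat_lit 2) (nat_lit 5) (nat_lit 2) (nat_lit 4) (nat_lit 255) (nat_lit 188) (nat_lit 157)))) (XT.nd (nat_lit 28626) (nat_lit 0) (nat_lit 76) (XT.nd (nat_lit 78) (nat_lit 0) (nat_lit 0) (XT.lf (nat_lit 0) (nat_lit 3162385347341) (nat_lit 76) (nat_lit 331123652131) (nat_lit 76) (nat_lit 327827610814) (nat_lit 1) (nat_lit 4) (nat_lit 2) (nat_lit 5) (nat_lit 2) (nat_lit 4) (nat_lit 256) (nat_lit 188) (nat_lit 156)) (XT.lf (nat_lit 0) (nat_lit 3639368200437) (nat_lit 76) (nat_lit 379171774806) (nat_lit 76) (nat_lit 375870767069) (nat_lit 1) (nat_lit 4) (nat_lit 2) (nat_lit 5) (nat_lit 2) (nat_lit 4) (nat_lit 257) (nat_lit 188) (nat_lit 155))) (XT.nd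 (nat_lit 78) (nat_lit 0) (nat_lit 0) (XT.lf (nat_lit 0) (nat_lit 5877737410) (nat_lit 152) (nat_lit 5676972874) (nat_lit 0) (nat_lit 5877737410) (nat_lit 2) (nat_lit 5) (nat_lit 4) (nat_lit 4) (nat_lit 2) (nat_lit 4) (nat_lit 222) (nat_lit 189) (nat_lit 189)) (XT.lf (nat_lit 0) (nat_lit 17601528573) (nat_lit 152) (nat_lit 4999739098) (nat_lit 0) (nat_lit 17101410993) (nat_lit 2) (nat_lit 5) (nat_lit 4) (nat_lit 4) (nat_lit 2) (nat_lit 4) (nat_lit 223) (nat_lit 189) (nat_lit 188))))) (XT.nd (nat_lit 312) (nat_lit 0) (nat_lit 0) (XT.nd (nat_lit 156) (nat_lit 0) (nat_lit 0) (XT.nd (nat_lit 78) (nat_lit 0) (nat_lit 0) (XT.lf (nat_lit 0) (nat_lit 1708345786) (nat_lit 76) (nat_lit 22261403653) (nat_lit 76) (nat_lit 21326401221) (nat_lit 1) (nat_lit 4) (nat_lit 2) (nat_lit 5) (nat_lit 2) (nat_lit 4) (nat_lit 224) (nat_lit 189) (nat_lit 187)) (XT.lf (nat_lit 0) (nat_lit 9098658663) (nat_lit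 76) (nat_lit 21980836218) (nat_lit 76) (nat_lit 20667673045) (nat_lit 1) (nat_lit 4) (nat_lit 2) (nat_lit 5) (nat_lit 2) (nat_lit 4) (nat_lit 225) (nat_lit 189) (nat_lit 186))) (XT.nd (nat_lit 78) (nat_lit 0) (nat_lit 0) (XT.lf (nat_lit 0) (nat_lit 17052515210) (nat_lit 76) (nat_lit 21890777732) (nat_lit 76) (nat_lit 20248779132) (nat_lit 1) (nat_lit 4) (nat_lit 2) (nat_lit 5) (nat_lit 2) (nat_lit 4) (nat_lit 226) (nat_lit 189) (nat_lit 185)) (XT.lf (nat_lit 0) (nat_lit 25725534359) (nat_lit 76) (nat_lit 21989466179) (nat_lit 76) (nat_lit 20061523730) (nat_lit 1) (nat_lit 4) (nat_lit 2) (nat_lit 5) (nat_lit 2) (nat_lit 4) (nat_lit 227) (nat_lit 189) (nat_lit 184)))) (XT.nd (nat_lit 156) (nat_lit 0) (nat_lit 0) (XT.nd (nat_lit 78) (nat_lit 0) (nat_lit 0) (XT.lf (nat_lit 0) (nat_lit 35287405616) (nat_lit 76) (nat_lit 22278832422) (nat_lit 76) (nat_lit 20102243147) (nat_lit 1) (nat_lit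 4) (nat_lit 2) (nat_lit 5) (nat_lit 2) (nat_lit 4) (nat_lit 228) (nat_lit 189) (nat_lit 183)) (XT.lf (nat_lit 0) (nat_lit 45925209070) (nat_lit 76) (nat_lit 22764537974) (nat_lit 76) (nat_lit 20371734068) (nat_lit 1) (nat_lit 4) (nat_lit 2) (nat_lit 5) (nat_lit 2) (nat_lit 4) (nat_lit 229) (nat_lit 189) (nat_lit 182))) (XT.nd (nat_lit 78) (nat_lit 0) (nat_lit 0) (XT.lf (nat_lit 0) (nat_lit 57847075658) (nat_lit 76) (nat_lit 23456085768) (nat_lit 76) (nat_lit 20875269140) (nat_lit 1) (nat_lit 4) (nat_lit 2) (nat_lit 5) (nat_lit 2) (nat_lit 4) (nat_lit 230) (nat_lit 189) (nat_lit 181)) (XT.nd (nat_lit 78) (nat_lit 0) (nat_lit 0) (XT.lf (nat_lit 0) (nat_lit 71286259292) (nat_lit 76) (nat_lit 24367006089) (nat_lit 76) (nat_lit 21622700137) (nat_lit 1) (nat_lit 4) (nat_lit 2) (nat_lit 5) (nat_lit 2) (nat_lit 4) (nat_lit 231) (nat_lit 189) (nat_lit 180)) (XT.lf (nat_lit 0) (nat_lit 86505700522)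 (nat_lit 76) (nat_lit 25515121291) (nat_lit 76) (nat_lit 22628650709) (nat_lit 1) (nat_lit 4) (nat_lit 2) (nat_lit 5) (nat_lit 2) (nat_lit 4) (nat_lit 232) (nat_lit 189) (nat_lit 179))))))) (XT.nd (nat_lit 624) (nat_lit 0) (nat_lit 0) (XT.nd (nat_lit 312) (nat_lit 0) (nat_lit 0) (XT.nd (nat_lit 156) (nat_lit 0) (nat_lit 0) (XT.nd (nat_lit 78) (nat_lit 0) (nat_lit 0) (XT.lf (nat_lit 0) (nat_lit 103803171023) (nat_lit 76) (nat_lit 26922894496) (nat_lit 76) (nat_lit 23912802497) (nat_lit 1) (nat_lit 4) (nat_lit 2) (nat_lit 5) (nat_lit 2) (nat_lit 4) (nat_lit 233) (nat_lit 189) (nat_lit 178)) (XT.lf (nat_lit 0) (nat_lit 123517099566) (nat_lit 76) (nat_lit 28617869094) (nat_lit 76) (nat_lit 25500280210) (nat_lit 1) (nat_lit 4) (nat_lit 2) (nat_lit 5) (nat_lit 2) (nat_lit 4) (nat_lit 234) (nat_lit 189) (nat_lit 177))) (XT.nd (nat_lit 78) (nat_lit 0) (nat_lit 0) (XT.lf (nat_lit 0) (nat_lit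 146033193448) (nat_lit 76) (nat_lit 30633207631) (nat_lit 76) (nat_lit 27422143196) (nat_lit 1) (nat_lit 4) (nat_lit 2) (nat_lit 5) (nat_lit 2) (nat_lit 4) (nat_lit 235) (nat_lit 189) (nat_lit 176)) (XT.lf (nat_lit 0) (nat_lit 171791984942) (nat_lit 76) (nat_lit 33008340644) (nat_lit 76) (nat_lit 29715993120) (nat_lit 1) (nat_lit 4) (nat_lit 2) (nat_lit 5) (nat_lit 2) (nat_lit 4) (nat_lit 236) (nat_lit 189) (nat_lit 175)))) (XT.nd (nat_lit 156) (nat_lit 0) (nat_lit 0) (XT.nd (nat_lit 78) (nat_lit 0) (nat_lit 0) (XT.lf (nat_lit 0) (nat_lit 201297450403) (nat_lit 76) (nat_lit 35789738126) (nat_lit 76) (nat_lit 32426709656) (nat_lit 1) (nat_lit 4) (nat_lit 2) (nat_lit 5) (nat_lit 2) (nat_lit 4) (nat_lit 237) (nat_lit 189) (nat_lit 174)) (XT.lf (nat_lit 0) (nat_lit 235126870677) (nat_lit 76) (nat_lit 39031818724) (nat_lit 76) (nat_lit 35607328562) (nat_lit 1) (nat_lit 4) (nat_lit 2) (nat_lit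 5) (nat_lit 2) (nat_lit 4) (nat_lit 238) (nat_lit 189) (nat_lit 173))) (XT.nd (nat_lit 78) (nat_lit 0) (nat_lit 0) (XT.lf (nat_lit 0) (nat_lit 273942125725) (nat_lit 76) (nat_lit 42798014450) (nat_lit 76) (nat_lit 39320079338) (nat_lit 1) (nat_lit 4) (nat_lit 2) (nat_lit 5) (nat_lit 2) (nat_lit 4) (nat_lit 239) (nat_lit 189) (nat_lit 172)) (XT.lf (nat_lit 0) (nat_lit 318502644450) (nat_lit 76) (nat_lit 47162011742) (nat_lit 76) (nat_lit 43637602760) (nat_lit 1) (nat_lit 4) (nat_lit 2) (nat_lit 5) (nat_lit 2) (nat_lit 4) (nat_lit 240) (nat_lit 189) (nat_lit 171))))) (XT.nd (nat_lit 312) (nat_lit 0) (nat_lit 0) (XT.nd (nat_lit 156) (nat_lit 0) (nat_lit 0) (XT.nd (nat_lit 78) (nat_lit 0) (nat_lit 0) (XT.lf (nat_lit 0) (nat_lit 369680263089) (nat_lit 76) (nat_lit 52209193155) (nat_lit 76) (nat_lit 48644372112) (nat_lit 1) (nat_lit 4) (nat_lit 2) (nat_lit 5) (nat_lit 2) (nat_lit 4) (nat_lit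 241) (nat_lit 189) (nat_lit 170)) (XT.lf (nat_lit 0) (nat_lit 428476282876) (nat_lit 76) (nat_lit 58038307890) (nat_lit 76) (nat_lit 54438345926) (nat_lit 1) (nat_lit 4) (nat_lit 2) (nat_lit 5) (nat_lit 2) (nat_lit 4) (nat_lit 242) (nat_lit 189) (nat_lit 169))) (XT.nd (nat_lit 78) (nat_lit 0) (nat_lit 0) (XT.lf (nat_lit 0) (nat_lit 496041060720) (nat_lit 76) (nat_lit 64763403846) (nat_lit 76) (nat_lit 61132884558) (nat_lit 1) (nat_lit 4) (nat_lit 2) (nat_lit 5) (nat_lit 2) (nat_lit 4) (nat_lit 243) (nat_lit 189) (nat_lit 168)) (XT.lf (nat_lit 0) (nat_lit 573696516186) (nat_lit 76) (nat_lit 72516058986) (nat_lit 76) (nat_lit 68858968112) (nat_lit 1) (nat_lit 4) (nat_lit 2) (nat_lit 5) (nat_lit 2) (nat_lit 4) (nat_lit 244) (nat_lit 189) (nat_lit 167)))) (XT.nd (nat_lit 156) (nat_lit 0) (nat_lit 0) (XT.nd (nat_lit 78) (nat_lit 0) (nat_lit 0) (XT.lf (nat_lit 0) (nat_lit 662961995144) (nat_lit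 76) (nat_lit 81447955694) (nat_lit 76) (nat_lit 77767759093) (nat_lit 1) (nat_lit 4) (nat_lit 2) (nat_lit 5) (nat_lit 2) (nat_lit 4) (nat_lit 245) (nat_lit 189) (nat_lit 166)) (XT.lf (nat_lit 0) (nat_lit 765583996094) (nat_lit 76) (nat_lit 91733848469) (nat_lit 76) (nat_lit 88033559932) (nat_lit 1) (nat_lit 4) (nat_lit 2) (nat_lit 5) (nat_lit 2) (nat_lit 4) (nat_lit 246) (nat_lit 189) (nat_lit 165))) (XT.nd (nat_lit 78) (nat_lit 0) (nat_lit 0) (XT.lf (nat_lit 0) (nat_lit 883570340794) (nat_lit 76) (nat_lit 103574983042) (nat_lit 76) (nat_lit 99857223255) (nat_lit 1) (nat_lit 4) (nat_lit 2) (nat_lit 5) (nat_lit 2) (nat_lit 4) (nat_lit 247) (nat_lit 189) (nat_lit 164)) (XT.nd (nat_lit 78) (nat_lit 0) (nat_lit 0) (XT.lf (nat_lit 0) (nat_lit 1019229457727) (nat_lit 76) (nat_lit 117203033783) (nat_lit 76) (nat_lit 113470081606) (nat_lit 1) (nat_lit 4) (nat_lit 2) (nat_lit 5) (nat_lit 2) (nat_lit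 4) (nat_lit 248) (nat_lit 189) (nat_lit 163)) (XT.lf (nat_lit 0) (nat_lit 1175215547008) (nat_lit 76) (nat_lit 132884636467) (nat_lit 76) (nat_lit 129138473516) (nat_lit 1) (nat_lit 4) (nat_lit 2) (nat_lit 5) (nat_lit 2) (nat_lit 4) (nat_lit 249) (nat_lit 189) (nat_lit 162))))))))
noncomputable def xc10 : XT := (XT.nd (nat_lit 29562) (nat_lit 0) (nat_lit 0) (XT.nd (nat_lit 28938) (nat_lit 0) (nat_lit 0) (XT.nd (nat_lit 312) (nat_lit 0) (nat_lit 0) (XT.nd (nat_lit 156) (nat_lit 0) (nat_lit 0) (XT.nd (nat_lit 78) (nat_lit 0) (nat_lit 0) (XT.lf (nat_lit 0) (nat_lit 1354580510383) (nat_lit 76) (nat_lit 150926605062) (nat_lit 76) (nat_lit 147168954481) (nat_lit 1) (nat_lit 4) (nat_lit 2) (nat_lit 5) (nat_lit 2) (nat_lit 4) (nat_lit 250) (nat_lit 189) (nat_lit 161)) (XT.lf (nat_lit 0) (nat_lit 1560833662352) (nat_lit 76) (nat_lit 171681934603) (nat_lit 76) (nat_lit 167914294779) (nat_lit 1)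 (nat_lit 4) (nat_lit 2) (nat_lit 5) (nat_lit 2) (nat_lit 4) (nat_lit 251) (nat_lit 189) (nat_lit 160))) (XT.nd (nat_lit 78) (nat_lit 0) (nat_lit 0) (XT.lf (nat_lit 0) (nat_lit 1798010390673) (nat_lit 76) (nat_lit 195556707626) (nat_lit 76) (nat_lit 191780381504) (nat_lit 1) (nat_lit 4) (nat_lit 2) (nat_lit 5) (nat_lit 2) (nat_lit 4) (nat_lit 252) (nat_lit 189) (nat_lit 159)) (XT.lf (nat_lit 0) (nat_lit 2070751109593) (nat_lit 76) (nat_lit 223018039256) (nat_lit 76) (nat_lit 219234159830) (nat_lit 1) (nat_lit 4) (nat_lit 2) (nat_lit 5) (nat_lit 2) (nat_lit 4) (nat_lit 253) (nat_lit 189) (nat_lit 158)))) (XT.nd (nat_lit 156) (nat_lit 0) (nat_lit 0) (XT.nd (nat_lit 78) (nat_lit 0) (nat_lit 0) (XT.lf (nat_lit 0) (nat_lit 2384392050572) (nat_lit 76) (nat_lit 254603216414) (nat_lit 76) (nat_lit 250812768899) (nat_lit 1) (nat_lit 4) (nat_lit 2) (nat_lit 5) (nat_lit 2) (nat_lit 4) (nat_lit 254)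 (nat_lit 189) (nat_lit 157)) (XT.lf (nat_lit 0) (nat_lit 2745069666801) (nat_lit 76) (nat_lit 290930209960) (nat_lit 76) (nat_lit 287134051062) (nat_lit 1) (nat_lit 4) (nat_lit 2) (nat_lit 5) (nat_lit 2) (nat_lit 4) (nat_lit 255) (nat_lit 189) (nat_lit 156))) (XT.nd (nat_lit 78) (nat_lit 0) (nat_lit 0) (XT.lf (nat_lit 0) (nat_lit 3159840694251) (nat_lit 76) (nat_lit 332709765417) (nat_lit 76) (nat_lit 328908640101) (nat_lit 1) (nat_lit 4) (nat_lit 2) (nat_lit 5) (nat_lit 2) (nat_lit 4) (nat_lit 256) (nat_lit 189) (nat_lit 155)) (XT.lf (nat_lit 0) (nat_lit 3636820218240) (nat_lit 76) (nat_lit 380759308873) (nat_lit 76) (nat_lit 376953864931) (nat_lit 1) (nat_lit 4) (nat_lit 2) (nat_lit 5) (nat_lit 2) (nat_lit 4) (nat_lit 257) (nat_lit 189) (nat_lit 154))))) (XT.nd (nat_lit 312) (nat_lit 76) (nat_lit 0) (XT.nd (nat_lit 156) (nat_lit 0) (nat_lit 0) (XT.nd (nat_lit 78) (nat_lit 0) (nat_lit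 0) (XT.lf (nat_lit 0) (nat_lit 937441705) (nat_lit 152) (nat_lit 11665194462) (nat_lit 0) (nat_lit 937441705) (nat_lit 2) (nat_lit 5) (nat_lit 4) (nat_lit 4) (nat_lit 2) (nat_lit 4) (nat_lit 220) (nat_lit 190) (nat_lit 190)) (XT.lf (nat_lit 0) (nat_lit 6851258331) (nat_lit 152) (nat_lit 17564053974) (nat_lit 0) (nat_lit 6276123114) (nat_lit 2) (nat_lit 5) (nat_lit 4) (nat_lit 4) (nat_lit 2) (nat_lit 4) (nat_lit 221) (nat_lit 190) (nat_lit 189))) (XT.nd (nat_lit 78) (nat_lit 0) (nat_lit 0) (XT.lf (nat_lit 0) (nat_lit 12118888777) (nat_lit 152) (nat_lit 11720186590) (nat_lit 0) (nat_lit 11043635980) (nat_lit 2) (nat_lit 5) (nat_lit 4) (nat_lit 4) (nat_lit 2) (nat_lit 4) (nat_lit 222) (nat_lit 190) (nat_lit 188)) (XT.lf (nat_lit 0) (nat_lit 17780837084) (nat_lit 152) (nat_lit 5684450236) (nat_lit 0) (nat_lit 16270699435) (nat_lit 2) (nat_lit 5) (nat_lit 4) (nat_lit 4) (nat_lit 2) (nat_lit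 4) (nat_lit 223) (nat_lit 190) (nat_lit 187)))) (XT.nd (nat_lit 156) (nat_lit 0) (nat_lit 0) (XT.nd (nat_lit 78) (nat_lit 0) (nat_lit 0) (XT.lf (nat_lit 0) (nat_lit 696065599) (nat_lit 76) (nat_lit 23268555297) (nat_lit 76) (nat_lit 21380256907) (nat_lit 1) (nat_lit 4) (nat_lit 2) (nat_lit 5) (nat_lit 2) (nat_lit 4) (nat_lit 224) (nat_lit 190) (nat_lit 186)) (XT.lf (nat_lit 0) (nat_lit 7832888587) (nat_lit 76) (nat_lit 23096171147) (nat_lit 76) (nat_lit 20879037330) (nat_lit 1) (nat_lit 4) (nat_lit 2) (nat_lit 5) (nat_lit 2) (nat_lit 4) (nat_lit 225) (nat_lit 190) (nat_lit 185))) (XT.nd (nat_lit 78) (nat_lit 0) (nat_lit 0) (XT.lf (nat_lit 0) (nat_lit 15566319144) (nat_lit 76) (nat_lit 23100185083) (nat_lit 76) (nat_lit 20597107416) (nat_lit 1) (nat_lit 4) (nat_lit 2) (nat_lit 5) (nat_lit 2) (nat_lit 4) (nat_lit 226) (nat_lit 190) (nat_lit 184)) (XT.lf (nat_lit 0) (nat_lit 24047663519)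 (nat_lit 76) (nat_lit 23280675636) (nat_lit 76) (nat_lit 20528951144) (nat_lit 1) (nat_lit 4) (nat_lit 2) (nat_lit 5) (nat_lit 2) (nat_lit 4) (nat_lit 227) (nat_lit 190) (nat_lit 183)))))) (XT.nd (nat_lit 624) (nat_lit 0) (nat_lit 0) (XT.nd (nat_lit 312) (nat_lit 0) (nat_lit 0) (XT.nd (nat_lit 156) (nat_lit 0) (nat_lit 0) (XT.nd (nat_lit 78) (nat_lit 0) (nat_lit 0) (XT.lf (nat_lit 0) (nat_lit 33442861059) (nat_lit 76) (nat_lit 23641174145) (nat_lit 76) (nat_lit 20673235022) (nat_lit 1) (nat_lit 4) (nat_lit 2) (nat_lit 5) (nat_lit 2) (nat_lit 4) (nat_lit 228) (nat_lit 190) (nat_lit 182)) (XT.lf (nat_lit 0) (nat_lit 43935730846) (nat_lit 76) (nat_lit 24188733841) (nat_lit 76) (nat_lit 21032781996) (nat_lit 1) (nat_lit 4) (nat_lit 2) (nat_lit 5) (nat_lit 2) (nat_lit 4) (nat_lit 229) (nat_lit 190) (nat_lit 181))) (XT.nd (nat_lit 78) (nat_lit 0) (nat_lit 0) (XT.lf (nat_lit 0) (nat_lit 55731568158)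 (nat_lit 76) (nat_lit 24934067849) (nat_lit 76) (nat_lit 21614626679) (nat_lit 1) (nat_lit 4) (nat_lit 2) (nat_lit 5) (nat_lit 2) (nat_lit 4) (nat_lit 230) (nat_lit 190) (nat_lit 180)) (XT.lf (nat_lit 0) (nat_lit 69061161118) (nat_lit 76) (nat_lit 25891758789) (nat_lit 76) (nat_lit 22430152990) (nat_lit 1) (nat_lit 4) (nat_lit 2) (nat_lit 5) (nat_lit 2) (nat_lit 4) (nat_lit 231) (nat_lit 190) (nat_lit 179)))) (XT.nd (nat_lit 156) (nat_lit 0) (nat_lit 0) (XT.nd (nat_lit 78) (nat_lit 0) (nat_lit 0) (XT.lf (nat_lit 0) (nat_lit 84185306109) (nat_lit 76) (nat_lit 27080544095) (nat_lit 76) (nat_lit 23495316878) (nat_lit 1) (nat_lit 4) (nat_lit 2) (nat_lit 5) (nat_lit 2) (nat_lit 4) (nat_lit 232) (nat_lit 190) (nat_lit 178)) (XT.lf (nat_lit 0) (nat_lit 101399910316) (nat_lit 76) (nat_lit 28523682608) (nat_lit 76) (nat_lit 24830958507) (nat_lit 1) (nat_lit 4) (nat_lit 2) (nat_lit 5) (nat_lit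 2) (nat_lit 4) (nat_lit 233) (nat_lit 190) (nat_lit 177))) (XT.nd (nat_lit 78) (nat_lit 0) (nat_lit 0) (XT.lf (nat_lit 0) (nat_lit 121041781211) (nat_lit 76) (nat_lit 30249409647) (nat_lit 76) (nat_lit 26463209995) (nat_lit 1) (nat_lit 4) (nat_lit 2) (nat_lit 5) (nat_lit 2) (nat_lit 4) (nat_lit 234) (nat_lit 190) (nat_lit 176)) (XT.lf (nat_lit 0) (nat_lit 143495216270) (nat_lit 76) (nat_lit 32291489438) (nat_lit 76) (nat_lit 28424006697) (nat_lit 1) (nat_lit 4) (nat_lit 2) (nat_lit 5) (nat_lit 2) (nat_lit 4) (nat_lit 235) (nat_lit 190) (nat_lit 175))))) (XT.nd (nat_lit 312) (nat_lit 0) (nat_lit 0) (XT.nd (nat_lit 156) (nat_lit 0) (nat_lit 0) (XT.nd (nat_lit 78) (nat_lit 0) (nat_lit 0) (XT.lf (nat_lit 0) (nat_lit 169199521831) (nat_lit 76) (nat_lit 34689875715) (nat_lit 76) (nat_lit 30751712028) (nat_lit 1) (nat_lit 4) (nat_lit 2) (nat_lit 5) (nat_lit 2) (nat_lit 4) (nat_lit 236) (nat_lit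 190) (nat_lit 174)) (XT.lf (nat_lit 0) (nat_lit 198657608219) (nat_lit 76) (nat_lit 37491493427) (nat_lit 76) (nat_lit 33491868047) (nat_lit 1) (nat_lit 4) (nat_lit 2) (nat_lit 5) (nat_lit 2) (nat_lit 4) (nat_lit 237) (nat_lit 190) (nat_lit 173))) (XT.nd (nat_lit 78) (nat_lit 0) (nat_lit 0) (XT.lf (nat_lit 0) (nat_lit 232445829299) (nat_lit 76) (nat_lit 40751156833) (nat_lit 76) (nat_lit 36698086504) (nat_lit 1) (nat_lit 4) (nat_lit 2) (nat_lit 5) (nat_lit 2) (nat_lit 4) (nat_lit 238) (nat_lit 190) (nat_lit 172)) (XT.lf (nat_lit 0) (nat_lit 271225258961) (nat_lit 76) (nat_lit 44532641957) (nat_lit 76) (nat_lit 40433097758) (nat_lit 1) (nat_lit 4) (nat_lit 2) (nat_lit 5) (nat_lit 2) (nat_lit 4) (nat_lit 239) (nat_lit 190) (nat_lit 171)))) (XT.nd (nat_lit 156) (nat_lit 0) (nat_lit 0) (XT.nd (nat_lit 78) (nat_lit 0) (nat_lit 0) (XT.lf (nat_lit 0) (nat_lit 315754625177) (nat_lit 76) (nat_lit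 48909934378) (nat_lit 76) (nat_lit 44769978118) (nat_lit 1) (nat_lit 4) (nat_lit 2) (nat_lit 5) (nat_lit 2) (nat_lit 4) (nat_lit 240) (nat_lit 190) (nat_lit 170)) (XT.lf (nat_lit 0) (nat_lit 366905154677) (nat_lit 76) (nat_lit 53968676773) (nat_lit 76) (nat_lit 49793579591) (nat_lit 1) (nat_lit 4) (nat_lit 2) (nat_lit 5) (nat_lit 2) (nat_lit 4) (nat_lit 241) (nat_lit 190) (nat_lit 169))) (XT.nd (nat_lit 78) (nat_lit 0) (nat_lit 0) (XT.lf (nat_lit 0) (nat_lit 425677618691) (nat_lit 76) (nat_lit 59807844536) (nat_lit 76) (nat_lit 55602190031) (nat_lit 1) (nat_lit 4) (nat_lit 2) (nat_lit 5) (nat_lit 2) (nat_lit 4) (nat_lit 242) (nat_lit 190) (nat_lit 168)) (XT.nd (nat_lit 78) (nat_lit 0) (nat_lit 0) (XT.lf (nat_lit 0) (nat_lit 493221913254) (nat_lit 76) (nat_lit 66541682255) (nat_lit 76) (nat_lit 62309456164) (nat_lit 1) (nat_lit 4) (nat_lit 2) (nat_lit 5) (nat_lit 2) (nat_lit 4) (nat_lit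 243) (nat_lit 190) (nat_lit 167)) (XT.lf (nat_lit 0) (nat_lit 570859557172) (nat_lit 76) (nat_lit 74301938928) (nat_lit 76) (nat_lit 70046607111) (nat_lit 1) (nat_lit 4) (nat_lit 2) (nat_lit 5) (nat_lit 2) (nat_lit 4) (nat_lit 244) (nat_lit 190) (nat_lit 166))))))))
noncomputable def xc11 : XT := (XT.nd (nat_lit 29484) (nat_lit 0) (nat_lit 0) (XT.nd (nat_lit 624) (nat_lit 0) (nat_lit 0) (XT.nd (nat_lit 312) (nat_lit 0) (nat_lit 0) (XT.nd (nat_lit 156) (nat_lit 0) (nat_lit 0) (XT.nd (nat_lit 78) (nat_lit 0) (nat_lit 0) (XT.lf (nat_lit 0) (nat_lit 660109547827) (nat_lit 76) (nat_lit 83240445665) (nat_lit 76) (nat_lit 78965021911) (nat_lit 1) (nat_lit 4) (nat_lit 2) (nat_lit 5) (nat_lit 2) (nat_lit 4) (nat_lit 245) (nat_lit 190) (nat_lit 165)) (XT.lf (nat_lit 0) (nat_lit 762718080688) (nat_lit 76) (nat_lit 93532086292) (nat_lit 76) (nat_lit 89239191289) (nat_lit 1) (nat_lit 4) (nat_lit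 2) (nat_lit 5) (nat_lit 2) (nat_lit 4) (nat_lit 246) (nat_lit 190) (nat_lit 164))) (XT.nd (nat_lit 78) (nat_lit 0) (nat_lit 0) (XT.lf (nat_lit 0) (nat_lit 880692714006) (nat_lit 76) (nat_lit 105378218996) (nat_lit 76) (nat_lit 101070131602) (nat_lit 1) (nat_lit 4) (nat_lit 2) (nat_lit 5) (nat_lit 2) (nat_lit 4) (nat_lit 247) (nat_lit 190) (nat_lit 163)) (XT.lf (nat_lit 0) (nat_lit 1016341647128) (nat_lit 76) (nat_lit 119010615938) (nat_lit 76) (nat_lit 114689317770) (nat_lit 1) (nat_lit 4) (nat_lit 2) (nat_lit 5) (nat_lit 2) (nat_lit 4) (nat_lit 248) (nat_lit 190) (nat_lit 162)))) (XT.nd (nat_lit 156) (nat_lit 0) (nat_lit 0) (XT.nd (nat_lit 78) (nat_lit 0) (nat_lit 0) (XT.lf (nat_lit 0) (nat_lit 1172318880922) (nat_lit 76) (nat_lit 134695997928) (nat_lit 76) (nat_lit 130363212131) (nat_lit 1) (nat_lit 4) (nat_lit 2) (nat_lit 5) (nat_lit 2) (nat_lit 4) (nat_lit 249) (nat_lit 190) (nat_lit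 161)) (XT.lf (nat_lit 0) (nat_lit 1351676143872) (nat_lit 76) (nat_lit 152741252875) (nat_lit 76) (nat_lit 148398477834) (nat_lit 1) (nat_lit 4) (nat_lit 2) (nat_lit 5) (nat_lit 2) (nat_lit 4) (nat_lit 250) (nat_lit 190) (nat_lit 160))) (XT.nd (nat_lit 78) (nat_lit 0) (nat_lit 0) (XT.lf (nat_lit 0) (nat_lit 1557922599821) (nat_lit 76) (nat_lit 173499440114) (nat_lit 76) (nat_lit 169147978775) (nat_lit 1) (nat_lit 4) (nat_lit 2) (nat_lit 5) (nat_lit 2) (nat_lit 4) (nat_lit 251) (nat_lit 190) (nat_lit 159)) (XT.lf (nat_lit 0) (nat_lit 1795093505515) (nat_lit 76) (nat_lit 197376698092) (nat_lit 76) (nat_lit 193017683450) (nat_lit 1) (nat_lit 4) (nat_lit 2) (nat_lit 5) (nat_lit 2) (nat_lit 4) (nat_lit 252) (nat_lit 190) (nat_lit 158))))) (XT.nd (nat_lit 312) (nat_lit 0) (nat_lit 0) (XT.nd (nat_lit 156) (nat_lit 0) (nat_lit 0) (XT.nd (nat_lit 78) (nat_lit 0) (nat_lit 0) (XT.lf (nat_lit 0)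 (nat_lit 2067829161282) (nat_lit 76) (nat_lit 224840190552) (nat_lit 76) (nat_lit 220474607820) (nat_lit 1) (nat_lit 4) (nat_lit 2) (nat_lit 5) (nat_lit 2) (nat_lit 4) (nat_lit 253) (nat_lit 190) (nat_lit 157)) (XT.lf (nat_lit 0) (nat_lit 2381465699518) (nat_lit 76) (nat_lit 256427246693) (nat_lit 76) (nat_lit 252055952579) (nat_lit 1) (nat_lit 4) (nat_lit 2) (nat_lit 5) (nat_lit 2) (nat_lit 4) (nat_lit 254) (nat_lit 190) (nat_lit 156))) (XT.nd (nat_lit 78) (nat_lit 0) (nat_lit 0) (XT.lf (nat_lit 0) (nat_lit 2742139487276) (nat_lit 76) (nat_lit 292755874137) (nat_lit 76) (nat_lit 288379613603) (nat_lit 1) (nat_lit 4) (nat_lit 2) (nat_lit 5) (nat_lit 2) (nat_lit 4) (nat_lit 255) (nat_lit 190) (nat_lit 155)) (XT.lf (nat_lit 0) (nat_lit 3156907185619) (nat_lit 76) (nat_lit 334536850375) (nat_lit 76) (nat_lit 330156271216) (nat_lit 1) (nat_lit 4) (nat_lit 2) (nat_lit 5) (nat_lit 2) (nat_lit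 4) (nat_lit 256) (nat_lit 190) (nat_lit 154)))) (XT.nd (nat_lit 28314) (nat_lit 0) (nat_lit 76) (XT.nd (nat_lit 28236) (nat_lit 0) (nat_lit 228) (XT.lf (nat_lit 0) (nat_lit 3633883814735) (nat_lit 76) (nat_lit 382587629293) (nat_lit 76) (nat_lit 378203294807) (nat_lit 1) (nat_lit 4) (nat_lit 2) (nat_lit 5) (nat_lit 2) (nat_lit 4) (nat_lit 257) (nat_lit 190) (nat_lit 153)) (XT.lf (nat_lit 0) (nat_lit 4144708792) (nat_lit 76) (nat_lit 3240021047) (nat_lit 76) (nat_lit 3240021047) (nat_lit 4) (nat_lit 4) (nat_lit 5) (nat_lit 5) (nat_lit 5) (nat_lit 4) (nat_lit 218) (nat_lit 191) (nat_lit 191))) (XT.nd (nat_lit 78) (nat_lit 152) (nat_lit 0) (XT.lf (nat_lit 0) (nat_lit 18934795546) (nat_lit 76) (nat_lit 2868818157) (nat_lit 76) (nat_lit 2154500218) (nat_lit 4) (nat_lit 4) (nat_lit 5) (nat_lit 5) (nat_lit 5) (nat_lit 4) (nat_lit 219) (nat_lit 191) (nat_lit 190)) (XT.nd (nat_lit 78) (nat_lit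 0) (nat_lit 0) (XT.lf (nat_lit 0) (nat_lit 2292809460) (nat_lit 152) (nat_lit 23751565893) (nat_lit 0) (nat_lit 1056268744) (nat_lit 2) (nat_lit 5) (nat_lit 4) (nat_lit 4) (nat_lit 2) (nat_lit 4) (nat_lit 220) (nat_lit 191) (nat_lit 189)) (XT.lf (nat_lit 0) (nat_lit 7057463119) (nat_lit 152) (nat_lit 18351471783) (nat_lit 0) (nat_lit 5320804822) (nat_lit 2) (nat_lit 5) (nat_lit 4) (nat_lit 4) (nat_lit 2) (nat_lit 4) (nat_lit 221) (nat_lit 191) (nat_lit 188))))))) (XT.nd (nat_lit 624) (nat_lit 0) (nat_lit 0) (XT.nd (nat_lit 312) (nat_lit 0) (nat_lit 0) (XT.nd (nat_lit 156) (nat_lit 76) (nat_lit 0) (XT.nd (nat_lit 78) (nat_lit 0) (nat_lit 0) (XT.lf (nat_lit 0) (nat_lit 12140988120) (nat_lit 152) (nat_lit 12826074696) (nat_lit 0) (nat_lit 9969444972) (nat_lit 2) (nat_lit 5) (nat_lit 4) (nat_lit 4) (nat_lit 2) (nat_lit 4) (nat_lit 222) (nat_lit 191) (nat_lit 187)) (XT.lf (nat_lit 0) (nat_lit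 17642844737) (nat_lit 152) (nat_lit 7067269036) (nat_lit 0) (nat_lit 15093140847) (nat_lit 2) (nat_lit 5) (nat_lit 4) (nat_lit 4) (nat_lit 2) (nat_lit 4) (nat_lit 223) (nat_lit 191) (nat_lit 186))) (XT.nd (nat_lit 78) (nat_lit 76) (nat_lit 0) (XT.lf (nat_lit 0) (nat_lit 23670677989) (nat_lit 152) (nat_lit 962382517) (nat_lit 0) (nat_lit 20792138673) (nat_lit 2) (nat_lit 5) (nat_lit 4) (nat_lit 4) (nat_lit 2) (nat_lit 4) (nat_lit 224) (nat_lit 191) (nat_lit 185)) (XT.lf (nat_lit 0) (nat_lit 5903337121) (nat_lit 76) (nat_lit 24581062023) (nat_lit 76) (nat_lit 21416578857) (nat_lit 1) (nat_lit 4) (nat_lit 2) (nat_lit 5) (nat_lit 2) (nat_lit 4) (nat_lit 225) (nat_lit 191) (nat_lit 184)))) (XT.nd (nat_lit 156) (nat_lit 0) (nat_lit 0) (XT.nd (nat_lit 78) (nat_lit 0) (nat_lit 0) (XT.lf (nat_lit 0) (nat_lit 13445092903) (nat_lit 76) (nat_lit 24666878064) (nat_lit 76) (nat_lit 21253748073) (nat_lit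 1) (nat_lit 4) (nat_lit 2) (nat_lit 5) (nat_lit 2) (nat_lit 4) (nat_lit 226) (nat_lit 191) (nat_lit 183)) (XT.lf (nat_lit 0) (nat_lit 21759763561) (nat_lit 76) (nat_lit 24918500884) (nat_lit 76) (nat_lit 21289156262) (nat_lit 1) (nat_lit 4) (nat_lit 2) (nat_lit 5) (nat_lit 2) (nat_lit 4) (nat_lit 227) (nat_lit 191) (nat_lit 182))) (XT.nd (nat_lit 78) (nat_lit 0) (nat_lit 0) (XT.lf (nat_lit 0) (nat_lit 31010027434) (nat_lit 76) (nat_lit 25340853537) (nat_lit 76) (nat_lit 21523496192) (nat_lit 1) (nat_lit 4) (nat_lit 2) (nat_lit 5) (nat_lit 2) (nat_lit 4) (nat_lit 228) (nat_lit 191) (nat_lit 181)) (XT.lf (nat_lit 0) (nat_lit 41376867946) (nat_lit 76) (nat_lit 25942199446) (nat_lit 76) (nat_lit 21961352777) (nat_lit 1) (nat_lit 4) (nat_lit 2) (nat_lit 5) (nat_lit 2) (nat_lit 4) (nat_lit 229) (nat_lit 191) (nat_lit 180))))) (XT.nd (nat_lit 312) (nat_lit 0) (nat_lit 0) (XT.nd (nat_lit 156)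 (nat_lit 0) (nat_lit 0) (XT.nd (nat_lit 78) (nat_lit 0) (nat_lit 0) (XT.lf (nat_lit 0) (nat_lit 53063114584) (nat_lit 76) (nat_lit 26734304073) (nat_lit 76) (nat_lit 22611292774) (nat_lit 1) (nat_lit 4) (nat_lit 2) (nat_lit 5) (nat_lit 2) (nat_lit 4) (nat_lit 230) (nat_lit 191) (nat_lit 179)) (XT.lf (nat_lit 0) (nat_lit 66297411305) (nat_lit 76) (nat_lit 27732665118) (nat_lit 76) (nat_lit 23486032402) (nat_lit 1) (nat_lit 4) (nat_lit 2) (nat_lit 5) (nat_lit 2) (nat_lit 4) (nat_lit 231) (nat_lit 191) (nat_lit 178))) (XT.nd (nat_lit 78) (nat_lit 0) (nat_lit 0) (XT.lf (nat_lit 0) (nat_lit 81338690002) (nat_lit 76) (nat_lit 28956815731) (nat_lit 76) (nat_lit 24602686131) (nat_lit 1) (nat_lit 4) (nat_lit 2) (nat_lit 5) (nat_lit 2) (nat_lit 4) (nat_lit 232) (nat_lit 191) (nat_lit 177)) (XT.lf (nat_lit 0) (nat_lit 98481236561) (nat_lit 76) (nat_lit 30430706686) (nat_lit 76) (nat_lit 25983101534)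 (nat_lit 1) (nat_lit 4) (nat_lit 2) (nat_lit 5) (nat_lit 2) (nat_lit 4) (nat_lit 233) (nat_lit 191) (nat_lit 176)))) (XT.nd (nat_lit 156) (nat_lit 0) (nat_lit 0) (XT.nd (nat_lit 78) (nat_lit 0) (nat_lit 0) (XT.lf (nat_lit 0) (nat_lit 118060448633) (nat_lit 76) (nat_lit 32183174979) (nat_lit 76) (nat_lit 27654286739) (nat_lit 1) (nat_lit 4) (nat_lit 2) (nat_lit 5) (nat_lit 2) (nat_lit 4) (nat_lit 234) (nat_lit 191) (nat_lit 175)) (XT.lf (nat_lit 0) (nat_lit 140459397758) (nat_lit 76) (nat_lit 34248508033) (nat_lit 76) (nat_lit 29648938847) (nat_lit 1) (nat_lit 4) (nat_lit 2) (nat_lit 5) (nat_lit 2) (nat_lit 4) (nat_lit 235) (nat_lit 191) (nat_lit 174))) (XT.nd (nat_lit 78) (nat_lit 0) (nat_lit 0) (XT.lf (nat_lit 0) (nat_lit 166116324246) (nat_lit 76) (nat_lit 36667114540) (nat_lit 76) (nat_lit 32006083661) (nat_lit 1) (nat_lit 4) (nat_lit 2) (nat_lit 5) (nat_lit 2) (nat_lit 4) (nat_lit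 236) (nat_lit 191) (nat_lit 173)) (XT.nd (nat_lit 78) (nat_lit 0) (nat_lit 0) (XT.lf (nat_lit 0) (nat_lit 195533211440) (nat_lit 76) (nat_lit 39486315060) (nat_lit 76) (nat_lit 34771839231) (nat_lit 1) (nat_lit 4) (nat_lit 2) (nat_lit 5) (nat_lit 2) (nat_lit 4) (nat_lit 237) (nat_lit 191) (nat_lit 172)) (XT.lf (nat_lit 0) (nat_lit 229285607134) (nat_lit 76) (nat_lit 42761267865) (nat_lit 76) (nat_lit 38000318166) (nat_lit 1) (nat_lit 4) (nat_lit 2) (nat_lit 5) (nat_lit 2) (nat_lit 4) (nat_lit 238) (nat_lit 191) (nat_lit 171))))))))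
noncomputable def xc12 : XT := (XT.nd (nat_lit 1248) (nat_lit 0) (nat_lit 0) (XT.nd (nat_lit 624) (nat_lit 0) (nat_lit 0) (XT.nd (nat_lit 312) (nat_lit 0) (nat_lit 0) (XT.nd (nat_lit 156) (nat_lit 0) (nat_lit 0) (XT.nd (nat_lit 78) (nat_lit 0) (nat_lit 0) (XT.lf (nat_lit 0) (nat_lit 268033884287) (nat_lit 76) (nat_lit 46556048118) (nat_lit 76) (nat_lit 41754686359) (nat_lit 1) (nat_lit 4) (nat_lit 2) (nat_lit 5) (nat_lit 2) (nat_lit 4) (nat_lit 239) (nat_lit 191) (nat_lit 170)) (XT.lf (nat_lit 0) (nat_lit 312536161364) (nat_lit 76) (nat_lit 50944901521) (nat_lit 76) (nat_lit 46108398840) (nat_lit 1) (nat_lit 4) (nat_lit 2) (nat_lit 5) (nat_lit 2) (nat_lit 4) (nat_lit 240) (nat_lit 191) (nat_lit 169))) (XT.nd (nat_lit 78) (nat_lit 0) (nat_lit 0) (XT.lf (nat_lit 0) (nat_lit 363663135092) (nat_lit 76) (nat_lit 56013696943) (nat_lit 76) (nat_lit 51146636938) (nat_lit 1) (nat_lit 4) (nat_lit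 2) (nat_lit 5) (nat_lit 2) (nat_lit 4) (nat_lit 241) (nat_lit 191) (nat_lit 168)) (XT.lf (nat_lit 0) (nat_lit 422415115825) (nat_lit 76) (nat_lit 61861606470) (nat_lit 76) (nat_lit 56967974879) (nat_lit 1) (nat_lit 4) (nat_lit 2) (nat_lit 5) (nat_lit 2) (nat_lit 4) (nat_lit 242) (nat_lit 191) (nat_lit 167)))) (XT.nd (nat_lit 156) (nat_lit 0) (nat_lit 0) (XT.nd (nat_lit 78) (nat_lit 0) (nat_lit 0) (XT.lf (nat_lit 0) (nat_lit 489941598840) (nat_lit 76) (nat_lit 68603045722) (nat_lit 76) (nat_lit 63686308405) (nat_lit 1) (nat_lit 4) (nat_lit 2) (nat_lit 5) (nat_lit 2) (nat_lit 4) (nat_lit 243) (nat_lit 191) (nat_lit 166)) (XT.lf (nat_lit 0) (nat_lit 567563754455) (nat_lit 76) (nat_lit 76369912424) (nat_lit 76) (nat_lit 71433083171) (nat_lit 1) (nat_lit 4) (nat_lit 2) (nat_lit 5) (nat_lit 2) (nat_lit 4) (nat_lit 244) (nat_lit 191) (nat_lit 165))) (XT.nd (nat_lit 78) (nat_lit 0) (nat_lit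 0) (XT.lf (nat_lit 0) (nat_lit 656800277021) (nat_lit 76) (nat_lit 85314167012) (nat_lit 76) (nat_lit 80359866509) (nat_lit 1) (nat_lit 4) (nat_lit 2) (nat_lit 5) (nat_lit 2) (nat_lit 4) (nat_lit 245) (nat_lit 191) (nat_lit 164)) (XT.lf (nat_lit 0) (nat_lit 759397098499) (nat_lit 76) (nat_lit 95610805771) (nat_lit 76) (nat_lit 90641312878) (nat_lit 1) (nat_lit 4) (nat_lit 2) (nat_lit 5) (nat_lit 2) (nat_lit 4) (nat_lit 246) (nat_lit 191) (nat_lit 163))))) (XT.nd (nat_lit 312) (nat_lit 0) (nat_lit 0) (XT.nd (nat_lit 156) (nat_lit 0) (nat_lit 0) (XT.nd (nat_lit 78) (nat_lit 0) (nat_lit 0) (XT.lf (nat_lit 0) (nat_lit 877361548006) (nat_lit 76) (nat_lit 107461284676) (nat_lit 76) (nat_lit 102478581008) (nat_lit 1) (nat_lit 4) (nat_lit 2) (nat_lit 5) (nat_lit 2) (nat_lit 4) (nat_lit 247) (nat_lit 191) (nat_lit 162)) (XT.lf (nat_lit 0) (nat_lit 1013001625642) (nat_lit 76) (nat_lit 121097460923)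 (nat_lit 76) (nat_lit 116103269626) (nat_lit 1) (nat_lit 4) (nat_lit 2) (nat_lit 5) (nat_lit 2) (nat_lit 4) (nat_lit 248) (nat_lit 191) (nat_lit 161))) (XT.nd (nat_lit 78) (nat_lit 0) (nat_lit 0) (XT.lf (nat_lit 0) (nat_lit 1168971159011) (nat_lit 76) (nat_lit 136786129266) (nat_lit 76) (nat_lit 131781948726) (nat_lit 1) (nat_lit 4) (nat_lit 2) (nat_lit 5) (nat_lit 2) (nat_lit 4) (nat_lit 249) (nat_lit 191) (nat_lit 160)) (XT.lf (nat_lit 0) (nat_lit 1348321725941) (nat_lit 76) (nat_lit 154834241911) (nat_lit 76) (nat_lit 149821375072) (nat_lit 1) (nat_lit 4) (nat_lit 2) (nat_lit 5) (nat_lit 2) (nat_lit 4) (nat_lit 250) (nat_lit 191) (nat_lit 159)))) (XT.nd (nat_lit 156) (nat_lit 0) (nat_lit 0) (XT.nd (nat_lit 78) (nat_lit 0) (nat_lit 0) (XT.lf (nat_lit 0) (nat_lit 1554562359263) (nat_lit 76) (nat_lit 175594914105) (nat_lit 76) (nat_lit 170574493963) (nat_lit 1) (nat_lit 4) (nat_lit 2)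 (nat_lit 5) (nat_lit 2) (nat_lit 4) (nat_lit 251) (nat_lit 191) (nat_lit 158)) (XT.lf (nat_lit 0) (nat_lit 1791728201803) (nat_lit 76) (nat_lit 199474332913) (nat_lit 76) (nat_lit 194447344682) (nat_lit 1) (nat_lit 4) (nat_lit 2) (nat_lit 5) (nat_lit 2) (nat_lit 4) (nat_lit 252) (nat_lit 191) (nat_lit 157))) (XT.nd (nat_lit 78) (nat_lit 0) (nat_lit 0) (XT.lf (nat_lit 0) (nat_lit 2064459454827) (nat_lit 76) (nat_lit 226939704355) (nat_lit 76) (nat_lit 221907004742) (nat_lit 1) (nat_lit 4) (nat_lit 2) (nat_lit 5) (nat_lit 2) (nat_lit 4) (nat_lit 253) (nat_lit 191) (nat_lit 156)) (XT.lf (nat_lit 0) (nat_lit 2378092164592) (nat_lit 76) (nat_lit 258528394395) (nat_lit 76) (nat_lit 253490728362) (nat_lit 1) (nat_lit 4) (nat_lit 2) (nat_lit 5) (nat_lit 2) (nat_lit 4) (nat_lit 254) (nat_lit 191) (nat_lit 155)))))) (XT.nd (nat_lit 28626) (nat_lit 0) (nat_lit 0) (XT.nd (nat_lit 28314) (nat_lit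 0) (nat_lit 76) (XT.nd (nat_lit 156) (nat_lit 0) (nat_lit 0) (XT.nd (nat_lit 78) (nat_lit 0) (nat_lit 0) (XT.lf (nat_lit 0) (nat_lit 2738762623244) (nat_lit 76) (nat_lit 294858442619) (nat_lit 76) (nat_lit 289816457960) (nat_lit 1) (nat_lit 4) (nat_lit 2) (nat_lit 5) (nat_lit 2) (nat_lit 4) (nat_lit 255) (nat_lit 191) (nat_lit 154)) (XT.lf (nat_lit 0) (nat_lit 3153527426713) (nat_lit 76) (nat_lit 336640654320) (nat_lit 76) (nat_lit 331594914334) (nat_lit 1) (nat_lit 4) (nat_lit 2) (nat_lit 5) (nat_lit 2) (nat_lit 4) (nat_lit 256) (nat_lit 191) (nat_lit 153))) (XT.nd (nat_lit 28080) (nat_lit 0) (nat_lit 304) (XT.lf (nat_lit 0) (nat_lit 3630501538546) (nat_lit 76) (nat_lit 384692507551) (nat_lit 76) (nat_lit 379643502065) (nat_lit 1) (nat_lit 4) (nat_lit 2) (nat_lit 5) (nat_lit 2) (nat_lit 4) (nat_lit 257) (nat_lit 191) (nat_lit 152)) (XT.lf (nat_lit 0) (nat_lit 1633015708) (nat_lit 152)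 (nat_lit 5195407805) (nat_lit 0) (nat_lit 1633015708) (nat_lit 5) (nat_lit 5) (nat_lit 7) (nat_lit 4) (nat_lit 5) (nat_lit 4) (nat_lit 216) (nat_lit 192) (nat_lit 192)))) (XT.nd (nat_lit 156) (nat_lit 152) (nat_lit 0) (XT.nd (nat_lit 78) (nat_lit 76) (nat_lit 0) (XT.lf (nat_lit 0) (nat_lit 9037446346) (nat_lit 152) (nat_lit 1678050872) (nat_lit 0) (nat_lit 8215980716) (nat_lit 5) (nat_lit 5) (nat_lit 7) (nat_lit 4) (nat_lit 5) (nat_lit 4) (nat_lit 217) (nat_lit 192) (nat_lit 191)) (XT.lf (nat_lit 0) (nat_lit 7862055525) (nat_lit 76) (nat_lit 7472497026) (nat_lit 76) (nat_lit 5936713456) (nat_lit 4) (nat_lit 4) (nat_lit 5) (nat_lit 5) (nat_lit 5) (nat_lit 4) (nat_lit 218) (nat_lit 192) (nat_lit 190))) (XT.nd (nat_lit 78) (nat_lit 152) (nat_lit 0) (XT.lf (nat_lit 0) (nat_lit 18135814303) (nat_lit 76) (nat_lit 4009959437) (nat_lit 76) (nat_lit 1853029833) (nat_lit 4) (nat_lit 4) (nat_lit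 5) (nat_lit 5) (nat_lit 5) (nat_lit 4) (nat_lit 219) (nat_lit 192) (nat_lit 189)) (XT.lf (nat_lit 0) (nat_lit 2134277221) (nat_lit 76) (nat_lit 188479418) (nat_lit 152) (nat_lit 24839390730) (nat_lit 2) (nat_lit 5) (nat_lit 3) (nat_lit 5) (nat_lit 4) (nat_lit 4) (nat_lit 220) (nat_lit 192) (nat_lit 188))))) (XT.nd (nat_lit 312) (nat_lit 76) (nat_lit 0) (XT.nd (nat_lit 156) (nat_lit 0) (nat_lit 0) (XT.nd (nat_lit 78) (nat_lit 0) (nat_lit 0) (XT.lf (nat_lit 0) (nat_lit 6898771919) (nat_lit 152) (nat_lit 19941713402) (nat_lit 0) (nat_lit 3966612446) (nat_lit 2) (nat_lit 5) (nat_lit 4) (nat_lit 4) (nat_lit 2) (nat_lit 4) (nat_lit 221) (nat_lit 192) (nat_lit 187)) (XT.lf (nat_lit 0) (nat_lit 11822205230) (nat_lit 152) (nat_lit 14693247008) (nat_lit 0) (nat_lit 8511885016) (nat_lit 2) (nat_lit 5) (nat_lit 4) (nat_lit 4) (nat_lit 2) (nat_lit 4) (nat_lit 222) (nat_lit 192) (nat_lit 186))) (XT.nd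 (nat_lit 78) (nat_lit 0) (nat_lit 0) (XT.lf (nat_lit 0) (nat_lit 17184851680) (nat_lit 152) (nat_lit 9175250646) (nat_lit 0) (nat_lit 13545696040) (nat_lit 2) (nat_lit 5) (nat_lit 4) (nat_lit 4) (nat_lit 2) (nat_lit 4) (nat_lit 223) (nat_lit 192) (nat_lit 185)) (XT.lf (nat_lit 0) (nat_lit 23091632614) (nat_lit 152) (nat_lit 3279763517) (nat_lit 0) (nat_lit 19166533124) (nat_lit 2) (nat_lit 5) (nat_lit 4) (nat_lit 4) (nat_lit 2) (nat_lit 4) (nat_lit 224) (nat_lit 192) (nat_lit 184)))) (XT.nd (nat_lit 156) (nat_lit 0) (nat_lit 0) (XT.nd (nat_lit 78) (nat_lit 0) (nat_lit 0) (XT.lf (nat_lit 0) (nat_lit 3272252170) (nat_lit 76) (nat_lit 26464561058) (nat_lit 76) (nat_lit 22290814742) (nat_lit 1) (nat_lit 4) (nat_lit 2) (nat_lit 5) (nat_lit 2) (nat_lit 4) (nat_lit 225) (nat_lit 192) (nat_lit 183)) (XT.lf (nat_lit 0) (nat_lit 10647334235) (nat_lit 76) (nat_lit 26621509365) (nat_lit 76) (nat_lit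 22231548418) (nat_lit 1) (nat_lit 4) (nat_lit 2) (nat_lit 5) (nat_lit 2) (nat_lit 4) (nat_lit 226) (nat_lit 192) (nat_lit 182))) (XT.nd (nat_lit 78) (nat_lit 0) (nat_lit 0) (XT.lf (nat_lit 0) (nat_lit 18817071226) (nat_lit 76) (nat_lit 26934986329) (nat_lit 76) (nat_lit 22357012660) (nat_lit 1) (nat_lit 4) (nat_lit 2) (nat_lit 5) (nat_lit 2) (nat_lit 4) (nat_lit 227) (nat_lit 192) (nat_lit 181)) (XT.nd (nat_lit 78) (nat_lit 0) (nat_lit 0) (XT.lf (nat_lit 0) (nat_lit 27941305824) (nat_lit 76) (nat_lit 27411125195) (nat_lit 76) (nat_lit 22669662202) (nat_lit 1) (nat_lit 4) (nat_lit 2) (nat_lit 5) (nat_lit 2) (nat_lit 4) (nat_lit 228) (nat_lit 192) (nat_lit 180)) (XT.lf (nat_lit 0) (nat_lit 38198555661) (nat_lit 76) (nat_lit 28059241724) (nat_lit 76) (nat_lit 23175614101) (nat_lit 1) (nat_lit 4) (nat_lit 2) (nat_lit 5) (nat_lit 2) (nat_lit 4) (nat_lit 229) (nat_lit 192) (nat_lit 179))))))))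
noncomputable def xc13 : XT := (XT.nd (nat_lit 1326) (nat_lit 0) (nat_lit 0) (XT.nd (nat_lit 624) (nat_lit 0) (nat_lit 0) (XT.nd (nat_lit 312) (nat_lit 0) (nat_lit 0) (XT.nd (nat_lit 156) (nat_lit 0) (nat_lit 0) (XT.nd (nat_lit 78) (nat_lit 0) (nat_lit 0) (XT.lf (nat_lit 0) (nat_lit 49789506061) (nat_lit 76) (nat_lit 28892016455) (nat_lit 76) (nat_lit 23884767415) (nat_lit 1) (nat_lit 4) (nat_lit 2) (nat_lit 5) (nat_lit 2) (nat_lit 4) (nat_lit 230) (nat_lit 192) (nat_lit 178)) (XT.lf (nat_lit 0) (nat_lit 62940936488) (nat_lit 76) (nat_lit 29925742807) (nat_lit 76) (nat_lit 24810996883) (nat_lit 1) (nat_lit 4) (nat_lit 2) (nat_lit 5) (nat_lit 2) (nat_lit 4) (nat_lit 231) (nat_lit 192) (nat_lit 177))) (XT.nd (nat_lit 78) (nat_lit 0) (nat_lit 0) (XT.lf (nat_lit 0) (nat_lit 77910157537) (nat_lit 76) (nat_lit 31180645862) (nat_lit 76) (nat_lit 25972424386) (nat_lit 1) (nat_lit 4) (nat_lit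 2) (nat_lit 5) (nat_lit 2) (nat_lit 4) (nat_lit 232) (nat_lit 192) (nat_lit 176)) (XT.lf (nat_lit 0) (nat_lit 94990045272) (nat_lit 76) (nat_lit 32681278070) (nat_lit 76) (nat_lit 27391773506) (nat_lit 1) (nat_lit 4) (nat_lit 2) (nat_lit 5) (nat_lit 2) (nat_lit 4) (nat_lit 233) (nat_lit 192) (nat_lit 175)))) (XT.nd (nat_lit 156) (nat_lit 0) (nat_lit 0) (XT.nd (nat_lit 78) (nat_lit 0) (nat_lit 0) (XT.lf (nat_lit 0) (nat_lit 114514771410) (nat_lit 76) (nat_lit 34456999627) (nat_lit 76) (nat_lit 29096814117) (nat_lit 1) (nat_lit 4) (nat_lit 2) (nat_lit 5) (nat_lit 2) (nat_lit 4) (nat_lit 234) (nat_lit 192) (nat_lit 174)) (XT.lf (nat_lit 0) (nat_lit 136866341463) (nat_lit 76) (nat_lit 36542552912) (nat_lit 76) (nat_lit 31120905708) (nat_lit 1) (nat_lit 4) (nat_lit 2) (nat_lit 5) (nat_lit 2) (nat_lit 4) (nat_lit 235) (nat_lit 192) (nat_lit 173))) (XT.nd (nat_lit 78) (nat_lit 0) (nat_lit 0)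 (XT.lf (nat_lit 0) (nat_lit 162482068757) (nat_lit 76) (nat_lit 38978742226) (nat_lit 76) (nat_lit 33503650073) (nat_lit 1) (nat_lit 4) (nat_lit 2) (nat_lit 5) (nat_lit 2) (nat_lit 4) (nat_lit 236) (nat_lit 192) (nat_lit 172)) (XT.lf (nat_lit 0) (nat_lit 191863130565) (nat_lit 76) (nat_lit 41813232145) (nat_lit 76) (nat_lit 36291666122) (nat_lit 1) (nat_lit 4) (nat_lit 2) (nat_lit 5) (nat_lit 2) (nat_lit 4) (nat_lit 237) (nat_lit 192) (nat_lit 171))))) (XT.nd (nat_lit 312) (nat_lit 0) (nat_lit 0) (XT.nd (nat_lit 156) (nat_lit 0) (nat_lit 0) (XT.nd (nat_lit 78) (nat_lit 0) (nat_lit 0) (XT.lf (nat_lit 0) (nat_lit 225584373750) (nat_lit 76) (nat_lit 45101480079) (nat_lit 76) (nat_lit 39539501996) (nat_lit 1) (nat_lit 4) (nat_lit 2) (nat_lit 5) (nat_lit 2) (nat_lit 4) (nat_lit 238) (nat_lit 192) (nat_lit 170)) (XT.lf (nat_lit 0) (nat_lit 264305561764) (nat_lit 76) (nat_lit 48907821314) (nat_lit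 76) (nat_lit 43310702309) (nat_lit 1) (nat_lit 4) (nat_lit 2) (nat_lit 5) (nat_lit 2) (nat_lit 4) (nat_lit 239) (nat_lit 192) (nat_lit 169))) (XT.nd (nat_lit 78) (nat_lit 0) (nat_lit 0) (XT.lf (nat_lit 0) (nat_lit 308784283068) (nat_lit 76) (nat_lit 53306727745) (nat_lit 76) (nat_lit 47679051416) (nat_lit 1) (nat_lit 4) (nat_lit 2) (nat_lit 5) (nat_lit 2) (nat_lit 4) (nat_lit 240) (nat_lit 192) (nat_lit 168)) (XT.lf (nat_lit 0) (nat_lit 359890773516) (nat_lit 76) (nat_lit 58384264930) (nat_lit 76) (nat_lit 52730017015) (nat_lit 1) (nat_lit 4) (nat_lit 2) (nat_lit 5) (nat_lit 2) (nat_lit 4) (nat_lit 241) (nat_lit 192) (nat_lit 167)))) (XT.nd (nat_lit 156) (nat_lit 0) (nat_lit 0) (XT.nd (nat_lit 78) (nat_lit 0) (nat_lit 0) (XT.lf (nat_lit 0) (nat_lit 418624942701) (nat_lit 76) (nat_lit 64239775990) (nat_lit 76) (nat_lit 58562422349) (nat_lit 1) (nat_lit 4) (nat_lit 2) (nat_lit 5) (nat_lit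 2) (nat_lit 4) (nat_lit 242) (nat_lit 192) (nat_lit 166)) (XT.lf (nat_lit 0) (nat_lit 486135937412) (nat_lit 76) (nat_lit 70987825271) (nat_lit 76) (nat_lit 65290379693) (nat_lit 1) (nat_lit 4) (nat_lit 2) (nat_lit 5) (nat_lit 2) (nat_lit 4) (nat_lit 243) (nat_lit 192) (nat_lit 165))) (XT.nd (nat_lit 78) (nat_lit 0) (nat_lit 0) (XT.lf (nat_lit 0) (nat_lit 563744624938) (nat_lit 76) (nat_lit 78760439825) (nat_lit 76) (nat_lit 73045522998) (nat_lit 1) (nat_lit 4) (nat_lit 2) (nat_lit 5) (nat_lit 2) (nat_lit 4) (nat_lit 244) (nat_lit 192) (nat_lit 164)) (XT.nd (nat_lit 78) (nat_lit 0) (nat_lit 0) (XT.lf (nat_lit 0) (nat_lit 652969436121) (nat_lit 76) (nat_lit 87709692544) (nat_lit 76) (nat_lit 81979583327) (nat_lit 1) (nat_lit 4) (nat_lit 2) (nat_lit 5) (nat_lit 2) (nat_lit 4) (nat_lit 245) (nat_lit 192) (nat_lit 163)) (XT.lf (nat_lit 0) (nat_lit 755556073789) (nat_lit 76) (nat_lit 98010677504)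 (nat_lit 76) (nat_lit 92267357512) (nat_lit 1) (nat_lit 4) (nat_lit 2) (nat_lit 5) (nat_lit 2) (nat_lit 4) (nat_lit 246) (nat_lit 192) (nat_lit 162))))))) (XT.nd (nat_lit 624) (nat_lit 0) (nat_lit 0) (XT.nd (nat_lit 312) (nat_lit 0) (nat_lit 0) (XT.nd (nat_lit 156) (nat_lit 0) (nat_lit 0) (XT.nd (nat_lit 78) (nat_lit 0) (nat_lit 0) (XT.lf (nat_lit 0) (nat_lit 873511667809) (nat_lit 76) (nat_lit 109864935714) (nat_lit 76) (nat_lit 104110128093) (nat_lit 1) (nat_lit 4) (nat_lit 2) (nat_lit 5) (nat_lit 2) (nat_lit 4) (nat_lit 247) (nat_lit 192) (nat_lit 161)) (XT.lf (nat_lit 0) (nat_lit 1009144045020) (nat_lit 76) (nat_lit 123504398315) (nat_lit 76) (nat_lit 117739601450) (nat_lit 1) (nat_lit 4) (nat_lit 2) (nat_lit 5) (nat_lit 2) (nat_lit 4) (nat_lit 248) (nat_lit 192) (nat_lit 160))) (XT.nd (nat_lit 78) (nat_lit 0) (nat_lit 0) (XT.lf (nat_lit 0) (nat_lit 1165106882369) (nat_lit 76) (nat_lit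 139195924355) (nat_lit 76) (nat_lit 133422441192) (nat_lit 1) (nat_lit 4) (nat_lit 2) (nat_lit 5) (nat_lit 2) (nat_lit 4) (nat_lit 249) (nat_lit 192) (nat_lit 159)) (XT.lf (nat_lit 0) (nat_lit 1344451626672) (nat_lit 76) (nat_lit 157246521955) (nat_lit 76) (nat_lit 151465485489) (nat_lit 1) (nat_lit 4) (nat_lit 2) (nat_lit 5) (nat_lit 2) (nat_lit 4) (nat_lit 250) (nat_lit 192) (nat_lit 158)))) (XT.nd (nat_lit 156) (nat_lit 0) (nat_lit 0) (XT.nd (nat_lit 78) (nat_lit 0) (nat_lit 0) (XT.lf (nat_lit 0) (nat_lit 1550687196840) (nat_lit 76) (nat_lit 178009354979) (nat_lit 76) (nat_lit 172221750423) (nat_lit 1) (nat_lit 4) (nat_lit 2) (nat_lit 5) (nat_lit 2) (nat_lit 4) (nat_lit 251) (nat_lit 192) (nat_lit 157)) (XT.lf (nat_lit 0) (nat_lit 1787848636638) (nat_lit 76) (nat_lit 201890652770) (nat_lit 76) (nat_lit 196097336832) (nat_lit 1) (nat_lit 4) (nat_lit 2) (nat_lit 5) (nat_lit 2) (nat_lit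 4) (nat_lit 252) (nat_lit 192) (nat_lit 156))) (XT.nd (nat_lit 78) (nat_lit 0) (nat_lit 0) (XT.lf (nat_lit 0) (nat_lit 2060576061191) (nat_lit 76) (nat_lit 229357658110) (nat_lit 76) (nat_lit 223559375753) (nat_lit 1) (nat_lit 4) (nat_lit 2) (nat_lit 5) (nat_lit 2) (nat_lit 4) (nat_lit 253) (nat_lit 192) (nat_lit 155)) (XT.lf (nat_lit 0) (nat_lit 2374205441850) (nat_lit 76) (nat_lit 260947768931) (nat_lit 76) (nat_lit 255145167947) (nat_lit 1) (nat_lit 4) (nat_lit 2) (nat_lit 5) (nat_lit 2) (nat_lit 4) (nat_lit 254) (nat_lit 192) (nat_lit 154))))) (XT.nd (nat_lit 28236) (nat_lit 0) (nat_lit 76) (XT.nd (nat_lit 28080) (nat_lit 0) (nat_lit 456) (XT.nd (nat_lit 78) (nat_lit 0) (nat_lit 0) (XT.lf (nat_lit 0) (nat_lit 2734873005627) (nat_lit 76) (nat_lit 297279052616) (nat_lit 76) (nat_lit 291472696307) (nat_lit 1) (nat_lit 4) (nat_lit 2) (nat_lit 5) (nat_lit 2) (nat_lit 4) (nat_lit 255)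 (nat_lit 192) (nat_lit 153)) (XT.lf (nat_lit 0) (nat_lit 3149635291814) (nat_lit 76) (nat_lit 339062338631) (nat_lit 76) (nat_lit 333252716820) (nat_lit 1) (nat_lit 4) (nat_lit 2) (nat_lit 5) (nat_lit 2) (nat_lit 4) (nat_lit 256) (nat_lit 192) (nat_lit 152))) (XT.nd (nat_lit 78) (nat_lit 0) (nat_lit 0) (XT.lf (nat_lit 0) (nat_lit 576750915) (nat_lit 152) (nat_lit 3140491877) (nat_lit 152) (nat_lit 3140491877) (nat_lit 7) (nat_lit 4) (nat_lit 9) (nat_lit 5) (nat_lit 9) (nat_lit 4) (nat_lit 214) (nat_lit 193) (nat_lit 193)) (XT.lf (nat_lit 0) (nat_lit 11680090822) (nat_lit 152) (nat_lit 2273674907) (nat_lit 152) (nat_lit 1253414594) (nat_lit 7) (nat_lit 4) (nat_lit 9) (nat_lit 5) (nat_lit 9) (nat_lit 4) (nat_lit 215) (nat_lit 193) (nat_lit 192)))) (XT.nd (nat_lit 156) (nat_lit 228) (nat_lit 0) (XT.nd (nat_lit 78) (nat_lit 0) (nat_lit 0) (XT.lf (nat_lit 0) (nat_lit 3927707997) (nat_lit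 152) (nat_lit 10857696841) (nat_lit 0) (nat_lit 2161556892) (nat_lit 5) (nat_lit 5) (nat_lit 7) (nat_lit 4) (nat_lit 5) (nat_lit 4) (nat_lit 216) (nat_lit 193) (nat_lit 191)) (XT.lf (nat_lit 0) (nat_lit 9453028234) (nat_lit 152) (nat_lit 2550915782) (nat_lit 0) (nat_lit 6972559190) (nat_lit 5) (nat_lit 5) (nat_lit 7) (nat_lit 4) (nat_lit 5) (nat_lit 4) (nat_lit 217) (nat_lit 193) (nat_lit 190))) (XT.nd (nat_lit 78) (nat_lit 152) (nat_lit 0) (XT.lf (nat_lit 0) (nat_lit 6571607913) (nat_lit 76) (nat_lit 8933495847) (nat_lit 76) (nat_lit 5831880768) (nat_lit 4) (nat_lit 4) (nat_lit 5) (nat_lit 5) (nat_lit 5) (nat_lit 4) (nat_lit 218) (nat_lit 193) (nat_lit 189)) (XT.nd (nat_lit 78) (nat_lit 152) (nat_lit 0) (XT.lf (nat_lit 0) (nat_lit 16522219576) (nat_lit 76) (nat_lit 5600250735) (nat_lit 76) (nat_lit 1958508670) (nat_lit 4) (nat_lit 4) (nat_lit 5) (nat_lit 5) (nat_lit 5) (nat_lit 4) (nat_lit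 219) (nat_lit 193) (nat_lit 188)) (XT.lf (nat_lit 0) (nat_lit 45652835) (nat_lit 76) (nat_lit 1952938770) (nat_lit 152) (nat_lit 25264614827) (nat_lit 2) (nat_lit 5) (nat_lit 3) (nat_lit 5) (nat_lit 4) (nat_lit 4) (nat_lit 220) (nat_lit 193) (nat_lit 187))))))))
noncomputable def xc14 : XT := (XT.nd (nat_lit 1248) (nat_lit 0) (nat_lit 0) (XT.nd (nat_lit 624) (nat_lit 0) (nat_lit 0) (XT.nd (nat_lit 312) (nat_lit 76) (nat_lit 0) (XT.nd (nat_lit 156) (nat_lit 0) (nat_lit 0) (XT.nd (nat_lit 78) (nat_lit 0) (nat_lit 0) (XT.lf (nat_lit 0) (nat_lit 6372079904) (nat_lit 152) (nat_lit 22365892254) (nat_lit 0) (nat_lit 2187050918) (nat_lit 2) (nat_lit 5) (nat_lit 4) (nat_lit 4) (nat_lit 2) (nat_lit 4) (nat_lit 221) (nat_lit 193) (nat_lit 186)) (XT.lf (nat_lit 0) (nat_lit 11156303049) (nat_lit 152) (nat_lit 17358235158) (nat_lit 0) (nat_lit 6642438635) (nat_lit 2) (nat_lit 5) (nat_lit 4) (nat_lit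 4) (nat_lit 2) (nat_lit 4) (nat_lit 222) (nat_lit 193) (nat_lit 185))) (XT.nd (nat_lit 78) (nat_lit 0) (nat_lit 0) (XT.lf (nat_lit 0) (nat_lit 16397897181) (nat_lit 152) (nat_lit 12049638186) (nat_lit 0) (nat_lit 11598088918) (nat_lit 2) (nat_lit 5) (nat_lit 4) (nat_lit 4) (nat_lit 2) (nat_lit 4) (nat_lit 223) (nat_lit 193) (nat_lit 184)) (XT.lf (nat_lit 0) (nat_lit 22199415230) (nat_lit 152) (nat_lit 6336237483) (nat_lit 0) (nat_lit 17150960141) (nat_lit 2) (nat_lit 5) (nat_lit 4) (nat_lit 4) (nat_lit 2) (nat_lit 4) (nat_lit 224) (nat_lit 193) (nat_lit 183)))) (XT.nd (nat_lit 156) (nat_lit 0) (nat_lit 0) (XT.nd (nat_lit 78) (nat_lit 76) (nat_lit 0) (XT.lf (nat_lit 0) (nat_lit 28674365156) (nat_lit 152) (nat_lit 106249124) (nat_lit 0) (nat_lit 23409695437) (nat_lit 2) (nat_lit 5) (nat_lit 4) (nat_lit 4) (nat_lit 2) (nat_lit 4) (nat_lit 225) (nat_lit 193) (nat_lit 182)) (XT.lf (nat_lit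 0) (nat_lit 7118304383) (nat_lit 76) (nat_lit 29002321772) (nat_lit 76) (nat_lit 23549639330) (nat_lit 1) (nat_lit 4) (nat_lit 2) (nat_lit 5) (nat_lit 2) (nat_lit 4) (nat_lit 226) (nat_lit 193) (nat_lit 181))) (XT.nd (nat_lit 78) (nat_lit 0) (nat_lit 0) (XT.lf (nat_lit 0) (nat_lit 15162012099) (nat_lit 76) (nat_lit 29369584949) (nat_lit 76) (nat_lit 23753413182) (nat_lit 1) (nat_lit 4) (nat_lit 2) (nat_lit 5) (nat_lit 2) (nat_lit 4) (nat_lit 227) (nat_lit 193) (nat_lit 180)) (XT.lf (nat_lit 0) (nat_lit 24176656022) (nat_lit 76) (nat_lit 29892494434) (nat_lit 76) (nat_lit 24134158039) (nat_lit 1) (nat_lit 4) (nat_lit 2) (nat_lit 5) (nat_lit 2) (nat_lit 4) (nat_lit 228) (nat_lit 193) (nat_lit 179))))) (XT.nd (nat_lit 312) (nat_lit 0) (nat_lit 0) (XT.nd (nat_lit 156) (nat_lit 0) (nat_lit 0) (XT.nd (nat_lit 78) (nat_lit 0) (nat_lit 0) (XT.lf (nat_lit 0) (nat_lit 34338609621) (nat_lit 76)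 (nat_lit 30581281067) (nat_lit 76) (nat_lit 24699323254) (nat_lit 1) (nat_lit 4) (nat_lit 2) (nat_lit 5) (nat_lit 2) (nat_lit 4) (nat_lit 229) (nat_lit 193) (nat_lit 178)) (XT.lf (nat_lit 0) (nat_lit 45846693726) (nat_lit 76) (nat_lit 31449421105) (nat_lit 76) (nat_lit 25459966408) (nat_lit 1) (nat_lit 4) (nat_lit 2) (nat_lit 5) (nat_lit 2) (nat_lit 4) (nat_lit 230) (nat_lit 193) (nat_lit 177))) (XT.nd (nat_lit 78) (nat_lit 0) (nat_lit 0) (XT.lf (nat_lit 0) (nat_lit 58926066505) (nat_lit 76) (nat_lit 32513899900) (nat_lit 76) (nat_lit 26430969651) (nat_lit 1) (nat_lit 4) (nat_lit 2) (nat_lit 5) (nat_lit 2) (nat_lit 4) (nat_lit 231) (nat_lit 193) (nat_lit 176)) (XT.lf (nat_lit 0) (nat_lit 73832628731) (nat_lit 76) (nat_lit 33795544208) (nat_lit 76) (nat_lit 27631330871) (nat_lit 1) (nat_lit 4) (nat_lit 2) (nat_lit 5) (nat_lit 2) (nat_lit 4) (nat_lit 232) (nat_lit 193) (nat_lit 175))))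 (XT.nd (nat_lit 156) (nat_lit 0) (nat_lit 0) (XT.nd (nat_lit 78) (nat_lit 0) (nat_lit 0) (XT.lf (nat_lit 0) (nat_lit 90858030533) (nat_lit 76) (nat_lit 35319429680) (nat_lit 76) (nat_lit 29084535397) (nat_lit 1) (nat_lit 4) (nat_lit 2) (nat_lit 5) (nat_lit 2) (nat_lit 4) (nat_lit 233) (nat_lit 193) (nat_lit 174)) (XT.lf (nat_lit 0) (nat_lit 110335377598) (nat_lit 76) (nat_lit 37115371467) (nat_lit 76) (nat_lit 30819015491) (nat_lit 1) (nat_lit 4) (nat_lit 2) (nat_lit 5) (nat_lit 2) (nat_lit 4) (nat_lit 234) (nat_lit 193) (nat_lit 173))) (XT.nd (nat_lit 78) (nat_lit 0) (nat_lit 0) (XT.lf (nat_lit 0) (nat_lit 132645748457) (nat_lit 76) (nat_lit 39218507559) (nat_lit 76) (nat_lit 32868706633) (nat_lit 1) (nat_lit 4) (nat_lit 2) (nat_lit 5) (nat_lit 2) (nat_lit 4) (nat_lit 235) (nat_lit 193) (nat_lit 172)) (XT.lf (nat_lit 0) (nat_lit 158225650365) (nat_lit 76) (nat_lit 41669986273) (nat_lit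 76) (nat_lit 35273711477) (nat_lit 1) (nat_lit 4) (nat_lit 2) (nat_lit 5) (nat_lit 2) (nat_lit 4) (nat_lit 236) (nat_lit 193) (nat_lit 171)))))) (XT.nd (nat_lit 624) (nat_lit 0) (nat_lit 0) (XT.nd (nat_lit 312) (nat_lit 0) (nat_lit 0) (XT.nd (nat_lit 156) (nat_lit 0) (nat_lit 0) (XT.nd (nat_lit 78) (nat_lit 0) (nat_lit 0) (XT.lf (nat_lit 0) (nat_lit 187575559664) (nat_lit 76) (nat_lit 44517771320) (nat_lit 76) (nat_lit 38081084464) (nat_lit 1) (nat_lit 4) (nat_lit 2) (nat_lit 5) (nat_lit 2) (nat_lit 4) (nat_lit 237) (nat_lit 193) (nat_lit 170)) (XT.lf (nat_lit 0) (nat_lit 221269713710) (nat_lit 76) (nat_lit 47817580236) (nat_lit 76) (nat_lit 41345752458) (nat_lit 1) (nat_lit 4) (nat_lit 2) (nat_lit 5) (nat_lit 2) (nat_lit 4) (nat_lit 238) (nat_lit 193) (nat_lit 169))) (XT.nd (nat_lit 78) (nat_lit 0) (nat_lit 0) (XT.lf (nat_lit 0) (nat_lit 259967345951) (nat_lit 76) (nat_lit 51633974500)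 (nat_lit 76) (nat_lit 45131589397) (nat_lit 1) (nat_lit 4) (nat_lit 2) (nat_lit 5) (nat_lit 2) (nat_lit 4) (nat_lit 239) (nat_lit 193) (nat_lit 168)) (XT.lf (nat_lit 0) (nat_lit 304425583975) (nat_lit 76) (nat_lit 56041622693) (nat_lit 76) (nat_lit 49512666005) (nat_lit 1) (nat_lit 4) (nat_lit 2) (nat_lit 5) (nat_lit 2) (nat_lit 4) (nat_lit 240) (nat_lit 193) (nat_lit 167)))) (XT.nd (nat_lit 156) (nat_lit 0) (nat_lit 0) (XT.nd (nat_lit 78) (nat_lit 0) (nat_lit 0) (XT.lf (nat_lit 0) (nat_lit 355514262874) (nat_lit 76) (nat_lit 61126761412) (nat_lit 76) (nat_lit 54574698997) (nat_lit 1) (nat_lit 4) (nat_lit 2) (nat_lit 5) (nat_lit 2) (nat_lit 4) (nat_lit 241) (nat_lit 193) (nat_lit 166)) (XT.lf (nat_lit 0) (nat_lit 414232943756) (nat_lit 76) (nat_lit 66988882501) (nat_lit 76) (nat_lit 60416728150) (nat_lit 1) (nat_lit 4) (nat_lit 2) (nat_lit 5) (nat_lit 2) (nat_lit 4) (nat_lit 242) (nat_lit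 193) (nat_lit 165))) (XT.nd (nat_lit 78) (nat_lit 0) (nat_lit 0) (XT.lf (nat_lit 0) (nat_lit 481730470378) (nat_lit 76) (nat_lit 73742679633) (nat_lit 76) (nat_lit 67153054033) (nat_lit 1) (nat_lit 4) (nat_lit 2) (nat_lit 5) (nat_lit 2) (nat_lit 4) (nat_lit 243) (nat_lit 193) (nat_lit 164)) (XT.lf (nat_lit 0) (nat_lit 559327446522) (nat_lit 76) (nat_lit 81520292318) (nat_lit 76) (nat_lit 74915474328) (nat_lit 1) (nat_lit 4) (nat_lit 2) (nat_lit 5) (nat_lit 2) (nat_lit 4) (nat_lit 244) (nat_lit 193) (nat_lit 163))))) (XT.nd (nat_lit 312) (nat_lit 0) (nat_lit 0) (XT.nd (nat_lit 156) (nat_lit 0) (nat_lit 0) (XT.nd (nat_lit 78) (nat_lit 0) (nat_lit 0) (XT.lf (nat_lit 0) (nat_lit 648542073894) (nat_lit 76) (nat_lit 90473891238) (nat_lit 76) (nat_lit 83855862474) (nat_lit 1) (nat_lit 4) (nat_lit 2) (nat_lit 5) (nat_lit 2) (nat_lit 4) (nat_lit 245) (nat_lit 193) (nat_lit 162)) (XT.lf (nat_lit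 0) (nat_lit 751119856074) (nat_lit 76) (nat_lit 100778655504) (nat_lit 76) (nat_lit 94149139109) (nat_lit 1) (nat_lit 4) (nat_lit 2) (nat_lit 5) (nat_lit 2) (nat_lit 4) (nat_lit 246) (nat_lit 193) (nat_lit 161))) (XT.nd (nat_lit 78) (nat_lit 0) (nat_lit 0) (XT.lf (nat_lit 0) (nat_lit 869067749670) (nat_lit 76) (nat_lit 112636200067) (nat_lit 76) (nat_lit 105996694429) (nat_lit 1) (nat_lit 4) (nat_lit 2) (nat_lit 5) (nat_lit 2) (nat_lit 4) (nat_lit 247) (nat_lit 193) (nat_lit 160)) (XT.lf (nat_lit 0) (nat_lit 1004693430861) (nat_lit 76) (nat_lit 126278520365) (nat_lit 76) (nat_lit 119630328429) (nat_lit 1) (nat_lit 4) (nat_lit 2) (nat_lit 5) (nat_lit 2) (nat_lit 4) (nat_lit 248) (nat_lit 193) (nat_lit 159)))) (XT.nd (nat_lit 156) (nat_lit 0) (nat_lit 0) (XT.nd (nat_lit 78) (nat_lit 0) (nat_lit 0) (XT.lf (nat_lit 0) (nat_lit 1160650445583) (nat_lit 76) (nat_lit 141972531360) (nat_lit 76)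 (nat_lit 135316786121) (nat_lit 1) (nat_lit 4) (nat_lit 2) (nat_lit 5) (nat_lit 2) (nat_lit 4) (nat_lit 249) (nat_lit 193) (nat_lit 158)) (XT.lf (nat_lit 0) (nat_lit 1339990126732) (nat_lit 76) (nat_lit 160025289790) (nat_lit 76) (nat_lit 153362976461) (nat_lit 1) (nat_lit 4) (nat_lit 2) (nat_lit 5) (nat_lit 2) (nat_lit 4) (nat_lit 250) (nat_lit 193) (nat_lit 157))) (XT.nd (nat_lit 78) (nat_lit 0) (nat_lit 0) (XT.lf (nat_lit 0) (nat_lit 1546221294158) (nat_lit 76) (nat_lit 180790001797) (nat_lit 76) (nat_lit 174121977086) (nat_lit 1) (nat_lit 4) (nat_lit 2) (nat_lit 5) (nat_lit 2) (nat_lit 4) (nat_lit 251) (nat_lit 193) (nat_lit 156)) (XT.nd (nat_lit 78) (nat_lit 0) (nat_lit 0) (XT.lf (nat_lit 0) (nat_lit 1783378905484) (nat_lit 76) (nat_lit 204672933486) (nat_lit 76) (nat_lit 197999942356) (nat_lit 1) (nat_lit 4) (nat_lit 2) (nat_lit 5) (nat_lit 2) (nat_lit 4) (nat_lit 252) (nat_lit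 193) (nat_lit 155)) (XT.lf (nat_lit 0) (nat_lit 2056103000932) (nat_lit 76) (nat_lit 232141359607) (nat_lit 76) (nat_lit 225464049851) (nat_lit 1) (nat_lit 4) (nat_lit 2) (nat_lit 5) (nat_lit 2) (nat_lit 4) (nat_lit 253) (nat_lit 193) (nat_lit 154))))))))
noncomputable def xc15 : XT := (XT.nd (nat_lit 29094) (nat_lit 0) (nat_lit 0) (XT.nd (nat_lit 28392) (nat_lit 0) (nat_lit 76) (XT.nd (nat_lit 28080) (nat_lit 0) (nat_lit 304) (XT.nd (nat_lit 156) (nat_lit 0) (nat_lit 0) (XT.nd (nat_lit 78) (nat_lit 0) (nat_lit 0) (XT.lf (nat_lit 0) (nat_lit 2369729486716) (nat_lit 76) (nat_lit 263732705889) (nat_lit 76) (nat_lit 257051640807) (nat_lit 1) (nat_lit 4) (nat_lit 2) (nat_lit 5) (nat_lit 2) (nat_lit 4) (nat_lit 254) (nat_lit 193) (nat_lit 153)) (XT.lf (nat_lit 0) (nat_lit 2730394533211) (nat_lit 76) (nat_lit 300065063890) (nat_lit 76) (nat_lit 293380733306) (nat_lit 1) (nat_lit 4) (nat_lit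 2) (nat_lit 5) (nat_lit 2) (nat_lit 4) (nat_lit 255) (nat_lit 193) (nat_lit 152))) (XT.nd (nat_lit 27846) (nat_lit 0) (nat_lit 760) (XT.lf (nat_lit 0) (nat_lit 3145154630457) (nat_lit 76) (nat_lit 341849284091) (nat_lit 76) (nat_lit 335162113941) (nat_lit 1) (nat_lit 4) (nat_lit 2) (nat_lit 5) (nat_lit 2) (nat_lit 4) (nat_lit 256) (nat_lit 193) (nat_lit 151)) (XT.lf (nat_lit 0) (nat_lit 2847769366) (nat_lit 152) (nat_lit 1413253614) (nat_lit 152) (nat_lit 1413253614) (nat_lit 11) (nat_lit 4) (nat_lit 13) (nat_lit 5) (nat_lit 13) (nat_lit 4) (nat_lit 212) (nat_lit 194) (nat_lit 194)))) (XT.nd (nat_lit 156) (nat_lit 152) (nat_lit 0) (XT.nd (nat_lit 78) (nat_lit 152) (nat_lit 0) (XT.lf (nat_lit 0) (nat_lit 2593457973) (nat_lit 152) (nat_lit 8435693444) (nat_lit 0) (nat_lit 1420158613) (nat_lit 9) (nat_lit 5) (nat_lit 11) (nat_lit 4) (nat_lit 9) (nat_lit 4) (nat_lit 213) (nat_lit 194) (nat_lit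 193)) (XT.lf (nat_lit 0) (nat_lit 682885299) (nat_lit 152) (nat_lit 7625926617) (nat_lit 152) (nat_lit 5432366944) (nat_lit 7) (nat_lit 4) (nat_lit 9) (nat_lit 5) (nat_lit 9) (nat_lit 4) (nat_lit 214) (nat_lit 194) (nat_lit 192))) (XT.nd (nat_lit 78) (nat_lit 152) (nat_lit 0) (XT.lf (nat_lit 0) (nat_lit 10800242522) (nat_lit 152) (nat_lit 3767872988) (nat_lit 152) (nat_lit 687130435) (nat_lit 7) (nat_lit 4) (nat_lit 9) (nat_lit 5) (nat_lit 9) (nat_lit 4) (nat_lit 215) (nat_lit 194) (nat_lit 191)) (XT.lf (nat_lit 0) (nat_lit 4159532478) (nat_lit 152) (nat_lit 12267475167) (nat_lit 0) (nat_lit 592675137) (nat_lit 5) (nat_lit 5) (nat_lit 7) (nat_lit 4) (nat_lit 5) (nat_lit 4) (nat_lit 216) (nat_lit 194) (nat_lit 190))))) (XT.nd (nat_lit 312) (nat_lit 76) (nat_lit 0) (XT.nd (nat_lit 156) (nat_lit 76) (nat_lit 0) (XT.nd (nat_lit 78) (nat_lit 76) (nat_lit 0) (XT.lf (nat_lit 0) (nat_lit 9470857331)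 (nat_lit 152) (nat_lit 4313723394) (nat_lit 0) (nat_lit 5282853956) (nat_lit 5) (nat_lit 5) (nat_lit 7) (nat_lit 4) (nat_lit 5) (nat_lit 4) (nat_lit 217) (nat_lit 194) (nat_lit 189)) (XT.lf (nat_lit 0) (nat_lit 4392826861) (nat_lit 76) (nat_lit 10891623316) (nat_lit 76) (nat_lit 6163492955) (nat_lit 4) (nat_lit 4) (nat_lit 5) (nat_lit 5) (nat_lit 5) (nat_lit 4) (nat_lit 218) (nat_lit 194) (nat_lit 188))) (XT.nd (nat_lit 78) (nat_lit 76) (nat_lit 0) (XT.lf (nat_lit 0) (nat_lit 14062441032) (nat_lit 76) (nat_lit 7670806445) (nat_lit 76) (nat_lit 2473000444) (nat_lit 4) (nat_lit 4) (nat_lit 5) (nat_lit 5) (nat_lit 5) (nat_lit 4) (nat_lit 219) (nat_lit 194) (nat_lit 187)) (XT.lf (nat_lit 0) (nat_lit 1357668225) (nat_lit 152) (nat_lit 2782269692) (nat_lit 76) (nat_lit 23262364912) (nat_lit 3) (nat_lit 5) (nat_lit 5) (nat_lit 5) (nat_lit 4) (nat_lit 4) (nat_lit 220) (nat_lit 194) (nat_lit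 186)))) (XT.nd (nat_lit 156) (nat_lit 0) (nat_lit 0) (XT.nd (nat_lit 78) (nat_lit 0) (nat_lit 0) (XT.lf (nat_lit 0) (nat_lit 5412944122) (nat_lit 76) (nat_lit 55472216) (nat_lit 152) (nat_lit 25617299817) (nat_lit 2) (nat_lit 5) (nat_lit 3) (nat_lit 5) (nat_lit 4) (nat_lit 4) (nat_lit 221) (nat_lit 194) (nat_lit 185)) (XT.lf (nat_lit 0) (nat_lit 10130253057) (nat_lit 152) (nat_lit 20873180219) (nat_lit 0) (nat_lit 4324529705) (nat_lit 2) (nat_lit 5) (nat_lit 4) (nat_lit 4) (nat_lit 2) (nat_lit 4) (nat_lit 222) (nat_lit 194) (nat_lit 184))) (XT.nd (nat_lit 78) (nat_lit 0) (nat_lit 0) (XT.lf (nat_lit 0) (nat_lit 15266584304) (nat_lit 152) (nat_lit 15746669672) (nat_lit 0) (nat_lit 9212214126) (nat_lit 2) (nat_lit 5) (nat_lit 4) (nat_lit 4) (nat_lit 2) (nat_lit 4) (nat_lit 223) (nat_lit 194) (nat_lit 183)) (XT.nd (nat_lit 78) (nat_lit 0) (nat_lit 0) (XT.lf (nat_lit 0) (nat_lit 20976569409)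 (nat_lit 152) (nat_lit 10191604992) (nat_lit 0) (nat_lit 14705984600) (nat_lit 2) (nat_lit 5) (nat_lit 4) (nat_lit 4) (nat_lit 2) (nat_lit 4) (nat_lit 224) (nat_lit 194) (nat_lit 182)) (XT.lf (nat_lit 0) (nat_lit 27371925471) (nat_lit 152) (nat_lit 4099300131) (nat_lit 0) (nat_lit 20913327940) (nat_lit 2) (nat_lit 5) (nat_lit 4) (nat_lit 4) (nat_lit 2) (nat_lit 4) (nat_lit 225) (nat_lit 194) (nat_lit 181))))))) (XT.nd (nat_lit 624) (nat_lit 0) (nat_lit 0) (XT.nd (nat_lit 312) (nat_lit 0) (nat_lit 0) (XT.nd (nat_lit 156) (nat_lit 0) (nat_lit 0) (XT.nd (nat_lit 78) (nat_lit 0) (nat_lit 0) (XT.lf (nat_lit 0) (nat_lit 2788957111) (nat_lit 76) (nat_lit 31855896397) (nat_lit 76) (nat_lit 25233809541) (nat_lit 1) (nat_lit 4) (nat_lit 2) (nat_lit 5) (nat_lit 2) (nat_lit 4) (nat_lit 226) (nat_lit 194) (nat_lit 180)) (XT.lf (nat_lit 0) (nat_lit 10723074152) (nat_lit 76) (nat_lit 32269930193) (nat_lit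 76) (nat_lit 25505678708) (nat_lit 1) (nat_lit 4) (nat_lit 2) (nat_lit 5) (nat_lit 2) (nat_lit 4) (nat_lit 227) (nat_lit 194) (nat_lit 179))) (XT.nd (nat_lit 78) (nat_lit 0) (nat_lit 0) (XT.lf (nat_lit 0) (nat_lit 19642421837) (nat_lit 76) (nat_lit 32833509783) (nat_lit 76) (nat_lit 25945636881) (nat_lit 1) (nat_lit 4) (nat_lit 2) (nat_lit 5) (nat_lit 2) (nat_lit 4) (nat_lit 228) (nat_lit 194) (nat_lit 178)) (XT.lf (nat_lit 0) (nat_lit 29721509141) (nat_lit 76) (nat_lit 33557661723) (nat_lit 76) (nat_lit 26562291937) (nat_lit 1) (nat_lit 4) (nat_lit 2) (nat_lit 5) (nat_lit 2) (nat_lit 4) (nat_lit 229) (nat_lit 194) (nat_lit 177)))) (XT.nd (nat_lit 156) (nat_lit 0) (nat_lit 0) (XT.nd (nat_lit 78) (nat_lit 0) (nat_lit 0) (XT.lf (nat_lit 0) (nat_lit 41157535599) (nat_lit 76) (nat_lit 34456554203) (nat_lit 76) (nat_lit 27367708865) (nat_lit 1) (nat_lit 4) (nat_lit 2) (nat_lit 5) (nat_lit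 2) (nat_lit 4) (nat_lit 230) (nat_lit 194) (nat_lit 176)) (XT.lf (nat_lit 0) (nat_lit 54174249555) (nat_lit 76) (nat_lit 35547774251) (nat_lit 76) (nat_lit 28377645825) (nat_lit 1) (nat_lit 4) (nat_lit 2) (nat_lit 5) (nat_lit 2) (nat_lit 4) (nat_lit 231) (nat_lit 194) (nat_lit 175))) (XT.nd (nat_lit 78) (nat_lit 0) (nat_lit 0) (XT.lf (nat_lit 0) (nat_lit 69026325847) (nat_lit 76) (nat_lit 36852671823) (nat_lit 76) (nat_lit 29611862451) (nat_lit 1) (nat_lit 4) (nat_lit 2) (nat_lit 5) (nat_lit 2) (nat_lit 4) (nat_lit 232) (nat_lit 194) (nat_lit 174)) (XT.lf (nat_lit 0) (nat_lit 86004348575) (nat_lit 76) (nat_lit 38396777525) (nat_lit 76) (nat_lit 31094506460) (nat_lit 1) (nat_lit 4) (nat_lit 2) (nat_lit 5) (nat_lit 2) (nat_lit 4) (nat_lit 233) (nat_lit 194) (nat_lit 173))))) (XT.nd (nat_lit 312) (nat_lit 0) (nat_lit 0) (XT.nd (nat_lit 156) (nat_lit 0) (nat_lit 0) (XT.nd (nat_lit 78) (nat_lit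 0) (nat_lit 0) (XT.lf (nat_lit 0) (nat_lit 105440496447) (nat_lit 76) (nat_lit 40210302120) (nat_lit 76) (nat_lit 32854586105) (nat_lit 1) (nat_lit 4) (nat_lit 2) (nat_lit 5) (nat_lit 2) (nat_lit 4) (nat_lit 234) (nat_lit 194) (nat_lit 172)) (XT.lf (nat_lit 0) (nat_lit 127715041920) (nat_lit 76) (nat_lit 42328727611) (nat_lit 76) (nat_lit 34926537727) (nat_lit 1) (nat_lit 4) (nat_lit 2) (nat_lit 5) (nat_lit 2) (nat_lit 4) (nat_lit 235) (nat_lit 194) (nat_lit 171))) (XT.nd (nat_lit 78) (nat_lit 0) (nat_lit 0) (XT.lf (nat_lit 0) (nat_lit 153263791319) (nat_lit 76) (nat_lit 44793501454) (nat_lit 76) (nat_lit 37350899508) (nat_lit 1) (nat_lit 4) (nat_lit 2) (nat_lit 5) (nat_lit 2) (nat_lit 4) (nat_lit 236) (nat_lit 194) (nat_lit 170)) (XT.lf (nat_lit 0) (nat_lit 182586611479) (nat_lit 76) (nat_lit 47652847483) (nat_lit 76) (nat_lit 40175104616) (nat_lit 1) (nat_lit 4) (nat_lit 2) (nat_lit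 5) (nat_lit 2) (nat_lit 4) (nat_lit 237) (nat_lit 194) (nat_lit 169)))) (XT.nd (nat_lit 156) (nat_lit 0) (nat_lit 0) (XT.nd (nat_lit 78) (nat_lit 0) (nat_lit 0) (XT.lf (nat_lit 0) (nat_lit 216257209752) (nat_lit 76) (nat_lit 50962709427) (nat_lit 76) (nat_lit 43454409236) (nat_lit 1) (nat_lit 4) (nat_lit 2) (nat_lit 5) (nat_lit 2) (nat_lit 4) (nat_lit 238) (nat_lit 194) (nat_lit 168)) (XT.lf (nat_lit 0) (nat_lit 254934358713) (nat_lit 76) (nat_lit 54787845453) (nat_lit 76) (nat_lit 47252973676) (nat_lit 1) (nat_lit 4) (nat_lit 2) (nat_lit 5) (nat_lit 2) (nat_lit 4) (nat_lit 239) (nat_lit 194) (nat_lit 167))) (XT.nd (nat_lit 78) (nat_lit 0) (nat_lit 0) (XT.lf (nat_lit 0) (nat_lit 299374785189) (nat_lit 76) (nat_lit 59203095180) (nat_lit 76) (nat_lit 51645117676) (nat_lit 1) (nat_lit 4) (nat_lit 2) (nat_lit 5) (nat_lit 2) (nat_lit 4) (nat_lit 240) (nat_lit 194) (nat_lit 166)) (XT.nd (nat_lit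 78) (nat_lit 0) (nat_lit 0) (XT.lf (nat_lit 0) (nat_lit 350447975784) (nat_lit 76) (nat_lit 64294843928) (nat_lit 76) (nat_lit 56716774488) (nat_lit 1) (nat_lit 4) (nat_lit 2) (nat_lit 5) (nat_lit 2) (nat_lit 4) (nat_lit 241) (nat_lit 194) (nat_lit 165)) (XT.lf (nat_lit 0) (nat_lit 409153188577) (nat_lit 76) (nat_lit 70162712868) (nat_lit 76) (nat_lit 62567172179) (nat_lit 1) (nat_lit 4) (nat_lit 2) (nat_lit 5) (nat_lit 2) (nat_lit 4) (nat_lit 242) (nat_lit 194) (nat_lit 164))))))))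
noncomputable def xc16 : XT := (XT.nd (nat_lit 28860) (nat_lit 0) (nat_lit 0) (XT.nd (nat_lit 624) (nat_lit 0) (nat_lit 0) (XT.nd (nat_lit 312) (nat_lit 0) (nat_lit 0) (XT.nd (nat_lit 156) (nat_lit 0) (nat_lit 0) (XT.nd (nat_lit 78) (nat_lit 0) (nat_lit 0) (XT.lf (nat_lit 0) (nat_lit 476639003817) (nat_lit 76) (nat_lit 76921508132) (nat_lit 76) (nat_lit 69310775052) (nat_lit 1) (nat_lit 4) (nat_lit 2) (nat_lit 5) (nat_lit 2) (nat_lit 4) (nat_lit 243) (nat_lit 194) (nat_lit 163)) (XT.lf (nat_lit 0) (nat_lit 554225796150) (nat_lit 76) (nat_lit 84703467018) (nat_lit 76) (nat_lit 77079523164) (nat_lit 1) (nat_lit 4) (nat_lit 2) (nat_lit 5) (nat_lit 2) (nat_lit 4) (nat_lit 244) (nat_lit 194) (nat_lit 162))) (XT.nd (nat_lit 78) (nat_lit 0) (nat_lit 0) (XT.lf (nat_lit 0) (nat_lit 643431568035) (nat_lit 76) (nat_lit 93660845244) (nat_lit 76) (nat_lit 86025413761) (nat_lit 1) (nat_lit 4) (nat_lit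 2) (nat_lit 5) (nat_lit 2) (nat_lit 4) (nat_lit 245) (nat_lit 194) (nat_lit 161)) (XT.lf (nat_lit 0) (nat_lit 746001649791) (nat_lit 76) (nat_lit 103968895862) (nat_lit 76) (nat_lit 96323475135) (nat_lit 1) (nat_lit 4) (nat_lit 2) (nat_lit 5) (nat_lit 2) (nat_lit 4) (nat_lit 246) (nat_lit 194) (nat_lit 160)))) (XT.nd (nat_lit 156) (nat_lit 0) (nat_lit 0) (XT.nd (nat_lit 78) (nat_lit 0) (nat_lit 0) (XT.lf (nat_lit 0) (nat_lit 863942847367) (nat_lit 76) (nat_lit 115829298123) (nat_lit 76) (nat_lit 108175191098) (nat_lit 1) (nat_lit 4) (nat_lit 2) (nat_lit 5) (nat_lit 2) (nat_lit 4) (nat_lit 247) (nat_lit 194) (nat_lit 159)) (XT.lf (nat_lit 0) (nat_lit 999562705930) (nat_lit 76) (nat_lit 129474103376) (nat_lit 76) (nat_lit 121812443047) (nat_lit 1) (nat_lit 4) (nat_lit 2) (nat_lit 5) (nat_lit 2) (nat_lit 4) (nat_lit 248) (nat_lit 194) (nat_lit 158))) (XT.nd (nat_lit 78) (nat_lit 0) (nat_lit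 0) (XT.lf (nat_lit 0) (nat_lit 1155514657499) (nat_lit 76) (nat_lit 145170275201) (nat_lit 76) (nat_lit 137502046783) (nat_lit 1) (nat_lit 4) (nat_lit 2) (nat_lit 5) (nat_lit 2) (nat_lit 4) (nat_lit 249) (nat_lit 194) (nat_lit 157)) (XT.lf (nat_lit 0) (nat_lit 1334849935906) (nat_lit 76) (nat_lit 163224912614) (nat_lit 76) (nat_lit 155550972814) (nat_lit 1) (nat_lit 4) (nat_lit 2) (nat_lit 5) (nat_lit 2) (nat_lit 4) (nat_lit 250) (nat_lit 194) (nat_lit 156))))) (XT.nd (nat_lit 312) (nat_lit 0) (nat_lit 0) (XT.nd (nat_lit 156) (nat_lit 0) (nat_lit 0) (XT.nd (nat_lit 78) (nat_lit 0) (nat_lit 0) (XT.lf (nat_lit 0) (nat_lit 1541077274860) (nat_lit 76) (nat_lit 183991258519) (nat_lit 76) (nat_lit 176312352299) (nat_lit 1) (nat_lit 4) (nat_lit 2) (nat_lit 5) (nat_lit 2) (nat_lit 4) (nat_lit 251) (nat_lit 194) (nat_lit 155)) (XT.lf (nat_lit 0) (nat_lit 1778231557080) (nat_lit 76) (nat_lit 207875610989)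 (nat_lit 76) (nat_lit 200192386144) (nat_lit 1) (nat_lit 4) (nat_lit 2) (nat_lit 5) (nat_lit 2) (nat_lit 4) (nat_lit 252) (nat_lit 194) (nat_lit 154))) (XT.nd (nat_lit 78) (nat_lit 0) (nat_lit 0) (XT.lf (nat_lit 0) (nat_lit 2050952757653) (nat_lit 76) (nat_lit 235345272572) (nat_lit 76) (nat_lit 227658292400) (nat_lit 1) (nat_lit 4) (nat_lit 2) (nat_lit 5) (nat_lit 2) (nat_lit 4) (nat_lit 253) (nat_lit 194) (nat_lit 153)) (XT.lf (nat_lit 0) (nat_lit 2364576726155) (nat_lit 76) (nat_lit 266937693168) (nat_lit 76) (nat_lit 259247447495) (nat_lit 1) (nat_lit 4) (nat_lit 2) (nat_lit 5) (nat_lit 2) (nat_lit 4) (nat_lit 254) (nat_lit 194) (nat_lit 152)))) (XT.nd (nat_lit 27768) (nat_lit 0) (nat_lit 912) (XT.nd (nat_lit 78) (nat_lit 0) (nat_lit 0) (XT.lf (nat_lit 0) (nat_lit 2725239583709) (nat_lit 76) (nat_lit 303270985355) (nat_lit 76) (nat_lit 295577900116) (nat_lit 1) (nat_lit 4) (nat_lit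 2) (nat_lit 5) (nat_lit 2) (nat_lit 4) (nat_lit 255) (nat_lit 194) (nat_lit 151)) (XT.lf (nat_lit 0) (nat_lit 3139997777528) (nat_lit 76) (nat_lit 345056017893) (nat_lit 76) (nat_lit 337360463465) (nat_lit 1) (nat_lit 4) (nat_lit 2) (nat_lit 5) (nat_lit 2) (nat_lit 4) (nat_lit 256) (nat_lit 194) (nat_lit 150))) (XT.nd (nat_lit 78) (nat_lit 228) (nat_lit 0) (XT.lf (nat_lit 0) (nat_lit 3166460397) (nat_lit 152) (nat_lit 820234220) (nat_lit 152) (nat_lit 820234220) (nat_lit 16) (nat_lit 4) (nat_lit 18) (nat_lit 5) (nat_lit 18) (nat_lit 4) (nat_lit 210) (nat_lit 195) (nat_lit 195)) (XT.lf (nat_lit 0) (nat_lit 3834993949) (nat_lit 228) (nat_lit 4206278093) (nat_lit 0) (nat_lit 2377756144) (nat_lit 13) (nat_lit 5) (nat_lit 16) (nat_lit 4) (nat_lit 13) (nat_lit 4) (nat_lit 211) (nat_lit 195) (nat_lit 194)))))) (XT.nd (nat_lit 624) (nat_lit 228) (nat_lit 0) (XT.nd (nat_lit 312) (nat_lit 228)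 (nat_lit 0) (XT.nd (nat_lit 156) (nat_lit 152) (nat_lit 0) (XT.nd (nat_lit 78) (nat_lit 152) (nat_lit 0) (XT.lf (nat_lit 0) (nat_lit 5248852275) (nat_lit 152) (nat_lit 4425366255) (nat_lit 152) (nat_lit 1700965142) (nat_lit 11) (nat_lit 4) (nat_lit 13) (nat_lit 5) (nat_lit 13) (nat_lit 4) (nat_lit 212) (nat_lit 195) (nat_lit 193)) (XT.lf (nat_lit 0) (nat_lit 3099759567) (nat_lit 76) (nat_lit 230068229) (nat_lit 152) (nat_lit 9172368294) (nat_lit 9) (nat_lit 5) (nat_lit 10) (nat_lit 5) (nat_lit 11) (nat_lit 4) (nat_lit 213) (nat_lit 195) (nat_lit 192))) (XT.nd (nat_lit 78) (nat_lit 152) (nat_lit 0) (XT.lf (nat_lit 0) (nat_lit 8773090672) (nat_lit 152) (nat_lit 701245659) (nat_lit 0) (nat_lit 4343053855) (nat_lit 9) (nat_lit 5) (nat_lit 11) (nat_lit 4) (nat_lit 9) (nat_lit 4) (nat_lit 214) (nat_lit 195) (nat_lit 191)) (XT.lf (nat_lit 0) (nat_lit 9023331499) (nat_lit 152) (nat_lit 5765243149)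 (nat_lit 152) (nat_lit 563742957) (nat_lit 7) (nat_lit 4) (nat_lit 9) (nat_lit 5) (nat_lit 9) (nat_lit 4) (nat_lit 215) (nat_lit 195) (nat_lit 190)))) (XT.nd (nat_lit 156) (nat_lit 76) (nat_lit 0) (XT.nd (nat_lit 78) (nat_lit 0) (nat_lit 0) (XT.lf (nat_lit 0) (nat_lit 2454502990) (nat_lit 76) (nat_lit 1548785903) (nat_lit 152) (nat_lit 13136195641) (nat_lit 5) (nat_lit 5) (nat_lit 6) (nat_lit 5) (nat_lit 7) (nat_lit 4) (nat_lit 216) (nat_lit 195) (nat_lit 189)) (XT.lf (nat_lit 0) (nat_lit 9091282466) (nat_lit 152) (nat_lit 7000963421) (nat_lit 0) (nat_lit 3113805564) (nat_lit 5) (nat_lit 5) (nat_lit 7) (nat_lit 4) (nat_lit 5) (nat_lit 4) (nat_lit 217) (nat_lit 195) (nat_lit 188))) (XT.nd (nat_lit 78) (nat_lit 0) (nat_lit 0) (XT.lf (nat_lit 0) (nat_lit 1283084045) (nat_lit 76) (nat_lit 13385190624) (nat_lit 76) (nat_lit 6938038082) (nat_lit 4) (nat_lit 4) (nat_lit 5) (nat_lit 5) (nat_lit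 5) (nat_lit 4) (nat_lit 218) (nat_lit 195) (nat_lit 187)) (XT.lf (nat_lit 0) (nat_lit 10708352571) (nat_lit 76) (nat_lit 10262137441) (nat_lit 76) (nat_lit 3406571299) (nat_lit 4) (nat_lit 4) (nat_lit 5) (nat_lit 5) (nat_lit 5) (nat_lit 4) (nat_lit 219) (nat_lit 195) (nat_lit 186))))) (XT.nd (nat_lit 312) (nat_lit 76) (nat_lit 0) (XT.nd (nat_lit 156) (nat_lit 0) (nat_lit 0) (XT.nd (nat_lit 78) (nat_lit 76) (nat_lit 0) (XT.lf (nat_lit 0) (nat_lit 339432611) (nat_lit 152) (nat_lit 6504688570) (nat_lit 76) (nat_lit 20741877956) (nat_lit 3) (nat_lit 5) (nat_lit 5) (nat_lit 5) (nat_lit 4) (nat_lit 4) (nat_lit 220) (nat_lit 195) (nat_lit 185)) (XT.lf (nat_lit 0) (nat_lit 1293159150) (nat_lit 76) (nat_lit 2943709556) (nat_lit 152) (nat_lit 27050110864) (nat_lit 2) (nat_lit 5) (nat_lit 3) (nat_lit 5) (nat_lit 4) (nat_lit 4) (nat_lit 221) (nat_lit 195) (nat_lit 184))) (XT.nd (nat_lit 78) (nat_lit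 0) (nat_lit 0) (XT.lf (nat_lit 0) (nat_lit 8723980362) (nat_lit 152) (nat_lit 25306852854) (nat_lit 0) (nat_lit 1512807832) (nat_lit 2) (nat_lit 5) (nat_lit 4) (nat_lit 4) (nat_lit 2) (nat_lit 4) (nat_lit 222) (nat_lit 195) (nat_lit 183)) (XT.lf (nat_lit 0) (nat_lit 13768778665) (nat_lit 152) (nat_lit 20338678330) (nat_lit 0) (nat_lit 6341391505) (nat_lit 2) (nat_lit 5) (nat_lit 4) (nat_lit 4) (nat_lit 2) (nat_lit 4) (nat_lit 223) (nat_lit 195) (nat_lit 182)))) (XT.nd (nat_lit 156) (nat_lit 76) (nat_lit 0) (XT.nd (nat_lit 78) (nat_lit 0) (nat_lit 0) (XT.lf (nat_lit 0) (nat_lit 19399169906) (nat_lit 152) (nat_lit 14921297148) (nat_lit 0) (nat_lit 11783770022) (nat_lit 2) (nat_lit 5) (nat_lit 4) (nat_lit 4) (nat_lit 2) (nat_lit 4) (nat_lit 224) (nat_lit 195) (nat_lit 181)) (XT.lf (nat_lit 0) (nat_lit 25725313912) (nat_lit 152) (nat_lit 8948717067) (nat_lit 0) (nat_lit 17946424705) (nat_lit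 2) (nat_lit 5) (nat_lit 4) (nat_lit 4) (nat_lit 2) (nat_lit 4) (nat_lit 225) (nat_lit 195) (nat_lit 180))) (XT.nd (nat_lit 78) (nat_lit 76) (nat_lit 0) (XT.lf (nat_lit 0) (nat_lit 32870983068) (nat_lit 152) (nat_lit 2304083260) (nat_lit 0) (nat_lit 24949929231) (nat_lit 2) (nat_lit 5) (nat_lit 4) (nat_lit 4) (nat_lit 2) (nat_lit 4) (nat_lit 226) (nat_lit 195) (nat_lit 179)) (XT.nd (nat_lit 78) (nat_lit 0) (nat_lit 0) (XT.lf (nat_lit 0) (nat_lit 5413408601) (nat_lit 76) (nat_lit 35692767948) (nat_lit 76) (nat_lit 27648092694) (nat_lit 1) (nat_lit 4) (nat_lit 2) (nat_lit 5) (nat_lit 2) (nat_lit 4) (nat_lit 227) (nat_lit 195) (nat_lit 178)) (XT.lf (nat_lit 0) (nat_lit 14249889991) (nat_lit 76) (nat_lit 36291712845) (nat_lit 76) (nat_lit 28139540707) (nat_lit 1) (nat_lit 4) (nat_lit 2) (nat_lit 5) (nat_lit 2) (nat_lit 4) (nat_lit 228) (nat_lit 195) (nat_lit 177))))))))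
noncomputable def xc17 : XT := (XT.nd (nat_lit 1326) (nat_lit 0) (nat_lit 0) (XT.nd (nat_lit 624) (nat_lit 0) (nat_lit 0) (XT.nd (nat_lit 312) (nat_lit 0) (nat_lit 0) (XT.nd (nat_lit 156) (nat_lit 0) (nat_lit 0) (XT.nd (nat_lit 78) (nat_lit 0) (nat_lit 0) (XT.lf (nat_lit 0) (nat_lit 24256919648) (nat_lit 76) (nat_lit 37046617227) (nat_lit 76) (nat_lit 28800969537) (nat_lit 1) (nat_lit 4) (nat_lit 2) (nat_lit 5) (nat_lit 2) (nat_lit 4) (nat_lit 229) (nat_lit 195) (nat_lit 176)) (XT.lf (nat_lit 0) (nat_lit 35630287282) (nat_lit 76) (nat_lit 37972250961) (nat_lit 76) (nat_lit 29645320183) (nat_lit 1) (nat_lit 4) (nat_lit 2) (nat_lit 5) (nat_lit 2) (nat_lit 4) (nat_lit 230) (nat_lit 195) (nat_lit 175))) (XT.nd (nat_lit 78) (nat_lit 0) (nat_lit 0) (XT.lf (nat_lit 0) (nat_lit 48592515304) (nat_lit 76) (nat_lit 39086724273) (nat_lit 76) (nat_lit 30689112548) (nat_lit 1) (nat_lit 4) (nat_lit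 2) (nat_lit 5) (nat_lit 2) (nat_lit 4) (nat_lit 231) (nat_lit 195) (nat_lit 174)) (XT.lf (nat_lit 0) (nat_lit 63397212523) (nat_lit 76) (nat_lit 40411842075) (nat_lit 76) (nat_lit 31952768657) (nat_lit 1) (nat_lit 4) (nat_lit 2) (nat_lit 5) (nat_lit 2) (nat_lit 4) (nat_lit 232) (nat_lit 195) (nat_lit 173)))) (XT.nd (nat_lit 156) (nat_lit 0) (nat_lit 0) (XT.nd (nat_lit 78) (nat_lit 0) (nat_lit 0) (XT.lf (nat_lit 0) (nat_lit 80334036058) (nat_lit 76) (nat_lit 41973530585) (nat_lit 76) (nat_lit 33461012217) (nat_lit 1) (nat_lit 4) (nat_lit 2) (nat_lit 5) (nat_lit 2) (nat_lit 4) (nat_lit 233) (nat_lit 195) (nat_lit 172)) (XT.lf (nat_lit 0) (nat_lit 99734358544) (nat_lit 76) (nat_lit 43802344578) (nat_lit 76) (nat_lit 35243352341) (nat_lit 1) (nat_lit 4) (nat_lit 2) (nat_lit 5) (nat_lit 2) (nat_lit 4) (nat_lit 234) (nat_lit 195) (nat_lit 171))) (XT.nd (nat_lit 78) (nat_lit 0) (nat_lit 0)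 (XT.lf (nat_lit 0) (nat_lit 121977751508) (nat_lit 76) (nat_lit 45934065199) (nat_lit 76) (nat_lit 37334660901) (nat_lit 1) (nat_lit 4) (nat_lit 2) (nat_lit 5) (nat_lit 2) (nat_lit 4) (nat_lit 235) (nat_lit 195) (nat_lit 170)) (XT.lf (nat_lit 0) (nat_lit 147499411768) (nat_lit 76) (nat_lit 48410400023) (nat_lit 76) (nat_lit 39775854803) (nat_lit 1) (nat_lit 4) (nat_lit 2) (nat_lit 5) (nat_lit 2) (nat_lit 4) (nat_lit 236) (nat_lit 195) (nat_lit 169))))) (XT.nd (nat_lit 312) (nat_lit 0) (nat_lit 0) (XT.nd (nat_lit 156) (nat_lit 0) (nat_lit 0) (XT.nd (nat_lit 78) (nat_lit 0) (nat_lit 0) (XT.lf (nat_lit 0) (nat_lit 176798676155) (nat_lit 76) (nat_lit 51279799080) (nat_lit 76) (nat_lit 42614696537) (nat_lit 1) (nat_lit 4) (nat_lit 2) (nat_lit 5) (nat_lit 2) (nat_lit 4) (nat_lit 237) (nat_lit 195) (nat_lit 168)) (XT.lf (nat_lit 0) (nat_lit 210448791148) (nat_lit 76) (nat_lit 54598402787) (nat_lit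 76) (nat_lit 45906728658) (nat_lit 1) (nat_lit 4) (nat_lit 2) (nat_lit 5) (nat_lit 2) (nat_lit 4) (nat_lit 238) (nat_lit 195) (nat_lit 167))) (XT.nd (nat_lit 78) (nat_lit 0) (nat_lit 0) (XT.lf (nat_lit 0) (nat_lit 249108128560) (nat_lit 76) (nat_lit 58431140347) (nat_lit 76) (nat_lit 49716360491) (nat_lit 1) (nat_lit 4) (nat_lit 2) (nat_lit 5) (nat_lit 2) (nat_lit 4) (nat_lit 239) (nat_lit 195) (nat_lit 166)) (XT.lf (nat_lit 0) (nat_lit 293533066733) (nat_lit 76) (nat_lit 62853000102) (nat_lit 76) (nat_lit 54118128310) (nat_lit 1) (nat_lit 4) (nat_lit 2) (nat_lit 5) (nat_lit 2) (nat_lit 4) (nat_lit 240) (nat_lit 195) (nat_lit 165)))) (XT.nd (nat_lit 156) (nat_lit 0) (nat_lit 0) (XT.nd (nat_lit 78) (nat_lit 0) (nat_lit 0) (XT.lf (nat_lit 0) (nat_lit 344592789239) (nat_lit 76) (nat_lit 67950496701) (nat_lit 76) (nat_lit 59198153660) (nat_lit 1) (nat_lit 4) (nat_lit 2) (nat_lit 5) (nat_lit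 2) (nat_lit 4) (nat_lit 241) (nat_lit 195) (nat_lit 164)) (XT.lf (nat_lit 0) (nat_lit 403286290650) (nat_lit 76) (nat_lit 73823363773) (nat_lit 76) (nat_lit 65055828341) (nat_lit 1) (nat_lit 4) (nat_lit 2) (nat_lit 5) (nat_lit 2) (nat_lit 4) (nat_lit 242) (nat_lit 195) (nat_lit 163))) (XT.nd (nat_lit 78) (nat_lit 0) (nat_lit 0) (XT.lf (nat_lit 0) (nat_lit 470761922079) (nat_lit 76) (nat_lit 80586505238) (nat_lit 76) (nat_lit 71805759032) (nat_lit 1) (nat_lit 4) (nat_lit 2) (nat_lit 5) (nat_lit 2) (nat_lit 4) (nat_lit 243) (nat_lit 195) (nat_lit 162)) (XT.nd (nat_lit 78) (nat_lit 0) (nat_lit 0) (XT.lf (nat_lit 0) (nat_lit 548339858924) (nat_lit 76) (nat_lit 88372243430) (nat_lit 76) (nat_lit 79580009594) (nat_lit 1) (nat_lit 4) (nat_lit 2) (nat_lit 5) (nat_lit 2) (nat_lit 4) (nat_lit 244) (nat_lit 195) (nat_lit 161)) (XT.lf (nat_lit 0) (nat_lit 637537930386) (nat_lit 76) (nat_lit 97332908008)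 (nat_lit 76) (nat_lit 88530684929) (nat_lit 1) (nat_lit 4) (nat_lit 2) (nat_lit 5) (nat_lit 2) (nat_lit 4) (nat_lit 245) (nat_lit 195) (nat_lit 160))))))) (XT.nd (nat_lit 624) (nat_lit 0) (nat_lit 0) (XT.nd (nat_lit 312) (nat_lit 0) (nat_lit 0) (XT.nd (nat_lit 156) (nat_lit 0) (nat_lit 0) (XT.nd (nat_lit 78) (nat_lit 0) (nat_lit 0) (XT.lf (nat_lit 0) (nat_lit 740101316121) (nat_lit 76) (nat_lit 107643816324) (nat_lit 76) (nat_lit 98832906947) (nat_lit 1) (nat_lit 4) (nat_lit 2) (nat_lit 5) (nat_lit 2) (nat_lit 4) (nat_lit 246) (nat_lit 195) (nat_lit 159)) (XT.lf (nat_lit 0) (nat_lit 858036691070) (nat_lit 76) (nat_lit 119506703540) (nat_lit 76) (nat_lit 110688240859) (nat_lit 1) (nat_lit 4) (nat_lit 2) (nat_lit 5) (nat_lit 2) (nat_lit 4) (nat_lit 247) (nat_lit 195) (nat_lit 158))) (XT.nd (nat_lit 78) (nat_lit 0) (nat_lit 0) (XT.lf (nat_lit 0) (nat_lit 993651486480) (nat_lit 76) (nat_lit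 133153669623) (nat_lit 76) (nat_lit 124328638853) (nat_lit 1) (nat_lit 4) (nat_lit 2) (nat_lit 5) (nat_lit 2) (nat_lit 4) (nat_lit 248) (nat_lit 195) (nat_lit 157)) (XT.lf (nat_lit 0) (nat_lit 1149599035306) (nat_lit 76) (nat_lit 148851720431) (nat_lit 76) (nat_lit 140020978279) (nat_lit 1) (nat_lit 4) (nat_lit 2) (nat_lit 5) (nat_lit 2) (nat_lit 4) (nat_lit 249) (nat_lit 195) (nat_lit 156)))) (XT.nd (nat_lit 156) (nat_lit 0) (nat_lit 0) (XT.nd (nat_lit 78) (nat_lit 0) (nat_lit 0) (XT.lf (nat_lit 0) (nat_lit 1328930485241) (nat_lit 76) (nat_lit 166907991742) (nat_lit 76) (nat_lit 158072283170) (nat_lit 1) (nat_lit 4) (nat_lit 2) (nat_lit 5) (nat_lit 2) (nat_lit 4) (nat_lit 250) (nat_lit 195) (nat_lit 155)) (XT.lf (nat_lit 0) (nat_lit 1535154495090) (nat_lit 76) (nat_lit 187675758428) (nat_lit 76) (nat_lit 178835731230) (nat_lit 1) (nat_lit 4) (nat_lit 2) (nat_lit 5) (nat_lit 2) (nat_lit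 4) (nat_lit 251) (nat_lit 195) (nat_lit 154))) (XT.nd (nat_lit 78) (nat_lit 0) (nat_lit 0) (XT.lf (nat_lit 0) (nat_lit 1772305882435) (nat_lit 76) (nat_lit 211561346359) (nat_lit 76) (nat_lit 202717563835) (nat_lit 1) (nat_lit 4) (nat_lit 2) (nat_lit 5) (nat_lit 2) (nat_lit 4) (nat_lit 252) (nat_lit 195) (nat_lit 153)) (XT.lf (nat_lit 0) (nat_lit 2045024565726) (nat_lit 76) (nat_lit 239032082257) (nat_lit 76) (nat_lit 230185034231) (nat_lit 1) (nat_lit 4) (nat_lit 2) (nat_lit 5) (nat_lit 2) (nat_lit 4) (nat_lit 253) (nat_lit 195) (nat_lit 152))))) (XT.nd (nat_lit 27768) (nat_lit 0) (nat_lit 608) (XT.nd (nat_lit 156) (nat_lit 0) (nat_lit 0) (XT.nd (nat_lit 78) (nat_lit 0) (nat_lit 0) (XT.lf (nat_lit 0) (nat_lit 2358646345287) (nat_lit 76) (nat_lit 270625437039) (nat_lit 76) (nat_lit 261775549448) (nat_lit 1) (nat_lit 4) (nat_lit 2) (nat_lit 5) (nat_lit 2) (nat_lit 4) (nat_lit 254) (nat_lit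 195) (nat_lit 151)) (XT.lf (nat_lit 0) (nat_lit 2719307299414) (nat_lit 76) (nat_lit 306959541563) (nat_lit 76) (nat_lit 298107184783) (nat_lit 1) (nat_lit 4) (nat_lit 2) (nat_lit 5) (nat_lit 2) (nat_lit 4) (nat_lit 255) (nat_lit 195) (nat_lit 150))) (XT.nd (nat_lit 27534) (nat_lit 0) (nat_lit 1520) (XT.lf (nat_lit 0) (nat_lit 3134063838079) (nat_lit 76) (nat_lit 348745280479) (nat_lit 76) (nat_lit 339890776579) (nat_lit 1) (nat_lit 4) (nat_lit 2) (nat_lit 5) (nat_lit 2) (nat_lit 4) (nat_lit 256) (nat_lit 195) (nat_lit 149)) (XT.lf (nat_lit 0) (nat_lit 2664354103) (nat_lit 228) (nat_lit 756655020) (nat_lit 228) (nat_lit 756655020) (nat_lit 21) (nat_lit 4) (nat_lit 24) (nat_lit 5) (nat_lit 24) (nat_lit 4) (nat_lit 208) (nat_lit 196) (nat_lit 196)))) (XT.nd (nat_lit 156) (nat_lit 532) (nat_lit 0) (XT.nd (nat_lit 78) (nat_lit 152) (nat_lit 0) (XT.lf (nat_lit 0) (nat_lit 3811383464) (nat_lit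 228) (nat_lit 3125494332) (nat_lit 0) (nat_lit 2001494110) (nat_lit 18) (nat_lit 5) (nat_lit 21) (nat_lit 4) (nat_lit 18) (nat_lit 4) (nat_lit 209) (nat_lit 196) (nat_lit 195)) (XT.lf (nat_lit 0) (nat_lit 5914017700) (nat_lit 152) (nat_lit 3555697502) (nat_lit 152) (nat_lit 171991320) (nat_lit 16) (nat_lit 4) (nat_lit 18) (nat_lit 5) (nat_lit 18) (nat_lit 4) (nat_lit 210) (nat_lit 196) (nat_lit 194))) (XT.nd (nat_lit 78) (nat_lit 304) (nat_lit 0) (XT.lf (nat_lit 0) (nat_lit 4878024229) (nat_lit 228) (nat_lit 5118612087) (nat_lit 0) (nat_lit 477799640) (nat_lit 13) (nat_lit 5) (nat_lit 16) (nat_lit 4) (nat_lit 13) (nat_lit 4) (nat_lit 211) (nat_lit 196) (nat_lit 193)) (XT.nd (nat_lit 78) (nat_lit 152) (nat_lit 0) (XT.lf (nat_lit 0) (nat_lit 3900053383) (nat_lit 152) (nat_lit 6528824246) (nat_lit 152) (nat_lit 1026718519) (nat_lit 11) (nat_lit 4) (nat_lit 13) (nat_lit 5) (nat_lit 13) (nat_lit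 4) (nat_lit 212) (nat_lit 196) (nat_lit 192)) (XT.lf (nat_lit 0) (nat_lit 1207826783) (nat_lit 76) (nat_lit 2478754957) (nat_lit 152) (nat_lit 8918988684) (nat_lit 9) (nat_lit 5) (nat_lit 10) (nat_lit 5) (nat_lit 11) (nat_lit 4) (nat_lit 213) (nat_lit 196) (nat_lit 191))))))))
noncomputable def xc18 : XT := (XT.nd (nat_lit 1248) (nat_lit 0) (nat_lit 0) (XT.nd (nat_lit 624) (nat_lit 152) (nat_lit 0) (XT.nd (nat_lit 312) (nat_lit 152) (nat_lit 0) (XT.nd (nat_lit 156) (nat_lit 152) (nat_lit 0) (XT.nd (nat_lit 78) (nat_lit 152) (nat_lit 0) (XT.lf (nat_lit 0) (nat_lit 8858255372) (nat_lit 152) (nat_lit 2980524274) (nat_lit 0) (nat_lit 2105066777) (nat_lit 9) (nat_lit 5) (nat_lit 11) (nat_lit 4) (nat_lit 9) (nat_lit 4) (nat_lit 214) (nat_lit 196) (nat_lit 190)) (XT.lf (nat_lit 0) (nat_lit 6314592102) (nat_lit 152) (nat_lit 8304864370) (nat_lit 152) (nat_lit 880838058) (nat_lit 7) (nat_lit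 4) (nat_lit 9) (nat_lit 5) (nat_lit 9) (nat_lit 4) (nat_lit 215) (nat_lit 196) (nat_lit 189))) (XT.nd (nat_lit 78) (nat_lit 76) (nat_lit 0) (XT.lf (nat_lit 0) (nat_lit 3466673396) (nat_lit 228) (nat_lit 796682792) (nat_lit 76) (nat_lit 13044494500) (nat_lit 6) (nat_lit 5) (nat_lit 9) (nat_lit 5) (nat_lit 7) (nat_lit 4) (nat_lit 216) (nat_lit 196) (nat_lit 188)) (XT.lf (nat_lit 0) (nat_lit 8306877174) (nat_lit 152) (nat_lit 10665212300) (nat_lit 0) (nat_lit 422976111) (nat_lit 5) (nat_lit 5) (nat_lit 7) (nat_lit 4) (nat_lit 5) (nat_lit 4) (nat_lit 217) (nat_lit 196) (nat_lit 187)))) (XT.nd (nat_lit 156) (nat_lit 76) (nat_lit 0) (XT.nd (nat_lit 78) (nat_lit 76) (nat_lit 0) (XT.lf (nat_lit 0) (nat_lit 13712305737) (nat_lit 152) (nat_lit 2677472380) (nat_lit 0) (nat_lit 5419991073) (nat_lit 5) (nat_lit 5) (nat_lit 7) (nat_lit 4) (nat_lit 5) (nat_lit 4) (nat_lit 218) (nat_lit 196) (nat_lit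 186)) (XT.lf (nat_lit 0) (nat_lit 6394330721) (nat_lit 76) (nat_lit 13424943677) (nat_lit 76) (nat_lit 4777486752) (nat_lit 4) (nat_lit 4) (nat_lit 5) (nat_lit 5) (nat_lit 5) (nat_lit 4) (nat_lit 219) (nat_lit 196) (nat_lit 185))) (XT.nd (nat_lit 78) (nat_lit 76) (nat_lit 0) (XT.lf (nat_lit 0) (nat_lit 16591808995) (nat_lit 76) (nat_lit 10090131500) (nat_lit 76) (nat_lit 1133855218) (nat_lit 4) (nat_lit 4) (nat_lit 5) (nat_lit 5) (nat_lit 5) (nat_lit 4) (nat_lit 220) (nat_lit 196) (nat_lit 184)) (XT.lf (nat_lit 0) (nat_lit 2689869016) (nat_lit 152) (nat_lit 3629887300) (nat_lit 76) (nat_lit 25210072569) (nat_lit 3) (nat_lit 5) (nat_lit 5) (nat_lit 5) (nat_lit 4) (nat_lit 4) (nat_lit 221) (nat_lit 196) (nat_lit 183))))) (XT.nd (nat_lit 312) (nat_lit 76) (nat_lit 0) (XT.nd (nat_lit 156) (nat_lit 0) (nat_lit 0) (XT.nd (nat_lit 78) (nat_lit 0) (nat_lit 0) (XT.lf (nat_lit 0) (nat_lit 5011711546)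 (nat_lit 76) (nat_lit 1945037588) (nat_lit 152) (nat_lit 28847739445) (nat_lit 2) (nat_lit 5) (nat_lit 3) (nat_lit 5) (nat_lit 4) (nat_lit 4) (nat_lit 222) (nat_lit 196) (nat_lit 182)) (XT.lf (nat_lit 0) (nat_lit 11875175373) (nat_lit 152) (nat_lit 25915507807) (nat_lit 0) (nat_lit 2929452785) (nat_lit 2) (nat_lit 5) (nat_lit 4) (nat_lit 4) (nat_lit 2) (nat_lit 4) (nat_lit 223) (nat_lit 196) (nat_lit 181))) (XT.nd (nat_lit 78) (nat_lit 0) (nat_lit 0) (XT.lf (nat_lit 0) (nat_lit 17436354558) (nat_lit 152) (nat_lit 20617851406) (nat_lit 0) (nat_lit 8327142645) (nat_lit 2) (nat_lit 5) (nat_lit 4) (nat_lit 4) (nat_lit 2) (nat_lit 4) (nat_lit 224) (nat_lit 196) (nat_lit 180)) (XT.lf (nat_lit 0) (nat_lit 23702314168) (nat_lit 152) (nat_lit 14749379830) (nat_lit 0) (nat_lit 14450937626) (nat_lit 2) (nat_lit 5) (nat_lit 4) (nat_lit 4) (nat_lit 2) (nat_lit 4) (nat_lit 225) (nat_lit 196) (nat_lit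 179)))) (XT.nd (nat_lit 156) (nat_lit 76) (nat_lit 0) (XT.nd (nat_lit 78) (nat_lit 0) (nat_lit 0) (XT.lf (nat_lit 0) (nat_lit 30795649066) (nat_lit 152) (nat_lit 8195275157) (nat_lit 0) (nat_lit 21420651106) (nat_lit 2) (nat_lit 5) (nat_lit 4) (nat_lit 4) (nat_lit 2) (nat_lit 4) (nat_lit 226) (nat_lit 196) (nat_lit 178)) (XT.lf (nat_lit 0) (nat_lit 38855141890) (nat_lit 152) (nat_lit 827304905) (nat_lit 0) (nat_lit 29372647046) (nat_lit 2) (nat_lit 5) (nat_lit 4) (nat_lit 4) (nat_lit 2) (nat_lit 4) (nat_lit 227) (nat_lit 196) (nat_lit 177))) (XT.nd (nat_lit 78) (nat_lit 0) (nat_lit 0) (XT.lf (nat_lit 0) (nat_lit 7893554426) (nat_lit 76) (nat_lit 40334764117) (nat_lit 76) (nat_lit 30758793722) (nat_lit 1) (nat_lit 4) (nat_lit 2) (nat_lit 5) (nat_lit 2) (nat_lit 4) (nat_lit 228) (nat_lit 196) (nat_lit 176)) (XT.lf (nat_lit 0) (nat_lit 17837925260) (nat_lit 76) (nat_lit 41116409752) (nat_lit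 76) (nat_lit 31459156268) (nat_lit 1) (nat_lit 4) (nat_lit 2) (nat_lit 5) (nat_lit 2) (nat_lit 4) (nat_lit 229) (nat_lit 196) (nat_lit 175)))))) (XT.nd (nat_lit 624) (nat_lit 0) (nat_lit 0) (XT.nd (nat_lit 312) (nat_lit 0) (nat_lit 0) (XT.nd (nat_lit 156) (nat_lit 0) (nat_lit 0) (XT.nd (nat_lit 78) (nat_lit 0) (nat_lit 0) (XT.lf (nat_lit 0) (nat_lit 29156806960) (nat_lit 76) (nat_lit 42065296750) (nat_lit 76) (nat_lit 32337362320) (nat_lit 1) (nat_lit 4) (nat_lit 2) (nat_lit 5) (nat_lit 2) (nat_lit 4) (nat_lit 230) (nat_lit 196) (nat_lit 174)) (XT.lf (nat_lit 0) (nat_lit 42071655909) (nat_lit 76) (nat_lit 43199990291) (nat_lit 76) (nat_lit 33410594169) (nat_lit 1) (nat_lit 4) (nat_lit 2) (nat_lit 5) (nat_lit 2) (nat_lit 4) (nat_lit 231) (nat_lit 196) (nat_lit 173))) (XT.nd (nat_lit 78) (nat_lit 0) (nat_lit 0) (XT.lf (nat_lit 0) (nat_lit 56835153935) (nat_lit 76) (nat_lit 44542690902)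 (nat_lit 76) (nat_lit 34699849829) (nat_lit 1) (nat_lit 4) (nat_lit 2) (nat_lit 5) (nat_lit 2) (nat_lit 4) (nat_lit 232) (nat_lit 196) (nat_lit 172)) (XT.lf (nat_lit 0) (nat_lit 73736152084) (nat_lit 76) (nat_lit 46119668810) (nat_lit 76) (nat_lit 36230353868) (nat_lit 1) (nat_lit 4) (nat_lit 2) (nat_lit 5) (nat_lit 2) (nat_lit 4) (nat_lit 233) (nat_lit 196) (nat_lit 171)))) (XT.nd (nat_lit 156) (nat_lit 0) (nat_lit 0) (XT.nd (nat_lit 78) (nat_lit 0) (nat_lit 0) (XT.lf (nat_lit 0) (nat_lit 93105322060) (nat_lit 76) (nat_lit 47961777933) (nat_lit 76) (nat_lit 38032050930) (nat_lit 1) (nat_lit 4) (nat_lit 2) (nat_lit 5) (nat_lit 2) (nat_lit 4) (nat_lit 234) (nat_lit 196) (nat_lit 170)) (XT.lf (nat_lit 0) (nat_lit 115321625885) (nat_lit 76) (nat_lit 50105059535) (nat_lit 76) (nat_lit 40140191610) (nat_lit 1) (nat_lit 4) (nat_lit 2) (nat_lit 5) (nat_lit 2) (nat_lit 4) (nat_lit 235) (nat_lit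 196) (nat_lit 169))) (XT.nd (nat_lit 78) (nat_lit 0) (nat_lit 0) (XT.lf (nat_lit 0) (nat_lit 140819730373) (nat_lit 76) (nat_lit 52591447387) (nat_lit 76) (nat_lit 42596022138) (nat_lit 1) (nat_lit 4) (nat_lit 2) (nat_lit 5) (nat_lit 2) (nat_lit 4) (nat_lit 236) (nat_lit 196) (nat_lit 168)) (XT.lf (nat_lit 0) (nat_lit 170098511480) (nat_lit 76) (nat_lit 55469588208) (nat_lit 76) (nat_lit 45447591373) (nat_lit 1) (nat_lit 4) (nat_lit 2) (nat_lit 5) (nat_lit 2) (nat_lit 4) (nat_lit 237) (nat_lit 196) (nat_lit 167))))) (XT.nd (nat_lit 312) (nat_lit 0) (nat_lit 0) (XT.nd (nat_lit 156) (nat_lit 0) (nat_lit 0) (XT.nd (nat_lit 78) (nat_lit 0) (nat_lit 0) (XT.lf (nat_lit 0) (nat_lit 203730814924) (nat_lit 76) (nat_lit 58795793448) (nat_lit 76) (nat_lit 48750690887) (nat_lit 1) (nat_lit 4) (nat_lit 2) (nat_lit 5) (nat_lit 2) (nat_lit 4) (nat_lit 238) (nat_lit 196) (nat_lit 166)) (XT.lf (nat_lit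 0) (nat_lit 242374664033) (nat_lit 76) (nat_lit 62635141036) (nat_lit 76) (nat_lit 52569946539) (nat_lit 1) (nat_lit 4) (nat_lit 2) (nat_lit 5) (nat_lit 2) (nat_lit 4) (nat_lit 239) (nat_lit 196) (nat_lit 165))) (XT.nd (nat_lit 78) (nat_lit 0) (nat_lit 0) (XT.lf (nat_lit 0) (nat_lit 286786134116) (nat_lit 76) (nat_lit 67062748643) (nat_lit 76) (nat_lit 56980082897) (nat_lit 1) (nat_lit 4) (nat_lit 2) (nat_lit 5) (nat_lit 2) (nat_lit 4) (nat_lit 240) (nat_lit 196) (nat_lit 164)) (XT.lf (nat_lit 0) (nat_lit 337834145240) (nat_lit 76) (nat_lit 72165243373) (nat_lit 76) (nat_lit 62067385237) (nat_lit 1) (nat_lit 4) (nat_lit 2) (nat_lit 5) (nat_lit 2) (nat_lit 4) (nat_lit 241) (nat_lit 196) (nat_lit 163)))) (XT.nd (nat_lit 156) (nat_lit 0) (nat_lit 0) (XT.nd (nat_lit 78) (nat_lit 0) (nat_lit 0) (XT.lf (nat_lit 0) (nat_lit 396517462840) (nat_lit 76) (nat_lit 78042456646) (nat_lit 76) (nat_lit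 67931387735) (nat_lit 1) (nat_lit 4) (nat_lit 2) (nat_lit 5) (nat_lit 2) (nat_lit 4) (nat_lit 242) (nat_lit 196) (nat_lit 162)) (XT.lf (nat_lit 0) (nat_lit 463984238782) (nat_lit 76) (nat_lit 84809377417) (nat_lit 76) (nat_lit 74686820876) (nat_lit 1) (nat_lit 4) (nat_lit 2) (nat_lit 5) (nat_lit 2) (nat_lit 4) (nat_lit 243) (nat_lit 196) (nat_lit 161))) (XT.nd (nat_lit 78) (nat_lit 0) (nat_lit 0) (XT.lf (nat_lit 0) (nat_lit 541554475204) (nat_lit 76) (nat_lit 92598401961) (nat_lit 76) (nat_lit 82465856177) (nat_lit 1) (nat_lit 4) (nat_lit 2) (nat_lit 5) (nat_lit 2) (nat_lit 4) (nat_lit 244) (nat_lit 196) (nat_lit 160)) (XT.nd (nat_lit 78) (nat_lit 0) (nat_lit 0) (XT.lf (nat_lit 0) (nat_lit 630745850644) (nat_lit 76) (nat_lit 101561924238) (nat_lit 76) (nat_lit 91420692155) (nat_lit 1) (nat_lit 4) (nat_lit 2) (nat_lit 5) (nat_lit 2) (nat_lit 4) (nat_lit 245) (nat_lit 196) (nat_lit 159))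 (XT.lf (nat_lit 0) (nat_lit 733303413753) (nat_lit 76) (nat_lit 111875317508) (nat_lit 76) (nat_lit 101726532123) (nat_lit 1) (nat_lit 4) (nat_lit 2) (nat_lit 5) (nat_lit 2) (nat_lit 4) (nat_lit 246) (nat_lit 196) (nat_lit 158))))))))
noncomputable def xc19 : XT := (XT.nd (nat_lit 28626) (nat_lit 0) (nat_lit 0) (XT.nd (nat_lit 624) (nat_lit 0) (nat_lit 0) (XT.nd (nat_lit 312) (nat_lit 0) (nat_lit 0) (XT.nd (nat_lit 156) (nat_lit 0) (nat_lit 0) (XT.nd (nat_lit 78) (nat_lit 0) (nat_lit 0) (XT.lf (nat_lit 0) (nat_lit 851233725548) (nat_lit 76) (nat_lit 123740365554) (nat_lit 76) (nat_lit 113585012079) (nat_lit 1) (nat_lit 4) (nat_lit 2) (nat_lit 5) (nat_lit 2) (nat_lit 4) (nat_lit 247) (nat_lit 196) (nat_lit 157)) (XT.lf (nat_lit 0) (nat_lit 986844118216) (nat_lit 76) (nat_lit 137389210620) (nat_lit 76) (nat_lit 127228145762) (nat_lit 1) (nat_lit 4) (nat_lit 2) (nat_lit 5) (nat_lit 2) (nat_lit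 4) (nat_lit 248) (nat_lit 196) (nat_lit 156))) (XT.nd (nat_lit 78) (nat_lit 0) (nat_lit 0) (XT.lf (nat_lit 0) (nat_lit 1142787838570) (nat_lit 76) (nat_lit 153088895326) (nat_lit 76) (nat_lit 142922864049) (nat_lit 1) (nat_lit 4) (nat_lit 2) (nat_lit 5) (nat_lit 2) (nat_lit 4) (nat_lit 249) (nat_lit 196) (nat_lit 155)) (XT.lf (nat_lit 0) (nat_lit 1322115959400) (nat_lit 76) (nat_lit 171146587418) (nat_lit 76) (nat_lit 160976237515) (nat_lit 1) (nat_lit 4) (nat_lit 2) (nat_lit 5) (nat_lit 2) (nat_lit 4) (nat_lit 250) (nat_lit 196) (nat_lit 154)))) (XT.nd (nat_lit 156) (nat_lit 0) (nat_lit 0) (XT.nd (nat_lit 78) (nat_lit 0) (nat_lit 0) (XT.lf (nat_lit 0) (nat_lit 1528337074374) (nat_lit 76) (nat_lit 191915589565) (nat_lit 76) (nat_lit 181741484336) (nat_lit 1) (nat_lit 4) (nat_lit 2) (nat_lit 5) (nat_lit 2) (nat_lit 4) (nat_lit 251) (nat_lit 196) (nat_lit 153)) (XT.lf (nat_lit 0) (nat_lit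 1765485944437) (nat_lit 76) (nat_lit 215802251811) (nat_lit 76) (nat_lit 205624881081) (nat_lit 1) (nat_lit 4) (nat_lit 2) (nat_lit 5) (nat_lit 2) (nat_lit 4) (nat_lit 252) (nat_lit 196) (nat_lit 152))) (XT.nd (nat_lit 78) (nat_lit 0) (nat_lit 0) (XT.lf (nat_lit 0) (nat_lit 2038202438786) (nat_lit 76) (nat_lit 243273921895) (nat_lit 76) (nat_lit 233093711599) (nat_lit 1) (nat_lit 4) (nat_lit 2) (nat_lit 5) (nat_lit 2) (nat_lit 4) (nat_lit 253) (nat_lit 196) (nat_lit 151)) (XT.lf (nat_lit 0) (nat_lit 2351822314920) (nat_lit 76) (nat_lit 274868089014) (nat_lit 76) (nat_lit 264685409529) (nat_lit 1) (nat_lit 4) (nat_lit 2) (nat_lit 5) (nat_lit 2) (nat_lit 4) (nat_lit 254) (nat_lit 196) (nat_lit 150))))) (XT.nd (nat_lit 27612) (nat_lit 0) (nat_lit 760) (XT.nd (nat_lit 27456) (nat_lit 0) (nat_lit 1748) (XT.nd (nat_lit 78) (nat_lit 0) (nat_lit 0) (XT.lf (nat_lit 0) (nat_lit 2712481613893)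 (nat_lit 76) (nat_lit 311202899917) (nat_lit 76) (nat_lit 301018073312) (nat_lit 1) (nat_lit 4) (nat_lit 2) (nat_lit 5) (nat_lit 2) (nat_lit 4) (nat_lit 255) (nat_lit 196) (nat_lit 149)) (XT.lf (nat_lit 0) (nat_lit 3127236713294) (nat_lit 76) (nat_lit 352989253076) (nat_lit 76) (nat_lit 342802559410) (nat_lit 1) (nat_lit 4) (nat_lit 2) (nat_lit 5) (nat_lit 2) (nat_lit 4) (nat_lit 256) (nat_lit 196) (nat_lit 148))) (XT.nd (nat_lit 78) (nat_lit 456) (nat_lit 0) (XT.lf (nat_lit 0) (nat_lit 2044222408) (nat_lit 380) (nat_lit 844697681) (nat_lit 380) (nat_lit 844697681) (nat_lit 30) (nat_lit 4) (nat_lit 35) (nat_lit 5) (nat_lit 35) (nat_lit 4) (nat_lit 206) (nat_lit 197) (nat_lit 197)) (XT.lf (nat_lit 0) (nat_lit 3410039981) (nat_lit 456) (nat_lit 3304758610) (nat_lit 0) (nat_lit 1162157404) (nat_lit 24) (nat_lit 5) (nat_lit 30) (nat_lit 4) (nat_lit 24) (nat_lit 4) (nat_lit 207) (nat_lit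 197) (nat_lit 196)))) (XT.nd (nat_lit 156) (nat_lit 532) (nat_lit 0) (XT.nd (nat_lit 78) (nat_lit 152) (nat_lit 0) (XT.lf (nat_lit 0) (nat_lit 361086220) (nat_lit 304) (nat_lit 3451503740) (nat_lit 76) (nat_lit 4571442552) (nat_lit 20) (nat_lit 5) (nat_lit 24) (nat_lit 5) (nat_lit 21) (nat_lit 4) (nat_lit 208) (nat_lit 197) (nat_lit 195)) (XT.lf (nat_lit 0) (nat_lit 5009284775) (nat_lit 152) (nat_lit 236662354) (nat_lit 228) (nat_lit 3750111622) (nat_lit 18) (nat_lit 5) (nat_lit 20) (nat_lit 5) (nat_lit 21) (nat_lit 4) (nat_lit 209) (nat_lit 197) (nat_lit 194))) (XT.nd (nat_lit 78) (nat_lit 304) (nat_lit 0) (XT.lf (nat_lit 0) (nat_lit 834520560) (nat_lit 228) (nat_lit 5097812546) (nat_lit 76) (nat_lit 3791774657) (nat_lit 15) (nat_lit 5) (nat_lit 18) (nat_lit 5) (nat_lit 16) (nat_lit 4) (nat_lit 210) (nat_lit 197) (nat_lit 193)) (XT.nd (nat_lit 78) (nat_lit 152) (nat_lit 0) (XT.lf (nat_lit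 0) (nat_lit 3573200094) (nat_lit 152) (nat_lit 2002207134) (nat_lit 228) (nat_lit 5007076083) (nat_lit 13) (nat_lit 5) (nat_lit 15) (nat_lit 5) (nat_lit 16) (nat_lit 4) (nat_lit 211) (nat_lit 197) (nat_lit 192)) (XT.lf (nat_lit 0) (nat_lit 1622752513) (nat_lit 152) (nat_lit 9178035813) (nat_lit 152) (nat_lit 790575578) (nat_lit 11) (nat_lit 4) (nat_lit 13) (nat_lit 5) (nat_lit 13) (nat_lit 4) (nat_lit 212) (nat_lit 197) (nat_lit 191))))))) (XT.nd (nat_lit 624) (nat_lit 228) (nat_lit 0) (XT.nd (nat_lit 312) (nat_lit 152) (nat_lit 0) (XT.nd (nat_lit 156) (nat_lit 228) (nat_lit 0) (XT.nd (nat_lit 78) (nat_lit 76) (nat_lit 0) (XT.lf (nat_lit 0) (nat_lit 3674678284) (nat_lit 228) (nat_lit 1577309846) (nat_lit 76) (nat_lit 7509149161) (nat_lit 10) (nat_lit 5) (nat_lit 13) (nat_lit 5) (nat_lit 11) (nat_lit 4) (nat_lit 213) (nat_lit 197) (nat_lit 190)) (XT.lf (nat_lit 0) (nat_lit 7872613760)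 (nat_lit 76) (nat_lit 693616611) (nat_lit 152) (nat_lit 5556770699) (nat_lit 9) (nat_lit 5) (nat_lit 10) (nat_lit 5) (nat_lit 11) (nat_lit 4) (nat_lit 214) (nat_lit 197) (nat_lit 189))) (XT.nd (nat_lit 78) (nat_lit 76) (nat_lit 0) (XT.lf (nat_lit 0) (nat_lit 2621027256) (nat_lit 152) (nat_lit 11436424892) (nat_lit 152) (nat_lit 1644619772) (nat_lit 7) (nat_lit 4) (nat_lit 9) (nat_lit 5) (nat_lit 9) (nat_lit 4) (nat_lit 215) (nat_lit 197) (nat_lit 188)) (XT.lf (nat_lit 0) (nat_lit 2587749640) (nat_lit 228) (nat_lit 4916535559) (nat_lit 76) (nat_lit 10019905152) (nat_lit 6) (nat_lit 5) (nat_lit 9) (nat_lit 5) (nat_lit 7) (nat_lit 4) (nat_lit 216) (nat_lit 197) (nat_lit 187)))) (XT.nd (nat_lit 156) (nat_lit 76) (nat_lit 0) (XT.nd (nat_lit 78) (nat_lit 0) (nat_lit 0) (XT.lf (nat_lit 0) (nat_lit 4182300329) (nat_lit 76) (nat_lit 2991950550) (nat_lit 152) (nat_lit 12458167788) (nat_lit 5)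 (nat_lit 5) (nat_lit 6) (nat_lit 5) (nat_lit 7) (nat_lit 4) (nat_lit 217) (nat_lit 197) (nat_lit 186)) (XT.lf (nat_lit 0) (nat_lit 12385370404) (nat_lit 152) (nat_lit 7592267576) (nat_lit 0) (nat_lit 2085652679) (nat_lit 5) (nat_lit 5) (nat_lit 7) (nat_lit 4) (nat_lit 5) (nat_lit 4) (nat_lit 218) (nat_lit 197) (nat_lit 185))) (XT.nd (nat_lit 78) (nat_lit 0) (nat_lit 0) (XT.lf (nat_lit 0) (nat_lit 1035970708) (nat_lit 76) (nat_lit 17221106143) (nat_lit 76) (nat_lit 6612569061) (nat_lit 4) (nat_lit 4) (nat_lit 5) (nat_lit 5) (nat_lit 5) (nat_lit 4) (nat_lit 219) (nat_lit 197) (nat_lit 184)) (XT.lf (nat_lit 0) (nat_lit 11072787754) (nat_lit 76) (nat_lit 13950575178) (nat_lit 76) (nat_lit 3073499524) (nat_lit 4) (nat_lit 4) (nat_lit 5) (nat_lit 5) (nat_lit 5) (nat_lit 4) (nat_lit 220) (nat_lit 197) (nat_lit 183))))) (XT.nd (nat_lit 312) (nat_lit 76) (nat_lit 0) (XT.nd (nat_lit 156) (nat_lit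 76) (nat_lit 0) (XT.nd (nat_lit 78) (nat_lit 0) (nat_lit 0) (XT.lf (nat_lit 0) (nat_lit 760878457) (nat_lit 152) (nat_lit 9527960263) (nat_lit 76) (nat_lit 21533078491) (nat_lit 3) (nat_lit 5) (nat_lit 5) (nat_lit 5) (nat_lit 4) (nat_lit 4) (nat_lit 221) (nat_lit 197) (nat_lit 182)) (XT.lf (nat_lit 0) (nat_lit 4832117998) (nat_lit 152) (nat_lit 1262835759) (nat_lit 76) (nat_lit 30017604565) (nat_lit 3) (nat_lit 5) (nat_lit 5) (nat_lit 5) (nat_lit 4) (nat_lit 4) (nat_lit 222) (nat_lit 197) (nat_lit 181))) (XT.nd (nat_lit 78) (nat_lit 0) (nat_lit 0) (XT.lf (nat_lit 0) (nat_lit 8428556009) (nat_lit 76) (nat_lit 1147773641) (nat_lit 152) (nat_lit 31466100326) (nat_lit 2) (nat_lit 5) (nat_lit 3) (nat_lit 5) (nat_lit 4) (nat_lit 4) (nat_lit 223) (nat_lit 197) (nat_lit 180)) (XT.lf (nat_lit 0) (nat_lit 15049720456) (nat_lit 152) (nat_lit 27392722088) (nat_lit 0) (nat_lit 4268472802) (nat_lit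 2) (nat_lit 5) (nat_lit 4) (nat_lit 4) (nat_lit 2) (nat_lit 4) (nat_lit 224) (nat_lit 197) (nat_lit 179)))) (XT.nd (nat_lit 156) (nat_lit 76) (nat_lit 0) (XT.nd (nat_lit 78) (nat_lit 0) (nat_lit 0) (XT.lf (nat_lit 0) (nat_lit 21263345808) (nat_lit 152) (nat_lit 21614779647) (nat_lit 0) (nat_lit 10358476738) (nat_lit 2) (nat_lit 5) (nat_lit 4) (nat_lit 4) (nat_lit 2) (nat_lit 4) (nat_lit 225) (nat_lit 197) (nat_lit 178)) (XT.lf (nat_lit 0) (nat_lit 28311172655) (nat_lit 152) (nat_lit 15139395961) (nat_lit 0) (nat_lit 17298806701) (nat_lit 2) (nat_lit 5) (nat_lit 4) (nat_lit 4) (nat_lit 2) (nat_lit 4) (nat_lit 226) (nat_lit 197) (nat_lit 177))) (XT.nd (nat_lit 78) (nat_lit 76) (nat_lit 0) (XT.lf (nat_lit 0) (nat_lit 36331093262) (nat_lit 152) (nat_lit 7839878741) (nat_lit 0) (nat_lit 25225251756) (nat_lit 2) (nat_lit 5) (nat_lit 4) (nat_lit 4) (nat_lit 2) (nat_lit 4) (nat_lit 227) (nat_lit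 197) (nat_lit 176)) (XT.nd (nat_lit 78) (nat_lit 0) (nat_lit 0) (XT.lf (nat_lit 0) (nat_lit 449052056) (nat_lit 76) (nat_lit 45041766774) (nat_lit 76) (nat_lit 33854642180) (nat_lit 1) (nat_lit 4) (nat_lit 2) (nat_lit 5) (nat_lit 2) (nat_lit 4) (nat_lit 228) (nat_lit 197) (nat_lit 175)) (XT.lf (nat_lit 0) (nat_lit 10338936956) (nat_lit 76) (nat_lit 45846665673) (nat_lit 76) (nat_lit 34588860132) (nat_lit 1) (nat_lit 4) (nat_lit 2) (nat_lit 5) (nat_lit 2) (nat_lit 4) (nat_lit 229) (nat_lit 197) (nat_lit 174))))))))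
noncomputable def xc20 : XT := (XT.nd (nat_lit 1248) (nat_lit 0) (nat_lit 0) (XT.nd (nat_lit 624) (nat_lit 0) (nat_lit 0) (XT.nd (nat_lit 312) (nat_lit 0) (nat_lit 0) (XT.nd (nat_lit 156) (nat_lit 0) (nat_lit 0) (XT.nd (nat_lit 78) (nat_lit 0) (nat_lit 0) (XT.lf (nat_lit 0) (nat_lit 21610439583) (nat_lit 76) (nat_lit 46815772901) (nat_lit 76) (nat_lit 35496505668) (nat_lit 1) (nat_lit 4) (nat_lit 2) (nat_lit 5) (nat_lit 2) (nat_lit 4) (nat_lit 230) (nat_lit 197) (nat_lit 173)) (XT.lf (nat_lit 0) (nat_lit 34484089339) (nat_lit 76) (nat_lit 47968049251) (nat_lit 76) (nat_lit 36595337067) (nat_lit 1) (nat_lit 4) (nat_lit 2) (nat_lit 5) (nat_lit 2) (nat_lit 4) (nat_lit 231) (nat_lit 197) (nat_lit 172))) (XT.nd (nat_lit 78) (nat_lit 0) (nat_lit 0) (XT.lf (nat_lit 0) (nat_lit 49211761978) (nat_lit 76) (nat_lit 49326039259) (nat_lit 76) (nat_lit 37906853206) (nat_lit 1) (nat_lit 4) (nat_lit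 2) (nat_lit 5) (nat_lit 2) (nat_lit 4) (nat_lit 232) (nat_lit 197) (nat_lit 171)) (XT.lf (nat_lit 0) (nat_lit 66081607618) (nat_lit 76) (nat_lit 50916312297) (nat_lit 76) (nat_lit 39456714184) (nat_lit 1) (nat_lit 4) (nat_lit 2) (nat_lit 5) (nat_lit 2) (nat_lit 4) (nat_lit 233) (nat_lit 197) (nat_lit 170)))) (XT.nd (nat_lit 156) (nat_lit 0) (nat_lit 0) (XT.nd (nat_lit 78) (nat_lit 0) (nat_lit 0) (XT.lf (nat_lit 0) (nat_lit 85423688456) (nat_lit 76) (nat_lit 52769982402) (nat_lit 76) (nat_lit 41275243366) (nat_lit 1) (nat_lit 4) (nat_lit 2) (nat_lit 5) (nat_lit 2) (nat_lit 4) (nat_lit 234) (nat_lit 197) (nat_lit 169)) (XT.lf (nat_lit 0) (nat_lit 107616436508) (nat_lit 76) (nat_lit 54923317031) (nat_lit 76) (nat_lit 43398020672) (nat_lit 1) (nat_lit 4) (nat_lit 2) (nat_lit 5) (nat_lit 2) (nat_lit 4) (nat_lit 235) (nat_lit 197) (nat_lit 168))) (XT.nd (nat_lit 78) (nat_lit 0) (nat_lit 0)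 (XT.lf (nat_lit 0) (nat_lit 133094057715) (nat_lit 76) (nat_lit 57418446647) (nat_lit 76) (nat_lit 45866578701) (nat_lit 1) (nat_lit 4) (nat_lit 2) (nat_lit 5) (nat_lit 2) (nat_lit 4) (nat_lit 236) (nat_lit 197) (nat_lit 167)) (XT.lf (nat_lit 0) (nat_lit 162355027273) (nat_lit 76) (nat_lit 60304189000) (nat_lit 76) (nat_lit 48729215329) (nat_lit 1) (nat_lit 4) (nat_lit 2) (nat_lit 5) (nat_lit 2) (nat_lit 4) (nat_lit 237) (nat_lit 197) (nat_lit 166))))) (XT.nd (nat_lit 312) (nat_lit 0) (nat_lit 0) (XT.nd (nat_lit 156) (nat_lit 0) (nat_lit 0) (XT.nd (nat_lit 78) (nat_lit 0) (nat_lit 0) (XT.lf (nat_lit 0) (nat_lit 195971842415) (nat_lit 76) (nat_lit 63637004270) (nat_lit 76) (nat_lit 52041938661) (nat_lit 1) (nat_lit 4) (nat_lit 2) (nat_lit 5) (nat_lit 2) (nat_lit 4) (nat_lit 238) (nat_lit 197) (nat_lit 165)) (XT.lf (nat_lit 0) (nat_lit 234602223434) (nat_lit 76) (nat_lit 67482099709) (nat_lit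 76) (nat_lit 55869562852) (nat_lit 1) (nat_lit 4) (nat_lit 2) (nat_lit 5) (nat_lit 2) (nat_lit 4) (nat_lit 239) (nat_lit 197) (nat_lit 164))) (XT.nd (nat_lit 78) (nat_lit 0) (nat_lit 0) (XT.lf (nat_lit 0) (nat_lit 279001982135) (nat_lit 76) (nat_lit 71914705447) (nat_lit 76) (nat_lit 60286976200) (nat_lit 1) (nat_lit 4) (nat_lit 2) (nat_lit 5) (nat_lit 2) (nat_lit 4) (nat_lit 240) (nat_lit 197) (nat_lit 163)) (XT.lf (nat_lit 0) (nat_lit 330039809449) (nat_lit 76) (nat_lit 77021546379) (nat_lit 76) (nat_lit 65380606357) (nat_lit 1) (nat_lit 4) (nat_lit 2) (nat_lit 5) (nat_lit 2) (nat_lit 4) (nat_lit 241) (nat_lit 197) (nat_lit 162)))) (XT.nd (nat_lit 156) (nat_lit 0) (nat_lit 0) (XT.nd (nat_lit 78) (nat_lit 0) (nat_lit 0) (XT.lf (nat_lit 0) (nat_lit 388714271561) (nat_lit 76) (nat_lit 82902538958) (nat_lit 76) (nat_lit 71250111306) (nat_lit 1) (nat_lit 4) (nat_lit 2) (nat_lit 5) (nat_lit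 2) (nat_lit 4) (nat_lit 242) (nat_lit 197) (nat_lit 161)) (XT.lf (nat_lit 0) (nat_lit 456173347079) (nat_lit 76) (nat_lit 89672746081) (nat_lit 76) (nat_lit 78010329186) (nat_lit 1) (nat_lit 4) (nat_lit 2) (nat_lit 5) (nat_lit 2) (nat_lit 4) (nat_lit 243) (nat_lit 197) (nat_lit 160))) (XT.nd (nat_lit 78) (nat_lit 0) (nat_lit 0) (XT.lf (nat_lit 0) (nat_lit 533736887480) (nat_lit 76) (nat_lit 97464628323) (nat_lit 76) (nat_lit 85793525130) (nat_lit 1) (nat_lit 4) (nat_lit 2) (nat_lit 5) (nat_lit 2) (nat_lit 4) (nat_lit 244) (nat_lit 197) (nat_lit 159)) (XT.lf (nat_lit 0) (nat_lit 622922440294) (nat_lit 76) (nat_lit 106430635554) (nat_lit 76) (nat_lit 94751979058) (nat_lit 1) (nat_lit 4) (nat_lit 2) (nat_lit 5) (nat_lit 2) (nat_lit 4) (nat_lit 245) (nat_lit 197) (nat_lit 158)))))) (XT.nd (nat_lit 624) (nat_lit 0) (nat_lit 0) (XT.nd (nat_lit 312) (nat_lit 0) (nat_lit 0) (XT.nd (nat_lit 156)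 (nat_lit 0) (nat_lit 0) (XT.nd (nat_lit 78) (nat_lit 0) (nat_lit 0) (XT.lf (nat_lit 0) (nat_lit 725474940249) (nat_lit 76) (nat_lit 116746189655) (nat_lit 76) (nat_lit 105060965069) (nat_lit 1) (nat_lit 4) (nat_lit 2) (nat_lit 5) (nat_lit 2) (nat_lit 4) (nat_lit 246) (nat_lit 197) (nat_lit 157)) (XT.lf (nat_lit 0) (nat_lit 843400849301) (nat_lit 76) (nat_lit 128613116684) (nat_lit 76) (nat_lit 116922180715) (nat_lit 1) (nat_lit 4) (nat_lit 2) (nat_lit 5) (nat_lit 2) (nat_lit 4) (nat_lit 247) (nat_lit 197) (nat_lit 156))) (XT.nd (nat_lit 78) (nat_lit 0) (nat_lit 0) (XT.lf (nat_lit 0) (nat_lit 979007413498) (nat_lit 76) (nat_lit 142263595647) (nat_lit 76) (nat_lit 130567693260) (nat_lit 1) (nat_lit 4) (nat_lit 2) (nat_lit 5) (nat_lit 2) (nat_lit 4) (nat_lit 248) (nat_lit 197) (nat_lit 155)) (XT.lf (nat_lit 0) (nat_lit 1134947804746) (nat_lit 76) (nat_lit 157964701135) (nat_lit 76) (nat_lit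 146264480121) (nat_lit 1) (nat_lit 4) (nat_lit 2) (nat_lit 5) (nat_lit 2) (nat_lit 4) (nat_lit 249) (nat_lit 197) (nat_lit 154)))) (XT.nd (nat_lit 156) (nat_lit 0) (nat_lit 0) (XT.nd (nat_lit 78) (nat_lit 0) (nat_lit 0) (XT.lf (nat_lit 0) (nat_lit 1314273030701) (nat_lit 76) (nat_lit 176023628688) (nat_lit 76) (nat_lit 164319652348) (nat_lit 1) (nat_lit 4) (nat_lit 2) (nat_lit 5) (nat_lit 2) (nat_lit 4) (nat_lit 250) (nat_lit 197) (nat_lit 153)) (XT.lf (nat_lit 0) (nat_lit 1520491628393) (nat_lit 76) (nat_lit 196793705150) (nat_lit 76) (nat_lit 185086463309) (nat_lit 1) (nat_lit 4) (nat_lit 2) (nat_lit 5) (nat_lit 2) (nat_lit 4) (nat_lit 251) (nat_lit 197) (nat_lit 152))) (XT.nd (nat_lit 78) (nat_lit 0) (nat_lit 0) (XT.lf (nat_lit 0) (nat_lit 1757638309515) (nat_lit 76) (nat_lit 220681301582) (nat_lit 76) (nat_lit 208971220175) (nat_lit 1) (nat_lit 4) (nat_lit 2) (nat_lit 5) (nat_lit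 2) (nat_lit 4) (nat_lit 252) (nat_lit 197) (nat_lit 151)) (XT.lf (nat_lit 0) (nat_lit 2030352900438) (nat_lit 76) (nat_lit 248153784002) (nat_lit 76) (nat_lit 236441233407) (nat_lit 1) (nat_lit 4) (nat_lit 2) (nat_lit 5) (nat_lit 2) (nat_lit 4) (nat_lit 253) (nat_lit 197) (nat_lit 150))))) (XT.nd (nat_lit 27456) (nat_lit 0) (nat_lit 1292) (XT.nd (nat_lit 156) (nat_lit 0) (nat_lit 0) (XT.nd (nat_lit 78) (nat_lit 0) (nat_lit 0) (XT.lf (nat_lit 0) (nat_lit 2343971121418) (nat_lit 76) (nat_lit 279748657501) (nat_lit 76) (nat_lit 268033959785) (nat_lit 1) (nat_lit 4) (nat_lit 2) (nat_lit 5) (nat_lit 2) (nat_lit 4) (nat_lit 254) (nat_lit 197) (nat_lit 149)) (XT.lf (nat_lit 0) (nat_lit 2704628981127) (nat_lit 76) (nat_lit 316084082646) (nat_lit 76) (nat_lit 304367517869) (nat_lit 1) (nat_lit 4) (nat_lit 2) (nat_lit 5) (nat_lit 2) (nat_lit 4) (nat_lit 255) (nat_lit 197) (nat_lit 148))) (XT.nd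 (nat_lit 27222) (nat_lit 0) (nat_lit 2964) (XT.lf (nat_lit 0) (nat_lit 3119382828993) (nat_lit 76) (nat_lit 357870969930) (nat_lit 76) (nat_lit 346152781621) (nat_lit 1) (nat_lit 4) (nat_lit 2) (nat_lit 5) (nat_lit 2) (nat_lit 4) (nat_lit 256) (nat_lit 197) (nat_lit 147)) (XT.lf (nat_lit 0) (nat_lit 1748900700) (nat_lit 228) (nat_lit 845335451) (nat_lit 228) (nat_lit 845335451) (nat_lit 40) (nat_lit 4) (nat_lit 43) (nat_lit 5) (nat_lit 43) (nat_lit 4) (nat_lit 204) (nat_lit 198) (nat_lit 198)))) (XT.nd (nat_lit 156) (nat_lit 836) (nat_lit 0) (XT.nd (nat_lit 78) (nat_lit 456) (nat_lit 0) (XT.lf (nat_lit 0) (nat_lit 3189867512) (nat_lit 380) (nat_lit 3559226733) (nat_lit 0) (nat_lit 397997351) (nat_lit 35) (nat_lit 5) (nat_lit 40) (nat_lit 4) (nat_lit 35) (nat_lit 4) (nat_lit 205) (nat_lit 198) (nat_lit 197)) (XT.lf (nat_lit 0) (nat_lit 694246369) (nat_lit 456) (nat_lit 3775550894) (nat_lit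 76) (nat_lit 3027510868) (nat_lit 29) (nat_lit 5) (nat_lit 35) (nat_lit 5) (nat_lit 30) (nat_lit 4) (nat_lit 206) (nat_lit 198) (nat_lit 196))) (XT.nd (nat_lit 78) (nat_lit 456) (nat_lit 0) (XT.lf (nat_lit 0) (nat_lit 3804644291) (nat_lit 380) (nat_lit 1548856947) (nat_lit 456) (nat_lit 2582163164) (nat_lit 24) (nat_lit 5) (nat_lit 29) (nat_lit 5) (nat_lit 30) (nat_lit 4) (nat_lit 207) (nat_lit 198) (nat_lit 195)) (XT.nd (nat_lit 78) (nat_lit 152) (nat_lit 0) (XT.lf (nat_lit 0) (nat_lit 1800027303) (nat_lit 304) (nat_lit 4743293426) (nat_lit 76) (nat_lit 1926680001) (nat_lit 20) (nat_lit 5) (nat_lit 24) (nat_lit 5) (nat_lit 21) (nat_lit 4) (nat_lit 208) (nat_lit 198) (nat_lit 194)) (XT.lf (nat_lit 0) (nat_lit 3325342806) (nat_lit 152) (nat_lit 3064422726) (nat_lit 228) (nat_lit 2718274537) (nat_lit 18) (nat_lit 5) (nat_lit 20) (nat_lit 5) (nat_lit 21) (nat_lit 4) (nat_lit 209) (nat_lit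 198) (nat_lit 193))))))))
noncomputable def xc21 : XT := (XT.nd (nat_lit 1326) (nat_lit 76) (nat_lit 0) (XT.nd (nat_lit 624) (nat_lit 304) (nat_lit 0) (XT.nd (nat_lit 312) (nat_lit 304) (nat_lit 0) (XT.nd (nat_lit 156) (nat_lit 228) (nat_lit 0) (XT.nd (nat_lit 78) (nat_lit 152) (nat_lit 0) (XT.lf (nat_lit 0) (nat_lit 1454843259) (nat_lit 228) (nat_lit 7391151632) (nat_lit 76) (nat_lit 1018835761) (nat_lit 15) (nat_lit 5) (nat_lit 18) (nat_lit 5) (nat_lit 16) (nat_lit 4) (nat_lit 210) (nat_lit 198) (nat_lit 192)) (XT.lf (nat_lit 0) (nat_lit 855566146) (nat_lit 152) (nat_lit 5061550137) (nat_lit 228) (nat_lit 4830061625) (nat_lit 13) (nat_lit 5) (nat_lit 15) (nat_lit 5) (nat_lit 16) (nat_lit 4) (nat_lit 211) (nat_lit 198) (nat_lit 191))) (XT.nd (nat_lit 78) (nat_lit 228) (nat_lit 0) (XT.lf (nat_lit 0) (nat_lit 10219404991) (nat_lit 152) (nat_lit 632169813) (nat_lit 228) (nat_lit 929220650)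 (nat_lit 13) (nat_lit 5) (nat_lit 15) (nat_lit 5) (nat_lit 16) (nat_lit 4) (nat_lit 212) (nat_lit 198) (nat_lit 190)) (XT.lf (nat_lit 0) (nat_lit 3307048368) (nat_lit 228) (nat_lit 5282761353) (nat_lit 76) (nat_lit 4381077565) (nat_lit 10) (nat_lit 5) (nat_lit 13) (nat_lit 5) (nat_lit 11) (nat_lit 4) (nat_lit 213) (nat_lit 198) (nat_lit 189)))) (XT.nd (nat_lit 156) (nat_lit 228) (nat_lit 0) (XT.nd (nat_lit 78) (nat_lit 0) (nat_lit 0) (XT.lf (nat_lit 0) (nat_lit 3728500896) (nat_lit 76) (nat_lit 4213771686) (nat_lit 152) (nat_lit 6412009110) (nat_lit 9) (nat_lit 5) (nat_lit 10) (nat_lit 5) (nat_lit 11) (nat_lit 4) (nat_lit 214) (nat_lit 198) (nat_lit 188)) (XT.lf (nat_lit 0) (nat_lit 13142783557) (nat_lit 152) (nat_lit 2023095797) (nat_lit 0) (nat_lit 791620831) (nat_lit 9) (nat_lit 5) (nat_lit 11) (nat_lit 4) (nat_lit 9) (nat_lit 4) (nat_lit 215) (nat_lit 198) (nat_lit 187))) (XT.nd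 (nat_lit 78) (nat_lit 0) (nat_lit 0) (XT.lf (nat_lit 0) (nat_lit 1290290435) (nat_lit 228) (nat_lit 10108445308) (nat_lit 76) (nat_lit 6398722984) (nat_lit 6) (nat_lit 5) (nat_lit 9) (nat_lit 5) (nat_lit 7) (nat_lit 4) (nat_lit 216) (nat_lit 198) (nat_lit 186)) (XT.lf (nat_lit 0) (nat_lit 5660252999) (nat_lit 228) (nat_lit 1402476816) (nat_lit 76) (nat_lit 12860903985) (nat_lit 6) (nat_lit 5) (nat_lit 9) (nat_lit 5) (nat_lit 7) (nat_lit 4) (nat_lit 217) (nat_lit 198) (nat_lit 185))))) (XT.nd (nat_lit 312) (nat_lit 152) (nat_lit 0) (XT.nd (nat_lit 156) (nat_lit 76) (nat_lit 0) (XT.nd (nat_lit 78) (nat_lit 0) (nat_lit 0) (XT.lf (nat_lit 0) (nat_lit 8701312849) (nat_lit 76) (nat_lit 1976879848) (nat_lit 152) (nat_lit 11692309798) (nat_lit 5) (nat_lit 5) (nat_lit 6) (nat_lit 5) (nat_lit 7) (nat_lit 4) (nat_lit 218) (nat_lit 198) (nat_lit 184)) (XT.lf (nat_lit 0) (nat_lit 16384923906) (nat_lit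 152) (nat_lit 5197855108) (nat_lit 0) (nat_lit 3607748333) (nat_lit 5) (nat_lit 5) (nat_lit 7) (nat_lit 4) (nat_lit 5) (nat_lit 4) (nat_lit 219) (nat_lit 198) (nat_lit 183))) (XT.nd (nat_lit 78) (nat_lit 0) (nat_lit 0) (XT.lf (nat_lit 0) (nat_lit 4425546684) (nat_lit 76) (nat_lit 18510263325) (nat_lit 76) (nat_lit 5499575951) (nat_lit 4) (nat_lit 4) (nat_lit 5) (nat_lit 5) (nat_lit 5) (nat_lit 4) (nat_lit 220) (nat_lit 198) (nat_lit 182)) (XT.lf (nat_lit 0) (nat_lit 15546036673) (nat_lit 76) (nat_lit 14917936464) (nat_lit 76) (nat_lit 1704195349) (nat_lit 4) (nat_lit 4) (nat_lit 5) (nat_lit 5) (nat_lit 5) (nat_lit 4) (nat_lit 221) (nat_lit 198) (nat_lit 181)))) (XT.nd (nat_lit 156) (nat_lit 0) (nat_lit 0) (XT.nd (nat_lit 78) (nat_lit 76) (nat_lit 0) (XT.lf (nat_lit 0) (nat_lit 2386982947) (nat_lit 152) (nat_lit 8425385054) (nat_lit 76) (nat_lit 25655232535) (nat_lit 3) (nat_lit 5) (nat_lit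 5) (nat_lit 5) (nat_lit 4) (nat_lit 4) (nat_lit 222) (nat_lit 198) (nat_lit 180)) (XT.lf (nat_lit 0) (nat_lit 788732971) (nat_lit 76) (nat_lit 6101930661) (nat_lit 152) (nat_lit 34526300691) (nat_lit 2) (nat_lit 5) (nat_lit 3) (nat_lit 5) (nat_lit 4) (nat_lit 4) (nat_lit 223) (nat_lit 198) (nat_lit 179))) (XT.nd (nat_lit 78) (nat_lit 0) (nat_lit 0) (XT.lf (nat_lit 0) (nat_lit 11708028621) (nat_lit 76) (nat_lit 496484425) (nat_lit 152) (nat_lit 34893917049) (nat_lit 2) (nat_lit 5) (nat_lit 3) (nat_lit 5) (nat_lit 4) (nat_lit 4) (nat_lit 224) (nat_lit 198) (nat_lit 178)) (XT.nd (nat_lit 78) (nat_lit 0) (nat_lit 0) (XT.lf (nat_lit 0) (nat_lit 18360689886) (nat_lit 152) (nat_lit 29679239558) (nat_lit 0) (nat_lit 5588972154) (nat_lit 2) (nat_lit 5) (nat_lit 4) (nat_lit 4) (nat_lit 2) (nat_lit 4) (nat_lit 225) (nat_lit 198) (nat_lit 177)) (XT.lf (nat_lit 0) (nat_lit 25368944516) (nat_lit 152)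 (nat_lit 23272308904) (nat_lit 0) (nat_lit 12503751232) (nat_lit 2) (nat_lit 5) (nat_lit 4) (nat_lit 4) (nat_lit 2) (nat_lit 4) (nat_lit 226) (nat_lit 198) (nat_lit 176))))))) (XT.nd (nat_lit 624) (nat_lit 0) (nat_lit 0) (XT.nd (nat_lit 312) (nat_lit 0) (nat_lit 0) (XT.nd (nat_lit 156) (nat_lit 76) (nat_lit 0) (XT.nd (nat_lit 78) (nat_lit 0) (nat_lit 0) (XT.lf (nat_lit 0) (nat_lit 33354454498) (nat_lit 152) (nat_lit 16032316059) (nat_lit 0) (nat_lit 20407978126) (nat_lit 2) (nat_lit 5) (nat_lit 4) (nat_lit 4) (nat_lit 2) (nat_lit 4) (nat_lit 227) (nat_lit 198) (nat_lit 175)) (XT.lf (nat_lit 0) (nat_lit 42473458073) (nat_lit 152) (nat_lit 7817608991) (nat_lit 0) (nat_lit 29456300754) (nat_lit 2) (nat_lit 5) (nat_lit 4) (nat_lit 4) (nat_lit 2) (nat_lit 4) (nat_lit 228) (nat_lit 198) (nat_lit 174))) (XT.nd (nat_lit 78) (nat_lit 0) (nat_lit 0) (XT.lf (nat_lit 0) (nat_lit 1613235400) (nat_lit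 76) (nat_lit 51329933476) (nat_lit 76) (nat_lit 38251314465) (nat_lit 1) (nat_lit 4) (nat_lit 2) (nat_lit 5) (nat_lit 2) (nat_lit 4) (nat_lit 229) (nat_lit 198) (nat_lit 173)) (XT.lf (nat_lit 0) (nat_lit 12843538834) (nat_lit 76) (nat_lit 52316623512) (nat_lit 76) (nat_lit 39184559551) (nat_lit 1) (nat_lit 4) (nat_lit 2) (nat_lit 5) (nat_lit 2) (nat_lit 4) (nat_lit 230) (nat_lit 198) (nat_lit 172)))) (XT.nd (nat_lit 156) (nat_lit 0) (nat_lit 0) (XT.nd (nat_lit 78) (nat_lit 0) (nat_lit 0) (XT.lf (nat_lit 0) (nat_lit 25681363203) (nat_lit 76) (nat_lit 53484189260) (nat_lit 76) (nat_lit 40305651430) (nat_lit 1) (nat_lit 4) (nat_lit 2) (nat_lit 5) (nat_lit 2) (nat_lit 4) (nat_lit 231) (nat_lit 198) (nat_lit 171)) (XT.lf (nat_lit 0) (nat_lit 40377883333) (nat_lit 76) (nat_lit 54855474398) (nat_lit 76) (nat_lit 41636524507) (nat_lit 1) (nat_lit 4) (nat_lit 2) (nat_lit 5) (nat_lit 2) (nat_lit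 4) (nat_lit 232) (nat_lit 198) (nat_lit 170))) (XT.nd (nat_lit 78) (nat_lit 0) (nat_lit 0) (XT.lf (nat_lit 0) (nat_lit 57220639835) (nat_lit 76) (nat_lit 56457308418) (nat_lit 76) (nat_lit 43203217605) (nat_lit 1) (nat_lit 4) (nat_lit 2) (nat_lit 5) (nat_lit 2) (nat_lit 4) (nat_lit 233) (nat_lit 198) (nat_lit 169)) (XT.lf (nat_lit 0) (nat_lit 76539164900) (nat_lit 76) (nat_lit 58321031550) (nat_lit 76) (nat_lit 45036383413) (nat_lit 1) (nat_lit 4) (nat_lit 2) (nat_lit 5) (nat_lit 2) (nat_lit 4) (nat_lit 234) (nat_lit 198) (nat_lit 168))))) (XT.nd (nat_lit 312) (nat_lit 0) (nat_lit 0) (XT.nd (nat_lit 156) (nat_lit 0) (nat_lit 0) (XT.nd (nat_lit 78) (nat_lit 0) (nat_lit 0) (XT.lf (nat_lit 0) (nat_lit 98711429671) (nat_lit 76) (nat_lit 60483107943) (nat_lit 76) (nat_lit 47171888221) (nat_lit 1) (nat_lit 4) (nat_lit 2) (nat_lit 5) (nat_lit 2) (nat_lit 4) (nat_lit 235) (nat_lit 198) (nat_lit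 167)) (XT.lf (nat_lit 0) (nat_lit 124171239329) (nat_lit 76) (nat_lit 62985839092) (nat_lit 76) (nat_lit 49651513642) (nat_lit 1) (nat_lit 4) (nat_lit 2) (nat_lit 5) (nat_lit 2) (nat_lit 4) (nat_lit 236) (nat_lit 198) (nat_lit 166))) (XT.nd (nat_lit 78) (nat_lit 0) (nat_lit 0) (XT.lf (nat_lit 0) (nat_lit 153416720585) (nat_lit 76) (nat_lit 65878191474) (nat_lit 76) (nat_lit 52523774089) (nat_lit 1) (nat_lit 4) (nat_lit 2) (nat_lit 5) (nat_lit 2) (nat_lit 4) (nat_lit 237) (nat_lit 198) (nat_lit 165)) (XT.lf (nat_lit 0) (nat_lit 187020067637) (nat_lit 76) (nat_lit 69216754595) (nat_lit 76) (nat_lit 55844865960) (nat_lit 1) (nat_lit 4) (nat_lit 2) (nat_lit 5) (nat_lit 2) (nat_lit 4) (nat_lit 238) (nat_lit 198) (nat_lit 164)))) (XT.nd (nat_lit 156) (nat_lit 0) (nat_lit 0) (XT.nd (nat_lit 78) (nat_lit 0) (nat_lit 0) (XT.lf (nat_lit 0) (nat_lit 225638737274) (nat_lit 76) (nat_lit 73066848166)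 (nat_lit 76) (nat_lit 59679767141) (nat_lit 1) (nat_lit 4) (nat_lit 2) (nat_lit 5) (nat_lit 2) (nat_lit 4) (nat_lit 239) (nat_lit 198) (nat_lit 163)) (XT.lf (nat_lit 0) (nat_lit 270028312165) (nat_lit 76) (nat_lit 77503800105) (nat_lit 76) (nat_lit 64103508306) (nat_lit 1) (nat_lit 4) (nat_lit 2) (nat_lit 5) (nat_lit 2) (nat_lit 4) (nat_lit 240) (nat_lit 198) (nat_lit 162))) (XT.nd (nat_lit 78) (nat_lit 0) (nat_lit 0) (XT.lf (nat_lit 0) (nat_lit 321057283991) (nat_lit 76) (nat_lit 82614420343) (nat_lit 76) (nat_lit 69202640914) (nat_lit 1) (nat_lit 4) (nat_lit 2) (nat_lit 5) (nat_lit 2) (nat_lit 4) (nat_lit 241) (nat_lit 198) (nat_lit 161)) (XT.nd (nat_lit 78) (nat_lit 0) (nat_lit 0) (XT.lf (nat_lit 0) (nat_lit 379724045679) (nat_lit 76) (nat_lit 88498699274) (nat_lit 76) (nat_lit 75076930601) (nat_lit 1) (nat_lit 4) (nat_lit 2) (nat_lit 5) (nat_lit 2) (nat_lit 4) (nat_lit 242) (nat_lit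 198) (nat_lit 160)) (XT.lf (nat_lit 0) (nat_lit 447176425177) (nat_lit 76) (nat_lit 95271764095) (nat_lit 76) (nat_lit 81841309124) (nat_lit 1) (nat_lit 4) (nat_lit 2) (nat_lit 5) (nat_lit 2) (nat_lit 4) (nat_lit 243) (nat_lit 198) (nat_lit 159))))))))
noncomputable def xc22 : XT := (XT.nd (nat_lit 28236) (nat_lit 0) (nat_lit 228) (XT.nd (nat_lit 624) (nat_lit 0) (nat_lit 0) (XT.nd (nat_lit 312) (nat_lit 0) (nat_lit 0) (XT.nd (nat_lit 156) (nat_lit 0) (nat_lit 0) (XT.nd (nat_lit 78) (nat_lit 0) (nat_lit 0) (XT.lf (nat_lit 0) (nat_lit 524734142951) (nat_lit 76) (nat_lit 103066131292) (nat_lit 76) (nat_lit 89628123018) (nat_lit 1) (nat_lit 4) (nat_lit 2) (nat_lit 5) (nat_lit 2) (nat_lit 4) (nat_lit 244) (nat_lit 198) (nat_lit 158)) (XT.lf (nat_lit 0) (nat_lit 613914632611) (nat_lit 76) (nat_lit 112034299353) (nat_lit 76) (nat_lit 98589722989) (nat_lit 1) (nat_lit 4) (nat_lit 2) (nat_lit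 5) (nat_lit 2) (nat_lit 4) (nat_lit 245) (nat_lit 198) (nat_lit 157))) (XT.nd (nat_lit 78) (nat_lit 0) (nat_lit 0) (XT.lf (nat_lit 0) (nat_lit 716462729823) (nat_lit 76) (nat_lit 122351732436) (nat_lit 76) (nat_lit 108901444690) (nat_lit 1) (nat_lit 4) (nat_lit 2) (nat_lit 5) (nat_lit 2) (nat_lit 4) (nat_lit 246) (nat_lit 198) (nat_lit 156)) (XT.lf (nat_lit 0) (nat_lit 834384810404) (nat_lit 76) (nat_lit 134220293363) (nat_lit 76) (nat_lit 120765039198) (nat_lit 1) (nat_lit 4) (nat_lit 2) (nat_lit 5) (nat_lit 2) (nat_lit 4) (nat_lit 247) (nat_lit 198) (nat_lit 155)))) (XT.nd (nat_lit 156) (nat_lit 0) (nat_lit 0) (XT.nd (nat_lit 78) (nat_lit 0) (nat_lit 0) (XT.lf (nat_lit 0) (nat_lit 969988045495) (nat_lit 76) (nat_lit 147872193108) (nat_lit 76) (nat_lit 134412620317) (nat_lit 1) (nat_lit 4) (nat_lit 2) (nat_lit 5) (nat_lit 2) (nat_lit 4) (nat_lit 248) (nat_lit 198) (nat_lit 154)) (XT.lf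 (nat_lit 0) (nat_lit 1125925541869) (nat_lit 76) (nat_lit 163574534057) (nat_lit 76) (nat_lit 150111205940) (nat_lit 1) (nat_lit 4) (nat_lit 2) (nat_lit 5) (nat_lit 2) (nat_lit 4) (nat_lit 249) (nat_lit 198) (nat_lit 153))) (XT.nd (nat_lit 78) (nat_lit 0) (nat_lit 0) (XT.lf (nat_lit 0) (nat_lit 1305248250542) (nat_lit 76) (nat_lit 181634535925) (nat_lit 76) (nat_lit 168167942306) (nat_lit 1) (nat_lit 4) (nat_lit 2) (nat_lit 5) (nat_lit 2) (nat_lit 4) (nat_lit 250) (nat_lit 198) (nat_lit 152)) (XT.lf (nat_lit 0) (nat_lit 1511464659292) (nat_lit 76) (nat_lit 202405546573) (nat_lit 76) (nat_lit 188936113388) (nat_lit 1) (nat_lit 4) (nat_lit 2) (nat_lit 5) (nat_lit 2) (nat_lit 4) (nat_lit 251) (nat_lit 198) (nat_lit 151))))) (XT.nd (nat_lit 312) (nat_lit 0) (nat_lit 0) (XT.nd (nat_lit 156) (nat_lit 0) (nat_lit 0) (XT.nd (nat_lit 78) (nat_lit 0) (nat_lit 0) (XT.lf (nat_lit 0) (nat_lit 1748609436988)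 (nat_lit 76) (nat_lit 226293955342) (nat_lit 76) (nat_lit 212822052968) (nat_lit 1) (nat_lit 4) (nat_lit 2) (nat_lit 5) (nat_lit 2) (nat_lit 4) (nat_lit 252) (nat_lit 198) (nat_lit 150)) (XT.lf (nat_lit 0) (nat_lit 2021322372756) (nat_lit 76) (nat_lit 253767144141) (nat_lit 76) (nat_lit 240293094648) (nat_lit 1) (nat_lit 4) (nat_lit 2) (nat_lit 5) (nat_lit 2) (nat_lit 4) (nat_lit 253) (nat_lit 198) (nat_lit 149))) (XT.nd (nat_lit 78) (nat_lit 0) (nat_lit 0) (XT.lf (nat_lit 0) (nat_lit 2334939154472) (nat_lit 76) (nat_lit 285362631882) (nat_lit 76) (nat_lit 271886715328) (nat_lit 1) (nat_lit 4) (nat_lit 2) (nat_lit 5) (nat_lit 2) (nat_lit 4) (nat_lit 254) (nat_lit 198) (nat_lit 148)) (XT.lf (nat_lit 0) (nat_lit 2695595762646) (nat_lit 76) (nat_lit 321698591151) (nat_lit 76) (nat_lit 308221051066) (nat_lit 1) (nat_lit 4) (nat_lit 2) (nat_lit 5) (nat_lit 2) (nat_lit 4) (nat_lit 255) (nat_lit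 198) (nat_lit 147)))) (XT.nd (nat_lit 27144) (nat_lit 0) (nat_lit 2888) (XT.nd (nat_lit 27066) (nat_lit 0) (nat_lit 3420) (XT.lf (nat_lit 0) (nat_lit 3110348522222) (nat_lit 76) (nat_lit 363485942891) (nat_lit 76) (nat_lit 350006991039) (nat_lit 1) (nat_lit 4) (nat_lit 2) (nat_lit 5) (nat_lit 2) (nat_lit 4) (nat_lit 256) (nat_lit 198) (nat_lit 146)) (XT.lf (nat_lit 0) (nat_lit 2070420010) (nat_lit 76) (nat_lit 601319420) (nat_lit 76) (nat_lit 601319420) (nat_lit 46) (nat_lit 4) (nat_lit 47) (nat_lit 5) (nat_lit 47) (nat_lit 4) (nat_lit 202) (nat_lit 199) (nat_lit 199))) (XT.nd (nat_lit 78) (nat_lit 304) (nat_lit 0) (XT.lf (nat_lit 0) (nat_lit 3515556803) (nat_lit 228) (nat_lit 3127758674) (nat_lit 0) (nat_lit 48054063) (nat_lit 43) (nat_lit 5) (nat_lit 46) (nat_lit 4) (nat_lit 43) (nat_lit 4) (nat_lit 203) (nat_lit 199) (nat_lit 198)) (XT.lf (nat_lit 0) (nat_lit 1313661280) (nat_lit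 304) (nat_lit 3750307049) (nat_lit 76) (nat_lit 1846601943) (nat_lit 39) (nat_lit 5) (nat_lit 43) (nat_lit 5) (nat_lit 40) (nat_lit 4) (nat_lit 204) (nat_lit 199) (nat_lit 197)))))) (XT.nd (nat_lit 624) (nat_lit 684) (nat_lit 0) (XT.nd (nat_lit 312) (nat_lit 532) (nat_lit 0) (XT.nd (nat_lit 156) (nat_lit 684) (nat_lit 0) (XT.nd (nat_lit 78) (nat_lit 456) (nat_lit 0) (XT.lf (nat_lit 0) (nat_lit 2868932273) (nat_lit 304) (nat_lit 2887598988) (nat_lit 380) (nat_lit 1451245387) (nat_lit 35) (nat_lit 5) (nat_lit 39) (nat_lit 5) (nat_lit 40) (nat_lit 4) (nat_lit 205) (nat_lit 199) (nat_lit 196)) (XT.lf (nat_lit 0) (nat_lit 2615938483) (nat_lit 380) (nat_lit 63739175) (nat_lit 456) (nat_lit 4908541685) (nat_lit 29) (nat_lit 5) (nat_lit 34) (nat_lit 5) (nat_lit 35) (nat_lit 5) (nat_lit 206) (nat_lit 199) (nat_lit 195))) (XT.nd (nat_lit 78) (nat_lit 304) (nat_lit 0) (XT.lf (nat_lit 0) (nat_lit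 2251809272) (nat_lit 380) (nat_lit 4781266782) (nat_lit 456) (nat_lit 1020952956) (nat_lit 24) (nat_lit 5) (nat_lit 29) (nat_lit 5) (nat_lit 30) (nat_lit 4) (nat_lit 207) (nat_lit 199) (nat_lit 194)) (XT.lf (nat_lit 0) (nat_lit 1694683902) (nat_lit 228) (nat_lit 1242568194) (nat_lit 304) (nat_lit 5678183742) (nat_lit 20) (nat_lit 5) (nat_lit 23) (nat_lit 5) (nat_lit 24) (nat_lit 5) (nat_lit 208) (nat_lit 199) (nat_lit 193)))) (XT.nd (nat_lit 156) (nat_lit 304) (nat_lit 0) (XT.nd (nat_lit 78) (nat_lit 76) (nat_lit 0) (XT.lf (nat_lit 0) (nat_lit 782829370) (nat_lit 152) (nat_lit 6431717619) (nat_lit 228) (nat_lit 2066013464) (nat_lit 18) (nat_lit 5) (nat_lit 20) (nat_lit 5) (nat_lit 21) (nat_lit 4) (nat_lit 209) (nat_lit 199) (nat_lit 192)) (XT.lf (nat_lit 0) (nat_lit 1783213450) (nat_lit 228) (nat_lit 611903620) (nat_lit 76) (nat_lit 7665962604) (nat_lit 17) (nat_lit 5) (nat_lit 20) (nat_lit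 5) (nat_lit 18) (nat_lit 5) (nat_lit 210) (nat_lit 199) (nat_lit 191))) (XT.nd (nat_lit 78) (nat_lit 152) (nat_lit 0) (XT.lf (nat_lit 0) (nat_lit 5965975185) (nat_lit 228) (nat_lit 2695257688) (nat_lit 76) (nat_lit 2306018108) (nat_lit 15) (nat_lit 5) (nat_lit 18) (nat_lit 5) (nat_lit 16) (nat_lit 4) (nat_lit 211) (nat_lit 199) (nat_lit 190)) (XT.lf (nat_lit 0) (nat_lit 6297140097) (nat_lit 152) (nat_lit 4368288404) (nat_lit 228) (nat_lit 1355512743) (nat_lit 13) (nat_lit 5) (nat_lit 15) (nat_lit 5) (nat_lit 16) (nat_lit 4) (nat_lit 212) (nat_lit 199) (nat_lit 189))))) (XT.nd (nat_lit 312) (nat_lit 228) (nat_lit 0) (XT.nd (nat_lit 156) (nat_lit 228) (nat_lit 0) (XT.nd (nat_lit 78) (nat_lit 0) (nat_lit 0) (XT.lf (nat_lit 0) (nat_lit 2547450968) (nat_lit 228) (nat_lit 10041446089) (nat_lit 76) (nat_lit 652351015) (nat_lit 10) (nat_lit 5) (nat_lit 13) (nat_lit 5) (nat_lit 11) (nat_lit 4)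 (nat_lit 213) (nat_lit 199) (nat_lit 188)) (XT.lf (nat_lit 0) (nat_lit 6956776945) (nat_lit 228) (nat_lit 1417877726) (nat_lit 76) (nat_lit 6268950448) (nat_lit 10) (nat_lit 5) (nat_lit 13) (nat_lit 5) (nat_lit 11) (nat_lit 4) (nat_lit 214) (nat_lit 199) (nat_lit 187))) (XT.nd (nat_lit 78) (nat_lit 152) (nat_lit 0) (XT.lf (nat_lit 0) (nat_lit 8550856797) (nat_lit 76) (nat_lit 3427606756) (nat_lit 152) (nat_lit 4283440599) (nat_lit 9) (nat_lit 5) (nat_lit 10) (nat_lit 5) (nat_lit 11) (nat_lit 4) (nat_lit 215) (nat_lit 199) (nat_lit 186)) (XT.lf (nat_lit 0) (nat_lit 1646675907) (nat_lit 152) (nat_lit 16010570009) (nat_lit 152) (nat_lit 474842853) (nat_lit 7) (nat_lit 4) (nat_lit 9) (nat_lit 5) (nat_lit 9) (nat_lit 4) (nat_lit 216) (nat_lit 199) (nat_lit 185)))) (XT.nd (nat_lit 156) (nat_lit 76) (nat_lit 0) (XT.nd (nat_lit 78) (nat_lit 76) (nat_lit 0) (XT.lf (nat_lit 0) (nat_lit 3818043490)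 (nat_lit 228) (nat_lit 7927721602) (nat_lit 76) (nat_lit 8522021048) (nat_lit 6) (nat_lit 5) (nat_lit 9) (nat_lit 5) (nat_lit 7) (nat_lit 4) (nat_lit 217) (nat_lit 199) (nat_lit 184)) (XT.lf (nat_lit 0) (nat_lit 1686280596) (nat_lit 76) (nat_lit 6893312824) (nat_lit 152) (nat_lit 14156044177) (nat_lit 5) (nat_lit 5) (nat_lit 6) (nat_lit 5) (nat_lit 7) (nat_lit 4) (nat_lit 218) (nat_lit 199) (nat_lit 183))) (XT.nd (nat_lit 78) (nat_lit 76) (nat_lit 0) (XT.lf (nat_lit 0) (nat_lit 12949169489) (nat_lit 76) (nat_lit 1166520873) (nat_lit 152) (nat_lit 11454032898) (nat_lit 5) (nat_lit 5) (nat_lit 6) (nat_lit 5) (nat_lit 7) (nat_lit 4) (nat_lit 219) (nat_lit 199) (nat_lit 182)) (XT.nd (nat_lit 78) (nat_lit 76) (nat_lit 0) (XT.lf (nat_lit 0) (nat_lit 20462131636) (nat_lit 152) (nat_lit 3305886792) (nat_lit 0) (nat_lit 5063275613) (nat_lit 5) (nat_lit 5) (nat_lit 7) (nat_lit 4) (nat_lit 5) (nat_lit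 4) (nat_lit 220) (nat_lit 199) (nat_lit 181)) (XT.lf (nat_lit 0) (nat_lit 7534883691) (nat_lit 76) (nat_lit 20308346311) (nat_lit 76) (nat_lit 4732921818) (nat_lit 4) (nat_lit 4) (nat_lit 5) (nat_lit 5) (nat_lit 5) (nat_lit 4) (nat_lit 221) (nat_lit 199) (nat_lit 180))))))))
noncomputable def xc23 : XT := (XT.nd (nat_lit 1326) (nat_lit 0) (nat_lit 0) (XT.nd (nat_lit 624) (nat_lit 76) (nat_lit 0) (XT.nd (nat_lit 312) (nat_lit 0) (nat_lit 0) (XT.nd (nat_lit 156) (nat_lit 76) (nat_lit 0) (XT.nd (nat_lit 78) (nat_lit 76) (nat_lit 0) (XT.lf (nat_lit 0) (nat_lit 20004468266) (nat_lit 76) (nat_lit 16304795183) (nat_lit 76) (nat_lit 575832890) (nat_lit 4) (nat_lit 4) (nat_lit 5) (nat_lit 5) (nat_lit 5) (nat_lit 4) (nat_lit 222) (nat_lit 199) (nat_lit 179)) (XT.lf (nat_lit 0) (nat_lit 3888298988) (nat_lit 152) (nat_lit 7774811527) (nat_lit 76) (nat_lit 30178142951) (nat_lit 3) (nat_lit 5) (nat_lit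 5) (nat_lit 5) (nat_lit 4) (nat_lit 4) (nat_lit 223) (nat_lit 199) (nat_lit 178))) (XT.nd (nat_lit 78) (nat_lit 0) (nat_lit 0) (XT.lf (nat_lit 0) (nat_lit 2659381360) (nat_lit 76) (nat_lit 6301172206) (nat_lit 152) (nat_lit 38581682033) (nat_lit 2) (nat_lit 5) (nat_lit 3) (nat_lit 5) (nat_lit 4) (nat_lit 4) (nat_lit 224) (nat_lit 199) (nat_lit 177)) (XT.lf (nat_lit 0) (nat_lit 14937555308) (nat_lit 152) (nat_lit 39100542474) (nat_lit 0) (nat_lit 49107480) (nat_lit 2) (nat_lit 5) (nat_lit 4) (nat_lit 4) (nat_lit 2) (nat_lit 4) (nat_lit 225) (nat_lit 199) (nat_lit 176)))) (XT.nd (nat_lit 156) (nat_lit 0) (nat_lit 0) (XT.nd (nat_lit 78) (nat_lit 0) (nat_lit 0) (XT.lf (nat_lit 0) (nat_lit 21911399314) (nat_lit 152) (nat_lit 32753136196) (nat_lit 0) (nat_lit 6941668397) (nat_lit 2) (nat_lit 5) (nat_lit 4) (nat_lit 4) (nat_lit 2) (nat_lit 4) (nat_lit 226) (nat_lit 199) (nat_lit 175)) (XT.lf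 (nat_lit 0) (nat_lit 29866987015) (nat_lit 152) (nat_lit 25564903678) (nat_lit 0) (nat_lit 14826575152) (nat_lit 2) (nat_lit 5) (nat_lit 4) (nat_lit 4) (nat_lit 2) (nat_lit 4) (nat_lit 227) (nat_lit 199) (nat_lit 174))) (XT.nd (nat_lit 78) (nat_lit 0) (nat_lit 0) (XT.lf (nat_lit 0) (nat_lit 38959971214) (nat_lit 152) (nat_lit 17395205589) (nat_lit 0) (nat_lit 23858097658) (nat_lit 2) (nat_lit 5) (nat_lit 4) (nat_lit 4) (nat_lit 2) (nat_lit 4) (nat_lit 228) (nat_lit 199) (nat_lit 173)) (XT.lf (nat_lit 0) (nat_lit 49368258123) (nat_lit 152) (nat_lit 8084200009) (nat_lit 0) (nat_lit 34212939618) (nat_lit 2) (nat_lit 5) (nat_lit 4) (nat_lit 4) (nat_lit 2) (nat_lit 4) (nat_lit 229) (nat_lit 199) (nat_lit 172))))) (XT.nd (nat_lit 312) (nat_lit 0) (nat_lit 0) (XT.nd (nat_lit 156) (nat_lit 0) (nat_lit 0) (XT.nd (nat_lit 78) (nat_lit 0) (nat_lit 0) (XT.lf (nat_lit 0) (nat_lit 2684578392) (nat_lit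 76) (nat_lit 58675473922) (nat_lit 76) (nat_lit 43473681547) (nat_lit 1) (nat_lit 4) (nat_lit 2) (nat_lit 5) (nat_lit 2) (nat_lit 4) (nat_lit 230) (nat_lit 199) (nat_lit 171)) (XT.lf (nat_lit 0) (nat_lit 15491250252) (nat_lit 76) (nat_lit 59856334799) (nat_lit 76) (nat_lit 44614130364) (nat_lit 1) (nat_lit 4) (nat_lit 2) (nat_lit 5) (nat_lit 2) (nat_lit 4) (nat_lit 231) (nat_lit 199) (nat_lit 170))) (XT.nd (nat_lit 78) (nat_lit 0) (nat_lit 0) (XT.lf (nat_lit 0) (nat_lit 30160681243) (nat_lit 76) (nat_lit 61239180919) (nat_lit 76) (nat_lit 45961835562) (nat_lit 1) (nat_lit 4) (nat_lit 2) (nat_lit 5) (nat_lit 2) (nat_lit 4) (nat_lit 232) (nat_lit 199) (nat_lit 169)) (XT.lf (nat_lit 0) (nat_lit 46979881972) (nat_lit 76) (nat_lit 62851067967) (nat_lit 76) (nat_lit 47543165286) (nat_lit 1) (nat_lit 4) (nat_lit 2) (nat_lit 5) (nat_lit 2) (nat_lit 4) (nat_lit 233) (nat_lit 199) (nat_lit 168))))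 (XT.nd (nat_lit 156) (nat_lit 0) (nat_lit 0) (XT.nd (nat_lit 78) (nat_lit 0) (nat_lit 0) (XT.lf (nat_lit 0) (nat_lit 66277923756) (nat_lit 76) (nat_lit 64723532862) (nat_lit 76) (nat_lit 49389058595) (nat_lit 1) (nat_lit 4) (nat_lit 2) (nat_lit 5) (nat_lit 2) (nat_lit 4) (nat_lit 234) (nat_lit 199) (nat_lit 167)) (XT.lf (nat_lit 0) (nat_lit 88432376980) (nat_lit 76) (nat_lit 66893210788) (nat_lit 76) (nat_lit 51535630795) (nat_lit 1) (nat_lit 4) (nat_lit 2) (nat_lit 5) (nat_lit 2) (nat_lit 4) (nat_lit 235) (nat_lit 199) (nat_lit 166))) (XT.nd (nat_lit 78) (nat_lit 0) (nat_lit 0) (XT.lf (nat_lit 0) (nat_lit 113876698335) (nat_lit 76) (nat_lit 69402551966) (nat_lit 76) (nat_lit 54024880036) (nat_lit 1) (nat_lit 4) (nat_lit 2) (nat_lit 5) (nat_lit 2) (nat_lit 4) (nat_lit 236) (nat_lit 199) (nat_lit 165)) (XT.nd (nat_lit 78) (nat_lit 0) (nat_lit 0) (XT.lf (nat_lit 0) (nat_lit 143108711501)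 (nat_lit 76) (nat_lit 72300652200) (nat_lit 76) (nat_lit 56905509021) (nat_lit 1) (nat_lit 4) (nat_lit 2) (nat_lit 5) (nat_lit 2) (nat_lit 4) (nat_lit 237) (nat_lit 199) (nat_lit 164)) (XT.lf (nat_lit 0) (nat_lit 176700347171) (nat_lit 76) (nat_lit 75644213451) (nat_lit 76) (nat_lit 60233877882) (nat_lit 1) (nat_lit 4) (nat_lit 2) (nat_lit 5) (nat_lit 2) (nat_lit 4) (nat_lit 238) (nat_lit 199) (nat_lit 163))))))) (XT.nd (nat_lit 624) (nat_lit 0) (nat_lit 0) (XT.nd (nat_lit 312) (nat_lit 0) (nat_lit 0) (XT.nd (nat_lit 156) (nat_lit 0) (nat_lit 0) (XT.nd (nat_lit 78) (nat_lit 0) (nat_lit 0) (XT.lf (nat_lit 0) (nat_lit 215308832998) (nat_lit 76) (nat_lit 79498653224) (nat_lit 76) (nat_lit 64075106880) (nat_lit 1) (nat_lit 4) (nat_lit 2) (nat_lit 5) (nat_lit 2) (nat_lit 4) (nat_lit 239) (nat_lit 199) (nat_lit 162)) (XT.lf (nat_lit 0) (nat_lit 259689552401) (nat_lit 76) (nat_lit 83939384469)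 (nat_lit 76) (nat_lit 68504350496) (nat_lit 1) (nat_lit 4) (nat_lit 2) (nat_lit 5) (nat_lit 2) (nat_lit 4) (nat_lit 240) (nat_lit 199) (nat_lit 161))) (XT.nd (nat_lit 78) (nat_lit 0) (nat_lit 0) (XT.lf (nat_lit 0) (nat_lit 310710823803) (nat_lit 76) (nat_lit 89053291059) (nat_lit 76) (nat_lit 73608267842) (nat_lit 1) (nat_lit 4) (nat_lit 2) (nat_lit 5) (nat_lit 2) (nat_lit 4) (nat_lit 241) (nat_lit 199) (nat_lit 160)) (XT.lf (nat_lit 0) (nat_lit 369370889470) (nat_lit 76) (nat_lit 94940427688) (nat_lit 76) (nat_lit 79486718173) (nat_lit 1) (nat_lit 4) (nat_lit 2) (nat_lit 5) (nat_lit 2) (nat_lit 4) (nat_lit 242) (nat_lit 199) (nat_lit 159)))) (XT.nd (nat_lit 156) (nat_lit 0) (nat_lit 0) (XT.nd (nat_lit 78) (nat_lit 0) (nat_lit 0) (XT.lf (nat_lit 0) (nat_lit 436817446341) (nat_lit 76) (nat_lit 101715977464) (nat_lit 76) (nat_lit 86254714645) (nat_lit 1) (nat_lit 4) (nat_lit 2) (nat_lit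 5) (nat_lit 2) (nat_lit 4) (nat_lit 243) (nat_lit 199) (nat_lit 158)) (XT.lf (nat_lit 0) (nat_lit 514370100961) (nat_lit 76) (nat_lit 109512505491) (nat_lit 76) (nat_lit 94044674583) (nat_lit 1) (nat_lit 4) (nat_lit 2) (nat_lit 5) (nat_lit 2) (nat_lit 4) (nat_lit 244) (nat_lit 199) (nat_lit 157))) (XT.nd (nat_lit 78) (nat_lit 0) (nat_lit 0) (XT.lf (nat_lit 0) (nat_lit 603546187879) (nat_lit 76) (nat_lit 118482552535) (nat_lit 76) (nat_lit 103009010245) (nat_lit 1) (nat_lit 4) (nat_lit 2) (nat_lit 5) (nat_lit 2) (nat_lit 4) (nat_lit 245) (nat_lit 199) (nat_lit 156)) (XT.lf (nat_lit 0) (nat_lit 706090456620) (nat_lit 76) (nat_lit 128801619516) (nat_lit 76) (nat_lit 113323110807) (nat_lit 1) (nat_lit 4) (nat_lit 2) (nat_lit 5) (nat_lit 2) (nat_lit 4) (nat_lit 246) (nat_lit 199) (nat_lit 155))))) (XT.nd (nat_lit 312) (nat_lit 0) (nat_lit 0) (XT.nd (nat_lit 156) (nat_lit 0) (nat_lit 0) (XT.nd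 (nat_lit 78) (nat_lit 0) (nat_lit 0) (XT.lf (nat_lit 0) (nat_lit 824009208095) (nat_lit 76) (nat_lit 140671601224) (nat_lit 76) (nat_lit 125188773889) (nat_lit 1) (nat_lit 4) (nat_lit 2) (nat_lit 5) (nat_lit 2) (nat_lit 4) (nat_lit 247) (nat_lit 199) (nat_lit 154)) (XT.lf (nat_lit 0) (nat_lit 959609548311) (nat_lit 76) (nat_lit 154324736430) (nat_lit 76) (nat_lit 138838153769) (nat_lit 1) (nat_lit 4) (nat_lit 2) (nat_lit 5) (nat_lit 2) (nat_lit 4) (nat_lit 248) (nat_lit 199) (nat_lit 153))) (XT.nd (nat_lit 78) (nat_lit 0) (nat_lit 0) (XT.lf (nat_lit 0) (nat_lit 1115544527403) (nat_lit 76) (nat_lit 170028151694) (nat_lit 76) (nat_lit 154538303531) (nat_lit 1) (nat_lit 4) (nat_lit 2) (nat_lit 5) (nat_lit 2) (nat_lit 4) (nat_lit 249) (nat_lit 199) (nat_lit 152)) (XT.lf (nat_lit 0) (nat_lit 1294865047135) (nat_lit 76) (nat_lit 188089087748) (nat_lit 76) (nat_lit 172596400018) (nat_lit 1)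 (nat_lit 4) (nat_lit 2) (nat_lit 5) (nat_lit 2) (nat_lit 4) (nat_lit 250) (nat_lit 199) (nat_lit 151)))) (XT.nd (nat_lit 156) (nat_lit 0) (nat_lit 0) (XT.nd (nat_lit 78) (nat_lit 0) (nat_lit 0) (XT.lf (nat_lit 0) (nat_lit 1501079552458) (nat_lit 76) (nat_lit 208860910733) (nat_lit 76) (nat_lit 193365753815) (nat_lit 1) (nat_lit 4) (nat_lit 2) (nat_lit 5) (nat_lit 2) (nat_lit 4) (nat_lit 251) (nat_lit 199) (nat_lit 150)) (XT.lf (nat_lit 0) (nat_lit 1738222675000) (nat_lit 76) (nat_lit 232750025880) (nat_lit 76) (nat_lit 217252721843) (nat_lit 1) (nat_lit 4) (nat_lit 2) (nat_lit 5) (nat_lit 2) (nat_lit 4) (nat_lit 252) (nat_lit 199) (nat_lit 149))) (XT.nd (nat_lit 78) (nat_lit 0) (nat_lit 0) (XT.lf (nat_lit 0) (nat_lit 2010934171504) (nat_lit 76) (nat_lit 260223828922) (nat_lit 76) (nat_lit 244724657824) (nat_lit 1) (nat_lit 4) (nat_lit 2) (nat_lit 5) (nat_lit 2) (nat_lit 4) (nat_lit 253)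 (nat_lit 199) (nat_lit 148)) (XT.nd (nat_lit 78) (nat_lit 0) (nat_lit 0) (XT.lf (nat_lit 0) (nat_lit 2324549701685) (nat_lit 76) (nat_lit 291819850788) (nat_lit 76) (nat_lit 276319056158) (nat_lit 1) (nat_lit 4) (nat_lit 2) (nat_lit 5) (nat_lit 2) (nat_lit 4) (nat_lit 254) (nat_lit 199) (nat_lit 147)) (XT.lf (nat_lit 0) (nat_lit 2685205221569) (nat_lit 76) (nat_lit 328156274513) (nat_lit 76) (nat_lit 312654068116) (nat_lit 1) (nat_lit 4) (nat_lit 2) (nat_lit 5) (nat_lit 2) (nat_lit 4) (nat_lit 255) (nat_lit 199) (nat_lit 146))))))))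
noncomputable def xc24 : XT := (XT.nd (nat_lit 28080) (nat_lit 0) (nat_lit 0) (XT.nd (nat_lit 27456) (nat_lit 0) (nat_lit 684) (XT.nd (nat_lit 27144) (nat_lit 0) (nat_lit 2128) (XT.nd (nat_lit 26988) (nat_lit 0) (nat_lit 3344) (XT.nd (nat_lit 26910) (nat_lit 0) (nat_lit 3572) (XT.lf (nat_lit 0) (nat_lit 3099957034806) (nat_lit 76) (nat_lit 369944030127) (nat_lit 76) (nat_lit 354440596108) (nat_lit 1) (nat_lit 4) (nat_lit 2) (nat_lit 5) (nat_lit 2) (nat_lit 4) (nat_lit 256) (nat_lit 199) (nat_lit 145)) (XT.lf (nat_lit 0) (nat_lit 1073741823) (nat_lit 0) (nat_lit 0) (nat_lit 0) (nat_lit 0) (nat_lit 48) (nat_lit 0) (nat_lit 1) (nat_lit 0) (nat_lit 1) (nat_lit 0) (nat_lit 200) (nat_lit 200) (nat_lit 200))) (XT.nd (nat_lit 78) (nat_lit 152) (nat_lit 0) (XT.lf (nat_lit 0) (nat_lit 4645017134) (nat_lit 76) (nat_lit 1491227317) (nat_lit 0) (nat_lit 338378731) (nat_lit 47) (nat_lit 5) (nat_lit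 48) (nat_lit 0) (nat_lit 47) (nat_lit 4) (nat_lit 201) (nat_lit 200) (nat_lit 199)) (XT.lf (nat_lit 0) (nat_lit 2547195100) (nat_lit 152) (nat_lit 2753375552) (nat_lit 76) (nat_lit 1277786607) (nat_lit 45) (nat_lit 5) (nat_lit 47) (nat_lit 5) (nat_lit 46) (nat_lit 4) (nat_lit 202) (nat_lit 200) (nat_lit 198)))) (XT.nd (nat_lit 156) (nat_lit 760) (nat_lit 0) (XT.nd (nat_lit 78) (nat_lit 228) (nat_lit 0) (XT.lf (nat_lit 0) (nat_lit 79253758) (nat_lit 228) (nat_lit 3840122268) (nat_lit 76) (nat_lit 2836328699) (nat_lit 42) (nat_lit 5) (nat_lit 45) (nat_lit 5) (nat_lit 43) (nat_lit 5) (nat_lit 203) (nat_lit 200) (nat_lit 197)) (XT.lf (nat_lit 0) (nat_lit 2127754223) (nat_lit 228) (nat_lit 1889314265) (nat_lit 304) (nat_lit 2987413384) (nat_lit 39) (nat_lit 5) (nat_lit 42) (nat_lit 5) (nat_lit 43) (nat_lit 5) (nat_lit 204) (nat_lit 200) (nat_lit 196))) (XT.nd (nat_lit 78) (nat_lit 380) (nat_lit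 0) (XT.lf (nat_lit 0) (nat_lit 725319937) (nat_lit 380) (nat_lit 5881364224) (nat_lit 76) (nat_lit 726207415) (nat_lit 34) (nat_lit 5) (nat_lit 39) (nat_lit 5) (nat_lit 35) (nat_lit 5) (nat_lit 205) (nat_lit 200) (nat_lit 195)) (XT.lf (nat_lit 0) (nat_lit 700146761) (nat_lit 380) (nat_lit 3776298835) (nat_lit 456) (nat_lit 3261657370) (nat_lit 29) (nat_lit 5) (nat_lit 34) (nat_lit 5) (nat_lit 35) (nat_lit 5) (nat_lit 206) (nat_lit 200) (nat_lit 194))))) (XT.nd (nat_lit 312) (nat_lit 532) (nat_lit 0) (XT.nd (nat_lit 156) (nat_lit 456) (nat_lit 0) (XT.nd (nat_lit 78) (nat_lit 380) (nat_lit 0) (XT.lf (nat_lit 0) (nat_lit 214549906) (nat_lit 456) (nat_lit 93651015) (nat_lit 76) (nat_lit 7927316287) (nat_lit 28) (nat_lit 5) (nat_lit 34) (nat_lit 5) (nat_lit 29) (nat_lit 5) (nat_lit 207) (nat_lit 200) (nat_lit 193)) (XT.lf (nat_lit 0) (nat_lit 3856321262) (nat_lit 456) (nat_lit 1175475811)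 (nat_lit 76) (nat_lit 3786481380) (nat_lit 23) (nat_lit 5) (nat_lit 29) (nat_lit 5) (nat_lit 24) (nat_lit 5) (nat_lit 208) (nat_lit 200) (nat_lit 192))) (XT.nd (nat_lit 78) (nat_lit 228) (nat_lit 0) (XT.lf (nat_lit 0) (nat_lit 6954816286) (nat_lit 228) (nat_lit 866619948) (nat_lit 304) (nat_lit 1688758456) (nat_lit 20) (nat_lit 5) (nat_lit 23) (nat_lit 5) (nat_lit 24) (nat_lit 5) (nat_lit 209) (nat_lit 200) (nat_lit 191)) (XT.lf (nat_lit 0) (nat_lit 1875853258) (nat_lit 228) (nat_lit 4530017331) (nat_lit 76) (nat_lit 3906840100) (nat_lit 17) (nat_lit 5) (nat_lit 20) (nat_lit 5) (nat_lit 18) (nat_lit 5) (nat_lit 210) (nat_lit 200) (nat_lit 190)))) (XT.nd (nat_lit 156) (nat_lit 228) (nat_lit 0) (XT.nd (nat_lit 78) (nat_lit 152) (nat_lit 0) (XT.lf (nat_lit 0) (nat_lit 4005584291) (nat_lit 152) (nat_lit 1735285426) (nat_lit 228) (nat_lit 5504704202) (nat_lit 15) (nat_lit 5) (nat_lit 17)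 (nat_lit 5) (nat_lit 18) (nat_lit 5) (nat_lit 211) (nat_lit 200) (nat_lit 189)) (XT.lf (nat_lit 0) (nat_lit 1357444892) (nat_lit 152) (nat_lit 8782126414) (nat_lit 228) (nat_lit 2184859363) (nat_lit 13) (nat_lit 5) (nat_lit 15) (nat_lit 5) (nat_lit 16) (nat_lit 4) (nat_lit 212) (nat_lit 200) (nat_lit 188))) (XT.nd (nat_lit 78) (nat_lit 152) (nat_lit 0) (XT.lf (nat_lit 0) (nat_lit 1535400107) (nat_lit 228) (nat_lit 2347856666) (nat_lit 76) (nat_lit 9681902490) (nat_lit 12) (nat_lit 5) (nat_lit 15) (nat_lit 5) (nat_lit 13) (nat_lit 5) (nat_lit 213) (nat_lit 200) (nat_lit 187)) (XT.lf (nat_lit 0) (nat_lit 5671891502) (nat_lit 228) (nat_lit 7497838802) (nat_lit 76) (nat_lit 1820387361) (nat_lit 10) (nat_lit 5) (nat_lit 13) (nat_lit 5) (nat_lit 11) (nat_lit 4) (nat_lit 214) (nat_lit 200) (nat_lit 186)))))) (XT.nd (nat_lit 624) (nat_lit 228) (nat_lit 0) (XT.nd (nat_lit 312) (nat_lit 152) (nat_lit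 0) (XT.nd (nat_lit 156) (nat_lit 228) (nat_lit 0) (XT.nd (nat_lit 78) (nat_lit 0) (nat_lit 0) (XT.lf (nat_lit 0) (nat_lit 1990605000) (nat_lit 76) (nat_lit 8442191183) (nat_lit 152) (nat_lit 6197156629) (nat_lit 9) (nat_lit 5) (nat_lit 10) (nat_lit 5) (nat_lit 11) (nat_lit 4) (nat_lit 215) (nat_lit 200) (nat_lit 185)) (XT.lf (nat_lit 0) (nat_lit 13056986841) (nat_lit 76) (nat_lit 2869361620) (nat_lit 152) (nat_lit 2589193076) (nat_lit 9) (nat_lit 5) (nat_lit 10) (nat_lit 5) (nat_lit 11) (nat_lit 4) (nat_lit 216) (nat_lit 200) (nat_lit 184))) (XT.nd (nat_lit 78) (nat_lit 0) (nat_lit 0) (XT.lf (nat_lit 0) (nat_lit 1510994698) (nat_lit 228) (nat_lit 15730317462) (nat_lit 76) (nat_lit 3438343697) (nat_lit 6) (nat_lit 5) (nat_lit 9) (nat_lit 5) (nat_lit 7) (nat_lit 4) (nat_lit 217) (nat_lit 200) (nat_lit 183)) (XT.lf (nat_lit 0) (nat_lit 6155747737) (nat_lit 228) (nat_lit 6321423886) (nat_lit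 76) (nat_lit 10680089511) (nat_lit 6) (nat_lit 5) (nat_lit 9) (nat_lit 5) (nat_lit 7) (nat_lit 4) (nat_lit 218) (nat_lit 200) (nat_lit 182)))) (XT.nd (nat_lit 156) (nat_lit 76) (nat_lit 0) (XT.nd (nat_lit 78) (nat_lit 0) (nat_lit 0) (XT.lf (nat_lit 0) (nat_lit 4498057218) (nat_lit 76) (nat_lit 6964795876) (nat_lit 152) (nat_lit 14547169611) (nat_lit 5) (nat_lit 5) (nat_lit 6) (nat_lit 5) (nat_lit 7) (nat_lit 4) (nat_lit 219) (nat_lit 200) (nat_lit 181)) (XT.lf (nat_lit 0) (nat_lit 17116618420) (nat_lit 76) (nat_lit 504530420) (nat_lit 152) (nat_lit 11665806361) (nat_lit 5) (nat_lit 5) (nat_lit 6) (nat_lit 5) (nat_lit 7) (nat_lit 4) (nat_lit 220) (nat_lit 200) (nat_lit 180))) (XT.nd (nat_lit 78) (nat_lit 76) (nat_lit 0) (XT.lf (nat_lit 0) (nat_lit 24756002718) (nat_lit 152) (nat_lit 1781621167) (nat_lit 0) (nat_lit 6514158281) (nat_lit 5) (nat_lit 5) (nat_lit 7) (nat_lit 4) (nat_lit 5)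 (nat_lit 4) (nat_lit 221) (nat_lit 200) (nat_lit 179)) (XT.lf (nat_lit 0) (nat_lit 10514269368) (nat_lit 76) (nat_lit 22614744561) (nat_lit 76) (nat_lit 4239388994) (nat_lit 4) (nat_lit 4) (nat_lit 5) (nat_lit 5) (nat_lit 5) (nat_lit 4) (nat_lit 222) (nat_lit 200) (nat_lit 178))))) (XT.nd (nat_lit 312) (nat_lit 76) (nat_lit 0) (XT.nd (nat_lit 156) (nat_lit 76) (nat_lit 0) (XT.nd (nat_lit 78) (nat_lit 0) (nat_lit 0) (XT.lf (nat_lit 0) (nat_lit 365065100) (nat_lit 152) (nat_lit 17732116793) (nat_lit 76) (nat_lit 24238051117) (nat_lit 3) (nat_lit 5) (nat_lit 5) (nat_lit 5) (nat_lit 4) (nat_lit 4) (nat_lit 223) (nat_lit 200) (nat_lit 177)) (XT.lf (nat_lit 0) (nat_lit 5336019147) (nat_lit 152) (nat_lit 7493485971) (nat_lit 76) (nat_lit 35214978219) (nat_lit 3) (nat_lit 5) (nat_lit 5) (nat_lit 5) (nat_lit 4) (nat_lit 4) (nat_lit 224) (nat_lit 200) (nat_lit 176))) (XT.nd (nat_lit 78) (nat_lit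 0) (nat_lit 0) (XT.lf (nat_lit 0) (nat_lit 4383308181) (nat_lit 76) (nat_lit 6704912835) (nat_lit 152) (nat_lit 43519358715) (nat_lit 2) (nat_lit 5) (nat_lit 3) (nat_lit 5) (nat_lit 4) (nat_lit 4) (nat_lit 225) (nat_lit 200) (nat_lit 175)) (XT.lf (nat_lit 0) (nat_lit 17870889425) (nat_lit 152) (nat_lit 43767372284) (nat_lit 0) (nat_lit 503734837) (nat_lit 2) (nat_lit 5) (nat_lit 4) (nat_lit 4) (nat_lit 2) (nat_lit 4) (nat_lit 226) (nat_lit 200) (nat_lit 174)))) (XT.nd (nat_lit 156) (nat_lit 76) (nat_lit 0) (XT.nd (nat_lit 78) (nat_lit 0) (nat_lit 0) (XT.lf (nat_lit 0) (nat_lit 25800457751) (nat_lit 152) (nat_lit 36624148746) (nat_lit 0) (nat_lit 8371841470) (nat_lit 2) (nat_lit 5) (nat_lit 4) (nat_lit 4) (nat_lit 2) (nat_lit 4) (nat_lit 227) (nat_lit 200) (nat_lit 173)) (XT.lf (nat_lit 0) (nat_lit 34870816406) (nat_lit 152) (nat_lit 28493588900) (nat_lit 0) (nat_lit 17388755175) (nat_lit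 2) (nat_lit 5) (nat_lit 4) (nat_lit 4) (nat_lit 2) (nat_lit 4) (nat_lit 228) (nat_lit 200) (nat_lit 172))) (XT.nd (nat_lit 78) (nat_lit 76) (nat_lit 0) (XT.lf (nat_lit 0) (nat_lit 45259428930) (nat_lit 152) (nat_lit 19216616575) (nat_lit 0) (nat_lit 27730893830) (nat_lit 2) (nat_lit 5) (nat_lit 4) (nat_lit 4) (nat_lit 2) (nat_lit 4) (nat_lit 229) (nat_lit 200) (nat_lit 171)) (XT.nd (nat_lit 78) (nat_lit 76) (nat_lit 0) (XT.lf (nat_lit 0) (nat_lit 57169550785) (nat_lit 152) (nat_lit 8611725791) (nat_lit 0) (nat_lit 39600603624) (nat_lit 2) (nat_lit 5) (nat_lit 4) (nat_lit 4) (nat_lit 2) (nat_lit 4) (nat_lit 230) (nat_lit 200) (nat_lit 170)) (XT.lf (nat_lit 0) (nat_lit 3714378710) (nat_lit 76) (nat_lit 67209158280) (nat_lit 76) (nat_lit 49605070197) (nat_lit 1) (nat_lit 4) (nat_lit 2) (nat_lit 5) (nat_lit 2) (nat_lit 4) (nat_lit 231) (nat_lit 200) (nat_lit 169))))))))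
noncomputable def xc25 : XT := (XT.nd (nat_lit 1326) (nat_lit 0) (nat_lit 0) (XT.nd (nat_lit 624) (nat_lit 0) (nat_lit 0) (XT.nd (nat_lit 312) (nat_lit 0) (nat_lit 0) (XT.nd (nat_lit 156) (nat_lit 0) (nat_lit 0) (XT.nd (nat_lit 78) (nat_lit 0) (nat_lit 0) (XT.lf (nat_lit 0) (nat_lit 18360253929) (nat_lit 76) (nat_lit 68602057428) (nat_lit 76) (nat_lit 50967412021) (nat_lit 1) (nat_lit 4) (nat_lit 2) (nat_lit 5) (nat_lit 2) (nat_lit 4) (nat_lit 232) (nat_lit 200) (nat_lit 168)) (XT.lf (nat_lit 0) (nat_lit 35158971377) (nat_lit 76) (nat_lit 70222686239) (nat_lit 76) (nat_lit 52561469246) (nat_lit 1) (nat_lit 4) (nat_lit 2) (nat_lit 5) (nat_lit 2) (nat_lit 4) (nat_lit 233) (nat_lit 200) (nat_lit 167))) (XT.nd (nat_lit 78) (nat_lit 0) (nat_lit 0) (XT.lf (nat_lit 0) (nat_lit 54439201613) (nat_lit 76) (nat_lit 72102752667) (nat_lit 76) (nat_lit 54418429948) (nat_lit 1) (nat_lit 4) (nat_lit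 2) (nat_lit 5) (nat_lit 2) (nat_lit 4) (nat_lit 234) (nat_lit 200) (nat_lit 166)) (XT.lf (nat_lit 0) (nat_lit 76578166533) (nat_lit 76) (nat_lit 74279040622) (nat_lit 76) (nat_lit 56574625967) (nat_lit 1) (nat_lit 4) (nat_lit 2) (nat_lit 5) (nat_lit 2) (nat_lit 4) (nat_lit 235) (nat_lit 200) (nat_lit 165)))) (XT.nd (nat_lit 156) (nat_lit 0) (nat_lit 0) (XT.nd (nat_lit 78) (nat_lit 0) (nat_lit 0) (XT.lf (nat_lit 0) (nat_lit 102009019799) (nat_lit 76) (nat_lit 76794129651) (nat_lit 76) (nat_lit 59072243746) (nat_lit 1) (nat_lit 4) (nat_lit 2) (nat_lit 5) (nat_lit 2) (nat_lit 4) (nat_lit 236) (nat_lit 200) (nat_lit 164)) (XT.lf (nat_lit 0) (nat_lit 131229321583) (nat_lit 76) (nat_lit 79697228016) (nat_lit 76) (nat_lit 61960149721) (nat_lit 1) (nat_lit 4) (nat_lit 2) (nat_lit 5) (nat_lit 2) (nat_lit 4) (nat_lit 237) (nat_lit 200) (nat_lit 163))) (XT.nd (nat_lit 78) (nat_lit 0) (nat_lit 0)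 (XT.lf (nat_lit 0) (nat_lit 164810773442) (nat_lit 76) (nat_lit 83045135469) (nat_lit 76) (nat_lit 65294846400) (nat_lit 1) (nat_lit 4) (nat_lit 2) (nat_lit 5) (nat_lit 2) (nat_lit 4) (nat_lit 238) (nat_lit 200) (nat_lit 162)) (XT.lf (nat_lit 0) (nat_lit 203410403781) (nat_lit 76) (nat_lit 86903354547) (nat_lit 76) (nat_lit 69141577848) (nat_lit 1) (nat_lit 4) (nat_lit 2) (nat_lit 5) (nat_lit 2) (nat_lit 4) (nat_lit 239) (nat_lit 200) (nat_lit 161))))) (XT.nd (nat_lit 312) (nat_lit 0) (nat_lit 0) (XT.nd (nat_lit 156) (nat_lit 0) (nat_lit 0) (XT.nd (nat_lit 78) (nat_lit 0) (nat_lit 0) (XT.lf (nat_lit 0) (nat_lit 247783422760) (nat_lit 76) (nat_lit 91347372145) (nat_lit 76) (nat_lit 73575606203) (nat_lit 1) (nat_lit 4) (nat_lit 2) (nat_lit 5) (nat_lit 2) (nat_lit 4) (nat_lit 240) (nat_lit 200) (nat_lit 160)) (XT.lf (nat_lit 0) (nat_lit 298797998142) (nat_lit 76) (nat_lit 96464136433) (nat_lit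 76) (nat_lit 78683684192) (nat_lit 1) (nat_lit 4) (nat_lit 2) (nat_lit 5) (nat_lit 2) (nat_lit 4) (nat_lit 241) (nat_lit 200) (nat_lit 159))) (XT.nd (nat_lit 78) (nat_lit 0) (nat_lit 0) (XT.lf (nat_lit 0) (nat_lit 357452241183) (nat_lit 76) (nat_lit 102353758016) (nat_lit 76) (nat_lit 84565752472) (nat_lit 1) (nat_lit 4) (nat_lit 2) (nat_lit 5) (nat_lit 2) (nat_lit 4) (nat_lit 242) (nat_lit 200) (nat_lit 158)) (XT.lf (nat_lit 0) (nat_lit 424893734899) (nat_lit 76) (nat_lit 109131468622) (nat_lit 76) (nat_lit 91336894989) (nat_lit 1) (nat_lit 4) (nat_lit 2) (nat_lit 5) (nat_lit 2) (nat_lit 4) (nat_lit 243) (nat_lit 200) (nat_lit 157)))) (XT.nd (nat_lit 156) (nat_lit 0) (nat_lit 0) (XT.nd (nat_lit 78) (nat_lit 0) (nat_lit 0) (XT.lf (nat_lit 0) (nat_lit 502441986778) (nat_lit 76) (nat_lit 116929875632) (nat_lit 76) (nat_lit 99129590616) (nat_lit 1) (nat_lit 4) (nat_lit 2) (nat_lit 5) (nat_lit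 2) (nat_lit 4) (nat_lit 244) (nat_lit 200) (nat_lit 156)) (XT.lf (nat_lit 0) (nat_lit 591614245223) (nat_lit 76) (nat_lit 125901556574) (nat_lit 76) (nat_lit 108096305139) (nat_lit 1) (nat_lit 4) (nat_lit 2) (nat_lit 5) (nat_lit 2) (nat_lit 4) (nat_lit 245) (nat_lit 200) (nat_lit 155))) (XT.nd (nat_lit 78) (nat_lit 0) (nat_lit 0) (XT.lf (nat_lit 0) (nat_lit 694155184859) (nat_lit 76) (nat_lit 136222044337) (nat_lit 76) (nat_lit 118412474276) (nat_lit 1) (nat_lit 4) (nat_lit 2) (nat_lit 5) (nat_lit 2) (nat_lit 4) (nat_lit 246) (nat_lit 200) (nat_lit 154)) (XT.nd (nat_lit 78) (nat_lit 0) (nat_lit 0) (XT.lf (nat_lit 0) (nat_lit 812071041459) (nat_lit 76) (nat_lit 148093261506) (nat_lit 76) (nat_lit 130279936119) (nat_lit 1) (nat_lit 4) (nat_lit 2) (nat_lit 5) (nat_lit 2) (nat_lit 4) (nat_lit 247) (nat_lit 200) (nat_lit 153)) (XT.lf (nat_lit 0) (nat_lit 947668864393) (nat_lit 76) (nat_lit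 161747471027) (nat_lit 76) (nat_lit 143930880138) (nat_lit 1) (nat_lit 4) (nat_lit 2) (nat_lit 5) (nat_lit 2) (nat_lit 4) (nat_lit 248) (nat_lit 200) (nat_lit 152))))))) (XT.nd (nat_lit 27534) (nat_lit 0) (nat_lit 1444) (XT.nd (nat_lit 312) (nat_lit 0) (nat_lit 0) (XT.nd (nat_lit 156) (nat_lit 0) (nat_lit 0) (XT.nd (nat_lit 78) (nat_lit 0) (nat_lit 0) (XT.lf (nat_lit 0) (nat_lit 1103601654544) (nat_lit 76) (nat_lit 177451820477) (nat_lit 76) (nat_lit 159632390022) (nat_lit 1) (nat_lit 4) (nat_lit 2) (nat_lit 5) (nat_lit 2) (nat_lit 4) (nat_lit 249) (nat_lit 200) (nat_lit 151)) (XT.lf (nat_lit 0) (nat_lit 1282920270849) (nat_lit 76) (nat_lit 195513568867) (nat_lit 76) (nat_lit 177691669224) (nat_lit 1) (nat_lit 4) (nat_lit 2) (nat_lit 5) (nat_lit 2) (nat_lit 4) (nat_lit 250) (nat_lit 200) (nat_lit 150))) (XT.nd (nat_lit 78) (nat_lit 0) (nat_lit 0) (XT.lf (nat_lit 0) (nat_lit 1489133121018)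 (nat_lit 76) (nat_lit 216286098231) (nat_lit 76) (nat_lit 198462051468) (nat_lit 1) (nat_lit 4) (nat_lit 2) (nat_lit 5) (nat_lit 2) (nat_lit 4) (nat_lit 251) (nat_lit 200) (nat_lit 149)) (XT.lf (nat_lit 0) (nat_lit 1726274804295) (nat_lit 76) (nat_lit 240175827622) (nat_lit 76) (nat_lit 222349913797) (nat_lit 1) (nat_lit 4) (nat_lit 2) (nat_lit 5) (nat_lit 2) (nat_lit 4) (nat_lit 252) (nat_lit 200) (nat_lit 148)))) (XT.nd (nat_lit 156) (nat_lit 0) (nat_lit 0) (XT.nd (nat_lit 78) (nat_lit 0) (nat_lit 0) (XT.lf (nat_lit 0) (nat_lit 1998985049265) (nat_lit 76) (nat_lit 267650164788) (nat_lit 76) (nat_lit 249822627432) (nat_lit 1) (nat_lit 4) (nat_lit 2) (nat_lit 5) (nat_lit 2) (nat_lit 4) (nat_lit 253) (nat_lit 200) (nat_lit 147)) (XT.lf (nat_lit 0) (nat_lit 2312599491156) (nat_lit 76) (nat_lit 299246651109) (nat_lit 76) (nat_lit 281417701987) (nat_lit 1) (nat_lit 4) (nat_lit 2) (nat_lit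 5) (nat_lit 2) (nat_lit 4) (nat_lit 254) (nat_lit 200) (nat_lit 146))) (XT.nd (nat_lit 78) (nat_lit 0) (nat_lit 0) (XT.lf (nat_lit 0) (nat_lit 2673254064701) (nat_lit 76) (nat_lit 335583478709) (nat_lit 76) (nat_lit 317753301964) (nat_lit 1) (nat_lit 4) (nat_lit 2) (nat_lit 5) (nat_lit 2) (nat_lit 4) (nat_lit 255) (nat_lit 200) (nat_lit 145)) (XT.lf (nat_lit 0) (nat_lit 3088005055033) (nat_lit 76) (nat_lit 377371585518) (nat_lit 76) (nat_lit 359540341275) (nat_lit 1) (nat_lit 4) (nat_lit 2) (nat_lit 5) (nat_lit 2) (nat_lit 4) (nat_lit 256) (nat_lit 200) (nat_lit 144))))) (XT.nd (nat_lit 312) (nat_lit 1444) (nat_lit 0) (XT.nd (nat_lit 156) (nat_lit 380) (nat_lit 0) (XT.nd (nat_lit 78) (nat_lit 0) (nat_lit 0) (XT.lf (nat_lit 0) (nat_lit 1113120038) (nat_lit 228) (nat_lit 1078677813) (nat_lit 228) (nat_lit 1078677813) (nat_lit 44) (nat_lit 3) (nat_lit 47) (nat_lit 3) (nat_lit 47) (nat_lit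 5) (nat_lit 201) (nat_lit 201) (nat_lit 198)) (XT.lf (nat_lit 76) (nat_lit 2902543807) (nat_lit 0) (nat_lit 3214395410) (nat_lit 228) (nat_lit 561087260) (nat_lit 45) (nat_lit 5) (nat_lit 44) (nat_lit 3) (nat_lit 47) (nat_lit 5) (nat_lit 202) (nat_lit 201) (nat_lit 197))) (XT.nd (nat_lit 78) (nat_lit 152) (nat_lit 0) (XT.lf (nat_lit 76) (nat_lit 1588619450) (nat_lit 0) (nat_lit 1395586494) (nat_lit 304) (nat_lit 3900077710) (nat_lit 42) (nat_lit 5) (nat_lit 41) (nat_lit 5) (nat_lit 45) (nat_lit 5) (nat_lit 203) (nat_lit 201) (nat_lit 196)) (XT.lf (nat_lit 0) (nat_lit 412281013) (nat_lit 228) (nat_lit 6155575229) (nat_lit 304) (nat_lit 597244932) (nat_lit 39) (nat_lit 5) (nat_lit 42) (nat_lit 5) (nat_lit 43) (nat_lit 5) (nat_lit 204) (nat_lit 201) (nat_lit 195)))) (XT.nd (nat_lit 156) (nat_lit 1064) (nat_lit 0) (XT.nd (nat_lit 78) (nat_lit 304) (nat_lit 0) (XT.lf (nat_lit 0) (nat_lit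 2685181029) (nat_lit 304) (nat_lit 742415104) (nat_lit 76) (nat_lit 4089160249) (nat_lit 38) (nat_lit 5) (nat_lit 42) (nat_lit 5) (nat_lit 39) (nat_lit 5) (nat_lit 205) (nat_lit 201) (nat_lit 194)) (XT.lf (nat_lit 0) (nat_lit 6070414026) (nat_lit 304) (nat_lit 20770830) (nat_lit 380) (nat_lit 1860988210) (nat_lit 34) (nat_lit 5) (nat_lit 38) (nat_lit 5) (nat_lit 39) (nat_lit 5) (nat_lit 206) (nat_lit 201) (nat_lit 193))) (XT.nd (nat_lit 78) (nat_lit 608) (nat_lit 0) (XT.lf (nat_lit 0) (nat_lit 1286291219) (nat_lit 456) (nat_lit 3230645607) (nat_lit 76) (nat_lit 3952754261) (nat_lit 28) (nat_lit 5) (nat_lit 34) (nat_lit 5) (nat_lit 29) (nat_lit 5) (nat_lit 207) (nat_lit 201) (nat_lit 192)) (XT.nd (nat_lit 78) (nat_lit 228) (nat_lit 0) (XT.lf (nat_lit 0) (nat_lit 4255431465) (nat_lit 380) (nat_lit 310654319) (nat_lit 456) (nat_lit 4517141918) (nat_lit 23) (nat_lit 5) (nat_lit 28) (nat_lit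 5) (nat_lit 29) (nat_lit 5) (nat_lit 208) (nat_lit 201) (nat_lit 191)) (XT.lf (nat_lit 0) (nat_lit 2930002006) (nat_lit 228) (nat_lit 5334541535) (nat_lit 304) (nat_lit 1533513174) (nat_lit 20) (nat_lit 5) (nat_lit 23) (nat_lit 5) (nat_lit 24) (nat_lit 5) (nat_lit 209) (nat_lit 201) (nat_lit 190))))))))
noncomputable def xc26 : XT := (XT.nd (nat_lit 1248) (nat_lit 152) (nat_lit 0) (XT.nd (nat_lit 624) (nat_lit 456) (nat_lit 0) (XT.nd (nat_lit 312) (nat_lit 228) (nat_lit 0) (XT.nd (nat_lit 156) (nat_lit 380) (nat_lit 0) (XT.nd (nat_lit 78) (nat_lit 0) (nat_lit 0) (XT.lf (nat_lit 0) (nat_lit 1164025249) (nat_lit 152) (nat_lit 496536354) (nat_lit 228) (nat_lit 8970006393) (nat_lit 17) (nat_lit 5) (nat_lit 19) (nat_lit 5) (nat_lit 20) (nat_lit 5) (nat_lit 210) (nat_lit 201) (nat_lit 189)) (XT.lf (nat_lit 0) (nat_lit 5282309377) (nat_lit 228) (nat_lit 1288739143) (nat_lit 76) (nat_lit 5012950549)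 (nat_lit 17) (nat_lit 5) (nat_lit 20) (nat_lit 5) (nat_lit 18) (nat_lit 5) (nat_lit 211) (nat_lit 201) (nat_lit 188))) (XT.nd (nat_lit 78) (nat_lit 228) (nat_lit 0) (XT.lf (nat_lit 0) (nat_lit 8195328156) (nat_lit 152) (nat_lit 1210444543) (nat_lit 228) (nat_lit 3280064225) (nat_lit 15) (nat_lit 5) (nat_lit 17) (nat_lit 5) (nat_lit 18) (nat_lit 5) (nat_lit 212) (nat_lit 201) (nat_lit 187)) (XT.lf (nat_lit 0) (nat_lit 235936607) (nat_lit 228) (nat_lit 8902019295) (nat_lit 76) (nat_lit 4812215002) (nat_lit 12) (nat_lit 5) (nat_lit 15) (nat_lit 5) (nat_lit 13) (nat_lit 5) (nat_lit 213) (nat_lit 201) (nat_lit 186)))) (XT.nd (nat_lit 156) (nat_lit 76) (nat_lit 0) (XT.nd (nat_lit 78) (nat_lit 0) (nat_lit 0) (XT.lf (nat_lit 0) (nat_lit 498452983) (nat_lit 152) (nat_lit 3559971062) (nat_lit 228) (nat_lit 11342499134) (nat_lit 10) (nat_lit 5) (nat_lit 12) (nat_lit 5) (nat_lit 13) (nat_lit 5)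 (nat_lit 214) (nat_lit 201) (nat_lit 185)) (XT.lf (nat_lit 0) (nat_lit 8596265313) (nat_lit 228) (nat_lit 5560265700) (nat_lit 76) (nat_lit 2902658088) (nat_lit 10) (nat_lit 5) (nat_lit 13) (nat_lit 5) (nat_lit 11) (nat_lit 4) (nat_lit 215) (nat_lit 201) (nat_lit 184))) (XT.nd (nat_lit 78) (nat_lit 0) (nat_lit 0) (XT.lf (nat_lit 0) (nat_lit 5092240553) (nat_lit 76) (nat_lit 8776010165) (nat_lit 152) (nat_lit 5094761765) (nat_lit 9) (nat_lit 5) (nat_lit 10) (nat_lit 5) (nat_lit 11) (nat_lit 4) (nat_lit 216) (nat_lit 201) (nat_lit 183)) (XT.lf (nat_lit 0) (nat_lit 17452965131) (nat_lit 76) (nat_lit 2488887867) (nat_lit 152) (nat_lit 1210643030) (nat_lit 9) (nat_lit 5) (nat_lit 10) (nat_lit 5) (nat_lit 11) (nat_lit 4) (nat_lit 217) (nat_lit 201) (nat_lit 182))))) (XT.nd (nat_lit 312) (nat_lit 152) (nat_lit 0) (XT.nd (nat_lit 156) (nat_lit 76) (nat_lit 0) (XT.nd (nat_lit 78) (nat_lit 0)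 (nat_lit 0) (XT.lf (nat_lit 0) (nat_lit 3272424532) (nat_lit 228) (nat_lit 15659033815) (nat_lit 76) (nat_lit 4719108561) (nat_lit 6) (nat_lit 5) (nat_lit 9) (nat_lit 5) (nat_lit 7) (nat_lit 4) (nat_lit 218) (nat_lit 201) (nat_lit 181)) (XT.lf (nat_lit 0) (nat_lit 8413701749) (nat_lit 228) (nat_lit 5155871150) (nat_lit 76) (nat_lit 12947331903) (nat_lit 6) (nat_lit 5) (nat_lit 9) (nat_lit 5) (nat_lit 7) (nat_lit 4) (nat_lit 219) (nat_lit 201) (nat_lit 180))) (XT.nd (nat_lit 78) (nat_lit 0) (nat_lit 0) (XT.lf (nat_lit 0) (nat_lit 7107612329) (nat_lit 76) (nat_lit 7281716489) (nat_lit 152) (nat_lit 15419391600) (nat_lit 5) (nat_lit 5) (nat_lit 6) (nat_lit 5) (nat_lit 7) (nat_lit 4) (nat_lit 220) (nat_lit 201) (nat_lit 179)) (XT.lf (nat_lit 0) (nat_lit 21315194352) (nat_lit 152) (nat_lit 12225282240) (nat_lit 0) (nat_lit 50024319) (nat_lit 5) (nat_lit 5) (nat_lit 7) (nat_lit 4) (nat_lit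 5) (nat_lit 4) (nat_lit 221) (nat_lit 201) (nat_lit 178)))) (XT.nd (nat_lit 156) (nat_lit 76) (nat_lit 0) (XT.nd (nat_lit 78) (nat_lit 76) (nat_lit 0) (XT.lf (nat_lit 0) (nat_lit 29395339865) (nat_lit 152) (nat_lit 521341738) (nat_lit 0) (nat_lit 8014073197) (nat_lit 5) (nat_lit 5) (nat_lit 7) (nat_lit 4) (nat_lit 5) (nat_lit 4) (nat_lit 222) (nat_lit 201) (nat_lit 177)) (XT.lf (nat_lit 0) (nat_lit 13489635198) (nat_lit 76) (nat_lit 25447520558) (nat_lit 76) (nat_lit 3965300294) (nat_lit 4) (nat_lit 4) (nat_lit 5) (nat_lit 5) (nat_lit 5) (nat_lit 4) (nat_lit 223) (nat_lit 201) (nat_lit 176))) (XT.nd (nat_lit 78) (nat_lit 0) (nat_lit 0) (XT.lf (nat_lit 0) (nat_lit 1171542526) (nat_lit 152) (nat_lit 19133197543) (nat_lit 76) (nat_lit 28317336024) (nat_lit 3) (nat_lit 5) (nat_lit 5) (nat_lit 5) (nat_lit 4) (nat_lit 4) (nat_lit 224) (nat_lit 201) (nat_lit 175)) (XT.lf (nat_lit 0) (nat_lit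 6790089550) (nat_lit 152) (nat_lit 7522955155) (nat_lit 76) (nat_lit 40882944292) (nat_lit 3) (nat_lit 5) (nat_lit 5) (nat_lit 5) (nat_lit 4) (nat_lit 4) (nat_lit 225) (nat_lit 201) (nat_lit 174)))))) (XT.nd (nat_lit 624) (nat_lit 0) (nat_lit 0) (XT.nd (nat_lit 312) (nat_lit 76) (nat_lit 0) (XT.nd (nat_lit 156) (nat_lit 0) (nat_lit 0) (XT.nd (nat_lit 78) (nat_lit 0) (nat_lit 0) (XT.lf (nat_lit 0) (nat_lit 6042709601) (nat_lit 76) (nat_lit 7301246961) (nat_lit 152) (nat_lit 49404861295) (nat_lit 2) (nat_lit 5) (nat_lit 3) (nat_lit 5) (nat_lit 4) (nat_lit 4) (nat_lit 226) (nat_lit 201) (nat_lit 173)) (XT.lf (nat_lit 0) (nat_lit 21075304179) (nat_lit 152) (nat_lit 49426427797) (nat_lit 0) (nat_lit 917488813) (nat_lit 2) (nat_lit 5) (nat_lit 4) (nat_lit 4) (nat_lit 2) (nat_lit 4) (nat_lit 227) (nat_lit 201) (nat_lit 172))) (XT.nd (nat_lit 78) (nat_lit 0) (nat_lit 0) (XT.lf (nat_lit 0) (nat_lit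 30125988448) (nat_lit 152) (nat_lit 41329901206) (nat_lit 0) (nat_lit 9921699213) (nat_lit 2) (nat_lit 5) (nat_lit 4) (nat_lit 4) (nat_lit 2) (nat_lit 4) (nat_lit 228) (nat_lit 201) (nat_lit 171)) (XT.lf (nat_lit 0) (nat_lit 40497492810) (nat_lit 152) (nat_lit 32082523016) (nat_lit 0) (nat_lit 20252791515) (nat_lit 2) (nat_lit 5) (nat_lit 4) (nat_lit 4) (nat_lit 2) (nat_lit 4) (nat_lit 229) (nat_lit 201) (nat_lit 170)))) (XT.nd (nat_lit 156) (nat_lit 76) (nat_lit 0) (XT.nd (nat_lit 78) (nat_lit 0) (nat_lit 0) (XT.lf (nat_lit 0) (nat_lit 52392738003) (nat_lit 152) (nat_lit 21503366262) (nat_lit 0) (nat_lit 32112895785) (nat_lit 2) (nat_lit 5) (nat_lit 4) (nat_lit 4) (nat_lit 2) (nat_lit 4) (nat_lit 230) (nat_lit 201) (nat_lit 169)) (XT.lf (nat_lit 0) (nat_lit 66044457083) (nat_lit 152) (nat_lit 9385447443) (nat_lit 0) (nat_lit 45734057542) (nat_lit 2) (nat_lit 5) (nat_lit 4) (nat_lit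 4) (nat_lit 2) (nat_lit 4) (nat_lit 231) (nat_lit 201) (nat_lit 168))) (XT.nd (nat_lit 78) (nat_lit 0) (nat_lit 0) (XT.lf (nat_lit 0) (nat_lit 4745723463) (nat_lit 76) (nat_lit 77088160204) (nat_lit 76) (nat_lit 56751189076) (nat_lit 1) (nat_lit 4) (nat_lit 2) (nat_lit 5) (nat_lit 2) (nat_lit 4) (nat_lit 232) (nat_lit 201) (nat_lit 167)) (XT.lf (nat_lit 0) (nat_lit 21526629363) (nat_lit 76) (nat_lit 78716390548) (nat_lit 76) (nat_lit 58356313694) (nat_lit 1) (nat_lit 4) (nat_lit 2) (nat_lit 5) (nat_lit 2) (nat_lit 4) (nat_lit 233) (nat_lit 201) (nat_lit 166))))) (XT.nd (nat_lit 312) (nat_lit 0) (nat_lit 0) (XT.nd (nat_lit 156) (nat_lit 0) (nat_lit 0) (XT.nd (nat_lit 78) (nat_lit 0) (nat_lit 0) (XT.lf (nat_lit 0) (nat_lit 40791371296) (nat_lit 76) (nat_lit 80603067005) (nat_lit 76) (nat_lit 60222898215) (nat_lit 1) (nat_lit 4) (nat_lit 2) (nat_lit 5) (nat_lit 2) (nat_lit 4) (nat_lit 234)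 (nat_lit 201) (nat_lit 165)) (XT.lf (nat_lit 0) (nat_lit 62916868127) (nat_lit 76) (nat_lit 82785102812) (nat_lit 76) (nat_lit 62387462772) (nat_lit 1) (nat_lit 4) (nat_lit 2) (nat_lit 5) (nat_lit 2) (nat_lit 4) (nat_lit 235) (nat_lit 201) (nat_lit 164))) (XT.nd (nat_lit 78) (nat_lit 0) (nat_lit 0) (XT.lf (nat_lit 0) (nat_lit 88336010011) (nat_lit 76) (nat_lit 85305189972) (nat_lit 76) (nat_lit 64892357542) (nat_lit 1) (nat_lit 4) (nat_lit 2) (nat_lit 5) (nat_lit 2) (nat_lit 4) (nat_lit 236) (nat_lit 201) (nat_lit 163)) (XT.lf (nat_lit 0) (nat_lit 117546127984) (nat_lit 76) (nat_lit 88212634538) (nat_lit 76) (nat_lit 67786591334) (nat_lit 1) (nat_lit 4) (nat_lit 2) (nat_lit 5) (nat_lit 2) (nat_lit 4) (nat_lit 237) (nat_lit 201) (nat_lit 162)))) (XT.nd (nat_lit 156) (nat_lit 0) (nat_lit 0) (XT.nd (nat_lit 78) (nat_lit 0) (nat_lit 0) (XT.lf (nat_lit 0) (nat_lit 151118724355) (nat_lit 76)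 (nat_lit 91564321297) (nat_lit 76) (nat_lit 71126790463) (nat_lit 1) (nat_lit 4) (nat_lit 2) (nat_lit 5) (nat_lit 2) (nat_lit 4) (nat_lit 238) (nat_lit 201) (nat_lit 161)) (XT.lf (nat_lit 0) (nat_lit 189710654271) (nat_lit 76) (nat_lit 95425826727) (nat_lit 76) (nat_lit 74978306650) (nat_lit 1) (nat_lit 4) (nat_lit 2) (nat_lit 5) (nat_lit 2) (nat_lit 4) (nat_lit 239) (nat_lit 201) (nat_lit 160))) (XT.nd (nat_lit 78) (nat_lit 0) (nat_lit 0) (XT.lf (nat_lit 0) (nat_lit 234076977229) (nat_lit 76) (nat_lit 99872702023) (nat_lit 76) (nat_lit 79416495647) (nat_lit 1) (nat_lit 4) (nat_lit 2) (nat_lit 5) (nat_lit 2) (nat_lit 4) (nat_lit 240) (nat_lit 201) (nat_lit 159)) (XT.nd (nat_lit 78) (nat_lit 0) (nat_lit 0) (XT.lf (nat_lit 0) (nat_lit 285085729984) (nat_lit 76) (nat_lit 104991951266) (nat_lit 76) (nat_lit 84528191587) (nat_lit 1) (nat_lit 4) (nat_lit 2) (nat_lit 5) (nat_lit 2) (nat_lit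 4) (nat_lit 241) (nat_lit 201) (nat_lit 158)) (XT.lf (nat_lit 0) (nat_lit 343734909871) (nat_lit 76) (nat_lit 110883733679) (nat_lit 76) (nat_lit 90413405911) (nat_lit 1) (nat_lit 4) (nat_lit 2) (nat_lit 5) (nat_lit 2) (nat_lit 4) (nat_lit 242) (nat_lit 201) (nat_lit 157))))))))
noncomputable def xc27 : XT := (XT.nd (nat_lit 28314) (nat_lit 0) (nat_lit 304) (XT.nd (nat_lit 624) (nat_lit 0) (nat_lit 0) (XT.nd (nat_lit 312) (nat_lit 0) (nat_lit 0) (XT.nd (nat_lit 156) (nat_lit 0) (nat_lit 0) (XT.nd (nat_lit 78) (nat_lit 0) (nat_lit 0) (XT.lf (nat_lit 0) (nat_lit 411172000846) (nat_lit 76) (nat_lit 117663323268) (nat_lit 76) (nat_lit 97187284117) (nat_lit 1) (nat_lit 4) (nat_lit 2) (nat_lit 5) (nat_lit 2) (nat_lit 4) (nat_lit 243) (nat_lit 201) (nat_lit 156)) (XT.lf (nat_lit 0) (nat_lit 488716424252) (nat_lit 76) (nat_lit 125463364176) (nat_lit 76) (nat_lit 104982358606) (nat_lit 1) (nat_lit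 4) (nat_lit 2) (nat_lit 5) (nat_lit 2) (nat_lit 4) (nat_lit 244) (nat_lit 201) (nat_lit 155))) (XT.nd (nat_lit 78) (nat_lit 0) (nat_lit 0) (XT.lf (nat_lit 0) (nat_lit 577885353592) (nat_lit 76) (nat_lit 134436465899) (nat_lit 76) (nat_lit 113951141703) (nat_lit 1) (nat_lit 4) (nat_lit 2) (nat_lit 5) (nat_lit 2) (nat_lit 4) (nat_lit 245) (nat_lit 201) (nat_lit 154)) (XT.lf (nat_lit 0) (nat_lit 680423398353) (nat_lit 76) (nat_lit 144758189123) (nat_lit 76) (nat_lit 124269109601) (nat_lit 1) (nat_lit 4) (nat_lit 2) (nat_lit 5) (nat_lit 2) (nat_lit 4) (nat_lit 246) (nat_lit 201) (nat_lit 153)))) (XT.nd (nat_lit 156) (nat_lit 0) (nat_lit 0) (XT.nd (nat_lit 78) (nat_lit 0) (nat_lit 0) (XT.lf (nat_lit 0) (nat_lit 798336737671) (nat_lit 76) (nat_lit 156630480607) (nat_lit 76) (nat_lit 136138135583) (nat_lit 1) (nat_lit 4) (nat_lit 2) (nat_lit 5) (nat_lit 2) (nat_lit 4) (nat_lit 247) (nat_lit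 201) (nat_lit 152)) (XT.lf (nat_lit 0) (nat_lit 933932371664) (nat_lit 76) (nat_lit 170285624314) (nat_lit 76) (nat_lit 149790439724) (nat_lit 1) (nat_lit 4) (nat_lit 2) (nat_lit 5) (nat_lit 2) (nat_lit 4) (nat_lit 248) (nat_lit 201) (nat_lit 151))) (XT.nd (nat_lit 78) (nat_lit 0) (nat_lit 0) (XT.lf (nat_lit 0) (nat_lit 1089863258387) (nat_lit 76) (nat_lit 185990786100) (nat_lit 76) (nat_lit 165493132322) (nat_lit 1) (nat_lit 4) (nat_lit 2) (nat_lit 5) (nat_lit 2) (nat_lit 4) (nat_lit 249) (nat_lit 201) (nat_lit 150)) (XT.lf (nat_lit 0) (nat_lit 1269180219539) (nat_lit 76) (nat_lit 204053240870) (nat_lit 76) (nat_lit 183553439972) (nat_lit 1) (nat_lit 4) (nat_lit 2) (nat_lit 5) (nat_lit 2) (nat_lit 4) (nat_lit 250) (nat_lit 201) (nat_lit 149))))) (XT.nd (nat_lit 312) (nat_lit 0) (nat_lit 0) (XT.nd (nat_lit 156) (nat_lit 0) (nat_lit 0) (XT.nd (nat_lit 78) (nat_lit 0) (nat_lit 0) (XT.lf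 (nat_lit 0) (nat_lit 1475391630444) (nat_lit 76) (nat_lit 224826384477) (nat_lit 76) (nat_lit 204324716517) (nat_lit 1) (nat_lit 4) (nat_lit 2) (nat_lit 5) (nat_lit 2) (nat_lit 4) (nat_lit 251) (nat_lit 201) (nat_lit 148)) (XT.lf (nat_lit 0) (nat_lit 1712532062187) (nat_lit 76) (nat_lit 248716647991) (nat_lit 76) (nat_lit 228213356501) (nat_lit 1) (nat_lit 4) (nat_lit 2) (nat_lit 5) (nat_lit 2) (nat_lit 4) (nat_lit 252) (nat_lit 201) (nat_lit 147))) (XT.nd (nat_lit 78) (nat_lit 0) (nat_lit 0) (XT.lf (nat_lit 0) (nat_lit 1985241218866) (nat_lit 76) (nat_lit 276191449613) (nat_lit 76) (nat_lit 255686746357) (nat_lit 1) (nat_lit 4) (nat_lit 2) (nat_lit 5) (nat_lit 2) (nat_lit 4) (nat_lit 253) (nat_lit 201) (nat_lit 146)) (XT.lf (nat_lit 0) (nat_lit 2298854714418) (nat_lit 76) (nat_lit 307788339809) (nat_lit 76) (nat_lit 287282408929) (nat_lit 1) (nat_lit 4) (nat_lit 2) (nat_lit 5) (nat_lit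 2) (nat_lit 4) (nat_lit 254) (nat_lit 201) (nat_lit 145)))) (XT.nd (nat_lit 27144) (nat_lit 0) (nat_lit 2736) (XT.nd (nat_lit 78) (nat_lit 0) (nat_lit 0) (XT.lf (nat_lit 0) (nat_lit 2659508465058) (nat_lit 76) (nat_lit 344125518604) (nat_lit 76) (nat_lit 323618520226) (nat_lit 1) (nat_lit 4) (nat_lit 2) (nat_lit 5) (nat_lit 2) (nat_lit 4) (nat_lit 255) (nat_lit 201) (nat_lit 144)) (XT.lf (nat_lit 0) (nat_lit 3074258739822) (nat_lit 76) (nat_lit 385913930801) (nat_lit 76) (nat_lit 365406004164) (nat_lit 1) (nat_lit 4) (nat_lit 2) (nat_lit 5) (nat_lit 2) (nat_lit 4) (nat_lit 256) (nat_lit 201) (nat_lit 143))) (XT.nd (nat_lit 78) (nat_lit 304) (nat_lit 0) (XT.lf (nat_lit 0) (nat_lit 660430997) (nat_lit 0) (nat_lit 660430997) (nat_lit 228) (nat_lit 2101393610) (nat_lit 41) (nat_lit 5) (nat_lit 41) (nat_lit 3) (nat_lit 44) (nat_lit 3) (nat_lit 202) (nat_lit 202) (nat_lit 196)) (XT.nd (nat_lit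 78) (nat_lit 304) (nat_lit 0) (XT.lf (nat_lit 0) (nat_lit 5811462842) (nat_lit 228) (nat_lit 390745457) (nat_lit 304) (nat_lit 878986693) (nat_lit 41) (nat_lit 5) (nat_lit 44) (nat_lit 3) (nat_lit 45) (nat_lit 5) (nat_lit 203) (nat_lit 202) (nat_lit 195)) (XT.lf (nat_lit 0) (nat_lit 1630624612) (nat_lit 304) (nat_lit 2000401910) (nat_lit 380) (nat_lit 3754120944) (nat_lit 37) (nat_lit 5) (nat_lit 41) (nat_lit 5) (nat_lit 42) (nat_lit 5) (nat_lit 204) (nat_lit 202) (nat_lit 194))))))) (XT.nd (nat_lit 624) (nat_lit 760) (nat_lit 0) (XT.nd (nat_lit 312) (nat_lit 988) (nat_lit 0) (XT.nd (nat_lit 156) (nat_lit 456) (nat_lit 0) (XT.nd (nat_lit 78) (nat_lit 228) (nat_lit 0) (XT.lf (nat_lit 76) (nat_lit 4167964371) (nat_lit 0) (nat_lit 361158830) (nat_lit 380) (nat_lit 3237449981) (nat_lit 38) (nat_lit 5) (nat_lit 37) (nat_lit 5) (nat_lit 42) (nat_lit 5) (nat_lit 205) (nat_lit 202) (nat_lit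 193)) (XT.lf (nat_lit 0) (nat_lit 2908501968) (nat_lit 304) (nat_lit 4747589144) (nat_lit 380) (nat_lit 570478624) (nat_lit 34) (nat_lit 5) (nat_lit 38) (nat_lit 5) (nat_lit 39) (nat_lit 5) (nat_lit 206) (nat_lit 202) (nat_lit 192))) (XT.nd (nat_lit 78) (nat_lit 0) (nat_lit 0) (XT.lf (nat_lit 0) (nat_lit 1534831298) (nat_lit 380) (nat_lit 606914157) (nat_lit 456) (nat_lit 6631316492) (nat_lit 28) (nat_lit 5) (nat_lit 33) (nat_lit 5) (nat_lit 34) (nat_lit 5) (nat_lit 207) (nat_lit 202) (nat_lit 191)) (XT.lf (nat_lit 0) (nat_lit 5146200261) (nat_lit 456) (nat_lit 106323999) (nat_lit 76) (nat_lit 4157681682) (nat_lit 28) (nat_lit 5) (nat_lit 34) (nat_lit 5) (nat_lit 29) (nat_lit 5) (nat_lit 208) (nat_lit 202) (nat_lit 190)))) (XT.nd (nat_lit 156) (nat_lit 304) (nat_lit 0) (XT.nd (nat_lit 78) (nat_lit 304) (nat_lit 0) (XT.lf (nat_lit 0) (nat_lit 8197187663) (nat_lit 380) (nat_lit 321924365)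 (nat_lit 456) (nat_lit 1633340690) (nat_lit 23) (nat_lit 5) (nat_lit 28) (nat_lit 5) (nat_lit 29) (nat_lit 5) (nat_lit 209) (nat_lit 202) (nat_lit 189)) (XT.lf (nat_lit 0) (nat_lit 1348582466) (nat_lit 304) (nat_lit 4379524276) (nat_lit 76) (nat_lit 5275527306) (nat_lit 19) (nat_lit 5) (nat_lit 23) (nat_lit 5) (nat_lit 20) (nat_lit 5) (nat_lit 210) (nat_lit 202) (nat_lit 188))) (XT.nd (nat_lit 78) (nat_lit 152) (nat_lit 0) (XT.lf (nat_lit 0) (nat_lit 4520700858) (nat_lit 152) (nat_lit 94954930) (nat_lit 228) (nat_lit 7370745332) (nat_lit 17) (nat_lit 5) (nat_lit 19) (nat_lit 5) (nat_lit 20) (nat_lit 5) (nat_lit 211) (nat_lit 202) (nat_lit 187)) (XT.lf (nat_lit 0) (nat_lit 1560695876) (nat_lit 152) (nat_lit 6914502719) (nat_lit 228) (nat_lit 4634990579) (nat_lit 15) (nat_lit 5) (nat_lit 17) (nat_lit 5) (nat_lit 18) (nat_lit 5) (nat_lit 212) (nat_lit 202) (nat_lit 186))))) (XT.nd (nat_lit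 312) (nat_lit 380) (nat_lit 0) (XT.nd (nat_lit 156) (nat_lit 152) (nat_lit 0) (XT.nd (nat_lit 78) (nat_lit 228) (nat_lit 0) (XT.lf (nat_lit 0) (nat_lit 12138356092) (nat_lit 152) (nat_lit 798337351) (nat_lit 228) (nat_lit 1465574345) (nat_lit 15) (nat_lit 5) (nat_lit 17) (nat_lit 5) (nat_lit 18) (nat_lit 5) (nat_lit 213) (nat_lit 202) (nat_lit 185)) (XT.lf (nat_lit 0) (nat_lit 2254567199) (nat_lit 228) (nat_lit 7477710438) (nat_lit 76) (nat_lit 6138200686) (nat_lit 12) (nat_lit 5) (nat_lit 15) (nat_lit 5) (nat_lit 13) (nat_lit 5) (nat_lit 214) (nat_lit 202) (nat_lit 184))) (XT.nd (nat_lit 78) (nat_lit 0) (nat_lit 0) (XT.lf (nat_lit 0) (nat_lit 3099245292) (nat_lit 152) (nat_lit 3353249917) (nat_lit 228) (nat_lit 11103951402) (nat_lit 10) (nat_lit 5) (nat_lit 12) (nat_lit 5) (nat_lit 13) (nat_lit 5) (nat_lit 215) (nat_lit 202) (nat_lit 183)) (XT.lf (nat_lit 0) (nat_lit 11453637122) (nat_lit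 228) (nat_lit 4078805424) (nat_lit 76) (nat_lit 3949937802) (nat_lit 10) (nat_lit 5) (nat_lit 13) (nat_lit 5) (nat_lit 11) (nat_lit 4) (nat_lit 216) (nat_lit 202) (nat_lit 182)))) (XT.nd (nat_lit 156) (nat_lit 304) (nat_lit 0) (XT.nd (nat_lit 78) (nat_lit 0) (nat_lit 0) (XT.lf (nat_lit 0) (nat_lit 7975581214) (nat_lit 76) (nat_lit 9387300389) (nat_lit 152) (nat_lit 4322516023) (nat_lit 9) (nat_lit 5) (nat_lit 10) (nat_lit 5) (nat_lit 11) (nat_lit 4) (nat_lit 217) (nat_lit 202) (nat_lit 181)) (XT.lf (nat_lit 0) (nat_lit 21913957360) (nat_lit 76) (nat_lit 2249080786) (nat_lit 152) (nat_lit 56187305) (nat_lit 9) (nat_lit 5) (nat_lit 10) (nat_lit 5) (nat_lit 11) (nat_lit 4) (nat_lit 218) (nat_lit 202) (nat_lit 180))) (XT.nd (nat_lit 78) (nat_lit 76) (nat_lit 0) (XT.lf (nat_lit 0) (nat_lit 4923802865) (nat_lit 228) (nat_lit 16169831219) (nat_lit 76) (nat_lit 6005434814) (nat_lit 6) (nat_lit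 5) (nat_lit 9) (nat_lit 5) (nat_lit 7) (nat_lit 4) (nat_lit 219) (nat_lit 202) (nat_lit 179)) (XT.nd (nat_lit 78) (nat_lit 76) (nat_lit 0) (XT.lf (nat_lit 0) (nat_lit 10684900189) (nat_lit 228) (nat_lit 4330940807) (nat_lit 76) (nat_lit 15392440357) (nat_lit 6) (nat_lit 5) (nat_lit 9) (nat_lit 5) (nat_lit 7) (nat_lit 4) (nat_lit 220) (nat_lit 202) (nat_lit 178)) (XT.lf (nat_lit 0) (nat_lit 9636776128) (nat_lit 76) (nat_lit 7823653533) (nat_lit 152) (nat_lit 16741862946) (nat_lit 5) (nat_lit 5) (nat_lit 6) (nat_lit 5) (nat_lit 7) (nat_lit 4) (nat_lit 221) (nat_lit 202) (nat_lit 177))))))))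
noncomputable def xc28 : XT := (XT.nd (nat_lit 1248) (nat_lit 0) (nat_lit 0) (XT.nd (nat_lit 624) (nat_lit 76) (nat_lit 0) (XT.nd (nat_lit 312) (nat_lit 76) (nat_lit 0) (XT.nd (nat_lit 156) (nat_lit 76) (nat_lit 0) (XT.nd (nat_lit 78) (nat_lit 76) (nat_lit 0) (XT.lf (nat_lit 0) (nat_lit 25317635886) (nat_lit 152) (nat_lit 12730794051) (nat_lit 0) (nat_lit 512128987) (nat_lit 5) (nat_lit 5) (nat_lit 7) (nat_lit 4) (nat_lit 5) (nat_lit 4) (nat_lit 222) (nat_lit 202) (nat_lit 176)) (XT.lf (nat_lit 0) (nat_lit 584734323) (nat_lit 76) (nat_lit 33934110597) (nat_lit 76) (nat_lit 9040817963) (nat_lit 4) (nat_lit 4) (nat_lit 5) (nat_lit 5) (nat_lit 5) (nat_lit 4) (nat_lit 223) (nat_lit 202) (nat_lit 175))) (XT.nd (nat_lit 78) (nat_lit 76) (nat_lit 0) (XT.lf (nat_lit 0) (nat_lit 16570339777) (nat_lit 76) (nat_lit 28841634889) (nat_lit 76) (nat_lit 3872006833) (nat_lit 4) (nat_lit 4) (nat_lit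 5) (nat_lit 5) (nat_lit 5) (nat_lit 4) (nat_lit 224) (nat_lit 202) (nat_lit 174)) (XT.lf (nat_lit 0) (nat_lit 1915680455) (nat_lit 152) (nat_lit 21051391337) (nat_lit 76) (nat_lit 32900344549) (nat_lit 3) (nat_lit 5) (nat_lit 5) (nat_lit 5) (nat_lit 4) (nat_lit 4) (nat_lit 225) (nat_lit 202) (nat_lit 173)))) (XT.nd (nat_lit 156) (nat_lit 0) (nat_lit 0) (XT.nd (nat_lit 78) (nat_lit 76) (nat_lit 0) (XT.lf (nat_lit 0) (nat_lit 8302869548) (nat_lit 152) (nat_lit 7823758570) (nat_lit 76) (nat_lit 47307045171) (nat_lit 3) (nat_lit 5) (nat_lit 5) (nat_lit 5) (nat_lit 4) (nat_lit 4) (nat_lit 226) (nat_lit 202) (nat_lit 172)) (XT.lf (nat_lit 0) (nat_lit 7706700308) (nat_lit 76) (nat_lit 8086866671) (nat_lit 152) (nat_lit 56329842870) (nat_lit 2) (nat_lit 5) (nat_lit 3) (nat_lit 5) (nat_lit 4) (nat_lit 4) (nat_lit 227) (nat_lit 202) (nat_lit 171))) (XT.nd (nat_lit 78) (nat_lit 0) (nat_lit 0) (XT.lf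 (nat_lit 0) (nat_lit 24632653749) (nat_lit 152) (nat_lit 56155287747) (nat_lit 0) (nat_lit 1310835198) (nat_lit 2) (nat_lit 5) (nat_lit 4) (nat_lit 4) (nat_lit 2) (nat_lit 4) (nat_lit 228) (nat_lit 202) (nat_lit 170)) (XT.lf (nat_lit 0) (nat_lit 34989281448) (nat_lit 152) (nat_lit 46933643587) (nat_lit 0) (nat_lit 11632321976) (nat_lit 2) (nat_lit 5) (nat_lit 4) (nat_lit 4) (nat_lit 2) (nat_lit 4) (nat_lit 229) (nat_lit 202) (nat_lit 169))))) (XT.nd (nat_lit 312) (nat_lit 0) (nat_lit 0) (XT.nd (nat_lit 156) (nat_lit 76) (nat_lit 0) (XT.nd (nat_lit 78) (nat_lit 0) (nat_lit 0) (XT.lf (nat_lit 0) (nat_lit 46871590413) (nat_lit 152) (nat_lit 36376864251) (nat_lit 0) (nat_lit 23484073616) (nat_lit 2) (nat_lit 5) (nat_lit 4) (nat_lit 4) (nat_lit 2) (nat_lit 4) (nat_lit 230) (nat_lit 202) (nat_lit 168)) (XT.lf (nat_lit 0) (nat_lit 60512060600) (nat_lit 152) (nat_lit 24278404056) (nat_lit 0)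 (nat_lit 37097972217) (nat_lit 2) (nat_lit 5) (nat_lit 4) (nat_lit 4) (nat_lit 2) (nat_lit 4) (nat_lit 231) (nat_lit 202) (nat_lit 167))) (XT.nd (nat_lit 78) (nat_lit 76) (nat_lit 0) (XT.lf (nat_lit 0) (nat_lit 76177570773) (nat_lit 152) (nat_lit 10401553999) (nat_lit 0) (nat_lit 52740376664) (nat_lit 2) (nat_lit 5) (nat_lit 4) (nat_lit 4) (nat_lit 2) (nat_lit 4) (nat_lit 232) (nat_lit 202) (nat_lit 166)) (XT.lf (nat_lit 0) (nat_lit 5816136196) (nat_lit 76) (nat_lit 88498362065) (nat_lit 76) (nat_lit 65041076020) (nat_lit 1) (nat_lit 4) (nat_lit 2) (nat_lit 5) (nat_lit 2) (nat_lit 4) (nat_lit 233) (nat_lit 202) (nat_lit 165)))) (XT.nd (nat_lit 156) (nat_lit 0) (nat_lit 0) (XT.nd (nat_lit 78) (nat_lit 0) (nat_lit 0) (XT.lf (nat_lit 0) (nat_lit 25067410040) (nat_lit 76) (nat_lit 90390786374) (nat_lit 76) (nat_lit 66916029080) (nat_lit 1) (nat_lit 4) (nat_lit 2) (nat_lit 5) (nat_lit 2)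 (nat_lit 4) (nat_lit 234) (nat_lit 202) (nat_lit 164)) (XT.lf (nat_lit 0) (nat_lit 47181195488) (nat_lit 76) (nat_lit 92577820312) (nat_lit 76) (nat_lit 69087870627) (nat_lit 1) (nat_lit 4) (nat_lit 2) (nat_lit 5) (nat_lit 2) (nat_lit 4) (nat_lit 235) (nat_lit 202) (nat_lit 163))) (XT.nd (nat_lit 78) (nat_lit 0) (nat_lit 0) (XT.lf (nat_lit 0) (nat_lit 72590153561) (nat_lit 76) (nat_lit 95102253673) (nat_lit 76) (nat_lit 71599093214) (nat_lit 1) (nat_lit 4) (nat_lit 2) (nat_lit 5) (nat_lit 2) (nat_lit 4) (nat_lit 236) (nat_lit 202) (nat_lit 162)) (XT.lf (nat_lit 0) (nat_lit 101791416047) (nat_lit 76) (nat_lit 98013477545) (nat_lit 76) (nat_lit 74498829457) (nat_lit 1) (nat_lit 4) (nat_lit 2) (nat_lit 5) (nat_lit 2) (nat_lit 4) (nat_lit 237) (nat_lit 202) (nat_lit 161)))))) (XT.nd (nat_lit 624) (nat_lit 0) (nat_lit 0) (XT.nd (nat_lit 312) (nat_lit 0) (nat_lit 0) (XT.nd (nat_lit 156) (nat_lit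 0) (nat_lit 0) (XT.nd (nat_lit 78) (nat_lit 0) (nat_lit 0) (XT.lf (nat_lit 0) (nat_lit 135356311995) (nat_lit 76) (nat_lit 101368450657) (nat_lit 76) (nat_lit 77843813325) (nat_lit 1) (nat_lit 4) (nat_lit 2) (nat_lit 5) (nat_lit 2) (nat_lit 4) (nat_lit 238) (nat_lit 202) (nat_lit 160)) (XT.lf (nat_lit 0) (nat_lit 173941545890) (nat_lit 76) (nat_lit 105232813785) (nat_lit 76) (nat_lit 81699490155) (nat_lit 1) (nat_lit 4) (nat_lit 2) (nat_lit 5) (nat_lit 2) (nat_lit 4) (nat_lit 239) (nat_lit 202) (nat_lit 159))) (XT.nd (nat_lit 78) (nat_lit 0) (nat_lit 0) (XT.lf (nat_lit 0) (nat_lit 218302046221) (nat_lit 76) (nat_lit 109682174035) (nat_lit 76) (nat_lit 86141297102) (nat_lit 1) (nat_lit 4) (nat_lit 2) (nat_lit 5) (nat_lit 2) (nat_lit 4) (nat_lit 240) (nat_lit 202) (nat_lit 158)) (XT.lf (nat_lit 0) (nat_lit 269305735822) (nat_lit 76) (nat_lit 114803584108) (nat_lit 76) (nat_lit 91256139085)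 (nat_lit 1) (nat_lit 4) (nat_lit 2) (nat_lit 5) (nat_lit 2) (nat_lit 4) (nat_lit 241) (nat_lit 202) (nat_lit 157)))) (XT.nd (nat_lit 156) (nat_lit 0) (nat_lit 0) (XT.nd (nat_lit 78) (nat_lit 0) (nat_lit 0) (XT.lf (nat_lit 0) (nat_lit 327950512967) (nat_lit 76) (nat_lit 120697245505) (nat_lit 76) (nat_lit 97144089099) (nat_lit 1) (nat_lit 4) (nat_lit 2) (nat_lit 5) (nat_lit 2) (nat_lit 4) (nat_lit 242) (nat_lit 202) (nat_lit 156)) (XT.lf (nat_lit 0) (nat_lit 395383775470) (nat_lit 76) (nat_lit 127478468991) (nat_lit 76) (nat_lit 103920346166) (nat_lit 1) (nat_lit 4) (nat_lit 2) (nat_lit 5) (nat_lit 2) (nat_lit 4) (nat_lit 243) (nat_lit 202) (nat_lit 155))) (XT.nd (nat_lit 78) (nat_lit 0) (nat_lit 0) (XT.lf (nat_lit 0) (nat_lit 472924869771) (nat_lit 76) (nat_lit 135279930680) (nat_lit 76) (nat_lit 111717489230) (nat_lit 1) (nat_lit 4) (nat_lit 2) (nat_lit 5) (nat_lit 2) (nat_lit 4) (nat_lit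 244) (nat_lit 202) (nat_lit 154)) (XT.lf (nat_lit 0) (nat_lit 562090904236) (nat_lit 76) (nat_lit 144254267865) (nat_lit 76) (nat_lit 120688071088) (nat_lit 1) (nat_lit 4) (nat_lit 2) (nat_lit 5) (nat_lit 2) (nat_lit 4) (nat_lit 245) (nat_lit 202) (nat_lit 153))))) (XT.nd (nat_lit 312) (nat_lit 0) (nat_lit 0) (XT.nd (nat_lit 156) (nat_lit 0) (nat_lit 0) (XT.nd (nat_lit 78) (nat_lit 0) (nat_lit 0) (XT.lf (nat_lit 0) (nat_lit 664626431715) (nat_lit 76) (nat_lit 154577065403) (nat_lit 76) (nat_lit 131007603125) (nat_lit 1) (nat_lit 4) (nat_lit 2) (nat_lit 5) (nat_lit 2) (nat_lit 4) (nat_lit 246) (nat_lit 202) (nat_lit 152)) (XT.lf (nat_lit 0) (nat_lit 782537582092) (nat_lit 76) (nat_lit 166450291074) (nat_lit 76) (nat_lit 142877989229) (nat_lit 1) (nat_lit 4) (nat_lit 2) (nat_lit 5) (nat_lit 2) (nat_lit 4) (nat_lit 247) (nat_lit 202) (nat_lit 151))) (XT.nd (nat_lit 78) (nat_lit 0) (nat_lit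 0) (XT.lf (nat_lit 0) (nat_lit 918131312658) (nat_lit 76) (nat_lit 180106247117) (nat_lit 76) (nat_lit 156531476084) (nat_lit 1) (nat_lit 4) (nat_lit 2) (nat_lit 5) (nat_lit 2) (nat_lit 4) (nat_lit 248) (nat_lit 202) (nat_lit 150)) (XT.lf (nat_lit 0) (nat_lit 1074060544227) (nat_lit 76) (nat_lit 195812115283) (nat_lit 76) (nat_lit 172235197130) (nat_lit 1) (nat_lit 4) (nat_lit 2) (nat_lit 5) (nat_lit 2) (nat_lit 4) (nat_lit 249) (nat_lit 202) (nat_lit 149)))) (XT.nd (nat_lit 156) (nat_lit 0) (nat_lit 0) (XT.nd (nat_lit 78) (nat_lit 0) (nat_lit 0) (XT.lf (nat_lit 0) (nat_lit 1253376066114) (nat_lit 76) (nat_lit 213875184295) (nat_lit 76) (nat_lit 190296399081) (nat_lit 1) (nat_lit 4) (nat_lit 2) (nat_lit 5) (nat_lit 2) (nat_lit 4) (nat_lit 250) (nat_lit 202) (nat_lit 148)) (XT.lf (nat_lit 0) (nat_lit 1459586225485) (nat_lit 76) (nat_lit 234648862026) (nat_lit 76) (nat_lit 211068453280)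 (nat_lit 1) (nat_lit 4) (nat_lit 2) (nat_lit 5) (nat_lit 2) (nat_lit 4) (nat_lit 251) (nat_lit 202) (nat_lit 147))) (XT.nd (nat_lit 78) (nat_lit 0) (nat_lit 0) (XT.lf (nat_lit 0) (nat_lit 1696725568938) (nat_lit 76) (nat_lit 258539589996) (nat_lit 76) (nat_lit 234957769485) (nat_lit 1) (nat_lit 4) (nat_lit 2) (nat_lit 5) (nat_lit 2) (nat_lit 4) (nat_lit 252) (nat_lit 202) (nat_lit 146)) (XT.nd (nat_lit 78) (nat_lit 0) (nat_lit 0) (XT.lf (nat_lit 0) (nat_lit 1969433779277) (nat_lit 76) (nat_lit 286014795493) (nat_lit 76) (nat_lit 262431747358) (nat_lit 1) (nat_lit 4) (nat_lit 2) (nat_lit 5) (nat_lit 2) (nat_lit 4) (nat_lit 253) (nat_lit 202) (nat_lit 145)) (XT.lf (nat_lit 0) (nat_lit 2283046451925) (nat_lit 76) (nat_lit 317612036884) (nat_lit 76) (nat_lit 294027921251) (nat_lit 1) (nat_lit 4) (nat_lit 2) (nat_lit 5) (nat_lit 2) (nat_lit 4) (nat_lit 254) (nat_lit 202) (nat_lit 144))))))))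
noncomputable def xc29 : XT := (XT.nd (nat_lit 28470) (nat_lit 0) (nat_lit 0) (XT.nd (nat_lit 27768) (nat_lit 0) (nat_lit 608) (XT.nd (nat_lit 27456) (nat_lit 0) (nat_lit 1672) (XT.nd (nat_lit 27300) (nat_lit 0) (nat_lit 2660) (XT.nd (nat_lit 27222) (nat_lit 0) (nat_lit 2660) (XT.lf (nat_lit 0) (nat_lit 2643699486996) (nat_lit 76) (nat_lit 353949521066) (nat_lit 76) (nat_lit 330364477174) (nat_lit 1) (nat_lit 4) (nat_lit 2) (nat_lit 5) (nat_lit 2) (nat_lit 4) (nat_lit 255) (nat_lit 202) (nat_lit 143)) (XT.lf (nat_lit 0) (nat_lit 640397666) (nat_lit 380) (nat_lit 1515203449) (nat_lit 380) (nat_lit 1515203449) (nat_lit 36) (nat_lit 3) (nat_lit 41) (nat_lit 3) (nat_lit 41) (nat_lit 5) (nat_lit 203) (nat_lit 203) (nat_lit 194))) (XT.nd (nat_lit 78) (nat_lit 0) (nat_lit 76) (XT.lf (nat_lit 76) (nat_lit 2525802332) (nat_lit 0) (nat_lit 1227822425) (nat_lit 380) (nat_lit 3921210244) (nat_lit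 37) (nat_lit 5) (nat_lit 36) (nat_lit 3) (nat_lit 41) (nat_lit 5) (nat_lit 204) (nat_lit 203) (nat_lit 193)) (XT.lf (nat_lit 76) (nat_lit 747713018) (nat_lit 0) (nat_lit 5600196040) (nat_lit 380) (nat_lit 1734945798) (nat_lit 38) (nat_lit 5) (nat_lit 37) (nat_lit 5) (nat_lit 42) (nat_lit 5) (nat_lit 205) (nat_lit 203) (nat_lit 192)))) (XT.nd (nat_lit 156) (nat_lit 684) (nat_lit 0) (XT.nd (nat_lit 78) (nat_lit 0) (nat_lit 76) (XT.lf (nat_lit 0) (nat_lit 548612430) (nat_lit 380) (nat_lit 1035734818) (nat_lit 456) (nat_lit 6985471325) (nat_lit 32) (nat_lit 5) (nat_lit 37) (nat_lit 5) (nat_lit 38) (nat_lit 5) (nat_lit 206) (nat_lit 203) (nat_lit 191)) (XT.lf (nat_lit 0) (nat_lit 2974951251) (nat_lit 380) (nat_lit 2995125658) (nat_lit 76) (nat_lit 3167304281) (nat_lit 33) (nat_lit 5) (nat_lit 38) (nat_lit 5) (nat_lit 34) (nat_lit 5) (nat_lit 207) (nat_lit 203) (nat_lit 190))) (XT.nd (nat_lit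 78) (nat_lit 380) (nat_lit 0) (XT.lf (nat_lit 0) (nat_lit 4607118101) (nat_lit 380) (nat_lit 1053095940) (nat_lit 456) (nat_lit 4141220588) (nat_lit 28) (nat_lit 5) (nat_lit 33) (nat_lit 5) (nat_lit 34) (nat_lit 5) (nat_lit 208) (nat_lit 203) (nat_lit 189)) (XT.lf (nat_lit 0) (nat_lit 2743846549) (nat_lit 380) (nat_lit 6013025960) (nat_lit 456) (nat_lit 1810104017) (nat_lit 23) (nat_lit 5) (nat_lit 28) (nat_lit 5) (nat_lit 29) (nat_lit 5) (nat_lit 209) (nat_lit 203) (nat_lit 188))))) (XT.nd (nat_lit 312) (nat_lit 456) (nat_lit 0) (XT.nd (nat_lit 156) (nat_lit 304) (nat_lit 0) (XT.nd (nat_lit 78) (nat_lit 0) (nat_lit 0) (XT.lf (nat_lit 0) (nat_lit 475251202) (nat_lit 228) (nat_lit 309998116) (nat_lit 304) (nat_lit 10665843653) (nat_lit 19) (nat_lit 5) (nat_lit 22) (nat_lit 5) (nat_lit 23) (nat_lit 5) (nat_lit 210) (nat_lit 203) (nat_lit 187)) (XT.lf (nat_lit 0) (nat_lit 3837375089) (nat_lit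 304) (nat_lit 2407851438) (nat_lit 76) (nat_lit 6206665878) (nat_lit 19) (nat_lit 5) (nat_lit 23) (nat_lit 5) (nat_lit 20) (nat_lit 5) (nat_lit 211) (nat_lit 203) (nat_lit 186))) (XT.nd (nat_lit 78) (nat_lit 152) (nat_lit 0) (XT.lf (nat_lit 0) (nat_lit 7360167537) (nat_lit 228) (nat_lit 6004952072) (nat_lit 76) (nat_lit 238228322) (nat_lit 17) (nat_lit 5) (nat_lit 20) (nat_lit 5) (nat_lit 18) (nat_lit 5) (nat_lit 212) (nat_lit 203) (nat_lit 185)) (XT.lf (nat_lit 0) (nat_lit 4154564355) (nat_lit 152) (nat_lit 7435439977) (nat_lit 228) (nat_lit 3324587415) (nat_lit 15) (nat_lit 5) (nat_lit 17) (nat_lit 5) (nat_lit 18) (nat_lit 5) (nat_lit 213) (nat_lit 203) (nat_lit 184)))) (XT.nd (nat_lit 156) (nat_lit 228) (nat_lit 0) (XT.nd (nat_lit 78) (nat_lit 152) (nat_lit 0) (XT.lf (nat_lit 0) (nat_lit 55701368) (nat_lit 228) (nat_lit 411960871) (nat_lit 76) (nat_lit 15953853943) (nat_lit 14) (nat_lit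 5) (nat_lit 17) (nat_lit 5) (nat_lit 15) (nat_lit 5) (nat_lit 214) (nat_lit 203) (nat_lit 183)) (XT.lf (nat_lit 0) (nat_lit 4092366723) (nat_lit 228) (nat_lit 6512704054) (nat_lit 76) (nat_lit 7515757582) (nat_lit 12) (nat_lit 5) (nat_lit 15) (nat_lit 5) (nat_lit 13) (nat_lit 5) (nat_lit 215) (nat_lit 203) (nat_lit 182))) (XT.nd (nat_lit 78) (nat_lit 76) (nat_lit 0) (XT.lf (nat_lit 0) (nat_lit 5474169411) (nat_lit 152) (nat_lit 3296149083) (nat_lit 228) (nat_lit 11302683922) (nat_lit 10) (nat_lit 5) (nat_lit 12) (nat_lit 5) (nat_lit 13) (nat_lit 5) (nat_lit 216) (nat_lit 203) (nat_lit 181)) (XT.nd (nat_lit 78) (nat_lit 76) (nat_lit 0) (XT.lf (nat_lit 0) (nat_lit 14357264552) (nat_lit 228) (nat_lit 2939775477) (nat_lit 76) (nat_lit 5005098416) (nat_lit 10) (nat_lit 5) (nat_lit 13) (nat_lit 5) (nat_lit 11) (nat_lit 4) (nat_lit 217) (nat_lit 203) (nat_lit 180)) (XT.lf (nat_lit 0) (nat_lit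 10774568360) (nat_lit 76) (nat_lit 10262230002) (nat_lit 152) (nat_lit 3809108923) (nat_lit 9) (nat_lit 5) (nat_lit 10) (nat_lit 5) (nat_lit 11) (nat_lit 4) (nat_lit 218) (nat_lit 203) (nat_lit 179))))))) (XT.nd (nat_lit 624) (nat_lit 152) (nat_lit 0) (XT.nd (nat_lit 312) (nat_lit 152) (nat_lit 0) (XT.nd (nat_lit 156) (nat_lit 76) (nat_lit 0) (XT.nd (nat_lit 78) (nat_lit 152) (nat_lit 0) (XT.lf (nat_lit 0) (nat_lit 898327651) (nat_lit 152) (nat_lit 1199931257) (nat_lit 76) (nat_lit 25671770107) (nat_lit 8) (nat_lit 5) (nat_lit 10) (nat_lit 5) (nat_lit 9) (nat_lit 5) (nat_lit 219) (nat_lit 203) (nat_lit 178)) (XT.lf (nat_lit 0) (nat_lit 6539889101) (nat_lit 228) (nat_lit 17205470236) (nat_lit 76) (nat_lit 7343648879) (nat_lit 6) (nat_lit 5) (nat_lit 9) (nat_lit 5) (nat_lit 7) (nat_lit 4) (nat_lit 220) (nat_lit 203) (nat_lit 177))) (XT.nd (nat_lit 78) (nat_lit 76) (nat_lit 0) (XT.lf (nat_lit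 0) (nat_lit 13050692440) (nat_lit 228) (nat_lit 3772029175) (nat_lit 76) (nat_lit 18081653230) (nat_lit 6) (nat_lit 5) (nat_lit 9) (nat_lit 5) (nat_lit 7) (nat_lit 4) (nat_lit 221) (nat_lit 203) (nat_lit 176)) (XT.lf (nat_lit 0) (nat_lit 12188547329) (nat_lit 76) (nat_lit 8581080254) (nat_lit 152) (nat_lit 18504229425) (nat_lit 5) (nat_lit 5) (nat_lit 6) (nat_lit 5) (nat_lit 7) (nat_lit 4) (nat_lit 222) (nat_lit 203) (nat_lit 175)))) (XT.nd (nat_lit 156) (nat_lit 76) (nat_lit 0) (XT.nd (nat_lit 78) (nat_lit 76) (nat_lit 0) (XT.lf (nat_lit 0) (nat_lit 29724099705) (nat_lit 152) (nat_lit 13636042251) (nat_lit 0) (nat_lit 932692018) (nat_lit 5) (nat_lit 5) (nat_lit 7) (nat_lit 4) (nat_lit 5) (nat_lit 4) (nat_lit 223) (nat_lit 203) (nat_lit 174)) (XT.lf (nat_lit 0) (nat_lit 1591800384) (nat_lit 76) (nat_lit 38656389141) (nat_lit 76) (nat_lit 9798602826) (nat_lit 4) (nat_lit 4) (nat_lit 5)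 (nat_lit 5) (nat_lit 5) (nat_lit 4) (nat_lit 224) (nat_lit 203) (nat_lit 173))) (XT.nd (nat_lit 78) (nat_lit 76) (nat_lit 0) (XT.lf (nat_lit 0) (nat_lit 19855330668) (nat_lit 76) (nat_lit 32848020953) (nat_lit 76) (nat_lit 3932514092) (nat_lit 4) (nat_lit 4) (nat_lit 5) (nat_lit 5) (nat_lit 5) (nat_lit 4) (nat_lit 225) (nat_lit 203) (nat_lit 172)) (XT.lf (nat_lit 0) (nat_lit 2632829536) (nat_lit 152) (nat_lit 23489413204) (nat_lit 76) (nat_lit 38089012958) (nat_lit 3) (nat_lit 5) (nat_lit 5) (nat_lit 5) (nat_lit 4) (nat_lit 4) (nat_lit 226) (nat_lit 203) (nat_lit 171))))) (XT.nd (nat_lit 312) (nat_lit 76) (nat_lit 0) (XT.nd (nat_lit 156) (nat_lit 0) (nat_lit 0) (XT.nd (nat_lit 78) (nat_lit 76) (nat_lit 0) (XT.lf (nat_lit 0) (nat_lit 9922036513) (nat_lit 152) (nat_lit 8371507717) (nat_lit 76) (nat_lit 54623638231) (nat_lit 3) (nat_lit 5) (nat_lit 5) (nat_lit 5) (nat_lit 4) (nat_lit 4)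 (nat_lit 227) (nat_lit 203) (nat_lit 170)) (XT.lf (nat_lit 0) (nat_lit 9435547899) (nat_lit 76) (nat_lit 9065819292) (nat_lit 152) (nat_lit 64412024313) (nat_lit 2) (nat_lit 5) (nat_lit 3) (nat_lit 5) (nat_lit 4) (nat_lit 4) (nat_lit 228) (nat_lit 203) (nat_lit 169))) (XT.nd (nat_lit 78) (nat_lit 0) (nat_lit 0) (XT.lf (nat_lit 0) (nat_lit 28627025492) (nat_lit 152) (nat_lit 64060543692) (nat_lit 0) (nat_lit 1700823852) (nat_lit 2) (nat_lit 5) (nat_lit 4) (nat_lit 4) (nat_lit 2) (nat_lit 4) (nat_lit 229) (nat_lit 203) (nat_lit 168)) (XT.lf (nat_lit 0) (nat_lit 40498085562) (nat_lit 152) (nat_lit 53523222980) (nat_lit 0) (nat_lit 13545312337) (nat_lit 2) (nat_lit 5) (nat_lit 4) (nat_lit 4) (nat_lit 2) (nat_lit 4) (nat_lit 230) (nat_lit 203) (nat_lit 167)))) (XT.nd (nat_lit 156) (nat_lit 76) (nat_lit 0) (XT.nd (nat_lit 78) (nat_lit 0) (nat_lit 0) (XT.lf (nat_lit 0) (nat_lit 54128774102)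 (nat_lit 152) (nat_lit 41441683328) (nat_lit 0) (nat_lit 27152895150) (nat_lit 2) (nat_lit 5) (nat_lit 4) (nat_lit 4) (nat_lit 2) (nat_lit 4) (nat_lit 231) (nat_lit 203) (nat_lit 166)) (XT.lf (nat_lit 0) (nat_lit 69785778496) (nat_lit 152) (nat_lit 27579546786) (nat_lit 0) (nat_lit 42789807608) (nat_lit 2) (nat_lit 5) (nat_lit 4) (nat_lit 4) (nat_lit 2) (nat_lit 4) (nat_lit 232) (nat_lit 203) (nat_lit 165))) (XT.nd (nat_lit 78) (nat_lit 76) (nat_lit 0) (XT.lf (nat_lit 0) (nat_lit 87775431438) (nat_lit 152) (nat_lit 11665597639) (nat_lit 0) (nat_lit 60761989301) (nat_lit 2) (nat_lit 5) (nat_lit 4) (nat_lit 4) (nat_lit 2) (nat_lit 4) (nat_lit 233) (nat_lit 203) (nat_lit 164)) (XT.nd (nat_lit 78) (nat_lit 0) (nat_lit 0) (XT.lf (nat_lit 0) (nat_lit 6959675123) (nat_lit 76) (nat_lit 101657409631) (nat_lit 76) (nat_lit 74628775103) (nat_lit 1) (nat_lit 4) (nat_lit 2) (nat_lit 5) (nat_lit 2)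 (nat_lit 4) (nat_lit 234) (nat_lit 203) (nat_lit 163)) (XT.lf (nat_lit 0) (nat_lit 29063276761) (nat_lit 76) (nat_lit 103848789770) (nat_lit 76) (nat_lit 76806944468) (nat_lit 1) (nat_lit 4) (nat_lit 2) (nat_lit 5) (nat_lit 2) (nat_lit 4) (nat_lit 235) (nat_lit 203) (nat_lit 162))))))))
noncomputable def xc30 : XT := (XT.nd (nat_lit 1248) (nat_lit 0) (nat_lit 0) (XT.nd (nat_lit 624) (nat_lit 0) (nat_lit 0) (XT.nd (nat_lit 312) (nat_lit 0) (nat_lit 0) (XT.nd (nat_lit 156) (nat_lit 0) (nat_lit 0) (XT.nd (nat_lit 78) (nat_lit 0) (nat_lit 0) (XT.lf (nat_lit 0) (nat_lit 54463379347) (nat_lit 76) (nat_lit 106377002437) (nat_lit 76) (nat_lit 79323669505) (nat_lit 1) (nat_lit 4) (nat_lit 2) (nat_lit 5) (nat_lit 2) (nat_lit 4) (nat_lit 236) (nat_lit 203) (nat_lit 161)) (XT.lf (nat_lit 0) (nat_lit 83656941409) (nat_lit 76) (nat_lit 109291512662) (nat_lit 76) (nat_lit 82228190487) (nat_lit 1) (nat_lit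 4) (nat_lit 2) (nat_lit 5) (nat_lit 2) (nat_lit 4) (nat_lit 237) (nat_lit 203) (nat_lit 160))) (XT.nd (nat_lit 78) (nat_lit 0) (nat_lit 0) (XT.lf (nat_lit 0) (nat_lit 117215141335) (nat_lit 76) (nat_lit 112649343471) (nat_lit 76) (nat_lit 85577334997) (nat_lit 1) (nat_lit 4) (nat_lit 2) (nat_lit 5) (nat_lit 2) (nat_lit 4) (nat_lit 238) (nat_lit 203) (nat_lit 159)) (XT.lf (nat_lit 0) (nat_lit 155794552603) (nat_lit 76) (nat_lit 116516191554) (nat_lit 76) (nat_lit 89436629777) (nat_lit 1) (nat_lit 4) (nat_lit 2) (nat_lit 5) (nat_lit 2) (nat_lit 4) (nat_lit 239) (nat_lit 203) (nat_lit 158)))) (XT.nd (nat_lit 156) (nat_lit 0) (nat_lit 0) (XT.nd (nat_lit 78) (nat_lit 0) (nat_lit 0) (XT.lf (nat_lit 0) (nat_lit 200149989781) (nat_lit 76) (nat_lit 120967712634) (nat_lit 76) (nat_lit 93881582768) (nat_lit 1) (nat_lit 4) (nat_lit 2) (nat_lit 5) (nat_lit 2) (nat_lit 4) (nat_lit 240) (nat_lit 203)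 (nat_lit 157)) (XT.lf (nat_lit 0) (nat_lit 251149276640) (nat_lit 76) (nat_lit 126091001690) (nat_lit 76) (nat_lit 98999160441) (nat_lit 1) (nat_lit 4) (nat_lit 2) (nat_lit 5) (nat_lit 2) (nat_lit 4) (nat_lit 241) (nat_lit 203) (nat_lit 156))) (XT.nd (nat_lit 78) (nat_lit 0) (nat_lit 0) (XT.lf (nat_lit 0) (nat_lit 309790225313) (nat_lit 76) (nat_lit 131986296984) (nat_lit 76) (nat_lit 104889489316) (nat_lit 1) (nat_lit 4) (nat_lit 2) (nat_lit 5) (nat_lit 2) (nat_lit 4) (nat_lit 242) (nat_lit 203) (nat_lit 155)) (XT.lf (nat_lit 0) (nat_lit 377220158710) (nat_lit 76) (nat_lit 138768941252) (nat_lit 76) (nat_lit 111667814959) (nat_lit 1) (nat_lit 4) (nat_lit 2) (nat_lit 5) (nat_lit 2) (nat_lit 4) (nat_lit 243) (nat_lit 203) (nat_lit 154))))) (XT.nd (nat_lit 312) (nat_lit 0) (nat_lit 0) (XT.nd (nat_lit 156) (nat_lit 0) (nat_lit 0) (XT.nd (nat_lit 78) (nat_lit 0) (nat_lit 0) (XT.lf (nat_lit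 0) (nat_lit 454758358136) (nat_lit 76) (nat_lit 146571638403) (nat_lit 76) (nat_lit 119466756783) (nat_lit 1) (nat_lit 4) (nat_lit 2) (nat_lit 5) (nat_lit 2) (nat_lit 4) (nat_lit 244) (nat_lit 203) (nat_lit 153)) (XT.lf (nat_lit 0) (nat_lit 543921875320) (nat_lit 76) (nat_lit 155547049902) (nat_lit 76) (nat_lit 128438902780) (nat_lit 1) (nat_lit 4) (nat_lit 2) (nat_lit 5) (nat_lit 2) (nat_lit 4) (nat_lit 245) (nat_lit 203) (nat_lit 152))) (XT.nd (nat_lit 78) (nat_lit 0) (nat_lit 0) (XT.lf (nat_lit 0) (nat_lit 646455213857) (nat_lit 76) (nat_lit 165870781627) (nat_lit 76) (nat_lit 138759794939) (nat_lit 1) (nat_lit 4) (nat_lit 2) (nat_lit 5) (nat_lit 2) (nat_lit 4) (nat_lit 246) (nat_lit 203) (nat_lit 151)) (XT.lf (nat_lit 0) (nat_lit 764364460807) (nat_lit 76) (nat_lit 177744819633) (nat_lit 76) (nat_lit 150631363757) (nat_lit 1) (nat_lit 4) (nat_lit 2) (nat_lit 5) (nat_lit 2) (nat_lit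 4) (nat_lit 247) (nat_lit 203) (nat_lit 150)))) (XT.nd (nat_lit 156) (nat_lit 0) (nat_lit 0) (XT.nd (nat_lit 78) (nat_lit 0) (nat_lit 0) (XT.lf (nat_lit 0) (nat_lit 899956536219) (nat_lit 76) (nat_lit 191401482056) (nat_lit 76) (nat_lit 164285879060) (nat_lit 1) (nat_lit 4) (nat_lit 2) (nat_lit 5) (nat_lit 2) (nat_lit 4) (nat_lit 248) (nat_lit 203) (nat_lit 149)) (XT.lf (nat_lit 0) (nat_lit 1055884328524) (nat_lit 76) (nat_lit 207107964464) (nat_lit 76) (nat_lit 179990494407) (nat_lit 1) (nat_lit 4) (nat_lit 2) (nat_lit 5) (nat_lit 2) (nat_lit 4) (nat_lit 249) (nat_lit 203) (nat_lit 148))) (XT.nd (nat_lit 78) (nat_lit 0) (nat_lit 0) (XT.lf (nat_lit 0) (nat_lit 1235198598877) (nat_lit 76) (nat_lit 225171567601) (nat_lit 76) (nat_lit 198052474012) (nat_lit 1) (nat_lit 4) (nat_lit 2) (nat_lit 5) (nat_lit 2) (nat_lit 4) (nat_lit 250) (nat_lit 203) (nat_lit 147)) (XT.lf (nat_lit 0) (nat_lit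 1441407669958) (nat_lit 76) (nat_lit 245945709787) (nat_lit 76) (nat_lit 218825204432) (nat_lit 1) (nat_lit 4) (nat_lit 2) (nat_lit 5) (nat_lit 2) (nat_lit 4) (nat_lit 251) (nat_lit 203) (nat_lit 146)))))) (XT.nd (nat_lit 27846) (nat_lit 0) (nat_lit 836) (XT.nd (nat_lit 27534) (nat_lit 0) (nat_lit 2356) (XT.nd (nat_lit 156) (nat_lit 0) (nat_lit 0) (XT.nd (nat_lit 78) (nat_lit 0) (nat_lit 0) (XT.lf (nat_lit 0) (nat_lit 1678546067070) (nat_lit 76) (nat_lit 269836841632) (nat_lit 76) (nat_lit 242715108655) (nat_lit 1) (nat_lit 4) (nat_lit 2) (nat_lit 5) (nat_lit 2) (nat_lit 4) (nat_lit 252) (nat_lit 203) (nat_lit 145)) (XT.lf (nat_lit 0) (nat_lit 1951253454506) (nat_lit 76) (nat_lit 297312398324) (nat_lit 76) (nat_lit 270189597848) (nat_lit 1) (nat_lit 4) (nat_lit 2) (nat_lit 5) (nat_lit 2) (nat_lit 4) (nat_lit 253) (nat_lit 203) (nat_lit 144))) (XT.nd (nat_lit 78) (nat_lit 0) (nat_lit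 0) (XT.lf (nat_lit 0) (nat_lit 2264865411585) (nat_lit 76) (nat_lit 328909945103) (nat_lit 76) (nat_lit 301786216367) (nat_lit 1) (nat_lit 4) (nat_lit 2) (nat_lit 5) (nat_lit 2) (nat_lit 4) (nat_lit 254) (nat_lit 203) (nat_lit 143)) (XT.lf (nat_lit 0) (nat_lit 2625517824423) (nat_lit 76) (nat_lit 365247694839) (nat_lit 76) (nat_lit 338123158922) (nat_lit 1) (nat_lit 4) (nat_lit 2) (nat_lit 5) (nat_lit 2) (nat_lit 4) (nat_lit 255) (nat_lit 203) (nat_lit 142)))) (XT.nd (nat_lit 156) (nat_lit 304) (nat_lit 0) (XT.nd (nat_lit 78) (nat_lit 0) (nat_lit 0) (XT.lf (nat_lit 0) (nat_lit 2956579862) (nat_lit 380) (nat_lit 530555425) (nat_lit 380) (nat_lit 530555425) (nat_lit 36) (nat_lit 3) (nat_lit 41) (nat_lit 3) (nat_lit 41) (nat_lit 5) (nat_lit 204) (nat_lit 204) (nat_lit 192)) (XT.lf (nat_lit 76) (nat_lit 5123362336) (nat_lit 0) (nat_lit 3107748361) (nat_lit 380) (nat_lit 236359853) (nat_lit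 37) (nat_lit 5) (nat_lit 36) (nat_lit 3) (nat_lit 41) (nat_lit 5) (nat_lit 205) (nat_lit 204) (nat_lit 191))) (XT.nd (nat_lit 78) (nat_lit 0) (nat_lit 0) (XT.lf (nat_lit 0) (nat_lit 1657173608) (nat_lit 380) (nat_lit 5767319714) (nat_lit 456) (nat_lit 1553842615) (nat_lit 32) (nat_lit 5) (nat_lit 37) (nat_lit 5) (nat_lit 38) (nat_lit 5) (nat_lit 206) (nat_lit 204) (nat_lit 190)) (XT.lf (nat_lit 76) (nat_lit 1144513909) (nat_lit 0) (nat_lit 2603093285) (nat_lit 456) (nat_lit 5826537864) (nat_lit 33) (nat_lit 5) (nat_lit 32) (nat_lit 5) (nat_lit 38) (nat_lit 5) (nat_lit 207) (nat_lit 204) (nat_lit 189))))) (XT.nd (nat_lit 312) (nat_lit 532) (nat_lit 0) (XT.nd (nat_lit 156) (nat_lit 684) (nat_lit 0) (XT.nd (nat_lit 78) (nat_lit 380) (nat_lit 0) (XT.lf (nat_lit 0) (nat_lit 6141937508) (nat_lit 380) (nat_lit 1096663506) (nat_lit 76) (nat_lit 3024066939) (nat_lit 33) (nat_lit 5) (nat_lit 38)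 (nat_lit 5) (nat_lit 34) (nat_lit 5) (nat_lit 208) (nat_lit 204) (nat_lit 188)) (XT.lf (nat_lit 0) (nat_lit 7447193081) (nat_lit 380) (nat_lit 1479600717) (nat_lit 456) (nat_lit 2127399232) (nat_lit 28) (nat_lit 5) (nat_lit 33) (nat_lit 5) (nat_lit 34) (nat_lit 5) (nat_lit 209) (nat_lit 204) (nat_lit 187))) (XT.nd (nat_lit 78) (nat_lit 228) (nat_lit 0) (XT.lf (nat_lit 0) (nat_lit 247032333) (nat_lit 456) (nat_lit 6637964419) (nat_lit 76) (nat_lit 5073703290) (nat_lit 22) (nat_lit 5) (nat_lit 28) (nat_lit 5) (nat_lit 23) (nat_lit 5) (nat_lit 210) (nat_lit 204) (nat_lit 186)) (XT.lf (nat_lit 0) (nat_lit 2659701811) (nat_lit 228) (nat_lit 228522533) (nat_lit 304) (nat_lit 10104877275) (nat_lit 19) (nat_lit 5) (nat_lit 22) (nat_lit 5) (nat_lit 23) (nat_lit 5) (nat_lit 211) (nat_lit 204) (nat_lit 185)))) (XT.nd (nat_lit 156) (nat_lit 380) (nat_lit 0) (XT.nd (nat_lit 78) (nat_lit 152) (nat_lit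 0) (XT.lf (nat_lit 0) (nat_lit 6141907820) (nat_lit 304) (nat_lit 781428791) (nat_lit 76) (nat_lit 7243381810) (nat_lit 19) (nat_lit 5) (nat_lit 23) (nat_lit 5) (nat_lit 20) (nat_lit 5) (nat_lit 212) (nat_lit 204) (nat_lit 184)) (XT.lf (nat_lit 0) (nat_lit 10017908810) (nat_lit 228) (nat_lit 4956373891) (nat_lit 76) (nat_lit 532536451) (nat_lit 17) (nat_lit 5) (nat_lit 20) (nat_lit 5) (nat_lit 18) (nat_lit 5) (nat_lit 213) (nat_lit 204) (nat_lit 183))) (XT.nd (nat_lit 78) (nat_lit 228) (nat_lit 0) (XT.lf (nat_lit 0) (nat_lit 6562069687) (nat_lit 152) (nat_lit 8160405765) (nat_lit 228) (nat_lit 2306714657) (nat_lit 15) (nat_lit 5) (nat_lit 17) (nat_lit 5) (nat_lit 18) (nat_lit 5) (nat_lit 214) (nat_lit 204) (nat_lit 182)) (XT.nd (nat_lit 78) (nat_lit 0) (nat_lit 0) (XT.lf (nat_lit 0) (nat_lit 1213412412) (nat_lit 152) (nat_lit 132606197) (nat_lit 228) (nat_lit 17427252771) (nat_lit 12)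 (nat_lit 5) (nat_lit 14) (nat_lit 5) (nat_lit 15) (nat_lit 5) (nat_lit 215) (nat_lit 204) (nat_lit 181)) (XT.lf (nat_lit 0) (nat_lit 5840145696) (nat_lit 228) (nat_lit 5911792687) (nat_lit 76) (nat_lit 8988547906) (nat_lit 12) (nat_lit 5) (nat_lit 15) (nat_lit 5) (nat_lit 13) (nat_lit 5) (nat_lit 216) (nat_lit 204) (nat_lit 180))))))))
noncomputable def xc31 : XT := (XT.nd (nat_lit 1326) (nat_lit 76) (nat_lit 0) (XT.nd (nat_lit 624) (nat_lit 228) (nat_lit 0) (XT.nd (nat_lit 312) (nat_lit 228) (nat_lit 0) (XT.nd (nat_lit 156) (nat_lit 152) (nat_lit 0) (XT.nd (nat_lit 78) (nat_lit 0) (nat_lit 0) (XT.lf (nat_lit 0) (nat_lit 7739557449) (nat_lit 152) (nat_lit 3367064208) (nat_lit 228) (nat_lit 11888929466) (nat_lit 10) (nat_lit 5) (nat_lit 12) (nat_lit 5) (nat_lit 13) (nat_lit 5) (nat_lit 217) (nat_lit 204) (nat_lit 179)) (XT.lf (nat_lit 0) (nat_lit 17407324451) (nat_lit 228) (nat_lit 2056847084)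 (nat_lit 76) (nat_lit 6105708126) (nat_lit 10) (nat_lit 5) (nat_lit 13) (nat_lit 5) (nat_lit 11) (nat_lit 4) (nat_lit 218) (nat_lit 204) (nat_lit 178))) (XT.nd (nat_lit 78) (nat_lit 76) (nat_lit 0) (XT.lf (nat_lit 0) (nat_lit 13602587236) (nat_lit 76) (nat_lit 11398414828) (nat_lit 152) (nat_lit 3501999266) (nat_lit 9) (nat_lit 5) (nat_lit 10) (nat_lit 5) (nat_lit 11) (nat_lit 4) (nat_lit 219) (nat_lit 204) (nat_lit 177)) (XT.lf (nat_lit 0) (nat_lit 1758755988) (nat_lit 152) (nat_lit 283835466) (nat_lit 76) (nat_lit 29830783445) (nat_lit 8) (nat_lit 5) (nat_lit 10) (nat_lit 5) (nat_lit 9) (nat_lit 5) (nat_lit 220) (nat_lit 204) (nat_lit 176)))) (XT.nd (nat_lit 156) (nat_lit 76) (nat_lit 0) (XT.nd (nat_lit 78) (nat_lit 0) (nat_lit 0) (XT.lf (nat_lit 0) (nat_lit 8184400486) (nat_lit 228) (nat_lit 18735375334) (nat_lit 76) (nat_lit 8775932575) (nat_lit 6) (nat_lit 5) (nat_lit 9) (nat_lit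 5) (nat_lit 7) (nat_lit 4) (nat_lit 221) (nat_lit 204) (nat_lit 175)) (XT.lf (nat_lit 0) (nat_lit 15585277193) (nat_lit 228) (nat_lit 3423994040) (nat_lit 76) (nat_lit 21081498054) (nat_lit 6) (nat_lit 5) (nat_lit 9) (nat_lit 5) (nat_lit 7) (nat_lit 4) (nat_lit 222) (nat_lit 204) (nat_lit 174))) (XT.nd (nat_lit 78) (nat_lit 0) (nat_lit 0) (XT.lf (nat_lit 0) (nat_lit 14853316976) (nat_lit 76) (nat_lit 9553594801) (nat_lit 152) (nat_lit 20713578045) (nat_lit 5) (nat_lit 5) (nat_lit 6) (nat_lit 5) (nat_lit 7) (nat_lit 4) (nat_lit 223) (nat_lit 204) (nat_lit 173)) (XT.lf (nat_lit 0) (nat_lit 34643068865) (nat_lit 152) (nat_lit 14921999887) (nat_lit 0) (nat_lit 1332515430) (nat_lit 5) (nat_lit 5) (nat_lit 7) (nat_lit 4) (nat_lit 5) (nat_lit 4) (nat_lit 224) (nat_lit 204) (nat_lit 172))))) (XT.nd (nat_lit 312) (nat_lit 76) (nat_lit 0) (XT.nd (nat_lit 156) (nat_lit 76) (nat_lit 0) (XT.nd (nat_lit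 78) (nat_lit 0) (nat_lit 0) (XT.lf (nat_lit 0) (nat_lit 2525735594) (nat_lit 76) (nat_lit 44176709104) (nat_lit 76) (nat_lit 10815963889) (nat_lit 4) (nat_lit 4) (nat_lit 5) (nat_lit 5) (nat_lit 5) (nat_lit 4) (nat_lit 225) (nat_lit 204) (nat_lit 171)) (XT.lf (nat_lit 0) (nat_lit 23438121704) (nat_lit 76) (nat_lit 37533364610) (nat_lit 76) (nat_lit 4128974370) (nat_lit 4) (nat_lit 4) (nat_lit 5) (nat_lit 5) (nat_lit 5) (nat_lit 4) (nat_lit 226) (nat_lit 204) (nat_lit 170))) (XT.nd (nat_lit 78) (nat_lit 0) (nat_lit 0) (XT.lf (nat_lit 0) (nat_lit 3352742255) (nat_lit 152) (nat_lit 26468638543) (nat_lit 76) (nat_lit 43994135584) (nat_lit 3) (nat_lit 5) (nat_lit 5) (nat_lit 5) (nat_lit 4) (nat_lit 4) (nat_lit 227) (nat_lit 204) (nat_lit 169)) (XT.lf (nat_lit 0) (nat_lit 11692940502) (nat_lit 152) (nat_lit 9154028100) (nat_lit 76) (nat_lit 62983941081) (nat_lit 3) (nat_lit 5) (nat_lit 5)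 (nat_lit 5) (nat_lit 4) (nat_lit 4) (nat_lit 228) (nat_lit 204) (nat_lit 168)))) (XT.nd (nat_lit 156) (nat_lit 0) (nat_lit 0) (XT.nd (nat_lit 78) (nat_lit 0) (nat_lit 0) (XT.lf (nat_lit 0) (nat_lit 11284031348) (nat_lit 76) (nat_lit 10248696058) (nat_lit 152) (nat_lit 73796100182) (nat_lit 2) (nat_lit 5) (nat_lit 3) (nat_lit 5) (nat_lit 4) (nat_lit 4) (nat_lit 229) (nat_lit 204) (nat_lit 167)) (XT.lf (nat_lit 0) (nat_lit 33147524443) (nat_lit 152) (nat_lit 73277914685) (nat_lit 0) (nat_lit 2102157921) (nat_lit 2) (nat_lit 5) (nat_lit 4) (nat_lit 4) (nat_lit 2) (nat_lit 4) (nat_lit 230) (nat_lit 204) (nat_lit 166))) (XT.nd (nat_lit 78) (nat_lit 0) (nat_lit 0) (XT.lf (nat_lit 0) (nat_lit 46769707203) (nat_lit 152) (nat_lit 61211088548) (nat_lit 0) (nat_lit 15704248745) (nat_lit 2) (nat_lit 5) (nat_lit 4) (nat_lit 4) (nat_lit 2) (nat_lit 4) (nat_lit 231) (nat_lit 204) (nat_lit 165)) (XT.nd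 (nat_lit 78) (nat_lit 0) (nat_lit 0) (XT.lf (nat_lit 0) (nat_lit 62419315266) (nat_lit 152) (nat_lit 47361746367) (nat_lit 0) (nat_lit 31336385559) (nat_lit 2) (nat_lit 5) (nat_lit 4) (nat_lit 4) (nat_lit 2) (nat_lit 4) (nat_lit 232) (nat_lit 204) (nat_lit 164)) (XT.lf (nat_lit 0) (nat_lit 80402536617) (nat_lit 152) (nat_lit 31458922752) (nat_lit 0) (nat_lit 49304414520) (nat_lit 2) (nat_lit 5) (nat_lit 4) (nat_lit 4) (nat_lit 2) (nat_lit 4) (nat_lit 233) (nat_lit 204) (nat_lit 163))))))) (XT.nd (nat_lit 624) (nat_lit 0) (nat_lit 0) (XT.nd (nat_lit 312) (nat_lit 0) (nat_lit 0) (XT.nd (nat_lit 156) (nat_lit 0) (nat_lit 0) (XT.nd (nat_lit 78) (nat_lit 76) (nat_lit 0) (XT.lf (nat_lit 0) (nat_lit 101071216891) (nat_lit 152) (nat_lit 13191475500) (nat_lit 0) (nat_lit 69959884019) (nat_lit 2) (nat_lit 5) (nat_lit 4) (nat_lit 4) (nat_lit 2) (nat_lit 4) (nat_lit 234) (nat_lit 204) (nat_lit 162))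 (XT.lf (nat_lit 0) (nat_lit 8208630927) (nat_lit 76) (nat_lit 116818530154) (nat_lit 76) (nat_lit 85695709652) (nat_lit 1) (nat_lit 4) (nat_lit 2) (nat_lit 5) (nat_lit 2) (nat_lit 4) (nat_lit 235) (nat_lit 204) (nat_lit 161))) (XT.nd (nat_lit 78) (nat_lit 0) (nat_lit 0) (XT.lf (nat_lit 0) (nat_lit 33601033088) (nat_lit 76) (nat_lit 119350029173) (nat_lit 76) (nat_lit 88217219428) (nat_lit 1) (nat_lit 4) (nat_lit 2) (nat_lit 5) (nat_lit 2) (nat_lit 4) (nat_lit 236) (nat_lit 204) (nat_lit 160)) (XT.lf (nat_lit 0) (nat_lit 62787899129) (nat_lit 76) (nat_lit 122267397096) (nat_lit 76) (nat_lit 91125901053) (nat_lit 1) (nat_lit 4) (nat_lit 2) (nat_lit 5) (nat_lit 2) (nat_lit 4) (nat_lit 237) (nat_lit 204) (nat_lit 159)))) (XT.nd (nat_lit 156) (nat_lit 0) (nat_lit 0) (XT.nd (nat_lit 78) (nat_lit 0) (nat_lit 0) (XT.lf (nat_lit 0) (nat_lit 96340276429) (nat_lit 76) (nat_lit 125627712860) (nat_lit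 76) (nat_lit 94478663513) (nat_lit 1) (nat_lit 4) (nat_lit 2) (nat_lit 5) (nat_lit 2) (nat_lit 4) (nat_lit 238) (nat_lit 204) (nat_lit 158)) (XT.lf (nat_lit 0) (nat_lit 134914624544) (nat_lit 76) (nat_lit 129496721773) (nat_lit 76) (nat_lit 98341104337) (nat_lit 1) (nat_lit 4) (nat_lit 2) (nat_lit 5) (nat_lit 2) (nat_lit 4) (nat_lit 239) (nat_lit 204) (nat_lit 157))) (XT.nd (nat_lit 78) (nat_lit 0) (nat_lit 0) (XT.lf (nat_lit 0) (nat_lit 179265658979) (nat_lit 76) (nat_lit 133950121836) (nat_lit 76) (nat_lit 102788793018) (nat_lit 1) (nat_lit 4) (nat_lit 2) (nat_lit 5) (nat_lit 2) (nat_lit 4) (nat_lit 240) (nat_lit 204) (nat_lit 156)) (XT.lf (nat_lit 0) (nat_lit 230261117366) (nat_lit 76) (nat_lit 139075044790) (nat_lit 76) (nat_lit 107908749552) (nat_lit 1) (nat_lit 4) (nat_lit 2) (nat_lit 5) (nat_lit 2) (nat_lit 4) (nat_lit 241) (nat_lit 204) (nat_lit 155))))) (XT.nd (nat_lit 312)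 (nat_lit 0) (nat_lit 0) (XT.nd (nat_lit 156) (nat_lit 0) (nat_lit 0) (XT.nd (nat_lit 78) (nat_lit 0) (nat_lit 0) (XT.lf (nat_lit 0) (nat_lit 288898736934) (nat_lit 76) (nat_lit 144971760865) (nat_lit 76) (nat_lit 113801147002) (nat_lit 1) (nat_lit 4) (nat_lit 2) (nat_lit 5) (nat_lit 2) (nat_lit 4) (nat_lit 242) (nat_lit 204) (nat_lit 154)) (XT.lf (nat_lit 0) (nat_lit 356325775456) (nat_lit 76) (nat_lit 151755640595) (nat_lit 76) (nat_lit 120581271405) (nat_lit 1) (nat_lit 4) (nat_lit 2) (nat_lit 5) (nat_lit 2) (nat_lit 4) (nat_lit 243) (nat_lit 204) (nat_lit 153))) (XT.nd (nat_lit 78) (nat_lit 0) (nat_lit 0) (XT.lf (nat_lit 0) (nat_lit 433861457600) (nat_lit 76) (nat_lit 159559412060) (nat_lit 76) (nat_lit 128381777369) (nat_lit 1) (nat_lit 4) (nat_lit 2) (nat_lit 5) (nat_lit 2) (nat_lit 4) (nat_lit 244) (nat_lit 204) (nat_lit 152)) (XT.lf (nat_lit 0) (nat_lit 523022785843) (nat_lit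 76) (nat_lit 168535757745) (nat_lit 76) (nat_lit 137355283488) (nat_lit 1) (nat_lit 4) (nat_lit 2) (nat_lit 5) (nat_lit 2) (nat_lit 4) (nat_lit 245) (nat_lit 204) (nat_lit 151)))) (XT.nd (nat_lit 156) (nat_lit 0) (nat_lit 0) (XT.nd (nat_lit 78) (nat_lit 0) (nat_lit 0) (XT.lf (nat_lit 0) (nat_lit 625554220953) (nat_lit 76) (nat_lit 178860301806) (nat_lit 76) (nat_lit 147677358361) (nat_lit 1) (nat_lit 4) (nat_lit 2) (nat_lit 5) (nat_lit 2) (nat_lit 4) (nat_lit 246) (nat_lit 204) (nat_lit 150)) (XT.lf (nat_lit 0) (nat_lit 743461812749) (nat_lit 76) (nat_lit 190735046192) (nat_lit 76) (nat_lit 159549955626) (nat_lit 1) (nat_lit 4) (nat_lit 2) (nat_lit 5) (nat_lit 2) (nat_lit 4) (nat_lit 247) (nat_lit 204) (nat_lit 149))) (XT.nd (nat_lit 78) (nat_lit 0) (nat_lit 0) (XT.lf (nat_lit 0) (nat_lit 879052448897) (nat_lit 76) (nat_lit 204392322858) (nat_lit 76) (nat_lit 173205365231) (nat_lit 1)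 (nat_lit 4) (nat_lit 2) (nat_lit 5) (nat_lit 2) (nat_lit 4) (nat_lit 248) (nat_lit 204) (nat_lit 148)) (XT.nd (nat_lit 78) (nat_lit 0) (nat_lit 0) (XT.lf (nat_lit 0) (nat_lit 1034978989668) (nat_lit 76) (nat_lit 220099339390) (nat_lit 76) (nat_lit 188910758232) (nat_lit 1) (nat_lit 4) (nat_lit 2) (nat_lit 5) (nat_lit 2) (nat_lit 4) (nat_lit 249) (nat_lit 204) (nat_lit 147)) (XT.lf (nat_lit 0) (nat_lit 1214292171730) (nat_lit 76) (nat_lit 238163406982) (nat_lit 76) (nat_lit 206973414058) (nat_lit 1) (nat_lit 4) (nat_lit 2) (nat_lit 5) (nat_lit 2) (nat_lit 4) (nat_lit 250) (nat_lit 204) (nat_lit 146))))))))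
noncomputable def xc32 : XT := (XT.nd (nat_lit 28548) (nat_lit 0) (nat_lit 76) (XT.nd (nat_lit 27924) (nat_lit 0) (nat_lit 1064) (XT.nd (nat_lit 312) (nat_lit 0) (nat_lit 0) (XT.nd (nat_lit 156) (nat_lit 0) (nat_lit 0) (XT.nd (nat_lit 78) (nat_lit 0) (nat_lit 0) (XT.lf (nat_lit 0) (nat_lit 1420500296471) (nat_lit 76) (nat_lit 258937953043) (nat_lit 76) (nat_lit 227746732496) (nat_lit 1) (nat_lit 4) (nat_lit 2) (nat_lit 5) (nat_lit 2) (nat_lit 4) (nat_lit 251) (nat_lit 204) (nat_lit 145)) (XT.lf (nat_lit 0) (nat_lit 1657637870680) (nat_lit 76) (nat_lit 282829436084) (nat_lit 76) (nat_lit 251637148038) (nat_lit 1) (nat_lit 4) (nat_lit 2) (nat_lit 5) (nat_lit 2) (nat_lit 4) (nat_lit 252) (nat_lit 204) (nat_lit 144))) (XT.nd (nat_lit 78) (nat_lit 0) (nat_lit 0) (XT.lf (nat_lit 0) (nat_lit 1930344542547) (nat_lit 76) (nat_lit 310305298163) (nat_lit 76) (nat_lit 279112081858) (nat_lit 1) (nat_lit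 4) (nat_lit 2) (nat_lit 5) (nat_lit 2) (nat_lit 4) (nat_lit 253) (nat_lit 204) (nat_lit 143)) (XT.lf (nat_lit 0) (nat_lit 2243955877392) (nat_lit 76) (nat_lit 341903110495) (nat_lit 76) (nat_lit 310709087009) (nat_lit 1) (nat_lit 4) (nat_lit 2) (nat_lit 5) (nat_lit 2) (nat_lit 4) (nat_lit 254) (nat_lit 204) (nat_lit 142)))) (XT.nd (nat_lit 27456) (nat_lit 0) (nat_lit 2280) (XT.nd (nat_lit 27378) (nat_lit 0) (nat_lit 2280) (XT.lf (nat_lit 0) (nat_lit 2604607749157) (nat_lit 76) (nat_lit 378241091148) (nat_lit 76) (nat_lit 347046365764) (nat_lit 1) (nat_lit 4) (nat_lit 2) (nat_lit 5) (nat_lit 2) (nat_lit 4) (nat_lit 255) (nat_lit 204) (nat_lit 141)) (XT.lf (nat_lit 0) (nat_lit 298500104) (nat_lit 0) (nat_lit 298500104) (nat_lit 380) (nat_lit 3866902380) (nat_lit 31) (nat_lit 5) (nat_lit 31) (nat_lit 3) (nat_lit 36) (nat_lit 3) (nat_lit 205) (nat_lit 205) (nat_lit 190))) (XT.nd (nat_lit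 78) (nat_lit 0) (nat_lit 76) (XT.lf (nat_lit 0) (nat_lit 2811180421) (nat_lit 380) (nat_lit 1968100108) (nat_lit 456) (nat_lit 4681471743) (nat_lit 31) (nat_lit 5) (nat_lit 36) (nat_lit 3) (nat_lit 37) (nat_lit 5) (nat_lit 206) (nat_lit 205) (nat_lit 189)) (XT.lf (nat_lit 0) (nat_lit 4591990791) (nat_lit 380) (nat_lit 4651238775) (nat_lit 456) (nat_lit 839296541) (nat_lit 32) (nat_lit 5) (nat_lit 37) (nat_lit 5) (nat_lit 38) (nat_lit 5) (nat_lit 207) (nat_lit 205) (nat_lit 188))))) (XT.nd (nat_lit 312) (nat_lit 532) (nat_lit 0) (XT.nd (nat_lit 156) (nat_lit 456) (nat_lit 0) (XT.nd (nat_lit 78) (nat_lit 304) (nat_lit 0) (XT.lf (nat_lit 76) (nat_lit 3129672966) (nat_lit 0) (nat_lit 3559551455) (nat_lit 456) (nat_lit 4106631322) (nat_lit 33) (nat_lit 5) (nat_lit 32) (nat_lit 5) (nat_lit 38) (nat_lit 5) (nat_lit 208) (nat_lit 205) (nat_lit 187)) (XT.lf (nat_lit 0) (nat_lit 541128326) (nat_lit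 380) (nat_lit 8592386977) (nat_lit 456) (nat_lit 2482014231) (nat_lit 28) (nat_lit 5) (nat_lit 33) (nat_lit 5) (nat_lit 34) (nat_lit 5) (nat_lit 209) (nat_lit 205) (nat_lit 186))) (XT.nd (nat_lit 78) (nat_lit 456) (nat_lit 0) (XT.lf (nat_lit 0) (nat_lit 10189230277) (nat_lit 380) (nat_lit 1904595936) (nat_lit 456) (nat_lit 454067193) (nat_lit 28) (nat_lit 5) (nat_lit 33) (nat_lit 5) (nat_lit 34) (nat_lit 5) (nat_lit 210) (nat_lit 205) (nat_lit 185)) (XT.lf (nat_lit 0) (nat_lit 1966144583) (nat_lit 456) (nat_lit 5888046942) (nat_lit 76) (nat_lit 5749105204) (nat_lit 22) (nat_lit 5) (nat_lit 28) (nat_lit 5) (nat_lit 23) (nat_lit 5) (nat_lit 211) (nat_lit 205) (nat_lit 184)))) (XT.nd (nat_lit 156) (nat_lit 152) (nat_lit 0) (XT.nd (nat_lit 78) (nat_lit 152) (nat_lit 0) (XT.lf (nat_lit 0) (nat_lit 4656511849) (nat_lit 228) (nat_lit 166033200) (nat_lit 304) (nat_lit 9986701172) (nat_lit 19)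 (nat_lit 5) (nat_lit 22) (nat_lit 5) (nat_lit 23) (nat_lit 5) (nat_lit 212) (nat_lit 205) (nat_lit 183)) (XT.lf (nat_lit 0) (nat_lit 636088015) (nat_lit 152) (nat_lit 7749720709) (nat_lit 228) (nat_lit 7789035520) (nat_lit 17) (nat_lit 5) (nat_lit 19) (nat_lit 5) (nat_lit 20) (nat_lit 5) (nat_lit 213) (nat_lit 205) (nat_lit 182))) (XT.nd (nat_lit 78) (nat_lit 152) (nat_lit 0) (XT.lf (nat_lit 0) (nat_lit 12695427753) (nat_lit 228) (nat_lit 4225863252) (nat_lit 76) (nat_lit 807935921) (nat_lit 17) (nat_lit 5) (nat_lit 20) (nat_lit 5) (nat_lit 18) (nat_lit 5) (nat_lit 214) (nat_lit 205) (nat_lit 181)) (XT.lf (nat_lit 0) (nat_lit 8895582921) (nat_lit 152) (nat_lit 9089305792) (nat_lit 228) (nat_lit 1505983957) (nat_lit 15) (nat_lit 5) (nat_lit 17) (nat_lit 5) (nat_lit 18) (nat_lit 5) (nat_lit 215) (nat_lit 205) (nat_lit 180)))))) (XT.nd (nat_lit 624) (nat_lit 304) (nat_lit 0) (XT.nd (nat_lit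 312) (nat_lit 304) (nat_lit 0) (XT.nd (nat_lit 156) (nat_lit 152) (nat_lit 0) (XT.nd (nat_lit 78) (nat_lit 0) (nat_lit 0) (XT.lf (nat_lit 0) (nat_lit 2530274680) (nat_lit 228) (nat_lit 18818155493) (nat_lit 76) (nat_lit 155502428) (nat_lit 12) (nat_lit 5) (nat_lit 15) (nat_lit 5) (nat_lit 13) (nat_lit 5) (nat_lit 216) (nat_lit 205) (nat_lit 179)) (XT.lf (nat_lit 0) (nat_lit 7573576976) (nat_lit 228) (nat_lit 5605505276) (nat_lit 76) (nat_lit 10598022294) (nat_lit 12) (nat_lit 5) (nat_lit 15) (nat_lit 5) (nat_lit 13) (nat_lit 5) (nat_lit 217) (nat_lit 205) (nat_lit 178))) (XT.nd (nat_lit 78) (nat_lit 0) (nat_lit 0) (XT.lf (nat_lit 0) (nat_lit 9992561106) (nat_lit 152) (nat_lit 3551891524) (nat_lit 228) (nat_lit 12833586811) (nat_lit 10) (nat_lit 5) (nat_lit 12) (nat_lit 5) (nat_lit 13) (nat_lit 5) (nat_lit 218) (nat_lit 205) (nat_lit 177)) (XT.lf (nat_lit 0) (nat_lit 20696283396) (nat_lit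 228) (nat_lit 1364319542) (nat_lit 76) (nat_lit 7286097387) (nat_lit 10) (nat_lit 5) (nat_lit 13) (nat_lit 5) (nat_lit 11) (nat_lit 4) (nat_lit 219) (nat_lit 205) (nat_lit 176)))) (XT.nd (nat_lit 156) (nat_lit 0) (nat_lit 0) (XT.nd (nat_lit 78) (nat_lit 228) (nat_lit 0) (XT.lf (nat_lit 0) (nat_lit 16559295640) (nat_lit 76) (nat_lit 12803337979) (nat_lit 152) (nat_lit 3363045095) (nat_lit 9) (nat_lit 5) (nat_lit 10) (nat_lit 5) (nat_lit 11) (nat_lit 4) (nat_lit 220) (nat_lit 205) (nat_lit 175)) (XT.lf (nat_lit 0) (nat_lit 528842132) (nat_lit 152) (nat_lit 2055163644) (nat_lit 228) (nat_lit 34022357133) (nat_lit 6) (nat_lit 5) (nat_lit 8) (nat_lit 5) (nat_lit 9) (nat_lit 5) (nat_lit 221) (nat_lit 205) (nat_lit 174))) (XT.nd (nat_lit 78) (nat_lit 0) (nat_lit 0) (XT.lf (nat_lit 0) (nat_lit 9913783069) (nat_lit 228) (nat_lit 20751038582) (nat_lit 76) (nat_lit 10342406669) (nat_lit 6) (nat_lit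 5) (nat_lit 9) (nat_lit 5) (nat_lit 7) (nat_lit 4) (nat_lit 222) (nat_lit 205) (nat_lit 173)) (XT.lf (nat_lit 0) (nat_lit 18359349216) (nat_lit 228) (nat_lit 3246599187) (nat_lit 76) (nat_lit 24461187291) (nat_lit 6) (nat_lit 5) (nat_lit 9) (nat_lit 5) (nat_lit 7) (nat_lit 4) (nat_lit 223) (nat_lit 205) (nat_lit 172))))) (XT.nd (nat_lit 312) (nat_lit 152) (nat_lit 0) (XT.nd (nat_lit 156) (nat_lit 76) (nat_lit 0) (XT.nd (nat_lit 78) (nat_lit 0) (nat_lit 0) (XT.lf (nat_lit 0) (nat_lit 17713819285) (nat_lit 76) (nat_lit 10748715312) (nat_lit 152) (nat_lit 23392421334) (nat_lit 5) (nat_lit 5) (nat_lit 6) (nat_lit 5) (nat_lit 7) (nat_lit 4) (nat_lit 224) (nat_lit 205) (nat_lit 171)) (XT.lf (nat_lit 0) (nat_lit 40187623112) (nat_lit 152) (nat_lit 16586047544) (nat_lit 0) (nat_lit 1728929310) (nat_lit 5) (nat_lit 5) (nat_lit 7) (nat_lit 4) (nat_lit 5) (nat_lit 4) (nat_lit 225) (nat_lit 205)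 (nat_lit 170))) (XT.nd (nat_lit 78) (nat_lit 0) (nat_lit 0) (XT.lf (nat_lit 0) (nat_lit 3430240660) (nat_lit 76) (nat_lit 50592902873) (nat_lit 76) (nat_lit 12096256875) (nat_lit 4) (nat_lit 4) (nat_lit 5) (nat_lit 5) (nat_lit 5) (nat_lit 4) (nat_lit 226) (nat_lit 205) (nat_lit 169)) (XT.lf (nat_lit 0) (nat_lit 27410922331) (nat_lit 76) (nat_lit 42980488783) (nat_lit 76) (nat_lit 4450840876) (nat_lit 4) (nat_lit 4) (nat_lit 5) (nat_lit 5) (nat_lit 5) (nat_lit 4) (nat_lit 227) (nat_lit 205) (nat_lit 168)))) (XT.nd (nat_lit 156) (nat_lit 76) (nat_lit 0) (XT.nd (nat_lit 78) (nat_lit 0) (nat_lit 0) (XT.lf (nat_lit 0) (nat_lit 4101391431) (nat_lit 152) (nat_lit 30027451042) (nat_lit 76) (nat_lit 50738262108) (nat_lit 3) (nat_lit 5) (nat_lit 5) (nat_lit 5) (nat_lit 4) (nat_lit 4) (nat_lit 228) (nat_lit 205) (nat_lit 167)) (XT.lf (nat_lit 0) (nat_lit 13660566653) (nat_lit 152) (nat_lit 10169320765)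 (nat_lit 76) (nat_lit 72557624579) (nat_lit 3) (nat_lit 5) (nat_lit 5) (nat_lit 5) (nat_lit 4) (nat_lit 4) (nat_lit 229) (nat_lit 205) (nat_lit 166))) (XT.nd (nat_lit 78) (nat_lit 0) (nat_lit 0) (XT.lf (nat_lit 0) (nat_lit 13304160634) (nat_lit 76) (nat_lit 11652165966) (nat_lit 152) (nat_lit 84655513109) (nat_lit 2) (nat_lit 5) (nat_lit 3) (nat_lit 5) (nat_lit 4) (nat_lit 4) (nat_lit 230) (nat_lit 205) (nat_lit 165)) (XT.nd (nat_lit 78) (nat_lit 0) (nat_lit 0) (XT.lf (nat_lit 0) (nat_lit 38290878159) (nat_lit 152) (nat_lit 83973412428) (nat_lit 0) (nat_lit 2528037747) (nat_lit 2) (nat_lit 5) (nat_lit 4) (nat_lit 4) (nat_lit 2) (nat_lit 4) (nat_lit 231) (nat_lit 205) (nat_lit 164)) (XT.lf (nat_lit 0) (nat_lit 53934054630) (nat_lit 152) (nat_lit 70135195778) (nat_lit 0) (nat_lit 18156021828) (nat_lit 2) (nat_lit 5) (nat_lit 4) (nat_lit 4) (nat_lit 2) (nat_lit 4) (nat_lit 232) (nat_lit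 205) (nat_lit 163))))))))
noncomputable def xc33 : XT := (XT.nd (nat_lit 1248) (nat_lit 0) (nat_lit 0) (XT.nd (nat_lit 624) (nat_lit 0) (nat_lit 0) (XT.nd (nat_lit 312) (nat_lit 0) (nat_lit 0) (XT.nd (nat_lit 156) (nat_lit 76) (nat_lit 0) (XT.nd (nat_lit 78) (nat_lit 0) (nat_lit 0) (XT.lf (nat_lit 0) (nat_lit 71911683293) (nat_lit 152) (nat_lit 54242046538) (nat_lit 0) (nat_lit 36120439716) (nat_lit 2) (nat_lit 5) (nat_lit 4) (nat_lit 4) (nat_lit 2) (nat_lit 4) (nat_lit 233) (nat_lit 205) (nat_lit 162)) (XT.lf (nat_lit 0) (nat_lit 92575500359) (nat_lit 152) (nat_lit 35983011787) (nat_lit 0) (nat_lit 56772769153) (nat_lit 2) (nat_lit 5) (nat_lit 4) (nat_lit 4) (nat_lit 2) (nat_lit 4) (nat_lit 234) (nat_lit 205) (nat_lit 161))) (XT.nd (nat_lit 78) (nat_lit 76) (nat_lit 0) (XT.lf (nat_lit 0) (nat_lit 116329797902) (nat_lit 152) (nat_lit 15000849540) (nat_lit 0) (nat_lit 80517077452) (nat_lit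 2) (nat_lit 5) (nat_lit 4) (nat_lit 4) (nat_lit 2) (nat_lit 4) (nat_lit 235) (nat_lit 205) (nat_lit 160)) (XT.lf (nat_lit 0) (nat_lit 9594938447) (nat_lit 76) (nat_lit 134275153970) (nat_lit 76) (nat_lit 98453747222) (nat_lit 1) (nat_lit 4) (nat_lit 2) (nat_lit 5) (nat_lit 2) (nat_lit 4) (nat_lit 236) (nat_lit 205) (nat_lit 159)))) (XT.nd (nat_lit 156) (nat_lit 0) (nat_lit 0) (XT.nd (nat_lit 78) (nat_lit 0) (nat_lit 0) (XT.lf (nat_lit 0) (nat_lit 38775981861) (nat_lit 76) (nat_lit 137195006848) (nat_lit 76) (nat_lit 101366046797) (nat_lit 1) (nat_lit 4) (nat_lit 2) (nat_lit 5) (nat_lit 2) (nat_lit 4) (nat_lit 237) (nat_lit 205) (nat_lit 158)) (XT.lf (nat_lit 0) (nat_lit 72323296007) (nat_lit 76) (nat_lit 140557483442) (nat_lit 76) (nat_lit 104721955301) (nat_lit 1) (nat_lit 4) (nat_lit 2) (nat_lit 5) (nat_lit 2) (nat_lit 4) (nat_lit 238) (nat_lit 205) (nat_lit 157))) (XT.nd (nat_lit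 78) (nat_lit 0) (nat_lit 0) (XT.lf (nat_lit 0) (nat_lit 110893241379) (nat_lit 76) (nat_lit 144428371338) (nat_lit 76) (nat_lit 108587131815) (nat_lit 1) (nat_lit 4) (nat_lit 2) (nat_lit 5) (nat_lit 2) (nat_lit 4) (nat_lit 239) (nat_lit 205) (nat_lit 156)) (XT.lf (nat_lit 0) (nat_lit 155240447343) (nat_lit 76) (nat_lit 148883405299) (nat_lit 76) (nat_lit 113037199357) (nat_lit 1) (nat_lit 4) (nat_lit 2) (nat_lit 5) (nat_lit 2) (nat_lit 4) (nat_lit 240) (nat_lit 205) (nat_lit 155))))) (XT.nd (nat_lit 312) (nat_lit 0) (nat_lit 0) (XT.nd (nat_lit 156) (nat_lit 0) (nat_lit 0) (XT.nd (nat_lit 78) (nat_lit 0) (nat_lit 0) (XT.lf (nat_lit 0) (nat_lit 206232576624) (nat_lit 76) (nat_lit 154009749034) (nat_lit 76) (nat_lit 118159224465) (nat_lit 1) (nat_lit 4) (nat_lit 2) (nat_lit 5) (nat_lit 2) (nat_lit 4) (nat_lit 241) (nat_lit 205) (nat_lit 154)) (XT.lf (nat_lit 0) (nat_lit 264867301317) (nat_lit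 76) (nat_lit 159907700571) (nat_lit 76) (nat_lit 124053420676) (nat_lit 1) (nat_lit 4) (nat_lit 2) (nat_lit 5) (nat_lit 2) (nat_lit 4) (nat_lit 242) (nat_lit 205) (nat_lit 153))) (XT.nd (nat_lit 78) (nat_lit 0) (nat_lit 0) (XT.lf (nat_lit 0) (nat_lit 332291822558) (nat_lit 76) (nat_lit 166692654615) (nat_lit 76) (nat_lit 130835109219) (nat_lit 1) (nat_lit 4) (nat_lit 2) (nat_lit 5) (nat_lit 2) (nat_lit 4) (nat_lit 243) (nat_lit 205) (nat_lit 152)) (XT.lf (nat_lit 0) (nat_lit 409825315761) (nat_lit 76) (nat_lit 174497360266) (nat_lit 76) (nat_lit 138636975304) (nat_lit 1) (nat_lit 4) (nat_lit 2) (nat_lit 5) (nat_lit 2) (nat_lit 4) (nat_lit 244) (nat_lit 205) (nat_lit 151)))) (XT.nd (nat_lit 156) (nat_lit 0) (nat_lit 0) (XT.nd (nat_lit 78) (nat_lit 0) (nat_lit 0) (XT.lf (nat_lit 0) (nat_lit 498984740576) (nat_lit 76) (nat_lit 183474518288) (nat_lit 76) (nat_lit 147611664137) (nat_lit 1)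 (nat_lit 4) (nat_lit 2) (nat_lit 5) (nat_lit 2) (nat_lit 4) (nat_lit 245) (nat_lit 205) (nat_lit 150)) (XT.lf (nat_lit 0) (nat_lit 601514520533) (nat_lit 76) (nat_lit 193799768728) (nat_lit 76) (nat_lit 157934767458) (nat_lit 1) (nat_lit 4) (nat_lit 2) (nat_lit 5) (nat_lit 2) (nat_lit 4) (nat_lit 246) (nat_lit 205) (nat_lit 149))) (XT.nd (nat_lit 78) (nat_lit 0) (nat_lit 0) (XT.lf (nat_lit 0) (nat_lit 719420673064) (nat_lit 76) (nat_lit 205675127357) (nat_lit 76) (nat_lit 169808259025) (nat_lit 1) (nat_lit 4) (nat_lit 2) (nat_lit 5) (nat_lit 2) (nat_lit 4) (nat_lit 247) (nat_lit 205) (nat_lit 148)) (XT.lf (nat_lit 0) (nat_lit 855010057678) (nat_lit 76) (nat_lit 219332938146) (nat_lit 76) (nat_lit 183464446283) (nat_lit 1) (nat_lit 4) (nat_lit 2) (nat_lit 5) (nat_lit 2) (nat_lit 4) (nat_lit 248) (nat_lit 205) (nat_lit 147)))))) (XT.nd (nat_lit 28002) (nat_lit 0) (nat_lit 1216) (XT.nd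 (nat_lit 312) (nat_lit 0) (nat_lit 0) (XT.nd (nat_lit 156) (nat_lit 0) (nat_lit 0) (XT.nd (nat_lit 78) (nat_lit 0) (nat_lit 0) (XT.lf (nat_lit 0) (nat_lit 1010935510158) (nat_lit 76) (nat_lit 235040419135) (nat_lit 76) (nat_lit 199170515505) (nat_lit 1) (nat_lit 4) (nat_lit 2) (nat_lit 5) (nat_lit 2) (nat_lit 4) (nat_lit 249) (nat_lit 205) (nat_lit 146)) (XT.lf (nat_lit 0) (nat_lit 1190247745881) (nat_lit 76) (nat_lit 253104890601) (nat_lit 76) (nat_lit 217233759349) (nat_lit 1) (nat_lit 4) (nat_lit 2) (nat_lit 5) (nat_lit 2) (nat_lit 4) (nat_lit 250) (nat_lit 205) (nat_lit 145))) (XT.nd (nat_lit 78) (nat_lit 0) (nat_lit 0) (XT.lf (nat_lit 0) (nat_lit 1396455047718) (nat_lit 76) (nat_lit 273879787858) (nat_lit 76) (nat_lit 238007589107) (nat_lit 1) (nat_lit 4) (nat_lit 2) (nat_lit 5) (nat_lit 2) (nat_lit 4) (nat_lit 251) (nat_lit 205) (nat_lit 144)) (XT.lf (nat_lit 0) (nat_lit 1633591906358)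 (nat_lit 76) (nat_lit 297771576286) (nat_lit 76) (nat_lit 261898449276) (nat_lit 1) (nat_lit 4) (nat_lit 2) (nat_lit 5) (nat_lit 2) (nat_lit 4) (nat_lit 252) (nat_lit 205) (nat_lit 143)))) (XT.nd (nat_lit 156) (nat_lit 0) (nat_lit 0) (XT.nd (nat_lit 78) (nat_lit 0) (nat_lit 0) (XT.lf (nat_lit 0) (nat_lit 1906297955991) (nat_lit 76) (nat_lit 325247703919) (nat_lit 76) (nat_lit 289373769727) (nat_lit 1) (nat_lit 4) (nat_lit 2) (nat_lit 5) (nat_lit 2) (nat_lit 4) (nat_lit 253) (nat_lit 205) (nat_lit 142)) (XT.lf (nat_lit 0) (nat_lit 2219908749763) (nat_lit 76) (nat_lit 356845747168) (nat_lit 76) (nat_lit 320971111079) (nat_lit 1) (nat_lit 4) (nat_lit 2) (nat_lit 5) (nat_lit 2) (nat_lit 4) (nat_lit 254) (nat_lit 205) (nat_lit 141))) (XT.nd (nat_lit 27456) (nat_lit 0) (nat_lit 2280) (XT.lf (nat_lit 0) (nat_lit 2580560151031) (nat_lit 76) (nat_lit 393183928618) (nat_lit 76) (nat_lit 357308682183)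 (nat_lit 1) (nat_lit 4) (nat_lit 2) (nat_lit 5) (nat_lit 2) (nat_lit 4) (nat_lit 255) (nat_lit 205) (nat_lit 140)) (XT.lf (nat_lit 0) (nat_lit 1018656815) (nat_lit 0) (nat_lit 1018656815) (nat_lit 380) (nat_lit 2974282809) (nat_lit 31) (nat_lit 5) (nat_lit 31) (nat_lit 3) (nat_lit 36) (nat_lit 3) (nat_lit 206) (nat_lit 206) (nat_lit 188))))) (XT.nd (nat_lit 312) (nat_lit 836) (nat_lit 0) (XT.nd (nat_lit 156) (nat_lit 228) (nat_lit 0) (XT.nd (nat_lit 78) (nat_lit 0) (nat_lit 76) (XT.lf (nat_lit 0) (nat_lit 5553762607) (nat_lit 380) (nat_lit 848504380) (nat_lit 456) (nat_lit 4267872734) (nat_lit 31) (nat_lit 5) (nat_lit 36) (nat_lit 3) (nat_lit 37) (nat_lit 5) (nat_lit 207) (nat_lit 206) (nat_lit 187)) (XT.lf (nat_lit 0) (nat_lit 7311973638) (nat_lit 380) (nat_lit 3850868716) (nat_lit 456) (nat_lit 248652294) (nat_lit 32) (nat_lit 5) (nat_lit 37) (nat_lit 5) (nat_lit 38) (nat_lit 5) (nat_lit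 208) (nat_lit 206) (nat_lit 186))) (XT.nd (nat_lit 78) (nat_lit 304) (nat_lit 0) (XT.lf (nat_lit 76) (nat_lit 4970376818) (nat_lit 0) (nat_lit 4521457086) (nat_lit 456) (nat_lit 2761274624) (nat_lit 33) (nat_lit 5) (nat_lit 32) (nat_lit 5) (nat_lit 38) (nat_lit 5) (nat_lit 209) (nat_lit 206) (nat_lit 185)) (XT.lf (nat_lit 0) (nat_lit 2035304736) (nat_lit 380) (nat_lit 10057814686) (nat_lit 456) (nat_lit 1121758171) (nat_lit 28) (nat_lit 5) (nat_lit 33) (nat_lit 5) (nat_lit 34) (nat_lit 5) (nat_lit 210) (nat_lit 206) (nat_lit 184)))) (XT.nd (nat_lit 156) (nat_lit 380) (nat_lit 0) (XT.nd (nat_lit 78) (nat_lit 380) (nat_lit 0) (XT.lf (nat_lit 0) (nat_lit 935151642) (nat_lit 456) (nat_lit 1383103817) (nat_lit 76) (nat_lit 11985596351) (nat_lit 27) (nat_lit 5) (nat_lit 33) (nat_lit 5) (nat_lit 28) (nat_lit 5) (nat_lit 211) (nat_lit 206) (nat_lit 183)) (XT.lf (nat_lit 0) (nat_lit 3532943320)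 (nat_lit 456) (nat_lit 5451320419) (nat_lit 76) (nat_lit 6546704573) (nat_lit 22) (nat_lit 5) (nat_lit 28) (nat_lit 5) (nat_lit 23) (nat_lit 5) (nat_lit 212) (nat_lit 206) (nat_lit 182))) (XT.nd (nat_lit 78) (nat_lit 152) (nat_lit 0) (XT.lf (nat_lit 0) (nat_lit 6563196389) (nat_lit 228) (nat_lit 117767887) (nat_lit 304) (nat_lit 10249237392) (nat_lit 19) (nat_lit 5) (nat_lit 22) (nat_lit 5) (nat_lit 23) (nat_lit 5) (nat_lit 213) (nat_lit 206) (nat_lit 181)) (XT.nd (nat_lit 78) (nat_lit 0) (nat_lit 0) (XT.lf (nat_lit 0) (nat_lit 1927759879) (nat_lit 152) (nat_lit 8733209522) (nat_lit 228) (nat_lit 7850345731) (nat_lit 17) (nat_lit 5) (nat_lit 19) (nat_lit 5) (nat_lit 20) (nat_lit 5) (nat_lit 214) (nat_lit 206) (nat_lit 180)) (XT.lf (nat_lit 0) (nat_lit 15488084164) (nat_lit 228) (nat_lit 3745212136) (nat_lit 76) (nat_lit 1076966765) (nat_lit 17) (nat_lit 5) (nat_lit 20) (nat_lit 5) (nat_lit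 18) (nat_lit 5) (nat_lit 215) (nat_lit 206) (nat_lit 179))))))))
noncomputable def xc34 : XT := (XT.nd (nat_lit 1248) (nat_lit 76) (nat_lit 0) (XT.nd (nat_lit 624) (nat_lit 304) (nat_lit 0) (XT.nd (nat_lit 312) (nat_lit 304) (nat_lit 0) (XT.nd (nat_lit 156) (nat_lit 152) (nat_lit 0) (XT.nd (nat_lit 78) (nat_lit 228) (nat_lit 0) (XT.lf (nat_lit 0) (nat_lit 11250111499) (nat_lit 152) (nat_lit 10229517662) (nat_lit 228) (nat_lit 864782951) (nat_lit 15) (nat_lit 5) (nat_lit 17) (nat_lit 5) (nat_lit 18) (nat_lit 5) (nat_lit 216) (nat_lit 206) (nat_lit 178)) (XT.lf (nat_lit 0) (nat_lit 3655389296) (nat_lit 228) (nat_lit 20603438544) (nat_lit 76) (nat_lit 405951446) (nat_lit 12) (nat_lit 5) (nat_lit 15) (nat_lit 5) (nat_lit 13) (nat_lit 5) (nat_lit 217) (nat_lit 206) (nat_lit 177))) (XT.nd (nat_lit 78) (nat_lit 152) (nat_lit 0) (XT.lf (nat_lit 0) (nat_lit 9357938229) (nat_lit 228) (nat_lit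 5544209090) (nat_lit 76) (nat_lit 12385224467) (nat_lit 12) (nat_lit 5) (nat_lit 15) (nat_lit 5) (nat_lit 13) (nat_lit 5) (nat_lit 218) (nat_lit 206) (nat_lit 176)) (XT.lf (nat_lit 0) (nat_lit 12317207117) (nat_lit 152) (nat_lit 3842533615) (nat_lit 228) (nat_lit 14124460692) (nat_lit 10) (nat_lit 5) (nat_lit 12) (nat_lit 5) (nat_lit 13) (nat_lit 5) (nat_lit 219) (nat_lit 206) (nat_lit 175)))) (XT.nd (nat_lit 156) (nat_lit 228) (nat_lit 0) (XT.nd (nat_lit 78) (nat_lit 76) (nat_lit 0) (XT.lf (nat_lit 0) (nat_lit 24313285661) (nat_lit 228) (nat_lit 812026373) (nat_lit 76) (nat_lit 8579036979) (nat_lit 10) (nat_lit 5) (nat_lit 13) (nat_lit 5) (nat_lit 11) (nat_lit 4) (nat_lit 220) (nat_lit 206) (nat_lit 174)) (XT.lf (nat_lit 0) (nat_lit 19736059792) (nat_lit 76) (nat_lit 14493336541) (nat_lit 152) (nat_lit 3365230357) (nat_lit 9) (nat_lit 5) (nat_lit 10) (nat_lit 5) (nat_lit 11) (nat_lit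 4) (nat_lit 221) (nat_lit 206) (nat_lit 173))) (XT.nd (nat_lit 78) (nat_lit 0) (nat_lit 0) (XT.lf (nat_lit 0) (nat_lit 1267859290) (nat_lit 152) (nat_lit 2134522365) (nat_lit 228) (nat_lit 38658127138) (nat_lit 6) (nat_lit 5) (nat_lit 8) (nat_lit 5) (nat_lit 9) (nat_lit 5) (nat_lit 222) (nat_lit 206) (nat_lit 172)) (XT.lf (nat_lit 0) (nat_lit 11780224829) (nat_lit 228) (nat_lit 23262830057) (nat_lit 76) (nat_lit 12082867260) (nat_lit 6) (nat_lit 5) (nat_lit 9) (nat_lit 5) (nat_lit 7) (nat_lit 4) (nat_lit 223) (nat_lit 206) (nat_lit 171))))) (XT.nd (nat_lit 312) (nat_lit 152) (nat_lit 0) (XT.nd (nat_lit 156) (nat_lit 76) (nat_lit 0) (XT.nd (nat_lit 78) (nat_lit 76) (nat_lit 0) (XT.lf (nat_lit 0) (nat_lit 21443142293) (nat_lit 228) (nat_lit 3211098359) (nat_lit 76) (nat_lit 28294799810) (nat_lit 6) (nat_lit 5) (nat_lit 9) (nat_lit 5) (nat_lit 7) (nat_lit 4) (nat_lit 224) (nat_lit 206)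 (nat_lit 170)) (XT.lf (nat_lit 0) (nat_lit 20849156648) (nat_lit 76) (nat_lit 12181121884) (nat_lit 152) (nat_lit 26577508794) (nat_lit 5) (nat_lit 5) (nat_lit 6) (nat_lit 5) (nat_lit 7) (nat_lit 4) (nat_lit 225) (nat_lit 206) (nat_lit 169))) (XT.nd (nat_lit 78) (nat_lit 76) (nat_lit 0) (XT.lf (nat_lit 0) (nat_lit 46478975590) (nat_lit 152) (nat_lit 18639737415) (nat_lit 0) (nat_lit 2136878587) (nat_lit 5) (nat_lit 5) (nat_lit 7) (nat_lit 4) (nat_lit 5) (nat_lit 4) (nat_lit 226) (nat_lit 206) (nat_lit 168)) (XT.lf (nat_lit 0) (nat_lit 4342239690) (nat_lit 76) (nat_lit 58022811766) (nat_lit 76) (nat_lit 13652017451) (nat_lit 4) (nat_lit 4) (nat_lit 5) (nat_lit 5) (nat_lit 5) (nat_lit 4) (nat_lit 227) (nat_lit 206) (nat_lit 167)))) (XT.nd (nat_lit 156) (nat_lit 76) (nat_lit 0) (XT.nd (nat_lit 78) (nat_lit 76) (nat_lit 0) (XT.lf (nat_lit 0) (nat_lit 31868180622) (nat_lit 76) (nat_lit 49289278155)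 (nat_lit 76) (nat_lit 4893529655) (nat_lit 4) (nat_lit 4) (nat_lit 5) (nat_lit 5) (nat_lit 5) (nat_lit 4) (nat_lit 228) (nat_lit 206) (nat_lit 166)) (XT.lf (nat_lit 0) (nat_lit 4902413255) (nat_lit 152) (nat_lit 34220428220) (nat_lit 76) (nat_lit 58458646935) (nat_lit 3) (nat_lit 5) (nat_lit 5) (nat_lit 5) (nat_lit 4) (nat_lit 4) (nat_lit 229) (nat_lit 206) (nat_lit 165))) (XT.nd (nat_lit 78) (nat_lit 76) (nat_lit 0) (XT.lf (nat_lit 0) (nat_lit 15871228268) (nat_lit 152) (nat_lit 11424161942) (nat_lit 76) (nat_lit 83536612188) (nat_lit 3) (nat_lit 5) (nat_lit 5) (nat_lit 5) (nat_lit 4) (nat_lit 4) (nat_lit 230) (nat_lit 206) (nat_lit 164)) (XT.lf (nat_lit 0) (nat_lit 15547440370) (nat_lit 76) (nat_lit 13298792750) (nat_lit 152) (nat_lit 97195048317) (nat_lit 2) (nat_lit 5) (nat_lit 3) (nat_lit 5) (nat_lit 4) (nat_lit 4) (nat_lit 231) (nat_lit 206) (nat_lit 163)))))) (XT.nd (nat_lit 624)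 (nat_lit 0) (nat_lit 0) (XT.nd (nat_lit 312) (nat_lit 76) (nat_lit 0) (XT.nd (nat_lit 156) (nat_lit 0) (nat_lit 0) (XT.nd (nat_lit 78) (nat_lit 0) (nat_lit 0) (XT.lf (nat_lit 0) (nat_lit 44163980619) (nat_lit 152) (nat_lit 96345462507) (nat_lit 0) (nat_lit 2990839732) (nat_lit 2) (nat_lit 5) (nat_lit 4) (nat_lit 4) (nat_lit 2) (nat_lit 4) (nat_lit 232) (nat_lit 206) (nat_lit 162)) (XT.lf (nat_lit 0) (nat_lit 62136746074) (nat_lit 152) (nat_lit 80460725767) (nat_lit 0) (nat_lit 20952117557) (nat_lit 2) (nat_lit 5) (nat_lit 4) (nat_lit 4) (nat_lit 2) (nat_lit 4) (nat_lit 233) (nat_lit 206) (nat_lit 161))) (XT.nd (nat_lit 78) (nat_lit 0) (nat_lit 0) (XT.lf (nat_lit 0) (nat_lit 82796334264) (nat_lit 152) (nat_lit 62209006233) (nat_lit 0) (nat_lit 41601716504) (nat_lit 2) (nat_lit 5) (nat_lit 4) (nat_lit 4) (nat_lit 2) (nat_lit 4) (nat_lit 234) (nat_lit 206) (nat_lit 160)) (XT.lf (nat_lit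 0) (nat_lit 106546954524) (nat_lit 152) (nat_lit 41233205046) (nat_lit 0) (nat_lit 65343650465) (nat_lit 2) (nat_lit 5) (nat_lit 4) (nat_lit 4) (nat_lit 2) (nat_lit 4) (nat_lit 235) (nat_lit 206) (nat_lit 159)))) (XT.nd (nat_lit 156) (nat_lit 0) (nat_lit 0) (XT.nd (nat_lit 78) (nat_lit 76) (nat_lit 0) (XT.lf (nat_lit 0) (nat_lit 133853292901) (nat_lit 152) (nat_lit 17122926094) (nat_lit 0) (nat_lit 92642435539) (nat_lit 2) (nat_lit 5) (nat_lit 4) (nat_lit 4) (nat_lit 2) (nat_lit 4) (nat_lit 236) (nat_lit 206) (nat_lit 158)) (XT.lf (nat_lit 0) (nat_lit 11151391222) (nat_lit 76) (nat_lit 154366403847) (nat_lit 76) (nat_lit 113148978396) (nat_lit 1) (nat_lit 4) (nat_lit 2) (nat_lit 5) (nat_lit 2) (nat_lit 4) (nat_lit 237) (nat_lit 206) (nat_lit 157))) (XT.nd (nat_lit 78) (nat_lit 0) (nat_lit 0) (XT.lf (nat_lit 0) (nat_lit 44694302626) (nat_lit 76) (nat_lit 157730759424) (nat_lit 76) (nat_lit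 116507622590) (nat_lit 1) (nat_lit 4) (nat_lit 2) (nat_lit 5) (nat_lit 2) (nat_lit 4) (nat_lit 238) (nat_lit 206) (nat_lit 156)) (XT.lf (nat_lit 0) (nat_lit 83260419526) (nat_lit 76) (nat_lit 161603281218) (nat_lit 76) (nat_lit 120375177965) (nat_lit 1) (nat_lit 4) (nat_lit 2) (nat_lit 5) (nat_lit 2) (nat_lit 4) (nat_lit 239) (nat_lit 206) (nat_lit 155))))) (XT.nd (nat_lit 312) (nat_lit 0) (nat_lit 0) (XT.nd (nat_lit 156) (nat_lit 0) (nat_lit 0) (XT.nd (nat_lit 78) (nat_lit 0) (nat_lit 0) (XT.lf (nat_lit 0) (nat_lit 127604296384) (nat_lit 76) (nat_lit 166059735960) (nat_lit 76) (nat_lit 124827314082) (nat_lit 1) (nat_lit 4) (nat_lit 2) (nat_lit 5) (nat_lit 2) (nat_lit 4) (nat_lit 240) (nat_lit 206) (nat_lit 154)) (XT.lf (nat_lit 0) (nat_lit 178593530791) (nat_lit 76) (nat_lit 171187315157) (nat_lit 76) (nat_lit 129951137951) (nat_lit 1) (nat_lit 4) (nat_lit 2) (nat_lit 5) (nat_lit 2)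 (nat_lit 4) (nat_lit 241) (nat_lit 206) (nat_lit 153))) (XT.nd (nat_lit 78) (nat_lit 0) (nat_lit 0) (XT.lf (nat_lit 0) (nat_lit 237225738202) (nat_lit 76) (nat_lit 177086341008) (nat_lit 76) (nat_lit 135846898301) (nat_lit 1) (nat_lit 4) (nat_lit 2) (nat_lit 5) (nat_lit 2) (nat_lit 4) (nat_lit 242) (nat_lit 206) (nat_lit 152)) (XT.lf (nat_lit 0) (nat_lit 304648070501) (nat_lit 76) (nat_lit 183872229239) (nat_lit 76) (nat_lit 142629946965) (nat_lit 1) (nat_lit 4) (nat_lit 2) (nat_lit 5) (nat_lit 2) (nat_lit 4) (nat_lit 243) (nat_lit 206) (nat_lit 151)))) (XT.nd (nat_lit 156) (nat_lit 0) (nat_lit 0) (XT.nd (nat_lit 78) (nat_lit 0) (nat_lit 0) (XT.lf (nat_lit 0) (nat_lit 382179660277) (nat_lit 76) (nat_lit 191677747226) (nat_lit 76) (nat_lit 150432995765) (nat_lit 1) (nat_lit 4) (nat_lit 2) (nat_lit 5) (nat_lit 2) (nat_lit 4) (nat_lit 244) (nat_lit 206) (nat_lit 150)) (XT.lf (nat_lit 0)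 (nat_lit 471337429938) (nat_lit 76) (nat_lit 200655611627) (nat_lit 76) (nat_lit 159408713046) (nat_lit 1) (nat_lit 4) (nat_lit 2) (nat_lit 5) (nat_lit 2) (nat_lit 4) (nat_lit 245) (nat_lit 206) (nat_lit 149))) (XT.nd (nat_lit 78) (nat_lit 0) (nat_lit 0) (XT.lf (nat_lit 0) (nat_lit 573865770631) (nat_lit 76) (nat_lit 210981476310) (nat_lit 76) (nat_lit 169732710668) (nat_lit 1) (nat_lit 4) (nat_lit 2) (nat_lit 5) (nat_lit 2) (nat_lit 4) (nat_lit 246) (nat_lit 206) (nat_lit 148)) (XT.nd (nat_lit 78) (nat_lit 0) (nat_lit 0) (XT.lf (nat_lit 0) (nat_lit 691770671628) (nat_lit 76) (nat_lit 222857369063) (nat_lit 76) (nat_lit 181606979889) (nat_lit 1) (nat_lit 4) (nat_lit 2) (nat_lit 5) (nat_lit 2) (nat_lit 4) (nat_lit 247) (nat_lit 206) (nat_lit 147)) (XT.lf (nat_lit 0) (nat_lit 827358967951) (nat_lit 76) (nat_lit 236515644308) (nat_lit 76) (nat_lit 195263843368) (nat_lit 1) (nat_lit 4) (nat_lit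 2) (nat_lit 5) (nat_lit 2) (nat_lit 4) (nat_lit 248) (nat_lit 206) (nat_lit 146))))))))
noncomputable def xc35 : XT := (XT.nd (nat_lit 28782) (nat_lit 0) (nat_lit 76) (XT.nd (nat_lit 28080) (nat_lit 0) (nat_lit 1216) (XT.nd (nat_lit 312) (nat_lit 0) (nat_lit 0) (XT.nd (nat_lit 156) (nat_lit 0) (nat_lit 0) (XT.nd (nat_lit 78) (nat_lit 0) (nat_lit 0) (XT.lf (nat_lit 0) (nat_lit 983283474092) (nat_lit 76) (nat_lit 252223529171) (nat_lit 76) (nat_lit 210970500608) (nat_lit 1) (nat_lit 4) (nat_lit 2) (nat_lit 5) (nat_lit 2) (nat_lit 4) (nat_lit 249) (nat_lit 206) (nat_lit 145)) (XT.lf (nat_lit 0) (nat_lit 1162594886910) (nat_lit 76) (nat_lit 270288351833) (nat_lit 76) (nat_lit 229034255772) (nat_lit 1) (nat_lit 4) (nat_lit 2) (nat_lit 5) (nat_lit 2) (nat_lit 4) (nat_lit 250) (nat_lit 206) (nat_lit 144))) (XT.nd (nat_lit 78) (nat_lit 0) (nat_lit 0) (XT.lf (nat_lit 0) (nat_lit 1368801473179)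 (nat_lit 76) (nat_lit 291063554477) (nat_lit 76) (nat_lit 249808530157) (nat_lit 1) (nat_lit 4) (nat_lit 2) (nat_lit 5) (nat_lit 2) (nat_lit 4) (nat_lit 251) (nat_lit 206) (nat_lit 143)) (XT.lf (nat_lit 0) (nat_lit 1605937709585) (nat_lit 76) (nat_lit 314955608459) (nat_lit 76) (nat_lit 273699776957) (nat_lit 1) (nat_lit 4) (nat_lit 2) (nat_lit 5) (nat_lit 2) (nat_lit 4) (nat_lit 252) (nat_lit 206) (nat_lit 142)))) (XT.nd (nat_lit 156) (nat_lit 0) (nat_lit 0) (XT.nd (nat_lit 78) (nat_lit 0) (nat_lit 0) (XT.lf (nat_lit 0) (nat_lit 1878643218146) (nat_lit 76) (nat_lit 342431967009) (nat_lit 76) (nat_lit 301175433609) (nat_lit 1) (nat_lit 4) (nat_lit 2) (nat_lit 5) (nat_lit 2) (nat_lit 4) (nat_lit 253) (nat_lit 206) (nat_lit 141)) (XT.lf (nat_lit 0) (nat_lit 2192253541420) (nat_lit 76) (nat_lit 374030211055) (nat_lit 76) (nat_lit 332773067309) (nat_lit 1) (nat_lit 4) (nat_lit 2) (nat_lit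 5) (nat_lit 2) (nat_lit 4) (nat_lit 254) (nat_lit 206) (nat_lit 140))) (XT.nd (nat_lit 27534) (nat_lit 0) (nat_lit 2280) (XT.lf (nat_lit 0) (nat_lit 2552904533558) (nat_lit 76) (nat_lit 410368567111) (nat_lit 76) (nat_lit 369110892630) (nat_lit 1) (nat_lit 4) (nat_lit 2) (nat_lit 5) (nat_lit 2) (nat_lit 4) (nat_lit 255) (nat_lit 206) (nat_lit 139)) (XT.lf (nat_lit 0) (nat_lit 1682140930) (nat_lit 0) (nat_lit 1682140930) (nat_lit 380) (nat_lit 2306886532) (nat_lit 31) (nat_lit 5) (nat_lit 31) (nat_lit 3) (nat_lit 36) (nat_lit 3) (nat_lit 207) (nat_lit 207) (nat_lit 186))))) (XT.nd (nat_lit 312) (nat_lit 760) (nat_lit 0) (XT.nd (nat_lit 156) (nat_lit 304) (nat_lit 0) (XT.nd (nat_lit 78) (nat_lit 0) (nat_lit 0) (XT.lf (nat_lit 76) (nat_lit 98971081) (nat_lit 0) (nat_lit 8045173885) (nat_lit 456) (nat_lit 3967742766) (nat_lit 32) (nat_lit 5) (nat_lit 31) (nat_lit 5) (nat_lit 37) (nat_lit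 5) (nat_lit 208) (nat_lit 207) (nat_lit 185)) (XT.lf (nat_lit 76) (nat_lit 9681785134) (nat_lit 0) (nat_lit 269329010) (nat_lit 456) (nat_lit 3032901918) (nat_lit 32) (nat_lit 5) (nat_lit 31) (nat_lit 5) (nat_lit 37) (nat_lit 5) (nat_lit 209) (nat_lit 207) (nat_lit 184))) (XT.nd (nat_lit 78) (nat_lit 380) (nat_lit 0) (XT.lf (nat_lit 76) (nat_lit 6752797543) (nat_lit 0) (nat_lit 5523284657) (nat_lit 456) (nat_lit 1692402380) (nat_lit 33) (nat_lit 5) (nat_lit 32) (nat_lit 5) (nat_lit 38) (nat_lit 5) (nat_lit 210) (nat_lit 207) (nat_lit 183)) (XT.lf (nat_lit 0) (nat_lit 19038477) (nat_lit 456) (nat_lit 11680439898) (nat_lit 76) (nat_lit 3389477839) (nat_lit 27) (nat_lit 5) (nat_lit 33) (nat_lit 5) (nat_lit 28) (nat_lit 5) (nat_lit 211) (nat_lit 207) (nat_lit 182)))) (XT.nd (nat_lit 156) (nat_lit 380) (nat_lit 0) (XT.nd (nat_lit 78) (nat_lit 380) (nat_lit 0) (XT.lf (nat_lit 0) (nat_lit 2157622871)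 (nat_lit 456) (nat_lit 594879102) (nat_lit 76) (nat_lit 13600723242) (nat_lit 27) (nat_lit 5) (nat_lit 33) (nat_lit 5) (nat_lit 28) (nat_lit 5) (nat_lit 212) (nat_lit 207) (nat_lit 181)) (XT.lf (nat_lit 0) (nat_lit 5024606596) (nat_lit 456) (nat_lit 5270959076) (nat_lit 76) (nat_lit 7479737546) (nat_lit 22) (nat_lit 5) (nat_lit 28) (nat_lit 5) (nat_lit 23) (nat_lit 5) (nat_lit 213) (nat_lit 207) (nat_lit 180))) (XT.nd (nat_lit 78) (nat_lit 152) (nat_lit 0) (XT.lf (nat_lit 0) (nat_lit 8461254496) (nat_lit 228) (nat_lit 80105816) (nat_lit 304) (nat_lit 10852430974) (nat_lit 19) (nat_lit 5) (nat_lit 22) (nat_lit 5) (nat_lit 23) (nat_lit 5) (nat_lit 214) (nat_lit 207) (nat_lit 179)) (XT.nd (nat_lit 78) (nat_lit 0) (nat_lit 0) (XT.lf (nat_lit 0) (nat_lit 3121467272) (nat_lit 152) (nat_lit 9907864453) (nat_lit 228) (nat_lit 8190812436) (nat_lit 17) (nat_lit 5) (nat_lit 19) (nat_lit 5) (nat_lit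 20) (nat_lit 5) (nat_lit 215) (nat_lit 207) (nat_lit 178)) (XT.lf (nat_lit 0) (nat_lit 18483011153) (nat_lit 228) (nat_lit 3464248698) (nat_lit 76) (nat_lit 1350300404) (nat_lit 17) (nat_lit 5) (nat_lit 20) (nat_lit 5) (nat_lit 18) (nat_lit 5) (nat_lit 216) (nat_lit 207) (nat_lit 177))))))) (XT.nd (nat_lit 624) (nat_lit 304) (nat_lit 0) (XT.nd (nat_lit 312) (nat_lit 304) (nat_lit 0) (XT.nd (nat_lit 156) (nat_lit 152) (nat_lit 0) (XT.nd (nat_lit 78) (nat_lit 228) (nat_lit 0) (XT.lf (nat_lit 0) (nat_lit 13709039293) (nat_lit 152) (nat_lit 11595186145) (nat_lit 228) (nat_lit 338849279) (nat_lit 15) (nat_lit 5) (nat_lit 17) (nat_lit 5) (nat_lit 18) (nat_lit 5) (nat_lit 217) (nat_lit 207) (nat_lit 176)) (XT.lf (nat_lit 0) (nat_lit 4767458305) (nat_lit 228) (nat_lit 22909500434) (nat_lit 76) (nat_lit 638582275) (nat_lit 12) (nat_lit 5) (nat_lit 15) (nat_lit 5) (nat_lit 13) (nat_lit 5) (nat_lit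 218) (nat_lit 207) (nat_lit 175))) (XT.nd (nat_lit 78) (nat_lit 152) (nat_lit 0) (XT.lf (nat_lit 0) (nat_lit 11251855585) (nat_lit 228) (nat_lit 5693706634) (nat_lit 76) (nat_lit 14392345627) (nat_lit 12) (nat_lit 5) (nat_lit 15) (nat_lit 5) (nat_lit 13) (nat_lit 5) (nat_lit 219) (nat_lit 207) (nat_lit 174)) (XT.lf (nat_lit 0) (nat_lit 14789182774) (nat_lit 152) (nat_lit 4235819792) (nat_lit 228) (nat_lit 15763610598) (nat_lit 10) (nat_lit 5) (nat_lit 12) (nat_lit 5) (nat_lit 13) (nat_lit 5) (nat_lit 220) (nat_lit 207) (nat_lit 173)))) (XT.nd (nat_lit 156) (nat_lit 228) (nat_lit 0) (XT.nd (nat_lit 78) (nat_lit 76) (nat_lit 0) (XT.lf (nat_lit 0) (nat_lit 28347847324) (nat_lit 228) (nat_lit 361474110) (nat_lit 76) (nat_lit 10017140151) (nat_lit 10) (nat_lit 5) (nat_lit 13) (nat_lit 5) (nat_lit 11) (nat_lit 4) (nat_lit 221) (nat_lit 207) (nat_lit 172)) (XT.lf (nat_lit 0) (nat_lit 23220377877)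 (nat_lit 76) (nat_lit 16493044292) (nat_lit 152) (nat_lit 3490225496) (nat_lit 9) (nat_lit 5) (nat_lit 10) (nat_lit 5) (nat_lit 11) (nat_lit 4) (nat_lit 222) (nat_lit 207) (nat_lit 171))) (XT.nd (nat_lit 78) (nat_lit 0) (nat_lit 0) (XT.lf (nat_lit 0) (nat_lit 1956859233) (nat_lit 152) (nat_lit 2281607468) (nat_lit 228) (nat_lit 44103285857) (nat_lit 6) (nat_lit 5) (nat_lit 8) (nat_lit 5) (nat_lit 9) (nat_lit 5) (nat_lit 223) (nat_lit 207) (nat_lit 170)) (XT.lf (nat_lit 0) (nat_lit 13834120027) (nat_lit 228) (nat_lit 26297914821) (nat_lit 76) (nat_lit 14038283807) (nat_lit 6) (nat_lit 5) (nat_lit 9) (nat_lit 5) (nat_lit 7) (nat_lit 4) (nat_lit 224) (nat_lit 207) (nat_lit 169))))) (XT.nd (nat_lit 312) (nat_lit 152) (nat_lit 0) (XT.nd (nat_lit 156) (nat_lit 76) (nat_lit 0) (XT.nd (nat_lit 78) (nat_lit 76) (nat_lit 0) (XT.lf (nat_lit 0) (nat_lit 24909058396) (nat_lit 228) (nat_lit 3297685074)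 (nat_lit 76) (nat_lit 32663355832) (nat_lit 6) (nat_lit 5) (nat_lit 9) (nat_lit 5) (nat_lit 7) (nat_lit 4) (nat_lit 225) (nat_lit 207) (nat_lit 168)) (XT.lf (nat_lit 0) (nat_lit 24338166796) (nat_lit 76) (nat_lit 13872259373) (nat_lit 152) (nat_lit 30319314137) (nat_lit 5) (nat_lit 5) (nat_lit 6) (nat_lit 5) (nat_lit 7) (nat_lit 4) (nat_lit 226) (nat_lit 207) (nat_lit 167))) (XT.nd (nat_lit 78) (nat_lit 76) (nat_lit 0) (XT.lf (nat_lit 0) (nat_lit 53649845755) (nat_lit 152) (nat_lit 21107367396) (nat_lit 0) (nat_lit 2569780795) (nat_lit 5) (nat_lit 5) (nat_lit 7) (nat_lit 4) (nat_lit 5) (nat_lit 4) (nat_lit 227) (nat_lit 207) (nat_lit 166)) (XT.lf (nat_lit 0) (nat_lit 5294114723) (nat_lit 76) (nat_lit 66605986622) (nat_lit 76) (nat_lit 15504222370) (nat_lit 4) (nat_lit 4) (nat_lit 5) (nat_lit 5) (nat_lit 5) (nat_lit 4) (nat_lit 228) (nat_lit 207) (nat_lit 165)))) (XT.nd (nat_lit 156)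 (nat_lit 76) (nat_lit 0) (XT.nd (nat_lit 78) (nat_lit 76) (nat_lit 0) (XT.lf (nat_lit 0) (nat_lit 36909746044) (nat_lit 76) (nat_lit 56578107348) (nat_lit 76) (nat_lit 5457474148) (nat_lit 4) (nat_lit 4) (nat_lit 5) (nat_lit 5) (nat_lit 5) (nat_lit 4) (nat_lit 229) (nat_lit 207) (nat_lit 164)) (XT.lf (nat_lit 0) (nat_lit 5778276649) (nat_lit 152) (nat_lit 39118225551) (nat_lit 76) (nat_lit 67310351733) (nat_lit 3) (nat_lit 5) (nat_lit 5) (nat_lit 5) (nat_lit 4) (nat_lit 4) (nat_lit 230) (nat_lit 207) (nat_lit 163))) (XT.nd (nat_lit 78) (nat_lit 76) (nat_lit 0) (XT.lf (nat_lit 0) (nat_lit 18374087644) (nat_lit 152) (nat_lit 12933206318) (nat_lit 76) (nat_lit 96139197719) (nat_lit 3) (nat_lit 5) (nat_lit 5) (nat_lit 5) (nat_lit 4) (nat_lit 4) (nat_lit 231) (nat_lit 207) (nat_lit 162)) (XT.nd (nat_lit 78) (nat_lit 0) (nat_lit 0) (XT.lf (nat_lit 0) (nat_lit 18066819670) (nat_lit 76) (nat_lit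 15217091352) (nat_lit 152) (nat_lit 111654236181) (nat_lit 2) (nat_lit 5) (nat_lit 3) (nat_lit 5) (nat_lit 4) (nat_lit 4) (nat_lit 232) (nat_lit 207) (nat_lit 161)) (XT.lf (nat_lit 0) (nat_lit 50886476189) (nat_lit 152) (nat_lit 110627934599) (nat_lit 0) (nat_lit 3502676522) (nat_lit 2) (nat_lit 5) (nat_lit 4) (nat_lit 4) (nat_lit 2) (nat_lit 4) (nat_lit 233) (nat_lit 207) (nat_lit 160))))))))
noncomputable def xc36 : XT := (XT.nd (nat_lit 1248) (nat_lit 0) (nat_lit 0) (XT.nd (nat_lit 624) (nat_lit 0) (nat_lit 0) (XT.nd (nat_lit 312) (nat_lit 76) (nat_lit 0) (XT.nd (nat_lit 156) (nat_lit 0) (nat_lit 0) (XT.nd (nat_lit 78) (nat_lit 0) (nat_lit 0) (XT.lf (nat_lit 0) (nat_lit 71542387096) (nat_lit 152) (nat_lit 92382576124) (nat_lit 0) (nat_lit 24149901130) (nat_lit 2) (nat_lit 5) (nat_lit 4) (nat_lit 4) (nat_lit 2) (nat_lit 4) (nat_lit 234) (nat_lit 207) (nat_lit 159)) (XT.lf (nat_lit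 0) (nat_lit 95289809718) (nat_lit 152) (nat_lit 71412306291) (nat_lit 0) (nat_lit 47889770449) (nat_lit 2) (nat_lit 5) (nat_lit 4) (nat_lit 4) (nat_lit 2) (nat_lit 4) (nat_lit 235) (nat_lit 207) (nat_lit 158))) (XT.nd (nat_lit 78) (nat_lit 0) (nat_lit 0) (XT.lf (nat_lit 0) (nat_lit 122593367541) (nat_lit 152) (nat_lit 47306837214) (nat_lit 0) (nat_lit 75186760182) (nat_lit 2) (nat_lit 5) (nat_lit 4) (nat_lit 4) (nat_lit 2) (nat_lit 4) (nat_lit 236) (nat_lit 207) (nat_lit 157)) (XT.lf (nat_lit 0) (nat_lit 153987260609) (nat_lit 152) (nat_lit 19594540149) (nat_lit 0) (nat_lit 106574941867) (nat_lit 2) (nat_lit 5) (nat_lit 4) (nat_lit 4) (nat_lit 2) (nat_lit 4) (nat_lit 237) (nat_lit 207) (nat_lit 156)))) (XT.nd (nat_lit 156) (nat_lit 0) (nat_lit 0) (XT.nd (nat_lit 78) (nat_lit 0) (nat_lit 0) (XT.lf (nat_lit 0) (nat_lit 12912729023) (nat_lit 76) (nat_lit 177483539685) (nat_lit 76) (nat_lit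 130066254524) (nat_lit 1) (nat_lit 4) (nat_lit 2) (nat_lit 5) (nat_lit 2) (nat_lit 4) (nat_lit 238) (nat_lit 207) (nat_lit 155)) (XT.lf (nat_lit 0) (nat_lit 51475516818) (nat_lit 76) (nat_lit 181357482260) (nat_lit 76) (nat_lit 133935878474) (nat_lit 1) (nat_lit 4) (nat_lit 2) (nat_lit 5) (nat_lit 2) (nat_lit 4) (nat_lit 239) (nat_lit 207) (nat_lit 154))) (XT.nd (nat_lit 78) (nat_lit 0) (nat_lit 0) (XT.lf (nat_lit 0) (nat_lit 95816498801) (nat_lit 76) (nat_lit 185815172464) (nat_lit 76) (nat_lit 138389813351) (nat_lit 1) (nat_lit 4) (nat_lit 2) (nat_lit 5) (nat_lit 2) (nat_lit 4) (nat_lit 240) (nat_lit 207) (nat_lit 153)) (XT.lf (nat_lit 0) (nat_lit 146803215926) (nat_lit 76) (nat_lit 190943825974) (nat_lit 76) (nat_lit 143515201360) (nat_lit 1) (nat_lit 4) (nat_lit 2) (nat_lit 5) (nat_lit 2) (nat_lit 4) (nat_lit 241) (nat_lit 207) (nat_lit 152))))) (XT.nd (nat_lit 312) (nat_lit 0) (nat_lit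 0) (XT.nd (nat_lit 156) (nat_lit 0) (nat_lit 0) (XT.nd (nat_lit 78) (nat_lit 0) (nat_lit 0) (XT.lf (nat_lit 0) (nat_lit 205433234395) (nat_lit 76) (nat_lit 196843786012) (nat_lit 76) (nat_lit 149412321832) (nat_lit 1) (nat_lit 4) (nat_lit 2) (nat_lit 5) (nat_lit 2) (nat_lit 4) (nat_lit 242) (nat_lit 207) (nat_lit 151)) (XT.lf (nat_lit 0) (nat_lit 272853663267) (nat_lit 76) (nat_lit 203630486579) (nat_lit 76) (nat_lit 156196553210) (nat_lit 1) (nat_lit 4) (nat_lit 2) (nat_lit 5) (nat_lit 2) (nat_lit 4) (nat_lit 243) (nat_lit 207) (nat_lit 150))) (XT.nd (nat_lit 78) (nat_lit 0) (nat_lit 0) (XT.lf (nat_lit 0) (nat_lit 350383597889) (nat_lit 76) (nat_lit 211436710946) (nat_lit 76) (nat_lit 164000630457) (nat_lit 1) (nat_lit 4) (nat_lit 2) (nat_lit 5) (nat_lit 2) (nat_lit 4) (nat_lit 244) (nat_lit 207) (nat_lit 149)) (XT.lf (nat_lit 0) (nat_lit 439539928287) (nat_lit 76) (nat_lit 220415189589)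 (nat_lit 76) (nat_lit 172977242040) (nat_lit 1) (nat_lit 4) (nat_lit 2) (nat_lit 5) (nat_lit 2) (nat_lit 4) (nat_lit 245) (nat_lit 207) (nat_lit 148)))) (XT.nd (nat_lit 156) (nat_lit 0) (nat_lit 0) (XT.nd (nat_lit 78) (nat_lit 0) (nat_lit 0) (XT.lf (nat_lit 0) (nat_lit 542067017445) (nat_lit 76) (nat_lit 230741588397) (nat_lit 76) (nat_lit 183302017316) (nat_lit 1) (nat_lit 4) (nat_lit 2) (nat_lit 5) (nat_lit 2) (nat_lit 4) (nat_lit 246) (nat_lit 207) (nat_lit 147)) (XT.lf (nat_lit 0) (nat_lit 659970830152) (nat_lit 76) (nat_lit 242617945605) (nat_lit 76) (nat_lit 195176962758) (nat_lit 1) (nat_lit 4) (nat_lit 2) (nat_lit 5) (nat_lit 2) (nat_lit 4) (nat_lit 247) (nat_lit 207) (nat_lit 146))) (XT.nd (nat_lit 78) (nat_lit 0) (nat_lit 0) (XT.lf (nat_lit 0) (nat_lit 795558180135) (nat_lit 76) (nat_lit 256276624725) (nat_lit 76) (nat_lit 208834414255) (nat_lit 1) (nat_lit 4) (nat_lit 2) (nat_lit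 5) (nat_lit 2) (nat_lit 4) (nat_lit 248) (nat_lit 207) (nat_lit 145)) (XT.lf (nat_lit 0) (nat_lit 951481863372) (nat_lit 76) (nat_lit 271984860783) (nat_lit 76) (nat_lit 224541582815) (nat_lit 1) (nat_lit 4) (nat_lit 2) (nat_lit 5) (nat_lit 2) (nat_lit 4) (nat_lit 249) (nat_lit 207) (nat_lit 144)))))) (XT.nd (nat_lit 28158) (nat_lit 0) (nat_lit 988) (XT.nd (nat_lit 312) (nat_lit 0) (nat_lit 0) (XT.nd (nat_lit 156) (nat_lit 0) (nat_lit 0) (XT.nd (nat_lit 78) (nat_lit 0) (nat_lit 0) (XT.lf (nat_lit 0) (nat_lit 1130792560622) (nat_lit 76) (nat_lit 290049988833) (nat_lit 76) (nat_lit 242605782605) (nat_lit 1) (nat_lit 4) (nat_lit 2) (nat_lit 5) (nat_lit 2) (nat_lit 4) (nat_lit 250) (nat_lit 207) (nat_lit 143)) (XT.lf (nat_lit 0) (nat_lit 1336998524656) (nat_lit 76) (nat_lit 310825457031) (nat_lit 76) (nat_lit 263380443621) (nat_lit 1) (nat_lit 4) (nat_lit 2) (nat_lit 5) (nat_lit 2) (nat_lit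 4) (nat_lit 251) (nat_lit 207) (nat_lit 142))) (XT.nd (nat_lit 78) (nat_lit 0) (nat_lit 0) (XT.lf (nat_lit 0) (nat_lit 1574134219990) (nat_lit 76) (nat_lit 334717741929) (nat_lit 76) (nat_lit 287272026622) (nat_lit 1) (nat_lit 4) (nat_lit 2) (nat_lit 5) (nat_lit 2) (nat_lit 4) (nat_lit 252) (nat_lit 207) (nat_lit 141)) (XT.lf (nat_lit 0) (nat_lit 1846839258053) (nat_lit 76) (nat_lit 362194301276) (nat_lit 76) (nat_lit 314747975623) (nat_lit 1) (nat_lit 4) (nat_lit 2) (nat_lit 5) (nat_lit 2) (nat_lit 4) (nat_lit 253) (nat_lit 207) (nat_lit 140)))) (XT.nd (nat_lit 27690) (nat_lit 0) (nat_lit 2280) (XT.nd (nat_lit 78) (nat_lit 0) (nat_lit 0) (XT.lf (nat_lit 0) (nat_lit 2160449172198) (nat_lit 76) (nat_lit 393792719928) (nat_lit 76) (nat_lit 346345863540) (nat_lit 1) (nat_lit 4) (nat_lit 2) (nat_lit 5) (nat_lit 2) (nat_lit 4) (nat_lit 254) (nat_lit 207) (nat_lit 139)) (XT.lf (nat_lit 0)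 (nat_lit 2521099808572) (nat_lit 76) (nat_lit 430131227816) (nat_lit 76) (nat_lit 382683909919) (nat_lit 1) (nat_lit 4) (nat_lit 2) (nat_lit 5) (nat_lit 2) (nat_lit 4) (nat_lit 255) (nat_lit 207) (nat_lit 138))) (XT.nd (nat_lit 78) (nat_lit 0) (nat_lit 0) (XT.lf (nat_lit 0) (nat_lit 2320613746) (nat_lit 0) (nat_lit 2320613746) (nat_lit 380) (nat_lit 1810924278) (nat_lit 31) (nat_lit 5) (nat_lit 31) (nat_lit 3) (nat_lit 36) (nat_lit 3) (nat_lit 208) (nat_lit 208) (nat_lit 184)) (XT.lf (nat_lit 76) (nat_lit 965335811) (nat_lit 0) (nat_lit 9747894991) (nat_lit 456) (nat_lit 3093890592) (nat_lit 32) (nat_lit 5) (nat_lit 31) (nat_lit 5) (nat_lit 37) (nat_lit 5) (nat_lit 209) (nat_lit 208) (nat_lit 183))))) (XT.nd (nat_lit 312) (nat_lit 608) (nat_lit 0) (XT.nd (nat_lit 156) (nat_lit 684) (nat_lit 0) (XT.nd (nat_lit 78) (nat_lit 0) (nat_lit 76) (XT.lf (nat_lit 76) (nat_lit 11874504267) (nat_lit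 0) (nat_lit 740984903) (nat_lit 456) (nat_lit 2210434086) (nat_lit 32) (nat_lit 5) (nat_lit 31) (nat_lit 5) (nat_lit 37) (nat_lit 5) (nat_lit 210) (nat_lit 208) (nat_lit 182)) (XT.lf (nat_lit 76) (nat_lit 8549735475) (nat_lit 0) (nat_lit 6596472257) (nat_lit 456) (nat_lit 824853710) (nat_lit 33) (nat_lit 5) (nat_lit 32) (nat_lit 5) (nat_lit 38) (nat_lit 5) (nat_lit 211) (nat_lit 208) (nat_lit 181))) (XT.nd (nat_lit 78) (nat_lit 380) (nat_lit 0) (XT.lf (nat_lit 0) (nat_lit 962936407) (nat_lit 456) (nat_lit 12566688241) (nat_lit 76) (nat_lit 3739019026) (nat_lit 27) (nat_lit 5) (nat_lit 33) (nat_lit 5) (nat_lit 28) (nat_lit 5) (nat_lit 212) (nat_lit 208) (nat_lit 180)) (XT.lf (nat_lit 0) (nat_lit 72395451) (nat_lit 380) (nat_lit 3228909492) (nat_lit 456) (nat_lit 15432020442) (nat_lit 22) (nat_lit 5) (nat_lit 27) (nat_lit 5) (nat_lit 28) (nat_lit 5) (nat_lit 213) (nat_lit 208) (nat_lit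 179)))) (XT.nd (nat_lit 156) (nat_lit 380) (nat_lit 0) (XT.nd (nat_lit 78) (nat_lit 228) (nat_lit 0) (XT.lf (nat_lit 0) (nat_lit 6505497416) (nat_lit 456) (nat_lit 5306926637) (nat_lit 76) (nat_lit 8564667772) (nat_lit 22) (nat_lit 5) (nat_lit 28) (nat_lit 5) (nat_lit 23) (nat_lit 5) (nat_lit 214) (nat_lit 208) (nat_lit 178)) (XT.lf (nat_lit 0) (nat_lit 10421239380) (nat_lit 228) (nat_lit 50286336) (nat_lit 304) (nat_lit 11773912234) (nat_lit 19) (nat_lit 5) (nat_lit 22) (nat_lit 5) (nat_lit 23) (nat_lit 5) (nat_lit 215) (nat_lit 208) (nat_lit 177))) (XT.nd (nat_lit 78) (nat_lit 228) (nat_lit 0) (XT.lf (nat_lit 0) (nat_lit 4273652135) (nat_lit 152) (nat_lit 11291717847) (nat_lit 228) (nat_lit 8786477662) (nat_lit 17) (nat_lit 5) (nat_lit 19) (nat_lit 5) (nat_lit 20) (nat_lit 5) (nat_lit 216) (nat_lit 208) (nat_lit 176)) (XT.nd (nat_lit 78) (nat_lit 228) (nat_lit 0) (XT.lf (nat_lit 0)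 (nat_lit 21763375389) (nat_lit 228) (nat_lit 3346649513) (nat_lit 76) (nat_lit 1637373725) (nat_lit 17) (nat_lit 5) (nat_lit 20) (nat_lit 5) (nat_lit 18) (nat_lit 5) (nat_lit 217) (nat_lit 208) (nat_lit 175)) (XT.lf (nat_lit 0) (nat_lit 100782727) (nat_lit 228) (nat_lit 13103319585) (nat_lit 76) (nat_lit 16245154476) (nat_lit 14) (nat_lit 5) (nat_lit 17) (nat_lit 5) (nat_lit 15) (nat_lit 5) (nat_lit 218) (nat_lit 208) (nat_lit 174))))))))
noncomputable def xc37 : XT := (XT.nd (nat_lit 1326) (nat_lit 76) (nat_lit 0) (XT.nd (nat_lit 624) (nat_lit 304) (nat_lit 0) (XT.nd (nat_lit 312) (nat_lit 228) (nat_lit 0) (XT.nd (nat_lit 156) (nat_lit 228) (nat_lit 0) (XT.nd (nat_lit 78) (nat_lit 0) (nat_lit 0) (XT.lf (nat_lit 0) (nat_lit 5908861070) (nat_lit 228) (nat_lit 25752765655) (nat_lit 76) (nat_lit 864228303) (nat_lit 12) (nat_lit 5) (nat_lit 15) (nat_lit 5) (nat_lit 13) (nat_lit 5) (nat_lit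 219) (nat_lit 208) (nat_lit 173)) (XT.lf (nat_lit 0) (nat_lit 13310315678) (nat_lit 228) (nat_lit 6031971461) (nat_lit 76) (nat_lit 16664118067) (nat_lit 12) (nat_lit 5) (nat_lit 15) (nat_lit 5) (nat_lit 13) (nat_lit 5) (nat_lit 220) (nat_lit 208) (nat_lit 172))) (XT.nd (nat_lit 78) (nat_lit 76) (nat_lit 0) (XT.lf (nat_lit 0) (nat_lit 17479692204) (nat_lit 152) (nat_lit 4732747494) (nat_lit 228) (nat_lit 17765566782) (nat_lit 10) (nat_lit 5) (nat_lit 12) (nat_lit 5) (nat_lit 13) (nat_lit 5) (nat_lit 221) (nat_lit 208) (nat_lit 171)) (XT.lf (nat_lit 0) (nat_lit 17988143) (nat_lit 76) (nat_lit 32875526599) (nat_lit 152) (nat_lit 11616520580) (nat_lit 9) (nat_lit 5) (nat_lit 10) (nat_lit 5) (nat_lit 11) (nat_lit 4) (nat_lit 222) (nat_lit 208) (nat_lit 170)))) (XT.nd (nat_lit 156) (nat_lit 0) (nat_lit 0) (XT.nd (nat_lit 78) (nat_lit 228) (nat_lit 0) (XT.lf (nat_lit 0) (nat_lit 27099585119)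 (nat_lit 76) (nat_lit 18835210593) (nat_lit 152) (nat_lit 3726583959) (nat_lit 9) (nat_lit 5) (nat_lit 10) (nat_lit 5) (nat_lit 11) (nat_lit 4) (nat_lit 223) (nat_lit 208) (nat_lit 169)) (XT.lf (nat_lit 0) (nat_lit 2627568495) (nat_lit 152) (nat_lit 2492965222) (nat_lit 228) (nat_lit 50451436315) (nat_lit 6) (nat_lit 5) (nat_lit 8) (nat_lit 5) (nat_lit 9) (nat_lit 5) (nat_lit 224) (nat_lit 208) (nat_lit 168))) (XT.nd (nat_lit 78) (nat_lit 0) (nat_lit 0) (XT.lf (nat_lit 0) (nat_lit 16126146517) (nat_lit 228) (nat_lit 29899055923) (nat_lit 76) (nat_lit 16252144682) (nat_lit 6) (nat_lit 5) (nat_lit 9) (nat_lit 5) (nat_lit 7) (nat_lit 4) (nat_lit 225) (nat_lit 208) (nat_lit 167)) (XT.lf (nat_lit 0) (nat_lit 28834033231) (nat_lit 228) (nat_lit 3493602078) (nat_lit 76) (nat_lit 37656875124) (nat_lit 6) (nat_lit 5) (nat_lit 9) (nat_lit 5) (nat_lit 7) (nat_lit 4) (nat_lit 226) (nat_lit 208)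 (nat_lit 166))))) (XT.nd (nat_lit 312) (nat_lit 152) (nat_lit 0) (XT.nd (nat_lit 156) (nat_lit 76) (nat_lit 0) (XT.nd (nat_lit 78) (nat_lit 0) (nat_lit 0) (XT.lf (nat_lit 0) (nat_lit 28262341079) (nat_lit 76) (nat_lit 15850239456) (nat_lit 152) (nat_lit 34682091427) (nat_lit 5) (nat_lit 5) (nat_lit 6) (nat_lit 5) (nat_lit 7) (nat_lit 4) (nat_lit 227) (nat_lit 208) (nat_lit 165)) (XT.lf (nat_lit 0) (nat_lit 61847813224) (nat_lit 152) (nat_lit 24025207378) (nat_lit 0) (nat_lit 3040216095) (nat_lit 5) (nat_lit 5) (nat_lit 7) (nat_lit 4) (nat_lit 5) (nat_lit 4) (nat_lit 228) (nat_lit 208) (nat_lit 164))) (XT.nd (nat_lit 78) (nat_lit 0) (nat_lit 0) (XT.lf (nat_lit 0) (nat_lit 6315482652) (nat_lit 76) (nat_lit 76505960676) (nat_lit 76) (nat_lit 17681955765) (nat_lit 4) (nat_lit 4) (nat_lit 5) (nat_lit 5) (nat_lit 5) (nat_lit 4) (nat_lit 229) (nat_lit 208) (nat_lit 163)) (XT.lf (nat_lit 0)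 (nat_lit 42643817274) (nat_lit 76) (nat_lit 64985759156) (nat_lit 76) (nat_lit 6147486608) (nat_lit 4) (nat_lit 4) (nat_lit 5) (nat_lit 5) (nat_lit 5) (nat_lit 4) (nat_lit 230) (nat_lit 208) (nat_lit 162)))) (XT.nd (nat_lit 156) (nat_lit 76) (nat_lit 0) (XT.nd (nat_lit 78) (nat_lit 0) (nat_lit 0) (XT.lf (nat_lit 0) (nat_lit 6751257395) (nat_lit 152) (nat_lit 44808063805) (nat_lit 76) (nat_lit 77469594669) (nat_lit 3) (nat_lit 5) (nat_lit 5) (nat_lit 5) (nat_lit 4) (nat_lit 4) (nat_lit 231) (nat_lit 208) (nat_lit 161)) (XT.lf (nat_lit 0) (nat_lit 21222582745) (nat_lit 152) (nat_lit 14718495458) (nat_lit 76) (nat_lit 110614590573) (nat_lit 3) (nat_lit 5) (nat_lit 5) (nat_lit 5) (nat_lit 4) (nat_lit 4) (nat_lit 232) (nat_lit 208) (nat_lit 160))) (XT.nd (nat_lit 78) (nat_lit 0) (nat_lit 0) (XT.lf (nat_lit 0) (nat_lit 20918440537) (nat_lit 76) (nat_lit 17441794707) (nat_lit 152) (nat_lit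 128311581905) (nat_lit 2) (nat_lit 5) (nat_lit 3) (nat_lit 5) (nat_lit 4) (nat_lit 4) (nat_lit 233) (nat_lit 208) (nat_lit 159)) (XT.nd (nat_lit 78) (nat_lit 0) (nat_lit 0) (XT.lf (nat_lit 0) (nat_lit 58593472932) (nat_lit 152) (nat_lit 127094073911) (nat_lit 0) (nat_lit 4075874469) (nat_lit 2) (nat_lit 5) (nat_lit 4) (nat_lit 4) (nat_lit 2) (nat_lit 4) (nat_lit 234) (nat_lit 208) (nat_lit 158)) (XT.lf (nat_lit 0) (nat_lit 82338114999) (nat_lit 152) (nat_lit 106128613953) (nat_lit 0) (nat_lit 27813948446) (nat_lit 2) (nat_lit 5) (nat_lit 4) (nat_lit 4) (nat_lit 2) (nat_lit 4) (nat_lit 235) (nat_lit 208) (nat_lit 157))))))) (XT.nd (nat_lit 624) (nat_lit 0) (nat_lit 0) (XT.nd (nat_lit 312) (nat_lit 0) (nat_lit 0) (XT.nd (nat_lit 156) (nat_lit 76) (nat_lit 0) (XT.nd (nat_lit 78) (nat_lit 0) (nat_lit 0) (XT.lf (nat_lit 0) (nat_lit 109639254948) (nat_lit 152) (nat_lit 82027327375) (nat_lit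 0) (nat_lit 55109377013) (nat_lit 2) (nat_lit 5) (nat_lit 4) (nat_lit 4) (nat_lit 2) (nat_lit 4) (nat_lit 236) (nat_lit 208) (nat_lit 156)) (XT.lf (nat_lit 0) (nat_lit 141031045517) (nat_lit 152) (nat_lit 54318667266) (nat_lit 0) (nat_lit 86496201163) (nat_lit 2) (nat_lit 5) (nat_lit 4) (nat_lit 4) (nat_lit 2) (nat_lit 4) (nat_lit 237) (nat_lit 208) (nat_lit 155))) (XT.nd (nat_lit 78) (nat_lit 76) (nat_lit 0) (XT.lf (nat_lit 0) (nat_lit 177127673913) (nat_lit 152) (nat_lit 22460507666) (nat_lit 0) (nat_lit 122588510934) (nat_lit 2) (nat_lit 5) (nat_lit 4) (nat_lit 4) (nat_lit 2) (nat_lit 4) (nat_lit 238) (nat_lit 208) (nat_lit 154)) (XT.lf (nat_lit 0) (nat_lit 14916654723) (nat_lit 76) (nat_lit 204077469700) (nat_lit 76) (nat_lit 149534551394) (nat_lit 1) (nat_lit 4) (nat_lit 2) (nat_lit 5) (nat_lit 2) (nat_lit 4) (nat_lit 239) (nat_lit 208) (nat_lit 153)))) (XT.nd (nat_lit 156) (nat_lit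 0) (nat_lit 0) (XT.nd (nat_lit 78) (nat_lit 0) (nat_lit 0) (XT.lf (nat_lit 0) (nat_lit 59255119424) (nat_lit 76) (nat_lit 208536234218) (nat_lit 76) (nat_lit 153990050411) (nat_lit 1) (nat_lit 4) (nat_lit 2) (nat_lit 5) (nat_lit 2) (nat_lit 4) (nat_lit 240) (nat_lit 208) (nat_lit 152)) (XT.lf (nat_lit 0) (nat_lit 110239647607) (nat_lit 76) (nat_lit 213665821915) (nat_lit 76) (nat_lit 159116798541) (nat_lit 1) (nat_lit 4) (nat_lit 2) (nat_lit 5) (nat_lit 2) (nat_lit 4) (nat_lit 241) (nat_lit 208) (nat_lit 151))) (XT.nd (nat_lit 78) (nat_lit 0) (nat_lit 0) (XT.lf (nat_lit 0) (nat_lit 168867762650) (nat_lit 76) (nat_lit 219566594290) (nat_lit 76) (nat_lit 165015101727) (nat_lit 1) (nat_lit 4) (nat_lit 2) (nat_lit 5) (nat_lit 2) (nat_lit 4) (nat_lit 242) (nat_lit 208) (nat_lit 150)) (XT.lf (nat_lit 0) (nat_lit 236286536368) (nat_lit 76) (nat_lit 226354001235) (nat_lit 76) (nat_lit 171800361553)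 (nat_lit 1) (nat_lit 4) (nat_lit 2) (nat_lit 5) (nat_lit 2) (nat_lit 4) (nat_lit 243) (nat_lit 208) (nat_lit 149))))) (XT.nd (nat_lit 312) (nat_lit 0) (nat_lit 0) (XT.nd (nat_lit 156) (nat_lit 0) (nat_lit 0) (XT.nd (nat_lit 78) (nat_lit 0) (nat_lit 0) (XT.lf (nat_lit 0) (nat_lit 313815031726) (nat_lit 76) (nat_lit 234160839845) (nat_lit 76) (nat_lit 179605333102) (nat_lit 1) (nat_lit 4) (nat_lit 2) (nat_lit 5) (nat_lit 2) (nat_lit 4) (nat_lit 244) (nat_lit 208) (nat_lit 148)) (XT.lf (nat_lit 0) (nat_lit 402970110589) (nat_lit 76) (nat_lit 243139852613) (nat_lit 76) (nat_lit 188582722338) (nat_lit 1) (nat_lit 4) (nat_lit 2) (nat_lit 5) (nat_lit 2) (nat_lit 4) (nat_lit 245) (nat_lit 208) (nat_lit 147))) (XT.nd (nat_lit 78) (nat_lit 0) (nat_lit 0) (XT.lf (nat_lit 0) (nat_lit 505496111456) (nat_lit 76) (nat_lit 253466715876) (nat_lit 76) (nat_lit 198908173835) (nat_lit 1) (nat_lit 4) (nat_lit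 2) (nat_lit 5) (nat_lit 2) (nat_lit 4) (nat_lit 246) (nat_lit 208) (nat_lit 146)) (XT.lf (nat_lit 0) (nat_lit 623398977824) (nat_lit 76) (nat_lit 265343476959) (nat_lit 76) (nat_lit 210783707295) (nat_lit 1) (nat_lit 4) (nat_lit 2) (nat_lit 5) (nat_lit 2) (nat_lit 4) (nat_lit 247) (nat_lit 208) (nat_lit 145)))) (XT.nd (nat_lit 156) (nat_lit 0) (nat_lit 0) (XT.nd (nat_lit 78) (nat_lit 0) (nat_lit 0) (XT.lf (nat_lit 0) (nat_lit 758985504903) (nat_lit 76) (nat_lit 279002507274) (nat_lit 76) (nat_lit 224441670112) (nat_lit 1) (nat_lit 4) (nat_lit 2) (nat_lit 5) (nat_lit 2) (nat_lit 4) (nat_lit 248) (nat_lit 208) (nat_lit 144)) (XT.lf (nat_lit 0) (nat_lit 914908472571) (nat_lit 76) (nat_lit 294711048720) (nat_lit 76) (nat_lit 240149283298) (nat_lit 1) (nat_lit 4) (nat_lit 2) (nat_lit 5) (nat_lit 2) (nat_lit 4) (nat_lit 249) (nat_lit 208) (nat_lit 143))) (XT.nd (nat_lit 78) (nat_lit 0) (nat_lit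 0) (XT.lf (nat_lit 0) (nat_lit 1094218547587) (nat_lit 76) (nat_lit 312776442323) (nat_lit 76) (nat_lit 258213869720) (nat_lit 1) (nat_lit 4) (nat_lit 2) (nat_lit 5) (nat_lit 2) (nat_lit 4) (nat_lit 250) (nat_lit 208) (nat_lit 142)) (XT.nd (nat_lit 78) (nat_lit 0) (nat_lit 0) (XT.lf (nat_lit 0) (nat_lit 1300423970549) (nat_lit 76) (nat_lit 333552141438) (nat_lit 76) (nat_lit 278988866937) (nat_lit 1) (nat_lit 4) (nat_lit 2) (nat_lit 5) (nat_lit 2) (nat_lit 4) (nat_lit 251) (nat_lit 208) (nat_lit 141)) (XT.lf (nat_lit 0) (nat_lit 1537559195385) (nat_lit 76) (nat_lit 357444627133) (nat_lit 76) (nat_lit 302880742287) (nat_lit 1) (nat_lit 4) (nat_lit 2) (nat_lit 5) (nat_lit 2) (nat_lit 4) (nat_lit 252) (nat_lit 208) (nat_lit 140))))))))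
noncomputable def xc38 : XT := (XT.nd (nat_lit 28860) (nat_lit 0) (nat_lit 76) (XT.nd (nat_lit 28236) (nat_lit 0) (nat_lit 836) (XT.nd (nat_lit 27924) (nat_lit 0) (nat_lit 1976) (XT.nd (nat_lit 156) (nat_lit 0) (nat_lit 0) (XT.nd (nat_lit 78) (nat_lit 0) (nat_lit 0) (XT.lf (nat_lit 0) (nat_lit 1810263824319) (nat_lit 76) (nat_lit 384921361086) (nat_lit 76) (nat_lit 330356945505) (nat_lit 1) (nat_lit 4) (nat_lit 2) (nat_lit 5) (nat_lit 2) (nat_lit 4) (nat_lit 253) (nat_lit 208) (nat_lit 139)) (XT.lf (nat_lit 0) (nat_lit 2123873382700) (nat_lit 76) (nat_lit 416519931570) (nat_lit 76) (nat_lit 361955054480) (nat_lit 1) (nat_lit 4) (nat_lit 2) (nat_lit 5) (nat_lit 2) (nat_lit 4) (nat_lit 254) (nat_lit 208) (nat_lit 138))) (XT.nd (nat_lit 27690) (nat_lit 0) (nat_lit 2280) (XT.lf (nat_lit 0) (nat_lit 2484523709714) (nat_lit 76) (nat_lit 452858571485) (nat_lit 76) (nat_lit 398293293082) (nat_lit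 1) (nat_lit 4) (nat_lit 2) (nat_lit 5) (nat_lit 2) (nat_lit 4) (nat_lit 255) (nat_lit 208) (nat_lit 137)) (XT.lf (nat_lit 0) (nat_lit 2960691953) (nat_lit 0) (nat_lit 2960691953) (nat_lit 380) (nat_lit 1445893555) (nat_lit 31) (nat_lit 5) (nat_lit 31) (nat_lit 3) (nat_lit 36) (nat_lit 3) (nat_lit 209) (nat_lit 209) (nat_lit 182)))) (XT.nd (nat_lit 156) (nat_lit 304) (nat_lit 0) (XT.nd (nat_lit 78) (nat_lit 0) (nat_lit 0) (XT.lf (nat_lit 76) (nat_lit 1754006933) (nat_lit 0) (nat_lit 11585084928) (nat_lit 456) (nat_lit 2447188858) (nat_lit 32) (nat_lit 5) (nat_lit 31) (nat_lit 5) (nat_lit 37) (nat_lit 5) (nat_lit 210) (nat_lit 209) (nat_lit 181)) (XT.lf (nat_lit 76) (nat_lit 14215567516) (nat_lit 0) (nat_lit 1178224541) (nat_lit 456) (nat_lit 1576098918) (nat_lit 32) (nat_lit 5) (nat_lit 31) (nat_lit 5) (nat_lit 37) (nat_lit 5) (nat_lit 211) (nat_lit 209) (nat_lit 180))) (XT.nd (nat_lit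 78) (nat_lit 380) (nat_lit 0) (XT.lf (nat_lit 76) (nat_lit 10425026269) (nat_lit 0) (nat_lit 7770967596) (nat_lit 456) (nat_lit 100635433) (nat_lit 33) (nat_lit 5) (nat_lit 32) (nat_lit 5) (nat_lit 38) (nat_lit 5) (nat_lit 212) (nat_lit 209) (nat_lit 179)) (XT.lf (nat_lit 0) (nat_lit 1818939937) (nat_lit 456) (nat_lit 13797008951) (nat_lit 76) (nat_lit 4179735404) (nat_lit 27) (nat_lit 5) (nat_lit 33) (nat_lit 5) (nat_lit 28) (nat_lit 5) (nat_lit 213) (nat_lit 209) (nat_lit 178))))) (XT.nd (nat_lit 312) (nat_lit 380) (nat_lit 0) (XT.nd (nat_lit 156) (nat_lit 380) (nat_lit 0) (XT.nd (nat_lit 78) (nat_lit 0) (nat_lit 0) (XT.lf (nat_lit 0) (nat_lit 682521680) (nat_lit 380) (nat_lit 3747141883) (nat_lit 456) (nat_lit 17057502480) (nat_lit 22) (nat_lit 5) (nat_lit 27) (nat_lit 5) (nat_lit 28) (nat_lit 5) (nat_lit 214) (nat_lit 209) (nat_lit 177)) (XT.lf (nat_lit 0) (nat_lit 8031189576) (nat_lit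 456) (nat_lit 5532321928) (nat_lit 76) (nat_lit 9821367631) (nat_lit 22) (nat_lit 5) (nat_lit 28) (nat_lit 5) (nat_lit 23) (nat_lit 5) (nat_lit 215) (nat_lit 209) (nat_lit 176))) (XT.nd (nat_lit 78) (nat_lit 152) (nat_lit 0) (XT.lf (nat_lit 0) (nat_lit 12506766845) (nat_lit 228) (nat_lit 26195750) (nat_lit 304) (nat_lit 13005871746) (nat_lit 19) (nat_lit 5) (nat_lit 22) (nat_lit 5) (nat_lit 23) (nat_lit 5) (nat_lit 216) (nat_lit 209) (nat_lit 175)) (XT.lf (nat_lit 0) (nat_lit 5431875586) (nat_lit 152) (nat_lit 12908102160) (nat_lit 228) (nat_lit 9625843158) (nat_lit 17) (nat_lit 5) (nat_lit 19) (nat_lit 5) (nat_lit 20) (nat_lit 5) (nat_lit 217) (nat_lit 209) (nat_lit 174)))) (XT.nd (nat_lit 156) (nat_lit 152) (nat_lit 0) (XT.nd (nat_lit 78) (nat_lit 228) (nat_lit 0) (XT.lf (nat_lit 0) (nat_lit 25411936566) (nat_lit 228) (nat_lit 3366804604) (nat_lit 76) (nat_lit 1946895293) (nat_lit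 17) (nat_lit 5) (nat_lit 20) (nat_lit 5) (nat_lit 18) (nat_lit 5) (nat_lit 218) (nat_lit 209) (nat_lit 173)) (XT.lf (nat_lit 0) (nat_lit 472018241) (nat_lit 228) (nat_lit 14606473916) (nat_lit 76) (nat_lit 18757129425) (nat_lit 14) (nat_lit 5) (nat_lit 17) (nat_lit 5) (nat_lit 15) (nat_lit 5) (nat_lit 219) (nat_lit 209) (nat_lit 172))) (XT.nd (nat_lit 78) (nat_lit 0) (nat_lit 0) (XT.lf (nat_lit 0) (nat_lit 7117522191) (nat_lit 228) (nat_lit 29167166445) (nat_lit 76) (nat_lit 1092054371) (nat_lit 12) (nat_lit 5) (nat_lit 15) (nat_lit 5) (nat_lit 13) (nat_lit 5) (nat_lit 220) (nat_lit 209) (nat_lit 171)) (XT.lf (nat_lit 0) (nat_lit 15587151692) (nat_lit 228) (nat_lit 6546754955) (nat_lit 76) (nat_lit 19249119971) (nat_lit 12) (nat_lit 5) (nat_lit 15) (nat_lit 5) (nat_lit 13) (nat_lit 5) (nat_lit 221) (nat_lit 209) (nat_lit 170)))))) (XT.nd (nat_lit 624) (nat_lit 228) (nat_lit 0) (XT.nd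 (nat_lit 312) (nat_lit 76) (nat_lit 0) (XT.nd (nat_lit 156) (nat_lit 228) (nat_lit 0) (XT.nd (nat_lit 78) (nat_lit 76) (nat_lit 0) (XT.lf (nat_lit 0) (nat_lit 20458645668) (nat_lit 152) (nat_lit 5337975106) (nat_lit 228) (nat_lit 20156235142) (nat_lit 10) (nat_lit 5) (nat_lit 12) (nat_lit 5) (nat_lit 13) (nat_lit 5) (nat_lit 222) (nat_lit 209) (nat_lit 169)) (XT.lf (nat_lit 0) (nat_lit 365165113) (nat_lit 76) (nat_lit 37692255289) (nat_lit 152) (nat_lit 13109280961) (nat_lit 9) (nat_lit 5) (nat_lit 10) (nat_lit 5) (nat_lit 11) (nat_lit 4) (nat_lit 223) (nat_lit 209) (nat_lit 168))) (XT.nd (nat_lit 78) (nat_lit 228) (nat_lit 0) (XT.lf (nat_lit 0) (nat_lit 31464069624) (nat_lit 76) (nat_lit 21560839748) (nat_lit 152) (nat_lit 4068425722) (nat_lit 9) (nat_lit 5) (nat_lit 10) (nat_lit 5) (nat_lit 11) (nat_lit 4) (nat_lit 224) (nat_lit 209) (nat_lit 167)) (XT.lf (nat_lit 0) (nat_lit 3306906324)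 (nat_lit 152) (nat_lit 2767943377) (nat_lit 228) (nat_lit 57817002484) (nat_lit 6) (nat_lit 5) (nat_lit 8) (nat_lit 5) (nat_lit 9) (nat_lit 5) (nat_lit 225) (nat_lit 209) (nat_lit 166)))) (XT.nd (nat_lit 156) (nat_lit 76) (nat_lit 0) (XT.nd (nat_lit 78) (nat_lit 0) (nat_lit 0) (XT.lf (nat_lit 0) (nat_lit 18709082474) (nat_lit 228) (nat_lit 34124144088) (nat_lit 76) (nat_lit 18771719355) (nat_lit 6) (nat_lit 5) (nat_lit 9) (nat_lit 5) (nat_lit 7) (nat_lit 4) (nat_lit 226) (nat_lit 209) (nat_lit 165)) (XT.lf (nat_lit 0) (nat_lit 33301759067) (nat_lit 228) (nat_lit 3791755239) (nat_lit 76) (nat_lit 43376495932) (nat_lit 6) (nat_lit 5) (nat_lit 9) (nat_lit 5) (nat_lit 7) (nat_lit 4) (nat_lit 227) (nat_lit 209) (nat_lit 164))) (XT.nd (nat_lit 78) (nat_lit 0) (nat_lit 0) (XT.lf (nat_lit 0) (nat_lit 32708459169) (nat_lit 76) (nat_lit 18149999327) (nat_lit 152) (nat_lit 39744427953) (nat_lit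 5) (nat_lit 5) (nat_lit 6) (nat_lit 5) (nat_lit 7) (nat_lit 4) (nat_lit 228) (nat_lit 209) (nat_lit 163)) (XT.lf (nat_lit 0) (nat_lit 71238777727) (nat_lit 152) (nat_lit 27441264381) (nat_lit 0) (nat_lit 3560496661) (nat_lit 5) (nat_lit 5) (nat_lit 7) (nat_lit 4) (nat_lit 5) (nat_lit 4) (nat_lit 229) (nat_lit 209) (nat_lit 162))))) (XT.nd (nat_lit 312) (nat_lit 76) (nat_lit 0) (XT.nd (nat_lit 156) (nat_lit 76) (nat_lit 0) (XT.nd (nat_lit 78) (nat_lit 0) (nat_lit 0) (XT.lf (nat_lit 0) (nat_lit 7434639244) (nat_lit 76) (nat_lit 87913103216) (nat_lit 76) (nat_lit 20222415511) (nat_lit 4) (nat_lit 4) (nat_lit 5) (nat_lit 5) (nat_lit 5) (nat_lit 4) (nat_lit 230) (nat_lit 209) (nat_lit 161)) (XT.lf (nat_lit 0) (nat_lit 49189810903) (nat_lit 76) (nat_lit 74673839063) (nat_lit 76) (nat_lit 6972362975) (nat_lit 4) (nat_lit 4) (nat_lit 5) (nat_lit 5) (nat_lit 5) (nat_lit 4) (nat_lit 231) (nat_lit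 209) (nat_lit 160))) (XT.nd (nat_lit 78) (nat_lit 0) (nat_lit 0) (XT.lf (nat_lit 0) (nat_lit 7844278139) (nat_lit 152) (nat_lit 51394758761) (nat_lit 76) (nat_lit 89137436649) (nat_lit 3) (nat_lit 5) (nat_lit 5) (nat_lit 5) (nat_lit 4) (nat_lit 4) (nat_lit 232) (nat_lit 209) (nat_lit 159)) (XT.lf (nat_lit 0) (nat_lit 24475824187) (nat_lit 152) (nat_lit 16809300547) (nat_lit 76) (nat_lit 127247998967) (nat_lit 3) (nat_lit 5) (nat_lit 5) (nat_lit 5) (nat_lit 4) (nat_lit 4) (nat_lit 233) (nat_lit 209) (nat_lit 158)))) (XT.nd (nat_lit 156) (nat_lit 0) (nat_lit 0) (XT.nd (nat_lit 78) (nat_lit 0) (nat_lit 0) (XT.lf (nat_lit 0) (nat_lit 24163274985) (nat_lit 76) (nat_lit 20014313177) (nat_lit 152) (nat_lit 147489669132) (nat_lit 2) (nat_lit 5) (nat_lit 3) (nat_lit 5) (nat_lit 4) (nat_lit 4) (nat_lit 234) (nat_lit 209) (nat_lit 157)) (XT.lf (nat_lit 0) (nat_lit 67438467644) (nat_lit 152) (nat_lit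 146061360138) (nat_lit 0) (nat_lit 4723396636) (nat_lit 2) (nat_lit 5) (nat_lit 4) (nat_lit 4) (nat_lit 2) (nat_lit 4) (nat_lit 235) (nat_lit 209) (nat_lit 156))) (XT.nd (nat_lit 78) (nat_lit 0) (nat_lit 0) (XT.lf (nat_lit 0) (nat_lit 94737505094) (nat_lit 152) (nat_lit 121963710516) (nat_lit 0) (nat_lit 32017467668) (nat_lit 2) (nat_lit 5) (nat_lit 4) (nat_lit 4) (nat_lit 2) (nat_lit 4) (nat_lit 236) (nat_lit 209) (nat_lit 155)) (XT.nd (nat_lit 78) (nat_lit 0) (nat_lit 0) (XT.lf (nat_lit 0) (nat_lit 126127467404) (nat_lit 152) (nat_lit 94258212977) (nat_lit 0) (nat_lit 63403111351) (nat_lit 2) (nat_lit 5) (nat_lit 4) (nat_lit 4) (nat_lit 2) (nat_lit 4) (nat_lit 237) (nat_lit 209) (nat_lit 154)) (XT.lf (nat_lit 0) (nat_lit 162222506009) (nat_lit 152) (nat_lit 62402803439) (nat_lit 0) (nat_lit 99494394630) (nat_lit 2) (nat_lit 5) (nat_lit 4) (nat_lit 4) (nat_lit 2) (nat_lit 4) (nat_lit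 238) (nat_lit 209) (nat_lit 153))))))))
noncomputable def xc39 : XT := (XT.nd (nat_lit 29094) (nat_lit 0) (nat_lit 380) (XT.nd (nat_lit 624) (nat_lit 0) (nat_lit 0) (XT.nd (nat_lit 312) (nat_lit 0) (nat_lit 0) (XT.nd (nat_lit 156) (nat_lit 0) (nat_lit 0) (XT.nd (nat_lit 78) (nat_lit 76) (nat_lit 0) (XT.lf (nat_lit 0) (nat_lit 203728828186) (nat_lit 152) (nat_lit 25774223888) (nat_lit 0) (nat_lit 140997451306) (nat_lit 2) (nat_lit 5) (nat_lit 4) (nat_lit 4) (nat_lit 2) (nat_lit 4) (nat_lit 239) (nat_lit 209) (nat_lit 152)) (XT.lf (nat_lit 0) (nat_lit 17204826917) (nat_lit 76) (nat_lit 234667463737) (nat_lit 76) (nat_lit 171933247291) (nat_lit 1) (nat_lit 4) (nat_lit 2) (nat_lit 5) (nat_lit 2) (nat_lit 4) (nat_lit 240) (nat_lit 209) (nat_lit 151))) (XT.nd (nat_lit 78) (nat_lit 0) (nat_lit 0) (XT.lf (nat_lit 0) (nat_lit 68187451673) (nat_lit 76) (nat_lit 239797863770) (nat_lit 76) (nat_lit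 177061178136) (nat_lit 1) (nat_lit 4) (nat_lit 2) (nat_lit 5) (nat_lit 2) (nat_lit 4) (nat_lit 241) (nat_lit 209) (nat_lit 150)) (XT.lf (nat_lit 0) (nat_lit 126813911562) (nat_lit 76) (nat_lit 245699342524) (nat_lit 76) (nat_lit 182960509769) (nat_lit 1) (nat_lit 4) (nat_lit 2) (nat_lit 5) (nat_lit 2) (nat_lit 4) (nat_lit 242) (nat_lit 209) (nat_lit 149)))) (XT.nd (nat_lit 156) (nat_lit 0) (nat_lit 0) (XT.nd (nat_lit 78) (nat_lit 0) (nat_lit 0) (XT.lf (nat_lit 0) (nat_lit 194231246016) (nat_lit 76) (nat_lit 252487363712) (nat_lit 76) (nat_lit 189746663897) (nat_lit 1) (nat_lit 4) (nat_lit 2) (nat_lit 5) (nat_lit 2) (nat_lit 4) (nat_lit 243) (nat_lit 209) (nat_lit 148)) (XT.lf (nat_lit 0) (nat_lit 271758489839) (nat_lit 76) (nat_lit 260294736446) (nat_lit 76) (nat_lit 197552413099) (nat_lit 1) (nat_lit 4) (nat_lit 2) (nat_lit 5) (nat_lit 2) (nat_lit 4) (nat_lit 244) (nat_lit 209) (nat_lit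 147))) (XT.nd (nat_lit 78) (nat_lit 0) (nat_lit 0) (XT.lf (nat_lit 0) (nat_lit 360912480412) (nat_lit 76) (nat_lit 269274213670) (nat_lit 76) (nat_lit 206530478556) (nat_lit 1) (nat_lit 4) (nat_lit 2) (nat_lit 5) (nat_lit 2) (nat_lit 4) (nat_lit 245) (nat_lit 209) (nat_lit 146)) (XT.lf (nat_lit 0) (nat_lit 463437534940) (nat_lit 76) (nat_lit 279601480808) (nat_lit 76) (nat_lit 216856518071) (nat_lit 1) (nat_lit 4) (nat_lit 2) (nat_lit 5) (nat_lit 2) (nat_lit 4) (nat_lit 246) (nat_lit 209) (nat_lit 145))))) (XT.nd (nat_lit 312) (nat_lit 0) (nat_lit 0) (XT.nd (nat_lit 156) (nat_lit 0) (nat_lit 0) (XT.nd (nat_lit 78) (nat_lit 0) (nat_lit 0) (XT.lf (nat_lit 0) (nat_lit 581339578403) (nat_lit 76) (nat_lit 291478593086) (nat_lit 76) (nat_lit 228732562851) (nat_lit 1) (nat_lit 4) (nat_lit 2) (nat_lit 5) (nat_lit 2) (nat_lit 4) (nat_lit 247) (nat_lit 209) (nat_lit 144)) (XT.lf (nat_lit 0) (nat_lit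 716925389913) (nat_lit 76) (nat_lit 305137928789) (nat_lit 76) (nat_lit 242390970295) (nat_lit 1) (nat_lit 4) (nat_lit 2) (nat_lit 5) (nat_lit 2) (nat_lit 4) (nat_lit 248) (nat_lit 209) (nat_lit 143))) (XT.nd (nat_lit 78) (nat_lit 0) (nat_lit 0) (XT.lf (nat_lit 0) (nat_lit 872847735348) (nat_lit 76) (nat_lit 320846735788) (nat_lit 76) (nat_lit 258098970112) (nat_lit 1) (nat_lit 4) (nat_lit 2) (nat_lit 5) (nat_lit 2) (nat_lit 4) (nat_lit 249) (nat_lit 209) (nat_lit 142)) (XT.lf (nat_lit 0) (nat_lit 1052157269291) (nat_lit 76) (nat_lit 338912360308) (nat_lit 76) (nat_lit 276163892735) (nat_lit 1) (nat_lit 4) (nat_lit 2) (nat_lit 5) (nat_lit 2) (nat_lit 4) (nat_lit 250) (nat_lit 209) (nat_lit 141)))) (XT.nd (nat_lit 156) (nat_lit 0) (nat_lit 0) (XT.nd (nat_lit 78) (nat_lit 0) (nat_lit 0) (XT.lf (nat_lit 0) (nat_lit 1258362221755) (nat_lit 76) (nat_lit 359688260220) (nat_lit 76) (nat_lit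 296939182301) (nat_lit 1) (nat_lit 4) (nat_lit 2) (nat_lit 5) (nat_lit 2) (nat_lit 4) (nat_lit 251) (nat_lit 209) (nat_lit 140)) (XT.lf (nat_lit 0) (nat_lit 1495497037462) (nat_lit 76) (nat_lit 383580920521) (nat_lit 76) (nat_lit 320831311867) (nat_lit 1) (nat_lit 4) (nat_lit 2) (nat_lit 5) (nat_lit 2) (nat_lit 4) (nat_lit 252) (nat_lit 209) (nat_lit 139))) (XT.nd (nat_lit 78) (nat_lit 0) (nat_lit 0) (XT.lf (nat_lit 0) (nat_lit 1768201310632) (nat_lit 76) (nat_lit 411057806306) (nat_lit 76) (nat_lit 348307736143) (nat_lit 1) (nat_lit 4) (nat_lit 2) (nat_lit 5) (nat_lit 2) (nat_lit 4) (nat_lit 253) (nat_lit 209) (nat_lit 138)) (XT.nd (nat_lit 27846) (nat_lit 0) (nat_lit 2280) (XT.lf (nat_lit 0) (nat_lit 2081810559653) (nat_lit 76) (nat_lit 442656508817) (nat_lit 76) (nat_lit 379906037342) (nat_lit 1) (nat_lit 4) (nat_lit 2) (nat_lit 5) (nat_lit 2) (nat_lit 4) (nat_lit 254) (nat_lit 209)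 (nat_lit 137)) (XT.lf (nat_lit 0) (nat_lit 3625579220) (nat_lit 0) (nat_lit 3625579220) (nat_lit 380) (nat_lit 1181364080) (nat_lit 31) (nat_lit 5) (nat_lit 31) (nat_lit 3) (nat_lit 36) (nat_lit 3) (nat_lit 210) (nat_lit 210) (nat_lit 180))))))) (XT.nd (nat_lit 624) (nat_lit 836) (nat_lit 0) (XT.nd (nat_lit 312) (nat_lit 684) (nat_lit 0) (XT.nd (nat_lit 156) (nat_lit 380) (nat_lit 0) (XT.nd (nat_lit 78) (nat_lit 0) (nat_lit 0) (XT.lf (nat_lit 76) (nat_lit 2503966764) (nat_lit 0) (nat_lit 13606405844) (nat_lit 456) (nat_lit 1974353900) (nat_lit 32) (nat_lit 5) (nat_lit 31) (nat_lit 5) (nat_lit 37) (nat_lit 5) (nat_lit 211) (nat_lit 210) (nat_lit 179)) (XT.lf (nat_lit 76) (nat_lit 16771258114) (nat_lit 0) (nat_lit 1601530550) (nat_lit 456) (nat_lit 1082154376) (nat_lit 32) (nat_lit 5) (nat_lit 31) (nat_lit 5) (nat_lit 37) (nat_lit 5) (nat_lit 212) (nat_lit 210) (nat_lit 178))) (XT.nd (nat_lit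 78) (nat_lit 0) (nat_lit 76) (XT.lf (nat_lit 0) (nat_lit 499153940) (nat_lit 456) (nat_lit 8563716147) (nat_lit 532) (nat_lit 11924243523) (nat_lit 26) (nat_lit 5) (nat_lit 32) (nat_lit 5) (nat_lit 33) (nat_lit 5) (nat_lit 213) (nat_lit 210) (nat_lit 177)) (XT.lf (nat_lit 0) (nat_lit 2629824836) (nat_lit 456) (nat_lit 15371526247) (nat_lit 76) (nat_lit 4715855280) (nat_lit 27) (nat_lit 5) (nat_lit 33) (nat_lit 5) (nat_lit 28) (nat_lit 5) (nat_lit 214) (nat_lit 210) (nat_lit 176)))) (XT.nd (nat_lit 156) (nat_lit 380) (nat_lit 0) (XT.nd (nat_lit 78) (nat_lit 0) (nat_lit 0) (XT.lf (nat_lit 0) (nat_lit 1238031813) (nat_lit 380) (nat_lit 4334843386) (nat_lit 456) (nat_lit 19094902121) (nat_lit 22) (nat_lit 5) (nat_lit 27) (nat_lit 5) (nat_lit 28) (nat_lit 5) (nat_lit 215) (nat_lit 210) (nat_lit 175)) (XT.lf (nat_lit 0) (nat_lit 9651646877) (nat_lit 456) (nat_lit 5930681594) (nat_lit 76) (nat_lit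 11273400521) (nat_lit 22) (nat_lit 5) (nat_lit 28) (nat_lit 5) (nat_lit 23) (nat_lit 5) (nat_lit 216) (nat_lit 210) (nat_lit 174))) (XT.nd (nat_lit 78) (nat_lit 152) (nat_lit 0) (XT.lf (nat_lit 0) (nat_lit 14777747132) (nat_lit 228) (nat_lit 6205614) (nat_lit 304) (nat_lit 14552875515) (nat_lit 19) (nat_lit 5) (nat_lit 22) (nat_lit 5) (nat_lit 23) (nat_lit 5) (nat_lit 217) (nat_lit 210) (nat_lit 173)) (XT.lf (nat_lit 0) (nat_lit 6637716002) (nat_lit 152) (nat_lit 14785812105) (nat_lit 228) (nat_lit 10707824619) (nat_lit 17) (nat_lit 5) (nat_lit 19) (nat_lit 5) (nat_lit 20) (nat_lit 5) (nat_lit 218) (nat_lit 210) (nat_lit 172))))) (XT.nd (nat_lit 312) (nat_lit 456) (nat_lit 0) (XT.nd (nat_lit 156) (nat_lit 152) (nat_lit 0) (XT.nd (nat_lit 78) (nat_lit 228) (nat_lit 0) (XT.lf (nat_lit 0) (nat_lit 29514127707) (nat_lit 228) (nat_lit 3507483263) (nat_lit 76) (nat_lit 2287258894) (nat_lit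 17) (nat_lit 5) (nat_lit 20) (nat_lit 5) (nat_lit 18) (nat_lit 5) (nat_lit 219) (nat_lit 210) (nat_lit 171)) (XT.lf (nat_lit 0) (nat_lit 812097427) (nat_lit 228) (nat_lit 16447846813) (nat_lit 76) (nat_lit 21627562187) (nat_lit 14) (nat_lit 5) (nat_lit 17) (nat_lit 5) (nat_lit 15) (nat_lit 5) (nat_lit 220) (nat_lit 210) (nat_lit 170))) (XT.nd (nat_lit 78) (nat_lit 0) (nat_lit 0) (XT.lf (nat_lit 0) (nat_lit 8428879791) (nat_lit 228) (nat_lit 33203100346) (nat_lit 76) (nat_lit 1330109652) (nat_lit 12) (nat_lit 5) (nat_lit 15) (nat_lit 5) (nat_lit 13) (nat_lit 5) (nat_lit 221) (nat_lit 210) (nat_lit 169)) (XT.lf (nat_lit 0) (nat_lit 18137162943) (nat_lit 228) (nat_lit 7233862924) (nat_lit 76) (nat_lit 22201050685) (nat_lit 12) (nat_lit 5) (nat_lit 15) (nat_lit 5) (nat_lit 13) (nat_lit 5) (nat_lit 222) (nat_lit 210) (nat_lit 168)))) (XT.nd (nat_lit 156) (nat_lit 228) (nat_lit 0) (XT.nd (nat_lit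 78) (nat_lit 76) (nat_lit 0) (XT.lf (nat_lit 0) (nat_lit 23797385530) (nat_lit 152) (nat_lit 6059514841) (nat_lit 228) (nat_lit 22972361031) (nat_lit 10) (nat_lit 5) (nat_lit 12) (nat_lit 5) (nat_lit 13) (nat_lit 5) (nat_lit 223) (nat_lit 210) (nat_lit 167)) (XT.lf (nat_lit 0) (nat_lit 680415304) (nat_lit 76) (nat_lit 43259439293) (nat_lit 152) (nat_lit 14886850644) (nat_lit 9) (nat_lit 5) (nat_lit 10) (nat_lit 5) (nat_lit 11) (nat_lit 4) (nat_lit 224) (nat_lit 210) (nat_lit 166))) (XT.nd (nat_lit 78) (nat_lit 228) (nat_lit 0) (XT.lf (nat_lit 0) (nat_lit 36410180437) (nat_lit 76) (nat_lit 24719614153) (nat_lit 152) (nat_lit 4514496136) (nat_lit 9) (nat_lit 5) (nat_lit 10) (nat_lit 5) (nat_lit 11) (nat_lit 4) (nat_lit 225) (nat_lit 210) (nat_lit 165)) (XT.nd (nat_lit 78) (nat_lit 0) (nat_lit 0) (XT.lf (nat_lit 0) (nat_lit 4018596377) (nat_lit 152) (nat_lit 3108301895) (nat_lit 228) (nat_lit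 66336698960) (nat_lit 6) (nat_lit 5) (nat_lit 8) (nat_lit 5) (nat_lit 9) (nat_lit 5) (nat_lit 226) (nat_lit 210) (nat_lit 164)) (XT.lf (nat_lit 0) (nat_lit 21639462976) (nat_lit 228) (nat_lit 39046342092) (nat_lit 76) (nat_lit 21649294250) (nat_lit 6) (nat_lit 5) (nat_lit 9) (nat_lit 5) (nat_lit 7) (nat_lit 4) (nat_lit 227) (nat_lit 210) (nat_lit 163))))))))
noncomputable def xc40 : XT := (XT.nd (nat_lit 1248) (nat_lit 0) (nat_lit 0) (XT.nd (nat_lit 624) (nat_lit 76) (nat_lit 0) (XT.nd (nat_lit 312) (nat_lit 152) (nat_lit 0) (XT.nd (nat_lit 156) (nat_lit 76) (nat_lit 0) (XT.nd (nat_lit 78) (nat_lit 76) (nat_lit 0) (XT.lf (nat_lit 0) (nat_lit 38404864780) (nat_lit 228) (nat_lit 4189715386) (nat_lit 76) (nat_lit 49936724228) (nat_lit 6) (nat_lit 5) (nat_lit 9) (nat_lit 5) (nat_lit 7) (nat_lit 4) (nat_lit 228) (nat_lit 210) (nat_lit 162)) (XT.lf (nat_lit 0) (nat_lit 37771073548) (nat_lit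 76) (nat_lit 20813689360) (nat_lit 152) (nat_lit 45600249282) (nat_lit 5) (nat_lit 5) (nat_lit 6) (nat_lit 5) (nat_lit 7) (nat_lit 4) (nat_lit 229) (nat_lit 210) (nat_lit 161))) (XT.nd (nat_lit 78) (nat_lit 76) (nat_lit 0) (XT.lf (nat_lit 0) (nat_lit 82010637879) (nat_lit 152) (nat_lit 31415507646) (nat_lit 0) (nat_lit 4143151994) (nat_lit 5) (nat_lit 5) (nat_lit 7) (nat_lit 4) (nat_lit 5) (nat_lit 4) (nat_lit 230) (nat_lit 210) (nat_lit 160)) (XT.lf (nat_lit 0) (nat_lit 8679766468) (nat_lit 76) (nat_lit 101048082642) (nat_lit 76) (nat_lit 23171215555) (nat_lit 4) (nat_lit 4) (nat_lit 5) (nat_lit 5) (nat_lit 5) (nat_lit 4) (nat_lit 231) (nat_lit 210) (nat_lit 159)))) (XT.nd (nat_lit 156) (nat_lit 76) (nat_lit 0) (XT.nd (nat_lit 78) (nat_lit 76) (nat_lit 0) (XT.lf (nat_lit 0) (nat_lit 56681266310) (nat_lit 76) (nat_lit 85829709656) (nat_lit 76) (nat_lit 7944685001) (nat_lit 4) (nat_lit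 4) (nat_lit 5) (nat_lit 5) (nat_lit 5) (nat_lit 4) (nat_lit 232) (nat_lit 210) (nat_lit 158)) (XT.lf (nat_lit 0) (nat_lit 9081662495) (nat_lit 152) (nat_lit 59002260201) (nat_lit 76) (nat_lit 102543895458) (nat_lit 3) (nat_lit 5) (nat_lit 5) (nat_lit 5) (nat_lit 4) (nat_lit 4) (nat_lit 233) (nat_lit 210) (nat_lit 157))) (XT.nd (nat_lit 78) (nat_lit 76) (nat_lit 0) (XT.lf (nat_lit 0) (nat_lit 28200017498) (nat_lit 152) (nat_lit 19242250086) (nat_lit 76) (nat_lit 146366366910) (nat_lit 3) (nat_lit 5) (nat_lit 5) (nat_lit 5) (nat_lit 4) (nat_lit 4) (nat_lit 234) (nat_lit 210) (nat_lit 156)) (XT.lf (nat_lit 0) (nat_lit 27868725302) (nat_lit 76) (nat_lit 22983378312) (nat_lit 152) (nat_lit 169561210194) (nat_lit 2) (nat_lit 5) (nat_lit 3) (nat_lit 5) (nat_lit 4) (nat_lit 4) (nat_lit 235) (nat_lit 210) (nat_lit 155))))) (XT.nd (nat_lit 312) (nat_lit 76) (nat_lit 0) (XT.nd (nat_lit 156) (nat_lit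 0) (nat_lit 0) (XT.nd (nat_lit 78) (nat_lit 0) (nat_lit 0) (XT.lf (nat_lit 0) (nat_lit 77596562004) (nat_lit 152) (nat_lit 167897350654) (nat_lit 0) (nat_lit 5459233918) (nat_lit 2) (nat_lit 5) (nat_lit 4) (nat_lit 4) (nat_lit 2) (nat_lit 4) (nat_lit 236) (nat_lit 210) (nat_lit 154)) (XT.lf (nat_lit 0) (nat_lit 108984934522) (nat_lit 152) (nat_lit 140194603176) (nat_lit 0) (nat_lit 36843851110) (nat_lit 2) (nat_lit 5) (nat_lit 4) (nat_lit 4) (nat_lit 2) (nat_lit 4) (nat_lit 237) (nat_lit 210) (nat_lit 153))) (XT.nd (nat_lit 78) (nat_lit 0) (nat_lit 0) (XT.lf (nat_lit 0) (nat_lit 145078590700) (nat_lit 152) (nat_lit 108341584996) (nat_lit 0) (nat_lit 72934241787) (nat_lit 2) (nat_lit 5) (nat_lit 4) (nat_lit 4) (nat_lit 2) (nat_lit 4) (nat_lit 238) (nat_lit 210) (nat_lit 152)) (XT.lf (nat_lit 0) (nat_lit 186583710767) (nat_lit 152) (nat_lit 71715084887) (nat_lit 0) (nat_lit 114436522288)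 (nat_lit 2) (nat_lit 5) (nat_lit 4) (nat_lit 4) (nat_lit 2) (nat_lit 4) (nat_lit 239) (nat_lit 210) (nat_lit 151)))) (XT.nd (nat_lit 156) (nat_lit 0) (nat_lit 0) (XT.nd (nat_lit 78) (nat_lit 76) (nat_lit 0) (XT.lf (nat_lit 0) (nat_lit 234312351421) (nat_lit 152) (nat_lit 29598497413) (nat_lit 0) (nat_lit 162162693753) (nat_lit 2) (nat_lit 5) (nat_lit 4) (nat_lit 4) (nat_lit 2) (nat_lit 4) (nat_lit 240) (nat_lit 210) (nat_lit 150)) (XT.lf (nat_lit 0) (nat_lit 19823867768) (nat_lit 76) (nat_lit 269851230619) (nat_lit 76) (nat_lit 197699425831) (nat_lit 1) (nat_lit 4) (nat_lit 2) (nat_lit 5) (nat_lit 2) (nat_lit 4) (nat_lit 241) (nat_lit 210) (nat_lit 149))) (XT.nd (nat_lit 78) (nat_lit 0) (nat_lit 0) (XT.lf (nat_lit 0) (nat_lit 78448888392) (nat_lit 76) (nat_lit 275753323615) (nat_lit 76) (nat_lit 203599651766) (nat_lit 1) (nat_lit 4) (nat_lit 2) (nat_lit 5) (nat_lit 2) (nat_lit 4) (nat_lit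 242) (nat_lit 210) (nat_lit 148)) (XT.lf (nat_lit 0) (nat_lit 145864971312) (nat_lit 76) (nat_lit 282541878928) (nat_lit 76) (nat_lit 210386583547) (nat_lit 1) (nat_lit 4) (nat_lit 2) (nat_lit 5) (nat_lit 2) (nat_lit 4) (nat_lit 243) (nat_lit 210) (nat_lit 147)))))) (XT.nd (nat_lit 624) (nat_lit 0) (nat_lit 0) (XT.nd (nat_lit 312) (nat_lit 0) (nat_lit 0) (XT.nd (nat_lit 156) (nat_lit 0) (nat_lit 0) (XT.nd (nat_lit 78) (nat_lit 0) (nat_lit 0) (XT.lf (nat_lit 0) (nat_lit 223391126845) (nat_lit 76) (nat_lit 290349716117) (nat_lit 76) (nat_lit 218193008971) (nat_lit 1) (nat_lit 4) (nat_lit 2) (nat_lit 5) (nat_lit 2) (nat_lit 4) (nat_lit 244) (nat_lit 210) (nat_lit 146)) (XT.lf (nat_lit 0) (nat_lit 312544171078) (nat_lit 76) (nat_lit 299329597216) (nat_lit 76) (nat_lit 227171662446) (nat_lit 1) (nat_lit 4) (nat_lit 2) (nat_lit 5) (nat_lit 2) (nat_lit 4) (nat_lit 245) (nat_lit 210) (nat_lit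 145))) (XT.nd (nat_lit 78) (nat_lit 0) (nat_lit 0) (XT.lf (nat_lit 0) (nat_lit 415068402702) (nat_lit 76) (nat_lit 309657215549) (nat_lit 76) (nat_lit 237498213281) (nat_lit 1) (nat_lit 4) (nat_lit 2) (nat_lit 5) (nat_lit 2) (nat_lit 4) (nat_lit 246) (nat_lit 210) (nat_lit 144)) (XT.lf (nat_lit 0) (nat_lit 532969730596) (nat_lit 76) (nat_lit 321534633215) (nat_lit 76) (nat_lit 249374702687) (nat_lit 1) (nat_lit 4) (nat_lit 2) (nat_lit 5) (nat_lit 2) (nat_lit 4) (nat_lit 247) (nat_lit 210) (nat_lit 143)))) (XT.nd (nat_lit 156) (nat_lit 0) (nat_lit 0) (XT.nd (nat_lit 78) (nat_lit 0) (nat_lit 0) (XT.lf (nat_lit 0) (nat_lit 668554919873) (nat_lit 76) (nat_lit 335194234471) (nat_lit 76) (nat_lit 263033496762) (nat_lit 1) (nat_lit 4) (nat_lit 2) (nat_lit 5) (nat_lit 2) (nat_lit 4) (nat_lit 248) (nat_lit 210) (nat_lit 142)) (XT.lf (nat_lit 0) (nat_lit 824476724235) (nat_lit 76) (nat_lit 350903272387)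 (nat_lit 76) (nat_lit 278741832781) (nat_lit 1) (nat_lit 4) (nat_lit 2) (nat_lit 5) (nat_lit 2) (nat_lit 4) (nat_lit 249) (nat_lit 210) (nat_lit 141))) (XT.nd (nat_lit 78) (nat_lit 0) (nat_lit 0) (XT.lf (nat_lit 0) (nat_lit 1003785787680) (nat_lit 76) (nat_lit 368969097704) (nat_lit 76) (nat_lit 296807047752) (nat_lit 1) (nat_lit 4) (nat_lit 2) (nat_lit 5) (nat_lit 2) (nat_lit 4) (nat_lit 250) (nat_lit 210) (nat_lit 140)) (XT.lf (nat_lit 0) (nat_lit 1209990331015) (nat_lit 76) (nat_lit 389745172222) (nat_lit 76) (nat_lit 317582591535) (nat_lit 1) (nat_lit 4) (nat_lit 2) (nat_lit 5) (nat_lit 2) (nat_lit 4) (nat_lit 251) (nat_lit 210) (nat_lit 139))))) (XT.nd (nat_lit 28158) (nat_lit 0) (nat_lit 1596) (XT.nd (nat_lit 156) (nat_lit 0) (nat_lit 0) (XT.nd (nat_lit 78) (nat_lit 0) (nat_lit 0) (XT.lf (nat_lit 0) (nat_lit 1447124790958) (nat_lit 76) (nat_lit 413637984355) (nat_lit 76) (nat_lit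 341474942159) (nat_lit 1) (nat_lit 4) (nat_lit 2) (nat_lit 5) (nat_lit 2) (nat_lit 4) (nat_lit 252) (nat_lit 210) (nat_lit 138)) (XT.lf (nat_lit 0) (nat_lit 1719828754768) (nat_lit 76) (nat_lit 441115002167) (nat_lit 76) (nat_lit 368951558659) (nat_lit 1) (nat_lit 4) (nat_lit 2) (nat_lit 5) (nat_lit 2) (nat_lit 4) (nat_lit 253) (nat_lit 210) (nat_lit 137))) (XT.nd (nat_lit 27924) (nat_lit 0) (nat_lit 2280) (XT.lf (nat_lit 0) (nat_lit 2033437734780) (nat_lit 76) (nat_lit 472713819484) (nat_lit 76) (nat_lit 400550027009) (nat_lit 1) (nat_lit 4) (nat_lit 2) (nat_lit 5) (nat_lit 2) (nat_lit 4) (nat_lit 254) (nat_lit 210) (nat_lit 136)) (XT.lf (nat_lit 0) (nat_lit 4336360129) (nat_lit 0) (nat_lit 4336360129) (nat_lit 380) (nat_lit 994550916) (nat_lit 31) (nat_lit 5) (nat_lit 31) (nat_lit 3) (nat_lit 36) (nat_lit 3) (nat_lit 211) (nat_lit 211) (nat_lit 178)))) (XT.nd (nat_lit 156) (nat_lit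 684) (nat_lit 0) (XT.nd (nat_lit 78) (nat_lit 0) (nat_lit 0) (XT.lf (nat_lit 76) (nat_lit 3247696970) (nat_lit 0) (nat_lit 15861777440) (nat_lit 456) (nat_lit 1635411872) (nat_lit 32) (nat_lit 5) (nat_lit 31) (nat_lit 5) (nat_lit 37) (nat_lit 5) (nat_lit 212) (nat_lit 211) (nat_lit 177)) (XT.lf (nat_lit 76) (nat_lit 19607064389) (nat_lit 0) (nat_lit 2028204237) (nat_lit 456) (nat_lit 692220912) (nat_lit 32) (nat_lit 5) (nat_lit 31) (nat_lit 5) (nat_lit 37) (nat_lit 5) (nat_lit 213) (nat_lit 211) (nat_lit 176))) (XT.nd (nat_lit 78) (nat_lit 304) (nat_lit 0) (XT.lf (nat_lit 0) (nat_lit 1034590636) (nat_lit 456) (nat_lit 9480905697) (nat_lit 532) (nat_lit 13578676568) (nat_lit 26) (nat_lit 5) (nat_lit 32) (nat_lit 5) (nat_lit 33) (nat_lit 5) (nat_lit 214) (nat_lit 211) (nat_lit 175)) (XT.nd (nat_lit 78) (nat_lit 380) (nat_lit 0) (XT.lf (nat_lit 0) (nat_lit 3431137056) (nat_lit 456) (nat_lit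 17302938324) (nat_lit 76) (nat_lit 5354545152) (nat_lit 27) (nat_lit 5) (nat_lit 33) (nat_lit 5) (nat_lit 28) (nat_lit 5) (nat_lit 215) (nat_lit 211) (nat_lit 174)) (XT.lf (nat_lit 0) (nat_lit 1766369386) (nat_lit 380) (nat_lit 5004450023) (nat_lit 456) (nat_lit 21565015904) (nat_lit 22) (nat_lit 5) (nat_lit 27) (nat_lit 5) (nat_lit 28) (nat_lit 5) (nat_lit 216) (nat_lit 211) (nat_lit 173))))))))
noncomputable def xc41 : XT := (XT.nd (nat_lit 1326) (nat_lit 228) (nat_lit 0) (XT.nd (nat_lit 624) (nat_lit 456) (nat_lit 0) (XT.nd (nat_lit 312) (nat_lit 532) (nat_lit 0) (XT.nd (nat_lit 156) (nat_lit 152) (nat_lit 0) (XT.nd (nat_lit 78) (nat_lit 228) (nat_lit 0) (XT.lf (nat_lit 0) (nat_lit 11413782463) (nat_lit 456) (nat_lit 6494016443) (nat_lit 76) (nat_lit 12948401332) (nat_lit 22) (nat_lit 5) (nat_lit 28) (nat_lit 5) (nat_lit 23) (nat_lit 5) (nat_lit 217) (nat_lit 211) (nat_lit 172)) (XT.lf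 (nat_lit 0) (nat_lit 17282372913) (nat_lit 304) (nat_lit 16419731041) (nat_lit 76) (nat_lit 10402351) (nat_lit 19) (nat_lit 5) (nat_lit 23) (nat_lit 5) (nat_lit 20) (nat_lit 5) (nat_lit 218) (nat_lit 211) (nat_lit 171))) (XT.nd (nat_lit 78) (nat_lit 0) (nat_lit 0) (XT.lf (nat_lit 0) (nat_lit 7929070248) (nat_lit 152) (nat_lit 16959445448) (nat_lit 228) (nat_lit 12040353690) (nat_lit 17) (nat_lit 5) (nat_lit 19) (nat_lit 5) (nat_lit 20) (nat_lit 5) (nat_lit 219) (nat_lit 211) (nat_lit 170)) (XT.lf (nat_lit 0) (nat_lit 34160831480) (nat_lit 228) (nat_lit 3758110833) (nat_lit 76) (nat_lit 2666891628) (nat_lit 17) (nat_lit 5) (nat_lit 20) (nat_lit 5) (nat_lit 18) (nat_lit 5) (nat_lit 220) (nat_lit 211) (nat_lit 169)))) (XT.nd (nat_lit 156) (nat_lit 152) (nat_lit 0) (XT.nd (nat_lit 78) (nat_lit 152) (nat_lit 0) (XT.lf (nat_lit 0) (nat_lit 1137523724) (nat_lit 228) (nat_lit 18650677378) (nat_lit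 76) (nat_lit 24914693375) (nat_lit 14) (nat_lit 5) (nat_lit 17) (nat_lit 5) (nat_lit 15) (nat_lit 5) (nat_lit 221) (nat_lit 211) (nat_lit 168)) (XT.lf (nat_lit 0) (nat_lit 9877506105) (nat_lit 228) (nat_lit 37927126029) (nat_lit 76) (nat_lit 1585767594) (nat_lit 12) (nat_lit 5) (nat_lit 15) (nat_lit 5) (nat_lit 13) (nat_lit 5) (nat_lit 222) (nat_lit 211) (nat_lit 167))) (XT.nd (nat_lit 78) (nat_lit 152) (nat_lit 0) (XT.lf (nat_lit 0) (nat_lit 21017993337) (nat_lit 228) (nat_lit 8095951607) (nat_lit 76) (nat_lit 25580026978) (nat_lit 12) (nat_lit 5) (nat_lit 15) (nat_lit 5) (nat_lit 13) (nat_lit 5) (nat_lit 223) (nat_lit 211) (nat_lit 166)) (XT.lf (nat_lit 0) (nat_lit 27571109059) (nat_lit 152) (nat_lit 6908588358) (nat_lit 228) (nat_lit 26261459509) (nat_lit 10) (nat_lit 5) (nat_lit 12) (nat_lit 5) (nat_lit 13) (nat_lit 5) (nat_lit 224) (nat_lit 211) (nat_lit 165))))) (XT.nd (nat_lit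 312) (nat_lit 152) (nat_lit 0) (XT.nd (nat_lit 156) (nat_lit 228) (nat_lit 0) (XT.nd (nat_lit 78) (nat_lit 0) (nat_lit 0) (XT.lf (nat_lit 0) (nat_lit 979434442) (nat_lit 76) (nat_lit 49682832094) (nat_lit 152) (nat_lit 16977101332) (nat_lit 9) (nat_lit 5) (nat_lit 10) (nat_lit 5) (nat_lit 11) (nat_lit 4) (nat_lit 225) (nat_lit 211) (nat_lit 164)) (XT.lf (nat_lit 0) (nat_lit 42042974322) (nat_lit 76) (nat_lit 28370579674) (nat_lit 152) (nat_lit 5067516723) (nat_lit 9) (nat_lit 5) (nat_lit 10) (nat_lit 5) (nat_lit 11) (nat_lit 4) (nat_lit 226) (nat_lit 211) (nat_lit 163))) (XT.nd (nat_lit 78) (nat_lit 0) (nat_lit 0) (XT.lf (nat_lit 0) (nat_lit 4784451320) (nat_lit 152) (nat_lit 3517962688) (nat_lit 228) (nat_lit 76171624298) (nat_lit 6) (nat_lit 5) (nat_lit 8) (nat_lit 5) (nat_lit 9) (nat_lit 5) (nat_lit 227) (nat_lit 211) (nat_lit 162)) (XT.lf (nat_lit 0) (nat_lit 24979157947) (nat_lit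 228) (nat_lit 44754768937) (nat_lit 76) (nat_lit 24943430914) (nat_lit 6) (nat_lit 5) (nat_lit 9) (nat_lit 5) (nat_lit 7) (nat_lit 4) (nat_lit 228) (nat_lit 211) (nat_lit 161)))) (XT.nd (nat_lit 156) (nat_lit 76) (nat_lit 0) (XT.nd (nat_lit 78) (nat_lit 76) (nat_lit 0) (XT.lf (nat_lit 0) (nat_lit 44247138432) (nat_lit 228) (nat_lit 4689020982) (nat_lit 76) (nat_lit 57467878537) (nat_lit 6) (nat_lit 5) (nat_lit 9) (nat_lit 5) (nat_lit 7) (nat_lit 4) (nat_lit 229) (nat_lit 211) (nat_lit 160)) (XT.lf (nat_lit 0) (nat_lit 43554954243) (nat_lit 76) (nat_lit 23891274056) (nat_lit 152) (nat_lit 52360254263) (nat_lit 5) (nat_lit 5) (nat_lit 6) (nat_lit 5) (nat_lit 7) (nat_lit 4) (nat_lit 230) (nat_lit 211) (nat_lit 159))) (XT.nd (nat_lit 78) (nat_lit 76) (nat_lit 0) (XT.lf (nat_lit 0) (nat_lit 94377294802) (nat_lit 152) (nat_lit 36020501927) (nat_lit 0) (nat_lit 4801358883) (nat_lit 5) (nat_lit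 5) (nat_lit 7) (nat_lit 4) (nat_lit 5) (nat_lit 4) (nat_lit 231) (nat_lit 211) (nat_lit 158)) (XT.nd (nat_lit 78) (nat_lit 0) (nat_lit 0) (XT.lf (nat_lit 0) (nat_lit 10079978196) (nat_lit 76) (nat_lit 116165986110) (nat_lit 76) (nat_lit 26582956654) (nat_lit 4) (nat_lit 4) (nat_lit 5) (nat_lit 5) (nat_lit 5) (nat_lit 4) (nat_lit 232) (nat_lit 211) (nat_lit 157)) (XT.lf (nat_lit 0) (nat_lit 65268888220) (nat_lit 76) (nat_lit 98669984427) (nat_lit 76) (nat_lit 9080786678) (nat_lit 4) (nat_lit 4) (nat_lit 5) (nat_lit 5) (nat_lit 5) (nat_lit 4) (nat_lit 233) (nat_lit 211) (nat_lit 156))))))) (XT.nd (nat_lit 624) (nat_lit 76) (nat_lit 0) (XT.nd (nat_lit 312) (nat_lit 0) (nat_lit 0) (XT.nd (nat_lit 156) (nat_lit 76) (nat_lit 0) (XT.nd (nat_lit 78) (nat_lit 0) (nat_lit 0) (XT.lf (nat_lit 0) (nat_lit 10489842028) (nat_lit 152) (nat_lit 67775690063) (nat_lit 76) (nat_lit 117952582470) (nat_lit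 3) (nat_lit 5) (nat_lit 5) (nat_lit 5) (nat_lit 4) (nat_lit 4) (nat_lit 234) (nat_lit 211) (nat_lit 155)) (XT.lf (nat_lit 0) (nat_lit 32469959392) (nat_lit 152) (nat_lit 22061710062) (nat_lit 76) (nat_lit 168344889505) (nat_lit 3) (nat_lit 5) (nat_lit 5) (nat_lit 5) (nat_lit 4) (nat_lit 4) (nat_lit 235) (nat_lit 211) (nat_lit 154))) (XT.nd (nat_lit 78) (nat_lit 0) (nat_lit 0) (XT.lf (nat_lit 0) (nat_lit 32110250784) (nat_lit 76) (nat_lit 26405870434) (nat_lit 152) (nat_lit 194956140829) (nat_lit 2) (nat_lit 5) (nat_lit 3) (nat_lit 5) (nat_lit 4) (nat_lit 4) (nat_lit 236) (nat_lit 211) (nat_lit 153)) (XT.lf (nat_lit 0) (nat_lit 89268049490) (nat_lit 152) (nat_lit 193026593324) (nat_lit 0) (nat_lit 6298782739) (nat_lit 2) (nat_lit 5) (nat_lit 4) (nat_lit 4) (nat_lit 2) (nat_lit 4) (nat_lit 237) (nat_lit 211) (nat_lit 152)))) (XT.nd (nat_lit 156) (nat_lit 0) (nat_lit 0) (XT.nd (nat_lit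 78) (nat_lit 0) (nat_lit 0) (XT.lf (nat_lit 0) (nat_lit 125360503558) (nat_lit 152) (nat_lit 161175654585) (nat_lit 0) (nat_lit 42388397240) (nat_lit 2) (nat_lit 5) (nat_lit 4) (nat_lit 4) (nat_lit 2) (nat_lit 4) (nat_lit 238) (nat_lit 211) (nat_lit 151)) (XT.lf (nat_lit 0) (nat_lit 166864578312) (nat_lit 152) (nat_lit 124550962686) (nat_lit 0) (nat_lit 83890002805) (nat_lit 2) (nat_lit 5) (nat_lit 4) (nat_lit 4) (nat_lit 2) (nat_lit 4) (nat_lit 239) (nat_lit 211) (nat_lit 150))) (XT.nd (nat_lit 78) (nat_lit 0) (nat_lit 0) (XT.lf (nat_lit 0) (nat_lit 214592309997) (nat_lit 152) (nat_lit 82435947569) (nat_lit 0) (nat_lit 131615587370) (nat_lit 2) (nat_lit 5) (nat_lit 4) (nat_lit 4) (nat_lit 2) (nat_lit 4) (nat_lit 240) (nat_lit 211) (nat_lit 149)) (XT.lf (nat_lit 0) (nat_lit 269477502060) (nat_lit 152) (nat_lit 34006619806) (nat_lit 0) (nat_lit 186498912372) (nat_lit 2) (nat_lit 5) (nat_lit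 4) (nat_lit 4) (nat_lit 2) (nat_lit 4) (nat_lit 241) (nat_lit 211) (nat_lit 148))))) (XT.nd (nat_lit 312) (nat_lit 0) (nat_lit 0) (XT.nd (nat_lit 156) (nat_lit 0) (nat_lit 0) (XT.nd (nat_lit 78) (nat_lit 0) (nat_lit 0) (XT.lf (nat_lit 0) (nat_lit 22826420949) (nat_lit 76) (nat_lit 310316550237) (nat_lit 76) (nat_lit 227336337018) (nat_lit 1) (nat_lit 4) (nat_lit 2) (nat_lit 5) (nat_lit 2) (nat_lit 4) (nat_lit 242) (nat_lit 211) (nat_lit 147)) (XT.lf (nat_lit 0) (nat_lit 90241415578) (nat_lit 76) (nat_lit 317105570006) (nat_lit 76) (nat_lit 234123945021) (nat_lit 1) (nat_lit 4) (nat_lit 2) (nat_lit 5) (nat_lit 2) (nat_lit 4) (nat_lit 243) (nat_lit 211) (nat_lit 146))) (XT.nd (nat_lit 78) (nat_lit 0) (nat_lit 0) (XT.lf (nat_lit 0) (nat_lit 167766624771) (nat_lit 76) (nat_lit 324913811070) (nat_lit 76) (nat_lit 241930958462) (nat_lit 1) (nat_lit 4) (nat_lit 2) (nat_lit 5) (nat_lit 2) (nat_lit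 4) (nat_lit 244) (nat_lit 211) (nat_lit 145)) (XT.lf (nat_lit 0) (nat_lit 256918846100) (nat_lit 76) (nat_lit 333894043364) (nat_lit 76) (nat_lit 250910123257) (nat_lit 1) (nat_lit 4) (nat_lit 2) (nat_lit 5) (nat_lit 2) (nat_lit 4) (nat_lit 245) (nat_lit 211) (nat_lit 144)))) (XT.nd (nat_lit 156) (nat_lit 0) (nat_lit 0) (XT.nd (nat_lit 78) (nat_lit 0) (nat_lit 0) (XT.lf (nat_lit 0) (nat_lit 359442362155) (nat_lit 76) (nat_lit 344221967084) (nat_lit 76) (nat_lit 261237118718) (nat_lit 1) (nat_lit 4) (nat_lit 2) (nat_lit 5) (nat_lit 2) (nat_lit 4) (nat_lit 246) (nat_lit 211) (nat_lit 143)) (XT.lf (nat_lit 0) (nat_lit 477343067816) (nat_lit 76) (nat_lit 356099650304) (nat_lit 76) (nat_lit 273113994756) (nat_lit 1) (nat_lit 4) (nat_lit 2) (nat_lit 5) (nat_lit 2) (nat_lit 4) (nat_lit 247) (nat_lit 211) (nat_lit 142))) (XT.nd (nat_lit 78) (nat_lit 0) (nat_lit 0) (XT.lf (nat_lit 0) (nat_lit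 612927716020) (nat_lit 76) (nat_lit 369759482477) (nat_lit 76) (nat_lit 286773125032) (nat_lit 1) (nat_lit 4) (nat_lit 2) (nat_lit 5) (nat_lit 2) (nat_lit 4) (nat_lit 248) (nat_lit 211) (nat_lit 141)) (XT.nd (nat_lit 78) (nat_lit 0) (nat_lit 0) (XT.lf (nat_lit 0) (nat_lit 768849049884) (nat_lit 76) (nat_lit 385468721190) (nat_lit 76) (nat_lit 302481753400) (nat_lit 1) (nat_lit 4) (nat_lit 2) (nat_lit 5) (nat_lit 2) (nat_lit 4) (nat_lit 249) (nat_lit 211) (nat_lit 140)) (XT.lf (nat_lit 0) (nat_lit 948157704200) (nat_lit 76) (nat_lit 403534721113) (nat_lit 76) (nat_lit 320547222588) (nat_lit 1) (nat_lit 4) (nat_lit 2) (nat_lit 5) (nat_lit 2) (nat_lit 4) (nat_lit 250) (nat_lit 211) (nat_lit 139))))))))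
noncomputable def xc42 : XT := (XT.nd (nat_lit 29172) (nat_lit 0) (nat_lit 76) (XT.nd (nat_lit 28548) (nat_lit 0) (nat_lit 836) (XT.nd (nat_lit 28236) (nat_lit 0) (nat_lit 1900) (XT.nd (nat_lit 156) (nat_lit 0) (nat_lit 0) (XT.nd (nat_lit 78) (nat_lit 0) (nat_lit 0) (XT.lf (nat_lit 0) (nat_lit 1154361891771) (nat_lit 76) (nat_lit 424310947463) (nat_lit 76) (nat_lit 341322987428) (nat_lit 1) (nat_lit 4) (nat_lit 2) (nat_lit 5) (nat_lit 2) (nat_lit 4) (nat_lit 251) (nat_lit 211) (nat_lit 138)) (XT.lf (nat_lit 0) (nat_lit 1391496042354) (nat_lit 76) (nat_lit 448203891623) (nat_lit 76) (nat_lit 365215530276) (nat_lit 1) (nat_lit 4) (nat_lit 2) (nat_lit 5) (nat_lit 2) (nat_lit 4) (nat_lit 252) (nat_lit 211) (nat_lit 137))) (XT.nd (nat_lit 78) (nat_lit 0) (nat_lit 0) (XT.lf (nat_lit 0) (nat_lit 1664199737155) (nat_lit 76) (nat_lit 475681024241) (nat_lit 76) (nat_lit 392692313927) (nat_lit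 1) (nat_lit 4) (nat_lit 2) (nat_lit 5) (nat_lit 2) (nat_lit 4) (nat_lit 253) (nat_lit 211) (nat_lit 136)) (XT.lf (nat_lit 0) (nat_lit 1977808483247) (nat_lit 76) (nat_lit 507279941390) (nat_lit 76) (nat_lit 424290927627) (nat_lit 1) (nat_lit 4) (nat_lit 2) (nat_lit 5) (nat_lit 2) (nat_lit 4) (nat_lit 254) (nat_lit 211) (nat_lit 135)))) (XT.nd (nat_lit 156) (nat_lit 380) (nat_lit 0) (XT.nd (nat_lit 78) (nat_lit 0) (nat_lit 0) (XT.lf (nat_lit 0) (nat_lit 5113047816) (nat_lit 0) (nat_lit 5113047816) (nat_lit 380) (nat_lit 868483818) (nat_lit 31) (nat_lit 5) (nat_lit 31) (nat_lit 3) (nat_lit 36) (nat_lit 3) (nat_lit 212) (nat_lit 212) (nat_lit 176)) (XT.lf (nat_lit 76) (nat_lit 4013214609) (nat_lit 0) (nat_lit 18403169364) (nat_lit 456) (nat_lit 1400500505) (nat_lit 32) (nat_lit 5) (nat_lit 31) (nat_lit 5) (nat_lit 37) (nat_lit 5) (nat_lit 213) (nat_lit 212) (nat_lit 175))) (XT.nd (nat_lit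 78) (nat_lit 380) (nat_lit 0) (XT.lf (nat_lit 76) (nat_lit 22790178911) (nat_lit 0) (nat_lit 2473413401) (nat_lit 456) (nat_lit 378468703) (nat_lit 32) (nat_lit 5) (nat_lit 31) (nat_lit 5) (nat_lit 37) (nat_lit 5) (nat_lit 214) (nat_lit 212) (nat_lit 174)) (XT.lf (nat_lit 0) (nat_lit 1538031485) (nat_lit 456) (nat_lit 10625258662) (nat_lit 532) (nat_lit 15514000940) (nat_lit 26) (nat_lit 5) (nat_lit 32) (nat_lit 5) (nat_lit 33) (nat_lit 5) (nat_lit 215) (nat_lit 212) (nat_lit 173))))) (XT.nd (nat_lit 312) (nat_lit 532) (nat_lit 0) (XT.nd (nat_lit 156) (nat_lit 228) (nat_lit 0) (XT.nd (nat_lit 78) (nat_lit 380) (nat_lit 0) (XT.lf (nat_lit 0) (nat_lit 4253435966) (nat_lit 456) (nat_lit 19615341750) (nat_lit 76) (nat_lit 6105788611) (nat_lit 27) (nat_lit 5) (nat_lit 33) (nat_lit 5) (nat_lit 28) (nat_lit 5) (nat_lit 216) (nat_lit 212) (nat_lit 172)) (XT.lf (nat_lit 0) (nat_lit 2290404418)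 (nat_lit 380) (nat_lit 5769771688) (nat_lit 456) (nat_lit 24501755787) (nat_lit 22) (nat_lit 5) (nat_lit 27) (nat_lit 5) (nat_lit 28) (nat_lit 5) (nat_lit 217) (nat_lit 212) (nat_lit 171))) (XT.nd (nat_lit 78) (nat_lit 228) (nat_lit 0) (XT.lf (nat_lit 0) (nat_lit 13363572748) (nat_lit 456) (nat_lit 7221413888) (nat_lit 76) (nat_lit 14878556227) (nat_lit 22) (nat_lit 5) (nat_lit 28) (nat_lit 5) (nat_lit 23) (nat_lit 5) (nat_lit 218) (nat_lit 212) (nat_lit 170)) (XT.lf (nat_lit 0) (nat_lit 20087204378) (nat_lit 304) (nat_lit 18638425574) (nat_lit 76) (nat_lit 24954623) (nat_lit 19) (nat_lit 5) (nat_lit 23) (nat_lit 5) (nat_lit 20) (nat_lit 5) (nat_lit 219) (nat_lit 212) (nat_lit 169)))) (XT.nd (nat_lit 156) (nat_lit 380) (nat_lit 0) (XT.nd (nat_lit 78) (nat_lit 0) (nat_lit 0) (XT.lf (nat_lit 0) (nat_lit 9342020083) (nat_lit 152) (nat_lit 19469911625) (nat_lit 228) (nat_lit 13639492095)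 (nat_lit 17) (nat_lit 5) (nat_lit 19) (nat_lit 5) (nat_lit 20) (nat_lit 5) (nat_lit 220) (nat_lit 212) (nat_lit 168)) (XT.lf (nat_lit 0) (nat_lit 39450993720) (nat_lit 228) (nat_lit 4113513719) (nat_lit 76) (nat_lit 3094557810) (nat_lit 17) (nat_lit 5) (nat_lit 20) (nat_lit 5) (nat_lit 18) (nat_lit 5) (nat_lit 221) (nat_lit 212) (nat_lit 167))) (XT.nd (nat_lit 78) (nat_lit 152) (nat_lit 0) (XT.lf (nat_lit 0) (nat_lit 1462111966) (nat_lit 228) (nat_lit 21248395085) (nat_lit 76) (nat_lit 28684409186) (nat_lit 14) (nat_lit 5) (nat_lit 17) (nat_lit 5) (nat_lit 15) (nat_lit 5) (nat_lit 222) (nat_lit 212) (nat_lit 166)) (XT.lf (nat_lit 0) (nat_lit 11498485023) (nat_lit 228) (nat_lit 43422289928) (nat_lit 76) (nat_lit 1866083768) (nat_lit 12) (nat_lit 5) (nat_lit 15) (nat_lit 5) (nat_lit 13) (nat_lit 5) (nat_lit 223) (nat_lit 212) (nat_lit 165)))))) (XT.nd (nat_lit 624) (nat_lit 228) (nat_lit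 0) (XT.nd (nat_lit 312) (nat_lit 304) (nat_lit 0) (XT.nd (nat_lit 156) (nat_lit 76) (nat_lit 0) (XT.nd (nat_lit 78) (nat_lit 152) (nat_lit 0) (XT.lf (nat_lit 0) (nat_lit 24291868861) (nat_lit 228) (nat_lit 9141731301) (nat_lit 76) (nat_lit 29453944968) (nat_lit 12) (nat_lit 5) (nat_lit 15) (nat_lit 5) (nat_lit 13) (nat_lit 5) (nat_lit 224) (nat_lit 212) (nat_lit 164)) (XT.lf (nat_lit 0) (nat_lit 31861116211) (nat_lit 152) (nat_lit 7899618608) (nat_lit 228) (nat_lit 30082148623) (nat_lit 10) (nat_lit 5) (nat_lit 12) (nat_lit 5) (nat_lit 13) (nat_lit 5) (nat_lit 225) (nat_lit 212) (nat_lit 163))) (XT.nd (nat_lit 78) (nat_lit 0) (nat_lit 0) (XT.lf (nat_lit 0) (nat_lit 1275277277) (nat_lit 76) (nat_lit 57085712036) (nat_lit 152) (nat_lit 19415706677) (nat_lit 9) (nat_lit 5) (nat_lit 10) (nat_lit 5) (nat_lit 11) (nat_lit 4) (nat_lit 226) (nat_lit 212) (nat_lit 162)) (XT.lf (nat_lit 0) (nat_lit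 48478922791) (nat_lit 76) (nat_lit 32583084128) (nat_lit 152) (nat_lit 5733766097) (nat_lit 9) (nat_lit 5) (nat_lit 10) (nat_lit 5) (nat_lit 11) (nat_lit 4) (nat_lit 227) (nat_lit 212) (nat_lit 161)))) (XT.nd (nat_lit 156) (nat_lit 76) (nat_lit 0) (XT.nd (nat_lit 78) (nat_lit 0) (nat_lit 0) (XT.lf (nat_lit 0) (nat_lit 5625419953) (nat_lit 152) (nat_lit 4002871087) (nat_lit 228) (nat_lit 87509973231) (nat_lit 6) (nat_lit 5) (nat_lit 8) (nat_lit 5) (nat_lit 9) (nat_lit 5) (nat_lit 228) (nat_lit 212) (nat_lit 160)) (XT.lf (nat_lit 0) (nat_lit 28796939408) (nat_lit 228) (nat_lit 51355678442) (nat_lit 76) (nat_lit 28720289617) (nat_lit 6) (nat_lit 5) (nat_lit 9) (nat_lit 5) (nat_lit 7) (nat_lit 4) (nat_lit 229) (nat_lit 212) (nat_lit 159))) (XT.nd (nat_lit 78) (nat_lit 76) (nat_lit 0) (XT.lf (nat_lit 0) (nat_lit 50945868126) (nat_lit 228) (nat_lit 5294716881) (nat_lit 76) (nat_lit 66118794288)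 (nat_lit 6) (nat_lit 5) (nat_lit 9) (nat_lit 5) (nat_lit 7) (nat_lit 4) (nat_lit 230) (nat_lit 212) (nat_lit 158)) (XT.lf (nat_lit 0) (nat_lit 50177588429) (nat_lit 76) (nat_lit 27441340433) (nat_lit 152) (nat_lit 60153776402) (nat_lit 5) (nat_lit 5) (nat_lit 6) (nat_lit 5) (nat_lit 7) (nat_lit 4) (nat_lit 231) (nat_lit 212) (nat_lit 157))))) (XT.nd (nat_lit 312) (nat_lit 76) (nat_lit 0) (XT.nd (nat_lit 156) (nat_lit 76) (nat_lit 0) (XT.nd (nat_lit 78) (nat_lit 76) (nat_lit 0) (XT.lf (nat_lit 0) (nat_lit 108583084669) (nat_lit 152) (nat_lit 41342418905) (nat_lit 0) (nat_lit 5549338964) (nat_lit 5) (nat_lit 5) (nat_lit 7) (nat_lit 4) (nat_lit 5) (nat_lit 4) (nat_lit 232) (nat_lit 212) (nat_lit 156)) (XT.lf (nat_lit 0) (nat_lit 11666263589) (nat_lit 76) (nat_lit 133561160830) (nat_lit 76) (nat_lit 30522051392) (nat_lit 4) (nat_lit 4) (nat_lit 5) (nat_lit 5) (nat_lit 5) (nat_lit 4) (nat_lit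 233) (nat_lit 212) (nat_lit 155))) (XT.nd (nat_lit 78) (nat_lit 76) (nat_lit 0) (XT.lf (nat_lit 0) (nat_lit 75123820291) (nat_lit 76) (nat_lit 113444635833) (nat_lit 76) (nat_lit 10400862280) (nat_lit 4) (nat_lit 4) (nat_lit 5) (nat_lit 5) (nat_lit 5) (nat_lit 4) (nat_lit 234) (nat_lit 212) (nat_lit 154)) (XT.lf (nat_lit 0) (nat_lit 12098048130) (nat_lit 152) (nat_lit 77883889193) (nat_lit 76) (nat_lit 135665963370) (nat_lit 3) (nat_lit 5) (nat_lit 5) (nat_lit 5) (nat_lit 4) (nat_lit 4) (nat_lit 235) (nat_lit 212) (nat_lit 153)))) (XT.nd (nat_lit 156) (nat_lit 0) (nat_lit 0) (XT.nd (nat_lit 78) (nat_lit 76) (nat_lit 0) (XT.lf (nat_lit 0) (nat_lit 37370653125) (nat_lit 152) (nat_lit 25320397545) (nat_lit 76) (nat_lit 193614443392) (nat_lit 3) (nat_lit 5) (nat_lit 5) (nat_lit 5) (nat_lit 4) (nat_lit 4) (nat_lit 236) (nat_lit 212) (nat_lit 152)) (XT.lf (nat_lit 0) (nat_lit 36973077011)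 (nat_lit 76) (nat_lit 30347836349) (nat_lit 152) (nat_lit 224169882639) (nat_lit 2) (nat_lit 5) (nat_lit 3) (nat_lit 5) (nat_lit 4) (nat_lit 4) (nat_lit 237) (nat_lit 212) (nat_lit 151))) (XT.nd (nat_lit 78) (nat_lit 0) (nat_lit 0) (XT.lf (nat_lit 0) (nat_lit 102682455920) (nat_lit 152) (nat_lit 221938722264) (nat_lit 0) (nat_lit 7259224900) (nat_lit 2) (nat_lit 5) (nat_lit 4) (nat_lit 4) (nat_lit 2) (nat_lit 4) (nat_lit 238) (nat_lit 212) (nat_lit 150)) (XT.nd (nat_lit 78) (nat_lit 0) (nat_lit 0) (XT.lf (nat_lit 0) (nat_lit 144185621706) (nat_lit 152) (nat_lit 185315602722) (nat_lit 0) (nat_lit 48760243565) (nat_lit 2) (nat_lit 5) (nat_lit 4) (nat_lit 4) (nat_lit 2) (nat_lit 4) (nat_lit 239) (nat_lit 212) (nat_lit 149)) (XT.lf (nat_lit 0) (nat_lit 191912562984) (nat_lit 152) (nat_lit 143201954871) (nat_lit 0) (nat_lit 96485317782) (nat_lit 2) (nat_lit 5) (nat_lit 4) (nat_lit 4) (nat_lit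 2) (nat_lit 4) (nat_lit 240) (nat_lit 212) (nat_lit 148))))))))
noncomputable def xc43 : XT := (XT.nd (nat_lit 29328) (nat_lit 0) (nat_lit 304) (XT.nd (nat_lit 624) (nat_lit 0) (nat_lit 0) (XT.nd (nat_lit 312) (nat_lit 0) (nat_lit 0) (XT.nd (nat_lit 156) (nat_lit 76) (nat_lit 0) (XT.nd (nat_lit 78) (nat_lit 0) (nat_lit 0) (XT.lf (nat_lit 0) (nat_lit 246797067736) (nat_lit 152) (nat_lit 94773816036) (nat_lit 0) (nat_lit 151368199003) (nat_lit 2) (nat_lit 5) (nat_lit 4) (nat_lit 4) (nat_lit 2) (nat_lit 4) (nat_lit 241) (nat_lit 212) (nat_lit 147)) (XT.lf (nat_lit 0) (nat_lit 309912963229) (nat_lit 152) (nat_lit 39083679153) (nat_lit 0) (nat_lit 214482682730) (nat_lit 2) (nat_lit 5) (nat_lit 4) (nat_lit 4) (nat_lit 2) (nat_lit 4) (nat_lit 242) (nat_lit 212) (nat_lit 146))) (XT.nd (nat_lit 78) (nat_lit 0) (nat_lit 0) (XT.lf (nat_lit 0) (nat_lit 26272291854) (nat_lit 76) (nat_lit 356854683076)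 (nat_lit 76) (nat_lit 261423174954) (nat_lit 1) (nat_lit 4) (nat_lit 2) (nat_lit 5) (nat_lit 2) (nat_lit 4) (nat_lit 243) (nat_lit 212) (nat_lit 145)) (XT.lf (nat_lit 0) (nat_lit 103796678143) (nat_lit 76) (nat_lit 364663275335) (nat_lit 76) (nat_lit 269230699715) (nat_lit 1) (nat_lit 4) (nat_lit 2) (nat_lit 5) (nat_lit 2) (nat_lit 4) (nat_lit 244) (nat_lit 212) (nat_lit 144)))) (XT.nd (nat_lit 156) (nat_lit 0) (nat_lit 0) (XT.nd (nat_lit 78) (nat_lit 0) (nat_lit 0) (XT.lf (nat_lit 0) (nat_lit 192948183903) (nat_lit 76) (nat_lit 373643813016) (nat_lit 76) (nat_lit 278210309136) (nat_lit 1) (nat_lit 4) (nat_lit 2) (nat_lit 5) (nat_lit 2) (nat_lit 4) (nat_lit 245) (nat_lit 212) (nat_lit 143)) (XT.lf (nat_lit 0) (nat_lit 295471077724) (nat_lit 76) (nat_lit 383972002291) (nat_lit 76) (nat_lit 288537691229) (nat_lit 1) (nat_lit 4) (nat_lit 2) (nat_lit 5) (nat_lit 2) (nat_lit 4) (nat_lit 246)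 (nat_lit 212) (nat_lit 142))) (XT.nd (nat_lit 78) (nat_lit 0) (nat_lit 0) (XT.lf (nat_lit 0) (nat_lit 413371242313) (nat_lit 76) (nat_lit 395849916427) (nat_lit 76) (nat_lit 300414903468) (nat_lit 1) (nat_lit 4) (nat_lit 2) (nat_lit 5) (nat_lit 2) (nat_lit 4) (nat_lit 247) (nat_lit 212) (nat_lit 141)) (XT.lf (nat_lit 0) (nat_lit 548955420019) (nat_lit 76) (nat_lit 409509949397) (nat_lit 76) (nat_lit 314074326093) (nat_lit 1) (nat_lit 4) (nat_lit 2) (nat_lit 5) (nat_lit 2) (nat_lit 4) (nat_lit 248) (nat_lit 212) (nat_lit 140))))) (XT.nd (nat_lit 312) (nat_lit 0) (nat_lit 0) (XT.nd (nat_lit 156) (nat_lit 0) (nat_lit 0) (XT.nd (nat_lit 78) (nat_lit 0) (nat_lit 0) (XT.lf (nat_lit 0) (nat_lit 704876344754) (nat_lit 76) (nat_lit 425219362717) (nat_lit 76) (nat_lit 329783208677) (nat_lit 1) (nat_lit 4) (nat_lit 2) (nat_lit 5) (nat_lit 2) (nat_lit 4) (nat_lit 249) (nat_lit 212) (nat_lit 139))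 (XT.lf (nat_lit 0) (nat_lit 884184643306) (nat_lit 76) (nat_lit 443285514471) (nat_lit 76) (nat_lit 347848898922) (nat_lit 1) (nat_lit 4) (nat_lit 2) (nat_lit 5) (nat_lit 2) (nat_lit 4) (nat_lit 250) (nat_lit 212) (nat_lit 138))) (XT.nd (nat_lit 78) (nat_lit 0) (nat_lit 0) (XT.lf (nat_lit 0) (nat_lit 1090388521517) (nat_lit 76) (nat_lit 464061872848) (nat_lit 76) (nat_lit 368624855987) (nat_lit 1) (nat_lit 4) (nat_lit 2) (nat_lit 5) (nat_lit 2) (nat_lit 4) (nat_lit 251) (nat_lit 212) (nat_lit 137)) (XT.lf (nat_lit 0) (nat_lit 1327522403091) (nat_lit 76) (nat_lit 487954931815) (nat_lit 76) (nat_lit 392517565987) (nat_lit 1) (nat_lit 4) (nat_lit 2) (nat_lit 5) (nat_lit 2) (nat_lit 4) (nat_lit 252) (nat_lit 212) (nat_lit 136)))) (XT.nd (nat_lit 28158) (nat_lit 0) (nat_lit 2280) (XT.nd (nat_lit 78) (nat_lit 0) (nat_lit 0) (XT.lf (nat_lit 0) (nat_lit 1600225863971) (nat_lit 76) (nat_lit 515432164264)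 (nat_lit 76) (nat_lit 419994494987) (nat_lit 1) (nat_lit 4) (nat_lit 2) (nat_lit 5) (nat_lit 2) (nat_lit 4) (nat_lit 253) (nat_lit 212) (nat_lit 135)) (XT.lf (nat_lit 0) (nat_lit 1913834406653) (nat_lit 76) (nat_lit 547031168223) (nat_lit 76) (nat_lit 451593235077) (nat_lit 1) (nat_lit 4) (nat_lit 2) (nat_lit 5) (nat_lit 2) (nat_lit 4) (nat_lit 254) (nat_lit 212) (nat_lit 134))) (XT.nd (nat_lit 78) (nat_lit 0) (nat_lit 0) (XT.lf (nat_lit 0) (nat_lit 5975455778) (nat_lit 0) (nat_lit 5975455778) (nat_lit 380) (nat_lit 790628046) (nat_lit 31) (nat_lit 5) (nat_lit 31) (nat_lit 3) (nat_lit 36) (nat_lit 3) (nat_lit 213) (nat_lit 213) (nat_lit 174)) (XT.nd (nat_lit 78) (nat_lit 0) (nat_lit 0) (XT.lf (nat_lit 76) (nat_lit 4825679291) (nat_lit 0) (nat_lit 21286234793) (nat_lit 456) (nat_lit 1247457888) (nat_lit 32) (nat_lit 5) (nat_lit 31) (nat_lit 5) (nat_lit 37) (nat_lit 5) (nat_lit 214) (nat_lit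 213) (nat_lit 173)) (XT.lf (nat_lit 76) (nat_lit 26391734000) (nat_lit 0) (nat_lit 2951025433) (nat_lit 456) (nat_lit 119484493) (nat_lit 32) (nat_lit 5) (nat_lit 31) (nat_lit 5) (nat_lit 37) (nat_lit 5) (nat_lit 215) (nat_lit 213) (nat_lit 172))))))) (XT.nd (nat_lit 624) (nat_lit 684) (nat_lit 0) (XT.nd (nat_lit 312) (nat_lit 608) (nat_lit 0) (XT.nd (nat_lit 156) (nat_lit 304) (nat_lit 0) (XT.nd (nat_lit 78) (nat_lit 0) (nat_lit 76) (XT.lf (nat_lit 0) (nat_lit 2032064944) (nat_lit 456) (nat_lit 12009003688) (nat_lit 532) (nat_lit 17764369803) (nat_lit 26) (nat_lit 5) (nat_lit 32) (nat_lit 5) (nat_lit 33) (nat_lit 5) (nat_lit 216) (nat_lit 213) (nat_lit 171)) (XT.lf (nat_lit 0) (nat_lit 5124062590) (nat_lit 456) (nat_lit 22343626134) (nat_lit 76) (nat_lit 6982384076) (nat_lit 27) (nat_lit 5) (nat_lit 33) (nat_lit 5) (nat_lit 28) (nat_lit 5) (nat_lit 217) (nat_lit 213) (nat_lit 170)))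 (XT.nd (nat_lit 78) (nat_lit 0) (nat_lit 0) (XT.lf (nat_lit 0) (nat_lit 2829866497) (nat_lit 380) (nat_lit 6646318093) (nat_lit 456) (nat_lit 27951678888) (nat_lit 22) (nat_lit 5) (nat_lit 27) (nat_lit 5) (nat_lit 28) (nat_lit 5) (nat_lit 218) (nat_lit 213) (nat_lit 169)) (XT.lf (nat_lit 0) (nat_lit 15547861337) (nat_lit 456) (nat_lit 8118081532) (nat_lit 76) (nat_lit 17101186311) (nat_lit 22) (nat_lit 5) (nat_lit 28) (nat_lit 5) (nat_lit 23) (nat_lit 5) (nat_lit 219) (nat_lit 213) (nat_lit 168)))) (XT.nd (nat_lit 156) (nat_lit 228) (nat_lit 0) (XT.nd (nat_lit 78) (nat_lit 152) (nat_lit 0) (XT.lf (nat_lit 0) (nat_lit 23260947060) (nat_lit 304) (nat_lit 21249489884) (nat_lit 76) (nat_lit 38521575) (nat_lit 19) (nat_lit 5) (nat_lit 23) (nat_lit 5) (nat_lit 20) (nat_lit 5) (nat_lit 220) (nat_lit 213) (nat_lit 167)) (XT.lf (nat_lit 0) (nat_lit 10912388727) (nat_lit 152) (nat_lit 22365104879)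 (nat_lit 228) (nat_lit 15528958709) (nat_lit 17) (nat_lit 5) (nat_lit 19) (nat_lit 5) (nat_lit 20) (nat_lit 5) (nat_lit 221) (nat_lit 213) (nat_lit 166))) (XT.nd (nat_lit 78) (nat_lit 228) (nat_lit 0) (XT.lf (nat_lit 0) (nat_lit 45494190996) (nat_lit 228) (nat_lit 4573025662) (nat_lit 76) (nat_lit 3579635575) (nat_lit 17) (nat_lit 5) (nat_lit 20) (nat_lit 5) (nat_lit 18) (nat_lit 5) (nat_lit 222) (nat_lit 213) (nat_lit 165)) (XT.lf (nat_lit 0) (nat_lit 1797844402) (nat_lit 228) (nat_lit 24284513403) (nat_lit 76) (nat_lit 33011654158) (nat_lit 14) (nat_lit 5) (nat_lit 17) (nat_lit 5) (nat_lit 15) (nat_lit 5) (nat_lit 223) (nat_lit 213) (nat_lit 164))))) (XT.nd (nat_lit 312) (nat_lit 304) (nat_lit 0) (XT.nd (nat_lit 156) (nat_lit 228) (nat_lit 0) (XT.nd (nat_lit 78) (nat_lit 0) (nat_lit 0) (XT.lf (nat_lit 0) (nat_lit 13328628667) (nat_lit 228) (nat_lit 49789013376) (nat_lit 76) (nat_lit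 2178095414) (nat_lit 12) (nat_lit 5) (nat_lit 15) (nat_lit 5) (nat_lit 13) (nat_lit 5) (nat_lit 224) (nat_lit 213) (nat_lit 163)) (XT.lf (nat_lit 0) (nat_lit 28027276051) (nat_lit 228) (nat_lit 10385495308) (nat_lit 76) (nat_lit 33899948958) (nat_lit 12) (nat_lit 5) (nat_lit 15) (nat_lit 5) (nat_lit 13) (nat_lit 5) (nat_lit 225) (nat_lit 213) (nat_lit 162))) (XT.nd (nat_lit 78) (nat_lit 76) (nat_lit 0) (XT.lf (nat_lit 0) (nat_lit 36756987456) (nat_lit 152) (nat_lit 9050339847) (nat_lit 228) (nat_lit 34504845350) (nat_lit 10) (nat_lit 5) (nat_lit 12) (nat_lit 5) (nat_lit 13) (nat_lit 5) (nat_lit 226) (nat_lit 213) (nat_lit 161)) (XT.lf (nat_lit 0) (nat_lit 1579179583) (nat_lit 76) (nat_lit 65611105801) (nat_lit 152) (nat_lit 22246429518) (nat_lit 9) (nat_lit 5) (nat_lit 10) (nat_lit 5) (nat_lit 11) (nat_lit 4) (nat_lit 227) (nat_lit 213) (nat_lit 160)))) (XT.nd (nat_lit 156) (nat_lit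 76) (nat_lit 0) (XT.nd (nat_lit 78) (nat_lit 228) (nat_lit 0) (XT.lf (nat_lit 0) (nat_lit 55848683569) (nat_lit 76) (nat_lit 37437970189) (nat_lit 152) (nat_lit 6522845654) (nat_lit 9) (nat_lit 5) (nat_lit 10) (nat_lit 5) (nat_lit 11) (nat_lit 4) (nat_lit 228) (nat_lit 213) (nat_lit 159)) (XT.lf (nat_lit 0) (nat_lit 6562466166) (nat_lit 152) (nat_lit 4570949384) (nat_lit 228) (nat_lit 100570386258) (nat_lit 6) (nat_lit 5) (nat_lit 8) (nat_lit 5) (nat_lit 9) (nat_lit 5) (nat_lit 229) (nat_lit 213) (nat_lit 158))) (XT.nd (nat_lit 78) (nat_lit 76) (nat_lit 0) (XT.lf (nat_lit 0) (nat_lit 33170096780) (nat_lit 228) (nat_lit 58974110861) (nat_lit 76) (nat_lit 33055058251) (nat_lit 6) (nat_lit 5) (nat_lit 9) (nat_lit 5) (nat_lit 7) (nat_lit 4) (nat_lit 230) (nat_lit 213) (nat_lit 157)) (XT.nd (nat_lit 78) (nat_lit 76) (nat_lit 0) (XT.lf (nat_lit 0) (nat_lit 58634371354) (nat_lit 228) (nat_lit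 6015081503) (nat_lit 76) (nat_lit 76059852728) (nat_lit 6) (nat_lit 5) (nat_lit 9) (nat_lit 5) (nat_lit 7) (nat_lit 4) (nat_lit 231) (nat_lit 213) (nat_lit 156)) (XT.lf (nat_lit 0) (nat_lit 57771819169) (nat_lit 76) (nat_lit 31532116370) (nat_lit 152) (nat_lit 69131084071) (nat_lit 5) (nat_lit 5) (nat_lit 6) (nat_lit 5) (nat_lit 7) (nat_lit 4) (nat_lit 232) (nat_lit 213) (nat_lit 155))))))))
noncomputable def xc44 : XT := (XT.nd (nat_lit 1248) (nat_lit 0) (nat_lit 0) (XT.nd (nat_lit 624) (nat_lit 76) (nat_lit 0) (XT.nd (nat_lit 312) (nat_lit 76) (nat_lit 0) (XT.nd (nat_lit 156) (nat_lit 76) (nat_lit 0) (XT.nd (nat_lit 78) (nat_lit 76) (nat_lit 0) (XT.lf (nat_lit 0) (nat_lit 124907746346) (nat_lit 152) (nat_lit 47482414399) (nat_lit 0) (nat_lit 6402742644) (nat_lit 5) (nat_lit 5) (nat_lit 7) (nat_lit 4) (nat_lit 5) (nat_lit 4) (nat_lit 233) (nat_lit 213) (nat_lit 154)) (XT.lf (nat_lit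 0) (nat_lit 13472376031) (nat_lit 76) (nat_lit 153572859947) (nat_lit 76) (nat_lit 35063800493) (nat_lit 4) (nat_lit 4) (nat_lit 5) (nat_lit 5) (nat_lit 5) (nat_lit 4) (nat_lit 234) (nat_lit 213) (nat_lit 153))) (XT.nd (nat_lit 78) (nat_lit 76) (nat_lit 0) (XT.lf (nat_lit 0) (nat_lit 86441239337) (nat_lit 76) (nat_lit 130441787724) (nat_lit 76) (nat_lit 11929201528) (nat_lit 4) (nat_lit 4) (nat_lit 5) (nat_lit 5) (nat_lit 5) (nat_lit 4) (nat_lit 235) (nat_lit 213) (nat_lit 152)) (XT.lf (nat_lit 0) (nat_lit 13939016067) (nat_lit 152) (nat_lit 89522499506) (nat_lit 76) (nat_lit 156031353928) (nat_lit 3) (nat_lit 5) (nat_lit 5) (nat_lit 5) (nat_lit 4) (nat_lit 4) (nat_lit 236) (nat_lit 213) (nat_lit 151)))) (XT.nd (nat_lit 156) (nat_lit 0) (nat_lit 0) (XT.nd (nat_lit 78) (nat_lit 76) (nat_lit 0) (XT.lf (nat_lit 0) (nat_lit 42999086501) (nat_lit 152) (nat_lit 29080219728) (nat_lit 76) (nat_lit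 222670084729) (nat_lit 3) (nat_lit 5) (nat_lit 5) (nat_lit 5) (nat_lit 4) (nat_lit 4) (nat_lit 237) (nat_lit 213) (nat_lit 150)) (XT.lf (nat_lit 0) (nat_lit 42554039402) (nat_lit 76) (nat_lit 34885709608) (nat_lit 152) (nat_lit 257772923208) (nat_lit 2) (nat_lit 5) (nat_lit 3) (nat_lit 5) (nat_lit 4) (nat_lit 4) (nat_lit 238) (nat_lit 213) (nat_lit 149))) (XT.nd (nat_lit 78) (nat_lit 0) (nat_lit 0) (XT.lf (nat_lit 0) (nat_lit 118103122234) (nat_lit 152) (nat_lit 255197878386) (nat_lit 0) (nat_lit 8359923191) (nat_lit 2) (nat_lit 5) (nat_lit 4) (nat_lit 4) (nat_lit 2) (nat_lit 4) (nat_lit 239) (nat_lit 213) (nat_lit 148)) (XT.lf (nat_lit 0) (nat_lit 165829376201) (nat_lit 152) (nat_lit 213085419462) (nat_lit 0) (nat_lit 56084553627) (nat_lit 2) (nat_lit 5) (nat_lit 4) (nat_lit 4) (nat_lit 2) (nat_lit 4) (nat_lit 240) (nat_lit 213) (nat_lit 147))))) (XT.nd (nat_lit 312) (nat_lit 0) (nat_lit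 0) (XT.nd (nat_lit 156) (nat_lit 76) (nat_lit 0) (XT.nd (nat_lit 78) (nat_lit 0) (nat_lit 0) (XT.lf (nat_lit 0) (nat_lit 220713283292) (nat_lit 152) (nat_lit 164658314477) (nat_lit 0) (nat_lit 110967048952) (nat_lit 2) (nat_lit 5) (nat_lit 4) (nat_lit 4) (nat_lit 2) (nat_lit 4) (nat_lit 241) (nat_lit 213) (nat_lit 146)) (XT.lf (nat_lit 0) (nat_lit 283828659080) (nat_lit 152) (nat_lit 108969076594) (nat_lit 0) (nat_lit 174081197116) (nat_lit 2) (nat_lit 5) (nat_lit 4) (nat_lit 4) (nat_lit 2) (nat_lit 4) (nat_lit 242) (nat_lit 213) (nat_lit 145))) (XT.nd (nat_lit 78) (nat_lit 76) (nat_lit 0) (XT.lf (nat_lit 0) (nat_lit 356410369612) (nat_lit 152) (nat_lit 44928133767) (nat_lit 0) (nat_lit 246661840150) (nat_lit 2) (nat_lit 5) (nat_lit 4) (nat_lit 4) (nat_lit 2) (nat_lit 4) (nat_lit 243) (nat_lit 213) (nat_lit 144)) (XT.lf (nat_lit 0) (nat_lit 30229701048) (nat_lit 76) (nat_lit 410375815823)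 (nat_lit 76) (nat_lit 300626358102) (nat_lit 1) (nat_lit 4) (nat_lit 2) (nat_lit 5) (nat_lit 2) (nat_lit 4) (nat_lit 244) (nat_lit 213) (nat_lit 143)))) (XT.nd (nat_lit 156) (nat_lit 0) (nat_lit 0) (XT.nd (nat_lit 78) (nat_lit 0) (nat_lit 0) (XT.lf (nat_lit 0) (nat_lit 119380584574) (nat_lit 76) (nat_lit 419356619058) (nat_lit 76) (nat_lit 309606354155) (nat_lit 1) (nat_lit 4) (nat_lit 2) (nat_lit 5) (nat_lit 2) (nat_lit 4) (nat_lit 245) (nat_lit 213) (nat_lit 142)) (XT.lf (nat_lit 0) (nat_lit 221902937323) (nat_lit 76) (nat_lit 429685039249) (nat_lit 76) (nat_lit 319934072449) (nat_lit 1) (nat_lit 4) (nat_lit 2) (nat_lit 5) (nat_lit 2) (nat_lit 4) (nat_lit 246) (nat_lit 213) (nat_lit 141))) (XT.nd (nat_lit 78) (nat_lit 0) (nat_lit 0) (XT.lf (nat_lit 0) (nat_lit 339802631413) (nat_lit 76) (nat_lit 441563154182) (nat_lit 76) (nat_lit 331811577036) (nat_lit 1) (nat_lit 4) (nat_lit 2) (nat_lit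 5) (nat_lit 2) (nat_lit 4) (nat_lit 247) (nat_lit 213) (nat_lit 140)) (XT.lf (nat_lit 0) (nat_lit 475386399990) (nat_lit 76) (nat_lit 455223361759) (nat_lit 76) (nat_lit 345471253878) (nat_lit 1) (nat_lit 4) (nat_lit 2) (nat_lit 5) (nat_lit 2) (nat_lit 4) (nat_lit 248) (nat_lit 213) (nat_lit 139)))))) (XT.nd (nat_lit 28704) (nat_lit 0) (nat_lit 988) (XT.nd (nat_lit 312) (nat_lit 0) (nat_lit 0) (XT.nd (nat_lit 156) (nat_lit 0) (nat_lit 0) (XT.nd (nat_lit 78) (nat_lit 0) (nat_lit 0) (XT.lf (nat_lit 0) (nat_lit 631306968961) (nat_lit 76) (nat_lit 470932926910) (nat_lit 76) (nat_lit 361180357519) (nat_lit 1) (nat_lit 4) (nat_lit 2) (nat_lit 5) (nat_lit 2) (nat_lit 4) (nat_lit 249) (nat_lit 213) (nat_lit 138)) (XT.lf (nat_lit 0) (nat_lit 810614958153) (nat_lit 76) (nat_lit 488999210692) (nat_lit 76) (nat_lit 379246239989) (nat_lit 1) (nat_lit 4) (nat_lit 2) (nat_lit 5) (nat_lit 2) (nat_lit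 4) (nat_lit 250) (nat_lit 213) (nat_lit 137))) (XT.nd (nat_lit 78) (nat_lit 0) (nat_lit 0) (XT.lf (nat_lit 0) (nat_lit 1016818567355) (nat_lit 76) (nat_lit 509775683875) (nat_lit 76) (nat_lit 400022364205) (nat_lit 1) (nat_lit 4) (nat_lit 2) (nat_lit 5) (nat_lit 2) (nat_lit 4) (nat_lit 251) (nat_lit 213) (nat_lit 136)) (XT.lf (nat_lit 0) (nat_lit 1253952215008) (nat_lit 76) (nat_lit 533668842673) (nat_lit 76) (nat_lit 423915219554) (nat_lit 1) (nat_lit 4) (nat_lit 2) (nat_lit 5) (nat_lit 2) (nat_lit 4) (nat_lit 252) (nat_lit 213) (nat_lit 135)))) (XT.nd (nat_lit 28236) (nat_lit 0) (nat_lit 2280) (XT.nd (nat_lit 78) (nat_lit 0) (nat_lit 0) (XT.lf (nat_lit 0) (nat_lit 1526655472479) (nat_lit 76) (nat_lit 561146161933) (nat_lit 76) (nat_lit 451392274945) (nat_lit 1) (nat_lit 4) (nat_lit 2) (nat_lit 5) (nat_lit 2) (nat_lit 4) (nat_lit 253) (nat_lit 213) (nat_lit 134)) (XT.lf (nat_lit 0)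 (nat_lit 1840263838284) (nat_lit 76) (nat_lit 592745241379) (nat_lit 76) (nat_lit 482991124939) (nat_lit 1) (nat_lit 4) (nat_lit 2) (nat_lit 5) (nat_lit 2) (nat_lit 4) (nat_lit 254) (nat_lit 213) (nat_lit 133))) (XT.nd (nat_lit 78) (nat_lit 0) (nat_lit 0) (XT.lf (nat_lit 0) (nat_lit 6943948654) (nat_lit 0) (nat_lit 6943948654) (nat_lit 380) (nat_lit 751847324) (nat_lit 31) (nat_lit 5) (nat_lit 31) (nat_lit 3) (nat_lit 36) (nat_lit 3) (nat_lit 214) (nat_lit 214) (nat_lit 172)) (XT.lf (nat_lit 76) (nat_lit 5708686187) (nat_lit 0) (nat_lit 24571865683) (nat_lit 456) (nat_lit 1160007428) (nat_lit 32) (nat_lit 5) (nat_lit 31) (nat_lit 5) (nat_lit 37) (nat_lit 5) (nat_lit 215) (nat_lit 214) (nat_lit 171))))) (XT.nd (nat_lit 312) (nat_lit 608) (nat_lit 0) (XT.nd (nat_lit 156) (nat_lit 228) (nat_lit 0) (XT.nd (nat_lit 78) (nat_lit 0) (nat_lit 76) (XT.lf (nat_lit 0) (nat_lit 96278741) (nat_lit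 456) (nat_lit 3375373006) (nat_lit 532) (nat_lit 30389978582) (nat_lit 25) (nat_lit 5) (nat_lit 31) (nat_lit 5) (nat_lit 32) (nat_lit 5) (nat_lit 216) (nat_lit 214) (nat_lit 170)) (XT.lf (nat_lit 0) (nat_lit 2535989042) (nat_lit 456) (nat_lit 13651530973) (nat_lit 532) (nat_lit 20371005405) (nat_lit 26) (nat_lit 5) (nat_lit 32) (nat_lit 5) (nat_lit 33) (nat_lit 5) (nat_lit 217) (nat_lit 214) (nat_lit 169))) (XT.nd (nat_lit 78) (nat_lit 380) (nat_lit 0) (XT.lf (nat_lit 0) (nat_lit 6068559487) (nat_lit 456) (nat_lit 25533342546) (nat_lit 76) (nat_lit 8000045788) (nat_lit 27) (nat_lit 5) (nat_lit 33) (nat_lit 5) (nat_lit 28) (nat_lit 5) (nat_lit 218) (nat_lit 214) (nat_lit 168)) (XT.lf (nat_lit 0) (nat_lit 3402476087) (nat_lit 380) (nat_lit 7651644372) (nat_lit 456) (nat_lit 31974041106) (nat_lit 22) (nat_lit 5) (nat_lit 27) (nat_lit 5) (nat_lit 28) (nat_lit 5) (nat_lit 219) (nat_lit 214)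 (nat_lit 167)))) (XT.nd (nat_lit 156) (nat_lit 380) (nat_lit 0) (XT.nd (nat_lit 78) (nat_lit 228) (nat_lit 0) (XT.lf (nat_lit 0) (nat_lit 18015959385) (nat_lit 456) (nat_lit 9194739366) (nat_lit 76) (nat_lit 19659443010) (nat_lit 22) (nat_lit 5) (nat_lit 28) (nat_lit 5) (nat_lit 23) (nat_lit 5) (nat_lit 220) (nat_lit 214) (nat_lit 166)) (XT.lf (nat_lit 0) (nat_lit 26871572692) (nat_lit 304) (nat_lit 24297253989) (nat_lit 76) (nat_lit 51727983) (nat_lit 19) (nat_lit 5) (nat_lit 23) (nat_lit 5) (nat_lit 20) (nat_lit 5) (nat_lit 221) (nat_lit 214) (nat_lit 165))) (XT.nd (nat_lit 78) (nat_lit 228) (nat_lit 0) (XT.lf (nat_lit 0) (nat_lit 12677084942) (nat_lit 152) (nat_lit 25700745099) (nat_lit 228) (nat_lit 17739998394) (nat_lit 17) (nat_lit 5) (nat_lit 19) (nat_lit 5) (nat_lit 20) (nat_lit 5) (nat_lit 222) (nat_lit 214) (nat_lit 164)) (XT.nd (nat_lit 78) (nat_lit 228) (nat_lit 0) (XT.lf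 (nat_lit 0) (nat_lit 52413252135) (nat_lit 228) (nat_lit 5139875456) (nat_lit 76) (nat_lit 4132379847) (nat_lit 17) (nat_lit 5) (nat_lit 20) (nat_lit 5) (nat_lit 18) (nat_lit 5) (nat_lit 223) (nat_lit 214) (nat_lit 163)) (XT.lf (nat_lit 0) (nat_lit 2155548011) (nat_lit 228) (nat_lit 27812906145) (nat_lit 76) (nat_lit 37981991011) (nat_lit 14) (nat_lit 5) (nat_lit 17) (nat_lit 5) (nat_lit 15) (nat_lit 5) (nat_lit 224) (nat_lit 214) (nat_lit 162))))))))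
noncomputable def xc45 : XT := (XT.nd (nat_lit 1326) (nat_lit 76) (nat_lit 0) (XT.nd (nat_lit 624) (nat_lit 304) (nat_lit 0) (XT.nd (nat_lit 312) (nat_lit 228) (nat_lit 0) (XT.nd (nat_lit 156) (nat_lit 228) (nat_lit 0) (XT.nd (nat_lit 78) (nat_lit 0) (nat_lit 0) (XT.lf (nat_lit 0) (nat_lit 15407598498) (nat_lit 228) (nat_lit 57146499567) (nat_lit 76) (nat_lit 2529081244) (nat_lit 12) (nat_lit 5) (nat_lit 15) (nat_lit 5) (nat_lit 13) (nat_lit 5) (nat_lit 225) (nat_lit 214) (nat_lit 161)) (XT.lf (nat_lit 0) (nat_lit 32300650529) (nat_lit 228) (nat_lit 11846914547) (nat_lit 76) (nat_lit 39006046968) (nat_lit 12) (nat_lit 5) (nat_lit 15) (nat_lit 5) (nat_lit 13) (nat_lit 5) (nat_lit 226) (nat_lit 214) (nat_lit 160))) (XT.nd (nat_lit 78) (nat_lit 76) (nat_lit 0) (XT.lf (nat_lit 0) (nat_lit 42358780424) (nat_lit 152) (nat_lit 10382014414) (nat_lit 228) (nat_lit 39612802348) (nat_lit 10) (nat_lit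 5) (nat_lit 12) (nat_lit 5) (nat_lit 13) (nat_lit 5) (nat_lit 227) (nat_lit 214) (nat_lit 159)) (XT.lf (nat_lit 0) (nat_lit 1901206398) (nat_lit 76) (nat_lit 75424444229) (nat_lit 152) (nat_lit 25521667548) (nat_lit 9) (nat_lit 5) (nat_lit 10) (nat_lit 5) (nat_lit 11) (nat_lit 4) (nat_lit 228) (nat_lit 214) (nat_lit 158)))) (XT.nd (nat_lit 156) (nat_lit 0) (nat_lit 0) (XT.nd (nat_lit 78) (nat_lit 228) (nat_lit 0) (XT.lf (nat_lit 0) (nat_lit 64300029477) (nat_lit 76) (nat_lit 43029033160) (nat_lit 152) (nat_lit 7447597374) (nat_lit 9) (nat_lit 5) (nat_lit 10) (nat_lit 5) (nat_lit 11) (nat_lit 4) (nat_lit 229) (nat_lit 214) (nat_lit 157)) (XT.lf (nat_lit 0) (nat_lit 7617333801) (nat_lit 152) (nat_lit 5232128754) (nat_lit 228) (nat_lit 115605975987) (nat_lit 6) (nat_lit 5) (nat_lit 8) (nat_lit 5) (nat_lit 9) (nat_lit 5) (nat_lit 230) (nat_lit 214) (nat_lit 156))) (XT.nd (nat_lit 78) (nat_lit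 0) (nat_lit 0) (XT.lf (nat_lit 0) (nat_lit 38186153044) (nat_lit 228) (nat_lit 67756016264) (nat_lit 76) (nat_lit 38033525073) (nat_lit 6) (nat_lit 5) (nat_lit 9) (nat_lit 5) (nat_lit 7) (nat_lit 4) (nat_lit 231) (nat_lit 214) (nat_lit 155)) (XT.lf (nat_lit 0) (nat_lit 67464780751) (nat_lit 228) (nat_lit 6861507879) (nat_lit 76) (nat_lit 87486402885) (nat_lit 6) (nat_lit 5) (nat_lit 9) (nat_lit 5) (nat_lit 7) (nat_lit 4) (nat_lit 232) (nat_lit 214) (nat_lit 154))))) (XT.nd (nat_lit 312) (nat_lit 152) (nat_lit 0) (XT.nd (nat_lit 156) (nat_lit 76) (nat_lit 0) (XT.nd (nat_lit 78) (nat_lit 0) (nat_lit 0) (XT.lf (nat_lit 0) (nat_lit 66488701667) (nat_lit 76) (nat_lit 36242708776) (nat_lit 152) (nat_lit 79466146462) (nat_lit 5) (nat_lit 5) (nat_lit 6) (nat_lit 5) (nat_lit 7) (nat_lit 4) (nat_lit 233) (nat_lit 214) (nat_lit 153)) (XT.lf (nat_lit 0) (nat_lit 143672036068) (nat_lit 152) (nat_lit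 54558374031) (nat_lit 0) (nat_lit 7379035201) (nat_lit 5) (nat_lit 5) (nat_lit 7) (nat_lit 4) (nat_lit 5) (nat_lit 4) (nat_lit 234) (nat_lit 214) (nat_lit 152))) (XT.nd (nat_lit 78) (nat_lit 0) (nat_lit 0) (XT.lf (nat_lit 0) (nat_lit 15535707220) (nat_lit 76) (nat_lit 176591794605) (nat_lit 76) (nat_lit 40295727006) (nat_lit 4) (nat_lit 4) (nat_lit 5) (nat_lit 5) (nat_lit 5) (nat_lit 4) (nat_lit 235) (nat_lit 214) (nat_lit 151)) (XT.lf (nat_lit 0) (nat_lit 99444359833) (nat_lit 76) (nat_lit 149993278201) (nat_lit 76) (nat_lit 13694543879) (nat_lit 4) (nat_lit 4) (nat_lit 5) (nat_lit 5) (nat_lit 5) (nat_lit 4) (nat_lit 236) (nat_lit 214) (nat_lit 150)))) (XT.nd (nat_lit 156) (nat_lit 76) (nat_lit 0) (XT.nd (nat_lit 78) (nat_lit 0) (nat_lit 0) (XT.lf (nat_lit 0) (nat_lit 16049725353) (nat_lit 152) (nat_lit 102917624476) (nat_lit 76) (nat_lit 179447774260) (nat_lit 3) (nat_lit 5) (nat_lit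 5) (nat_lit 5) (nat_lit 4) (nat_lit 4) (nat_lit 237) (nat_lit 214) (nat_lit 149)) (XT.lf (nat_lit 0) (nat_lit 49466216324) (nat_lit 152) (nat_lit 33413339682) (nat_lit 76) (nat_lit 256080786345) (nat_lit 3) (nat_lit 5) (nat_lit 5) (nat_lit 5) (nat_lit 4) (nat_lit 4) (nat_lit 238) (nat_lit 214) (nat_lit 148))) (XT.nd (nat_lit 78) (nat_lit 0) (nat_lit 0) (XT.lf (nat_lit 0) (nat_lit 48963610976) (nat_lit 76) (nat_lit 40107751536) (nat_lit 152) (nat_lit 296421892445) (nat_lit 2) (nat_lit 5) (nat_lit 3) (nat_lit 5) (nat_lit 4) (nat_lit 4) (nat_lit 239) (nat_lit 214) (nat_lit 147)) (XT.nd (nat_lit 78) (nat_lit 0) (nat_lit 0) (XT.lf (nat_lit 0) (nat_lit 135832426430) (nat_lit 152) (nat_lit 293453626519) (nat_lit 0) (nat_lit 9622845172) (nat_lit 2) (nat_lit 5) (nat_lit 4) (nat_lit 4) (nat_lit 2) (nat_lit 4) (nat_lit 240) (nat_lit 214) (nat_lit 146)) (XT.lf (nat_lit 0) (nat_lit 190715813815)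 (nat_lit 152) (nat_lit 245027420534) (nat_lit 0) (nat_lit 64505004934) (nat_lit 2) (nat_lit 5) (nat_lit 4) (nat_lit 4) (nat_lit 2) (nat_lit 4) (nat_lit 241) (nat_lit 214) (nat_lit 145))))))) (XT.nd (nat_lit 624) (nat_lit 0) (nat_lit 0) (XT.nd (nat_lit 312) (nat_lit 0) (nat_lit 0) (XT.nd (nat_lit 156) (nat_lit 76) (nat_lit 0) (XT.nd (nat_lit 78) (nat_lit 0) (nat_lit 0) (XT.lf (nat_lit 0) (nat_lit 253830737684) (nat_lit 152) (nat_lit 189338964390) (nat_lit 0) (nat_lit 127618861305) (nat_lit 2) (nat_lit 5) (nat_lit 4) (nat_lit 4) (nat_lit 2) (nat_lit 4) (nat_lit 242) (nat_lit 214) (nat_lit 144)) (XT.lf (nat_lit 0) (nat_lit 326412055244) (nat_lit 152) (nat_lit 125298701336) (nat_lit 0) (nat_lit 200199250606) (nat_lit 2) (nat_lit 5) (nat_lit 4) (nat_lit 4) (nat_lit 2) (nat_lit 4) (nat_lit 243) (nat_lit 214) (nat_lit 143))) (XT.nd (nat_lit 78) (nat_lit 76) (nat_lit 0) (XT.lf (nat_lit 0) (nat_lit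 409879835752) (nat_lit 152) (nat_lit 51653669705) (nat_lit 0) (nat_lit 283666223931) (nat_lit 2) (nat_lit 5) (nat_lit 4) (nat_lit 4) (nat_lit 2) (nat_lit 4) (nat_lit 244) (nat_lit 214) (nat_lit 142)) (XT.lf (nat_lit 0) (nat_lit 34776682039) (nat_lit 76) (nat_lit 471926842477) (nat_lit 76) (nat_lit 345712528759) (nat_lit 1) (nat_lit 4) (nat_lit 2) (nat_lit 5) (nat_lit 2) (nat_lit 4) (nat_lit 245) (nat_lit 214) (nat_lit 141)))) (XT.nd (nat_lit 156) (nat_lit 0) (nat_lit 0) (XT.nd (nat_lit 78) (nat_lit 0) (nat_lit 0) (XT.lf (nat_lit 0) (nat_lit 137298564290) (nat_lit 76) (nat_lit 482255463465) (nat_lit 76) (nat_lit 356040539401) (nat_lit 1) (nat_lit 4) (nat_lit 2) (nat_lit 5) (nat_lit 2) (nat_lit 4) (nat_lit 246) (nat_lit 214) (nat_lit 140)) (XT.lf (nat_lit 0) (nat_lit 255197849251) (nat_lit 76) (nat_lit 494133753004) (nat_lit 76) (nat_lit 367918298206) (nat_lit 1) (nat_lit 4) (nat_lit 2)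 (nat_lit 5) (nat_lit 2) (nat_lit 4) (nat_lit 247) (nat_lit 214) (nat_lit 139))) (XT.nd (nat_lit 78) (nat_lit 0) (nat_lit 0) (XT.lf (nat_lit 0) (nat_lit 390781262064) (nat_lit 76) (nat_lit 507794112412) (nat_lit 76) (nat_lit 381578196105) (nat_lit 1) (nat_lit 4) (nat_lit 2) (nat_lit 5) (nat_lit 2) (nat_lit 4) (nat_lit 248) (nat_lit 214) (nat_lit 138)) (XT.lf (nat_lit 0) (nat_lit 546701521675) (nat_lit 76) (nat_lit 523503809590) (nat_lit 76) (nat_lit 397287491971) (nat_lit 1) (nat_lit 4) (nat_lit 2) (nat_lit 5) (nat_lit 2) (nat_lit 4) (nat_lit 249) (nat_lit 214) (nat_lit 137))))) (XT.nd (nat_lit 312) (nat_lit 0) (nat_lit 0) (XT.nd (nat_lit 156) (nat_lit 0) (nat_lit 0) (XT.nd (nat_lit 78) (nat_lit 0) (nat_lit 0) (XT.lf (nat_lit 0) (nat_lit 726009241859) (nat_lit 76) (nat_lit 541570208179) (nat_lit 76) (nat_lit 415353541592) (nat_lit 1) (nat_lit 4) (nat_lit 2) (nat_lit 5) (nat_lit 2) (nat_lit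 4) (nat_lit 250) (nat_lit 214) (nat_lit 136)) (XT.lf (nat_lit 0) (nat_lit 932212617140) (nat_lit 76) (nat_lit 562346781193) (nat_lit 76) (nat_lit 436129811157) (nat_lit 1) (nat_lit 4) (nat_lit 2) (nat_lit 5) (nat_lit 2) (nat_lit 4) (nat_lit 251) (nat_lit 214) (nat_lit 135))) (XT.nd (nat_lit 78) (nat_lit 0) (nat_lit 0) (XT.lf (nat_lit 0) (nat_lit 1169346061384) (nat_lit 76) (nat_lit 586240026802) (nat_lit 76) (nat_lit 460022792896) (nat_lit 1) (nat_lit 4) (nat_lit 2) (nat_lit 5) (nat_lit 2) (nat_lit 4) (nat_lit 252) (nat_lit 214) (nat_lit 134)) (XT.lf (nat_lit 0) (nat_lit 1442049141977) (nat_lit 76) (nat_lit 613717421549) (nat_lit 76) (nat_lit 487499958192) (nat_lit 1) (nat_lit 4) (nat_lit 2) (nat_lit 5) (nat_lit 2) (nat_lit 4) (nat_lit 253) (nat_lit 214) (nat_lit 133)))) (XT.nd (nat_lit 28314) (nat_lit 0) (nat_lit 1824) (XT.nd (nat_lit 28236) (nat_lit 0) (nat_lit 2280) (XT.lf (nat_lit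 0) (nat_lit 1755657353975) (nat_lit 76) (nat_lit 645316566636) (nat_lit 76) (nat_lit 519098903756) (nat_lit 1) (nat_lit 4) (nat_lit 2) (nat_lit 5) (nat_lit 2) (nat_lit 4) (nat_lit 254) (nat_lit 214) (nat_lit 132)) (XT.lf (nat_lit 0) (nat_lit 8040115250) (nat_lit 0) (nat_lit 8040115250) (nat_lit 380) (nat_lit 745626366) (nat_lit 31) (nat_lit 5) (nat_lit 31) (nat_lit 3) (nat_lit 36) (nat_lit 3) (nat_lit 215) (nat_lit 215) (nat_lit 170))) (XT.nd (nat_lit 78) (nat_lit 456) (nat_lit 0) (XT.lf (nat_lit 76) (nat_lit 6685333162) (nat_lit 0) (nat_lit 28327736780) (nat_lit 456) (nat_lit 1126394823) (nat_lit 32) (nat_lit 5) (nat_lit 31) (nat_lit 5) (nat_lit 37) (nat_lit 5) (nat_lit 216) (nat_lit 215) (nat_lit 169)) (XT.nd (nat_lit 78) (nat_lit 0) (nat_lit 76) (XT.lf (nat_lit 0) (nat_lit 282223195) (nat_lit 456) (nat_lit 3766436036) (nat_lit 532) (nat_lit 34876930537) (nat_lit 25) (nat_lit 5) (nat_lit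 31) (nat_lit 5) (nat_lit 32) (nat_lit 5) (nat_lit 217) (nat_lit 215) (nat_lit 168)) (XT.lf (nat_lit 0) (nat_lit 3066946457) (nat_lit 456) (nat_lit 15579167410) (nat_lit 532) (nat_lit 23382784859) (nat_lit 26) (nat_lit 5) (nat_lit 32) (nat_lit 5) (nat_lit 33) (nat_lit 5) (nat_lit 218) (nat_lit 215) (nat_lit 167))))))))
noncomputable def xc46 : XT := (XT.nd (nat_lit 1248) (nat_lit 304) (nat_lit 0) (XT.nd (nat_lit 624) (nat_lit 532) (nat_lit 0) (XT.nd (nat_lit 312) (nat_lit 532) (nat_lit 0) (XT.nd (nat_lit 156) (nat_lit 228) (nat_lit 0) (XT.nd (nat_lit 78) (nat_lit 380) (nat_lit 0) (XT.lf (nat_lit 0) (nat_lit 7111839635) (nat_lit 456) (nat_lit 29240979083) (nat_lit 76) (nat_lit 9177598290) (nat_lit 27) (nat_lit 5) (nat_lit 33) (nat_lit 5) (nat_lit 28) (nat_lit 5) (nat_lit 219) (nat_lit 215) (nat_lit 166)) (XT.lf (nat_lit 0) (nat_lit 4024854771) (nat_lit 380) (nat_lit 8805726426) (nat_lit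 456) (nat_lit 36641308243) (nat_lit 22) (nat_lit 5) (nat_lit 27) (nat_lit 5) (nat_lit 28) (nat_lit 5) (nat_lit 220) (nat_lit 215) (nat_lit 165))) (XT.nd (nat_lit 78) (nat_lit 228) (nat_lit 0) (XT.lf (nat_lit 0) (nat_lit 20821127469) (nat_lit 456) (nat_lit 10467292882) (nat_lit 76) (nat_lit 22603126004) (nat_lit 22) (nat_lit 5) (nat_lit 28) (nat_lit 5) (nat_lit 23) (nat_lit 5) (nat_lit 221) (nat_lit 215) (nat_lit 164)) (XT.lf (nat_lit 0) (nat_lit 30994167630) (nat_lit 304) (nat_lit 27836239534) (nat_lit 76) (nat_lit 65103946) (nat_lit 19) (nat_lit 5) (nat_lit 23) (nat_lit 5) (nat_lit 20) (nat_lit 5) (nat_lit 222) (nat_lit 215) (nat_lit 163)))) (XT.nd (nat_lit 156) (nat_lit 380) (nat_lit 0) (XT.nd (nat_lit 78) (nat_lit 0) (nat_lit 0) (XT.lf (nat_lit 0) (nat_lit 14675311507) (nat_lit 152) (nat_lit 29541395229) (nat_lit 228) (nat_lit 20311543240) (nat_lit 17) (nat_lit 5) (nat_lit 19) (nat_lit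 5) (nat_lit 20) (nat_lit 5) (nat_lit 223) (nat_lit 215) (nat_lit 162)) (XT.lf (nat_lit 0) (nat_lit 60347022557) (nat_lit 228) (nat_lit 5820796996) (nat_lit 76) (nat_lit 4764183090) (nat_lit 17) (nat_lit 5) (nat_lit 20) (nat_lit 5) (nat_lit 18) (nat_lit 5) (nat_lit 224) (nat_lit 215) (nat_lit 161))) (XT.nd (nat_lit 78) (nat_lit 152) (nat_lit 0) (XT.lf (nat_lit 0) (nat_lit 2545441233) (nat_lit 228) (nat_lit 31898426741) (nat_lit 76) (nat_lit 43693345413) (nat_lit 14) (nat_lit 5) (nat_lit 17) (nat_lit 5) (nat_lit 15) (nat_lit 5) (nat_lit 225) (nat_lit 215) (nat_lit 160)) (XT.lf (nat_lit 0) (nat_lit 17778984421) (nat_lit 228) (nat_lit 65634644017) (nat_lit 76) (nat_lit 2926796184) (nat_lit 12) (nat_lit 5) (nat_lit 15) (nat_lit 5) (nat_lit 13) (nat_lit 5) (nat_lit 226) (nat_lit 215) (nat_lit 159))))) (XT.nd (nat_lit 312) (nat_lit 304) (nat_lit 0) (XT.nd (nat_lit 156) (nat_lit 76) (nat_lit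 0) (XT.nd (nat_lit 78) (nat_lit 152) (nat_lit 0) (XT.lf (nat_lit 0) (nat_lit 37198136063) (nat_lit 228) (nat_lit 13551055655) (nat_lit 76) (nat_lit 44872912930) (nat_lit 12) (nat_lit 5) (nat_lit 15) (nat_lit 5) (nat_lit 13) (nat_lit 5) (nat_lit 227) (nat_lit 215) (nat_lit 158)) (XT.lf (nat_lit 0) (nat_lit 48779323271) (nat_lit 152) (nat_lit 11919750292) (nat_lit 228) (nat_lit 45503478992) (nat_lit 10) (nat_lit 5) (nat_lit 12) (nat_lit 5) (nat_lit 13) (nat_lit 5) (nat_lit 228) (nat_lit 215) (nat_lit 157))) (XT.nd (nat_lit 78) (nat_lit 0) (nat_lit 0) (XT.lf (nat_lit 0) (nat_lit 2250772899) (nat_lit 76) (nat_lit 86716691249) (nat_lit 152) (nat_lit 29303243656) (nat_lit 9) (nat_lit 5) (nat_lit 10) (nat_lit 5) (nat_lit 11) (nat_lit 4) (nat_lit 229) (nat_lit 215) (nat_lit 156)) (XT.lf (nat_lit 0) (nat_lit 74001021326) (nat_lit 76) (nat_lit 49464762382) (nat_lit 152) (nat_lit 8524150871) (nat_lit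 9) (nat_lit 5) (nat_lit 10) (nat_lit 5) (nat_lit 11) (nat_lit 4) (nat_lit 230) (nat_lit 215) (nat_lit 155)))) (XT.nd (nat_lit 156) (nat_lit 76) (nat_lit 0) (XT.nd (nat_lit 78) (nat_lit 0) (nat_lit 0) (XT.lf (nat_lit 0) (nat_lit 8813240268) (nat_lit 152) (nat_lit 5998450497) (nat_lit 228) (nat_lit 132909089239) (nat_lit 6) (nat_lit 5) (nat_lit 8) (nat_lit 5) (nat_lit 9) (nat_lit 5) (nat_lit 231) (nat_lit 215) (nat_lit 154)) (XT.lf (nat_lit 0) (nat_lit 43944731386) (nat_lit 228) (nat_lit 77870865791) (nat_lit 76) (nat_lit 43753834049) (nat_lit 6) (nat_lit 5) (nat_lit 9) (nat_lit 5) (nat_lit 7) (nat_lit 4) (nat_lit 232) (nat_lit 215) (nat_lit 153))) (XT.nd (nat_lit 78) (nat_lit 76) (nat_lit 0) (XT.lf (nat_lit 0) (nat_lit 77611154720) (nat_lit 228) (nat_lit 7848514137) (nat_lit 76) (nat_lit 100622650461) (nat_lit 6) (nat_lit 5) (nat_lit 9) (nat_lit 5) (nat_lit 7) (nat_lit 4) (nat_lit 233)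 (nat_lit 215) (nat_lit 152)) (XT.lf (nat_lit 0) (nat_lit 76500653135) (nat_lit 76) (nat_lit 41664578193) (nat_lit 152) (nat_lit 91359905694) (nat_lit 5) (nat_lit 5) (nat_lit 6) (nat_lit 5) (nat_lit 7) (nat_lit 4) (nat_lit 234) (nat_lit 215) (nat_lit 151)))))) (XT.nd (nat_lit 624) (nat_lit 76) (nat_lit 0) (XT.nd (nat_lit 312) (nat_lit 76) (nat_lit 0) (XT.nd (nat_lit 156) (nat_lit 76) (nat_lit 0) (XT.nd (nat_lit 78) (nat_lit 76) (nat_lit 0) (XT.lf (nat_lit 0) (nat_lit 165244110113) (nat_lit 152) (nat_lit 62707043159) (nat_lit 0) (nat_lit 8497898920) (nat_lit 5) (nat_lit 5) (nat_lit 7) (nat_lit 4) (nat_lit 5) (nat_lit 4) (nat_lit 235) (nat_lit 215) (nat_lit 150)) (XT.lf (nat_lit 0) (nat_lit 17898180342) (nat_lit 76) (nat_lit 203067713637) (nat_lit 76) (nat_lit 46319183554) (nat_lit 4) (nat_lit 4) (nat_lit 5) (nat_lit 5) (nat_lit 5) (nat_lit 4) (nat_lit 236) (nat_lit 215) (nat_lit 149)))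 (XT.nd (nat_lit 78) (nat_lit 76) (nat_lit 0) (XT.lf (nat_lit 0) (nat_lit 114388941669) (nat_lit 76) (nat_lit 172481095880) (nat_lit 76) (nat_lit 15730549371) (nat_lit 4) (nat_lit 4) (nat_lit 5) (nat_lit 5) (nat_lit 5) (nat_lit 4) (nat_lit 237) (nat_lit 215) (nat_lit 148)) (XT.lf (nat_lit 0) (nat_lit 18472198806) (nat_lit 152) (nat_lit 118330126404) (nat_lit 76) (nat_lit 206373800317) (nat_lit 3) (nat_lit 5) (nat_lit 5) (nat_lit 5) (nat_lit 4) (nat_lit 4) (nat_lit 238) (nat_lit 215) (nat_lit 147)))) (XT.nd (nat_lit 156) (nat_lit 0) (nat_lit 0) (XT.nd (nat_lit 78) (nat_lit 76) (nat_lit 0) (XT.lf (nat_lit 0) (nat_lit 56899204990) (nat_lit 152) (nat_lit 38403478249) (nat_lit 76) (nat_lit 294500608574) (nat_lit 3) (nat_lit 5) (nat_lit 5) (nat_lit 5) (nat_lit 4) (nat_lit 4) (nat_lit 239) (nat_lit 215) (nat_lit 146)) (XT.lf (nat_lit 0) (nat_lit 56328164466) (nat_lit 76) (nat_lit 46115736942)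 (nat_lit 152) (nat_lit 340872345125) (nat_lit 2) (nat_lit 5) (nat_lit 3) (nat_lit 5) (nat_lit 4) (nat_lit 4) (nat_lit 240) (nat_lit 215) (nat_lit 145))) (XT.nd (nat_lit 78) (nat_lit 0) (nat_lit 0) (XT.lf (nat_lit 0) (nat_lit 156217752292) (nat_lit 152) (nat_lit 337453573238) (nat_lit 0) (nat_lit 11073026958) (nat_lit 2) (nat_lit 5) (nat_lit 4) (nat_lit 4) (nat_lit 2) (nat_lit 4) (nat_lit 241) (nat_lit 215) (nat_lit 144)) (XT.lf (nat_lit 0) (nat_lit 219332283190) (nat_lit 152) (nat_lit 281765796867) (nat_lit 0) (nat_lit 74186629596) (nat_lit 2) (nat_lit 5) (nat_lit 4) (nat_lit 4) (nat_lit 2) (nat_lit 4) (nat_lit 242) (nat_lit 215) (nat_lit 143))))) (XT.nd (nat_lit 312) (nat_lit 0) (nat_lit 0) (XT.nd (nat_lit 156) (nat_lit 76) (nat_lit 0) (XT.nd (nat_lit 78) (nat_lit 0) (nat_lit 0) (XT.lf (nat_lit 0) (nat_lit 291913259035) (nat_lit 152) (nat_lit 217726124921) (nat_lit 0) (nat_lit 146766798260)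 (nat_lit 2) (nat_lit 5) (nat_lit 4) (nat_lit 4) (nat_lit 2) (nat_lit 4) (nat_lit 243) (nat_lit 215) (nat_lit 142)) (XT.lf (nat_lit 0) (nat_lit 375380742399) (nat_lit 152) (nat_lit 144081607296) (nat_lit 0) (nat_lit 230233579726) (nat_lit 2) (nat_lit 5) (nat_lit 4) (nat_lit 4) (nat_lit 2) (nat_lit 4) (nat_lit 244) (nat_lit 215) (nat_lit 141))) (XT.nd (nat_lit 78) (nat_lit 76) (nat_lit 0) (XT.lf (nat_lit 0) (nat_lit 471367792739) (nat_lit 152) (nat_lit 59391372994) (nat_lit 0) (nat_lit 326220019720) (nat_lit 2) (nat_lit 5) (nat_lit 4) (nat_lit 4) (nat_lit 2) (nat_lit 4) (nat_lit 245) (nat_lit 215) (nat_lit 140)) (XT.lf (nat_lit 0) (nat_lit 40002655675) (nat_lit 76) (nat_lit 542711826716) (nat_lit 76) (nat_lit 397563522962) (nat_lit 1) (nat_lit 4) (nat_lit 2) (nat_lit 5) (nat_lit 2) (nat_lit 4) (nat_lit 246) (nat_lit 215) (nat_lit 139)))) (XT.nd (nat_lit 156) (nat_lit 0) (nat_lit 0) (XT.nd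 (nat_lit 78) (nat_lit 0) (nat_lit 0) (XT.lf (nat_lit 0) (nat_lit 157901584873) (nat_lit 76) (nat_lit 554590268087) (nat_lit 76) (nat_lit 409441502824) (nat_lit 1) (nat_lit 4) (nat_lit 2) (nat_lit 5) (nat_lit 2) (nat_lit 4) (nat_lit 247) (nat_lit 215) (nat_lit 138)) (XT.lf (nat_lit 0) (nat_lit 293484688326) (nat_lit 76) (nat_lit 568250759522) (nat_lit 76) (nat_lit 423101592948) (nat_lit 1) (nat_lit 4) (nat_lit 2) (nat_lit 5) (nat_lit 2) (nat_lit 4) (nat_lit 248) (nat_lit 215) (nat_lit 137))) (XT.nd (nat_lit 78) (nat_lit 0) (nat_lit 0) (XT.lf (nat_lit 0) (nat_lit 449404678928) (nat_lit 76) (nat_lit 583960571507) (nat_lit 76) (nat_lit 438811055965) (nat_lit 1) (nat_lit 4) (nat_lit 2) (nat_lit 5) (nat_lit 2) (nat_lit 4) (nat_lit 249) (nat_lit 215) (nat_lit 136)) (XT.nd (nat_lit 78) (nat_lit 0) (nat_lit 0) (XT.lf (nat_lit 0) (nat_lit 628712165190) (nat_lit 76) (nat_lit 602027069927) (nat_lit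 76) (nat_lit 456877250935) (nat_lit 1) (nat_lit 4) (nat_lit 2) (nat_lit 5) (nat_lit 2) (nat_lit 4) (nat_lit 250) (nat_lit 215) (nat_lit 135)) (XT.lf (nat_lit 0) (nat_lit 834915337062) (nat_lit 76) (nat_lit 622803729751) (nat_lit 76) (nat_lit 477653646891) (nat_lit 1) (nat_lit 4) (nat_lit 2) (nat_lit 5) (nat_lit 2) (nat_lit 4) (nat_lit 251) (nat_lit 215) (nat_lit 134))))))))
noncomputable def xc47 : XT := (XT.nd (nat_lit 29640) (nat_lit 0) (nat_lit 0) (XT.nd (nat_lit 28938) (nat_lit 0) (nat_lit 608) (XT.nd (nat_lit 28626) (nat_lit 0) (nat_lit 1596) (XT.nd (nat_lit 28470) (nat_lit 0) (nat_lit 2280) (XT.nd (nat_lit 78) (nat_lit 0) (nat_lit 0) (XT.lf (nat_lit 0) (nat_lit 1072048604429) (nat_lit 76) (nat_lit 646697050847) (nat_lit 76) (nat_lit 501546738535) (nat_lit 1) (nat_lit 4) (nat_lit 2) (nat_lit 5) (nat_lit 2) (nat_lit 4) (nat_lit 252) (nat_lit 215) (nat_lit 133)) (XT.lf (nat_lit 0)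 (nat_lit 1344751531215) (nat_lit 76) (nat_lit 674174511235) (nat_lit 76) (nat_lit 529023999400) (nat_lit 1) (nat_lit 4) (nat_lit 2) (nat_lit 5) (nat_lit 2) (nat_lit 4) (nat_lit 253) (nat_lit 215) (nat_lit 132))) (XT.nd (nat_lit 78) (nat_lit 0) (nat_lit 0) (XT.lf (nat_lit 0) (nat_lit 9287398548) (nat_lit 0) (nat_lit 9287398548) (nat_lit 380) (nat_lit 767490694) (nat_lit 31) (nat_lit 5) (nat_lit 31) (nat_lit 3) (nat_lit 36) (nat_lit 3) (nat_lit 216) (nat_lit 216) (nat_lit 168)) (XT.lf (nat_lit 76) (nat_lit 7779130525) (nat_lit 0) (nat_lit 32629896348) (nat_lit 456) (nat_lit 1138368248) (nat_lit 32) (nat_lit 5) (nat_lit 31) (nat_lit 5) (nat_lit 37) (nat_lit 5) (nat_lit 217) (nat_lit 216) (nat_lit 167)))) (XT.nd (nat_lit 156) (nat_lit 228) (nat_lit 0) (XT.nd (nat_lit 78) (nat_lit 0) (nat_lit 76) (XT.lf (nat_lit 0) (nat_lit 454237312) (nat_lit 456) (nat_lit 4244261236) (nat_lit 532) (nat_lit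 40054371946) (nat_lit 25) (nat_lit 5) (nat_lit 31) (nat_lit 5) (nat_lit 32) (nat_lit 5) (nat_lit 218) (nat_lit 216) (nat_lit 166)) (XT.lf (nat_lit 0) (nat_lit 3640832705) (nat_lit 456) (nat_lit 17825234802) (nat_lit 532) (nat_lit 26857029539) (nat_lit 26) (nat_lit 5) (nat_lit 32) (nat_lit 5) (nat_lit 33) (nat_lit 5) (nat_lit 219) (nat_lit 216) (nat_lit 165))) (XT.nd (nat_lit 78) (nat_lit 380) (nat_lit 0) (XT.lf (nat_lit 0) (nat_lit 8279179834) (nat_lit 456) (nat_lit 33534600542) (nat_lit 76) (nat_lit 10537259307) (nat_lit 27) (nat_lit 5) (nat_lit 33) (nat_lit 5) (nat_lit 28) (nat_lit 5) (nat_lit 220) (nat_lit 216) (nat_lit 164)) (XT.lf (nat_lit 0) (nat_lit 4713276575) (nat_lit 380) (nat_lit 10131375862) (nat_lit 456) (nat_lit 42040083663) (nat_lit 22) (nat_lit 5) (nat_lit 27) (nat_lit 5) (nat_lit 28) (nat_lit 5) (nat_lit 221) (nat_lit 216) (nat_lit 163))))) (XT.nd (nat_lit 312) (nat_lit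 608) (nat_lit 0) (XT.nd (nat_lit 156) (nat_lit 152) (nat_lit 0) (XT.nd (nat_lit 78) (nat_lit 228) (nat_lit 0) (XT.lf (nat_lit 0) (nat_lit 24022008632) (nat_lit 456) (nat_lit 11956738505) (nat_lit 76) (nat_lit 25989637659) (nat_lit 22) (nat_lit 5) (nat_lit 28) (nat_lit 5) (nat_lit 23) (nat_lit 5) (nat_lit 222) (nat_lit 216) (nat_lit 162)) (XT.lf (nat_lit 0) (nat_lit 35712751401) (nat_lit 304) (nat_lit 31931824762) (nat_lit 76) (nat_lit 79116619) (nat_lit 19) (nat_lit 5) (nat_lit 23) (nat_lit 5) (nat_lit 20) (nat_lit 5) (nat_lit 223) (nat_lit 216) (nat_lit 161))) (XT.nd (nat_lit 78) (nat_lit 0) (nat_lit 0) (XT.lf (nat_lit 0) (nat_lit 16949699971) (nat_lit 152) (nat_lit 33961669439) (nat_lit 228) (nat_lit 23290633961) (nat_lit 17) (nat_lit 5) (nat_lit 19) (nat_lit 5) (nat_lit 20) (nat_lit 5) (nat_lit 224) (nat_lit 216) (nat_lit 160)) (XT.lf (nat_lit 0) (nat_lit 69453353899) (nat_lit 228)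 (nat_lit 6625818415) (nat_lit 76) (nat_lit 5487843647) (nat_lit 17) (nat_lit 5) (nat_lit 20) (nat_lit 5) (nat_lit 18) (nat_lit 5) (nat_lit 225) (nat_lit 216) (nat_lit 159)))) (XT.nd (nat_lit 156) (nat_lit 228) (nat_lit 0) (XT.nd (nat_lit 78) (nat_lit 152) (nat_lit 0) (XT.lf (nat_lit 0) (nat_lit 2977587112) (nat_lit 228) (nat_lit 36617848350) (nat_lit 76) (nat_lit 50257975391) (nat_lit 14) (nat_lit 5) (nat_lit 17) (nat_lit 5) (nat_lit 15) (nat_lit 5) (nat_lit 226) (nat_lit 216) (nat_lit 158)) (XT.lf (nat_lit 0) (nat_lit 20491386827) (nat_lit 228) (nat_lit 75416452730) (nat_lit 76) (nat_lit 3379692930) (nat_lit 12) (nat_lit 5) (nat_lit 15) (nat_lit 5) (nat_lit 13) (nat_lit 5) (nat_lit 227) (nat_lit 216) (nat_lit 157))) (XT.nd (nat_lit 78) (nat_lit 228) (nat_lit 0) (XT.lf (nat_lit 0) (nat_lit 42817469293) (nat_lit 228) (nat_lit 15528594099) (nat_lit 76) (nat_lit 51615917103) (nat_lit 12)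 (nat_lit 5) (nat_lit 15) (nat_lit 5) (nat_lit 13) (nat_lit 5) (nat_lit 228) (nat_lit 216) (nat_lit 156)) (XT.nd (nat_lit 78) (nat_lit 76) (nat_lit 0) (XT.lf (nat_lit 0) (nat_lit 56146676041) (nat_lit 152) (nat_lit 13692917915) (nat_lit 228) (nat_lit 52290253235) (nat_lit 10) (nat_lit 5) (nat_lit 12) (nat_lit 5) (nat_lit 13) (nat_lit 5) (nat_lit 229) (nat_lit 216) (nat_lit 155)) (XT.lf (nat_lit 0) (nat_lit 2637073553) (nat_lit 76) (nat_lit 99707998630) (nat_lit 152) (nat_lit 33663437936) (nat_lit 9) (nat_lit 5) (nat_lit 10) (nat_lit 5) (nat_lit 11) (nat_lit 4) (nat_lit 230) (nat_lit 216) (nat_lit 154))))))) (XT.nd (nat_lit 624) (nat_lit 228) (nat_lit 0) (XT.nd (nat_lit 312) (nat_lit 152) (nat_lit 0) (XT.nd (nat_lit 156) (nat_lit 0) (nat_lit 0) (XT.nd (nat_lit 78) (nat_lit 228) (nat_lit 0) (XT.lf (nat_lit 0) (nat_lit 85143509063) (nat_lit 76) (nat_lit 56870392995) (nat_lit 152) (nat_lit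 9772084573) (nat_lit 9) (nat_lit 5) (nat_lit 10) (nat_lit 5) (nat_lit 11) (nat_lit 4) (nat_lit 231) (nat_lit 216) (nat_lit 153)) (XT.lf (nat_lit 0) (nat_lit 10175533602) (nat_lit 152) (nat_lit 6884231251) (nat_lit 228) (nat_lit 152816883139) (nat_lit 6) (nat_lit 5) (nat_lit 8) (nat_lit 5) (nat_lit 9) (nat_lit 5) (nat_lit 232) (nat_lit 216) (nat_lit 152))) (XT.nd (nat_lit 78) (nat_lit 0) (nat_lit 0) (XT.lf (nat_lit 0) (nat_lit 50559620970) (nat_lit 228) (nat_lit 89514782683) (nat_lit 76) (nat_lit 50328463194) (nat_lit 6) (nat_lit 5) (nat_lit 9) (nat_lit 5) (nat_lit 7) (nat_lit 4) (nat_lit 233) (nat_lit 216) (nat_lit 151)) (XT.lf (nat_lit 0) (nat_lit 89272984342) (nat_lit 228) (nat_lit 8993866930) (nat_lit 76) (nat_lit 115726095019) (nat_lit 6) (nat_lit 5) (nat_lit 9) (nat_lit 5) (nat_lit 7) (nat_lit 4) (nat_lit 234) (nat_lit 216) (nat_lit 150)))) (XT.nd (nat_lit 156) (nat_lit 76) (nat_lit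 0) (XT.nd (nat_lit 78) (nat_lit 0) (nat_lit 0) (XT.lf (nat_lit 0) (nat_lit 88004973197) (nat_lit 76) (nat_lit 47903272937) (nat_lit 152) (nat_lit 105044108760) (nat_lit 5) (nat_lit 5) (nat_lit 6) (nat_lit 5) (nat_lit 7) (nat_lit 4) (nat_lit 235) (nat_lit 216) (nat_lit 149)) (XT.lf (nat_lit 0) (nat_lit 190046808775) (nat_lit 152) (nat_lit 72086568837) (nat_lit 0) (nat_lit 9781663864) (nat_lit 5) (nat_lit 5) (nat_lit 7) (nat_lit 4) (nat_lit 5) (nat_lit 4) (nat_lit 236) (nat_lit 216) (nat_lit 148))) (XT.nd (nat_lit 78) (nat_lit 0) (nat_lit 0) (XT.lf (nat_lit 0) (nat_lit 20607192490) (nat_lit 76) (nat_lit 233518154117) (nat_lit 76) (nat_lit 53251255792) (nat_lit 4) (nat_lit 4) (nat_lit 5) (nat_lit 5) (nat_lit 5) (nat_lit 4) (nat_lit 237) (nat_lit 216) (nat_lit 147)) (XT.lf (nat_lit 0) (nat_lit 131568400394) (nat_lit 76) (nat_lit 198344811074) (nat_lit 76) (nat_lit 18076388042) (nat_lit 4)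 (nat_lit 4) (nat_lit 5) (nat_lit 5) (nat_lit 5) (nat_lit 4) (nat_lit 238) (nat_lit 216) (nat_lit 146))))) (XT.nd (nat_lit 312) (nat_lit 76) (nat_lit 0) (XT.nd (nat_lit 156) (nat_lit 76) (nat_lit 0) (XT.nd (nat_lit 78) (nat_lit 0) (nat_lit 0) (XT.lf (nat_lit 0) (nat_lit 21254381860) (nat_lit 152) (nat_lit 136060634595) (nat_lit 76) (nat_lit 237336569736) (nat_lit 3) (nat_lit 5) (nat_lit 5) (nat_lit 5) (nat_lit 4) (nat_lit 4) (nat_lit 239) (nat_lit 216) (nat_lit 145)) (XT.lf (nat_lit 0) (nat_lit 65443958115) (nat_lit 152) (nat_lit 44147468882) (nat_lit 76) (nat_lit 338681525400) (nat_lit 3) (nat_lit 5) (nat_lit 5) (nat_lit 5) (nat_lit 4) (nat_lit 4) (nat_lit 240) (nat_lit 216) (nat_lit 144))) (XT.nd (nat_lit 78) (nat_lit 0) (nat_lit 0) (XT.lf (nat_lit 0) (nat_lit 64792520964) (nat_lit 76) (nat_lit 53026914250) (nat_lit 152) (nat_lit 391993494673) (nat_lit 2) (nat_lit 5) (nat_lit 3) (nat_lit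 5) (nat_lit 4) (nat_lit 4) (nat_lit 241) (nat_lit 216) (nat_lit 143)) (XT.lf (nat_lit 0) (nat_lit 179658325834) (nat_lit 152) (nat_lit 388057925097) (nat_lit 0) (nat_lit 12739088761) (nat_lit 2) (nat_lit 5) (nat_lit 4) (nat_lit 4) (nat_lit 2) (nat_lit 4) (nat_lit 242) (nat_lit 216) (nat_lit 142)))) (XT.nd (nat_lit 156) (nat_lit 76) (nat_lit 0) (XT.nd (nat_lit 78) (nat_lit 0) (nat_lit 0) (XT.lf (nat_lit 0) (nat_lit 252239004536) (nat_lit 152) (nat_lit 324018767156) (nat_lit 0) (nat_lit 85319065565) (nat_lit 2) (nat_lit 5) (nat_lit 4) (nat_lit 4) (nat_lit 2) (nat_lit 4) (nat_lit 243) (nat_lit 216) (nat_lit 141)) (XT.lf (nat_lit 0) (nat_lit 335706229515) (nat_lit 152) (nat_lit 250374696493) (nat_lit 0) (nat_lit 168785680198) (nat_lit 2) (nat_lit 5) (nat_lit 4) (nat_lit 4) (nat_lit 2) (nat_lit 4) (nat_lit 244) (nat_lit 216) (nat_lit 140))) (XT.nd (nat_lit 78) (nat_lit 76) (nat_lit 0) (XT.lf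 (nat_lit 0) (nat_lit 431693055171) (nat_lit 152) (nat_lit 165684850854) (nat_lit 0) (nat_lit 264771975119) (nat_lit 2) (nat_lit 5) (nat_lit 4) (nat_lit 4) (nat_lit 2) (nat_lit 4) (nat_lit 245) (nat_lit 216) (nat_lit 139)) (XT.nd (nat_lit 78) (nat_lit 76) (nat_lit 0) (XT.lf (nat_lit 0) (nat_lit 542077484617) (nat_lit 152) (nat_lit 68292254999) (nat_lit 0) (nat_lit 375155943056) (nat_lit 2) (nat_lit 5) (nat_lit 4) (nat_lit 4) (nat_lit 2) (nat_lit 4) (nat_lit 246) (nat_lit 216) (nat_lit 138)) (XT.lf (nat_lit 0) (nat_lit 46010215713) (nat_lit 76) (nat_lit 624115544291) (nat_lit 76) (nat_lit 457193601418) (nat_lit 1) (nat_lit 4) (nat_lit 2) (nat_lit 5) (nat_lit 2) (nat_lit 4) (nat_lit 247) (nat_lit 216) (nat_lit 137))))))))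
noncomputable def xc48 : XT := (XT.nd (nat_lit 29640) (nat_lit 0) (nat_lit 76) (XT.nd (nat_lit 29016) (nat_lit 0) (nat_lit 1216) (XT.nd (nat_lit 312) (nat_lit 0) (nat_lit 0) (XT.nd (nat_lit 156) (nat_lit 0) (nat_lit 0) (XT.nd (nat_lit 78) (nat_lit 0) (nat_lit 0) (XT.lf (nat_lit 0) (nat_lit 181593050157) (nat_lit 76) (nat_lit 637776150533) (nat_lit 76) (nat_lit 470853858693) (nat_lit 1) (nat_lit 4) (nat_lit 2) (nat_lit 5) (nat_lit 2) (nat_lit 4) (nat_lit 248) (nat_lit 216) (nat_lit 136)) (XT.lf (nat_lit 0) (nat_lit 337512806838) (nat_lit 76) (nat_lit 653486062349) (nat_lit 76) (nat_lit 486563467059) (nat_lit 1) (nat_lit 4) (nat_lit 2) (nat_lit 5) (nat_lit 2) (nat_lit 4) (nat_lit 249) (nat_lit 216) (nat_lit 135))) (XT.nd (nat_lit 78) (nat_lit 0) (nat_lit 0) (XT.lf (nat_lit 0) (nat_lit 516820089692) (nat_lit 76) (nat_lit 671552647579) (nat_lit 76) (nat_lit 504629788420) (nat_lit 1) (nat_lit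 4) (nat_lit 2) (nat_lit 5) (nat_lit 2) (nat_lit 4) (nat_lit 250) (nat_lit 216) (nat_lit 134)) (XT.lf (nat_lit 0) (nat_lit 723023084686) (nat_lit 76) (nat_lit 692329382890) (nat_lit 76) (nat_lit 525406294280) (nat_lit 1) (nat_lit 4) (nat_lit 2) (nat_lit 5) (nat_lit 2) (nat_lit 4) (nat_lit 251) (nat_lit 216) (nat_lit 133)))) (XT.nd (nat_lit 28548) (nat_lit 0) (nat_lit 2280) (XT.nd (nat_lit 78) (nat_lit 0) (nat_lit 0) (XT.lf (nat_lit 0) (nat_lit 960156198246) (nat_lit 76) (nat_lit 716222769627) (nat_lit 76) (nat_lit 549299481494) (nat_lit 1) (nat_lit 4) (nat_lit 2) (nat_lit 5) (nat_lit 2) (nat_lit 4) (nat_lit 252) (nat_lit 216) (nat_lit 132)) (XT.lf (nat_lit 0) (nat_lit 1232858991288) (nat_lit 76) (nat_lit 743700287094) (nat_lit 76) (nat_lit 576776825462) (nat_lit 1) (nat_lit 4) (nat_lit 2) (nat_lit 5) (nat_lit 2) (nat_lit 4) (nat_lit 253) (nat_lit 216) (nat_lit 131))) (XT.nd (nat_lit 78)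 (nat_lit 0) (nat_lit 0) (XT.lf (nat_lit 0) (nat_lit 10711711362) (nat_lit 0) (nat_lit 10711711362) (nat_lit 380) (nat_lit 814576773) (nat_lit 31) (nat_lit 5) (nat_lit 31) (nat_lit 3) (nat_lit 36) (nat_lit 3) (nat_lit 217) (nat_lit 217) (nat_lit 166)) (XT.lf (nat_lit 76) (nat_lit 9014807204) (nat_lit 0) (nat_lit 37564455697) (nat_lit 456) (nat_lit 1190419668) (nat_lit 32) (nat_lit 5) (nat_lit 31) (nat_lit 5) (nat_lit 37) (nat_lit 5) (nat_lit 218) (nat_lit 217) (nat_lit 165))))) (XT.nd (nat_lit 312) (nat_lit 380) (nat_lit 0) (XT.nd (nat_lit 156) (nat_lit 228) (nat_lit 0) (XT.nd (nat_lit 78) (nat_lit 0) (nat_lit 76) (XT.lf (nat_lit 0) (nat_lit 620430102) (nat_lit 456) (nat_lit 4815009908) (nat_lit 532) (nat_lit 46021621748) (nat_lit 25) (nat_lit 5) (nat_lit 31) (nat_lit 5) (nat_lit 32) (nat_lit 5) (nat_lit 219) (nat_lit 217) (nat_lit 164)) (XT.lf (nat_lit 0) (nat_lit 4273040242) (nat_lit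 456) (nat_lit 20430356340) (nat_lit 532) (nat_lit 30860500379) (nat_lit 26) (nat_lit 5) (nat_lit 32) (nat_lit 5) (nat_lit 33) (nat_lit 5) (nat_lit 220) (nat_lit 217) (nat_lit 163))) (XT.nd (nat_lit 78) (nat_lit 380) (nat_lit 0) (XT.lf (nat_lit 0) (nat_lit 9597097833) (nat_lit 456) (nat_lit 38494828126) (nat_lit 76) (nat_lit 12105009846) (nat_lit 27) (nat_lit 5) (nat_lit 33) (nat_lit 5) (nat_lit 28) (nat_lit 5) (nat_lit 221) (nat_lit 217) (nat_lit 162)) (XT.lf (nat_lit 0) (nat_lit 5484308581) (nat_lit 380) (nat_lit 11654704526) (nat_lit 456) (nat_lit 48272432080) (nat_lit 22) (nat_lit 5) (nat_lit 27) (nat_lit 5) (nat_lit 28) (nat_lit 5) (nat_lit 222) (nat_lit 217) (nat_lit 161)))) (XT.nd (nat_lit 156) (nat_lit 152) (nat_lit 0) (XT.nd (nat_lit 78) (nat_lit 228) (nat_lit 0) (XT.lf (nat_lit 0) (nat_lit 27684071396) (nat_lit 456) (nat_lit 13689267573) (nat_lit 76) (nat_lit 29885091061) (nat_lit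 22) (nat_lit 5) (nat_lit 28) (nat_lit 5) (nat_lit 23) (nat_lit 5) (nat_lit 223) (nat_lit 217) (nat_lit 160)) (XT.lf (nat_lit 0) (nat_lit 41122184813) (nat_lit 304) (nat_lit 36661219874) (nat_lit 76) (nat_lit 94195516) (nat_lit 19) (nat_lit 5) (nat_lit 23) (nat_lit 5) (nat_lit 20) (nat_lit 5) (nat_lit 224) (nat_lit 217) (nat_lit 159))) (XT.nd (nat_lit 78) (nat_lit 0) (nat_lit 0) (XT.lf (nat_lit 0) (nat_lit 19547422822) (nat_lit 152) (nat_lit 39047651369) (nat_lit 228) (nat_lit 26733082919) (nat_lit 17) (nat_lit 5) (nat_lit 19) (nat_lit 5) (nat_lit 20) (nat_lit 5) (nat_lit 225) (nat_lit 217) (nat_lit 158)) (XT.lf (nat_lit 0) (nat_lit 79912398919) (nat_lit 228) (nat_lit 7568199207) (nat_lit 76) (nat_lit 6317850510) (nat_lit 17) (nat_lit 5) (nat_lit 20) (nat_lit 5) (nat_lit 18) (nat_lit 5) (nat_lit 226) (nat_lit 217) (nat_lit 157)))))) (XT.nd (nat_lit 624) (nat_lit 304) (nat_lit 0) (XT.nd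 (nat_lit 312) (nat_lit 304) (nat_lit 0) (XT.nd (nat_lit 156) (nat_lit 152) (nat_lit 0) (XT.nd (nat_lit 78) (nat_lit 152) (nat_lit 0) (XT.lf (nat_lit 0) (nat_lit 3462281658) (nat_lit 228) (nat_lit 42061117360) (nat_lit 76) (nat_lit 57804708120) (nat_lit 14) (nat_lit 5) (nat_lit 17) (nat_lit 5) (nat_lit 15) (nat_lit 5) (nat_lit 227) (nat_lit 217) (nat_lit 156)) (XT.lf (nat_lit 0) (nat_lit 23599540782) (nat_lit 228) (nat_lit 86680990288) (nat_lit 76) (nat_lit 3897140116) (nat_lit 12) (nat_lit 5) (nat_lit 15) (nat_lit 5) (nat_lit 13) (nat_lit 5) (nat_lit 228) (nat_lit 217) (nat_lit 155))) (XT.nd (nat_lit 78) (nat_lit 152) (nat_lit 0) (XT.lf (nat_lit 0) (nat_lit 49270042671) (nat_lit 228) (nat_lit 17816204647) (nat_lit 76) (nat_lit 59367429231) (nat_lit 12) (nat_lit 5) (nat_lit 15) (nat_lit 5) (nat_lit 13) (nat_lit 5) (nat_lit 229) (nat_lit 217) (nat_lit 154)) (XT.lf (nat_lit 0) (nat_lit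 64606828131) (nat_lit 152) (nat_lit 15735668516) (nat_lit 228) (nat_lit 60104492463) (nat_lit 10) (nat_lit 5) (nat_lit 12) (nat_lit 5) (nat_lit 13) (nat_lit 5) (nat_lit 230) (nat_lit 217) (nat_lit 153)))) (XT.nd (nat_lit 156) (nat_lit 228) (nat_lit 0) (XT.nd (nat_lit 78) (nat_lit 0) (nat_lit 0) (XT.lf (nat_lit 0) (nat_lit 3069447229) (nat_lit 76) (nat_lit 114651951690) (nat_lit 152) (nat_lit 38686267601) (nat_lit 9) (nat_lit 5) (nat_lit 10) (nat_lit 5) (nat_lit 11) (nat_lit 4) (nat_lit 231) (nat_lit 217) (nat_lit 152)) (XT.lf (nat_lit 0) (nat_lit 97947046416) (nat_lit 76) (nat_lit 65390302610) (nat_lit 152) (nat_lit 11214692020) (nat_lit 9) (nat_lit 5) (nat_lit 10) (nat_lit 5) (nat_lit 11) (nat_lit 4) (nat_lit 232) (nat_lit 217) (nat_lit 151))) (XT.nd (nat_lit 78) (nat_lit 0) (nat_lit 0) (XT.lf (nat_lit 0) (nat_lit 11732341748) (nat_lit 152) (nat_lit 7906289893) (nat_lit 228) (nat_lit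 175717812974) (nat_lit 6) (nat_lit 5) (nat_lit 8) (nat_lit 5) (nat_lit 9) (nat_lit 5) (nat_lit 233) (nat_lit 217) (nat_lit 150)) (XT.lf (nat_lit 0) (nat_lit 58161091431) (nat_lit 228) (nat_lit 102914239800) (nat_lit 76) (nat_lit 57886469186) (nat_lit 6) (nat_lit 5) (nat_lit 9) (nat_lit 5) (nat_lit 7) (nat_lit 4) (nat_lit 234) (nat_lit 217) (nat_lit 149))))) (XT.nd (nat_lit 312) (nat_lit 152) (nat_lit 0) (XT.nd (nat_lit 156) (nat_lit 76) (nat_lit 0) (XT.nd (nat_lit 78) (nat_lit 76) (nat_lit 0) (XT.lf (nat_lit 0) (nat_lit 102679173138) (nat_lit 228) (nat_lit 10318807591) (nat_lit 76) (nat_lit 133092606240) (nat_lit 6) (nat_lit 5) (nat_lit 9) (nat_lit 5) (nat_lit 7) (nat_lit 4) (nat_lit 235) (nat_lit 217) (nat_lit 148)) (XT.lf (nat_lit 0) (nat_lit 101227815277) (nat_lit 76) (nat_lit 55080452358) (nat_lit 152) (nat_lit 120785766444) (nat_lit 5) (nat_lit 5) (nat_lit 6) (nat_lit 5) (nat_lit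 7) (nat_lit 4) (nat_lit 236) (nat_lit 217) (nat_lit 147))) (XT.nd (nat_lit 78) (nat_lit 76) (nat_lit 0) (XT.lf (nat_lit 0) (nat_lit 218565990502) (nat_lit 152) (nat_lit 82879493069) (nat_lit 0) (nat_lit 11255779307) (nat_lit 5) (nat_lit 5) (nat_lit 7) (nat_lit 4) (nat_lit 5) (nat_lit 4) (nat_lit 237) (nat_lit 217) (nat_lit 146)) (XT.lf (nat_lit 0) (nat_lit 23716634385) (nat_lit 76) (nat_lit 268538530115) (nat_lit 76) (nat_lit 61226993087) (nat_lit 4) (nat_lit 4) (nat_lit 5) (nat_lit 5) (nat_lit 5) (nat_lit 4) (nat_lit 238) (nat_lit 217) (nat_lit 145)))) (XT.nd (nat_lit 156) (nat_lit 76) (nat_lit 0) (XT.nd (nat_lit 78) (nat_lit 76) (nat_lit 0) (XT.lf (nat_lit 0) (nat_lit 151319628298) (nat_lit 76) (nat_lit 228090143936) (nat_lit 76) (nat_lit 20777454010) (nat_lit 4) (nat_lit 4) (nat_lit 5) (nat_lit 5) (nat_lit 5) (nat_lit 4) (nat_lit 239) (nat_lit 217) (nat_lit 144)) (XT.lf (nat_lit 0)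 (nat_lit 24451123814) (nat_lit 152) (nat_lit 156455354911) (nat_lit 76) (nat_lit 272942120884) (nat_lit 3) (nat_lit 5) (nat_lit 5) (nat_lit 5) (nat_lit 4) (nat_lit 4) (nat_lit 240) (nat_lit 217) (nat_lit 143))) (XT.nd (nat_lit 78) (nat_lit 76) (nat_lit 0) (XT.lf (nat_lit 0) (nat_lit 75268016767) (nat_lit 152) (nat_lit 50757089325) (nat_lit 76) (nat_lit 389488159156) (nat_lit 3) (nat_lit 5) (nat_lit 5) (nat_lit 5) (nat_lit 4) (nat_lit 4) (nat_lit 241) (nat_lit 217) (nat_lit 142)) (XT.nd (nat_lit 78) (nat_lit 0) (nat_lit 0) (XT.lf (nat_lit 0) (nat_lit 74522840945) (nat_lit 76) (nat_lit 60976275975) (nat_lit 152) (nat_lit 450785182601) (nat_lit 2) (nat_lit 5) (nat_lit 3) (nat_lit 5) (nat_lit 4) (nat_lit 4) (nat_lit 242) (nat_lit 217) (nat_lit 141)) (XT.lf (nat_lit 0) (nat_lit 206613056334) (nat_lit 152) (nat_lit 446256266695) (nat_lit 0) (nat_lit 14653814274) (nat_lit 2) (nat_lit 5) (nat_lit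 4) (nat_lit 4) (nat_lit 2) (nat_lit 4) (nat_lit 243) (nat_lit 217) (nat_lit 140))))))))
noncomputable def xc49 : XT := (XT.nd (nat_lit 29796) (nat_lit 0) (nat_lit 152) (XT.nd (nat_lit 624) (nat_lit 0) (nat_lit 0) (XT.nd (nat_lit 312) (nat_lit 76) (nat_lit 0) (XT.nd (nat_lit 156) (nat_lit 0) (nat_lit 0) (XT.nd (nat_lit 78) (nat_lit 0) (nat_lit 0) (XT.lf (nat_lit 0) (nat_lit 290080056629) (nat_lit 152) (nat_lit 372612584694) (nat_lit 0) (nat_lit 98120283834) (nat_lit 2) (nat_lit 5) (nat_lit 4) (nat_lit 4) (nat_lit 2) (nat_lit 4) (nat_lit 244) (nat_lit 217) (nat_lit 139)) (XT.lf (nat_lit 0) (nat_lit 386066686909) (nat_lit 152) (nat_lit 287923077022) (nat_lit 0) (nat_lit 194106452605) (nat_lit 2) (nat_lit 5) (nat_lit 4) (nat_lit 4) (nat_lit 2) (nat_lit 4) (nat_lit 245) (nat_lit 217) (nat_lit 138))) (XT.nd (nat_lit 78) (nat_lit 0) (nat_lit 0) (XT.lf (nat_lit 0) (nat_lit 496450946462) (nat_lit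 152) (nat_lit 190530775052) (nat_lit 0) (nat_lit 304490310846) (nat_lit 2) (nat_lit 5) (nat_lit 4) (nat_lit 4) (nat_lit 2) (nat_lit 4) (nat_lit 246) (nat_lit 217) (nat_lit 137)) (XT.lf (nat_lit 0) (nat_lit 623392527323) (nat_lit 152) (nat_lit 78530177223) (nat_lit 0) (nat_lit 431431542739) (nat_lit 2) (nat_lit 5) (nat_lit 4) (nat_lit 4) (nat_lit 2) (nat_lit 4) (nat_lit 247) (nat_lit 217) (nat_lit 136)))) (XT.nd (nat_lit 156) (nat_lit 0) (nat_lit 0) (XT.nd (nat_lit 78) (nat_lit 0) (nat_lit 0) (XT.lf (nat_lit 0) (nat_lit 52917163334) (nat_lit 76) (nat_lit 717730564833) (nat_lit 76) (nat_lit 525769276800) (nat_lit 1) (nat_lit 4) (nat_lit 2) (nat_lit 5) (nat_lit 2) (nat_lit 4) (nat_lit 248) (nat_lit 217) (nat_lit 135)) (XT.lf (nat_lit 0) (nat_lit 208836716606) (nat_lit 76) (nat_lit 733440563459) (nat_lit 76) (nat_lit 541479011557) (nat_lit 1) (nat_lit 4) (nat_lit 2) (nat_lit 5) (nat_lit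 2) (nat_lit 4) (nat_lit 249) (nat_lit 217) (nat_lit 134))) (XT.nd (nat_lit 78) (nat_lit 0) (nat_lit 0) (XT.lf (nat_lit 0) (nat_lit 388143822582) (nat_lit 76) (nat_lit 751507224176) (nat_lit 76) (nat_lit 559545442822) (nat_lit 1) (nat_lit 4) (nat_lit 2) (nat_lit 5) (nat_lit 2) (nat_lit 4) (nat_lit 250) (nat_lit 217) (nat_lit 133)) (XT.lf (nat_lit 0) (nat_lit 594346663769) (nat_lit 76) (nat_lit 772284025128) (nat_lit 76) (nat_lit 580322044252) (nat_lit 1) (nat_lit 4) (nat_lit 2) (nat_lit 5) (nat_lit 2) (nat_lit 4) (nat_lit 251) (nat_lit 217) (nat_lit 132))))) (XT.nd (nat_lit 28782) (nat_lit 0) (nat_lit 1596) (XT.nd (nat_lit 28626) (nat_lit 0) (nat_lit 2280) (XT.nd (nat_lit 78) (nat_lit 0) (nat_lit 0) (XT.lf (nat_lit 0) (nat_lit 831479643584) (nat_lit 76) (nat_lit 796177468944) (nat_lit 76) (nat_lit 604215314569) (nat_lit 1) (nat_lit 4) (nat_lit 2) (nat_lit 5) (nat_lit 2) (nat_lit 4) (nat_lit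 252) (nat_lit 217) (nat_lit 131)) (XT.lf (nat_lit 0) (nat_lit 1104182320326) (nat_lit 76) (nat_lit 823655036045) (nat_lit 76) (nat_lit 631692730802) (nat_lit 1) (nat_lit 4) (nat_lit 2) (nat_lit 5) (nat_lit 2) (nat_lit 4) (nat_lit 253) (nat_lit 217) (nat_lit 130))) (XT.nd (nat_lit 78) (nat_lit 0) (nat_lit 0) (XT.lf (nat_lit 0) (nat_lit 12342062042) (nat_lit 0) (nat_lit 12342062042) (nat_lit 380) (nat_lit 885317145) (nat_lit 31) (nat_lit 5) (nat_lit 31) (nat_lit 3) (nat_lit 36) (nat_lit 3) (nat_lit 218) (nat_lit 218) (nat_lit 164)) (XT.lf (nat_lit 76) (nat_lit 10419056337) (nat_lit 0) (nat_lit 43229426431) (nat_lit 456) (nat_lit 1279225478) (nat_lit 32) (nat_lit 5) (nat_lit 31) (nat_lit 5) (nat_lit 37) (nat_lit 5) (nat_lit 219) (nat_lit 218) (nat_lit 163)))) (XT.nd (nat_lit 156) (nat_lit 228) (nat_lit 0) (XT.nd (nat_lit 78) (nat_lit 0) (nat_lit 76) (XT.lf (nat_lit 0) (nat_lit 787639943)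 (nat_lit 456) (nat_lit 5487438699) (nat_lit 532) (nat_lit 52893934205) (nat_lit 25) (nat_lit 5) (nat_lit 31) (nat_lit 5) (nat_lit 32) (nat_lit 5) (nat_lit 220) (nat_lit 218) (nat_lit 162)) (XT.lf (nat_lit 0) (nat_lit 4979087115) (nat_lit 456) (nat_lit 23442990183) (nat_lit 532) (nat_lit 35470608638) (nat_lit 26) (nat_lit 5) (nat_lit 32) (nat_lit 5) (nat_lit 33) (nat_lit 5) (nat_lit 221) (nat_lit 218) (nat_lit 161))) (XT.nd (nat_lit 78) (nat_lit 380) (nat_lit 0) (XT.lf (nat_lit 0) (nat_lit 11094160446) (nat_lit 456) (nat_lit 44216150646) (nat_lit 76) (nat_lit 13911053681) (nat_lit 27) (nat_lit 5) (nat_lit 33) (nat_lit 5) (nat_lit 28) (nat_lit 5) (nat_lit 222) (nat_lit 218) (nat_lit 160)) (XT.nd (nat_lit 78) (nat_lit 0) (nat_lit 0) (XT.lf (nat_lit 0) (nat_lit 6355378703) (nat_lit 380) (nat_lit 13405649172) (nat_lit 456) (nat_lit 55457596224) (nat_lit 22) (nat_lit 5) (nat_lit 27) (nat_lit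 5) (nat_lit 28) (nat_lit 5) (nat_lit 223) (nat_lit 218) (nat_lit 159)) (XT.lf (nat_lit 0) (nat_lit 31881114218) (nat_lit 456) (nat_lit 15696546777) (nat_lit 76) (nat_lit 34365592152) (nat_lit 22) (nat_lit 5) (nat_lit 28) (nat_lit 5) (nat_lit 23) (nat_lit 5) (nat_lit 224) (nat_lit 218) (nat_lit 158))))))) (XT.nd (nat_lit 624) (nat_lit 456) (nat_lit 0) (XT.nd (nat_lit 312) (nat_lit 380) (nat_lit 0) (XT.nd (nat_lit 156) (nat_lit 228) (nat_lit 0) (XT.nd (nat_lit 78) (nat_lit 152) (nat_lit 0) (XT.lf (nat_lit 0) (nat_lit 47330225730) (nat_lit 304) (nat_lit 42114747957) (nat_lit 76) (nat_lit 110753126) (nat_lit 19) (nat_lit 5) (nat_lit 23) (nat_lit 5) (nat_lit 20) (nat_lit 5) (nat_lit 225) (nat_lit 218) (nat_lit 157)) (XT.lf (nat_lit 0) (nat_lit 22521326683) (nat_lit 152) (nat_lit 44898546910) (nat_lit 228) (nat_lit 30704371530) (nat_lit 17) (nat_lit 5) (nat_lit 19) (nat_lit 5) (nat_lit 20)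 (nat_lit 5) (nat_lit 226) (nat_lit 218) (nat_lit 156))) (XT.nd (nat_lit 78) (nat_lit 228) (nat_lit 0) (XT.lf (nat_lit 0) (nat_lit 91930292356) (nat_lit 228) (nat_lit 8664493760) (nat_lit 76) (nat_lit 7270692787) (nat_lit 17) (nat_lit 5) (nat_lit 20) (nat_lit 5) (nat_lit 18) (nat_lit 5) (nat_lit 227) (nat_lit 218) (nat_lit 155)) (XT.lf (nat_lit 0) (nat_lit 4010400072) (nat_lit 228) (nat_lit 48332925234) (nat_lit 76) (nat_lit 66481491027) (nat_lit 14) (nat_lit 5) (nat_lit 17) (nat_lit 5) (nat_lit 15) (nat_lit 5) (nat_lit 228) (nat_lit 218) (nat_lit 154)))) (XT.nd (nat_lit 156) (nat_lit 228) (nat_lit 0) (XT.nd (nat_lit 78) (nat_lit 0) (nat_lit 0) (XT.lf (nat_lit 0) (nat_lit 27165517972) (nat_lit 228) (nat_lit 99646896599) (nat_lit 76) (nat_lit 4489645536) (nat_lit 12) (nat_lit 5) (nat_lit 15) (nat_lit 5) (nat_lit 13) (nat_lit 5) (nat_lit 229) (nat_lit 218) (nat_lit 153)) (XT.lf (nat_lit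 0) (nat_lit 56683197830) (nat_lit 228) (nat_lit 20457120360) (nat_lit 76) (nat_lit 68279443095) (nat_lit 12) (nat_lit 5) (nat_lit 15) (nat_lit 5) (nat_lit 13) (nat_lit 5) (nat_lit 230) (nat_lit 218) (nat_lit 152))) (XT.nd (nat_lit 78) (nat_lit 76) (nat_lit 0) (XT.lf (nat_lit 0) (nat_lit 74326699748) (nat_lit 152) (nat_lit 18087559749) (nat_lit 228) (nat_lit 69098012263) (nat_lit 10) (nat_lit 5) (nat_lit 12) (nat_lit 5) (nat_lit 13) (nat_lit 5) (nat_lit 231) (nat_lit 218) (nat_lit 151)) (XT.lf (nat_lit 0) (nat_lit 3557699959) (nat_lit 76) (nat_lit 131840484152) (nat_lit 152) (nat_lit 44469029272) (nat_lit 9) (nat_lit 5) (nat_lit 10) (nat_lit 5) (nat_lit 11) (nat_lit 4) (nat_lit 232) (nat_lit 218) (nat_lit 150))))) (XT.nd (nat_lit 312) (nat_lit 228) (nat_lit 0) (XT.nd (nat_lit 156) (nat_lit 0) (nat_lit 0) (XT.nd (nat_lit 78) (nat_lit 228) (nat_lit 0) (XT.lf (nat_lit 0) (nat_lit 112663308288)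 (nat_lit 76) (nat_lit 75190795574) (nat_lit 152) (nat_lit 12879349329) (nat_lit 9) (nat_lit 5) (nat_lit 10) (nat_lit 5) (nat_lit 11) (nat_lit 4) (nat_lit 233) (nat_lit 218) (nat_lit 149)) (XT.lf (nat_lit 0) (nat_lit 13515238836) (nat_lit 152) (nat_lit 9084236367) (nat_lit 228) (nat_lit 202059150223) (nat_lit 6) (nat_lit 5) (nat_lit 8) (nat_lit 5) (nat_lit 9) (nat_lit 5) (nat_lit 234) (nat_lit 218) (nat_lit 148))) (XT.nd (nat_lit 78) (nat_lit 0) (nat_lit 0) (XT.lf (nat_lit 0) (nat_lit 66898508315) (nat_lit 228) (nat_lit 118330385007) (nat_lit 76) (nat_lit 66576045622) (nat_lit 6) (nat_lit 5) (nat_lit 9) (nat_lit 5) (nat_lit 7) (nat_lit 4) (nat_lit 235) (nat_lit 218) (nat_lit 147)) (XT.lf (nat_lit 0) (nat_lit 118092573603) (nat_lit 228) (nat_lit 11848375892) (nat_lit 76) (nat_lit 153062241574) (nat_lit 6) (nat_lit 5) (nat_lit 9) (nat_lit 5) (nat_lit 7) (nat_lit 4) (nat_lit 236) (nat_lit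 218) (nat_lit 146)))) (XT.nd (nat_lit 156) (nat_lit 152) (nat_lit 0) (XT.nd (nat_lit 78) (nat_lit 0) (nat_lit 0) (XT.lf (nat_lit 0) (nat_lit 116428695395) (nat_lit 76) (nat_lit 63336235509) (nat_lit 152) (nat_lit 138892320537) (nat_lit 5) (nat_lit 5) (nat_lit 6) (nat_lit 5) (nat_lit 7) (nat_lit 4) (nat_lit 237) (nat_lit 218) (nat_lit 145)) (XT.lf (nat_lit 0) (nat_lit 251360084096) (nat_lit 152) (nat_lit 95296247961) (nat_lit 0) (nat_lit 12949337783) (nat_lit 5) (nat_lit 5) (nat_lit 7) (nat_lit 4) (nat_lit 5) (nat_lit 4) (nat_lit 238) (nat_lit 218) (nat_lit 144))) (XT.nd (nat_lit 78) (nat_lit 76) (nat_lit 0) (XT.lf (nat_lit 0) (nat_lit 27288014625) (nat_lit 76) (nat_lit 308813754154) (nat_lit 76) (nat_lit 70402005322) (nat_lit 4) (nat_lit 4) (nat_lit 5) (nat_lit 5) (nat_lit 5) (nat_lit 4) (nat_lit 239) (nat_lit 218) (nat_lit 143)) (XT.nd (nat_lit 78) (nat_lit 76) (nat_lit 0) (XT.lf (nat_lit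 0) (nat_lit 174029646528) (nat_lit 76) (nat_lit 262298834676) (nat_lit 76) (nat_lit 23886214087) (nat_lit 4) (nat_lit 4) (nat_lit 5) (nat_lit 5) (nat_lit 5) (nat_lit 4) (nat_lit 240) (nat_lit 218) (nat_lit 142)) (XT.lf (nat_lit 0) (nat_lit 28125283634) (nat_lit 152) (nat_lit 179912788678) (nat_lit 76) (nat_lit 313887269404) (nat_lit 3) (nat_lit 5) (nat_lit 5) (nat_lit 5) (nat_lit 4) (nat_lit 4) (nat_lit 241) (nat_lit 218) (nat_lit 141))))))))
noncomputable def xc50 : XT := (XT.nd (nat_lit 29796) (nat_lit 0) (nat_lit 304) (XT.nd (nat_lit 624) (nat_lit 0) (nat_lit 0) (XT.nd (nat_lit 312) (nat_lit 76) (nat_lit 0) (XT.nd (nat_lit 156) (nat_lit 0) (nat_lit 0) (XT.nd (nat_lit 78) (nat_lit 76) (nat_lit 0) (XT.lf (nat_lit 0) (nat_lit 86563863846) (nat_lit 152) (nat_lit 58361201011) (nat_lit 76) (nat_lit 447914713801) (nat_lit 3) (nat_lit 5) (nat_lit 5) (nat_lit 5) (nat_lit 4) (nat_lit 4) (nat_lit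 242) (nat_lit 218) (nat_lit 140)) (XT.lf (nat_lit 0) (nat_lit 85709918760) (nat_lit 76) (nat_lit 70119182088) (nat_lit 152) (nat_lit 518397412715) (nat_lit 2) (nat_lit 5) (nat_lit 3) (nat_lit 5) (nat_lit 4) (nat_lit 4) (nat_lit 243) (nat_lit 218) (nat_lit 139))) (XT.nd (nat_lit 78) (nat_lit 0) (nat_lit 0) (XT.lf (nat_lit 0) (nat_lit 237609537751) (nat_lit 152) (nat_lit 513186882755) (nat_lit 0) (nat_lit 16854806793) (nat_lit 2) (nat_lit 5) (nat_lit 4) (nat_lit 4) (nat_lit 2) (nat_lit 4) (nat_lit 244) (nat_lit 218) (nat_lit 138)) (XT.lf (nat_lit 0) (nat_lit 333595998139) (nat_lit 152) (nat_lit 428497668968) (nat_lit 0) (nat_lit 112840865868) (nat_lit 2) (nat_lit 5) (nat_lit 4) (nat_lit 4) (nat_lit 2) (nat_lit 4) (nat_lit 245) (nat_lit 218) (nat_lit 137)))) (XT.nd (nat_lit 156) (nat_lit 76) (nat_lit 0) (XT.nd (nat_lit 78) (nat_lit 0) (nat_lit 0) (XT.lf (nat_lit 0) (nat_lit 443980109959)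 (nat_lit 152) (nat_lit 331105622550) (nat_lit 0) (nat_lit 223224628721) (nat_lit 2) (nat_lit 5) (nat_lit 4) (nat_lit 4) (nat_lit 2) (nat_lit 4) (nat_lit 246) (nat_lit 218) (nat_lit 136)) (XT.lf (nat_lit 0) (nat_lit 570921562356) (nat_lit 152) (nat_lit 219105246940) (nat_lit 0) (nat_lit 350165777669) (nat_lit 2) (nat_lit 5) (nat_lit 4) (nat_lit 4) (nat_lit 2) (nat_lit 4) (nat_lit 247) (nat_lit 218) (nat_lit 135))) (XT.nd (nat_lit 78) (nat_lit 76) (nat_lit 0) (XT.lf (nat_lit 0) (nat_lit 716903992442) (nat_lit 152) (nat_lit 90305230441) (nat_lit 0) (nat_lit 496147943886) (nat_lit 2) (nat_lit 5) (nat_lit 4) (nat_lit 4) (nat_lit 2) (nat_lit 4) (nat_lit 248) (nat_lit 218) (nat_lit 134)) (XT.lf (nat_lit 0) (nat_lit 60858832551) (nat_lit 76) (nat_lit 825388402032) (nat_lit 76) (nat_lit 604632124024) (nat_lit 1) (nat_lit 4) (nat_lit 2) (nat_lit 5) (nat_lit 2) (nat_lit 4) (nat_lit 249) (nat_lit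 218) (nat_lit 133))))) (XT.nd (nat_lit 28860) (nat_lit 0) (nat_lit 1824) (XT.nd (nat_lit 156) (nat_lit 0) (nat_lit 0) (XT.nd (nat_lit 78) (nat_lit 0) (nat_lit 0) (XT.lf (nat_lit 0) (nat_lit 240165784721) (nat_lit 76) (nat_lit 843455128390) (nat_lit 76) (nat_lit 622698650859) (nat_lit 1) (nat_lit 4) (nat_lit 2) (nat_lit 5) (nat_lit 2) (nat_lit 4) (nat_lit 250) (nat_lit 218) (nat_lit 132)) (XT.lf (nat_lit 0) (nat_lit 446368492164) (nat_lit 76) (nat_lit 864231986422) (nat_lit 76) (nat_lit 643475335393) (nat_lit 1) (nat_lit 4) (nat_lit 2) (nat_lit 5) (nat_lit 2) (nat_lit 4) (nat_lit 251) (nat_lit 218) (nat_lit 131))) (XT.nd (nat_lit 78) (nat_lit 0) (nat_lit 0) (XT.lf (nat_lit 0) (nat_lit 683501355678) (nat_lit 76) (nat_lit 888125479872) (nat_lit 76) (nat_lit 667368677974) (nat_lit 1) (nat_lit 4) (nat_lit 2) (nat_lit 5) (nat_lit 2) (nat_lit 4) (nat_lit 252) (nat_lit 218) (nat_lit 130)) (XT.lf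 (nat_lit 0) (nat_lit 956203931290) (nat_lit 76) (nat_lit 915603090132) (nat_lit 76) (nat_lit 694846157045) (nat_lit 1) (nat_lit 4) (nat_lit 2) (nat_lit 5) (nat_lit 2) (nat_lit 4) (nat_lit 253) (nat_lit 218) (nat_lit 129)))) (XT.nd (nat_lit 156) (nat_lit 456) (nat_lit 0) (XT.nd (nat_lit 78) (nat_lit 0) (nat_lit 0) (XT.lf (nat_lit 0) (nat_lit 14211211783) (nat_lit 0) (nat_lit 14211211783) (nat_lit 380) (nat_lit 979214041) (nat_lit 31) (nat_lit 5) (nat_lit 31) (nat_lit 3) (nat_lit 36) (nat_lit 3) (nat_lit 219) (nat_lit 219) (nat_lit 162)) (XT.lf (nat_lit 76) (nat_lit 12021255470) (nat_lit 0) (nat_lit 49736753348) (nat_lit 456) (nat_lit 1403240007) (nat_lit 32) (nat_lit 5) (nat_lit 31) (nat_lit 5) (nat_lit 37) (nat_lit 5) (nat_lit 220) (nat_lit 219) (nat_lit 161))) (XT.nd (nat_lit 78) (nat_lit 0) (nat_lit 76) (XT.lf (nat_lit 0) (nat_lit 961850453) (nat_lit 456) (nat_lit 6272881388) (nat_lit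 532) (nat_lit 60804636203) (nat_lit 25) (nat_lit 5) (nat_lit 31) (nat_lit 5) (nat_lit 32) (nat_lit 5) (nat_lit 221) (nat_lit 219) (nat_lit 160)) (XT.lf (nat_lit 0) (nat_lit 5775168206) (nat_lit 456) (nat_lit 26920180027) (nat_lit 532) (nat_lit 40776858309) (nat_lit 26) (nat_lit 5) (nat_lit 32) (nat_lit 5) (nat_lit 33) (nat_lit 5) (nat_lit 222) (nat_lit 219) (nat_lit 159)))))) (XT.nd (nat_lit 624) (nat_lit 532) (nat_lit 0) (XT.nd (nat_lit 312) (nat_lit 532) (nat_lit 0) (XT.nd (nat_lit 156) (nat_lit 228) (nat_lit 0) (XT.nd (nat_lit 78) (nat_lit 380) (nat_lit 0) (XT.lf (nat_lit 0) (nat_lit 12801761215) (nat_lit 456) (nat_lit 50808571957) (nat_lit 76) (nat_lit 15990371361) (nat_lit 27) (nat_lit 5) (nat_lit 33) (nat_lit 5) (nat_lit 28) (nat_lit 5) (nat_lit 223) (nat_lit 219) (nat_lit 158)) (XT.lf (nat_lit 0) (nat_lit 7345300884) (nat_lit 380) (nat_lit 15418567601) (nat_lit 456) (nat_lit 63734117951)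 (nat_lit 22) (nat_lit 5) (nat_lit 27) (nat_lit 5) (nat_lit 28) (nat_lit 5) (nat_lit 224) (nat_lit 219) (nat_lit 157))) (XT.nd (nat_lit 78) (nat_lit 228) (nat_lit 0) (XT.lf (nat_lit 0) (nat_lit 36696878412) (nat_lit 456) (nat_lit 18016162304) (nat_lit 76) (nat_lit 39518720148) (nat_lit 22) (nat_lit 5) (nat_lit 28) (nat_lit 5) (nat_lit 23) (nat_lit 5) (nat_lit 225) (nat_lit 219) (nat_lit 156)) (XT.lf (nat_lit 0) (nat_lit 54459788471) (nat_lit 304) (nat_lit 48397438488) (nat_lit 76) (nat_lit 129202226) (nat_lit 19) (nat_lit 5) (nat_lit 23) (nat_lit 5) (nat_lit 20) (nat_lit 5) (nat_lit 226) (nat_lit 219) (nat_lit 155)))) (XT.nd (nat_lit 156) (nat_lit 380) (nat_lit 0) (XT.nd (nat_lit 78) (nat_lit 0) (nat_lit 0) (XT.lf (nat_lit 0) (nat_lit 25931125261) (nat_lit 152) (nat_lit 51628601413) (nat_lit 228) (nat_lit 35280784290) (nat_lit 17) (nat_lit 5) (nat_lit 19) (nat_lit 5) (nat_lit 20) (nat_lit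 5) (nat_lit 227) (nat_lit 219) (nat_lit 154)) (XT.lf (nat_lit 0) (nat_lit 105743302070) (nat_lit 228) (nat_lit 9934727123) (nat_lit 76) (nat_lit 8365201961) (nat_lit 17) (nat_lit 5) (nat_lit 20) (nat_lit 5) (nat_lit 18) (nat_lit 5) (nat_lit 228) (nat_lit 219) (nat_lit 153))) (XT.nd (nat_lit 78) (nat_lit 152) (nat_lit 0) (XT.lf (nat_lit 0) (nat_lit 4633718999) (nat_lit 228) (nat_lit 55554614696) (nat_lit 76) (nat_lit 76458309531) (nat_lit 14) (nat_lit 5) (nat_lit 17) (nat_lit 5) (nat_lit 15) (nat_lit 5) (nat_lit 229) (nat_lit 219) (nat_lit 152)) (XT.lf (nat_lit 0) (nat_lit 31260040241) (nat_lit 228) (nat_lit 114566526755) (nat_lit 76) (nat_lit 5169091914) (nat_lit 12) (nat_lit 5) (nat_lit 15) (nat_lit 5) (nat_lit 13) (nat_lit 5) (nat_lit 230) (nat_lit 219) (nat_lit 151))))) (XT.nd (nat_lit 312) (nat_lit 304) (nat_lit 0) (XT.nd (nat_lit 156) (nat_lit 76) (nat_lit 0) (XT.nd (nat_lit 78)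 (nat_lit 152) (nat_lit 0) (XT.lf (nat_lit 0) (nat_lit 65202803220) (nat_lit 228) (nat_lit 23501858559) (nat_lit 76) (nat_lit 78526576558) (nat_lit 12) (nat_lit 5) (nat_lit 15) (nat_lit 5) (nat_lit 13) (nat_lit 5) (nat_lit 231) (nat_lit 219) (nat_lit 150)) (XT.lf (nat_lit 0) (nat_lit 85497517488) (nat_lit 152) (nat_lit 20794297458) (nat_lit 228) (nat_lit 79445962443) (nat_lit 10) (nat_lit 5) (nat_lit 12) (nat_lit 5) (nat_lit 13) (nat_lit 5) (nat_lit 232) (nat_lit 219) (nat_lit 149))) (XT.nd (nat_lit 78) (nat_lit 0) (nat_lit 0) (XT.lf (nat_lit 0) (nat_lit 4112402701) (nat_lit 76) (nat_lit 151609554665) (nat_lit 152) (nat_lit 51124125842) (nat_lit 9) (nat_lit 5) (nat_lit 10) (nat_lit 5) (nat_lit 11) (nat_lit 4) (nat_lit 233) (nat_lit 219) (nat_lit 148)) (XT.lf (nat_lit 0) (nat_lit 129581106921) (nat_lit 76) (nat_lit 86463326119) (nat_lit 152) (nat_lit 14797984057) (nat_lit 9) (nat_lit 5)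 (nat_lit 10) (nat_lit 5) (nat_lit 11) (nat_lit 4) (nat_lit 234) (nat_lit 219) (nat_lit 147)))) (XT.nd (nat_lit 156) (nat_lit 76) (nat_lit 0) (XT.nd (nat_lit 78) (nat_lit 0) (nat_lit 0) (XT.lf (nat_lit 0) (nat_lit 15559950617) (nat_lit 152) (nat_lit 10440824933) (nat_lit 228) (nat_lit 232355671380) (nat_lit 6) (nat_lit 5) (nat_lit 8) (nat_lit 5) (nat_lit 9) (nat_lit 5) (nat_lit 235) (nat_lit 219) (nat_lit 146)) (XT.lf (nat_lit 0) (nat_lit 76943305862) (nat_lit 228) (nat_lit 136064070725) (nat_lit 76) (nat_lit 76567447595) (nat_lit 6) (nat_lit 5) (nat_lit 9) (nat_lit 5) (nat_lit 7) (nat_lit 4) (nat_lit 236) (nat_lit 219) (nat_lit 145))) (XT.nd (nat_lit 78) (nat_lit 76) (nat_lit 0) (XT.lf (nat_lit 0) (nat_lit 135815173818) (nat_lit 228) (nat_lit 13611830508) (nat_lit 76) (nat_lit 176025921401) (nat_lit 6) (nat_lit 5) (nat_lit 9) (nat_lit 5) (nat_lit 7) (nat_lit 4) (nat_lit 237) (nat_lit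 219) (nat_lit 144)) (XT.nd (nat_lit 78) (nat_lit 0) (nat_lit 0) (XT.lf (nat_lit 0) (nat_lit 133905633222) (nat_lit 76) (nat_lit 72831918697) (nat_lit 152) (nat_lit 159717615973) (nat_lit 5) (nat_lit 5) (nat_lit 6) (nat_lit 5) (nat_lit 7) (nat_lit 4) (nat_lit 238) (nat_lit 219) (nat_lit 143)) (XT.lf (nat_lit 0) (nat_lit 289071049465) (nat_lit 152) (nat_lit 109579215160) (nat_lit 0) (nat_lit 14895664031) (nat_lit 5) (nat_lit 5) (nat_lit 7) (nat_lit 4) (nat_lit 5) (nat_lit 4) (nat_lit 239) (nat_lit 219) (nat_lit 142))))))))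
noncomputable def xc51 : XT := (XT.nd (nat_lit 29952) (nat_lit 0) (nat_lit 304) (XT.nd (nat_lit 624) (nat_lit 76) (nat_lit 0) (XT.nd (nat_lit 312) (nat_lit 76) (nat_lit 0) (XT.nd (nat_lit 156) (nat_lit 76) (nat_lit 0) (XT.nd (nat_lit 78) (nat_lit 0) (nat_lit 0) (XT.lf (nat_lit 0) (nat_lit 31391715936) (nat_lit 76) (nat_lit 355131616538) (nat_lit 76) (nat_lit 80955473055) (nat_lit 4) (nat_lit 4) (nat_lit 5) (nat_lit 5) (nat_lit 5) (nat_lit 4) (nat_lit 240) (nat_lit 219) (nat_lit 141)) (XT.lf (nat_lit 0) (nat_lit 200143223174) (nat_lit 76) (nat_lit 301640007060) (nat_lit 76) (nat_lit 27463204404) (nat_lit 4) (nat_lit 4) (nat_lit 5) (nat_lit 5) (nat_lit 5) (nat_lit 4) (nat_lit 241) (nat_lit 219) (nat_lit 140))) (XT.nd (nat_lit 78) (nat_lit 0) (nat_lit 0) (XT.lf (nat_lit 0) (nat_lit 32348984495) (nat_lit 152) (nat_lit 206891488099) (nat_lit 76) (nat_lit 360973256137) (nat_lit 3) (nat_lit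 5) (nat_lit 5) (nat_lit 5) (nat_lit 4) (nat_lit 4) (nat_lit 242) (nat_lit 219) (nat_lit 139)) (XT.lf (nat_lit 0) (nat_lit 99552711523) (nat_lit 152) (nat_lit 67108234310) (nat_lit 76) (nat_lit 515104439412) (nat_lit 3) (nat_lit 5) (nat_lit 5) (nat_lit 5) (nat_lit 4) (nat_lit 4) (nat_lit 243) (nat_lit 219) (nat_lit 138)))) (XT.nd (nat_lit 156) (nat_lit 0) (nat_lit 0) (XT.nd (nat_lit 78) (nat_lit 0) (nat_lit 0) (XT.lf (nat_lit 0) (nat_lit 98572948481) (nat_lit 76) (nat_lit 80634386219) (nat_lit 152) (nat_lit 596152830085) (nat_lit 2) (nat_lit 5) (nat_lit 3) (nat_lit 5) (nat_lit 4) (nat_lit 4) (nat_lit 244) (nat_lit 219) (nat_lit 137)) (XT.lf (nat_lit 0) (nat_lit 273254388427) (nat_lit 152) (nat_lit 590158999142) (nat_lit 0) (nat_lit 19385236037) (nat_lit 2) (nat_lit 5) (nat_lit 4) (nat_lit 4) (nat_lit 2) (nat_lit 4) (nat_lit 245) (nat_lit 219) (nat_lit 136))) (XT.nd (nat_lit 78) (nat_lit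 0) (nat_lit 0) (XT.lf (nat_lit 0) (nat_lit 383638371784) (nat_lit 152) (nat_lit 492767174943) (nat_lit 0) (nat_lit 129768915944) (nat_lit 2) (nat_lit 5) (nat_lit 4) (nat_lit 4) (nat_lit 2) (nat_lit 4) (nat_lit 246) (nat_lit 219) (nat_lit 135)) (XT.lf (nat_lit 0) (nat_lit 510579712474) (nat_lit 152) (nat_lit 380766992567) (nat_lit 0) (nat_lit 256709992765) (nat_lit 2) (nat_lit 5) (nat_lit 4) (nat_lit 4) (nat_lit 2) (nat_lit 4) (nat_lit 247) (nat_lit 219) (nat_lit 134))))) (XT.nd (nat_lit 312) (nat_lit 0) (nat_lit 0) (XT.nd (nat_lit 156) (nat_lit 76) (nat_lit 0) (XT.nd (nat_lit 78) (nat_lit 0) (nat_lit 0) (XT.lf (nat_lit 0) (nat_lit 656562045424) (nat_lit 152) (nat_lit 251967144098) (nat_lit 0) (nat_lit 402692096263) (nat_lit 2) (nat_lit 5) (nat_lit 4) (nat_lit 4) (nat_lit 2) (nat_lit 4) (nat_lit 248) (nat_lit 219) (nat_lit 133)) (XT.lf (nat_lit 0) (nat_lit 824441546712) (nat_lit 152)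 (nat_lit 103847632501) (nat_lit 0) (nat_lit 570571398029) (nat_lit 2) (nat_lit 5) (nat_lit 4) (nat_lit 4) (nat_lit 2) (nat_lit 4) (nat_lit 249) (nat_lit 219) (nat_lit 132))) (XT.nd (nat_lit 78) (nat_lit 0) (nat_lit 0) (XT.lf (nat_lit 0) (nat_lit 69990753629) (nat_lit 76) (nat_lit 949195340957) (nat_lit 76) (nat_lit 695325018775) (nat_lit 1) (nat_lit 4) (nat_lit 2) (nat_lit 5) (nat_lit 2) (nat_lit 4) (nat_lit 250) (nat_lit 219) (nat_lit 131)) (XT.lf (nat_lit 0) (nat_lit 276193344772) (nat_lit 76) (nat_lit 969972248623) (nat_lit 76) (nat_lit 716101775573) (nat_lit 1) (nat_lit 4) (nat_lit 2) (nat_lit 5) (nat_lit 2) (nat_lit 4) (nat_lit 251) (nat_lit 219) (nat_lit 130)))) (XT.nd (nat_lit 28782) (nat_lit 0) (nat_lit 1824) (XT.nd (nat_lit 78) (nat_lit 0) (nat_lit 0) (XT.lf (nat_lit 0) (nat_lit 513326107156) (nat_lit 76) (nat_lit 993865785232) (nat_lit 76) (nat_lit 739995180992) (nat_lit 1)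 (nat_lit 4) (nat_lit 2) (nat_lit 5) (nat_lit 2) (nat_lit 4) (nat_lit 252) (nat_lit 219) (nat_lit 129)) (XT.lf (nat_lit 0) (nat_lit 786028594828) (nat_lit 76) (nat_lit 1021343433023) (nat_lit 76) (nat_lit 767472714706) (nat_lit 1) (nat_lit 4) (nat_lit 2) (nat_lit 5) (nat_lit 2) (nat_lit 4) (nat_lit 253) (nat_lit 219) (nat_lit 128))) (XT.nd (nat_lit 78) (nat_lit 456) (nat_lit 0) (XT.lf (nat_lit 0) (nat_lit 16356383482) (nat_lit 0) (nat_lit 16356383482) (nat_lit 380) (nat_lit 1096681648) (nat_lit 31) (nat_lit 5) (nat_lit 31) (nat_lit 3) (nat_lit 36) (nat_lit 3) (nat_lit 220) (nat_lit 220) (nat_lit 160)) (XT.nd (nat_lit 78) (nat_lit 456) (nat_lit 0) (XT.lf (nat_lit 76) (nat_lit 13854190999) (nat_lit 0) (nat_lit 57214591833) (nat_lit 456) (nat_lit 1562407072) (nat_lit 32) (nat_lit 5) (nat_lit 31) (nat_lit 5) (nat_lit 37) (nat_lit 5) (nat_lit 221) (nat_lit 220) (nat_lit 159)) (XT.lf (nat_lit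 0) (nat_lit 1148520852) (nat_lit 456) (nat_lit 7185327309) (nat_lit 532) (nat_lit 69907646846) (nat_lit 25) (nat_lit 5) (nat_lit 31) (nat_lit 5) (nat_lit 32) (nat_lit 5) (nat_lit 222) (nat_lit 220) (nat_lit 158))))))) (XT.nd (nat_lit 624) (nat_lit 684) (nat_lit 0) (XT.nd (nat_lit 312) (nat_lit 608) (nat_lit 0) (XT.nd (nat_lit 156) (nat_lit 304) (nat_lit 0) (XT.nd (nat_lit 78) (nat_lit 0) (nat_lit 76) (XT.lf (nat_lit 0) (nat_lit 6678659334) (nat_lit 456) (nat_lit 30928521827) (nat_lit 532) (nat_lit 46882542727) (nat_lit 26) (nat_lit 5) (nat_lit 32) (nat_lit 5) (nat_lit 33) (nat_lit 5) (nat_lit 223) (nat_lit 220) (nat_lit 157)) (XT.lf (nat_lit 0) (nat_lit 14754900030) (nat_lit 456) (nat_lit 58399611033) (nat_lit 76) (nat_lit 18383376689) (nat_lit 27) (nat_lit 5) (nat_lit 33) (nat_lit 5) (nat_lit 28) (nat_lit 5) (nat_lit 224) (nat_lit 220) (nat_lit 156))) (XT.nd (nat_lit 78) (nat_lit 0)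 (nat_lit 0) (XT.lf (nat_lit 0) (nat_lit 8474782500) (nat_lit 380) (nat_lit 17732918755) (nat_lit 456) (nat_lit 73262388606) (nat_lit 22) (nat_lit 5) (nat_lit 27) (nat_lit 5) (nat_lit 28) (nat_lit 5) (nat_lit 225) (nat_lit 220) (nat_lit 155)) (XT.lf (nat_lit 0) (nat_lit 42226814378) (nat_lit 456) (nat_lit 20692222574) (nat_lit 76) (nat_lit 45445234540) (nat_lit 22) (nat_lit 5) (nat_lit 28) (nat_lit 5) (nat_lit 23) (nat_lit 5) (nat_lit 226) (nat_lit 220) (nat_lit 154)))) (XT.nd (nat_lit 156) (nat_lit 228) (nat_lit 0) (XT.nd (nat_lit 78) (nat_lit 152) (nat_lit 0) (XT.lf (nat_lit 0) (nat_lit 62651462890) (nat_lit 304) (nat_lit 55630950925) (nat_lit 76) (nat_lit 149970938) (nat_lit 19) (nat_lit 5) (nat_lit 23) (nat_lit 5) (nat_lit 20) (nat_lit 5) (nat_lit 227) (nat_lit 220) (nat_lit 153)) (XT.lf (nat_lit 0) (nat_lit 29844687869) (nat_lit 152) (nat_lit 59369316930) (nat_lit 228) (nat_lit 40550790047)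 (nat_lit 17) (nat_lit 5) (nat_lit 19) (nat_lit 5) (nat_lit 20) (nat_lit 5) (nat_lit 228) (nat_lit 220) (nat_lit 152))) (XT.nd (nat_lit 78) (nat_lit 228) (nat_lit 0) (XT.lf (nat_lit 0) (nat_lit 121622540941) (nat_lit 228) (nat_lit 11402674792) (nat_lit 76) (nat_lit 9622935189) (nat_lit 17) (nat_lit 5) (nat_lit 20) (nat_lit 5) (nat_lit 18) (nat_lit 5) (nat_lit 229) (nat_lit 220) (nat_lit 151)) (XT.lf (nat_lit 0) (nat_lit 5345229715) (nat_lit 228) (nat_lit 63866446354) (nat_lit 76) (nat_lit 87930530327) (nat_lit 14) (nat_lit 5) (nat_lit 17) (nat_lit 5) (nat_lit 15) (nat_lit 5) (nat_lit 230) (nat_lit 220) (nat_lit 150))))) (XT.nd (nat_lit 312) (nat_lit 304) (nat_lit 0) (XT.nd (nat_lit 156) (nat_lit 228) (nat_lit 0) (XT.nd (nat_lit 78) (nat_lit 0) (nat_lit 0) (XT.lf (nat_lit 0) (nat_lit 35963938204) (nat_lit 228) (nat_lit 131730784154) (nat_lit 76) (nat_lit 5948992221) (nat_lit 12) (nat_lit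 5) (nat_lit 15) (nat_lit 5) (nat_lit 13) (nat_lit 5) (nat_lit 231) (nat_lit 220) (nat_lit 149)) (XT.lf (nat_lit 0) (nat_lit 74996173205) (nat_lit 228) (nat_lit 27009118548) (nat_lit 76) (nat_lit 90309507842) (nat_lit 12) (nat_lit 5) (nat_lit 15) (nat_lit 5) (nat_lit 13) (nat_lit 5) (nat_lit 232) (nat_lit 220) (nat_lit 148))) (XT.nd (nat_lit 78) (nat_lit 76) (nat_lit 0) (XT.lf (nat_lit 0) (nat_lit 98338638704) (nat_lit 152) (nat_lit 23908605591) (nat_lit 228) (nat_lit 91350190149) (nat_lit 10) (nat_lit 5) (nat_lit 12) (nat_lit 5) (nat_lit 13) (nat_lit 5) (nat_lit 233) (nat_lit 220) (nat_lit 147)) (XT.lf (nat_lit 0) (nat_lit 4745178227) (nat_lit 76) (nat_lit 174345693264) (nat_lit 152) (nat_lit 58781207613) (nat_lit 9) (nat_lit 5) (nat_lit 10) (nat_lit 5) (nat_lit 11) (nat_lit 4) (nat_lit 234) (nat_lit 220) (nat_lit 146)))) (XT.nd (nat_lit 156) (nat_lit 76) (nat_lit 0) (XT.nd (nat_lit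 78) (nat_lit 228) (nat_lit 0) (XT.lf (nat_lit 0) (nat_lit 149032112194) (nat_lit 76) (nat_lit 99428221036) (nat_lit 152) (nat_lit 17007649401) (nat_lit 9) (nat_lit 5) (nat_lit 10) (nat_lit 5) (nat_lit 11) (nat_lit 4) (nat_lit 235) (nat_lit 220) (nat_lit 145)) (XT.lf (nat_lit 0) (nat_lit 17907119736) (nat_lit 152) (nat_lit 12002376356) (nat_lit 228) (nat_lit 267199682671) (nat_lit 6) (nat_lit 5) (nat_lit 8) (nat_lit 5) (nat_lit 9) (nat_lit 5) (nat_lit 236) (nat_lit 220) (nat_lit 144))) (XT.nd (nat_lit 78) (nat_lit 76) (nat_lit 0) (XT.lf (nat_lit 0) (nat_lit 88492379284) (nat_lit 228) (nat_lit 156461679796) (nat_lit 76) (nat_lit 88056341769) (nat_lit 6) (nat_lit 5) (nat_lit 9) (nat_lit 5) (nat_lit 7) (nat_lit 4) (nat_lit 237) (nat_lit 220) (nat_lit 143)) (XT.nd (nat_lit 78) (nat_lit 76) (nat_lit 0) (XT.lf (nat_lit 0) (nat_lit 156194039058) (nat_lit 228) (nat_lit 15643168965) (nat_lit 76)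 (nat_lit 202433093990) (nat_lit 6) (nat_lit 5) (nat_lit 9) (nat_lit 5) (nat_lit 7) (nat_lit 4) (nat_lit 238) (nat_lit 220) (nat_lit 142)) (XT.lf (nat_lit 0) (nat_lit 154001030959) (nat_lit 76) (nat_lit 83753113203) (nat_lit 152) (nat_lit 183668791340) (nat_lit 5) (nat_lit 5) (nat_lit 6) (nat_lit 5) (nat_lit 7) (nat_lit 4) (nat_lit 239) (nat_lit 220) (nat_lit 141))))))))
noncomputable def xc52 : XT := (XT.nd (nat_lit 30030) (nat_lit 0) (nat_lit 304) (XT.nd (nat_lit 624) (nat_lit 76) (nat_lit 0) (XT.nd (nat_lit 312) (nat_lit 76) (nat_lit 0) (XT.nd (nat_lit 156) (nat_lit 76) (nat_lit 0) (XT.nd (nat_lit 78) (nat_lit 76) (nat_lit 0) (XT.lf (nat_lit 0) (nat_lit 332436964166) (nat_lit 152) (nat_lit 126007424470) (nat_lit 0) (nat_lit 17132981938) (nat_lit 5) (nat_lit 5) (nat_lit 7) (nat_lit 4) (nat_lit 5) (nat_lit 4) (nat_lit 240) (nat_lit 220) (nat_lit 140)) (XT.lf (nat_lit 0) (nat_lit 36108412168)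 (nat_lit 76) (nat_lit 408398182656) (nat_lit 76) (nat_lit 93093627234) (nat_lit 4) (nat_lit 4) (nat_lit 5) (nat_lit 5) (nat_lit 5) (nat_lit 4) (nat_lit 241) (nat_lit 220) (nat_lit 139))) (XT.nd (nat_lit 78) (nat_lit 76) (nat_lit 0) (XT.lf (nat_lit 0) (nat_lit 230171609990) (nat_lit 76) (nat_lit 346883246065) (nat_lit 76) (nat_lit 31578192213) (nat_lit 4) (nat_lit 4) (nat_lit 5) (nat_lit 5) (nat_lit 5) (nat_lit 4) (nat_lit 242) (nat_lit 220) (nat_lit 138)) (XT.lf (nat_lit 0) (nat_lit 37205043561) (nat_lit 152) (nat_lit 237918996659) (nat_lit 76) (nat_lit 415121434595) (nat_lit 3) (nat_lit 5) (nat_lit 5) (nat_lit 5) (nat_lit 4) (nat_lit 4) (nat_lit 243) (nat_lit 220) (nat_lit 137)))) (XT.nd (nat_lit 156) (nat_lit 0) (nat_lit 0) (XT.nd (nat_lit 78) (nat_lit 76) (nat_lit 0) (XT.lf (nat_lit 0) (nat_lit 114488845549) (nat_lit 152) (nat_lit 77169065410) (nat_lit 76) (nat_lit 592372009704) (nat_lit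 3) (nat_lit 5) (nat_lit 5) (nat_lit 5) (nat_lit 4) (nat_lit 4) (nat_lit 244) (nat_lit 220) (nat_lit 136)) (XT.lf (nat_lit 0) (nat_lit 113363837374) (nat_lit 76) (nat_lit 92727522843) (nat_lit 152) (nat_lit 685572582925) (nat_lit 2) (nat_lit 5) (nat_lit 3) (nat_lit 5) (nat_lit 4) (nat_lit 4) (nat_lit 245) (nat_lit 220) (nat_lit 135))) (XT.nd (nat_lit 78) (nat_lit 0) (nat_lit 0) (XT.lf (nat_lit 0) (nat_lit 314245132713) (nat_lit 152) (nat_lit 678678375648) (nat_lit 0) (nat_lit 22294691178) (nat_lit 2) (nat_lit 5) (nat_lit 4) (nat_lit 4) (nat_lit 2) (nat_lit 4) (nat_lit 246) (nat_lit 220) (nat_lit 134)) (XT.lf (nat_lit 0) (nat_lit 441186376266) (nat_lit 152) (nat_lit 566678361301) (nat_lit 0) (nat_lit 149235705280) (nat_lit 2) (nat_lit 5) (nat_lit 4) (nat_lit 4) (nat_lit 2) (nat_lit 4) (nat_lit 247) (nat_lit 220) (nat_lit 133))))) (XT.nd (nat_lit 312) (nat_lit 0) (nat_lit 0) (XT.nd (nat_lit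 156) (nat_lit 76) (nat_lit 0) (XT.nd (nat_lit 78) (nat_lit 0) (nat_lit 0) (XT.lf (nat_lit 0) (nat_lit 587168624749) (nat_lit 152) (nat_lit 437878658945) (nat_lit 0) (nat_lit 295217754240) (nat_lit 2) (nat_lit 5) (nat_lit 4) (nat_lit 4) (nat_lit 2) (nat_lit 4) (nat_lit 248) (nat_lit 220) (nat_lit 132)) (XT.lf (nat_lit 0) (nat_lit 755048052588) (nat_lit 152) (nat_lit 289759274402) (nat_lit 0) (nat_lit 463097008581) (nat_lit 2) (nat_lit 5) (nat_lit 4) (nat_lit 4) (nat_lit 2) (nat_lit 4) (nat_lit 249) (nat_lit 220) (nat_lit 131))) (XT.nd (nat_lit 78) (nat_lit 76) (nat_lit 0) (XT.lf (nat_lit 0) (nat_lit 948109257285) (nat_lit 152) (nat_lit 119422219715) (nat_lit 0) (nat_lit 656158062410) (nat_lit 2) (nat_lit 5) (nat_lit 4) (nat_lit 4) (nat_lit 2) (nat_lit 4) (nat_lit 250) (nat_lit 220) (nat_lit 130)) (XT.lf (nat_lit 0) (nat_lit 80491707841) (nat_lit 76) (nat_lit 1091573642947) (nat_lit 76)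 (nat_lit 799622316882) (nat_lit 1) (nat_lit 4) (nat_lit 2) (nat_lit 5) (nat_lit 2) (nat_lit 4) (nat_lit 251) (nat_lit 220) (nat_lit 129)))) (XT.nd (nat_lit 28938) (nat_lit 0) (nat_lit 1824) (XT.nd (nat_lit 28860) (nat_lit 0) (nat_lit 2280) (XT.lf (nat_lit 0) (nat_lit 317624382286) (nat_lit 76) (nat_lit 1115467217087) (nat_lit 76) (nat_lit 823515776944) (nat_lit 1) (nat_lit 4) (nat_lit 2) (nat_lit 5) (nat_lit 2) (nat_lit 4) (nat_lit 252) (nat_lit 220) (nat_lit 128)) (XT.lf (nat_lit 0) (nat_lit 18820041331) (nat_lit 0) (nat_lit 18820041331) (nat_lit 380) (nat_lit 1238942307) (nat_lit 31) (nat_lit 5) (nat_lit 31) (nat_lit 3) (nat_lit 36) (nat_lit 3) (nat_lit 221) (nat_lit 221) (nat_lit 158))) (XT.nd (nat_lit 78) (nat_lit 456) (nat_lit 0) (XT.lf (nat_lit 76) (nat_lit 15954812811) (nat_lit 0) (nat_lit 65809881163) (nat_lit 456) (nat_lit 1757963644) (nat_lit 32) (nat_lit 5) (nat_lit 31) (nat_lit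 5) (nat_lit 37) (nat_lit 5) (nat_lit 222) (nat_lit 221) (nat_lit 157)) (XT.lf (nat_lit 0) (nat_lit 1352854050) (nat_lit 456) (nat_lit 8241586679) (nat_lit 532) (nat_lit 80380421632) (nat_lit 25) (nat_lit 5) (nat_lit 31) (nat_lit 5) (nat_lit 32) (nat_lit 5) (nat_lit 223) (nat_lit 221) (nat_lit 156)))))) (XT.nd (nat_lit 624) (nat_lit 684) (nat_lit 0) (XT.nd (nat_lit 312) (nat_lit 608) (nat_lit 0) (XT.nd (nat_lit 156) (nat_lit 304) (nat_lit 0) (XT.nd (nat_lit 78) (nat_lit 0) (nat_lit 76) (XT.lf (nat_lit 0) (nat_lit 7708598799) (nat_lit 456) (nat_lit 35545353822) (nat_lit 532) (nat_lit 53906724266) (nat_lit 26) (nat_lit 5) (nat_lit 32) (nat_lit 5) (nat_lit 33) (nat_lit 5) (nat_lit 224) (nat_lit 221) (nat_lit 155)) (XT.lf (nat_lit 0) (nat_lit 16992992980) (nat_lit 456) (nat_lit 67136681823) (nat_lit 76) (nat_lit 21136686311) (nat_lit 27) (nat_lit 5) (nat_lit 33) (nat_lit 5) (nat_lit 28) (nat_lit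 5) (nat_lit 225) (nat_lit 221) (nat_lit 154))) (XT.nd (nat_lit 78) (nat_lit 0) (nat_lit 0) (XT.lf (nat_lit 0) (nat_lit 9766934835) (nat_lit 380) (nat_lit 20394040700) (nat_lit 456) (nat_lit 84227665961) (nat_lit 22) (nat_lit 5) (nat_lit 27) (nat_lit 5) (nat_lit 28) (nat_lit 5) (nat_lit 226) (nat_lit 221) (nat_lit 153)) (XT.lf (nat_lit 0) (nat_lit 48580045763) (nat_lit 456) (nat_lit 23776120932) (nat_lit 76) (nat_lit 52261041550) (nat_lit 22) (nat_lit 5) (nat_lit 28) (nat_lit 5) (nat_lit 23) (nat_lit 5) (nat_lit 227) (nat_lit 221) (nat_lit 152)))) (XT.nd (nat_lit 156) (nat_lit 228) (nat_lit 0) (XT.nd (nat_lit 78) (nat_lit 152) (nat_lit 0) (XT.lf (nat_lit 0) (nat_lit 72066351434) (nat_lit 304) (nat_lit 63955855692) (nat_lit 76) (nat_lit 173516393) (nat_lit 19) (nat_lit 5) (nat_lit 23) (nat_lit 5) (nat_lit 20) (nat_lit 5) (nat_lit 228) (nat_lit 221) (nat_lit 151)) (XT.lf (nat_lit 0) (nat_lit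 34339458210) (nat_lit 152) (nat_lit 68272011486) (nat_lit 228) (nat_lit 46616688791) (nat_lit 17) (nat_lit 5) (nat_lit 19) (nat_lit 5) (nat_lit 20) (nat_lit 5) (nat_lit 229) (nat_lit 221) (nat_lit 150))) (XT.nd (nat_lit 78) (nat_lit 228) (nat_lit 0) (XT.lf (nat_lit 0) (nat_lit 139879338764) (nat_lit 228) (nat_lit 13096243195) (nat_lit 76) (nat_lit 11068608310) (nat_lit 17) (nat_lit 5) (nat_lit 20) (nat_lit 5) (nat_lit 18) (nat_lit 5) (nat_lit 230) (nat_lit 221) (nat_lit 149)) (XT.lf (nat_lit 0) (nat_lit 6159454903) (nat_lit 228) (nat_lit 73430261664) (nat_lit 76) (nat_lit 101122736996) (nat_lit 14) (nat_lit 5) (nat_lit 17) (nat_lit 5) (nat_lit 15) (nat_lit 5) (nat_lit 231) (nat_lit 221) (nat_lit 148))))) (XT.nd (nat_lit 312) (nat_lit 304) (nat_lit 0) (XT.nd (nat_lit 156) (nat_lit 228) (nat_lit 0) (XT.nd (nat_lit 78) (nat_lit 0) (nat_lit 0) (XT.lf (nat_lit 0) (nat_lit 41369789370) (nat_lit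 228) (nat_lit 151474733261) (nat_lit 76) (nat_lit 6844771316) (nat_lit 12) (nat_lit 5) (nat_lit 15) (nat_lit 5) (nat_lit 13) (nat_lit 5) (nat_lit 232) (nat_lit 221) (nat_lit 147)) (XT.lf (nat_lit 0) (nat_lit 86255390869) (nat_lit 228) (nat_lit 31046861533) (nat_lit 76) (nat_lit 103858916854) (nat_lit 12) (nat_lit 5) (nat_lit 15) (nat_lit 5) (nat_lit 13) (nat_lit 5) (nat_lit 233) (nat_lit 221) (nat_lit 146))) (XT.nd (nat_lit 78) (nat_lit 76) (nat_lit 0) (XT.lf (nat_lit 0) (nat_lit 113101906036) (nat_lit 152) (nat_lit 27491239351) (nat_lit 228) (nat_lit 105043140856) (nat_lit 10) (nat_lit 5) (nat_lit 12) (nat_lit 5) (nat_lit 13) (nat_lit 5) (nat_lit 234) (nat_lit 221) (nat_lit 145)) (XT.lf (nat_lit 0) (nat_lit 5468989079) (nat_lit 76) (nat_lit 200493543774) (nat_lit 152) (nat_lit 67589665046) (nat_lit 9) (nat_lit 5) (nat_lit 10) (nat_lit 5) (nat_lit 11) (nat_lit 4) (nat_lit 235) (nat_lit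 221) (nat_lit 144)))) (XT.nd (nat_lit 156) (nat_lit 76) (nat_lit 0) (XT.nd (nat_lit 78) (nat_lit 228) (nat_lit 0) (XT.lf (nat_lit 0) (nat_lit 171397393474) (nat_lit 76) (nat_lit 114338972905) (nat_lit 152) (nat_lit 19551210977) (nat_lit 9) (nat_lit 5) (nat_lit 10) (nat_lit 5) (nat_lit 11) (nat_lit 4) (nat_lit 236) (nat_lit 221) (nat_lit 143)) (XT.lf (nat_lit 0) (nat_lit 20603151043) (nat_lit 152) (nat_lit 13799275482) (nat_lit 228) (nat_lit 307272573132) (nat_lit 6) (nat_lit 5) (nat_lit 8) (nat_lit 5) (nat_lit 9) (nat_lit 5) (nat_lit 237) (nat_lit 221) (nat_lit 142))) (XT.nd (nat_lit 78) (nat_lit 76) (nat_lit 0) (XT.lf (nat_lit 0) (nat_lit 101771965888) (nat_lit 228) (nat_lit 179921856879) (nat_lit 76) (nat_lit 101267649016) (nat_lit 6) (nat_lit 5) (nat_lit 9) (nat_lit 5) (nat_lit 7) (nat_lit 4) (nat_lit 238) (nat_lit 221) (nat_lit 141)) (XT.nd (nat_lit 78) (nat_lit 76) (nat_lit 0) (XT.lf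 (nat_lit 0) (nat_lit 179628127273) (nat_lit 228) (nat_lit 17981753104) (nat_lit 76) (nat_lit 232800541551) (nat_lit 6) (nat_lit 5) (nat_lit 9) (nat_lit 5) (nat_lit 7) (nat_lit 4) (nat_lit 239) (nat_lit 221) (nat_lit 140)) (XT.lf (nat_lit 0) (nat_lit 177108408857) (nat_lit 76) (nat_lit 96313363133) (nat_lit 152) (nat_lit 211214220039) (nat_lit 5) (nat_lit 5) (nat_lit 6) (nat_lit 5) (nat_lit 7) (nat_lit 4) (nat_lit 240) (nat_lit 221) (nat_lit 139))))))))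
noncomputable def xc53 : XT := (XT.nd (nat_lit 30186) (nat_lit 0) (nat_lit 228) (XT.nd (nat_lit 624) (nat_lit 76) (nat_lit 0) (XT.nd (nat_lit 312) (nat_lit 76) (nat_lit 0) (XT.nd (nat_lit 156) (nat_lit 76) (nat_lit 0) (XT.nd (nat_lit 78) (nat_lit 76) (nat_lit 0) (XT.lf (nat_lit 0) (nat_lit 382306484051) (nat_lit 152) (nat_lit 144901980134) (nat_lit 0) (nat_lit 19705173692) (nat_lit 5) (nat_lit 5) (nat_lit 7) (nat_lit 4) (nat_lit 5) (nat_lit 4) (nat_lit 241) (nat_lit 221) (nat_lit 138)) (XT.lf (nat_lit 0) (nat_lit 41530676897) (nat_lit 76) (nat_lit 469655508268) (nat_lit 76) (nat_lit 107053764492) (nat_lit 4) (nat_lit 4) (nat_lit 5) (nat_lit 5) (nat_lit 5) (nat_lit 4) (nat_lit 242) (nat_lit 221) (nat_lit 137))) (XT.nd (nat_lit 78) (nat_lit 76) (nat_lit 0) (XT.lf (nat_lit 0) (nat_lit 264702571405) (nat_lit 76) (nat_lit 398913644465) (nat_lit 76) (nat_lit 36311523804) (nat_lit 4) (nat_lit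 4) (nat_lit 5) (nat_lit 5) (nat_lit 5) (nat_lit 4) (nat_lit 243) (nat_lit 221) (nat_lit 136)) (XT.lf (nat_lit 0) (nat_lit 42788606441) (nat_lit 152) (nat_lit 273602146987) (nat_lit 76) (nat_lit 477391305766) (nat_lit 3) (nat_lit 5) (nat_lit 5) (nat_lit 5) (nat_lit 4) (nat_lit 4) (nat_lit 244) (nat_lit 221) (nat_lit 135)))) (XT.nd (nat_lit 156) (nat_lit 0) (nat_lit 0) (XT.nd (nat_lit 78) (nat_lit 76) (nat_lit 0) (XT.lf (nat_lit 0) (nat_lit 131664612682) (nat_lit 152) (nat_lit 88740338985) (nat_lit 76) (nat_lit 681229251144) (nat_lit 3) (nat_lit 5) (nat_lit 5) (nat_lit 5) (nat_lit 4) (nat_lit 4) (nat_lit 245) (nat_lit 221) (nat_lit 134)) (XT.lf (nat_lit 0) (nat_lit 130372153337) (nat_lit 76) (nat_lit 106635122869) (nat_lit 152) (nat_lit 788406072123) (nat_lit 2) (nat_lit 5) (nat_lit 3) (nat_lit 5) (nat_lit 4) (nat_lit 4) (nat_lit 246) (nat_lit 221) (nat_lit 133))) (XT.nd (nat_lit 78) (nat_lit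 0) (nat_lit 0) (XT.lf (nat_lit 0) (nat_lit 361383858023) (nat_lit 152) (nat_lit 780476749488) (nat_lit 0) (nat_lit 25640157415) (nat_lit 2) (nat_lit 5) (nat_lit 4) (nat_lit 4) (nat_lit 2) (nat_lit 4) (nat_lit 247) (nat_lit 221) (nat_lit 132)) (XT.lf (nat_lit 0) (nat_lit 507366033057) (nat_lit 152) (nat_lit 651677174186) (nat_lit 0) (nat_lit 171622158950) (nat_lit 2) (nat_lit 5) (nat_lit 4) (nat_lit 4) (nat_lit 2) (nat_lit 4) (nat_lit 248) (nat_lit 221) (nat_lit 131))))) (XT.nd (nat_lit 29172) (nat_lit 0) (nat_lit 1824) (XT.nd (nat_lit 156) (nat_lit 76) (nat_lit 0) (XT.nd (nat_lit 78) (nat_lit 0) (nat_lit 0) (XT.lf (nat_lit 0) (nat_lit 675245397027) (nat_lit 152) (nat_lit 503557900126) (nat_lit 0) (nat_lit 339501372052) (nat_lit 2) (nat_lit 5) (nat_lit 4) (nat_lit 4) (nat_lit 2) (nat_lit 4) (nat_lit 249) (nat_lit 221) (nat_lit 130)) (XT.lf (nat_lit 0) (nat_lit 868306546186) (nat_lit 152)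 (nat_lit 333220941509) (nat_lit 0) (nat_lit 532562390021) (nat_lit 2) (nat_lit 5) (nat_lit 4) (nat_lit 4) (nat_lit 2) (nat_lit 4) (nat_lit 250) (nat_lit 221) (nat_lit 129))) (XT.nd (nat_lit 78) (nat_lit 76) (nat_lit 0) (XT.lf (nat_lit 0) (nat_lit 1090326763886) (nat_lit 152) (nat_lit 137333618713) (nat_lit 0) (nat_lit 754582493644) (nat_lit 2) (nat_lit 5) (nat_lit 4) (nat_lit 4) (nat_lit 2) (nat_lit 4) (nat_lit 251) (nat_lit 221) (nat_lit 128)) (XT.lf (nat_lit 0) (nat_lit 92567234277) (nat_lit 76) (nat_lit 1255308933886) (nat_lit 76) (nat_lit 919564564445) (nat_lit 1) (nat_lit 4) (nat_lit 2) (nat_lit 5) (nat_lit 2) (nat_lit 4) (nat_lit 252) (nat_lit 221) (nat_lit 127)))) (XT.nd (nat_lit 156) (nat_lit 456) (nat_lit 0) (XT.nd (nat_lit 78) (nat_lit 0) (nat_lit 0) (XT.lf (nat_lit 0) (nat_lit 21650760443) (nat_lit 0) (nat_lit 21650760443) (nat_lit 380) (nat_lit 1407965818) (nat_lit 31) (nat_lit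 5) (nat_lit 31) (nat_lit 3) (nat_lit 36) (nat_lit 3) (nat_lit 222) (nat_lit 222) (nat_lit 156)) (XT.lf (nat_lit 76) (nat_lit 18365042796) (nat_lit 0) (nat_lit 75691269239) (nat_lit 456) (nat_lit 1992316422) (nat_lit 32) (nat_lit 5) (nat_lit 31) (nat_lit 5) (nat_lit 37) (nat_lit 5) (nat_lit 223) (nat_lit 222) (nat_lit 155))) (XT.nd (nat_lit 78) (nat_lit 0) (nat_lit 76) (XT.lf (nat_lit 0) (nat_lit 1580020396) (nat_lit 456) (nat_lit 9461537554) (nat_lit 532) (nat_lit 92427373542) (nat_lit 25) (nat_lit 5) (nat_lit 31) (nat_lit 5) (nat_lit 32) (nat_lit 5) (nat_lit 224) (nat_lit 222) (nat_lit 154)) (XT.nd (nat_lit 78) (nat_lit 0) (nat_lit 76) (XT.lf (nat_lit 0) (nat_lit 8886166928) (nat_lit 456) (nat_lit 40860184283) (nat_lit 532) (nat_lit 61986532626) (nat_lit 26) (nat_lit 5) (nat_lit 32) (nat_lit 5) (nat_lit 33) (nat_lit 5) (nat_lit 225) (nat_lit 222) (nat_lit 153)) (XT.lf (nat_lit 0) (nat_lit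 19560738105) (nat_lit 456) (nat_lit 77189890438) (nat_lit 76) (nat_lit 24304015812) (nat_lit 27) (nat_lit 5) (nat_lit 33) (nat_lit 5) (nat_lit 28) (nat_lit 5) (nat_lit 226) (nat_lit 222) (nat_lit 152))))))) (XT.nd (nat_lit 624) (nat_lit 608) (nat_lit 0) (XT.nd (nat_lit 312) (nat_lit 380) (nat_lit 0) (XT.nd (nat_lit 156) (nat_lit 380) (nat_lit 0) (XT.nd (nat_lit 78) (nat_lit 0) (nat_lit 0) (XT.lf (nat_lit 0) (nat_lit 11247804898) (nat_lit 380) (nat_lit 23454042178) (nat_lit 456) (nat_lit 96843607209) (nat_lit 22) (nat_lit 5) (nat_lit 27) (nat_lit 5) (nat_lit 28) (nat_lit 5) (nat_lit 227) (nat_lit 222) (nat_lit 151)) (XT.lf (nat_lit 0) (nat_lit 55881577564) (nat_lit 456) (nat_lit 27327465326) (nat_lit 76) (nat_lit 60099458146) (nat_lit 22) (nat_lit 5) (nat_lit 28) (nat_lit 5) (nat_lit 23) (nat_lit 5) (nat_lit 228) (nat_lit 222) (nat_lit 150))) (XT.nd (nat_lit 78) (nat_lit 152) (nat_lit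 0) (XT.lf (nat_lit 0) (nat_lit 82889286463) (nat_lit 304) (nat_lit 73534309379) (nat_lit 76) (nat_lit 200337662) (nat_lit 19) (nat_lit 5) (nat_lit 23) (nat_lit 5) (nat_lit 20) (nat_lit 5) (nat_lit 229) (nat_lit 222) (nat_lit 149)) (XT.lf (nat_lit 0) (nat_lit 39504038310) (nat_lit 152) (nat_lit 78510769366) (nat_lit 228) (nat_lit 53596549568) (nat_lit 17) (nat_lit 5) (nat_lit 19) (nat_lit 5) (nat_lit 20) (nat_lit 5) (nat_lit 230) (nat_lit 222) (nat_lit 148)))) (XT.nd (nat_lit 156) (nat_lit 152) (nat_lit 0) (XT.nd (nat_lit 78) (nat_lit 228) (nat_lit 0) (XT.lf (nat_lit 0) (nat_lit 160871384517) (nat_lit 228) (nat_lit 15047951647) (nat_lit 76) (nat_lit 12730587906) (nat_lit 17) (nat_lit 5) (nat_lit 20) (nat_lit 5) (nat_lit 18) (nat_lit 5) (nat_lit 231) (nat_lit 222) (nat_lit 147)) (XT.lf (nat_lit 0) (nat_lit 7092780118) (nat_lit 228) (nat_lit 84432587952) (nat_lit 76) (nat_lit 116293134026)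 (nat_lit 14) (nat_lit 5) (nat_lit 17) (nat_lit 5) (nat_lit 15) (nat_lit 5) (nat_lit 232) (nat_lit 222) (nat_lit 146))) (XT.nd (nat_lit 78) (nat_lit 0) (nat_lit 0) (XT.lf (nat_lit 0) (nat_lit 47583772283) (nat_lit 228) (nat_lit 174184095600) (nat_lit 76) (nat_lit 7874080783) (nat_lit 12) (nat_lit 5) (nat_lit 15) (nat_lit 5) (nat_lit 13) (nat_lit 5) (nat_lit 233) (nat_lit 222) (nat_lit 145)) (XT.lf (nat_lit 0) (nat_lit 99201103418) (nat_lit 228) (nat_lit 35693588459) (nat_lit 76) (nat_lit 119440009834) (nat_lit 12) (nat_lit 5) (nat_lit 15) (nat_lit 5) (nat_lit 13) (nat_lit 5) (nat_lit 234) (nat_lit 222) (nat_lit 144))))) (XT.nd (nat_lit 312) (nat_lit 152) (nat_lit 0) (XT.nd (nat_lit 156) (nat_lit 228) (nat_lit 0) (XT.nd (nat_lit 78) (nat_lit 76) (nat_lit 0) (XT.lf (nat_lit 0) (nat_lit 130076622207) (nat_lit 152) (nat_lit 31612159977) (nat_lit 228) (nat_lit 120792369780) (nat_lit 10) (nat_lit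 5) (nat_lit 12) (nat_lit 5) (nat_lit 13) (nat_lit 5) (nat_lit 235) (nat_lit 222) (nat_lit 143)) (XT.lf (nat_lit 0) (nat_lit 6298436963) (nat_lit 76) (nat_lit 230564548135) (nat_lit 152) (nat_lit 77721518426) (nat_lit 9) (nat_lit 5) (nat_lit 10) (nat_lit 5) (nat_lit 11) (nat_lit 4) (nat_lit 236) (nat_lit 222) (nat_lit 142))) (XT.nd (nat_lit 78) (nat_lit 228) (nat_lit 0) (XT.lf (nat_lit 0) (nat_lit 197114915123) (nat_lit 76) (nat_lit 131487186488) (nat_lit 152) (nat_lit 22478156643) (nat_lit 9) (nat_lit 5) (nat_lit 10) (nat_lit 5) (nat_lit 11) (nat_lit 4) (nat_lit 237) (nat_lit 222) (nat_lit 141)) (XT.lf (nat_lit 0) (nat_lit 23701157421) (nat_lit 152) (nat_lit 15866552567) (nat_lit 228) (nat_lit 353358119260) (nat_lit 6) (nat_lit 5) (nat_lit 8) (nat_lit 5) (nat_lit 9) (nat_lit 5) (nat_lit 238) (nat_lit 222) (nat_lit 140)))) (XT.nd (nat_lit 156) (nat_lit 152) (nat_lit 0) (XT.nd (nat_lit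 78) (nat_lit 0) (nat_lit 0) (XT.lf (nat_lit 0) (nat_lit 117042093255) (nat_lit 228) (nat_lit 206903273493) (nat_lit 76) (nat_lit 116459955901) (nat_lit 6) (nat_lit 5) (nat_lit 9) (nat_lit 5) (nat_lit 7) (nat_lit 4) (nat_lit 239) (nat_lit 222) (nat_lit 139)) (XT.lf (nat_lit 0) (nat_lit 206576113742) (nat_lit 228) (nat_lit 20673049184) (nat_lit 76) (nat_lit 267722500638) (nat_lit 6) (nat_lit 5) (nat_lit 9) (nat_lit 5) (nat_lit 7) (nat_lit 4) (nat_lit 240) (nat_lit 222) (nat_lit 138))) (XT.nd (nat_lit 78) (nat_lit 76) (nat_lit 0) (XT.lf (nat_lit 0) (nat_lit 203680132004) (nat_lit 76) (nat_lit 110758313122) (nat_lit 152) (nat_lit 242892655500) (nat_lit 5) (nat_lit 5) (nat_lit 6) (nat_lit 5) (nat_lit 7) (nat_lit 4) (nat_lit 241) (nat_lit 222) (nat_lit 137)) (XT.nd (nat_lit 78) (nat_lit 76) (nat_lit 0) (XT.lf (nat_lit 0) (nat_lit 439655462526) (nat_lit 152) (nat_lit 166632318358) (nat_lit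 0) (nat_lit 22662646882) (nat_lit 5) (nat_lit 5) (nat_lit 7) (nat_lit 4) (nat_lit 5) (nat_lit 4) (nat_lit 242) (nat_lit 222) (nat_lit 136)) (XT.lf (nat_lit 0) (nat_lit 47764817490) (nat_lit 76) (nat_lit 540102018413) (nat_lit 76) (nat_lit 123108875043) (nat_lit 4) (nat_lit 4) (nat_lit 5) (nat_lit 5) (nat_lit 5) (nat_lit 4) (nat_lit 243) (nat_lit 222) (nat_lit 135))))))))
noncomputable def xc54 : XT := (XT.nd (nat_lit 30186) (nat_lit 0) (nat_lit 76) (XT.nd (nat_lit 624) (nat_lit 0) (nat_lit 0) (XT.nd (nat_lit 312) (nat_lit 0) (nat_lit 0) (XT.nd (nat_lit 156) (nat_lit 76) (nat_lit 0) (XT.nd (nat_lit 78) (nat_lit 76) (nat_lit 0) (XT.lf (nat_lit 0) (nat_lit 304411904123) (nat_lit 76) (nat_lit 458749111921) (nat_lit 76) (nat_lit 41755683573) (nat_lit 4) (nat_lit 4) (nat_lit 5) (nat_lit 5) (nat_lit 5) (nat_lit 4) (nat_lit 244) (nat_lit 222) (nat_lit 134)) (XT.lf (nat_lit 0) (nat_lit 49209019408)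 (nat_lit 152) (nat_lit 314638915786) (nat_lit 76) (nat_lit 549001253791) (nat_lit 3) (nat_lit 5) (nat_lit 5) (nat_lit 5) (nat_lit 4) (nat_lit 4) (nat_lit 245) (nat_lit 222) (nat_lit 133))) (XT.nd (nat_lit 78) (nat_lit 76) (nat_lit 0) (XT.lf (nat_lit 0) (nat_lit 151416149802) (nat_lit 152) (nat_lit 102048300051) (nat_lit 76) (nat_lit 783414727651) (nat_lit 3) (nat_lit 5) (nat_lit 5) (nat_lit 5) (nat_lit 4) (nat_lit 4) (nat_lit 246) (nat_lit 222) (nat_lit 132)) (XT.lf (nat_lit 0) (nat_lit 149930804585) (nat_lit 76) (nat_lit 122629235608) (nat_lit 152) (nat_lit 906665169527) (nat_lit 2) (nat_lit 5) (nat_lit 3) (nat_lit 5) (nat_lit 4) (nat_lit 4) (nat_lit 247) (nat_lit 222) (nat_lit 131)))) (XT.nd (nat_lit 156) (nat_lit 0) (nat_lit 0) (XT.nd (nat_lit 78) (nat_lit 0) (nat_lit 0) (XT.lf (nat_lit 0) (nat_lit 415592915293) (nat_lit 152) (nat_lit 897545704250) (nat_lit 0) (nat_lit 29487135704)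 (nat_lit 2) (nat_lit 5) (nat_lit 4) (nat_lit 4) (nat_lit 2) (nat_lit 4) (nat_lit 248) (nat_lit 222) (nat_lit 130)) (XT.lf (nat_lit 0) (nat_lit 583472223725) (nat_lit 152) (nat_lit 749426526261) (nat_lit 0) (nat_lit 197366312946) (nat_lit 2) (nat_lit 5) (nat_lit 4) (nat_lit 4) (nat_lit 2) (nat_lit 4) (nat_lit 249) (nat_lit 222) (nat_lit 129))) (XT.nd (nat_lit 78) (nat_lit 0) (nat_lit 0) (XT.lf (nat_lit 0) (nat_lit 776533324590) (nat_lit 152) (nat_lit 579089651185) (nat_lit 0) (nat_lit 390427299733) (nat_lit 2) (nat_lit 5) (nat_lit 4) (nat_lit 4) (nat_lit 2) (nat_lit 4) (nat_lit 250) (nat_lit 222) (nat_lit 128)) (XT.lf (nat_lit 0) (nat_lit 998553500295) (nat_lit 152) (nat_lit 383202401032) (nat_lit 0) (nat_lit 612447376240) (nat_lit 2) (nat_lit 5) (nat_lit 4) (nat_lit 4) (nat_lit 2) (nat_lit 4) (nat_lit 251) (nat_lit 222) (nat_lit 127))))) (XT.nd (nat_lit 29250) (nat_lit 0) (nat_lit 1520)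 (XT.nd (nat_lit 29094) (nat_lit 0) (nat_lit 1748) (XT.nd (nat_lit 29016) (nat_lit 0) (nat_lit 2204) (XT.lf (nat_lit 0) (nat_lit 1253876623844) (nat_lit 152) (nat_lit 157932199168) (nat_lit 0) (nat_lit 867770413530) (nat_lit 2) (nat_lit 5) (nat_lit 4) (nat_lit 4) (nat_lit 2) (nat_lit 4) (nat_lit 252) (nat_lit 222) (nat_lit 126)) (XT.lf (nat_lit 0) (nat_lit 24904206579) (nat_lit 0) (nat_lit 24904206579) (nat_lit 380) (nat_lit 1606443991) (nat_lit 31) (nat_lit 5) (nat_lit 31) (nat_lit 3) (nat_lit 36) (nat_lit 3) (nat_lit 223) (nat_lit 223) (nat_lit 154))) (XT.nd (nat_lit 78) (nat_lit 456) (nat_lit 0) (XT.lf (nat_lit 76) (nat_lit 21132659754) (nat_lit 0) (nat_lit 87052449910) (nat_lit 456) (nat_lit 2268977293) (nat_lit 32) (nat_lit 5) (nat_lit 31) (nat_lit 5) (nat_lit 37) (nat_lit 5) (nat_lit 224) (nat_lit 223) (nat_lit 153)) (XT.lf (nat_lit 0) (nat_lit 1835351046) (nat_lit 456) (nat_lit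 10868452778) (nat_lit 532) (nat_lit 106283833951) (nat_lit 25) (nat_lit 5) (nat_lit 31) (nat_lit 5) (nat_lit 32) (nat_lit 5) (nat_lit 225) (nat_lit 223) (nat_lit 152)))) (XT.nd (nat_lit 156) (nat_lit 304) (nat_lit 0) (XT.nd (nat_lit 78) (nat_lit 0) (nat_lit 76) (XT.lf (nat_lit 0) (nat_lit 10235181427) (nat_lit 456) (nat_lit 46976378193) (nat_lit 532) (nat_lit 71279824218) (nat_lit 26) (nat_lit 5) (nat_lit 32) (nat_lit 5) (nat_lit 33) (nat_lit 5) (nat_lit 226) (nat_lit 223) (nat_lit 151)) (XT.lf (nat_lit 0) (nat_lit 22509061432) (nat_lit 456) (nat_lit 88755297512) (nat_lit 76) (nat_lit 27947218603) (nat_lit 27) (nat_lit 5) (nat_lit 33) (nat_lit 5) (nat_lit 28) (nat_lit 5) (nat_lit 227) (nat_lit 223) (nat_lit 150))) (XT.nd (nat_lit 78) (nat_lit 0) (nat_lit 0) (XT.lf (nat_lit 0) (nat_lit 12946945264) (nat_lit 380) (nat_lit 26972825536) (nat_lit 456) (nat_lit 111356379937) (nat_lit 22) (nat_lit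 5) (nat_lit 27) (nat_lit 5) (nat_lit 28) (nat_lit 5) (nat_lit 228) (nat_lit 223) (nat_lit 149)) (XT.lf (nat_lit 0) (nat_lit 64274797137) (nat_lit 456) (nat_lit 31415187207) (nat_lit 76) (nat_lit 69113817595) (nat_lit 22) (nat_lit 5) (nat_lit 28) (nat_lit 5) (nat_lit 23) (nat_lit 5) (nat_lit 229) (nat_lit 223) (nat_lit 148)))))) (XT.nd (nat_lit 624) (nat_lit 456) (nat_lit 0) (XT.nd (nat_lit 312) (nat_lit 380) (nat_lit 0) (XT.nd (nat_lit 156) (nat_lit 228) (nat_lit 0) (XT.nd (nat_lit 78) (nat_lit 152) (nat_lit 0) (XT.lf (nat_lit 0) (nat_lit 95332495927) (nat_lit 304) (nat_lit 84553170593) (nat_lit 76) (nat_lit 230988545) (nat_lit 19) (nat_lit 5) (nat_lit 23) (nat_lit 5) (nat_lit 20) (nat_lit 5) (nat_lit 230) (nat_lit 223) (nat_lit 147)) (XT.lf (nat_lit 0) (nat_lit 45439974013) (nat_lit 152) (nat_lit 90285839331) (nat_lit 228) (nat_lit 61626472424) (nat_lit 17) (nat_lit 5) (nat_lit 19)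 (nat_lit 5) (nat_lit 20) (nat_lit 5) (nat_lit 231) (nat_lit 223) (nat_lit 146))) (XT.nd (nat_lit 78) (nat_lit 228) (nat_lit 0) (XT.lf (nat_lit 0) (nat_lit 185009763226) (nat_lit 228) (nat_lit 17295520176) (nat_lit 76) (nat_lit 14641452727) (nat_lit 17) (nat_lit 5) (nat_lit 20) (nat_lit 5) (nat_lit 18) (nat_lit 5) (nat_lit 232) (nat_lit 223) (nat_lit 145)) (XT.lf (nat_lit 0) (nat_lit 8163810164) (nat_lit 228) (nat_lit 97088241391) (nat_lit 76) (nat_lit 133738606195) (nat_lit 14) (nat_lit 5) (nat_lit 17) (nat_lit 5) (nat_lit 15) (nat_lit 5) (nat_lit 233) (nat_lit 223) (nat_lit 144)))) (XT.nd (nat_lit 156) (nat_lit 228) (nat_lit 0) (XT.nd (nat_lit 78) (nat_lit 0) (nat_lit 0) (XT.lf (nat_lit 0) (nat_lit 54727776316) (nat_lit 228) (nat_lit 200302751414) (nat_lit 76) (nat_lit 9057154164) (nat_lit 12) (nat_lit 5) (nat_lit 15) (nat_lit 5) (nat_lit 13) (nat_lit 5) (nat_lit 234) (nat_lit 223)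 (nat_lit 143)) (XT.lf (nat_lit 0) (nat_lit 114086867358) (nat_lit 228) (nat_lit 41039836706) (nat_lit 76) (nat_lit 137357716755) (nat_lit 12) (nat_lit 5) (nat_lit 15) (nat_lit 5) (nat_lit 13) (nat_lit 5) (nat_lit 235) (nat_lit 223) (nat_lit 142))) (XT.nd (nat_lit 78) (nat_lit 76) (nat_lit 0) (XT.lf (nat_lit 0) (nat_lit 149595246174) (nat_lit 152) (nat_lit 36351893028) (nat_lit 228) (nat_lit 138905749100) (nat_lit 10) (nat_lit 5) (nat_lit 12) (nat_lit 5) (nat_lit 13) (nat_lit 5) (nat_lit 236) (nat_lit 223) (nat_lit 141)) (XT.lf (nat_lit 0) (nat_lit 7250083054) (nat_lit 76) (nat_lit 265146941353) (nat_lit 152) (nat_lit 89374758381) (nat_lit 9) (nat_lit 5) (nat_lit 10) (nat_lit 5) (nat_lit 11) (nat_lit 4) (nat_lit 237) (nat_lit 223) (nat_lit 140))))) (XT.nd (nat_lit 312) (nat_lit 228) (nat_lit 0) (XT.nd (nat_lit 156) (nat_lit 0) (nat_lit 0) (XT.nd (nat_lit 78) (nat_lit 228) (nat_lit 0)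 (XT.lf (nat_lit 0) (nat_lit 226688135475) (nat_lit 76) (nat_lit 151208274025) (nat_lit 152) (nat_lit 25845542915) (nat_lit 9) (nat_lit 5) (nat_lit 10) (nat_lit 5) (nat_lit 11) (nat_lit 4) (nat_lit 238) (nat_lit 223) (nat_lit 139)) (XT.lf (nat_lit 0) (nat_lit 27262027610) (nat_lit 152) (nat_lit 18244558714) (nat_lit 228) (nat_lit 406357799462) (nat_lit 6) (nat_lit 5) (nat_lit 8) (nat_lit 5) (nat_lit 9) (nat_lit 5) (nat_lit 239) (nat_lit 223) (nat_lit 138))) (XT.nd (nat_lit 78) (nat_lit 0) (nat_lit 0) (XT.lf (nat_lit 0) (nat_lit 134601683225) (nat_lit 228) (nat_lit 237933575921) (nat_lit 76) (nat_lit 133930582203) (nat_lit 6) (nat_lit 5) (nat_lit 9) (nat_lit 5) (nat_lit 7) (nat_lit 4) (nat_lit 240) (nat_lit 223) (nat_lit 137)) (XT.lf (nat_lit 0) (nat_lit 237565379483) (nat_lit 228) (nat_lit 23769494740) (nat_lit 76) (nat_lit 307882295661) (nat_lit 6) (nat_lit 5) (nat_lit 9) (nat_lit 5)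 (nat_lit 7) (nat_lit 4) (nat_lit 241) (nat_lit 223) (nat_lit 136)))) (XT.nd (nat_lit 156) (nat_lit 152) (nat_lit 0) (XT.nd (nat_lit 78) (nat_lit 0) (nat_lit 0) (XT.lf (nat_lit 0) (nat_lit 234236281724) (nat_lit 76) (nat_lit 127370506608) (nat_lit 152) (nat_lit 279323757951) (nat_lit 5) (nat_lit 5) (nat_lit 6) (nat_lit 5) (nat_lit 7) (nat_lit 4) (nat_lit 242) (nat_lit 223) (nat_lit 135)) (XT.lf (nat_lit 0) (nat_lit 505606054773) (nat_lit 152) (nat_lit 191623416551) (nat_lit 0) (nat_lit 26063327194) (nat_lit 5) (nat_lit 5) (nat_lit 7) (nat_lit 4) (nat_lit 5) (nat_lit 4) (nat_lit 243) (nat_lit 223) (nat_lit 134))) (XT.nd (nat_lit 78) (nat_lit 76) (nat_lit 0) (XT.lf (nat_lit 0) (nat_lit 54932972294) (nat_lit 76) (nat_lit 621115947945) (nat_lit 76) (nat_lit 141572972558) (nat_lit 4) (nat_lit 4) (nat_lit 5) (nat_lit 5) (nat_lit 5) (nat_lit 4) (nat_lit 244) (nat_lit 223) (nat_lit 133)) (XT.nd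 (nat_lit 78) (nat_lit 76) (nat_lit 0) (XT.lf (nat_lit 0) (nat_lit 350076674246) (nat_lit 76) (nat_lit 527560284597) (nat_lit 76) (nat_lit 48017093725) (nat_lit 4) (nat_lit 4) (nat_lit 5) (nat_lit 5) (nat_lit 5) (nat_lit 4) (nat_lit 245) (nat_lit 223) (nat_lit 132)) (XT.lf (nat_lit 0) (nat_lit 56591976856) (nat_lit 152) (nat_lit 361832066387) (nat_lit 76) (nat_lit 631352388673) (nat_lit 3) (nat_lit 5) (nat_lit 5) (nat_lit 5) (nat_lit 4) (nat_lit 4) (nat_lit 246) (nat_lit 223) (nat_lit 131))))))))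
noncomputable def xc55 : XT := (XT.nd (nat_lit 30342) (nat_lit 0) (nat_lit 0) (XT.nd (nat_lit 29640) (nat_lit 0) (nat_lit 912) (XT.nd (nat_lit 312) (nat_lit 0) (nat_lit 0) (XT.nd (nat_lit 156) (nat_lit 0) (nat_lit 0) (XT.nd (nat_lit 78) (nat_lit 76) (nat_lit 0) (XT.lf (nat_lit 0) (nat_lit 174129967522) (nat_lit 152) (nat_lit 117353208740) (nat_lit 76) (nat_lit 900927760114) (nat_lit 3) (nat_lit 5) (nat_lit 5) (nat_lit 5) (nat_lit 4) (nat_lit 4) (nat_lit 247) (nat_lit 223) (nat_lit 130)) (XT.lf (nat_lit 0) (nat_lit 172422563834) (nat_lit 76) (nat_lit 141022747082) (nat_lit 152) (nat_lit 1042663573754) (nat_lit 2) (nat_lit 5) (nat_lit 3) (nat_lit 5) (nat_lit 4) (nat_lit 4) (nat_lit 248) (nat_lit 223) (nat_lit 129))) (XT.nd (nat_lit 78) (nat_lit 0) (nat_lit 0) (XT.lf (nat_lit 0) (nat_lit 477932970595) (nat_lit 152) (nat_lit 1032175625928) (nat_lit 0) (nat_lit 33910927932) (nat_lit 2) (nat_lit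 5) (nat_lit 4) (nat_lit 4) (nat_lit 2) (nat_lit 4) (nat_lit 249) (nat_lit 223) (nat_lit 128)) (XT.lf (nat_lit 0) (nat_lit 670994029465) (nat_lit 152) (nat_lit 861838823496) (nat_lit 0) (nat_lit 226971887603) (nat_lit 2) (nat_lit 5) (nat_lit 4) (nat_lit 4) (nat_lit 2) (nat_lit 4) (nat_lit 250) (nat_lit 223) (nat_lit 127)))) (XT.nd (nat_lit 29172) (nat_lit 0) (nat_lit 2204) (XT.nd (nat_lit 78) (nat_lit 0) (nat_lit 0) (XT.lf (nat_lit 0) (nat_lit 893014168653) (nat_lit 152) (nat_lit 665951636512) (nat_lit 0) (nat_lit 448991940532) (nat_lit 2) (nat_lit 5) (nat_lit 4) (nat_lit 4) (nat_lit 2) (nat_lit 4) (nat_lit 251) (nat_lit 223) (nat_lit 126)) (XT.lf (nat_lit 0) (nat_lit 1148337260448) (nat_lit 152) (nat_lit 440681489577) (nat_lit 0) (nat_lit 704314957319) (nat_lit 2) (nat_lit 5) (nat_lit 4) (nat_lit 4) (nat_lit 2) (nat_lit 4) (nat_lit 252) (nat_lit 223) (nat_lit 125))) (XT.nd (nat_lit 78)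 (nat_lit 0) (nat_lit 0) (XT.lf (nat_lit 0) (nat_lit 28644247449) (nat_lit 0) (nat_lit 28644247449) (nat_lit 380) (nat_lit 1837794938) (nat_lit 31) (nat_lit 5) (nat_lit 31) (nat_lit 3) (nat_lit 36) (nat_lit 3) (nat_lit 224) (nat_lit 224) (nat_lit 152)) (XT.lf (nat_lit 76) (nat_lit 24312283132) (nat_lit 0) (nat_lit 100115981128) (nat_lit 456) (nat_lit 2592547636) (nat_lit 32) (nat_lit 5) (nat_lit 31) (nat_lit 5) (nat_lit 37) (nat_lit 5) (nat_lit 225) (nat_lit 224) (nat_lit 151))))) (XT.nd (nat_lit 312) (nat_lit 608) (nat_lit 0) (XT.nd (nat_lit 156) (nat_lit 228) (nat_lit 0) (XT.nd (nat_lit 78) (nat_lit 0) (nat_lit 76) (XT.lf (nat_lit 0) (nat_lit 2124511994) (nat_lit 456) (nat_lit 12489408477) (nat_lit 532) (nat_lit 122220627855) (nat_lit 25) (nat_lit 5) (nat_lit 31) (nat_lit 5) (nat_lit 32) (nat_lit 5) (nat_lit 226) (nat_lit 224) (nat_lit 150)) (XT.lf (nat_lit 0) (nat_lit 11782624584)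 (nat_lit 456) (nat_lit 54013130776) (nat_lit 532) (nat_lit 81968252820) (nat_lit 26) (nat_lit 5) (nat_lit 32) (nat_lit 5) (nat_lit 33) (nat_lit 5) (nat_lit 227) (nat_lit 224) (nat_lit 149))) (XT.nd (nat_lit 78) (nat_lit 380) (nat_lit 0) (XT.lf (nat_lit 0) (nat_lit 25896167423) (nat_lit 456) (nat_lit 102058704433) (nat_lit 76) (nat_lit 32137486966) (nat_lit 27) (nat_lit 5) (nat_lit 33) (nat_lit 5) (nat_lit 28) (nat_lit 5) (nat_lit 228) (nat_lit 224) (nat_lit 148)) (XT.lf (nat_lit 0) (nat_lit 14898037814) (nat_lit 380) (nat_lit 31019261299) (nat_lit 456) (nat_lit 128049426074) (nat_lit 22) (nat_lit 5) (nat_lit 27) (nat_lit 5) (nat_lit 28) (nat_lit 5) (nat_lit 229) (nat_lit 224) (nat_lit 147)))) (XT.nd (nat_lit 156) (nat_lit 380) (nat_lit 0) (XT.nd (nat_lit 78) (nat_lit 228) (nat_lit 0) (XT.lf (nat_lit 0) (nat_lit 73924321388) (nat_lit 456) (nat_lit 36118846826) (nat_lit 76) (nat_lit 79480467344)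 (nat_lit 22) (nat_lit 5) (nat_lit 28) (nat_lit 5) (nat_lit 23) (nat_lit 5) (nat_lit 230) (nat_lit 224) (nat_lit 146)) (XT.lf (nat_lit 0) (nat_lit 109639792996) (nat_lit 304) (nat_lit 97227612955) (nat_lit 76) (nat_lit 266090691) (nat_lit 19) (nat_lit 5) (nat_lit 23) (nat_lit 5) (nat_lit 20) (nat_lit 5) (nat_lit 231) (nat_lit 224) (nat_lit 145))) (XT.nd (nat_lit 78) (nat_lit 228) (nat_lit 0) (XT.lf (nat_lit 0) (nat_lit 52263781047) (nat_lit 152) (nat_lit 103827546657) (nat_lit 228) (nat_lit 70863214873) (nat_lit 17) (nat_lit 5) (nat_lit 19) (nat_lit 5) (nat_lit 20) (nat_lit 5) (nat_lit 232) (nat_lit 224) (nat_lit 144)) (XT.nd (nat_lit 78) (nat_lit 228) (nat_lit 0) (XT.lf (nat_lit 0) (nat_lit 212767028111) (nat_lit 228) (nat_lit 19882570912) (nat_lit 76) (nat_lit 16838635956) (nat_lit 17) (nat_lit 5) (nat_lit 20) (nat_lit 5) (nat_lit 18) (nat_lit 5) (nat_lit 233) (nat_lit 224) (nat_lit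 143)) (XT.lf (nat_lit 0) (nat_lit 9393760159) (nat_lit 228) (nat_lit 111644494799) (nat_lit 76) (nat_lit 153800532901) (nat_lit 14) (nat_lit 5) (nat_lit 17) (nat_lit 5) (nat_lit 15) (nat_lit 5) (nat_lit 234) (nat_lit 224) (nat_lit 142))))))) (XT.nd (nat_lit 624) (nat_lit 304) (nat_lit 0) (XT.nd (nat_lit 312) (nat_lit 228) (nat_lit 0) (XT.nd (nat_lit 156) (nat_lit 228) (nat_lit 0) (XT.nd (nat_lit 78) (nat_lit 0) (nat_lit 0) (XT.lf (nat_lit 0) (nat_lit 62941810961) (nat_lit 228) (nat_lit 230341390194) (nat_lit 76) (nat_lit 10417210285) (nat_lit 12) (nat_lit 5) (nat_lit 15) (nat_lit 5) (nat_lit 13) (nat_lit 5) (nat_lit 235) (nat_lit 224) (nat_lit 141)) (XT.lf (nat_lit 0) (nat_lit 131204130677) (nat_lit 228) (nat_lit 47189921836) (nat_lit 76) (nat_lit 157962663831) (nat_lit 12) (nat_lit 5) (nat_lit 15) (nat_lit 5) (nat_lit 13) (nat_lit 5) (nat_lit 236) (nat_lit 224) (nat_lit 140))) (XT.nd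 (nat_lit 78) (nat_lit 76) (nat_lit 0) (XT.lf (nat_lit 0) (nat_lit 172039924885) (nat_lit 152) (nat_lit 41803095926) (nat_lit 228) (nat_lit 159737470711) (nat_lit 10) (nat_lit 5) (nat_lit 12) (nat_lit 5) (nat_lit 13) (nat_lit 5) (nat_lit 237) (nat_lit 224) (nat_lit 139)) (XT.lf (nat_lit 0) (nat_lit 8342798193) (nat_lit 76) (nat_lit 304917251741) (nat_lit 152) (nat_lit 102777200638) (nat_lit 9) (nat_lit 5) (nat_lit 10) (nat_lit 5) (nat_lit 11) (nat_lit 4) (nat_lit 238) (nat_lit 224) (nat_lit 138)))) (XT.nd (nat_lit 156) (nat_lit 0) (nat_lit 0) (XT.nd (nat_lit 78) (nat_lit 228) (nat_lit 0) (XT.lf (nat_lit 0) (nat_lit 260695879867) (nat_lit 76) (nat_lit 173888010072) (nat_lit 152) (nat_lit 29719094787) (nat_lit 9) (nat_lit 5) (nat_lit 10) (nat_lit 5) (nat_lit 11) (nat_lit 4) (nat_lit 239) (nat_lit 224) (nat_lit 137)) (XT.lf (nat_lit 0) (nat_lit 31355639181) (nat_lit 152) (nat_lit 20979747823)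 (nat_lit 228) (nat_lit 467308416310) (nat_lit 6) (nat_lit 5) (nat_lit 8) (nat_lit 5) (nat_lit 9) (nat_lit 5) (nat_lit 240) (nat_lit 224) (nat_lit 136))) (XT.nd (nat_lit 78) (nat_lit 0) (nat_lit 0) (XT.lf (nat_lit 0) (nat_lit 154794412820) (nat_lit 228) (nat_lit 273619688986) (nat_lit 76) (nat_lit 154021404253) (nat_lit 6) (nat_lit 5) (nat_lit 9) (nat_lit 5) (nat_lit 7) (nat_lit 4) (nat_lit 241) (nat_lit 224) (nat_lit 135)) (XT.lf (nat_lit 0) (nat_lit 273202340416) (nat_lit 228) (nat_lit 27331507365) (nat_lit 76) (nat_lit 354065713679) (nat_lit 6) (nat_lit 5) (nat_lit 9) (nat_lit 5) (nat_lit 7) (nat_lit 4) (nat_lit 242) (nat_lit 224) (nat_lit 134))))) (XT.nd (nat_lit 312) (nat_lit 152) (nat_lit 0) (XT.nd (nat_lit 156) (nat_lit 76) (nat_lit 0) (XT.nd (nat_lit 78) (nat_lit 0) (nat_lit 0) (XT.lf (nat_lit 0) (nat_lit 269374846794) (nat_lit 76) (nat_lit 146474907944) (nat_lit 152) (nat_lit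 321220207560) (nat_lit 5) (nat_lit 5) (nat_lit 6) (nat_lit 5) (nat_lit 7) (nat_lit 4) (nat_lit 243) (nat_lit 224) (nat_lit 133)) (XT.lf (nat_lit 0) (nat_lit 581448681604) (nat_lit 152) (nat_lit 220364093826) (nat_lit 0) (nat_lit 29973796616) (nat_lit 5) (nat_lit 5) (nat_lit 7) (nat_lit 4) (nat_lit 5) (nat_lit 4) (nat_lit 244) (nat_lit 224) (nat_lit 132))) (XT.nd (nat_lit 78) (nat_lit 0) (nat_lit 0) (XT.lf (nat_lit 0) (nat_lit 63175513359) (nat_lit 76) (nat_lit 714282301779) (nat_lit 76) (nat_lit 162807229413) (nat_lit 4) (nat_lit 4) (nat_lit 5) (nat_lit 5) (nat_lit 5) (nat_lit 4) (nat_lit 245) (nat_lit 224) (nat_lit 131)) (XT.lf (nat_lit 0) (nat_lit 402590432097) (nat_lit 76) (nat_lit 606693424366) (nat_lit 76) (nat_lit 55218189063) (nat_lit 4) (nat_lit 4) (nat_lit 5) (nat_lit 5) (nat_lit 5) (nat_lit 4) (nat_lit 246) (nat_lit 224) (nat_lit 130)))) (XT.nd (nat_lit 156) (nat_lit 76) (nat_lit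 0) (XT.nd (nat_lit 78) (nat_lit 0) (nat_lit 0) (XT.lf (nat_lit 0) (nat_lit 65081986645) (nat_lit 152) (nat_lit 416104844764) (nat_lit 76) (nat_lit 726055962901) (nat_lit 3) (nat_lit 5) (nat_lit 5) (nat_lit 5) (nat_lit 4) (nat_lit 4) (nat_lit 247) (nat_lit 224) (nat_lit 129)) (XT.lf (nat_lit 0) (nat_lit 200250517660) (nat_lit 152) (nat_lit 134954423458) (nat_lit 76) (nat_lit 1036067546676) (nat_lit 3) (nat_lit 5) (nat_lit 5) (nat_lit 5) (nat_lit 4) (nat_lit 4) (nat_lit 248) (nat_lit 224) (nat_lit 128))) (XT.nd (nat_lit 78) (nat_lit 0) (nat_lit 0) (XT.lf (nat_lit 0) (nat_lit 198287565468) (nat_lit 76) (nat_lit 162175498374) (nat_lit 152) (nat_lit 1199062072992) (nat_lit 2) (nat_lit 5) (nat_lit 3) (nat_lit 5) (nat_lit 4) (nat_lit 4) (nat_lit 249) (nat_lit 224) (nat_lit 127)) (XT.nd (nat_lit 78) (nat_lit 0) (nat_lit 0) (XT.lf (nat_lit 0) (nat_lit 549623761560) (nat_lit 152) (nat_lit 1187000507467)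 (nat_lit 0) (nat_lit 38998112961) (nat_lit 2) (nat_lit 5) (nat_lit 4) (nat_lit 4) (nat_lit 2) (nat_lit 4) (nat_lit 250) (nat_lit 224) (nat_lit 126)) (XT.lf (nat_lit 0) (nat_lit 771643868994) (nat_lit 152) (nat_lit 991113375411) (nat_lit 0) (nat_lit 261018145387) (nat_lit 2) (nat_lit 5) (nat_lit 4) (nat_lit 4) (nat_lit 2) (nat_lit 4) (nat_lit 251) (nat_lit 224) (nat_lit 125))))))))
noncomputable def xc56 : XT := (XT.nd (nat_lit 1248) (nat_lit 532) (nat_lit 0) (XT.nd (nat_lit 624) (nat_lit 760) (nat_lit 0) (XT.nd (nat_lit 312) (nat_lit 456) (nat_lit 0) (XT.nd (nat_lit 156) (nat_lit 456) (nat_lit 0) (XT.nd (nat_lit 78) (nat_lit 0) (nat_lit 0) (XT.lf (nat_lit 0) (nat_lit 32944219071) (nat_lit 0) (nat_lit 32944219071) (nat_lit 380) (nat_lit 2106193364) (nat_lit 31) (nat_lit 5) (nat_lit 31) (nat_lit 3) (nat_lit 36) (nat_lit 3) (nat_lit 225) (nat_lit 225) (nat_lit 150)) (XT.lf (nat_lit 76)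 (nat_lit 27966478657) (nat_lit 0) (nat_lit 115137660892) (nat_lit 456) (nat_lit 2968744526) (nat_lit 32) (nat_lit 5) (nat_lit 31) (nat_lit 5) (nat_lit 37) (nat_lit 5) (nat_lit 226) (nat_lit 225) (nat_lit 149))) (XT.nd (nat_lit 78) (nat_lit 0) (nat_lit 76) (XT.lf (nat_lit 0) (nat_lit 2453667653) (nat_lit 456) (nat_lit 14355778374) (nat_lit 532) (nat_lit 140549350624) (nat_lit 25) (nat_lit 5) (nat_lit 31) (nat_lit 5) (nat_lit 32) (nat_lit 5) (nat_lit 227) (nat_lit 225) (nat_lit 148)) (XT.lf (nat_lit 0) (nat_lit 13559217472) (nat_lit 456) (nat_lit 62107762663) (nat_lit 532) (nat_lit 94260810191) (nat_lit 26) (nat_lit 5) (nat_lit 32) (nat_lit 5) (nat_lit 33) (nat_lit 5) (nat_lit 228) (nat_lit 225) (nat_lit 147)))) (XT.nd (nat_lit 156) (nat_lit 228) (nat_lit 0) (XT.nd (nat_lit 78) (nat_lit 380) (nat_lit 0) (XT.lf (nat_lit 0) (nat_lit 29788718643) (nat_lit 456) (nat_lit 117360033572) (nat_lit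 76) (nat_lit 36956738043) (nat_lit 27) (nat_lit 5) (nat_lit 33) (nat_lit 5) (nat_lit 28) (nat_lit 5) (nat_lit 229) (nat_lit 225) (nat_lit 146)) (XT.lf (nat_lit 0) (nat_lit 17139587162) (nat_lit 380) (nat_lit 35672537589) (nat_lit 456) (nat_lit 147248967885) (nat_lit 22) (nat_lit 5) (nat_lit 27) (nat_lit 5) (nat_lit 28) (nat_lit 5) (nat_lit 230) (nat_lit 225) (nat_lit 145))) (XT.nd (nat_lit 78) (nat_lit 228) (nat_lit 0) (XT.lf (nat_lit 0) (nat_lit 85019249127) (nat_lit 456) (nat_lit 41530157053) (nat_lit 76) (nat_lit 91402217680) (nat_lit 22) (nat_lit 5) (nat_lit 28) (nat_lit 5) (nat_lit 23) (nat_lit 5) (nat_lit 231) (nat_lit 225) (nat_lit 144)) (XT.lf (nat_lit 0) (nat_lit 126091374558) (nat_lit 304) (nat_lit 111805302553) (nat_lit 76) (nat_lit 306347480) (nat_lit 19) (nat_lit 5) (nat_lit 23) (nat_lit 5) (nat_lit 20) (nat_lit 5) (nat_lit 232) (nat_lit 225) (nat_lit 143))))) (XT.nd (nat_lit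 312) (nat_lit 228) (nat_lit 0) (XT.nd (nat_lit 156) (nat_lit 380) (nat_lit 0) (XT.nd (nat_lit 78) (nat_lit 0) (nat_lit 0) (XT.lf (nat_lit 0) (nat_lit 60109254391) (nat_lit 152) (nat_lit 119400795046) (nat_lit 228) (nat_lit 81487231384) (nat_lit 17) (nat_lit 5) (nat_lit 19) (nat_lit 5) (nat_lit 20) (nat_lit 5) (nat_lit 233) (nat_lit 225) (nat_lit 142)) (XT.lf (nat_lit 0) (nat_lit 244686468265) (nat_lit 228) (nat_lit 22859453871) (nat_lit 76) (nat_lit 19365161269) (nat_lit 17) (nat_lit 5) (nat_lit 20) (nat_lit 5) (nat_lit 18) (nat_lit 5) (nat_lit 234) (nat_lit 225) (nat_lit 141))) (XT.nd (nat_lit 78) (nat_lit 152) (nat_lit 0) (XT.lf (nat_lit 0) (nat_lit 10806891080) (nat_lit 228) (nat_lit 128385889018) (nat_lit 76) (nat_lit 176871471646) (nat_lit 14) (nat_lit 5) (nat_lit 17) (nat_lit 5) (nat_lit 15) (nat_lit 5) (nat_lit 235) (nat_lit 225) (nat_lit 140)) (XT.lf (nat_lit 0) (nat_lit 72386763662)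 (nat_lit 228) (nat_lit 264887476658) (nat_lit 76) (nat_lit 11980913186) (nat_lit 12) (nat_lit 5) (nat_lit 15) (nat_lit 5) (nat_lit 13) (nat_lit 5) (nat_lit 236) (nat_lit 225) (nat_lit 139)))) (XT.nd (nat_lit 156) (nat_lit 76) (nat_lit 0) (XT.nd (nat_lit 78) (nat_lit 152) (nat_lit 0) (XT.lf (nat_lit 0) (nat_lit 150887951197) (nat_lit 228) (nat_lit 54263956141) (nat_lit 76) (nat_lit 181658038500) (nat_lit 12) (nat_lit 5) (nat_lit 15) (nat_lit 5) (nat_lit 13) (nat_lit 5) (nat_lit 237) (nat_lit 225) (nat_lit 138)) (XT.lf (nat_lit 0) (nat_lit 197849990582) (nat_lit 152) (nat_lit 48072364810) (nat_lit 228) (nat_lit 183694960312) (nat_lit 10) (nat_lit 5) (nat_lit 12) (nat_lit 5) (nat_lit 13) (nat_lit 5) (nat_lit 238) (nat_lit 225) (nat_lit 137))) (XT.nd (nat_lit 78) (nat_lit 0) (nat_lit 0) (XT.lf (nat_lit 0) (nat_lit 9598151897) (nat_lit 76) (nat_lit 350653530758) (nat_lit 152) (nat_lit 118190928938)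 (nat_lit 9) (nat_lit 5) (nat_lit 10) (nat_lit 5) (nat_lit 11) (nat_lit 4) (nat_lit 239) (nat_lit 225) (nat_lit 136)) (XT.lf (nat_lit 0) (nat_lit 299803682695) (nat_lit 76) (nat_lit 199970073545) (nat_lit 152) (nat_lit 34174479182) (nat_lit 9) (nat_lit 5) (nat_lit 10) (nat_lit 5) (nat_lit 11) (nat_lit 4) (nat_lit 240) (nat_lit 225) (nat_lit 135)))))) (XT.nd (nat_lit 624) (nat_lit 76) (nat_lit 0) (XT.nd (nat_lit 312) (nat_lit 152) (nat_lit 0) (XT.nd (nat_lit 156) (nat_lit 76) (nat_lit 0) (XT.nd (nat_lit 78) (nat_lit 0) (nat_lit 0) (XT.lf (nat_lit 0) (nat_lit 36062242094) (nat_lit 152) (nat_lit 24125579790) (nat_lit 228) (nat_lit 537402370196) (nat_lit 6) (nat_lit 5) (nat_lit 8) (nat_lit 5) (nat_lit 9) (nat_lit 5) (nat_lit 241) (nat_lit 225) (nat_lit 134)) (XT.lf (nat_lit 0) (nat_lit 178015447796) (nat_lit 228) (nat_lit 314659675737) (nat_lit 76) (nat_lit 177125548517) (nat_lit 6) (nat_lit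 5) (nat_lit 9) (nat_lit 5) (nat_lit 7) (nat_lit 4) (nat_lit 242) (nat_lit 225) (nat_lit 133))) (XT.nd (nat_lit 78) (nat_lit 76) (nat_lit 0) (XT.lf (nat_lit 0) (nat_lit 314184320219) (nat_lit 228) (nat_lit 31428653820) (nat_lit 76) (nat_lit 407176382579) (nat_lit 6) (nat_lit 5) (nat_lit 9) (nat_lit 5) (nat_lit 7) (nat_lit 4) (nat_lit 243) (nat_lit 225) (nat_lit 132)) (XT.lf (nat_lit 0) (nat_lit 309783435108) (nat_lit 76) (nat_lit 168445255927) (nat_lit 152) (nat_lit 369401640144) (nat_lit 5) (nat_lit 5) (nat_lit 6) (nat_lit 5) (nat_lit 7) (nat_lit 4) (nat_lit 244) (nat_lit 225) (nat_lit 131)))) (XT.nd (nat_lit 156) (nat_lit 76) (nat_lit 0) (XT.nd (nat_lit 78) (nat_lit 76) (nat_lit 0) (XT.lf (nat_lit 0) (nat_lit 668667283364) (nat_lit 152) (nat_lit 253416564076) (nat_lit 0) (nat_lit 34470599827) (nat_lit 5) (nat_lit 5) (nat_lit 7) (nat_lit 4) (nat_lit 5) (nat_lit 4) (nat_lit 245) (nat_lit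 225) (nat_lit 130)) (XT.lf (nat_lit 0) (nat_lit 72653802723) (nat_lit 76) (nat_lit 821423861897) (nat_lit 76) (nat_lit 187227036676) (nat_lit 4) (nat_lit 4) (nat_lit 5) (nat_lit 5) (nat_lit 5) (nat_lit 4) (nat_lit 246) (nat_lit 225) (nat_lit 129))) (XT.nd (nat_lit 78) (nat_lit 76) (nat_lit 0) (XT.lf (nat_lit 0) (nat_lit 462980703312) (nat_lit 76) (nat_lit 697696755283) (nat_lit 76) (nat_lit 63499806858) (nat_lit 4) (nat_lit 4) (nat_lit 5) (nat_lit 5) (nat_lit 5) (nat_lit 4) (nat_lit 247) (nat_lit 225) (nat_lit 128)) (XT.lf (nat_lit 0) (nat_lit 74845202042) (nat_lit 152) (nat_lit 478519035311) (nat_lit 76) (nat_lit 834964898680) (nat_lit 3) (nat_lit 5) (nat_lit 5) (nat_lit 5) (nat_lit 4) (nat_lit 4) (nat_lit 248) (nat_lit 225) (nat_lit 127))))) (XT.nd (nat_lit 29562) (nat_lit 0) (nat_lit 1520) (XT.nd (nat_lit 156) (nat_lit 0) (nat_lit 0) (XT.nd (nat_lit 78) (nat_lit 76) (nat_lit 0) (XT.lf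 (nat_lit 0) (nat_lit 230288893047) (nat_lit 152) (nat_lit 155196251179) (nat_lit 76) (nat_lit 1191478149411) (nat_lit 3) (nat_lit 5) (nat_lit 5) (nat_lit 5) (nat_lit 4) (nat_lit 4) (nat_lit 249) (nat_lit 225) (nat_lit 126)) (XT.lf (nat_lit 0) (nat_lit 228031923018) (nat_lit 76) (nat_lit 186501323494) (nat_lit 152) (nat_lit 1378920599951) (nat_lit 2) (nat_lit 5) (nat_lit 3) (nat_lit 5) (nat_lit 4) (nat_lit 4) (nat_lit 250) (nat_lit 225) (nat_lit 125))) (XT.nd (nat_lit 29328) (nat_lit 0) (nat_lit 2204) (XT.lf (nat_lit 0) (nat_lit 632067965019) (nat_lit 152) (nat_lit 1365049477839) (nat_lit 0) (nat_lit 44848242638) (nat_lit 2) (nat_lit 5) (nat_lit 4) (nat_lit 4) (nat_lit 2) (nat_lit 4) (nat_lit 251) (nat_lit 225) (nat_lit 124)) (XT.lf (nat_lit 0) (nat_lit 37888373297) (nat_lit 0) (nat_lit 37888373297) (nat_lit 380) (nat_lit 2416624588) (nat_lit 31) (nat_lit 5) (nat_lit 31) (nat_lit 3) (nat_lit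 36) (nat_lit 3) (nat_lit 226) (nat_lit 226) (nat_lit 148)))) (XT.nd (nat_lit 156) (nat_lit 228) (nat_lit 0) (XT.nd (nat_lit 78) (nat_lit 456) (nat_lit 0) (XT.lf (nat_lit 76) (nat_lit 32167010422) (nat_lit 0) (nat_lit 132411548283) (nat_lit 456) (nat_lit 3404464328) (nat_lit 32) (nat_lit 5) (nat_lit 31) (nat_lit 5) (nat_lit 37) (nat_lit 5) (nat_lit 227) (nat_lit 226) (nat_lit 147)) (XT.lf (nat_lit 0) (nat_lit 2829641324) (nat_lit 456) (nat_lit 16503820840) (nat_lit 532) (nat_lit 161628447804) (nat_lit 25) (nat_lit 5) (nat_lit 31) (nat_lit 5) (nat_lit 32) (nat_lit 5) (nat_lit 228) (nat_lit 226) (nat_lit 146))) (XT.nd (nat_lit 78) (nat_lit 304) (nat_lit 0) (XT.lf (nat_lit 0) (nat_lit 15600056010) (nat_lit 456) (nat_lit 71418378686) (nat_lit 532) (nat_lit 108397904838) (nat_lit 26) (nat_lit 5) (nat_lit 32) (nat_lit 5) (nat_lit 33) (nat_lit 5) (nat_lit 229) (nat_lit 226) (nat_lit 145)) (XT.nd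 (nat_lit 78) (nat_lit 380) (nat_lit 0) (XT.lf (nat_lit 0) (nat_lit 34263170943) (nat_lit 456) (nat_lit 134958385280) (nat_lit 76) (nat_lit 42499211344) (nat_lit 27) (nat_lit 5) (nat_lit 33) (nat_lit 5) (nat_lit 28) (nat_lit 5) (nat_lit 230) (nat_lit 226) (nat_lit 144)) (XT.lf (nat_lit 0) (nat_lit 19715700038) (nat_lit 380) (nat_lit 41023710926) (nat_lit 456) (nat_lit 169330360629) (nat_lit 22) (nat_lit 5) (nat_lit 27) (nat_lit 5) (nat_lit 28) (nat_lit 5) (nat_lit 231) (nat_lit 226) (nat_lit 143))))))))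
noncomputable def xc57 : XT := (XT.nd (nat_lit 1326) (nat_lit 152) (nat_lit 0) (XT.nd (nat_lit 624) (nat_lit 456) (nat_lit 0) (XT.nd (nat_lit 312) (nat_lit 532) (nat_lit 0) (XT.nd (nat_lit 156) (nat_lit 152) (nat_lit 0) (XT.nd (nat_lit 78) (nat_lit 228) (nat_lit 0) (XT.lf (nat_lit 0) (nat_lit 97776884723) (nat_lit 456) (nat_lit 47754752977) (nat_lit 76) (nat_lit 105112308544) (nat_lit 22) (nat_lit 5) (nat_lit 28) (nat_lit 5) (nat_lit 23) (nat_lit 5) (nat_lit 232) (nat_lit 226) (nat_lit 142)) (XT.lf (nat_lit 0) (nat_lit 145009324684) (nat_lit 304) (nat_lit 128571219036) (nat_lit 76) (nat_lit 352559100) (nat_lit 19) (nat_lit 5) (nat_lit 23) (nat_lit 5) (nat_lit 20) (nat_lit 5) (nat_lit 233) (nat_lit 226) (nat_lit 141))) (XT.nd (nat_lit 78) (nat_lit 0) (nat_lit 0) (XT.lf (nat_lit 0) (nat_lit 69130108475) (nat_lit 152) (nat_lit 137310246167) (nat_lit 228) (nat_lit 93706183222) (nat_lit 17)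 (nat_lit 5) (nat_lit 19) (nat_lit 5) (nat_lit 20) (nat_lit 5) (nat_lit 234) (nat_lit 226) (nat_lit 140)) (XT.lf (nat_lit 0) (nat_lit 281392754903) (nat_lit 228) (nat_lit 26284211137) (nat_lit 76) (nat_lit 22270487384) (nat_lit 17) (nat_lit 5) (nat_lit 20) (nat_lit 5) (nat_lit 18) (nat_lit 5) (nat_lit 235) (nat_lit 226) (nat_lit 139)))) (XT.nd (nat_lit 156) (nat_lit 152) (nat_lit 0) (XT.nd (nat_lit 78) (nat_lit 152) (nat_lit 0) (XT.lf (nat_lit 0) (nat_lit 12430999901) (nat_lit 228) (nat_lit 147639779932) (nat_lit 76) (nat_lit 203402841777) (nat_lit 14) (nat_lit 5) (nat_lit 17) (nat_lit 5) (nat_lit 15) (nat_lit 5) (nat_lit 236) (nat_lit 226) (nat_lit 138)) (XT.lf (nat_lit 0) (nat_lit 83247561619) (nat_lit 228) (nat_lit 304616725139) (nat_lit 76) (nat_lit 13778898072) (nat_lit 12) (nat_lit 5) (nat_lit 15) (nat_lit 5) (nat_lit 13) (nat_lit 5) (nat_lit 237) (nat_lit 226) (nat_lit 137))) (XT.nd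 (nat_lit 78) (nat_lit 152) (nat_lit 0) (XT.lf (nat_lit 0) (nat_lit 173523564231) (nat_lit 228) (nat_lit 62400181720) (nat_lit 76) (nat_lit 208907481586) (nat_lit 12) (nat_lit 5) (nat_lit 15) (nat_lit 5) (nat_lit 13) (nat_lit 5) (nat_lit 238) (nat_lit 226) (nat_lit 136)) (XT.lf (nat_lit 0) (nat_lit 227530571940) (nat_lit 152) (nat_lit 55282315557) (nat_lit 228) (nat_lit 211246836870) (nat_lit 10) (nat_lit 5) (nat_lit 12) (nat_lit 5) (nat_lit 13) (nat_lit 5) (nat_lit 239) (nat_lit 226) (nat_lit 135))))) (XT.nd (nat_lit 312) (nat_lit 152) (nat_lit 0) (XT.nd (nat_lit 156) (nat_lit 228) (nat_lit 0) (XT.nd (nat_lit 78) (nat_lit 0) (nat_lit 0) (XT.lf (nat_lit 0) (nat_lit 11040849331) (nat_lit 76) (nat_lit 403250570773) (nat_lit 152) (nat_lit 135917411912) (nat_lit 9) (nat_lit 5) (nat_lit 10) (nat_lit 5) (nat_lit 11) (nat_lit 4) (nat_lit 240) (nat_lit 226) (nat_lit 134)) (XT.lf (nat_lit 0) (nat_lit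 344776821751) (nat_lit 76) (nat_lit 229964724056) (nat_lit 152) (nat_lit 39298775958) (nat_lit 9) (nat_lit 5) (nat_lit 10) (nat_lit 5) (nat_lit 11) (nat_lit 4) (nat_lit 241) (nat_lit 226) (nat_lit 133))) (XT.nd (nat_lit 78) (nat_lit 0) (nat_lit 0) (XT.lf (nat_lit 0) (nat_lit 41474041195) (nat_lit 152) (nat_lit 27743562159) (nat_lit 228) (nat_lit 618010980122) (nat_lit 6) (nat_lit 5) (nat_lit 8) (nat_lit 5) (nat_lit 9) (nat_lit 5) (nat_lit 242) (nat_lit 226) (nat_lit 132)) (XT.lf (nat_lit 0) (nat_lit 204719181262) (nat_lit 228) (nat_lit 361856383925) (nat_lit 76) (nat_lit 203695086749) (nat_lit 6) (nat_lit 5) (nat_lit 9) (nat_lit 5) (nat_lit 7) (nat_lit 4) (nat_lit 243) (nat_lit 226) (nat_lit 131)))) (XT.nd (nat_lit 156) (nat_lit 76) (nat_lit 0) (XT.nd (nat_lit 78) (nat_lit 76) (nat_lit 0) (XT.lf (nat_lit 0) (nat_lit 361313199815) (nat_lit 228) (nat_lit 36141001308) (nat_lit 76) (nat_lit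 468253453840) (nat_lit 6) (nat_lit 5) (nat_lit 9) (nat_lit 5) (nat_lit 7) (nat_lit 4) (nat_lit 244) (nat_lit 226) (nat_lit 130)) (XT.lf (nat_lit 0) (nat_lit 356252735853) (nat_lit 76) (nat_lit 193711372703) (nat_lit 152) (nat_lit 424810677431) (nat_lit 5) (nat_lit 5) (nat_lit 6) (nat_lit 5) (nat_lit 7) (nat_lit 4) (nat_lit 245) (nat_lit 226) (nat_lit 129))) (XT.nd (nat_lit 78) (nat_lit 76) (nat_lit 0) (XT.lf (nat_lit 0) (nat_lit 768968358492) (nat_lit 152) (nat_lit 291427427648) (nat_lit 0) (nat_lit 39641744599) (nat_lit 5) (nat_lit 5) (nat_lit 7) (nat_lit 4) (nat_lit 5) (nat_lit 4) (nat_lit 246) (nat_lit 226) (nat_lit 128)) (XT.nd (nat_lit 78) (nat_lit 0) (nat_lit 0) (XT.lf (nat_lit 0) (nat_lit 83553356958) (nat_lit 76) (nat_lit 944636847497) (nat_lit 76) (nat_lit 215310126470) (nat_lit 4) (nat_lit 4) (nat_lit 5) (nat_lit 5) (nat_lit 5) (nat_lit 4) (nat_lit 247) (nat_lit 226) (nat_lit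 127)) (XT.lf (nat_lit 0) (nat_lit 532429099092) (nat_lit 76) (nat_lit 802350752328) (nat_lit 76) (nat_lit 73023938141) (nat_lit 4) (nat_lit 4) (nat_lit 5) (nat_lit 5) (nat_lit 5) (nat_lit 4) (nat_lit 248) (nat_lit 226) (nat_lit 126))))))) (XT.nd (nat_lit 29952) (nat_lit 0) (nat_lit 608) (XT.nd (nat_lit 29640) (nat_lit 0) (nat_lit 1748) (XT.nd (nat_lit 156) (nat_lit 76) (nat_lit 0) (XT.nd (nat_lit 78) (nat_lit 0) (nat_lit 0) (XT.lf (nat_lit 0) (nat_lit 86072676034) (nat_lit 152) (nat_lit 550295729045) (nat_lit 76) (nat_lit 960210042815) (nat_lit 3) (nat_lit 5) (nat_lit 5) (nat_lit 5) (nat_lit 4) (nat_lit 4) (nat_lit 249) (nat_lit 226) (nat_lit 125)) (XT.lf (nat_lit 0) (nat_lit 264832830209) (nat_lit 152) (nat_lit 178474678801) (nat_lit 76) (nat_lit 1370200227765) (nat_lit 3) (nat_lit 5) (nat_lit 5) (nat_lit 5) (nat_lit 4) (nat_lit 4) (nat_lit 250) (nat_lit 226) (nat_lit 124))) (XT.nd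 (nat_lit 29406) (nat_lit 0) (nat_lit 2204) (XT.lf (nat_lit 0) (nat_lit 262237636030) (nat_lit 76) (nat_lit 214476144221) (nat_lit 152) (nat_lit 1585758097136) (nat_lit 2) (nat_lit 5) (nat_lit 3) (nat_lit 5) (nat_lit 4) (nat_lit 4) (nat_lit 251) (nat_lit 226) (nat_lit 123)) (XT.lf (nat_lit 0) (nat_lit 43573535806) (nat_lit 0) (nat_lit 43573535806) (nat_lit 380) (nat_lit 2774961165) (nat_lit 31) (nat_lit 5) (nat_lit 31) (nat_lit 3) (nat_lit 36) (nat_lit 3) (nat_lit 227) (nat_lit 227) (nat_lit 146)))) (XT.nd (nat_lit 156) (nat_lit 0) (nat_lit 76) (XT.nd (nat_lit 78) (nat_lit 456) (nat_lit 0) (XT.lf (nat_lit 76) (nat_lit 36996266118) (nat_lit 0) (nat_lit 152275729112) (nat_lit 456) (nat_lit 3907881141) (nat_lit 32) (nat_lit 5) (nat_lit 31) (nat_lit 5) (nat_lit 37) (nat_lit 5) (nat_lit 228) (nat_lit 227) (nat_lit 145)) (XT.lf (nat_lit 0) (nat_lit 3260078844) (nat_lit 456) (nat_lit 18975368037)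 (nat_lit 532) (nat_lit 185870215608) (nat_lit 25) (nat_lit 5) (nat_lit 31) (nat_lit 5) (nat_lit 32) (nat_lit 5) (nat_lit 229) (nat_lit 227) (nat_lit 144))) (XT.nd (nat_lit 78) (nat_lit 0) (nat_lit 76) (XT.lf (nat_lit 0) (nat_lit 17945324084) (nat_lit 456) (nat_lit 82126940119) (nat_lit 532) (nat_lit 124656057949) (nat_lit 26) (nat_lit 5) (nat_lit 32) (nat_lit 5) (nat_lit 33) (nat_lit 5) (nat_lit 230) (nat_lit 227) (nat_lit 143)) (XT.lf (nat_lit 0) (nat_lit 39407292713) (nat_lit 456) (nat_lit 155197868344) (nat_lit 76) (nat_lit 48873308619) (nat_lit 27) (nat_lit 5) (nat_lit 33) (nat_lit 5) (nat_lit 28) (nat_lit 5) (nat_lit 231) (nat_lit 227) (nat_lit 142))))) (XT.nd (nat_lit 312) (nat_lit 532) (nat_lit 0) (XT.nd (nat_lit 156) (nat_lit 380) (nat_lit 0) (XT.nd (nat_lit 78) (nat_lit 0) (nat_lit 0) (XT.lf (nat_lit 0) (nat_lit 22676967938) (nat_lit 380) (nat_lit 47177488888) (nat_lit 456)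 (nat_lit 194725413824) (nat_lit 22) (nat_lit 5) (nat_lit 27) (nat_lit 5) (nat_lit 28) (nat_lit 5) (nat_lit 232) (nat_lit 227) (nat_lit 141)) (XT.lf (nat_lit 0) (nat_lit 112447007774) (nat_lit 456) (nat_lit 54914239925) (nat_lit 76) (nat_lit 120878971998) (nat_lit 22) (nat_lit 5) (nat_lit 28) (nat_lit 5) (nat_lit 23) (nat_lit 5) (nat_lit 233) (nat_lit 227) (nat_lit 140))) (XT.nd (nat_lit 78) (nat_lit 152) (nat_lit 0) (XT.lf (nat_lit 0) (nat_lit 166763932416) (nat_lit 304) (nat_lit 147853212742) (nat_lit 76) (nat_lit 405639183) (nat_lit 19) (nat_lit 5) (nat_lit 23) (nat_lit 5) (nat_lit 20) (nat_lit 5) (nat_lit 234) (nat_lit 227) (nat_lit 139)) (XT.lf (nat_lit 0) (nat_lit 79503001628) (nat_lit 152) (nat_lit 157906277885) (nat_lit 228) (nat_lit 107758985662) (nat_lit 17) (nat_lit 5) (nat_lit 19) (nat_lit 5) (nat_lit 20) (nat_lit 5) (nat_lit 235) (nat_lit 227) (nat_lit 138)))) (XT.nd (nat_lit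 156) (nat_lit 304) (nat_lit 0) (XT.nd (nat_lit 78) (nat_lit 228) (nat_lit 0) (XT.lf (nat_lit 0) (nat_lit 323604175813) (nat_lit 228) (nat_lit 30223696634) (nat_lit 76) (nat_lit 25611477826) (nat_lit 17) (nat_lit 5) (nat_lit 20) (nat_lit 5) (nat_lit 18) (nat_lit 5) (nat_lit 236) (nat_lit 227) (nat_lit 137)) (XT.lf (nat_lit 0) (nat_lit 14297975147) (nat_lit 228) (nat_lit 169782728065) (nat_lit 76) (nat_lit 233913759071) (nat_lit 14) (nat_lit 5) (nat_lit 17) (nat_lit 5) (nat_lit 15) (nat_lit 5) (nat_lit 237) (nat_lit 227) (nat_lit 136))) (XT.nd (nat_lit 78) (nat_lit 152) (nat_lit 0) (XT.lf (nat_lit 0) (nat_lit 95736800518) (nat_lit 228) (nat_lit 350306305352) (nat_lit 76) (nat_lit 15846373923) (nat_lit 12) (nat_lit 5) (nat_lit 15) (nat_lit 5) (nat_lit 13) (nat_lit 5) (nat_lit 238) (nat_lit 227) (nat_lit 135)) (XT.nd (nat_lit 78) (nat_lit 152) (nat_lit 0) (XT.lf (nat_lit 0) (nat_lit 199553929001)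 (nat_lit 228) (nat_lit 71757662406) (nat_lit 76) (nat_lit 240244161337) (nat_lit 12) (nat_lit 5) (nat_lit 15) (nat_lit 5) (nat_lit 13) (nat_lit 5) (nat_lit 239) (nat_lit 227) (nat_lit 134)) (XT.lf (nat_lit 0) (nat_lit 261662488748) (nat_lit 152) (nat_lit 63573979357) (nat_lit 228) (nat_lit 242932072238) (nat_lit 10) (nat_lit 5) (nat_lit 12) (nat_lit 5) (nat_lit 13) (nat_lit 5) (nat_lit 240) (nat_lit 227) (nat_lit 133))))))))
noncomputable def xc58 : XT := (XT.nd (nat_lit 30654) (nat_lit 0) (nat_lit 76) (XT.nd (nat_lit 624) (nat_lit 76) (nat_lit 0) (XT.nd (nat_lit 312) (nat_lit 152) (nat_lit 0) (XT.nd (nat_lit 156) (nat_lit 228) (nat_lit 0) (XT.nd (nat_lit 78) (nat_lit 0) (nat_lit 0) (XT.lf (nat_lit 0) (nat_lit 12699225993) (nat_lit 76) (nat_lit 463737408110) (nat_lit 152) (nat_lit 156303393175) (nat_lit 9) (nat_lit 5) (nat_lit 10) (nat_lit 5) (nat_lit 11) (nat_lit 4) (nat_lit 241) (nat_lit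 227) (nat_lit 132)) (XT.lf (nat_lit 0) (nat_lit 396495300895) (nat_lit 76) (nat_lit 264458781987) (nat_lit 152) (nat_lit 45192174505) (nat_lit 9) (nat_lit 5) (nat_lit 10) (nat_lit 5) (nat_lit 11) (nat_lit 4) (nat_lit 242) (nat_lit 227) (nat_lit 131))) (XT.nd (nat_lit 78) (nat_lit 0) (nat_lit 0) (XT.lf (nat_lit 0) (nat_lit 47697009596) (nat_lit 152) (nat_lit 31904450284) (nat_lit 228) (nat_lit 710711307213) (nat_lit 6) (nat_lit 5) (nat_lit 8) (nat_lit 5) (nat_lit 9) (nat_lit 5) (nat_lit 243) (nat_lit 227) (nat_lit 130)) (XT.lf (nat_lit 0) (nat_lit 235428129376) (nat_lit 228) (nat_lit 416133145352) (nat_lit 76) (nat_lit 234249883565) (nat_lit 6) (nat_lit 5) (nat_lit 9) (nat_lit 5) (nat_lit 7) (nat_lit 4) (nat_lit 244) (nat_lit 227) (nat_lit 129)))) (XT.nd (nat_lit 156) (nat_lit 76) (nat_lit 0) (XT.nd (nat_lit 78) (nat_lit 76) (nat_lit 0) (XT.lf (nat_lit 0) (nat_lit 415511111025) (nat_lit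 228) (nat_lit 41560676582) (nat_lit 76) (nat_lit 538491936093) (nat_lit 6) (nat_lit 5) (nat_lit 9) (nat_lit 5) (nat_lit 7) (nat_lit 4) (nat_lit 245) (nat_lit 227) (nat_lit 128)) (XT.lf (nat_lit 0) (nat_lit 409691996309) (nat_lit 76) (nat_lit 222767570772) (nat_lit 152) (nat_lit 488531365070) (nat_lit 5) (nat_lit 5) (nat_lit 6) (nat_lit 5) (nat_lit 7) (nat_lit 4) (nat_lit 246) (nat_lit 227) (nat_lit 127))) (XT.nd (nat_lit 78) (nat_lit 76) (nat_lit 0) (XT.lf (nat_lit 0) (nat_lit 884314355270) (nat_lit 152) (nat_lit 335140316057) (nat_lit 0) (nat_lit 45588425795) (nat_lit 5) (nat_lit 5) (nat_lit 7) (nat_lit 4) (nat_lit 5) (nat_lit 4) (nat_lit 247) (nat_lit 227) (nat_lit 126)) (XT.lf (nat_lit 0) (nat_lit 96087482487) (nat_lit 76) (nat_lit 1086331925711) (nat_lit 76) (nat_lit 247605915226) (nat_lit 4) (nat_lit 4) (nat_lit 5) (nat_lit 5) (nat_lit 5) (nat_lit 4) (nat_lit 248) (nat_lit 227)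 (nat_lit 125))))) (XT.nd (nat_lit 29718) (nat_lit 0) (nat_lit 1672) (XT.nd (nat_lit 156) (nat_lit 0) (nat_lit 0) (XT.nd (nat_lit 78) (nat_lit 76) (nat_lit 0) (XT.lf (nat_lit 0) (nat_lit 612294439596) (nat_lit 76) (nat_lit 922702974820) (nat_lit 76) (nat_lit 83976893893) (nat_lit 4) (nat_lit 4) (nat_lit 5) (nat_lit 5) (nat_lit 5) (nat_lit 4) (nat_lit 249) (nat_lit 227) (nat_lit 124)) (XT.lf (nat_lit 0) (nat_lit 98984101965) (nat_lit 152) (nat_lit 632839210093) (nat_lit 76) (nat_lit 1104241858752) (nat_lit 3) (nat_lit 5) (nat_lit 5) (nat_lit 5) (nat_lit 4) (nat_lit 4) (nat_lit 250) (nat_lit 227) (nat_lit 123))) (XT.nd (nat_lit 29484) (nat_lit 0) (nat_lit 2128) (XT.lf (nat_lit 0) (nat_lit 304558210851) (nat_lit 152) (nat_lit 205245116875) (nat_lit 76) (nat_lit 1575730531074) (nat_lit 3) (nat_lit 5) (nat_lit 5) (nat_lit 5) (nat_lit 4) (nat_lit 4) (nat_lit 251) (nat_lit 227) (nat_lit 122))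 (XT.lf (nat_lit 0) (nat_lit 50111007775) (nat_lit 0) (nat_lit 50111007775) (nat_lit 380) (nat_lit 3188061966) (nat_lit 31) (nat_lit 5) (nat_lit 31) (nat_lit 3) (nat_lit 36) (nat_lit 3) (nat_lit 228) (nat_lit 228) (nat_lit 144)))) (XT.nd (nat_lit 156) (nat_lit 0) (nat_lit 76) (XT.nd (nat_lit 78) (nat_lit 456) (nat_lit 0) (XT.lf (nat_lit 76) (nat_lit 42548884964) (nat_lit 0) (nat_lit 175118939963) (nat_lit 456) (nat_lit 4488579126) (nat_lit 32) (nat_lit 5) (nat_lit 31) (nat_lit 5) (nat_lit 37) (nat_lit 5) (nat_lit 229) (nat_lit 228) (nat_lit 143)) (XT.lf (nat_lit 0) (nat_lit 3753620971) (nat_lit 456) (nat_lit 21818629062) (nat_lit 532) (nat_lit 213748858068) (nat_lit 25) (nat_lit 5) (nat_lit 31) (nat_lit 5) (nat_lit 32) (nat_lit 5) (nat_lit 230) (nat_lit 228) (nat_lit 142))) (XT.nd (nat_lit 78) (nat_lit 0) (nat_lit 76) (XT.lf (nat_lit 0) (nat_lit 20641099765) (nat_lit 456) (nat_lit 94442808834)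 (nat_lit 532) (nat_lit 143353307765) (nat_lit 26) (nat_lit 5) (nat_lit 32) (nat_lit 5) (nat_lit 33) (nat_lit 5) (nat_lit 231) (nat_lit 228) (nat_lit 141)) (XT.lf (nat_lit 0) (nat_lit 45321899760) (nat_lit 456) (nat_lit 178474316287) (nat_lit 76) (nat_lit 56203711772) (nat_lit 27) (nat_lit 5) (nat_lit 33) (nat_lit 5) (nat_lit 28) (nat_lit 5) (nat_lit 232) (nat_lit 228) (nat_lit 140)))))) (XT.nd (nat_lit 624) (nat_lit 608) (nat_lit 0) (XT.nd (nat_lit 312) (nat_lit 380) (nat_lit 0) (XT.nd (nat_lit 156) (nat_lit 380) (nat_lit 0) (XT.nd (nat_lit 78) (nat_lit 0) (nat_lit 0) (XT.lf (nat_lit 0) (nat_lit 26081471839) (nat_lit 380) (nat_lit 54254279573) (nat_lit 456) (nat_lit 223930822572) (nat_lit 22) (nat_lit 5) (nat_lit 27) (nat_lit 5) (nat_lit 28) (nat_lit 5) (nat_lit 233) (nat_lit 228) (nat_lit 139)) (XT.lf (nat_lit 0) (nat_lit 129316773754) (nat_lit 456) (nat_lit 63148558523) (nat_lit 76)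 (nat_lit 139010679554) (nat_lit 22) (nat_lit 5) (nat_lit 28) (nat_lit 5) (nat_lit 23) (nat_lit 5) (nat_lit 234) (nat_lit 228) (nat_lit 138))) (XT.nd (nat_lit 78) (nat_lit 152) (nat_lit 0) (XT.lf (nat_lit 0) (nat_lit 191780948765) (nat_lit 304) (nat_lit 170028405126) (nat_lit 76) (nat_lit 466633429) (nat_lit 19) (nat_lit 5) (nat_lit 23) (nat_lit 5) (nat_lit 20) (nat_lit 5) (nat_lit 235) (nat_lit 228) (nat_lit 137)) (XT.lf (nat_lit 0) (nat_lit 91431005279) (nat_lit 152) (nat_lit 181591837559) (nat_lit 228) (nat_lit 123920470530) (nat_lit 17) (nat_lit 5) (nat_lit 19) (nat_lit 5) (nat_lit 20) (nat_lit 5) (nat_lit 236) (nat_lit 228) (nat_lit 136)))) (XT.nd (nat_lit 156) (nat_lit 152) (nat_lit 0) (XT.nd (nat_lit 78) (nat_lit 228) (nat_lit 0) (XT.lf (nat_lit 0) (nat_lit 372146698346) (nat_lit 228) (nat_lit 34754872169) (nat_lit 76) (nat_lit 29453515065) (nat_lit 17) (nat_lit 5) (nat_lit 20)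 (nat_lit 5) (nat_lit 18) (nat_lit 5) (nat_lit 237) (nat_lit 228) (nat_lit 135)) (XT.lf (nat_lit 0) (nat_lit 16444429651) (nat_lit 228) (nat_lit 195247854585) (nat_lit 76) (nat_lit 269001194219) (nat_lit 14) (nat_lit 5) (nat_lit 17) (nat_lit 5) (nat_lit 15) (nat_lit 5) (nat_lit 238) (nat_lit 228) (nat_lit 134))) (XT.nd (nat_lit 78) (nat_lit 0) (nat_lit 0) (XT.lf (nat_lit 0) (nat_lit 110098912018) (nat_lit 228) (nat_lit 402850036744) (nat_lit 76) (nat_lit 18223814806) (nat_lit 12) (nat_lit 5) (nat_lit 15) (nat_lit 5) (nat_lit 13) (nat_lit 5) (nat_lit 239) (nat_lit 228) (nat_lit 133)) (XT.lf (nat_lit 0) (nat_lit 229488402197) (nat_lit 228) (nat_lit 82519386193) (nat_lit 76) (nat_lit 276281207098) (nat_lit 12) (nat_lit 5) (nat_lit 15) (nat_lit 5) (nat_lit 13) (nat_lit 5) (nat_lit 240) (nat_lit 228) (nat_lit 132))))) (XT.nd (nat_lit 312) (nat_lit 152) (nat_lit 0) (XT.nd (nat_lit 156) (nat_lit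 228) (nat_lit 0) (XT.nd (nat_lit 78) (nat_lit 76) (nat_lit 0) (XT.lf (nat_lit 0) (nat_lit 300913624645) (nat_lit 152) (nat_lit 73109559411) (nat_lit 228) (nat_lit 279370529454) (nat_lit 10) (nat_lit 5) (nat_lit 12) (nat_lit 5) (nat_lit 13) (nat_lit 5) (nat_lit 241) (nat_lit 228) (nat_lit 131)) (XT.lf (nat_lit 0) (nat_lit 14605810658) (nat_lit 76) (nat_lit 533297453520) (nat_lit 152) (nat_lit 179747669241) (nat_lit 9) (nat_lit 5) (nat_lit 10) (nat_lit 5) (nat_lit 11) (nat_lit 4) (nat_lit 242) (nat_lit 228) (nat_lit 130))) (XT.nd (nat_lit 78) (nat_lit 228) (nat_lit 0) (XT.lf (nat_lit 0) (nat_lit 455971074956) (nat_lit 76) (nat_lit 304127107279) (nat_lit 152) (nat_lit 51969928585) (nat_lit 9) (nat_lit 5) (nat_lit 10) (nat_lit 5) (nat_lit 11) (nat_lit 4) (nat_lit 243) (nat_lit 228) (nat_lit 129)) (XT.lf (nat_lit 0) (nat_lit 54852969141) (nat_lit 152) (nat_lit 36689629207) (nat_lit 228) (nat_lit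 817317005240) (nat_lit 6) (nat_lit 5) (nat_lit 8) (nat_lit 5) (nat_lit 9) (nat_lit 5) (nat_lit 244) (nat_lit 228) (nat_lit 128)))) (XT.nd (nat_lit 156) (nat_lit 152) (nat_lit 0) (XT.nd (nat_lit 78) (nat_lit 0) (nat_lit 0) (XT.lf (nat_lit 0) (nat_lit 270743158554) (nat_lit 228) (nat_lit 478551834614) (nat_lit 76) (nat_lit 269387769732) (nat_lit 6) (nat_lit 5) (nat_lit 9) (nat_lit 5) (nat_lit 7) (nat_lit 4) (nat_lit 245) (nat_lit 228) (nat_lit 127)) (XT.lf (nat_lit 0) (nat_lit 477838481829) (nat_lit 228) (nat_lit 47793662816) (nat_lit 76) (nat_lit 619266077492) (nat_lit 6) (nat_lit 5) (nat_lit 9) (nat_lit 5) (nat_lit 7) (nat_lit 4) (nat_lit 246) (nat_lit 228) (nat_lit 126))) (XT.nd (nat_lit 78) (nat_lit 76) (nat_lit 0) (XT.lf (nat_lit 0) (nat_lit 471146816608) (nat_lit 76) (nat_lit 256182322391) (nat_lit 152) (nat_lit 561810378733) (nat_lit 5) (nat_lit 5) (nat_lit 6) (nat_lit 5) (nat_lit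 7) (nat_lit 4) (nat_lit 247) (nat_lit 228) (nat_lit 125)) (XT.nd (nat_lit 78) (nat_lit 76) (nat_lit 0) (XT.lf (nat_lit 0) (nat_lit 1016962070379) (nat_lit 152) (nat_lit 385410436631) (nat_lit 0) (nat_lit 52427006871) (nat_lit 5) (nat_lit 5) (nat_lit 7) (nat_lit 4) (nat_lit 5) (nat_lit 4) (nat_lit 248) (nat_lit 228) (nat_lit 124)) (XT.lf (nat_lit 0) (nat_lit 110501453243) (nat_lit 76) (nat_lit 1249281375126) (nat_lit 76) (nat_lit 284746250364) (nat_lit 4) (nat_lit 4) (nat_lit 5) (nat_lit 5) (nat_lit 5) (nat_lit 4) (nat_lit 249) (nat_lit 228) (nat_lit 123))))))))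
noncomputable def xc59 : XT := (XT.nd (nat_lit 30888) (nat_lit 0) (nat_lit 0) (XT.nd (nat_lit 30186) (nat_lit 0) (nat_lit 380) (XT.nd (nat_lit 29874) (nat_lit 0) (nat_lit 1368) (XT.nd (nat_lit 29718) (nat_lit 0) (nat_lit 1596) (XT.nd (nat_lit 29640) (nat_lit 0) (nat_lit 2052) (XT.lf (nat_lit 0) (nat_lit 704139343260) (nat_lit 76) (nat_lit 1061108125877) (nat_lit 76) (nat_lit 96572947850) (nat_lit 4) (nat_lit 4) (nat_lit 5) (nat_lit 5) (nat_lit 5) (nat_lit 4) (nat_lit 250) (nat_lit 228) (nat_lit 122)) (XT.lf (nat_lit 0) (nat_lit 57628748997) (nat_lit 0) (nat_lit 57628748997) (nat_lit 380) (nat_lit 3663894418) (nat_lit 31) (nat_lit 5) (nat_lit 31) (nat_lit 3) (nat_lit 36) (nat_lit 3) (nat_lit 229) (nat_lit 229) (nat_lit 142))) (XT.nd (nat_lit 78) (nat_lit 456) (nat_lit 0) (XT.lf (nat_lit 76) (nat_lit 48933621436) (nat_lit 0) (nat_lit 201388180946) (nat_lit 456) (nat_lit 5157719163) (nat_lit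 32) (nat_lit 5) (nat_lit 31) (nat_lit 5) (nat_lit 37) (nat_lit 5) (nat_lit 230) (nat_lit 229) (nat_lit 141)) (XT.lf (nat_lit 0) (nat_lit 4320089675) (nat_lit 456) (nat_lit 25089121583) (nat_lit 532) (nat_lit 245809757757) (nat_lit 25) (nat_lit 5) (nat_lit 31) (nat_lit 5) (nat_lit 32) (nat_lit 5) (nat_lit 231) (nat_lit 229) (nat_lit 140)))) (XT.nd (nat_lit 156) (nat_lit 304) (nat_lit 0) (XT.nd (nat_lit 78) (nat_lit 0) (nat_lit 76) (XT.lf (nat_lit 0) (nat_lit 23740271965) (nat_lit 456) (nat_lit 108606831443) (nat_lit 532) (nat_lit 164855427652) (nat_lit 26) (nat_lit 5) (nat_lit 32) (nat_lit 5) (nat_lit 33) (nat_lit 5) (nat_lit 232) (nat_lit 229) (nat_lit 139)) (XT.lf (nat_lit 0) (nat_lit 52122841162) (nat_lit 456) (nat_lit 205243019641) (nat_lit 76) (nat_lit 64633820039) (nat_lit 27) (nat_lit 5) (nat_lit 33) (nat_lit 5) (nat_lit 28) (nat_lit 5) (nat_lit 233) (nat_lit 229) (nat_lit 138)))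 (XT.nd (nat_lit 78) (nat_lit 0) (nat_lit 0) (XT.lf (nat_lit 0) (nat_lit 29995929824) (nat_lit 380) (nat_lit 62392548051) (nat_lit 456) (nat_lit 257517872554) (nat_lit 22) (nat_lit 5) (nat_lit 27) (nat_lit 5) (nat_lit 28) (nat_lit 5) (nat_lit 234) (nat_lit 229) (nat_lit 137)) (XT.lf (nat_lit 0) (nat_lit 148716342607) (nat_lit 456) (nat_lit 72618711949) (nat_lit 76) (nat_lit 159862176956) (nat_lit 22) (nat_lit 5) (nat_lit 28) (nat_lit 5) (nat_lit 23) (nat_lit 5) (nat_lit 235) (nat_lit 229) (nat_lit 136))))) (XT.nd (nat_lit 312) (nat_lit 380) (nat_lit 0) (XT.nd (nat_lit 156) (nat_lit 228) (nat_lit 0) (XT.nd (nat_lit 78) (nat_lit 152) (nat_lit 0) (XT.lf (nat_lit 0) (nat_lit 220549925853) (nat_lit 304) (nat_lit 195530556612) (nat_lit 76) (nat_lit 536740632) (nat_lit 19) (nat_lit 5) (nat_lit 23) (nat_lit 5) (nat_lit 20) (nat_lit 5) (nat_lit 236) (nat_lit 229) (nat_lit 135)) (XT.lf (nat_lit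 0) (nat_lit 105147586814) (nat_lit 152) (nat_lit 208830324339) (nat_lit 228) (nat_lit 142506754356) (nat_lit 17) (nat_lit 5) (nat_lit 19) (nat_lit 5) (nat_lit 20) (nat_lit 5) (nat_lit 237) (nat_lit 229) (nat_lit 134))) (XT.nd (nat_lit 78) (nat_lit 228) (nat_lit 0) (XT.lf (nat_lit 0) (nat_lit 427970136869) (nat_lit 228) (nat_lit 39966304160) (nat_lit 76) (nat_lit 33871780937) (nat_lit 17) (nat_lit 5) (nat_lit 20) (nat_lit 5) (nat_lit 18) (nat_lit 5) (nat_lit 238) (nat_lit 229) (nat_lit 133)) (XT.lf (nat_lit 0) (nat_lit 18912423575) (nat_lit 228) (nat_lit 224533306731) (nat_lit 76) (nat_lit 309351654099) (nat_lit 14) (nat_lit 5) (nat_lit 17) (nat_lit 5) (nat_lit 15) (nat_lit 5) (nat_lit 239) (nat_lit 229) (nat_lit 132)))) (XT.nd (nat_lit 156) (nat_lit 228) (nat_lit 0) (XT.nd (nat_lit 78) (nat_lit 0) (nat_lit 0) (XT.lf (nat_lit 0) (nat_lit 126614952164) (nat_lit 228) (nat_lit 463275867843)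 (nat_lit 76) (nat_lit 20957753601) (nat_lit 12) (nat_lit 5) (nat_lit 15) (nat_lit 5) (nat_lit 13) (nat_lit 5) (nat_lit 240) (nat_lit 229) (nat_lit 131)) (XT.lf (nat_lit 0) (nat_lit 263912708913) (nat_lit 228) (nat_lit 94895838111) (nat_lit 76) (nat_lit 317723706923) (nat_lit 12) (nat_lit 5) (nat_lit 15) (nat_lit 5) (nat_lit 13) (nat_lit 5) (nat_lit 241) (nat_lit 229) (nat_lit 130))) (XT.nd (nat_lit 78) (nat_lit 76) (nat_lit 0) (XT.lf (nat_lit 0) (nat_lit 346052001108) (nat_lit 152) (nat_lit 84075602509) (nat_lit 228) (nat_lit 321275085341) (nat_lit 10) (nat_lit 5) (nat_lit 12) (nat_lit 5) (nat_lit 13) (nat_lit 5) (nat_lit 242) (nat_lit 229) (nat_lit 129)) (XT.nd (nat_lit 78) (nat_lit 0) (nat_lit 0) (XT.lf (nat_lit 0) (nat_lit 16797968280) (nat_lit 76) (nat_lit 613291643717) (nat_lit 152) (nat_lit 206708887370) (nat_lit 9) (nat_lit 5) (nat_lit 10) (nat_lit 5) (nat_lit 11) (nat_lit 4)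 (nat_lit 243) (nat_lit 229) (nat_lit 128)) (XT.lf (nat_lit 0) (nat_lit 524367854480) (nat_lit 76) (nat_lit 349745801344) (nat_lit 152) (nat_lit 59764607214) (nat_lit 9) (nat_lit 5) (nat_lit 10) (nat_lit 5) (nat_lit 11) (nat_lit 4) (nat_lit 244) (nat_lit 229) (nat_lit 127))))))) (XT.nd (nat_lit 30264) (nat_lit 0) (nat_lit 760) (XT.nd (nat_lit 312) (nat_lit 76) (nat_lit 0) (XT.nd (nat_lit 156) (nat_lit 76) (nat_lit 0) (XT.nd (nat_lit 78) (nat_lit 0) (nat_lit 0) (XT.lf (nat_lit 0) (nat_lit 63081979243) (nat_lit 152) (nat_lit 42192704122) (nat_lit 228) (nat_lit 939913801354) (nat_lit 6) (nat_lit 5) (nat_lit 8) (nat_lit 5) (nat_lit 9) (nat_lit 5) (nat_lit 245) (nat_lit 229) (nat_lit 126)) (XT.lf (nat_lit 0) (nat_lit 311355244642) (nat_lit 228) (nat_lit 550333640020) (nat_lit 76) (nat_lit 309796240395) (nat_lit 6) (nat_lit 5) (nat_lit 9) (nat_lit 5) (nat_lit 7) (nat_lit 4) (nat_lit 246) (nat_lit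 229) (nat_lit 125))) (XT.nd (nat_lit 78) (nat_lit 76) (nat_lit 0) (XT.lf (nat_lit 0) (nat_lit 549514786542) (nat_lit 228) (nat_lit 54961868946) (nat_lit 76) (nat_lit 712156254510) (nat_lit 6) (nat_lit 5) (nat_lit 9) (nat_lit 5) (nat_lit 7) (nat_lit 4) (nat_lit 247) (nat_lit 229) (nat_lit 124)) (XT.lf (nat_lit 0) (nat_lit 541819611010) (nat_lit 76) (nat_lit 294609380393) (nat_lit 152) (nat_lit 646081412974) (nat_lit 5) (nat_lit 5) (nat_lit 6) (nat_lit 5) (nat_lit 7) (nat_lit 4) (nat_lit 248) (nat_lit 229) (nat_lit 123)))) (XT.nd (nat_lit 29796) (nat_lit 0) (nat_lit 2052) (XT.nd (nat_lit 78) (nat_lit 76) (nat_lit 0) (XT.lf (nat_lit 0) (nat_lit 1169506805751) (nat_lit 152) (nat_lit 443221301306) (nat_lit 0) (nat_lit 60291297756) (nat_lit 5) (nat_lit 5) (nat_lit 7) (nat_lit 4) (nat_lit 5) (nat_lit 4) (nat_lit 249) (nat_lit 229) (nat_lit 122)) (XT.lf (nat_lit 0) (nat_lit 127077312728) (nat_lit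 76) (nat_lit 1436673324729) (nat_lit 76) (nat_lit 327457770416) (nat_lit 4) (nat_lit 4) (nat_lit 5) (nat_lit 5) (nat_lit 5) (nat_lit 4) (nat_lit 250) (nat_lit 229) (nat_lit 121))) (XT.nd (nat_lit 78) (nat_lit 0) (nat_lit 0) (XT.lf (nat_lit 0) (nat_lit 66273885585) (nat_lit 0) (nat_lit 66273885585) (nat_lit 380) (nat_lit 4211681347) (nat_lit 31) (nat_lit 5) (nat_lit 31) (nat_lit 3) (nat_lit 36) (nat_lit 3) (nat_lit 230) (nat_lit 230) (nat_lit 140)) (XT.lf (nat_lit 76) (nat_lit 56275482214) (nat_lit 0) (nat_lit 231597466679) (nat_lit 456) (nat_lit 5928241436) (nat_lit 32) (nat_lit 5) (nat_lit 31) (nat_lit 5) (nat_lit 37) (nat_lit 5) (nat_lit 231) (nat_lit 230) (nat_lit 139))))) (XT.nd (nat_lit 312) (nat_lit 608) (nat_lit 0) (XT.nd (nat_lit 156) (nat_lit 228) (nat_lit 0) (XT.nd (nat_lit 78) (nat_lit 0) (nat_lit 76) (XT.lf (nat_lit 0) (nat_lit 4970693340) (nat_lit 456) (nat_lit 28850749301)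 (nat_lit 532) (nat_lit 282680140875) (nat_lit 25) (nat_lit 5) (nat_lit 31) (nat_lit 5) (nat_lit 32) (nat_lit 5) (nat_lit 232) (nat_lit 230) (nat_lit 138)) (XT.lf (nat_lit 0) (nat_lit 27303586661) (nat_lit 456) (nat_lit 124896042385) (nat_lit 532) (nat_lit 189583079209) (nat_lit 26) (nat_lit 5) (nat_lit 32) (nat_lit 5) (nat_lit 33) (nat_lit 5) (nat_lit 233) (nat_lit 230) (nat_lit 137))) (XT.nd (nat_lit 78) (nat_lit 380) (nat_lit 0) (XT.lf (nat_lit 0) (nat_lit 59943275986) (nat_lit 456) (nat_lit 236027624504) (nat_lit 76) (nat_lit 74328553915) (nat_lit 27) (nat_lit 5) (nat_lit 33) (nat_lit 5) (nat_lit 28) (nat_lit 5) (nat_lit 234) (nat_lit 230) (nat_lit 136)) (XT.lf (nat_lit 0) (nat_lit 34497010950) (nat_lit 380) (nat_lit 71751525942) (nat_lit 456) (nat_lit 296143607574) (nat_lit 22) (nat_lit 5) (nat_lit 27) (nat_lit 5) (nat_lit 28) (nat_lit 5) (nat_lit 235) (nat_lit 230) (nat_lit 135))))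 (XT.nd (nat_lit 156) (nat_lit 380) (nat_lit 0) (XT.nd (nat_lit 78) (nat_lit 228) (nat_lit 0) (XT.lf (nat_lit 0) (nat_lit 171025346203) (nat_lit 456) (nat_lit 83509907889) (nat_lit 76) (nat_lit 183841424458) (nat_lit 22) (nat_lit 5) (nat_lit 28) (nat_lit 5) (nat_lit 23) (nat_lit 5) (nat_lit 236) (nat_lit 230) (nat_lit 134)) (XT.lf (nat_lit 0) (nat_lit 253633802083) (nat_lit 304) (nat_lit 224858545182) (nat_lit 76) (nat_lit 617336557) (nat_lit 19) (nat_lit 5) (nat_lit 23) (nat_lit 5) (nat_lit 20) (nat_lit 5) (nat_lit 237) (nat_lit 230) (nat_lit 133))) (XT.nd (nat_lit 78) (nat_lit 228) (nat_lit 0) (XT.lf (nat_lit 0) (nat_lit 120921184756) (nat_lit 152) (nat_lit 240154654575) (nat_lit 228) (nat_lit 163881416467) (nat_lit 17) (nat_lit 5) (nat_lit 19) (nat_lit 5) (nat_lit 20) (nat_lit 5) (nat_lit 238) (nat_lit 230) (nat_lit 132)) (XT.nd (nat_lit 78) (nat_lit 228) (nat_lit 0) (XT.lf (nat_lit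 0) (nat_lit 492166741536) (nat_lit 228) (nat_lit 45959889606) (nat_lit 76) (nat_lit 38952728502) (nat_lit 17) (nat_lit 5) (nat_lit 20) (nat_lit 5) (nat_lit 18) (nat_lit 5) (nat_lit 239) (nat_lit 230) (nat_lit 131)) (XT.lf (nat_lit 0) (nat_lit 21750292386) (nat_lit 228) (nat_lit 258211997605) (nat_lit 76) (nat_lit 355754614498) (nat_lit 14) (nat_lit 5) (nat_lit 17) (nat_lit 5) (nat_lit 15) (nat_lit 5) (nat_lit 240) (nat_lit 230) (nat_lit 130))))))))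
noncomputable def xc60 : XT := (XT.nd (nat_lit 31044) (nat_lit 0) (nat_lit 76) (XT.nd (nat_lit 702) (nat_lit 76) (nat_lit 0) (XT.nd (nat_lit 312) (nat_lit 228) (nat_lit 0) (XT.nd (nat_lit 156) (nat_lit 228) (nat_lit 0) (XT.nd (nat_lit 78) (nat_lit 0) (nat_lit 0) (XT.lf (nat_lit 0) (nat_lit 145608104890) (nat_lit 228) (nat_lit 532765981923) (nat_lit 76) (nat_lit 24101693823) (nat_lit 12) (nat_lit 5) (nat_lit 15) (nat_lit 5) (nat_lit 13) (nat_lit 5) (nat_lit 241) (nat_lit 230) (nat_lit 129)) (XT.lf (nat_lit 0) (nat_lit 303500406468) (nat_lit 228) (nat_lit 109129112875) (nat_lit 76) (nat_lit 365382503990) (nat_lit 12) (nat_lit 5) (nat_lit 15) (nat_lit 5) (nat_lit 13) (nat_lit 5) (nat_lit 242) (nat_lit 230) (nat_lit 128))) (XT.nd (nat_lit 78) (nat_lit 76) (nat_lit 0) (XT.lf (nat_lit 0) (nat_lit 397960809038) (nat_lit 152) (nat_lit 96686647375) (nat_lit 228) (nat_lit 369465574206) (nat_lit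 10) (nat_lit 5) (nat_lit 12) (nat_lit 5) (nat_lit 13) (nat_lit 5) (nat_lit 243) (nat_lit 230) (nat_lit 127)) (XT.lf (nat_lit 0) (nat_lit 19318635941) (nat_lit 76) (nat_lit 705285066773) (nat_lit 152) (nat_lit 237714515556) (nat_lit 9) (nat_lit 5) (nat_lit 10) (nat_lit 5) (nat_lit 11) (nat_lit 4) (nat_lit 244) (nat_lit 230) (nat_lit 126)))) (XT.nd (nat_lit 156) (nat_lit 0) (nat_lit 0) (XT.nd (nat_lit 78) (nat_lit 228) (nat_lit 0) (XT.lf (nat_lit 0) (nat_lit 603023878234) (nat_lit 76) (nat_lit 402207390240) (nat_lit 152) (nat_lit 68728685322) (nat_lit 9) (nat_lit 5) (nat_lit 10) (nat_lit 5) (nat_lit 11) (nat_lit 4) (nat_lit 245) (nat_lit 230) (nat_lit 125)) (XT.lf (nat_lit 0) (nat_lit 72545081219) (nat_lit 152) (nat_lit 48521330370) (nat_lit 228) (nat_lit 1080900300916) (nat_lit 6) (nat_lit 5) (nat_lit 8) (nat_lit 5) (nat_lit 9) (nat_lit 5) (nat_lit 246) (nat_lit 230) (nat_lit 124))) (XT.nd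 (nat_lit 78) (nat_lit 0) (nat_lit 0) (XT.lf (nat_lit 0) (nat_lit 358058994328) (nat_lit 228) (nat_lit 632882952726) (nat_lit 76) (nat_lit 356265907232) (nat_lit 6) (nat_lit 5) (nat_lit 9) (nat_lit 5) (nat_lit 7) (nat_lit 4) (nat_lit 247) (nat_lit 230) (nat_lit 123)) (XT.lf (nat_lit 0) (nat_lit 631942407123) (nat_lit 228) (nat_lit 63205511638) (nat_lit 76) (nat_lit 818979893363) (nat_lit 6) (nat_lit 5) (nat_lit 9) (nat_lit 5) (nat_lit 7) (nat_lit 4) (nat_lit 248) (nat_lit 230) (nat_lit 122))))) (XT.nd (nat_lit 30030) (nat_lit 0) (nat_lit 1292) (XT.nd (nat_lit 29874) (nat_lit 0) (nat_lit 1520) (XT.nd (nat_lit 29796) (nat_lit 0) (nat_lit 1976) (XT.lf (nat_lit 0) (nat_lit 1344933147835) (nat_lit 152) (nat_lit 509703966582) (nat_lit 0) (nat_lit 69335173783) (nat_lit 5) (nat_lit 5) (nat_lit 7) (nat_lit 4) (nat_lit 5) (nat_lit 4) (nat_lit 250) (nat_lit 230) (nat_lit 120)) (XT.lf (nat_lit 0)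 (nat_lit 76215591666) (nat_lit 0) (nat_lit 76215591666) (nat_lit 380) (nat_lit 4842074582) (nat_lit 31) (nat_lit 5) (nat_lit 31) (nat_lit 3) (nat_lit 36) (nat_lit 3) (nat_lit 231) (nat_lit 231) (nat_lit 138))) (XT.nd (nat_lit 78) (nat_lit 456) (nat_lit 0) (XT.lf (nat_lit 76) (nat_lit 64718178885) (nat_lit 0) (nat_lit 266337887129) (nat_lit 456) (nat_lit 6815106686) (nat_lit 32) (nat_lit 5) (nat_lit 31) (nat_lit 5) (nat_lit 37) (nat_lit 5) (nat_lit 232) (nat_lit 231) (nat_lit 137)) (XT.lf (nat_lit 0) (nat_lit 5718255915) (nat_lit 456) (nat_lit 33177045613) (nat_lit 532) (nat_lit 325081344959) (nat_lit 25) (nat_lit 5) (nat_lit 31) (nat_lit 5) (nat_lit 32) (nat_lit 5) (nat_lit 233) (nat_lit 231) (nat_lit 136)))) (XT.nd (nat_lit 156) (nat_lit 304) (nat_lit 0) (XT.nd (nat_lit 78) (nat_lit 0) (nat_lit 76) (XT.lf (nat_lit 0) (nat_lit 31400844057) (nat_lit 456) (nat_lit 143629077269) (nat_lit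 532) (nat_lit 218020040076) (nat_lit 26) (nat_lit 5) (nat_lit 32) (nat_lit 5) (nat_lit 33) (nat_lit 5) (nat_lit 234) (nat_lit 231) (nat_lit 135)) (XT.lf (nat_lit 0) (nat_lit 68936286211) (nat_lit 456) (nat_lit 271430370763) (nat_lit 76) (nat_lit 85477580572) (nat_lit 27) (nat_lit 5) (nat_lit 33) (nat_lit 5) (nat_lit 28) (nat_lit 5) (nat_lit 235) (nat_lit 231) (nat_lit 134))) (XT.nd (nat_lit 78) (nat_lit 0) (nat_lit 0) (XT.lf (nat_lit 0) (nat_lit 39672841724) (nat_lit 380) (nat_lit 82514327184) (nat_lit 456) (nat_lit 340563677358) (nat_lit 22) (nat_lit 5) (nat_lit 27) (nat_lit 5) (nat_lit 28) (nat_lit 5) (nat_lit 236) (nat_lit 231) (nat_lit 133)) (XT.lf (nat_lit 0) (nat_lit 196680321822) (nat_lit 456) (nat_lit 96035176036) (nat_lit 76) (nat_lit 211417578360) (nat_lit 22) (nat_lit 5) (nat_lit 28) (nat_lit 5) (nat_lit 23) (nat_lit 5) (nat_lit 237) (nat_lit 231) (nat_lit 132)))))) (XT.nd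 (nat_lit 624) (nat_lit 228) (nat_lit 0) (XT.nd (nat_lit 312) (nat_lit 380) (nat_lit 0) (XT.nd (nat_lit 156) (nat_lit 228) (nat_lit 0) (XT.nd (nat_lit 78) (nat_lit 152) (nat_lit 0) (XT.lf (nat_lit 0) (nat_lit 291679921433) (nat_lit 304) (nat_lit 258586120970) (nat_lit 76) (nat_lit 710001184) (nat_lit 19) (nat_lit 5) (nat_lit 23) (nat_lit 5) (nat_lit 20) (nat_lit 5) (nat_lit 238) (nat_lit 231) (nat_lit 131)) (XT.lf (nat_lit 0) (nat_lit 139060466377) (nat_lit 152) (nat_lit 276177687608) (nat_lit 228) (nat_lit 188462607355) (nat_lit 17) (nat_lit 5) (nat_lit 19) (nat_lit 5) (nat_lit 20) (nat_lit 5) (nat_lit 239) (nat_lit 231) (nat_lit 130))) (XT.nd (nat_lit 78) (nat_lit 228) (nat_lit 0) (XT.lf (nat_lit 0) (nat_lit 565992572529) (nat_lit 228) (nat_lit 52852844557) (nat_lit 76) (nat_lit 44795774205) (nat_lit 17) (nat_lit 5) (nat_lit 20) (nat_lit 5) (nat_lit 18) (nat_lit 5) (nat_lit 240) (nat_lit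 231) (nat_lit 129)) (XT.lf (nat_lit 0) (nat_lit 25013596376) (nat_lit 228) (nat_lit 296942810376) (nat_lit 76) (nat_lit 409117967191) (nat_lit 14) (nat_lit 5) (nat_lit 17) (nat_lit 5) (nat_lit 15) (nat_lit 5) (nat_lit 241) (nat_lit 231) (nat_lit 128)))) (XT.nd (nat_lit 156) (nat_lit 228) (nat_lit 0) (XT.nd (nat_lit 78) (nat_lit 0) (nat_lit 0) (XT.lf (nat_lit 0) (nat_lit 167450008639) (nat_lit 228) (nat_lit 612679921861) (nat_lit 76) (nat_lit 27717157487) (nat_lit 12) (nat_lit 5) (nat_lit 15) (nat_lit 5) (nat_lit 13) (nat_lit 5) (nat_lit 242) (nat_lit 231) (nat_lit 127)) (XT.lf (nat_lit 0) (nat_lit 349026065713) (nat_lit 228) (nat_lit 125497647327) (nat_lit 76) (nat_lit 420190061840) (nat_lit 12) (nat_lit 5) (nat_lit 15) (nat_lit 5) (nat_lit 13) (nat_lit 5) (nat_lit 243) (nat_lit 231) (nat_lit 126))) (XT.nd (nat_lit 78) (nat_lit 76) (nat_lit 0) (XT.lf (nat_lit 0) (nat_lit 457655692407)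 (nat_lit 152) (nat_lit 111189421033) (nat_lit 228) (nat_lit 424884825130) (nat_lit 10) (nat_lit 5) (nat_lit 12) (nat_lit 5) (nat_lit 13) (nat_lit 5) (nat_lit 244) (nat_lit 231) (nat_lit 125)) (XT.lf (nat_lit 0) (nat_lit 22217166620) (nat_lit 76) (nat_lit 811077582175) (nat_lit 152) (nat_lit 273371159868) (nat_lit 9) (nat_lit 5) (nat_lit 10) (nat_lit 5) (nat_lit 11) (nat_lit 4) (nat_lit 245) (nat_lit 231) (nat_lit 124))))) (XT.nd (nat_lit 30264) (nat_lit 0) (nat_lit 1216) (XT.nd (nat_lit 156) (nat_lit 0) (nat_lit 0) (XT.nd (nat_lit 78) (nat_lit 228) (nat_lit 0) (XT.lf (nat_lit 0) (nat_lit 693478099350) (nat_lit 76) (nat_lit 462538286069) (nat_lit 152) (nat_lit 79037524624) (nat_lit 9) (nat_lit 5) (nat_lit 10) (nat_lit 5) (nat_lit 11) (nat_lit 4) (nat_lit 246) (nat_lit 231) (nat_lit 123)) (XT.lf (nat_lit 0) (nat_lit 83427452166) (nat_lit 152) (nat_lit 55799318682) (nat_lit 228) (nat_lit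 1243034914567) (nat_lit 6) (nat_lit 5) (nat_lit 8) (nat_lit 5) (nat_lit 9) (nat_lit 5) (nat_lit 247) (nat_lit 231) (nat_lit 122))) (XT.nd (nat_lit 30030) (nat_lit 0) (nat_lit 1900) (XT.lf (nat_lit 0) (nat_lit 411768193565) (nat_lit 228) (nat_lit 727814841157) (nat_lit 76) (nat_lit 409705967819) (nat_lit 6) (nat_lit 5) (nat_lit 9) (nat_lit 5) (nat_lit 7) (nat_lit 4) (nat_lit 248) (nat_lit 231) (nat_lit 121)) (XT.lf (nat_lit 0) (nat_lit 87648401677) (nat_lit 0) (nat_lit 87648401677) (nat_lit 380) (nat_lit 5567358195) (nat_lit 31) (nat_lit 5) (nat_lit 31) (nat_lit 3) (nat_lit 36) (nat_lit 3) (nat_lit 232) (nat_lit 232) (nat_lit 136)))) (XT.nd (nat_lit 156) (nat_lit 228) (nat_lit 0) (XT.nd (nat_lit 78) (nat_lit 456) (nat_lit 0) (XT.lf (nat_lit 76) (nat_lit 74426944915) (nat_lit 0) (nat_lit 306289175452) (nat_lit 456) (nat_lit 7835579899) (nat_lit 32) (nat_lit 5) (nat_lit 31) (nat_lit 5)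 (nat_lit 37) (nat_lit 5) (nat_lit 233) (nat_lit 232) (nat_lit 135)) (XT.lf (nat_lit 0) (nat_lit 6577475265) (nat_lit 456) (nat_lit 38152607307) (nat_lit 532) (nat_lit 373842928897) (nat_lit 25) (nat_lit 5) (nat_lit 31) (nat_lit 5) (nat_lit 32) (nat_lit 5) (nat_lit 234) (nat_lit 232) (nat_lit 134))) (XT.nd (nat_lit 78) (nat_lit 304) (nat_lit 0) (XT.lf (nat_lit 0) (nat_lit 36112270776) (nat_lit 456) (nat_lit 165172401828) (nat_lit 532) (nat_lit 250722667248) (nat_lit 26) (nat_lit 5) (nat_lit 32) (nat_lit 5) (nat_lit 33) (nat_lit 5) (nat_lit 235) (nat_lit 232) (nat_lit 133)) (XT.nd (nat_lit 78) (nat_lit 380) (nat_lit 0) (XT.lf (nat_lit 0) (nat_lit 79277877595) (nat_lit 456) (nat_lit 312143869730) (nat_lit 76) (nat_lit 98299023759) (nat_lit 27) (nat_lit 5) (nat_lit 33) (nat_lit 5) (nat_lit 28) (nat_lit 5) (nat_lit 236) (nat_lit 232) (nat_lit 132)) (XT.lf (nat_lit 0) (nat_lit 45624735190)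 (nat_lit 380) (nat_lit 94891530969) (nat_lit 456) (nat_lit 391647116409) (nat_lit 22) (nat_lit 5) (nat_lit 27) (nat_lit 5) (nat_lit 28) (nat_lit 5) (nat_lit 237) (nat_lit 232) (nat_lit 131))))))))
noncomputable def xc61 : XT := (XT.nd (nat_lit 31278) (nat_lit 0) (nat_lit 0) (XT.nd (nat_lit 624) (nat_lit 304) (nat_lit 0) (XT.nd (nat_lit 312) (nat_lit 532) (nat_lit 0) (XT.nd (nat_lit 156) (nat_lit 152) (nat_lit 0) (XT.nd (nat_lit 78) (nat_lit 228) (nat_lit 0) (XT.lf (nat_lit 0) (nat_lit 226183257573) (nat_lit 456) (nat_lit 110439531432) (nat_lit 76) (nat_lit 243130169922) (nat_lit 22) (nat_lit 5) (nat_lit 28) (nat_lit 5) (nat_lit 23) (nat_lit 5) (nat_lit 238) (nat_lit 232) (nat_lit 130)) (XT.lf (nat_lit 0) (nat_lit 335432702872) (nat_lit 304) (nat_lit 297373127215) (nat_lit 76) (nat_lit 816549864) (nat_lit 19) (nat_lit 5) (nat_lit 23) (nat_lit 5) (nat_lit 20) (nat_lit 5) (nat_lit 239)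 (nat_lit 232) (nat_lit 129))) (XT.nd (nat_lit 78) (nat_lit 0) (nat_lit 0) (XT.lf (nat_lit 0) (nat_lit 159920371048) (nat_lit 152) (nat_lit 317604215870) (nat_lit 228) (nat_lit 216731225995) (nat_lit 17) (nat_lit 5) (nat_lit 19) (nat_lit 5) (nat_lit 20) (nat_lit 5) (nat_lit 240) (nat_lit 232) (nat_lit 128)) (XT.lf (nat_lit 0) (nat_lit 650892078267) (nat_lit 228) (nat_lit 60779993555) (nat_lit 76) (nat_lit 51515243494) (nat_lit 17) (nat_lit 5) (nat_lit 20) (nat_lit 5) (nat_lit 18) (nat_lit 5) (nat_lit 241) (nat_lit 232) (nat_lit 127)))) (XT.nd (nat_lit 156) (nat_lit 152) (nat_lit 0) (XT.nd (nat_lit 78) (nat_lit 152) (nat_lit 0) (XT.lf (nat_lit 0) (nat_lit 28766210601) (nat_lit 228) (nat_lit 341483485717) (nat_lit 76) (nat_lit 470485783644) (nat_lit 14) (nat_lit 5) (nat_lit 17) (nat_lit 5) (nat_lit 15) (nat_lit 5) (nat_lit 242) (nat_lit 232) (nat_lit 126)) (XT.lf (nat_lit 0) (nat_lit 192568030174)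 (nat_lit 228) (nat_lit 704581186246) (nat_lit 76) (nat_lit 31874889590) (nat_lit 12) (nat_lit 5) (nat_lit 15) (nat_lit 5) (nat_lit 13) (nat_lit 5) (nat_lit 243) (nat_lit 232) (nat_lit 125))) (XT.nd (nat_lit 78) (nat_lit 152) (nat_lit 0) (XT.lf (nat_lit 0) (nat_lit 401380427951) (nat_lit 228) (nat_lit 144321664953) (nat_lit 76) (nat_lit 483218708925) (nat_lit 12) (nat_lit 5) (nat_lit 15) (nat_lit 5) (nat_lit 13) (nat_lit 5) (nat_lit 244) (nat_lit 232) (nat_lit 124)) (XT.lf (nat_lit 0) (nat_lit 526304622460) (nat_lit 152) (nat_lit 127867665229) (nat_lit 228) (nat_lit 488617106399) (nat_lit 10) (nat_lit 5) (nat_lit 12) (nat_lit 5) (nat_lit 13) (nat_lit 5) (nat_lit 245) (nat_lit 232) (nat_lit 123))))) (XT.nd (nat_lit 30264) (nat_lit 0) (nat_lit 1444) (XT.nd (nat_lit 156) (nat_lit 228) (nat_lit 0) (XT.nd (nat_lit 78) (nat_lit 0) (nat_lit 0) (XT.lf (nat_lit 0) (nat_lit 25550297596) (nat_lit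 76) (nat_lit 932739034538) (nat_lit 152) (nat_lit 314376430808) (nat_lit 9) (nat_lit 5) (nat_lit 10) (nat_lit 5) (nat_lit 11) (nat_lit 4) (nat_lit 246) (nat_lit 232) (nat_lit 122)) (XT.lf (nat_lit 0) (nat_lit 797500297716) (nat_lit 76) (nat_lit 531918868142) (nat_lit 152) (nat_lit 90892802848) (nat_lit 9) (nat_lit 5) (nat_lit 10) (nat_lit 5) (nat_lit 11) (nat_lit 4) (nat_lit 247) (nat_lit 232) (nat_lit 121))) (XT.nd (nat_lit 78) (nat_lit 0) (nat_lit 0) (XT.lf (nat_lit 0) (nat_lit 95942030303) (nat_lit 152) (nat_lit 64169056754) (nat_lit 228) (nat_lit 1429489825486) (nat_lit 6) (nat_lit 5) (nat_lit 8) (nat_lit 5) (nat_lit 9) (nat_lit 5) (nat_lit 248) (nat_lit 232) (nat_lit 120)) (XT.lf (nat_lit 0) (nat_lit 473533687315) (nat_lit 228) (nat_lit 836986648066) (nat_lit 76) (nat_lit 471161994940) (nat_lit 6) (nat_lit 5) (nat_lit 9) (nat_lit 5) (nat_lit 7) (nat_lit 4) (nat_lit 249) (nat_lit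 232) (nat_lit 119)))) (XT.nd (nat_lit 156) (nat_lit 456) (nat_lit 0) (XT.nd (nat_lit 78) (nat_lit 0) (nat_lit 0) (XT.lf (nat_lit 0) (nat_lit 100796018269) (nat_lit 0) (nat_lit 100796018269) (nat_lit 380) (nat_lit 6401684930) (nat_lit 31) (nat_lit 5) (nat_lit 31) (nat_lit 3) (nat_lit 36) (nat_lit 3) (nat_lit 233) (nat_lit 233) (nat_lit 134)) (XT.lf (nat_lit 76) (nat_lit 85591772435) (nat_lit 0) (nat_lit 352233009428) (nat_lit 456) (nat_lit 9009561277) (nat_lit 32) (nat_lit 5) (nat_lit 31) (nat_lit 5) (nat_lit 37) (nat_lit 5) (nat_lit 234) (nat_lit 233) (nat_lit 133))) (XT.nd (nat_lit 78) (nat_lit 0) (nat_lit 76) (XT.lf (nat_lit 0) (nat_lit 7565216376) (nat_lit 456) (nat_lit 43874745928) (nat_lit 532) (nat_lit 429918901082) (nat_lit 25) (nat_lit 5) (nat_lit 31) (nat_lit 5) (nat_lit 32) (nat_lit 5) (nat_lit 235) (nat_lit 233) (nat_lit 132)) (XT.nd (nat_lit 78) (nat_lit 0) (nat_lit 76) (XT.lf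 (nat_lit 0) (nat_lit 41530094463) (nat_lit 456) (nat_lit 189947477958) (nat_lit 532) (nat_lit 288330780879) (nat_lit 26) (nat_lit 5) (nat_lit 32) (nat_lit 5) (nat_lit 33) (nat_lit 5) (nat_lit 236) (nat_lit 233) (nat_lit 131)) (XT.lf (nat_lit 0) (nat_lit 91170427628) (nat_lit 456) (nat_lit 358964651213) (nat_lit 76) (nat_lit 113043730708) (nat_lit 27) (nat_lit 5) (nat_lit 33) (nat_lit 5) (nat_lit 28) (nat_lit 5) (nat_lit 237) (nat_lit 233) (nat_lit 130))))))) (XT.nd (nat_lit 624) (nat_lit 456) (nat_lit 0) (XT.nd (nat_lit 312) (nat_lit 380) (nat_lit 0) (XT.nd (nat_lit 156) (nat_lit 380) (nat_lit 0) (XT.nd (nat_lit 78) (nat_lit 0) (nat_lit 0) (XT.lf (nat_lit 0) (nat_lit 52469176817) (nat_lit 380) (nat_lit 109125301982) (nat_lit 456) (nat_lit 450393342620) (nat_lit 22) (nat_lit 5) (nat_lit 27) (nat_lit 5) (nat_lit 28) (nat_lit 5) (nat_lit 238) (nat_lit 233) (nat_lit 129)) (XT.lf (nat_lit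 0) (nat_lit 260111417270) (nat_lit 456) (nat_lit 127004764731) (nat_lit 76) (nat_lit 279599661239) (nat_lit 22) (nat_lit 5) (nat_lit 28) (nat_lit 5) (nat_lit 23) (nat_lit 5) (nat_lit 239) (nat_lit 233) (nat_lit 128))) (XT.nd (nat_lit 78) (nat_lit 152) (nat_lit 0) (XT.lf (nat_lit 0) (nat_lit 385748208093) (nat_lit 304) (nat_lit 341978406769) (nat_lit 76) (nat_lit 939069018) (nat_lit 19) (nat_lit 5) (nat_lit 23) (nat_lit 5) (nat_lit 20) (nat_lit 5) (nat_lit 240) (nat_lit 233) (nat_lit 127)) (XT.lf (nat_lit 0) (nat_lit 183909057868) (nat_lit 152) (nat_lit 365244753824) (nat_lit 228) (nat_lit 249240325802) (nat_lit 17) (nat_lit 5) (nat_lit 19) (nat_lit 5) (nat_lit 20) (nat_lit 5) (nat_lit 241) (nat_lit 233) (nat_lit 126)))) (XT.nd (nat_lit 156) (nat_lit 152) (nat_lit 0) (XT.nd (nat_lit 78) (nat_lit 228) (nat_lit 0) (XT.lf (nat_lit 0) (nat_lit 748526358709) (nat_lit 228) (nat_lit 69896404546)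 (nat_lit 76) (nat_lit 59242608021) (nat_lit 17) (nat_lit 5) (nat_lit 20) (nat_lit 5) (nat_lit 18) (nat_lit 5) (nat_lit 242) (nat_lit 233) (nat_lit 125)) (XT.lf (nat_lit 0) (nat_lit 33081576799) (nat_lit 228) (nat_lit 392705444329) (nat_lit 76) (nat_lit 541058742967) (nat_lit 14) (nat_lit 5) (nat_lit 17) (nat_lit 5) (nat_lit 15) (nat_lit 5) (nat_lit 243) (nat_lit 233) (nat_lit 124))) (XT.nd (nat_lit 78) (nat_lit 0) (nat_lit 0) (XT.lf (nat_lit 0) (nat_lit 221453628075) (nat_lit 228) (nat_lit 810267816814) (nat_lit 76) (nat_lit 36656242862) (nat_lit 12) (nat_lit 5) (nat_lit 15) (nat_lit 5) (nat_lit 13) (nat_lit 5) (nat_lit 244) (nat_lit 233) (nat_lit 123)) (XT.lf (nat_lit 0) (nat_lit 461587834210) (nat_lit 228) (nat_lit 165969438723) (nat_lit 76) (nat_lit 555701619467) (nat_lit 12) (nat_lit 5) (nat_lit 15) (nat_lit 5) (nat_lit 13) (nat_lit 5) (nat_lit 245) (nat_lit 233) (nat_lit 122)))))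 (XT.nd (nat_lit 30420) (nat_lit 0) (nat_lit 1216) (XT.nd (nat_lit 234) (nat_lit 228) (nat_lit 0) (XT.nd (nat_lit 78) (nat_lit 76) (nat_lit 0) (XT.lf (nat_lit 0) (nat_lit 605250751513) (nat_lit 152) (nat_lit 147047687256) (nat_lit 228) (nat_lit 561909337764) (nat_lit 10) (nat_lit 5) (nat_lit 12) (nat_lit 5) (nat_lit 13) (nat_lit 5) (nat_lit 246) (nat_lit 233) (nat_lit 121)) (XT.lf (nat_lit 0) (nat_lit 29383262639) (nat_lit 76) (nat_lit 1072649749861) (nat_lit 152) (nat_lit 361532590672) (nat_lit 9) (nat_lit 5) (nat_lit 10) (nat_lit 5) (nat_lit 11) (nat_lit 4) (nat_lit 247) (nat_lit 233) (nat_lit 120))) (XT.nd (nat_lit 30108) (nat_lit 0) (nat_lit 1900) (XT.lf (nat_lit 0) (nat_lit 110333682911) (nat_lit 152) (nat_lit 73794294488) (nat_lit 228) (nat_lit 1643913052606) (nat_lit 6) (nat_lit 5) (nat_lit 8) (nat_lit 5) (nat_lit 9) (nat_lit 5) (nat_lit 249) (nat_lit 233) (nat_lit 118)) (XT.lf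 (nat_lit 0) (nat_lit 115915690455) (nat_lit 0) (nat_lit 115915690455) (nat_lit 380) (nat_lit 7361350151) (nat_lit 31) (nat_lit 5) (nat_lit 31) (nat_lit 3) (nat_lit 36) (nat_lit 3) (nat_lit 234) (nat_lit 234) (nat_lit 132)))) (XT.nd (nat_lit 156) (nat_lit 228) (nat_lit 0) (XT.nd (nat_lit 78) (nat_lit 456) (nat_lit 0) (XT.lf (nat_lit 76) (nat_lit 98431132464) (nat_lit 0) (nat_lit 405068306898) (nat_lit 456) (nat_lit 10359970435) (nat_lit 32) (nat_lit 5) (nat_lit 31) (nat_lit 5) (nat_lit 37) (nat_lit 5) (nat_lit 235) (nat_lit 234) (nat_lit 131)) (XT.lf (nat_lit 0) (nat_lit 8700845578) (nat_lit 456) (nat_lit 50455388838) (nat_lit 532) (nat_lit 494406383012) (nat_lit 25) (nat_lit 5) (nat_lit 31) (nat_lit 5) (nat_lit 32) (nat_lit 5) (nat_lit 236) (nat_lit 234) (nat_lit 130))) (XT.nd (nat_lit 78) (nat_lit 304) (nat_lit 0) (XT.lf (nat_lit 0) (nat_lit 47760351975) (nat_lit 456) (nat_lit 218439006725)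 (nat_lit 532) (nat_lit 331580181409) (nat_lit 26) (nat_lit 5) (nat_lit 32) (nat_lit 5) (nat_lit 33) (nat_lit 5) (nat_lit 237) (nat_lit 234) (nat_lit 129)) (XT.nd (nat_lit 78) (nat_lit 380) (nat_lit 0) (XT.lf (nat_lit 0) (nat_lit 104846648404) (nat_lit 456) (nat_lit 412808744753) (nat_lit 76) (nat_lit 130000179453) (nat_lit 27) (nat_lit 5) (nat_lit 33) (nat_lit 5) (nat_lit 28) (nat_lit 5) (nat_lit 238) (nat_lit 234) (nat_lit 128)) (XT.lf (nat_lit 0) (nat_lit 60340106343) (nat_lit 380) (nat_lit 125494128558) (nat_lit 456) (nat_lit 517951707907) (nat_lit 22) (nat_lit 5) (nat_lit 27) (nat_lit 5) (nat_lit 28) (nat_lit 5) (nat_lit 239) (nat_lit 234) (nat_lit 127))))))))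
noncomputable def xc62 : XT := (XT.nd (nat_lit 31512) (nat_lit 0) (nat_lit 152) (XT.nd (nat_lit 30888) (nat_lit 0) (nat_lit 684) (XT.nd (nat_lit 312) (nat_lit 532) (nat_lit 0) (XT.nd (nat_lit 156) (nat_lit 152) (nat_lit 0) (XT.nd (nat_lit 78) (nat_lit 228) (nat_lit 0) (XT.lf (nat_lit 0) (nat_lit 299128637279) (nat_lit 456) (nat_lit 146054952850) (nat_lit 76) (nat_lit 321539584586) (nat_lit 22) (nat_lit 5) (nat_lit 28) (nat_lit 5) (nat_lit 23) (nat_lit 5) (nat_lit 240) (nat_lit 234) (nat_lit 126)) (XT.lf (nat_lit 0) (nat_lit 443610892835) (nat_lit 304) (nat_lit 393274646401) (nat_lit 76) (nat_lit 1079957102) (nat_lit 19) (nat_lit 5) (nat_lit 23) (nat_lit 5) (nat_lit 20) (nat_lit 5) (nat_lit 241) (nat_lit 234) (nat_lit 125))) (XT.nd (nat_lit 78) (nat_lit 0) (nat_lit 0) (XT.lf (nat_lit 0) (nat_lit 211495893798) (nat_lit 152) (nat_lit 420031395498) (nat_lit 228) (nat_lit 286625933014) (nat_lit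 17) (nat_lit 5) (nat_lit 19) (nat_lit 5) (nat_lit 20) (nat_lit 5) (nat_lit 242) (nat_lit 234) (nat_lit 124)) (XT.lf (nat_lit 0) (nat_lit 860805666922) (nat_lit 228) (nat_lit 80380420583) (nat_lit 76) (nat_lit 68129058206) (nat_lit 17) (nat_lit 5) (nat_lit 20) (nat_lit 5) (nat_lit 18) (nat_lit 5) (nat_lit 243) (nat_lit 234) (nat_lit 123)))) (XT.nd (nat_lit 156) (nat_lit 152) (nat_lit 0) (XT.nd (nat_lit 78) (nat_lit 152) (nat_lit 0) (XT.lf (nat_lit 0) (nat_lit 38044141946) (nat_lit 228) (nat_lit 451610834327) (nat_lit 76) (nat_lit 622217623809) (nat_lit 14) (nat_lit 5) (nat_lit 17) (nat_lit 5) (nat_lit 15) (nat_lit 5) (nat_lit 244) (nat_lit 234) (nat_lit 122)) (XT.lf (nat_lit 0) (nat_lit 254671969735) (nat_lit 228) (nat_lit 931807575447) (nat_lit 76) (nat_lit 42154769903) (nat_lit 12) (nat_lit 5) (nat_lit 15) (nat_lit 5) (nat_lit 13) (nat_lit 5) (nat_lit 245) (nat_lit 234) (nat_lit 121)))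 (XT.nd (nat_lit 78) (nat_lit 152) (nat_lit 0) (XT.lf (nat_lit 0) (nat_lit 530826267992) (nat_lit 228) (nat_lit 190864494628) (nat_lit 76) (nat_lit 639056941180) (nat_lit 12) (nat_lit 5) (nat_lit 15) (nat_lit 5) (nat_lit 13) (nat_lit 5) (nat_lit 246) (nat_lit 234) (nat_lit 120)) (XT.lf (nat_lit 0) (nat_lit 696038693680) (nat_lit 152) (nat_lit 169104743742) (nat_lit 228) (nat_lit 646195485428) (nat_lit 10) (nat_lit 5) (nat_lit 12) (nat_lit 5) (nat_lit 13) (nat_lit 5) (nat_lit 247) (nat_lit 234) (nat_lit 119))))) (XT.nd (nat_lit 312) (nat_lit 456) (nat_lit 0) (XT.nd (nat_lit 156) (nat_lit 456) (nat_lit 0) (XT.nd (nat_lit 78) (nat_lit 0) (nat_lit 0) (XT.lf (nat_lit 0) (nat_lit 133303247762) (nat_lit 0) (nat_lit 133303247762) (nat_lit 380) (nat_lit 8465108425) (nat_lit 31) (nat_lit 5) (nat_lit 31) (nat_lit 3) (nat_lit 36) (nat_lit 3) (nat_lit 235) (nat_lit 235) (nat_lit 130)) (XT.lf (nat_lit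 76) (nat_lit 113196251608) (nat_lit 0) (nat_lit 465828814600) (nat_lit 456) (nat_lit 11913190927) (nat_lit 32) (nat_lit 5) (nat_lit 31) (nat_lit 5) (nat_lit 37) (nat_lit 5) (nat_lit 236) (nat_lit 235) (nat_lit 129))) (XT.nd (nat_lit 78) (nat_lit 0) (nat_lit 76) (XT.lf (nat_lit 0) (nat_lit 10006612676) (nat_lit 456) (nat_lit 58023266934) (nat_lit 532) (nat_lit 568567073370) (nat_lit 25) (nat_lit 5) (nat_lit 31) (nat_lit 5) (nat_lit 32) (nat_lit 5) (nat_lit 237) (nat_lit 235) (nat_lit 128)) (XT.lf (nat_lit 0) (nat_lit 54924966845) (nat_lit 456) (nat_lit 251204409397) (nat_lit 532) (nat_lit 381317044838) (nat_lit 26) (nat_lit 5) (nat_lit 32) (nat_lit 5) (nat_lit 33) (nat_lit 5) (nat_lit 238) (nat_lit 235) (nat_lit 127)))) (XT.nd (nat_lit 156) (nat_lit 228) (nat_lit 0) (XT.nd (nat_lit 78) (nat_lit 380) (nat_lit 0) (XT.lf (nat_lit 0) (nat_lit 120574142172) (nat_lit 456) (nat_lit 474729599649)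 (nat_lit 76) (nat_lit 149500122543) (nat_lit 27) (nat_lit 5) (nat_lit 33) (nat_lit 5) (nat_lit 28) (nat_lit 5) (nat_lit 239) (nat_lit 235) (nat_lit 126)) (XT.lf (nat_lit 0) (nat_lit 69391540445) (nat_lit 380) (nat_lit 144318271494) (nat_lit 456) (nat_lit 595643983106) (nat_lit 22) (nat_lit 5) (nat_lit 27) (nat_lit 5) (nat_lit 28) (nat_lit 5) (nat_lit 240) (nat_lit 235) (nat_lit 125))) (XT.nd (nat_lit 78) (nat_lit 228) (nat_lit 0) (XT.lf (nat_lit 0) (nat_lit 343998316552) (nat_lit 456) (nat_lit 167962797600) (nat_lit 76) (nat_lit 369770502737) (nat_lit 22) (nat_lit 5) (nat_lit 28) (nat_lit 5) (nat_lit 23) (nat_lit 5) (nat_lit 241) (nat_lit 235) (nat_lit 124)) (XT.lf (nat_lit 0) (nat_lit 510152869692) (nat_lit 304) (nat_lit 452265449122) (nat_lit 76) (nat_lit 1241971637) (nat_lit 19) (nat_lit 5) (nat_lit 23) (nat_lit 5) (nat_lit 20) (nat_lit 5) (nat_lit 242) (nat_lit 235) (nat_lit 123))))))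 (XT.nd (nat_lit 30966) (nat_lit 0) (nat_lit 152) (XT.nd (nat_lit 312) (nat_lit 0) (nat_lit 0) (XT.nd (nat_lit 156) (nat_lit 380) (nat_lit 0) (XT.nd (nat_lit 78) (nat_lit 0) (nat_lit 0) (XT.lf (nat_lit 0) (nat_lit 243220638738) (nat_lit 152) (nat_lit 483036050834) (nat_lit 228) (nat_lit 329619489009) (nat_lit 17) (nat_lit 5) (nat_lit 19) (nat_lit 5) (nat_lit 20) (nat_lit 5) (nat_lit 243) (nat_lit 235) (nat_lit 122)) (XT.lf (nat_lit 0) (nat_lit 989926784942) (nat_lit 228) (nat_lit 92437147456) (nat_lit 76) (nat_lit 78348461535) (nat_lit 17) (nat_lit 5) (nat_lit 20) (nat_lit 5) (nat_lit 18) (nat_lit 5) (nat_lit 244) (nat_lit 235) (nat_lit 121))) (XT.nd (nat_lit 78) (nat_lit 152) (nat_lit 0) (XT.lf (nat_lit 0) (nat_lit 43751011726) (nat_lit 228) (nat_lit 519352136867) (nat_lit 76) (nat_lit 715550319854) (nat_lit 14) (nat_lit 5) (nat_lit 17) (nat_lit 5) (nat_lit 15) (nat_lit 5) (nat_lit 245)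 (nat_lit 235) (nat_lit 120)) (XT.lf (nat_lit 0) (nat_lit 292872990108) (nat_lit 228) (nat_lit 1071578398805) (nat_lit 76) (nat_lit 48478053904) (nat_lit 12) (nat_lit 5) (nat_lit 15) (nat_lit 5) (nat_lit 13) (nat_lit 5) (nat_lit 246) (nat_lit 235) (nat_lit 119)))) (XT.nd (nat_lit 30498) (nat_lit 0) (nat_lit 988) (XT.nd (nat_lit 30420) (nat_lit 0) (nat_lit 1444) (XT.lf (nat_lit 0) (nat_lit 610450403767) (nat_lit 228) (nat_lit 219493896683) (nat_lit 76) (nat_lit 734915541936) (nat_lit 12) (nat_lit 5) (nat_lit 15) (nat_lit 5) (nat_lit 13) (nat_lit 5) (nat_lit 247) (nat_lit 235) (nat_lit 118)) (XT.lf (nat_lit 0) (nat_lit 153298888983) (nat_lit 0) (nat_lit 153298888983) (nat_lit 380) (nat_lit 9734538773) (nat_lit 31) (nat_lit 5) (nat_lit 31) (nat_lit 3) (nat_lit 36) (nat_lit 3) (nat_lit 236) (nat_lit 236) (nat_lit 128))) (XT.nd (nat_lit 78) (nat_lit 456) (nat_lit 0) (XT.lf (nat_lit 76) (nat_lit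 130176029065) (nat_lit 0) (nat_lit 535703334649) (nat_lit 456) (nat_lit 13699583500) (nat_lit 32) (nat_lit 5) (nat_lit 31) (nat_lit 5) (nat_lit 37) (nat_lit 5) (nat_lit 237) (nat_lit 236) (nat_lit 127)) (XT.lf (nat_lit 0) (nat_lit 11508088707) (nat_lit 456) (nat_lit 66726431659) (nat_lit 532) (nat_lit 653851932414) (nat_lit 25) (nat_lit 5) (nat_lit 31) (nat_lit 5) (nat_lit 32) (nat_lit 5) (nat_lit 238) (nat_lit 236) (nat_lit 126))))) (XT.nd (nat_lit 312) (nat_lit 608) (nat_lit 0) (XT.nd (nat_lit 156) (nat_lit 304) (nat_lit 0) (XT.nd (nat_lit 78) (nat_lit 0) (nat_lit 76) (XT.lf (nat_lit 0) (nat_lit 63164136881) (nat_lit 456) (nat_lit 288884731799) (nat_lit 532) (nat_lit 438514477720) (nat_lit 26) (nat_lit 5) (nat_lit 32) (nat_lit 5) (nat_lit 33) (nat_lit 5) (nat_lit 239) (nat_lit 236) (nat_lit 125)) (XT.lf (nat_lit 0) (nat_lit 138660638929) (nat_lit 456) (nat_lit 545938694176) (nat_lit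 76) (nat_lit 171925077539) (nat_lit 27) (nat_lit 5) (nat_lit 33) (nat_lit 5) (nat_lit 28) (nat_lit 5) (nat_lit 240) (nat_lit 236) (nat_lit 124))) (XT.nd (nat_lit 78) (nat_lit 0) (nat_lit 0) (XT.lf (nat_lit 0) (nat_lit 79800587694) (nat_lit 380) (nat_lit 165966030102) (nat_lit 456) (nat_lit 684990216876) (nat_lit 22) (nat_lit 5) (nat_lit 27) (nat_lit 5) (nat_lit 28) (nat_lit 5) (nat_lit 241) (nat_lit 236) (nat_lit 123)) (XT.lf (nat_lit 0) (nat_lit 395598354153) (nat_lit 456) (nat_lit 193156916160) (nat_lit 76) (nat_lit 425236063374) (nat_lit 22) (nat_lit 5) (nat_lit 28) (nat_lit 5) (nat_lit 23) (nat_lit 5) (nat_lit 242) (nat_lit 236) (nat_lit 122)))) (XT.nd (nat_lit 156) (nat_lit 228) (nat_lit 0) (XT.nd (nat_lit 78) (nat_lit 152) (nat_lit 0) (XT.lf (nat_lit 0) (nat_lit 586676059452) (nat_lit 304) (nat_lit 520104968388) (nat_lit 76) (nat_lit 1428283238) (nat_lit 19) (nat_lit 5) (nat_lit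 23) (nat_lit 5) (nat_lit 20) (nat_lit 5) (nat_lit 243) (nat_lit 236) (nat_lit 121)) (XT.lf (nat_lit 0) (nat_lit 279704007418) (nat_lit 152) (nat_lit 555491417635) (nat_lit 228) (nat_lit 379062159841) (nat_lit 17) (nat_lit 5) (nat_lit 19) (nat_lit 5) (nat_lit 20) (nat_lit 5) (nat_lit 244) (nat_lit 236) (nat_lit 120))) (XT.nd (nat_lit 78) (nat_lit 228) (nat_lit 0) (XT.lf (nat_lit 0) (nat_lit 1138416005317) (nat_lit 228) (nat_lit 106302465347) (nat_lit 76) (nat_lit 90100764488) (nat_lit 17) (nat_lit 5) (nat_lit 20) (nat_lit 5) (nat_lit 18) (nat_lit 5) (nat_lit 245) (nat_lit 236) (nat_lit 119)) (XT.nd (nat_lit 30576) (nat_lit 0) (nat_lit 1292) (XT.lf (nat_lit 0) (nat_lit 50313851378) (nat_lit 228) (nat_lit 597254713458) (nat_lit 76) (nat_lit 822882907510) (nat_lit 14) (nat_lit 5) (nat_lit 17) (nat_lit 5) (nat_lit 15) (nat_lit 5) (nat_lit 246) (nat_lit 236) (nat_lit 118)) (XT.lf (nat_lit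 0) (nat_lit 176293838819) (nat_lit 0) (nat_lit 176293838819) (nat_lit 380) (nat_lit 11194465588) (nat_lit 31) (nat_lit 5) (nat_lit 31) (nat_lit 3) (nat_lit 36) (nat_lit 3) (nat_lit 237) (nat_lit 237) (nat_lit 126))))))))
noncomputable def xc63 : XT := (XT.nd (nat_lit 62634) (nat_lit 0) (nat_lit 380) (XT.nd (nat_lit 624) (nat_lit 0) (nat_lit 0) (XT.nd (nat_lit 312) (nat_lit 608) (nat_lit 0) (XT.nd (nat_lit 156) (nat_lit 0) (nat_lit 76) (XT.nd (nat_lit 78) (nat_lit 456) (nat_lit 0) (XT.lf (nat_lit 76) (nat_lit 149702690298) (nat_lit 0) (nat_lit 616058984455) (nat_lit 456) (nat_lit 15754077875) (nat_lit 32) (nat_lit 5) (nat_lit 31) (nat_lit 5) (nat_lit 37) (nat_lit 5) (nat_lit 238) (nat_lit 237) (nat_lit 125)) (XT.lf (nat_lit 0) (nat_lit 13234668084) (nat_lit 456) (nat_lit 76735150422) (nat_lit 532) (nat_lit 751929569564) (nat_lit 25) (nat_lit 5) (nat_lit 31) (nat_lit 5) (nat_lit 32) (nat_lit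 5) (nat_lit 239) (nat_lit 237) (nat_lit 124))) (XT.nd (nat_lit 78) (nat_lit 0) (nat_lit 76) (XT.lf (nat_lit 0) (nat_lit 72639078781) (nat_lit 456) (nat_lit 332217185231) (nat_lit 532) (nat_lit 504291555735) (nat_lit 26) (nat_lit 5) (nat_lit 32) (nat_lit 5) (nat_lit 33) (nat_lit 5) (nat_lit 240) (nat_lit 237) (nat_lit 123)) (XT.lf (nat_lit 0) (nat_lit 159460018648) (nat_lit 456) (nat_lit 627829237115) (nat_lit 76) (nat_lit 197713791241) (nat_lit 27) (nat_lit 5) (nat_lit 33) (nat_lit 5) (nat_lit 28) (nat_lit 5) (nat_lit 241) (nat_lit 237) (nat_lit 122)))) (XT.nd (nat_lit 156) (nat_lit 380) (nat_lit 0) (XT.nd (nat_lit 78) (nat_lit 0) (nat_lit 0) (XT.lf (nat_lit 0) (nat_lit 91770914927) (nat_lit 380) (nat_lit 190860948140) (nat_lit 456) (nat_lit 787738474401) (nat_lit 22) (nat_lit 5) (nat_lit 27) (nat_lit 5) (nat_lit 28) (nat_lit 5) (nat_lit 242) (nat_lit 237) (nat_lit 121)) (XT.lf (nat_lit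 0) (nat_lit 454938326646) (nat_lit 456) (nat_lit 222130225924) (nat_lit 76) (nat_lit 489021461709) (nat_lit 22) (nat_lit 5) (nat_lit 28) (nat_lit 5) (nat_lit 23) (nat_lit 5) (nat_lit 243) (nat_lit 237) (nat_lit 120))) (XT.nd (nat_lit 78) (nat_lit 152) (nat_lit 0) (XT.lf (nat_lit 0) (nat_lit 674677664443) (nat_lit 304) (nat_lit 598120488238) (nat_lit 76) (nat_lit 1642537712) (nat_lit 19) (nat_lit 5) (nat_lit 23) (nat_lit 5) (nat_lit 20) (nat_lit 5) (nat_lit 244) (nat_lit 237) (nat_lit 119)) (XT.lf (nat_lit 0) (nat_lit 321659814859) (nat_lit 152) (nat_lit 638815099413) (nat_lit 228) (nat_lit 435921292876) (nat_lit 17) (nat_lit 5) (nat_lit 19) (nat_lit 5) (nat_lit 20) (nat_lit 5) (nat_lit 245) (nat_lit 237) (nat_lit 118))))) (XT.nd (nat_lit 30888) (nat_lit 0) (nat_lit 152) (XT.nd (nat_lit 30732) (nat_lit 0) (nat_lit 608) (XT.nd (nat_lit 30654) (nat_lit 0) (nat_lit 1064) (XT.lf (nat_lit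 0) (nat_lit 1309178559334) (nat_lit 228) (nat_lit 122247642917) (nat_lit 76) (nat_lit 103615904661) (nat_lit 17) (nat_lit 5) (nat_lit 20) (nat_lit 5) (nat_lit 18) (nat_lit 5) (nat_lit 246) (nat_lit 237) (nat_lit 117)) (XT.lf (nat_lit 0) (nat_lit 202738002724) (nat_lit 0) (nat_lit 202738002724) (nat_lit 380) (nat_lit 12873443366) (nat_lit 31) (nat_lit 5) (nat_lit 31) (nat_lit 3) (nat_lit 36) (nat_lit 3) (nat_lit 238) (nat_lit 238) (nat_lit 124))) (XT.nd (nat_lit 78) (nat_lit 456) (nat_lit 0) (XT.lf (nat_lit 76) (nat_lit 172158288076) (nat_lit 0) (nat_lit 708467945250) (nat_lit 456) (nat_lit 18116854471) (nat_lit 32) (nat_lit 5) (nat_lit 31) (nat_lit 5) (nat_lit 37) (nat_lit 5) (nat_lit 239) (nat_lit 238) (nat_lit 123)) (XT.lf (nat_lit 0) (nat_lit 15220145099) (nat_lit 456) (nat_lit 88245236985) (nat_lit 532) (nat_lit 864718889526) (nat_lit 25) (nat_lit 5) (nat_lit 31) (nat_lit 5) (nat_lit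 32) (nat_lit 5) (nat_lit 240) (nat_lit 238) (nat_lit 122)))) (XT.nd (nat_lit 156) (nat_lit 532) (nat_lit 0) (XT.nd (nat_lit 78) (nat_lit 0) (nat_lit 76) (XT.lf (nat_lit 0) (nat_lit 83535183598) (nat_lit 456) (nat_lit 382049569187) (nat_lit 532) (nat_lit 579935218288) (nat_lit 26) (nat_lit 5) (nat_lit 32) (nat_lit 5) (nat_lit 33) (nat_lit 5) (nat_lit 241) (nat_lit 238) (nat_lit 121)) (XT.lf (nat_lit 0) (nat_lit 183379236099) (nat_lit 456) (nat_lit 722003425188) (nat_lit 76) (nat_lit 227370823686) (nat_lit 27) (nat_lit 5) (nat_lit 33) (nat_lit 5) (nat_lit 28) (nat_lit 5) (nat_lit 242) (nat_lit 238) (nat_lit 120))) (XT.nd (nat_lit 78) (nat_lit 228) (nat_lit 0) (XT.lf (nat_lit 0) (nat_lit 105536732944) (nat_lit 380) (nat_lit 219490100586) (nat_lit 456) (nat_lit 905899037617) (nat_lit 22) (nat_lit 5) (nat_lit 27) (nat_lit 5) (nat_lit 28) (nat_lit 5) (nat_lit 243) (nat_lit 238) (nat_lit 119))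 (XT.nd (nat_lit 78) (nat_lit 228) (nat_lit 0) (XT.lf (nat_lit 0) (nat_lit 523179241519) (nat_lit 456) (nat_lit 255449587670) (nat_lit 76) (nat_lit 562374672519) (nat_lit 22) (nat_lit 5) (nat_lit 28) (nat_lit 5) (nat_lit 23) (nat_lit 5) (nat_lit 244) (nat_lit 238) (nat_lit 118)) (XT.lf (nat_lit 0) (nat_lit 775879462368) (nat_lit 304) (nat_lit 687838391033) (nat_lit 76) (nat_lit 1888927434) (nat_lit 19) (nat_lit 5) (nat_lit 23) (nat_lit 5) (nat_lit 20) (nat_lit 5) (nat_lit 245) (nat_lit 238) (nat_lit 117))))))) (XT.nd (nat_lit 31434) (nat_lit 0) (nat_lit 228) (XT.nd (nat_lit 312) (nat_lit 228) (nat_lit 0) (XT.nd (nat_lit 156) (nat_lit 456) (nat_lit 0) (XT.nd (nat_lit 78) (nat_lit 0) (nat_lit 0) (XT.lf (nat_lit 0) (nat_lit 233148769735) (nat_lit 0) (nat_lit 233148769735) (nat_lit 380) (nat_lit 14804314645) (nat_lit 31) (nat_lit 5) (nat_lit 31) (nat_lit 3) (nat_lit 36) (nat_lit 3) (nat_lit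 239) (nat_lit 239) (nat_lit 122)) (XT.lf (nat_lit 76) (nat_lit 197982178156) (nat_lit 0) (nat_lit 814738222577) (nat_lit 456) (nat_lit 20834129269) (nat_lit 32) (nat_lit 5) (nat_lit 31) (nat_lit 5) (nat_lit 37) (nat_lit 5) (nat_lit 240) (nat_lit 239) (nat_lit 121))) (XT.nd (nat_lit 78) (nat_lit 0) (nat_lit 76) (XT.lf (nat_lit 0) (nat_lit 17503376167) (nat_lit 456) (nat_lit 101481881890) (nat_lit 532) (nat_lit 994426635641) (nat_lit 25) (nat_lit 5) (nat_lit 31) (nat_lit 5) (nat_lit 32) (nat_lit 5) (nat_lit 241) (nat_lit 239) (nat_lit 120)) (XT.lf (nat_lit 0) (nat_lit 96065644880) (nat_lit 456) (nat_lit 439356858003) (nat_lit 532) (nat_lit 666925447490) (nat_lit 26) (nat_lit 5) (nat_lit 32) (nat_lit 5) (nat_lit 33) (nat_lit 5) (nat_lit 242) (nat_lit 239) (nat_lit 119)))) (XT.nd (nat_lit 156) (nat_lit 0) (nat_lit 0) (XT.nd (nat_lit 78) (nat_lit 380) (nat_lit 0) (XT.lf (nat_lit 0) (nat_lit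 210886283823) (nat_lit 456) (nat_lit 830303789632) (nat_lit 76) (nat_lit 261476419836) (nat_lit 27) (nat_lit 5) (nat_lit 33) (nat_lit 5) (nat_lit 28) (nat_lit 5) (nat_lit 243) (nat_lit 239) (nat_lit 118)) (XT.lf (nat_lit 0) (nat_lit 121367379580) (nat_lit 380) (nat_lit 252413623406) (nat_lit 456) (nat_lit 1041783736024) (nat_lit 22) (nat_lit 5) (nat_lit 27) (nat_lit 5) (nat_lit 28) (nat_lit 5) (nat_lit 244) (nat_lit 239) (nat_lit 117))) (XT.nd (nat_lit 30888) (nat_lit 0) (nat_lit 684) (XT.lf (nat_lit 0) (nat_lit 601656253173) (nat_lit 456) (nat_lit 293766895655) (nat_lit 76) (nat_lit 646730867010) (nat_lit 22) (nat_lit 5) (nat_lit 28) (nat_lit 5) (nat_lit 23) (nat_lit 5) (nat_lit 245) (nat_lit 239) (nat_lit 116)) (XT.lf (nat_lit 0) (nat_lit 268121135556) (nat_lit 0) (nat_lit 268121135556) (nat_lit 380) (nat_lit 17024852030) (nat_lit 31) (nat_lit 5) (nat_lit 31) (nat_lit 3) (nat_lit 36)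 (nat_lit 3) (nat_lit 240) (nat_lit 240) (nat_lit 120))))) (XT.nd (nat_lit 31278) (nat_lit 0) (nat_lit 0) (XT.nd (nat_lit 156) (nat_lit 0) (nat_lit 76) (XT.nd (nat_lit 78) (nat_lit 456) (nat_lit 0) (XT.lf (nat_lit 76) (nat_lit 227679615933) (nat_lit 0) (nat_lit 936949020644) (nat_lit 456) (nat_lit 23959057074) (nat_lit 32) (nat_lit 5) (nat_lit 31) (nat_lit 5) (nat_lit 37) (nat_lit 5) (nat_lit 241) (nat_lit 240) (nat_lit 119)) (XT.lf (nat_lit 0) (nat_lit 20129040855) (nat_lit 456) (nat_lit 116704057828) (nat_lit 532) (nat_lit 1143590564966) (nat_lit 25) (nat_lit 5) (nat_lit 31) (nat_lit 5) (nat_lit 32) (nat_lit 5) (nat_lit 242) (nat_lit 240) (nat_lit 118))) (XT.nd (nat_lit 78) (nat_lit 0) (nat_lit 76) (XT.lf (nat_lit 0) (nat_lit 110475630548) (nat_lit 456) (nat_lit 505260275881) (nat_lit 532) (nat_lit 766964224129) (nat_lit 26) (nat_lit 5) (nat_lit 32) (nat_lit 5) (nat_lit 33) (nat_lit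 5) (nat_lit 243) (nat_lit 240) (nat_lit 117)) (XT.lf (nat_lit 0) (nat_lit 242519349125) (nat_lit 456) (nat_lit 954849245158) (nat_lit 76) (nat_lit 300697862090) (nat_lit 27) (nat_lit 5) (nat_lit 33) (nat_lit 5) (nat_lit 28) (nat_lit 5) (nat_lit 244) (nat_lit 240) (nat_lit 116)))) (XT.nd (nat_lit 156) (nat_lit 456) (nat_lit 0) (XT.nd (nat_lit 78) (nat_lit 0) (nat_lit 0) (XT.lf (nat_lit 0) (nat_lit 308339343970) (nat_lit 0) (nat_lit 308339343970) (nat_lit 380) (nat_lit 19578496801) (nat_lit 31) (nat_lit 5) (nat_lit 31) (nat_lit 3) (nat_lit 36) (nat_lit 3) (nat_lit 241) (nat_lit 241) (nat_lit 118)) (XT.lf (nat_lit 76) (nat_lit 261831642296) (nat_lit 0) (nat_lit 1077491422648) (nat_lit 456) (nat_lit 27552770768) (nat_lit 32) (nat_lit 5) (nat_lit 31) (nat_lit 5) (nat_lit 37) (nat_lit 5) (nat_lit 242) (nat_lit 241) (nat_lit 117))) (XT.nd (nat_lit 31200) (nat_lit 0) (nat_lit 456) (XT.lf (nat_lit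 0) (nat_lit 23148516652) (nat_lit 456) (nat_lit 134209586089) (nat_lit 532) (nat_lit 1315129099789) (nat_lit 25) (nat_lit 5) (nat_lit 31) (nat_lit 5) (nat_lit 32) (nat_lit 5) (nat_lit 243) (nat_lit 241) (nat_lit 116)) (XT.nd (nat_lit 78) (nat_lit 0) (nat_lit 0) (XT.lf (nat_lit 0) (nat_lit 354590274360) (nat_lit 0) (nat_lit 354590274360) (nat_lit 380) (nat_lit 22515208537) (nat_lit 31) (nat_lit 5) (nat_lit 31) (nat_lit 3) (nat_lit 36) (nat_lit 3) (nat_lit 242) (nat_lit 242) (nat_lit 116)) (XT.lf (nat_lit 76) (nat_lit 301106452136) (nat_lit 0) (nat_lit 1239115173027) (nat_lit 456) (nat_lit 31685576843) (nat_lit 32) (nat_lit 5) (nat_lit 31) (nat_lit 5) (nat_lit 37) (nat_lit 5) (nat_lit 243) (nat_lit 242) (nat_lit 115))))))))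

set_option maxRecDepth 10000000 in
noncomputable def Tp : PT := (PT.nd (nat_lit 3166878) pc0 pc1)

set_option maxRecDepth 10000000 in
noncomputable def Tx : XT := (XT.nd (nat_lit 5399784) (nat_lit 0) (nat_lit 76) XT.nil (XT.nd (nat_lit 2188524) (nat_lit 0) (nat_lit 0) (XT.nd (nat_lit 1000506) (nat_lit 0) (nat_lit 0) (XT.nd (nat_lit 687102) (nat_lit 0) (nat_lit 0) (XT.nd (nat_lit 468936) (nat_lit 0) (nat_lit 0) (XT.nd (nat_lit 342420) (nat_lit 0) (nat_lit 0) (XT.nd (nat_lit 218634) (nat_lit 0) (nat_lit 0) (XT.nd (nat_lit 155844) (nat_lit 0) (nat_lit 0) xc0 xc1) (XT.nd (nat_lit 62166) (nat_lit 0) (nat_lit 0) xc2 xc3)) (XT.nd (nat_lit 63570) (nat_lit 0) (nat_lit 0) (XT.nd (nat_lit 31824) (nat_lit 0) (nat_lit 0) xc4 xc5) (XT.nd (nat_lit 31512) (nat_lit 0) (nat_lit 0) xc6 xc7))) (XT.nd (nat_lit 124020) (nat_lit 0) (nat_lit 0) (XT.nd (nat_lit 62322) (nat_lit 0) (nat_lit 0) (XT.nd (nat_lit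 31200) (nat_lit 0) (nat_lit 0) xc8 xc9) (XT.nd (nat_lit 30888) (nat_lit 0) (nat_lit 0) xc10 xc11)) (XT.nd (nat_lit 61152) (nat_lit 0) (nat_lit 0) (XT.nd (nat_lit 30576) (nat_lit 0) (nat_lit 0) xc12 xc13) (XT.nd (nat_lit 2574) (nat_lit 0) (nat_lit 0) xc14 xc15)))) (XT.nd (nat_lit 157404) (nat_lit 0) (nat_lit 0) (XT.nd (nat_lit 92820) (nat_lit 0) (nat_lit 0) (XT.nd (nat_lit 60294) (nat_lit 0) (nat_lit 0) (XT.nd (nat_lit 30186) (nat_lit 0) (nat_lit 0) xc16 xc17) (XT.nd (nat_lit 2574) (nat_lit 0) (nat_lit 0) xc18 xc19)) (XT.nd (nat_lit 32370) (nat_lit 0) (nat_lit 0) (XT.nd (nat_lit 29718) (nat_lit 0) (nat_lit 0) xc20 xc21) (XT.nd (nat_lit 29562) (nat_lit 0) (nat_lit 0) xc22 xc23))) (XT.nd (nat_lit 91182) (nat_lit 0) (nat_lit 0) (XT.nd (nat_lit 58968) (nat_lit 0) (nat_lit 0) (XT.nd (nat_lit 29406) (nat_lit 0) (nat_lit 0) xc24 xc25) (XT.nd (nat_lit 2574) (nat_lit 0) (nat_lit 0) xc26 xc27))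 (XT.nd (nat_lit 32370) (nat_lit 0) (nat_lit 0) (XT.nd (nat_lit 2574) (nat_lit 0) (nat_lit 0) xc28 xc29) (XT.nd (nat_lit 29796) (nat_lit 0) (nat_lit 0) xc30 xc31))))) (XT.nd (nat_lit 375102) (nat_lit 0) (nat_lit 0) (XT.nd (nat_lit 185874) (nat_lit 0) (nat_lit 0) (XT.nd (nat_lit 92508) (nat_lit 0) (nat_lit 0) (XT.nd (nat_lit 59826) (nat_lit 0) (nat_lit 0) (XT.nd (nat_lit 29874) (nat_lit 0) (nat_lit 0) xc32 xc33) (XT.nd (nat_lit 2574) (nat_lit 0) (nat_lit 0) xc34 xc35)) (XT.nd (nat_lit 32760) (nat_lit 0) (nat_lit 0) (XT.nd (nat_lit 30108) (nat_lit 0) (nat_lit 0) xc36 xc37) (XT.nd (nat_lit 30186) (nat_lit 0) (nat_lit 0) xc38 xc39))) (XT.nd (nat_lit 94224) (nat_lit 0) (nat_lit 0) (XT.nd (nat_lit 33072) (nat_lit 0) (nat_lit 0) (XT.nd (nat_lit 30420) (nat_lit 0) (nat_lit 0) xc40 xc41) (XT.nd (nat_lit 30498) (nat_lit 0) (nat_lit 0) xc42 xc43)) (XT.nd (nat_lit 61464) (nat_lit 0) (nat_lit 0) (XT.nd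 (nat_lit 30654) (nat_lit 0) (nat_lit 0) xc44 xc45) (XT.nd (nat_lit 2574) (nat_lit 0) (nat_lit 0) xc46 xc47)))) (XT.nd (nat_lit 279708) (nat_lit 0) (nat_lit 76) (XT.nd (nat_lit 124488) (nat_lit 0) (nat_lit 0) (XT.nd (nat_lit 62088) (nat_lit 0) (nat_lit 0) (XT.nd (nat_lit 30966) (nat_lit 0) (nat_lit 0) xc48 xc49) (XT.nd (nat_lit 31122) (nat_lit 0) (nat_lit 0) xc50 xc51)) (XT.nd (nat_lit 62868) (nat_lit 0) (nat_lit 76) (XT.nd (nat_lit 31356) (nat_lit 0) (nat_lit 0) xc52 xc53) (XT.nd (nat_lit 31512) (nat_lit 0) (nat_lit 0) xc54 xc55))) (XT.nd (nat_lit 157638) (nat_lit 0) (nat_lit 228) (XT.nd (nat_lit 63804) (nat_lit 0) (nat_lit 76) (XT.nd (nat_lit 31824) (nat_lit 0) (nat_lit 0) xc56 xc57) (XT.nd (nat_lit 31980) (nat_lit 0) (nat_lit 76) xc58 xc59)) (XT.nd (nat_lit 125034) (nat_lit 0) (nat_lit 380) (XT.nd (nat_lit 62322) (nat_lit 0) (nat_lit 76) xc60 xc61) (XT.nd (nat_lit 93678) (nat_lit 0)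 (nat_lit 532) xc62 xc63)))))) XT.nil))

set_option maxRecDepth 10000000 in
noncomputable def Te : XT := XT.nil

set_option maxRecDepth 10000000 in
noncomputable def Tz : ZL := (ZL.cons (nat_lit 76) (nat_lit 3) (nat_lit 78765735570022635179) (ZL.cons (nat_lit 152) (nat_lit 6) (nat_lit 149220355840754279116) (ZL.cons (nat_lit 228) (nat_lit 6) (nat_lit 142376913062227355818) (ZL.cons (nat_lit 304) (nat_lit 3) (nat_lit 70557214713518860088) (ZL.cons (nat_lit 380) (nat_lit 6) (nat_lit 134506953866921394030) (ZL.cons (nat_lit 456) (nat_lit 6) (nat_lit 129268652464663894298) (ZL.cons (nat_lit 532) (nat_lit 3) (nat_lit 64085420303988627302) (ZL.cons (nat_lit 608) (nat_lit 6) (nat_lit 125297036714568878594) (ZL.cons (nat_lit 684) (nat_lit 6) (nat_lit 123244605852067769606) (ZL.cons (nat_lit 760) (nat_lit 6) (nat_lit 119631866745272970840) (ZL.cons (nat_lit 836) (nat_lit 3) (nat_lit 59338623869729250773)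 (ZL.cons (nat_lit 912) (nat_lit 6) (nat_lit 116088455254600033884) (ZL.cons (nat_lit 988) (nat_lit 6) (nat_lit 117261939261590351380) (ZL.cons (nat_lit 1064) (nat_lit 6) (nat_lit 115477216772458952262) (ZL.cons (nat_lit 1140) (nat_lit 3) (nat_lit 56477113078714884825) (ZL.cons (nat_lit 1216) (nat_lit 6) (nat_lit 113581903649540869704) (ZL.cons (nat_lit 1292) (nat_lit 3) (nat_lit 56375900083111969940) (ZL.cons (nat_lit 1368) (nat_lit 6) (nat_lit 111402293558185074764) (ZL.cons (nat_lit 1444) (nat_lit 1) (nat_lit 18446744073709551617) ZL.nil)))))))))))))))))))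

noncomputable def vl : XL := ⟨(nat_lit 0), (nat_lit 76), (nat_lit 634277364), (nat_lit 152), (nat_lit 63910844), (nat_lit 152), (nat_lit 63910844), (nat_lit 1), (nat_lit 4), (nat_lit 2), (nat_lit 5), (nat_lit 2), (nat_lit 4), (nat_lit 0), (nat_lit 0), (nat_lit 0)⟩

noncomputable def cp0 : Nat := (nat_lit 953994273745732827370858829798645966992604054472308536627059546527872759921416609962016904721761912537782013327768438449282724281958575698972455547498682366203459759094542304344211276285071675926746434215962748394139887767126328251637450636938312191860491309911059364341784973395438550343651551075993447468963707609091058646804797038845385111077772354173670287666758000059062642102172515035264529982515310352302305432004312069509864229467597497268436992)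

noncomputable def cp1 : Nat := (nat_lit 1954189875855515749771303410300573034704216474965545285847598521414820659223378709664026080276976785181393509418820902811293624802424427964629119747443305914672077595310158895825736120358064939352235330820491158984734881269668913843476644587086061916608928024942657221546108491392035795765207661157175491265558221220440505694113428278278772667281839799122647707512887704079199276024559889421801905771141125750472877928738603956381803786384558107779532099868002263749251537558678460968427967872429478685819853031900122430055241411596149607723115972101529839324814248107822835969674843621178112080885185854063642106964012261509595026804940699147562903186594011482452852708534427206592747828657468957264052926453695248582219278365036565240428411705789021367914268018579980878061721949768946194781154304058379103207223636697503033870050714020627843961639201454332990119074742950424276533796994812241521129594123775960256107782562887308292549327188049635345456364511901468821362614091827310424809266907168826816493789158079108032984383642244543999834017900050876425522441327541668948452017701960823490620454709049381879808)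

noncomputable def rc0 : Nat := (nat_lit 1954189875855515749771303410300573034704216474965545285847598521414820659223378709664026080276976785181393509418820902811293624802424427964629119747443305914672077595310158895825736120358064939352235330820491158984734881269668913843476644587086061916608928024942657221546108491392035795765207661157175491265558221220440505694113428278278772667281839799122647707512887704079199276024559889421801905771141125750472877928738603956381803786384558107779532099868002263749251537558678460968427967872429478685819853031900122430055241411596149607723115972101529839324814248107822835969674843621178112080885185854063642106964012261509595026804940699147562903186594011482452852708534427206592747828657468957264052926453695248582219278365036565240428411705789021367914268018579980878061721949768946194781154304058379103207223636697503033870050714020627843961639201454332990119074742950424276533796994812241521129594123775960256107782562887308292549327188049635345456364511901468821362614091827310424809266907168826816493789158079108032984383642244543999834017900050876425522441327541668948452017701960823490620454709049381879808)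

end Vale.Agent.Lib.P154.PChain.BX.S1
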