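import Vale.Agent.Lib.P154.PChain.BX.R1_0

set_option linter.all false

namespace Vale.Agent.Lib.P154.PChain.BX.S2

open Vale.Agent.Lib.P154.Chain

noncomputable def pc0 : PT := (PT.nd (nat_lit 4211532) (PT.nd (nat_lit 4061694) (PT.nd (nat_lit 3949374) (PT.nd (nat_lit 3911778) (PT.nd (nat_lit 3874338) (PT.nd (nat_lit 3836898) PT.nil (PT.lf (nat_lit 76) (nat_lit 3) (nat_lit 1) (nat_lit 1) (nat_lit 129) (nat_lit 102) (nat_lit 129))) (PT.nd (nat_lit 78) (PT.lf (nat_lit 152) (nat_lit 6) (nat_lit 2) (nat_lit 3) (nat_lit 128) (nat_lit 103) (nat_lit 129)) (PT.lf (nat_lit 152) (nat_lit 6) (nat_lit 2) (nat_lit 1) (nat_lit 129) (nat_lit 103) (nat_lit 128)))) (PT.nd (nat_lit 156) (PT.nd (nat_lit 78) (PT.lf (nat_lit 228) (nat_lit 6) (nat_lit 3) (nat_lit 3) (nat_lit 127) (nat_lit 104) (nat_lit 129)) (PT.lf (nat_lit 304) (nat_lit 3) (nat_lit 4) (nat_lit 1) (nat_lit 128) (nat_lit 104) (nat_lit 128)))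 (PT.nd (nat_lit 37362) (PT.lf (nat_lit 228) (nat_lit 6) (nat_lit 3) (nat_lit 1) (nat_lit 129) (nat_lit 104) (nat_lit 127)) (PT.lf (nat_lit 380) (nat_lit 6) (nat_lit 5) (nat_lit 3) (nat_lit 127) (nat_lit 105) (nat_lit 128))))) (PT.nd (nat_lit 74802) (PT.nd (nat_lit 37440) (PT.nd (nat_lit 37362) (PT.lf (nat_lit 380) (nat_lit 6) (nat_lit 5) (nat_lit 1) (nat_lit 128) (nat_lit 105) (nat_lit 127)) (PT.lf (nat_lit 456) (nat_lit 6) (nat_lit 6) (nat_lit 3) (nat_lit 126) (nat_lit 106) (nat_lit 128))) (PT.nd (nat_lit 78) (PT.lf (nat_lit 532) (nat_lit 3) (nat_lit 7) (nat_lit 1) (nat_lit 127) (nat_lit 106) (nat_lit 127)) (PT.lf (nat_lit 456) (nat_lit 6) (nat_lit 6) (nat_lit 1) (nat_lit 128) (nat_lit 106) (nat_lit 126)))) (PT.nd (nat_lit 156) (PT.nd (nat_lit 78) (PT.lf (nat_lit 608) (nat_lit 6) (nat_lit 8) (nat_lit 3) (nat_lit 125) (nat_lit 107) (nat_lit 128)) (PT.lf (nat_lit 684) (nat_lit 6) (nat_lit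 9) (nat_lit 3) (nat_lit 126) (nat_lit 107) (nat_lit 127))) (PT.nd (nat_lit 78) (PT.lf (nat_lit 684) (nat_lit 6) (nat_lit 9) (nat_lit 1) (nat_lit 127) (nat_lit 107) (nat_lit 126)) (PT.lf (nat_lit 608) (nat_lit 6) (nat_lit 8) (nat_lit 1) (nat_lit 128) (nat_lit 107) (nat_lit 125)))))) (PT.nd (nat_lit 74958) (PT.nd (nat_lit 37518) (PT.nd (nat_lit 156) (PT.nd (nat_lit 78) (PT.lf (nat_lit 760) (nat_lit 6) (nat_lit 10) (nat_lit 3) (nat_lit 125) (nat_lit 108) (nat_lit 127)) (PT.lf (nat_lit 836) (nat_lit 3) (nat_lit 11) (nat_lit 1) (nat_lit 126) (nat_lit 108) (nat_lit 126))) (PT.nd (nat_lit 37284) (PT.lf (nat_lit 760) (nat_lit 6) (nat_lit 10) (nat_lit 1) (nat_lit 127) (nat_lit 108) (nat_lit 125)) (PT.lf (nat_lit 912) (nat_lit 6) (nat_lit 12) (nat_lit 3) (nat_lit 124) (nat_lit 109) (nat_lit 127)))) (PT.nd (nat_lit 156) (PT.nd (nat_lit 78) (PT.lf (nat_lit 988) (nat_lit 6) (nat_lit 13) (nat_lit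 3) (nat_lit 125) (nat_lit 109) (nat_lit 126)) (PT.lf (nat_lit 988) (nat_lit 6) (nat_lit 13) (nat_lit 1) (nat_lit 126) (nat_lit 109) (nat_lit 125))) (PT.nd (nat_lit 37206) (PT.lf (nat_lit 912) (nat_lit 6) (nat_lit 12) (nat_lit 1) (nat_lit 127) (nat_lit 109) (nat_lit 124)) (PT.lf (nat_lit 1064) (nat_lit 6) (nat_lit 14) (nat_lit 3) (nat_lit 123) (nat_lit 110) (nat_lit 127))))) (PT.nd (nat_lit 37440) (PT.nd (nat_lit 156) (PT.nd (nat_lit 78) (PT.lf (nat_lit 1140) (nat_lit 6) (nat_lit 15) (nat_lit 3) (nat_lit 124) (nat_lit 110) (nat_lit 126)) (PT.lf (nat_lit 1216) (nat_lit 3) (nat_lit 16) (nat_lit 1) (nat_lit 125) (nat_lit 110) (nat_lit 125))) (PT.nd (nat_lit 78) (PT.lf (nat_lit 1140) (nat_lit 6) (nat_lit 15) (nat_lit 1) (nat_lit 126) (nat_lit 110) (nat_lit 124)) (PT.lf (nat_lit 1064) (nat_lit 6) (nat_lit 14) (nat_lit 1) (nat_lit 127) (nat_lit 110) (nat_lit 123)))) (PT.nd (nat_lit 156)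 (PT.nd (nat_lit 78) (PT.lf (nat_lit 1292) (nat_lit 6) (nat_lit 17) (nat_lit 3) (nat_lit 123) (nat_lit 111) (nat_lit 126)) (PT.lf (nat_lit 1368) (nat_lit 6) (nat_lit 18) (nat_lit 3) (nat_lit 124) (nat_lit 111) (nat_lit 125))) (PT.nd (nat_lit 78) (PT.lf (nat_lit 1368) (nat_lit 6) (nat_lit 18) (nat_lit 1) (nat_lit 125) (nat_lit 111) (nat_lit 124)) (PT.lf (nat_lit 1292) (nat_lit 6) (nat_lit 17) (nat_lit 1) (nat_lit 126) (nat_lit 111) (nat_lit 123))))))) (PT.nd (nat_lit 75192) (PT.nd (nat_lit 37596) (PT.nd (nat_lit 234) (PT.nd (nat_lit 78) (PT.lf (nat_lit 1444) (nat_lit 6) (nat_lit 19) (nat_lit 3) (nat_lit 122) (nat_lit 112) (nat_lit 126)) (PT.nd (nat_lit 78) (PT.lf (nat_lit 1520) (nat_lit 6) (nat_lit 20) (nat_lit 3) (nat_lit 123) (nat_lit 112) (nat_lit 125)) (PT.lf (nat_lit 1596) (nat_lit 3) (nat_lit 21) (nat_lit 1) (nat_lit 124) (nat_lit 112) (nat_lit 124)))) (PT.nd (nat_lit 37206) (PT.nd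 (nat_lit 78) (PT.lf (nat_lit 1520) (nat_lit 6) (nat_lit 20) (nat_lit 1) (nat_lit 125) (nat_lit 112) (nat_lit 123)) (PT.lf (nat_lit 1444) (nat_lit 6) (nat_lit 19) (nat_lit 1) (nat_lit 126) (nat_lit 112) (nat_lit 122))) (PT.nd (nat_lit 78) (PT.lf (nat_lit 1672) (nat_lit 6) (nat_lit 22) (nat_lit 3) (nat_lit 121) (nat_lit 113) (nat_lit 126)) (PT.lf (nat_lit 1748) (nat_lit 6) (nat_lit 23) (nat_lit 3) (nat_lit 122) (nat_lit 113) (nat_lit 125))))) (PT.nd (nat_lit 37284) (PT.nd (nat_lit 156) (PT.nd (nat_lit 78) (PT.lf (nat_lit 1824) (nat_lit 6) (nat_lit 24) (nat_lit 3) (nat_lit 123) (nat_lit 113) (nat_lit 124)) (PT.lf (nat_lit 1824) (nat_lit 6) (nat_lit 24) (nat_lit 1) (nat_lit 124) (nat_lit 113) (nat_lit 123))) (PT.nd (nat_lit 78) (PT.lf (nat_lit 1748) (nat_lit 6) (nat_lit 23) (nat_lit 1) (nat_lit 125) (nat_lit 113) (nat_lit 122)) (PT.lf (nat_lit 1672) (nat_lit 6) (nat_lit 22) (nat_lit 1)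 (nat_lit 126) (nat_lit 113) (nat_lit 121)))) (PT.nd (nat_lit 156) (PT.nd (nat_lit 78) (PT.lf (nat_lit 2052) (nat_lit 6) (nat_lit 27) (nat_lit 3) (nat_lit 120) (nat_lit 114) (nat_lit 126)) (PT.lf (nat_lit 2128) (nat_lit 6) (nat_lit 28) (nat_lit 3) (nat_lit 121) (nat_lit 114) (nat_lit 125))) (PT.nd (nat_lit 78) (PT.lf (nat_lit 2204) (nat_lit 6) (nat_lit 29) (nat_lit 3) (nat_lit 122) (nat_lit 114) (nat_lit 124)) (PT.lf (nat_lit 2280) (nat_lit 3) (nat_lit 30) (nat_lit 1) (nat_lit 123) (nat_lit 114) (nat_lit 123)))))) (PT.nd (nat_lit 37518) (PT.nd (nat_lit 37206) (PT.nd (nat_lit 156) (PT.nd (nat_lit 78) (PT.lf (nat_lit 2204) (nat_lit 6) (nat_lit 29) (nat_lit 1) (nat_lit 124) (nat_lit 114) (nat_lit 122)) (PT.lf (nat_lit 2128) (nat_lit 6) (nat_lit 28) (nat_lit 1) (nat_lit 125) (nat_lit 114) (nat_lit 121))) (PT.nd (nat_lit 36972) (PT.lf (nat_lit 2052) (nat_lit 6) (nat_lit 27) (nat_lit 1)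 (nat_lit 126) (nat_lit 114) (nat_lit 120)) (PT.lf (nat_lit 1976) (nat_lit 6) (nat_lit 26) (nat_lit 3) (nat_lit 119) (nat_lit 115) (nat_lit 126)))) (PT.nd (nat_lit 156) (PT.nd (nat_lit 78) (PT.lf (nat_lit 2508) (nat_lit 6) (nat_lit 33) (nat_lit 3) (nat_lit 120) (nat_lit 115) (nat_lit 125)) (PT.lf (nat_lit 2584) (nat_lit 6) (nat_lit 34) (nat_lit 3) (nat_lit 121) (nat_lit 115) (nat_lit 124))) (PT.nd (nat_lit 78) (PT.lf (nat_lit 2660) (nat_lit 6) (nat_lit 35) (nat_lit 3) (nat_lit 122) (nat_lit 115) (nat_lit 123)) (PT.lf (nat_lit 2660) (nat_lit 6) (nat_lit 35) (nat_lit 1) (nat_lit 123) (nat_lit 115) (nat_lit 122))))) (PT.nd (nat_lit 37128) (PT.nd (nat_lit 156) (PT.nd (nat_lit 78) (PT.lf (nat_lit 2584) (nat_lit 6) (nat_lit 34) (nat_lit 1) (nat_lit 124) (nat_lit 115) (nat_lit 121)) (PT.lf (nat_lit 2508) (nat_lit 6) (nat_lit 33) (nat_lit 1) (nat_lit 125) (nat_lit 115) (nat_lit 120))) (PT.nd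 (nat_lit 36894) (PT.lf (nat_lit 1976) (nat_lit 6) (nat_lit 26) (nat_lit 1) (nat_lit 126) (nat_lit 115) (nat_lit 119)) (PT.lf (nat_lit 1900) (nat_lit 6) (nat_lit 25) (nat_lit 3) (nat_lit 118) (nat_lit 116) (nat_lit 126)))) (PT.nd (nat_lit 156) (PT.nd (nat_lit 78) (PT.lf (nat_lit 2432) (nat_lit 6) (nat_lit 32) (nat_lit 3) (nat_lit 119) (nat_lit 116) (nat_lit 125)) (PT.lf (nat_lit 2888) (nat_lit 6) (nat_lit 38) (nat_lit 3) (nat_lit 120) (nat_lit 116) (nat_lit 124))) (PT.nd (nat_lit 78) (PT.lf (nat_lit 2964) (nat_lit 6) (nat_lit 39) (nat_lit 3) (nat_lit 121) (nat_lit 116) (nat_lit 123)) (PT.lf (nat_lit 3040) (nat_lit 3) (nat_lit 40) (nat_lit 1) (nat_lit 122) (nat_lit 116) (nat_lit 122))))))))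
noncomputable def pc1 : PT := (PT.nd (nat_lit 112554) (PT.nd (nat_lit 74724) (PT.nd (nat_lit 37362) (PT.nd (nat_lit 234) (PT.nd (nat_lit 78) (PT.lf (nat_lit 2964) (nat_lit 6) (nat_lit 39) (nat_lit 1) (nat_lit 123) (nat_lit 116) (nat_lit 121)) (PT.nd (nat_lit 78) (PT.lf (nat_lit 2888) (nat_lit 6) (nat_lit 38) (nat_lit 1) (nat_lit 124) (nat_lit 116) (nat_lit 120)) (PT.lf (nat_lit 2432) (nat_lit 6) (nat_lit 32) (nat_lit 1) (nat_lit 125) (nat_lit 116) (nat_lit 119)))) (PT.nd (nat_lit 36972) (PT.nd (nat_lit 36894) (PT.lf (nat_lit 1900) (nat_lit 6) (nat_lit 25) (nat_lit 1) (nat_lit 126) (nat_lit 116) (nat_lit 118)) (PT.lf (nat_lit 2356) (nat_lit 6) (nat_lit 31) (nat_lit 3) (nat_lit 118) (nat_lit 117) (nat_lit 125))) (PT.nd (nat_lit 78) (PT.lf (nat_lit 2812) (nat_lit 6) (nat_lit 37) (nat_lit 3) (nat_lit 119) (nat_lit 117) (nat_lit 124)) (PT.lf (nat_lit 3192) (nat_lit 6) (nat_lit 42) (nat_lit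 3) (nat_lit 120) (nat_lit 117) (nat_lit 123))))) (PT.nd (nat_lit 312) (PT.nd (nat_lit 156) (PT.nd (nat_lit 78) (PT.lf (nat_lit 3268) (nat_lit 6) (nat_lit 43) (nat_lit 3) (nat_lit 121) (nat_lit 117) (nat_lit 122)) (PT.lf (nat_lit 3268) (nat_lit 6) (nat_lit 43) (nat_lit 1) (nat_lit 122) (nat_lit 117) (nat_lit 121))) (PT.nd (nat_lit 78) (PT.lf (nat_lit 3192) (nat_lit 6) (nat_lit 42) (nat_lit 1) (nat_lit 123) (nat_lit 117) (nat_lit 120)) (PT.lf (nat_lit 2812) (nat_lit 6) (nat_lit 37) (nat_lit 1) (nat_lit 124) (nat_lit 117) (nat_lit 119)))) (PT.nd (nat_lit 36894) (PT.nd (nat_lit 36816) (PT.lf (nat_lit 2356) (nat_lit 6) (nat_lit 31) (nat_lit 1) (nat_lit 125) (nat_lit 117) (nat_lit 118)) (PT.lf (nat_lit 1900) (nat_lit 6) (nat_lit 25) (nat_lit 5) (nat_lit 116) (nat_lit 118) (nat_lit 126))) (PT.nd (nat_lit 78) (PT.lf (nat_lit 2356) (nat_lit 6) (nat_lit 31) (nat_lit 5) (nat_lit 117) (nat_lit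 118) (nat_lit 125)) (PT.lf (nat_lit 2736) (nat_lit 3) (nat_lit 36) (nat_lit 3) (nat_lit 118) (nat_lit 118) (nat_lit 124)))))) (PT.nd (nat_lit 37206) (PT.nd (nat_lit 312) (PT.nd (nat_lit 156) (PT.nd (nat_lit 78) (PT.lf (nat_lit 3116) (nat_lit 6) (nat_lit 41) (nat_lit 3) (nat_lit 119) (nat_lit 118) (nat_lit 123)) (PT.lf (nat_lit 3420) (nat_lit 6) (nat_lit 45) (nat_lit 3) (nat_lit 120) (nat_lit 118) (nat_lit 122))) (PT.nd (nat_lit 78) (PT.lf (nat_lit 3496) (nat_lit 3) (nat_lit 46) (nat_lit 1) (nat_lit 121) (nat_lit 118) (nat_lit 121)) (PT.lf (nat_lit 3420) (nat_lit 6) (nat_lit 45) (nat_lit 1) (nat_lit 122) (nat_lit 118) (nat_lit 120)))) (PT.nd (nat_lit 156) (PT.nd (nat_lit 78) (PT.lf (nat_lit 3116) (nat_lit 6) (nat_lit 41) (nat_lit 1) (nat_lit 123) (nat_lit 118) (nat_lit 119)) (PT.lf (nat_lit 2736) (nat_lit 3) (nat_lit 36) (nat_lit 0) (nat_lit 124) (nat_lit 118) (nat_lit 118))) (PT.nd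 (nat_lit 78) (PT.lf (nat_lit 2356) (nat_lit 6) (nat_lit 31) (nat_lit 0) (nat_lit 125) (nat_lit 118) (nat_lit 117)) (PT.lf (nat_lit 1900) (nat_lit 6) (nat_lit 25) (nat_lit 0) (nat_lit 126) (nat_lit 118) (nat_lit 116))))) (PT.nd (nat_lit 312) (PT.nd (nat_lit 156) (PT.nd (nat_lit 78) (PT.lf (nat_lit 1976) (nat_lit 6) (nat_lit 26) (nat_lit 5) (nat_lit 115) (nat_lit 119) (nat_lit 126)) (PT.lf (nat_lit 2432) (nat_lit 6) (nat_lit 32) (nat_lit 5) (nat_lit 116) (nat_lit 119) (nat_lit 125))) (PT.nd (nat_lit 78) (PT.lf (nat_lit 2812) (nat_lit 6) (nat_lit 37) (nat_lit 5) (nat_lit 117) (nat_lit 119) (nat_lit 124)) (PT.lf (nat_lit 3116) (nat_lit 6) (nat_lit 41) (nat_lit 5) (nat_lit 118) (nat_lit 119) (nat_lit 123)))) (PT.nd (nat_lit 156) (PT.nd (nat_lit 78) (PT.lf (nat_lit 3344) (nat_lit 3) (nat_lit 44) (nat_lit 3) (nat_lit 119) (nat_lit 119) (nat_lit 122)) (PT.lf (nat_lit 3572) (nat_lit 6) (nat_lit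 47) (nat_lit 3) (nat_lit 120) (nat_lit 119) (nat_lit 121))) (PT.nd (nat_lit 78) (PT.lf (nat_lit 3572) (nat_lit 6) (nat_lit 47) (nat_lit 1) (nat_lit 121) (nat_lit 119) (nat_lit 120)) (PT.lf (nat_lit 3344) (nat_lit 3) (nat_lit 44) (nat_lit 0) (nat_lit 122) (nat_lit 119) (nat_lit 119))))))) (PT.nd (nat_lit 37752) (PT.nd (nat_lit 37128) (PT.nd (nat_lit 36816) (PT.nd (nat_lit 156) (PT.nd (nat_lit 78) (PT.lf (nat_lit 3116) (nat_lit 6) (nat_lit 41) (nat_lit 0) (nat_lit 123) (nat_lit 119) (nat_lit 118)) (PT.lf (nat_lit 2812) (nat_lit 6) (nat_lit 37) (nat_lit 0) (nat_lit 124) (nat_lit 119) (nat_lit 117))) (PT.nd (nat_lit 78) (PT.lf (nat_lit 2432) (nat_lit 6) (nat_lit 32) (nat_lit 0) (nat_lit 125) (nat_lit 119) (nat_lit 116)) (PT.lf (nat_lit 1976) (nat_lit 6) (nat_lit 26) (nat_lit 0) (nat_lit 126) (nat_lit 119) (nat_lit 115)))) (PT.nd (nat_lit 156) (PT.nd (nat_lit 78) (PT.lf (nat_lit 2052)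 (nat_lit 6) (nat_lit 27) (nat_lit 5) (nat_lit 114) (nat_lit 120) (nat_lit 126)) (PT.lf (nat_lit 2508) (nat_lit 6) (nat_lit 33) (nat_lit 5) (nat_lit 115) (nat_lit 120) (nat_lit 125))) (PT.nd (nat_lit 78) (PT.lf (nat_lit 2888) (nat_lit 6) (nat_lit 38) (nat_lit 5) (nat_lit 116) (nat_lit 120) (nat_lit 124)) (PT.lf (nat_lit 3192) (nat_lit 6) (nat_lit 42) (nat_lit 5) (nat_lit 117) (nat_lit 120) (nat_lit 123))))) (PT.nd (nat_lit 312) (PT.nd (nat_lit 156) (PT.nd (nat_lit 78) (PT.lf (nat_lit 3420) (nat_lit 6) (nat_lit 45) (nat_lit 5) (nat_lit 118) (nat_lit 120) (nat_lit 122)) (PT.lf (nat_lit 3572) (nat_lit 6) (nat_lit 47) (nat_lit 5) (nat_lit 119) (nat_lit 120) (nat_lit 121))) (PT.nd (nat_lit 78) (PT.lf (nat_lit 3648) (nat_lit 1) (nat_lit 48) (nat_lit 0) (nat_lit 120) (nat_lit 120) (nat_lit 120)) (PT.lf (nat_lit 3572) (nat_lit 6) (nat_lit 47) (nat_lit 0) (nat_lit 121) (nat_lit 120) (nat_lit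 119)))) (PT.nd (nat_lit 156) (PT.nd (nat_lit 78) (PT.lf (nat_lit 3420) (nat_lit 6) (nat_lit 45) (nat_lit 0) (nat_lit 122) (nat_lit 120) (nat_lit 118)) (PT.lf (nat_lit 3192) (nat_lit 6) (nat_lit 42) (nat_lit 0) (nat_lit 123) (nat_lit 120) (nat_lit 117))) (PT.nd (nat_lit 78) (PT.lf (nat_lit 2888) (nat_lit 6) (nat_lit 38) (nat_lit 0) (nat_lit 124) (nat_lit 120) (nat_lit 116)) (PT.lf (nat_lit 2508) (nat_lit 6) (nat_lit 33) (nat_lit 0) (nat_lit 125) (nat_lit 120) (nat_lit 115)))))) (PT.nd (nat_lit 37050) (PT.nd (nat_lit 36738) (PT.nd (nat_lit 36582) (PT.nd (nat_lit 36504) (PT.lf (nat_lit 2052) (nat_lit 6) (nat_lit 27) (nat_lit 0) (nat_lit 126) (nat_lit 120) (nat_lit 114)) (PT.lf (nat_lit 1672) (nat_lit 6) (nat_lit 22) (nat_lit 5) (nat_lit 113) (nat_lit 121) (nat_lit 126))) (PT.nd (nat_lit 78) (PT.lf (nat_lit 2128) (nat_lit 6) (nat_lit 28) (nat_lit 5) (nat_lit 114) (nat_lit 121) (nat_lit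 125)) (PT.lf (nat_lit 2584) (nat_lit 6) (nat_lit 34) (nat_lit 5) (nat_lit 115) (nat_lit 121) (nat_lit 124)))) (PT.nd (nat_lit 156) (PT.nd (nat_lit 78) (PT.lf (nat_lit 2964) (nat_lit 6) (nat_lit 39) (nat_lit 5) (nat_lit 116) (nat_lit 121) (nat_lit 123)) (PT.lf (nat_lit 3268) (nat_lit 6) (nat_lit 43) (nat_lit 5) (nat_lit 117) (nat_lit 121) (nat_lit 122))) (PT.nd (nat_lit 78) (PT.lf (nat_lit 3496) (nat_lit 3) (nat_lit 46) (nat_lit 4) (nat_lit 118) (nat_lit 121) (nat_lit 121)) (PT.lf (nat_lit 3572) (nat_lit 6) (nat_lit 47) (nat_lit 4) (nat_lit 119) (nat_lit 121) (nat_lit 120))))) (PT.nd (nat_lit 312) (PT.nd (nat_lit 156) (PT.nd (nat_lit 78) (PT.lf (nat_lit 3572) (nat_lit 6) (nat_lit 47) (nat_lit 2) (nat_lit 120) (nat_lit 121) (nat_lit 119)) (PT.lf (nat_lit 3496) (nat_lit 3) (nat_lit 46) (nat_lit 0) (nat_lit 121) (nat_lit 121) (nat_lit 118))) (PT.nd (nat_lit 78) (PT.lf (nat_lit 3268) (nat_lit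 6) (nat_lit 43) (nat_lit 0) (nat_lit 122) (nat_lit 121) (nat_lit 117)) (PT.lf (nat_lit 2964) (nat_lit 6) (nat_lit 39) (nat_lit 0) (nat_lit 123) (nat_lit 121) (nat_lit 116)))) (PT.nd (nat_lit 156) (PT.nd (nat_lit 78) (PT.lf (nat_lit 2584) (nat_lit 6) (nat_lit 34) (nat_lit 0) (nat_lit 124) (nat_lit 121) (nat_lit 115)) (PT.lf (nat_lit 2128) (nat_lit 6) (nat_lit 28) (nat_lit 0) (nat_lit 125) (nat_lit 121) (nat_lit 114))) (PT.nd (nat_lit 36426) (PT.lf (nat_lit 1672) (nat_lit 6) (nat_lit 22) (nat_lit 0) (nat_lit 126) (nat_lit 121) (nat_lit 113)) (PT.lf (nat_lit 1444) (nat_lit 6) (nat_lit 19) (nat_lit 5) (nat_lit 112) (nat_lit 122) (nat_lit 126))))))))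
noncomputable def pc2 : PT := (PT.nd (nat_lit 38610) (PT.nd (nat_lit 37362) (PT.nd (nat_lit 546) (PT.nd (nat_lit 234) (PT.nd (nat_lit 78) (PT.lf (nat_lit 1748) (nat_lit 6) (nat_lit 23) (nat_lit 5) (nat_lit 113) (nat_lit 122) (nat_lit 125)) (PT.nd (nat_lit 78) (PT.lf (nat_lit 2204) (nat_lit 6) (nat_lit 29) (nat_lit 5) (nat_lit 114) (nat_lit 122) (nat_lit 124)) (PT.lf (nat_lit 2660) (nat_lit 6) (nat_lit 35) (nat_lit 5) (nat_lit 115) (nat_lit 122) (nat_lit 123)))) (PT.nd (nat_lit 156) (PT.nd (nat_lit 78) (PT.lf (nat_lit 3040) (nat_lit 3) (nat_lit 40) (nat_lit 4) (nat_lit 116) (nat_lit 122) (nat_lit 122)) (PT.lf (nat_lit 3268) (nat_lit 6) (nat_lit 43) (nat_lit 4) (nat_lit 117) (nat_lit 122) (nat_lit 121))) (PT.nd (nat_lit 78) (PT.lf (nat_lit 3420) (nat_lit 6) (nat_lit 45) (nat_lit 4) (nat_lit 118) (nat_lit 122) (nat_lit 120)) (PT.lf (nat_lit 3344) (nat_lit 3) (nat_lit 44) (nat_lit 2)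 (nat_lit 119) (nat_lit 122) (nat_lit 119))))) (PT.nd (nat_lit 312) (PT.nd (nat_lit 156) (PT.nd (nat_lit 78) (PT.lf (nat_lit 3420) (nat_lit 6) (nat_lit 45) (nat_lit 2) (nat_lit 120) (nat_lit 122) (nat_lit 118)) (PT.lf (nat_lit 3268) (nat_lit 6) (nat_lit 43) (nat_lit 2) (nat_lit 121) (nat_lit 122) (nat_lit 117))) (PT.nd (nat_lit 78) (PT.lf (nat_lit 3040) (nat_lit 3) (nat_lit 40) (nat_lit 0) (nat_lit 122) (nat_lit 122) (nat_lit 116)) (PT.lf (nat_lit 2660) (nat_lit 6) (nat_lit 35) (nat_lit 0) (nat_lit 123) (nat_lit 122) (nat_lit 115)))) (PT.nd (nat_lit 156) (PT.nd (nat_lit 78) (PT.lf (nat_lit 2204) (nat_lit 6) (nat_lit 29) (nat_lit 0) (nat_lit 124) (nat_lit 122) (nat_lit 114)) (PT.lf (nat_lit 1748) (nat_lit 6) (nat_lit 23) (nat_lit 0) (nat_lit 125) (nat_lit 122) (nat_lit 113))) (PT.nd (nat_lit 36270) (PT.lf (nat_lit 1444) (nat_lit 6) (nat_lit 19) (nat_lit 0) (nat_lit 126) (nat_lit 122)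 (nat_lit 112)) (PT.lf (nat_lit 1064) (nat_lit 6) (nat_lit 14) (nat_lit 5) (nat_lit 110) (nat_lit 123) (nat_lit 127)))))) (PT.nd (nat_lit 624) (PT.nd (nat_lit 312) (PT.nd (nat_lit 156) (PT.nd (nat_lit 78) (PT.lf (nat_lit 1292) (nat_lit 6) (nat_lit 17) (nat_lit 5) (nat_lit 111) (nat_lit 123) (nat_lit 126)) (PT.lf (nat_lit 1520) (nat_lit 6) (nat_lit 20) (nat_lit 5) (nat_lit 112) (nat_lit 123) (nat_lit 125))) (PT.nd (nat_lit 78) (PT.lf (nat_lit 1824) (nat_lit 6) (nat_lit 24) (nat_lit 5) (nat_lit 113) (nat_lit 123) (nat_lit 124)) (PT.lf (nat_lit 2280) (nat_lit 3) (nat_lit 30) (nat_lit 4) (nat_lit 114) (nat_lit 123) (nat_lit 123)))) (PT.nd (nat_lit 156) (PT.nd (nat_lit 78) (PT.lf (nat_lit 2660) (nat_lit 6) (nat_lit 35) (nat_lit 4) (nat_lit 115) (nat_lit 123) (nat_lit 122)) (PT.lf (nat_lit 2964) (nat_lit 6) (nat_lit 39) (nat_lit 4) (nat_lit 116) (nat_lit 123) (nat_lit 121))) (PT.nd (nat_lit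 78) (PT.lf (nat_lit 3192) (nat_lit 6) (nat_lit 42) (nat_lit 4) (nat_lit 117) (nat_lit 123) (nat_lit 120)) (PT.lf (nat_lit 3116) (nat_lit 6) (nat_lit 41) (nat_lit 4) (nat_lit 118) (nat_lit 123) (nat_lit 119))))) (PT.nd (nat_lit 312) (PT.nd (nat_lit 156) (PT.nd (nat_lit 78) (PT.lf (nat_lit 3116) (nat_lit 6) (nat_lit 41) (nat_lit 2) (nat_lit 119) (nat_lit 123) (nat_lit 118)) (PT.lf (nat_lit 3192) (nat_lit 6) (nat_lit 42) (nat_lit 2) (nat_lit 120) (nat_lit 123) (nat_lit 117))) (PT.nd (nat_lit 78) (PT.lf (nat_lit 2964) (nat_lit 6) (nat_lit 39) (nat_lit 2) (nat_lit 121) (nat_lit 123) (nat_lit 116)) (PT.lf (nat_lit 2660) (nat_lit 6) (nat_lit 35) (nat_lit 2) (nat_lit 122) (nat_lit 123) (nat_lit 115)))) (PT.nd (nat_lit 156) (PT.nd (nat_lit 78) (PT.lf (nat_lit 2280) (nat_lit 3) (nat_lit 30) (nat_lit 0) (nat_lit 123) (nat_lit 123) (nat_lit 114)) (PT.lf (nat_lit 1824) (nat_lit 6) (nat_lit 24)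 (nat_lit 0) (nat_lit 124) (nat_lit 123) (nat_lit 113))) (PT.nd (nat_lit 78) (PT.lf (nat_lit 1520) (nat_lit 6) (nat_lit 20) (nat_lit 0) (nat_lit 125) (nat_lit 123) (nat_lit 112)) (PT.lf (nat_lit 1292) (nat_lit 6) (nat_lit 17) (nat_lit 0) (nat_lit 126) (nat_lit 123) (nat_lit 111))))))) (PT.nd (nat_lit 37206) (PT.nd (nat_lit 36582) (PT.nd (nat_lit 36270) (PT.nd (nat_lit 36114) (PT.lf (nat_lit 1064) (nat_lit 6) (nat_lit 14) (nat_lit 0) (nat_lit 127) (nat_lit 123) (nat_lit 110)) (PT.nd (nat_lit 78) (PT.lf (nat_lit 912) (nat_lit 6) (nat_lit 12) (nat_lit 5) (nat_lit 109) (nat_lit 124) (nat_lit 127)) (PT.lf (nat_lit 1140) (nat_lit 6) (nat_lit 15) (nat_lit 5) (nat_lit 110) (nat_lit 124) (nat_lit 126)))) (PT.nd (nat_lit 156) (PT.nd (nat_lit 78) (PT.lf (nat_lit 1368) (nat_lit 6) (nat_lit 18) (nat_lit 5) (nat_lit 111) (nat_lit 124) (nat_lit 125)) (PT.lf (nat_lit 1596) (nat_lit 3) (nat_lit 21)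 (nat_lit 4) (nat_lit 112) (nat_lit 124) (nat_lit 124))) (PT.nd (nat_lit 78) (PT.lf (nat_lit 1824) (nat_lit 6) (nat_lit 24) (nat_lit 4) (nat_lit 113) (nat_lit 124) (nat_lit 123)) (PT.lf (nat_lit 2204) (nat_lit 6) (nat_lit 29) (nat_lit 4) (nat_lit 114) (nat_lit 124) (nat_lit 122))))) (PT.nd (nat_lit 312) (PT.nd (nat_lit 156) (PT.nd (nat_lit 78) (PT.lf (nat_lit 2584) (nat_lit 6) (nat_lit 34) (nat_lit 4) (nat_lit 115) (nat_lit 124) (nat_lit 121)) (PT.lf (nat_lit 2888) (nat_lit 6) (nat_lit 38) (nat_lit 4) (nat_lit 116) (nat_lit 124) (nat_lit 120))) (PT.nd (nat_lit 78) (PT.lf (nat_lit 2812) (nat_lit 6) (nat_lit 37) (nat_lit 4) (nat_lit 117) (nat_lit 124) (nat_lit 119)) (PT.lf (nat_lit 2736) (nat_lit 3) (nat_lit 36) (nat_lit 2) (nat_lit 118) (nat_lit 124) (nat_lit 118)))) (PT.nd (nat_lit 156) (PT.nd (nat_lit 78) (PT.lf (nat_lit 2812) (nat_lit 6) (nat_lit 37) (nat_lit 2) (nat_lit 119) (nat_lit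 124) (nat_lit 117)) (PT.lf (nat_lit 2888) (nat_lit 6) (nat_lit 38) (nat_lit 2) (nat_lit 120) (nat_lit 124) (nat_lit 116))) (PT.nd (nat_lit 78) (PT.lf (nat_lit 2584) (nat_lit 6) (nat_lit 34) (nat_lit 2) (nat_lit 121) (nat_lit 124) (nat_lit 115)) (PT.lf (nat_lit 2204) (nat_lit 6) (nat_lit 29) (nat_lit 2) (nat_lit 122) (nat_lit 124) (nat_lit 114)))))) (PT.nd (nat_lit 36504) (PT.nd (nat_lit 312) (PT.nd (nat_lit 156) (PT.nd (nat_lit 78) (PT.lf (nat_lit 1824) (nat_lit 6) (nat_lit 24) (nat_lit 2) (nat_lit 123) (nat_lit 124) (nat_lit 113)) (PT.lf (nat_lit 1596) (nat_lit 3) (nat_lit 21) (nat_lit 0) (nat_lit 124) (nat_lit 124) (nat_lit 112))) (PT.nd (nat_lit 78) (PT.lf (nat_lit 1368) (nat_lit 6) (nat_lit 18) (nat_lit 0) (nat_lit 125) (nat_lit 124) (nat_lit 111)) (PT.lf (nat_lit 1140) (nat_lit 6) (nat_lit 15) (nat_lit 0) (nat_lit 126) (nat_lit 124) (nat_lit 110)))) (PT.nd (nat_lit 36036) (PT.nd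 (nat_lit 35958) (PT.lf (nat_lit 912) (nat_lit 6) (nat_lit 12) (nat_lit 0) (nat_lit 127) (nat_lit 124) (nat_lit 109)) (PT.lf (nat_lit 608) (nat_lit 6) (nat_lit 8) (nat_lit 5) (nat_lit 107) (nat_lit 125) (nat_lit 128))) (PT.nd (nat_lit 78) (PT.lf (nat_lit 760) (nat_lit 6) (nat_lit 10) (nat_lit 5) (nat_lit 108) (nat_lit 125) (nat_lit 127)) (PT.lf (nat_lit 988) (nat_lit 6) (nat_lit 13) (nat_lit 5) (nat_lit 109) (nat_lit 125) (nat_lit 126))))) (PT.nd (nat_lit 312) (PT.nd (nat_lit 156) (PT.nd (nat_lit 78) (PT.lf (nat_lit 1216) (nat_lit 3) (nat_lit 16) (nat_lit 4) (nat_lit 110) (nat_lit 125) (nat_lit 125)) (PT.lf (nat_lit 1368) (nat_lit 6) (nat_lit 18) (nat_lit 4) (nat_lit 111) (nat_lit 125) (nat_lit 124))) (PT.nd (nat_lit 78) (PT.lf (nat_lit 1520) (nat_lit 6) (nat_lit 20) (nat_lit 4) (nat_lit 112) (nat_lit 125) (nat_lit 123)) (PT.lf (nat_lit 1748) (nat_lit 6) (nat_lit 23) (nat_lit 4) (nat_lit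 113) (nat_lit 125) (nat_lit 122)))) (PT.nd (nat_lit 156) (PT.nd (nat_lit 78) (PT.lf (nat_lit 2128) (nat_lit 6) (nat_lit 28) (nat_lit 4) (nat_lit 114) (nat_lit 125) (nat_lit 121)) (PT.lf (nat_lit 2508) (nat_lit 6) (nat_lit 33) (nat_lit 4) (nat_lit 115) (nat_lit 125) (nat_lit 120))) (PT.nd (nat_lit 78) (PT.lf (nat_lit 2432) (nat_lit 6) (nat_lit 32) (nat_lit 4) (nat_lit 116) (nat_lit 125) (nat_lit 119)) (PT.lf (nat_lit 2356) (nat_lit 6) (nat_lit 31) (nat_lit 4) (nat_lit 117) (nat_lit 125) (nat_lit 118))))))))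
noncomputable def pc3 : PT := (PT.nd (nat_lit 38220) (PT.nd (nat_lit 36894) (PT.nd (nat_lit 546) (PT.nd (nat_lit 234) (PT.nd (nat_lit 78) (PT.lf (nat_lit 2356) (nat_lit 6) (nat_lit 31) (nat_lit 2) (nat_lit 118) (nat_lit 125) (nat_lit 117)) (PT.nd (nat_lit 78) (PT.lf (nat_lit 2432) (nat_lit 6) (nat_lit 32) (nat_lit 2) (nat_lit 119) (nat_lit 125) (nat_lit 116)) (PT.lf (nat_lit 2508) (nat_lit 6) (nat_lit 33) (nat_lit 2) (nat_lit 120) (nat_lit 125) (nat_lit 115)))) (PT.nd (nat_lit 156) (PT.nd (nat_lit 78) (PT.lf (nat_lit 2128) (nat_lit 6) (nat_lit 28) (nat_lit 2) (nat_lit 121) (nat_lit 125) (nat_lit 114)) (PT.lf (nat_lit 1748) (nat_lit 6) (nat_lit 23) (nat_lit 2) (nat_lit 122) (nat_lit 125) (nat_lit 113))) (PT.nd (nat_lit 78) (PT.lf (nat_lit 1520) (nat_lit 6) (nat_lit 20) (nat_lit 2) (nat_lit 123) (nat_lit 125) (nat_lit 112)) (PT.lf (nat_lit 1368) (nat_lit 6) (nat_lit 18) (nat_lit 2)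 (nat_lit 124) (nat_lit 125) (nat_lit 111))))) (PT.nd (nat_lit 36036) (PT.nd (nat_lit 156) (PT.nd (nat_lit 78) (PT.lf (nat_lit 1216) (nat_lit 3) (nat_lit 16) (nat_lit 0) (nat_lit 125) (nat_lit 125) (nat_lit 110)) (PT.lf (nat_lit 988) (nat_lit 6) (nat_lit 13) (nat_lit 0) (nat_lit 126) (nat_lit 125) (nat_lit 109))) (PT.nd (nat_lit 78) (PT.lf (nat_lit 760) (nat_lit 6) (nat_lit 10) (nat_lit 0) (nat_lit 127) (nat_lit 125) (nat_lit 108)) (PT.lf (nat_lit 608) (nat_lit 6) (nat_lit 8) (nat_lit 0) (nat_lit 128) (nat_lit 125) (nat_lit 107)))) (PT.nd (nat_lit 156) (PT.nd (nat_lit 78) (PT.lf (nat_lit 456) (nat_lit 6) (nat_lit 6) (nat_lit 5) (nat_lit 106) (nat_lit 126) (nat_lit 128)) (PT.lf (nat_lit 684) (nat_lit 6) (nat_lit 9) (nat_lit 5) (nat_lit 107) (nat_lit 126) (nat_lit 127))) (PT.nd (nat_lit 78) (PT.lf (nat_lit 836) (nat_lit 3) (nat_lit 11) (nat_lit 4) (nat_lit 108) (nat_lit 126) (nat_lit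 126)) (PT.lf (nat_lit 988) (nat_lit 6) (nat_lit 13) (nat_lit 4) (nat_lit 109) (nat_lit 126) (nat_lit 125)))))) (PT.nd (nat_lit 702) (PT.nd (nat_lit 312) (PT.nd (nat_lit 156) (PT.nd (nat_lit 78) (PT.lf (nat_lit 1140) (nat_lit 6) (nat_lit 15) (nat_lit 4) (nat_lit 110) (nat_lit 126) (nat_lit 124)) (PT.lf (nat_lit 1292) (nat_lit 6) (nat_lit 17) (nat_lit 4) (nat_lit 111) (nat_lit 126) (nat_lit 123))) (PT.nd (nat_lit 78) (PT.lf (nat_lit 1444) (nat_lit 6) (nat_lit 19) (nat_lit 4) (nat_lit 112) (nat_lit 126) (nat_lit 122)) (PT.lf (nat_lit 1672) (nat_lit 6) (nat_lit 22) (nat_lit 4) (nat_lit 113) (nat_lit 126) (nat_lit 121)))) (PT.nd (nat_lit 156) (PT.nd (nat_lit 78) (PT.lf (nat_lit 2052) (nat_lit 6) (nat_lit 27) (nat_lit 4) (nat_lit 114) (nat_lit 126) (nat_lit 120)) (PT.lf (nat_lit 1976) (nat_lit 6) (nat_lit 26) (nat_lit 4) (nat_lit 115) (nat_lit 126) (nat_lit 119))) (PT.nd (nat_lit 156) (PT.lf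 (nat_lit 1900) (nat_lit 6) (nat_lit 25) (nat_lit 4) (nat_lit 116) (nat_lit 126) (nat_lit 118)) (PT.lf (nat_lit 1900) (nat_lit 6) (nat_lit 25) (nat_lit 2) (nat_lit 118) (nat_lit 126) (nat_lit 116))))) (PT.nd (nat_lit 312) (PT.nd (nat_lit 156) (PT.nd (nat_lit 78) (PT.lf (nat_lit 1976) (nat_lit 6) (nat_lit 26) (nat_lit 2) (nat_lit 119) (nat_lit 126) (nat_lit 115)) (PT.lf (nat_lit 2052) (nat_lit 6) (nat_lit 27) (nat_lit 2) (nat_lit 120) (nat_lit 126) (nat_lit 114))) (PT.nd (nat_lit 78) (PT.lf (nat_lit 1672) (nat_lit 6) (nat_lit 22) (nat_lit 2) (nat_lit 121) (nat_lit 126) (nat_lit 113)) (PT.lf (nat_lit 1444) (nat_lit 6) (nat_lit 19) (nat_lit 2) (nat_lit 122) (nat_lit 126) (nat_lit 112)))) (PT.nd (nat_lit 156) (PT.nd (nat_lit 78) (PT.lf (nat_lit 1292) (nat_lit 6) (nat_lit 17) (nat_lit 2) (nat_lit 123) (nat_lit 126) (nat_lit 111)) (PT.lf (nat_lit 1140) (nat_lit 6) (nat_lit 15) (nat_lit 2)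 (nat_lit 124) (nat_lit 126) (nat_lit 110))) (PT.nd (nat_lit 78) (PT.lf (nat_lit 988) (nat_lit 6) (nat_lit 13) (nat_lit 2) (nat_lit 125) (nat_lit 126) (nat_lit 109)) (PT.lf (nat_lit 836) (nat_lit 3) (nat_lit 11) (nat_lit 0) (nat_lit 126) (nat_lit 126) (nat_lit 108))))))) (PT.nd (nat_lit 73164) (PT.nd (nat_lit 36192) (PT.nd (nat_lit 35880) (PT.nd (nat_lit 35724) (PT.nd (nat_lit 78) (PT.lf (nat_lit 684) (nat_lit 6) (nat_lit 9) (nat_lit 0) (nat_lit 127) (nat_lit 126) (nat_lit 107)) (PT.lf (nat_lit 456) (nat_lit 6) (nat_lit 6) (nat_lit 0) (nat_lit 128) (nat_lit 126) (nat_lit 106))) (PT.nd (nat_lit 78) (PT.lf (nat_lit 228) (nat_lit 6) (nat_lit 3) (nat_lit 5) (nat_lit 104) (nat_lit 127) (nat_lit 129)) (PT.lf (nat_lit 380) (nat_lit 6) (nat_lit 5) (nat_lit 5) (nat_lit 105) (nat_lit 127) (nat_lit 128)))) (PT.nd (nat_lit 156) (PT.nd (nat_lit 78) (PT.lf (nat_lit 532) (nat_lit 3) (nat_lit 7) (nat_lit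 4) (nat_lit 106) (nat_lit 127) (nat_lit 127)) (PT.lf (nat_lit 684) (nat_lit 6) (nat_lit 9) (nat_lit 4) (nat_lit 107) (nat_lit 127) (nat_lit 126))) (PT.nd (nat_lit 78) (PT.lf (nat_lit 760) (nat_lit 6) (nat_lit 10) (nat_lit 4) (nat_lit 108) (nat_lit 127) (nat_lit 125)) (PT.lf (nat_lit 912) (nat_lit 6) (nat_lit 12) (nat_lit 4) (nat_lit 109) (nat_lit 127) (nat_lit 124))))) (PT.nd (nat_lit 1248) (PT.nd (nat_lit 1092) (PT.nd (nat_lit 1014) (PT.lf (nat_lit 1064) (nat_lit 6) (nat_lit 14) (nat_lit 4) (nat_lit 110) (nat_lit 127) (nat_lit 123)) (PT.lf (nat_lit 1064) (nat_lit 6) (nat_lit 14) (nat_lit 2) (nat_lit 123) (nat_lit 127) (nat_lit 110))) (PT.nd (nat_lit 78) (PT.lf (nat_lit 912) (nat_lit 6) (nat_lit 12) (nat_lit 2) (nat_lit 124) (nat_lit 127) (nat_lit 109)) (PT.lf (nat_lit 760) (nat_lit 6) (nat_lit 10) (nat_lit 2) (nat_lit 125) (nat_lit 127) (nat_lit 108)))) (PT.nd (nat_lit 156) (PT.nd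 (nat_lit 78) (PT.lf (nat_lit 684) (nat_lit 6) (nat_lit 9) (nat_lit 2) (nat_lit 126) (nat_lit 127) (nat_lit 107)) (PT.lf (nat_lit 532) (nat_lit 3) (nat_lit 7) (nat_lit 0) (nat_lit 127) (nat_lit 127) (nat_lit 106))) (PT.nd (nat_lit 78) (PT.lf (nat_lit 380) (nat_lit 6) (nat_lit 5) (nat_lit 0) (nat_lit 128) (nat_lit 127) (nat_lit 105)) (PT.lf (nat_lit 228) (nat_lit 6) (nat_lit 3) (nat_lit 0) (nat_lit 129) (nat_lit 127) (nat_lit 104)))))) (PT.nd (nat_lit 1950) (PT.nd (nat_lit 312) (PT.nd (nat_lit 156) (PT.nd (nat_lit 78) (PT.lf (nat_lit 152) (nat_lit 6) (nat_lit 2) (nat_lit 5) (nat_lit 103) (nat_lit 128) (nat_lit 129)) (PT.lf (nat_lit 304) (nat_lit 3) (nat_lit 4) (nat_lit 4) (nat_lit 104) (nat_lit 128) (nat_lit 128))) (PT.nd (nat_lit 78) (PT.lf (nat_lit 380) (nat_lit 6) (nat_lit 5) (nat_lit 4) (nat_lit 105) (nat_lit 128) (nat_lit 127)) (PT.lf (nat_lit 456) (nat_lit 6) (nat_lit 6) (nat_lit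 4) (nat_lit 106) (nat_lit 128) (nat_lit 126)))) (PT.nd (nat_lit 1482) (PT.nd (nat_lit 1404) (PT.lf (nat_lit 608) (nat_lit 6) (nat_lit 8) (nat_lit 4) (nat_lit 107) (nat_lit 128) (nat_lit 125)) (PT.lf (nat_lit 608) (nat_lit 6) (nat_lit 8) (nat_lit 2) (nat_lit 125) (nat_lit 128) (nat_lit 107))) (PT.nd (nat_lit 78) (PT.lf (nat_lit 456) (nat_lit 6) (nat_lit 6) (nat_lit 2) (nat_lit 126) (nat_lit 128) (nat_lit 106)) (PT.lf (nat_lit 380) (nat_lit 6) (nat_lit 5) (nat_lit 2) (nat_lit 127) (nat_lit 128) (nat_lit 105))))) (PT.nd (nat_lit 35646) (PT.nd (nat_lit 35490) (PT.nd (nat_lit 78) (PT.lf (nat_lit 304) (nat_lit 3) (nat_lit 4) (nat_lit 0) (nat_lit 128) (nat_lit 128) (nat_lit 104)) (PT.lf (nat_lit 152) (nat_lit 6) (nat_lit 2) (nat_lit 0) (nat_lit 129) (nat_lit 128) (nat_lit 103))) (PT.nd (nat_lit 78) (PT.lf (nat_lit 76) (nat_lit 3) (nat_lit 1) (nat_lit 4) (nat_lit 102) (nat_lit 129) (nat_lit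 129)) (PT.lf (nat_lit 152) (nat_lit 6) (nat_lit 2) (nat_lit 4) (nat_lit 103) (nat_lit 129) (nat_lit 128)))) (PT.nd (nat_lit 1872) (PT.nd (nat_lit 1794) (PT.lf (nat_lit 228) (nat_lit 6) (nat_lit 3) (nat_lit 4) (nat_lit 104) (nat_lit 129) (nat_lit 127)) (PT.lf (nat_lit 228) (nat_lit 6) (nat_lit 3) (nat_lit 2) (nat_lit 127) (nat_lit 129) (nat_lit 104))) (PT.nd (nat_lit 78) (PT.lf (nat_lit 152) (nat_lit 6) (nat_lit 2) (nat_lit 2) (nat_lit 128) (nat_lit 129) (nat_lit 103)) (PT.lf (nat_lit 76) (nat_lit 3) (nat_lit 1) (nat_lit 0) (nat_lit 129) (nat_lit 129) (nat_lit 102))))))))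
noncomputable def xc0 : XT := (XT.nd (nat_lit 149838) (nat_lit 0) (nat_lit 0) (XT.nd (nat_lit 112164) (nat_lit 0) (nat_lit 0) (XT.nd (nat_lit 74802) (nat_lit 0) (nat_lit 0) (XT.nd (nat_lit 37440) (nat_lit 0) (nat_lit 0) (XT.nd (nat_lit 37362) (nat_lit 0) (nat_lit 0) (XT.lf (nat_lit 0) (nat_lit 876787466424) (nat_lit 76) (nat_lit 89885042636) (nat_lit 76) (nat_lit 89885042636) (nat_lit 1) (nat_lit 4) (nat_lit 2) (nat_lit 5) (nat_lit 2) (nat_lit 4) (nat_lit 334) (nat_lit 193) (nat_lit 193)) (XT.lf (nat_lit 0) (nat_lit 751155688323) (nat_lit 76) (nat_lit 77349253453) (nat_lit 76) (nat_lit 77349253453) (nat_lit 1) (nat_lit 4) (nat_lit 2) (nat_lit 5) (nat_lit 2) (nat_lit 4) (nat_lit 332) (nat_lit 194) (nat_lit 194))) (XT.nd (nat_lit 78) (nat_lit 0) (nat_lit 0) (XT.lf (nat_lit 0) (nat_lit 1623118739385) (nat_lit 76) (nat_lit 166767344499) (nat_lit 76) (nat_lit 166729015416) (nat_lit 1)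 (nat_lit 4) (nat_lit 2) (nat_lit 5) (nat_lit 2) (nat_lit 4) (nat_lit 333) (nat_lit 194) (nat_lit 193)) (XT.nd (nat_lit 37206) (nat_lit 0) (nat_lit 0) (XT.lf (nat_lit 0) (nat_lit 1753560341836) (nat_lit 76) (nat_lit 179814641442) (nat_lit 76) (nat_lit 179740822468) (nat_lit 1) (nat_lit 4) (nat_lit 2) (nat_lit 5) (nat_lit 2) (nat_lit 4) (nat_lit 334) (nat_lit 194) (nat_lit 192)) (XT.lf (nat_lit 0) (nat_lit 643402828389) (nat_lit 76) (nat_lit 66624820106) (nat_lit 76) (nat_lit 66624820106) (nat_lit 1) (nat_lit 4) (nat_lit 2) (nat_lit 5) (nat_lit 2) (nat_lit 4) (nat_lit 330) (nat_lit 195) (nat_lit 195))))) (XT.nd (nat_lit 156) (nat_lit 0) (nat_lit 0) (XT.nd (nat_lit 78) (nat_lit 0) (nat_lit 0) (XT.lf (nat_lit 0) (nat_lit 1390422358136) (nat_lit 76) (nat_lit 143578005033) (nat_lit 76) (nat_lit 143536609624) (nat_lit 1) (nat_lit 4) (nat_lit 2) (nat_lit 5) (nat_lit 2) (nat_lit 4) (nat_lit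 331) (nat_lit 195) (nat_lit 194)) (XT.lf (nat_lit 0) (nat_lit 1502295618352) (nat_lit 76) (nat_lit 154746627569) (nat_lit 76) (nat_lit 154666903077) (nat_lit 1) (nat_lit 4) (nat_lit 2) (nat_lit 5) (nat_lit 2) (nat_lit 4) (nat_lit 332) (nat_lit 195) (nat_lit 193))) (XT.nd (nat_lit 78) (nat_lit 0) (nat_lit 0) (XT.lf (nat_lit 0) (nat_lit 1623088390078) (nat_lit 76) (nat_lit 166821692250) (nat_lit 76) (nat_lit 166706477867) (nat_lit 1) (nat_lit 4) (nat_lit 2) (nat_lit 5) (nat_lit 2) (nat_lit 4) (nat_lit 333) (nat_lit 195) (nat_lit 192)) (XT.nd (nat_lit 37050) (nat_lit 0) (nat_lit 0) (XT.lf (nat_lit 0) (nat_lit 1753516482332) (nat_lit 76) (nat_lit 179874755014) (nat_lit 76) (nat_lit 179726679621) (nat_lit 1) (nat_lit 4) (nat_lit 2) (nat_lit 5) (nat_lit 2) (nat_lit 4) (nat_lit 334) (nat_lit 195) (nat_lit 191)) (XT.lf (nat_lit 0) (nat_lit 550974750305) (nat_lit 76) (nat_lit 57455171264)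 (nat_lit 76) (nat_lit 57455171264) (nat_lit 1) (nat_lit 4) (nat_lit 2) (nat_lit 5) (nat_lit 2) (nat_lit 4) (nat_lit 328) (nat_lit 196) (nat_lit 196)))))) (XT.nd (nat_lit 390) (nat_lit 0) (nat_lit 0) (XT.nd (nat_lit 156) (nat_lit 0) (nat_lit 0) (XT.nd (nat_lit 78) (nat_lit 0) (nat_lit 0) (XT.lf (nat_lit 0) (nat_lit 1190831489380) (nat_lit 76) (nat_lit 123745035023) (nat_lit 76) (nat_lit 123700327981) (nat_lit 1) (nat_lit 4) (nat_lit 2) (nat_lit 5) (nat_lit 2) (nat_lit 4) (nat_lit 329) (nat_lit 196) (nat_lit 195)) (XT.lf (nat_lit 0) (nat_lit 1286788637821) (nat_lit 76) (nat_lit 133301610529) (nat_lit 76) (nat_lit 133215508078) (nat_lit 1) (nat_lit 4) (nat_lit 2) (nat_lit 5) (nat_lit 2) (nat_lit 4) (nat_lit 330) (nat_lit 196) (nat_lit 194))) (XT.nd (nat_lit 78) (nat_lit 0) (nat_lit 0) (XT.lf (nat_lit 0) (nat_lit 1390389580885) (nat_lit 76) (nat_lit 143636700604) (nat_lit 76) (nat_lit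 143512269071) (nat_lit 1) (nat_lit 4) (nat_lit 2) (nat_lit 5) (nat_lit 2) (nat_lit 4) (nat_lit 331) (nat_lit 196) (nat_lit 193)) (XT.nd (nat_lit 78) (nat_lit 0) (nat_lit 0) (XT.lf (nat_lit 0) (nat_lit 1502248250088) (nat_lit 76) (nat_lit 154811550228) (nat_lit 76) (nat_lit 154651628803) (nat_lit 1) (nat_lit 4) (nat_lit 2) (nat_lit 5) (nat_lit 2) (nat_lit 4) (nat_lit 332) (nat_lit 196) (nat_lit 192)) (XT.lf (nat_lit 0) (nat_lit 1623027511617) (nat_lit 76) (nat_lit 166892380730) (nat_lit 76) (nat_lit 166699598295) (nat_lit 1) (nat_lit 4) (nat_lit 2) (nat_lit 5) (nat_lit 2) (nat_lit 4) (nat_lit 333) (nat_lit 196) (nat_lit 191))))) (XT.nd (nat_lit 37050) (nat_lit 0) (nat_lit 0) (XT.nd (nat_lit 36894) (nat_lit 0) (nat_lit 0) (XT.lf (nat_lit 0) (nat_lit 1753443094429) (nat_lit 76) (nat_lit 179950782219) (nat_lit 76) (nat_lit 179727572921) (nat_lit 1) (nat_lit 4) (nat_lit 2) (nat_lit 5)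 (nat_lit 2) (nat_lit 4) (nat_lit 334) (nat_lit 196) (nat_lit 190)) (XT.nd (nat_lit 78) (nat_lit 0) (nat_lit 0) (XT.lf (nat_lit 0) (nat_lit 471681413153) (nat_lit 76) (nat_lit 49620485471) (nat_lit 76) (nat_lit 49620485471) (nat_lit 1) (nat_lit 4) (nat_lit 2) (nat_lit 5) (nat_lit 2) (nat_lit 4) (nat_lit 326) (nat_lit 197) (nat_lit 197)) (XT.lf (nat_lit 0) (nat_lit 1019615963429) (nat_lit 76) (nat_lit 106793462917) (nat_lit 76) (nat_lit 106745179311) (nat_lit 1) (nat_lit 4) (nat_lit 2) (nat_lit 5) (nat_lit 2) (nat_lit 4) (nat_lit 327) (nat_lit 197) (nat_lit 196)))) (XT.nd (nat_lit 78) (nat_lit 0) (nat_lit 0) (XT.lf (nat_lit 0) (nat_lit 1101931120136) (nat_lit 76) (nat_lit 114966470470) (nat_lit 76) (nat_lit 114873479823) (nat_lit 1) (nat_lit 4) (nat_lit 2) (nat_lit 5) (nat_lit 2) (nat_lit 4) (nat_lit 328) (nat_lit 197) (nat_lit 195)) (XT.nd (nat_lit 78) (nat_lit 0) (nat_lit 0) (XT.lf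 (nat_lit 0) (nat_lit 1190796089949) (nat_lit 76) (nat_lit 123808426240) (nat_lit 76) (nat_lit 123674040183) (nat_lit 1) (nat_lit 4) (nat_lit 2) (nat_lit 5) (nat_lit 2) (nat_lit 4) (nat_lit 329) (nat_lit 197) (nat_lit 194)) (XT.lf (nat_lit 0) (nat_lit 1286737480095) (nat_lit 76) (nat_lit 133371727000) (nat_lit 76) (nat_lit 133199011861) (nat_lit 1) (nat_lit 4) (nat_lit 2) (nat_lit 5) (nat_lit 2) (nat_lit 4) (nat_lit 330) (nat_lit 197) (nat_lit 193))))))) (XT.nd (nat_lit 37518) (nat_lit 0) (nat_lit 0) (XT.nd (nat_lit 37050) (nat_lit 0) (nat_lit 0) (XT.nd (nat_lit 156) (nat_lit 0) (nat_lit 0) (XT.nd (nat_lit 78) (nat_lit 0) (nat_lit 0) (XT.lf (nat_lit 0) (nat_lit 1390323832147) (nat_lit 76) (nat_lit 143713044163) (nat_lit 76) (nat_lit 143504839133) (nat_lit 1) (nat_lit 4) (nat_lit 2) (nat_lit 5) (nat_lit 2) (nat_lit 4) (nat_lit 331) (nat_lit 197) (nat_lit 192)) (XT.lf (nat_lit 0) (nat_lit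 1502168991153) (nat_lit 76) (nat_lit 154893659608) (nat_lit 76) (nat_lit 154652593567) (nat_lit 1) (nat_lit 4) (nat_lit 2) (nat_lit 5) (nat_lit 2) (nat_lit 4) (nat_lit 332) (nat_lit 197) (nat_lit 191))) (XT.nd (nat_lit 78) (nat_lit 0) (nat_lit 0) (XT.lf (nat_lit 0) (nat_lit 1622935743240) (nat_lit 76) (nat_lit 166979828835) (nat_lit 76) (nat_lit 166708335932) (nat_lit 1) (nat_lit 4) (nat_lit 2) (nat_lit 5) (nat_lit 2) (nat_lit 4) (nat_lit 333) (nat_lit 197) (nat_lit 190)) (XT.nd (nat_lit 36738) (nat_lit 0) (nat_lit 0) (XT.lf (nat_lit 0) (nat_lit 1753339743236) (nat_lit 76) (nat_lit 180043173586) (nat_lit 76) (nat_lit 179743507663) (nat_lit 1) (nat_lit 4) (nat_lit 2) (nat_lit 5) (nat_lit 2) (nat_lit 4) (nat_lit 334) (nat_lit 197) (nat_lit 189)) (XT.lf (nat_lit 0) (nat_lit 403644906678) (nat_lit 76) (nat_lit 42932460132) (nat_lit 76) (nat_lit 42932460132) (nat_lit 1) (nat_lit 4) (nat_lit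 2) (nat_lit 5) (nat_lit 2) (nat_lit 4) (nat_lit 324) (nat_lit 198) (nat_lit 198))))) (XT.nd (nat_lit 234) (nat_lit 0) (nat_lit 0) (XT.nd (nat_lit 78) (nat_lit 0) (nat_lit 0) (XT.lf (nat_lit 0) (nat_lit 872719838324) (nat_lit 76) (nat_lit 92316385331) (nat_lit 76) (nat_lit 92264239037) (nat_lit 1) (nat_lit 4) (nat_lit 2) (nat_lit 5) (nat_lit 2) (nat_lit 4) (nat_lit 325) (nat_lit 198) (nat_lit 197)) (XT.nd (nat_lit 78) (nat_lit 0) (nat_lit 0) (XT.lf (nat_lit 0) (nat_lit 943342975394) (nat_lit 76) (nat_lit 99301589119) (nat_lit 76) (nat_lit 99201159220) (nat_lit 1) (nat_lit 4) (nat_lit 2) (nat_lit 5) (nat_lit 2) (nat_lit 4) (nat_lit 326) (nat_lit 198) (nat_lit 196)) (XT.lf (nat_lit 0) (nat_lit 1019577732043) (nat_lit 76) (nat_lit 106861925431) (nat_lit 76) (nat_lit 106716788490) (nat_lit 1) (nat_lit 4) (nat_lit 2) (nat_lit 5) (nat_lit 2) (nat_lit 4) (nat_lit 327) (nat_lit 198) (nat_lit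 195)))) (XT.nd (nat_lit 78) (nat_lit 0) (nat_lit 0) (XT.lf (nat_lit 0) (nat_lit 1101875869793) (nat_lit 76) (nat_lit 115042196259) (nat_lit 76) (nat_lit 114855663909) (nat_lit 1) (nat_lit 4) (nat_lit 2) (nat_lit 5) (nat_lit 2) (nat_lit 4) (nat_lit 328) (nat_lit 198) (nat_lit 194)) (XT.nd (nat_lit 78) (nat_lit 0) (nat_lit 0) (XT.lf (nat_lit 0) (nat_lit 1190725081312) (nat_lit 76) (nat_lit 123890877283) (nat_lit 76) (nat_lit 123666015850) (nat_lit 1) (nat_lit 4) (nat_lit 2) (nat_lit 5) (nat_lit 2) (nat_lit 4) (nat_lit 329) (nat_lit 198) (nat_lit 193)) (XT.lf (nat_lit 0) (nat_lit 1286651880446) (nat_lit 76) (nat_lit 133460405131) (nat_lit 76) (nat_lit 133200053807) (nat_lit 1) (nat_lit 4) (nat_lit 2) (nat_lit 5) (nat_lit 2) (nat_lit 4) (nat_lit 330) (nat_lit 198) (nat_lit 192)))))) (XT.nd (nat_lit 36894) (nat_lit 0) (nat_lit 0) (XT.nd (nat_lit 156) (nat_lit 0) (nat_lit 0) (XT.nd (nat_lit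 78) (nat_lit 0) (nat_lit 0) (XT.lf (nat_lit 0) (nat_lit 1390224722300) (nat_lit 76) (nat_lit 143807488116) (nat_lit 76) (nat_lit 143514275781) (nat_lit 1) (nat_lit 4) (nat_lit 2) (nat_lit 5) (nat_lit 2) (nat_lit 4) (nat_lit 331) (nat_lit 198) (nat_lit 191)) (XT.lf (nat_lit 0) (nat_lit 1502057371864) (nat_lit 76) (nat_lit 154993442285) (nat_lit 76) (nat_lit 154669803088) (nat_lit 1) (nat_lit 4) (nat_lit 2) (nat_lit 5) (nat_lit 2) (nat_lit 4) (nat_lit 332) (nat_lit 198) (nat_lit 190))) (XT.nd (nat_lit 78) (nat_lit 0) (nat_lit 0) (XT.lf (nat_lit 0) (nat_lit 1622812541135) (nat_lit 76) (nat_lit 167084554774) (nat_lit 76) (nat_lit 166732742557) (nat_lit 1) (nat_lit 4) (nat_lit 2) (nat_lit 5) (nat_lit 2) (nat_lit 4) (nat_lit 333) (nat_lit 198) (nat_lit 189)) (XT.nd (nat_lit 36582) (nat_lit 0) (nat_lit 0) (XT.lf (nat_lit 0) (nat_lit 1753205816301) (nat_lit 76) (nat_lit 180152476620) (nat_lit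 76) (nat_lit 179774578274) (nat_lit 1) (nat_lit 4) (nat_lit 2) (nat_lit 5) (nat_lit 2) (nat_lit 4) (nat_lit 334) (nat_lit 198) (nat_lit 188)) (XT.lf (nat_lit 0) (nat_lit 345254898108) (nat_lit 76) (nat_lit 37229827712) (nat_lit 76) (nat_lit 37229827712) (nat_lit 1) (nat_lit 4) (nat_lit 2) (nat_lit 5) (nat_lit 2) (nat_lit 4) (nat_lit 322) (nat_lit 199) (nat_lit 199))))) (XT.nd (nat_lit 234) (nat_lit 0) (nat_lit 0) (XT.nd (nat_lit 78) (nat_lit 0) (nat_lit 0) (XT.lf (nat_lit 0) (nat_lit 746665167006) (nat_lit 76) (nat_lit 79965281017) (nat_lit 76) (nat_lit 79908963020) (nat_lit 1) (nat_lit 4) (nat_lit 2) (nat_lit 5) (nat_lit 2) (nat_lit 4) (nat_lit 323) (nat_lit 199) (nat_lit 198)) (XT.nd (nat_lit 78) (nat_lit 0) (nat_lit 0) (XT.lf (nat_lit 0) (nat_lit 807268374371) (nat_lit 76) (nat_lit 85930387897) (nat_lit 76) (nat_lit 85821923606) (nat_lit 1) (nat_lit 4) (nat_lit 2) (nat_lit 5) (nat_lit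 2) (nat_lit 4) (nat_lit 324) (nat_lit 199) (nat_lit 197)) (XT.lf (nat_lit 0) (nat_lit 872678548428) (nat_lit 76) (nat_lit 92390324846) (nat_lit 76) (nat_lit 92233576950) (nat_lit 1) (nat_lit 4) (nat_lit 2) (nat_lit 5) (nat_lit 2) (nat_lit 4) (nat_lit 325) (nat_lit 199) (nat_lit 196)))) (XT.nd (nat_lit 78) (nat_lit 0) (nat_lit 0) (XT.lf (nat_lit 0) (nat_lit 943283305023) (nat_lit 76) (nat_lit 99383372971) (nat_lit 76) (nat_lit 99181918033) (nat_lit 1) (nat_lit 4) (nat_lit 2) (nat_lit 5) (nat_lit 2) (nat_lit 4) (nat_lit 326) (nat_lit 199) (nat_lit 195)) (XT.nd (nat_lit 78) (nat_lit 0) (nat_lit 0) (XT.lf (nat_lit 0) (nat_lit 1019501042715) (nat_lit 76) (nat_lit 106950972558) (nat_lit 76) (nat_lit 106708122210) (nat_lit 1) (nat_lit 4) (nat_lit 2) (nat_lit 5) (nat_lit 2) (nat_lit 4) (nat_lit 327) (nat_lit 199) (nat_lit 194)) (XT.lf (nat_lit 0) (nat_lit 1101783422171) (nat_lit 76) (nat_lit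 115137968641) (nat_lit 76) (nat_lit 114856789210) (nat_lit 1) (nat_lit 4) (nat_lit 2) (nat_lit 5) (nat_lit 2) (nat_lit 4) (nat_lit 328) (nat_lit 199) (nat_lit 193))))))))
noncomputable def xc1 : XT := (XT.nd (nat_lit 74256) (nat_lit 0) (nat_lit 0) (XT.nd (nat_lit 37206) (nat_lit 0) (nat_lit 0) (XT.nd (nat_lit 390) (nat_lit 0) (nat_lit 0) (XT.nd (nat_lit 156) (nat_lit 0) (nat_lit 0) (XT.nd (nat_lit 78) (nat_lit 0) (nat_lit 0) (XT.lf (nat_lit 0) (nat_lit 1190618042677) (nat_lit 76) (nat_lit 123992876752) (nat_lit 76) (nat_lit 123676207431) (nat_lit 1) (nat_lit 4) (nat_lit 2) (nat_lit 5) (nat_lit 2) (nat_lit 4) (nat_lit 329) (nat_lit 199) (nat_lit 192)) (XT.lf (nat_lit 0) (nat_lit 1286531331614) (nat_lit 76) (nat_lit 133568170422) (nat_lit 76) (nat_lit 133218640089) (nat_lit 1) (nat_lit 4) (nat_lit 2) (nat_lit 5) (nat_lit 2) (nat_lit 4) (nat_lit 330) (nat_lit 199) (nat_lit 191))) (XT.nd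 (nat_lit 78) (nat_lit 0) (nat_lit 0) (XT.lf (nat_lit 0) (nat_lit 1390091664027) (nat_lit 76) (nat_lit 143920592130) (nat_lit 76) (nat_lit 143540634936) (nat_lit 1) (nat_lit 4) (nat_lit 2) (nat_lit 5) (nat_lit 2) (nat_lit 4) (nat_lit 331) (nat_lit 199) (nat_lit 190)) (XT.nd (nat_lit 78) (nat_lit 0) (nat_lit 0) (XT.lf (nat_lit 0) (nat_lit 1501912730774) (nat_lit 76) (nat_lit 155111489562) (nat_lit 76) (nat_lit 154703359348) (nat_lit 1) (nat_lit 4) (nat_lit 2) (nat_lit 5) (nat_lit 2) (nat_lit 4) (nat_lit 332) (nat_lit 199) (nat_lit 189)) (XT.lf (nat_lit 0) (nat_lit 1622657175215) (nat_lit 76) (nat_lit 167207179146) (nat_lit 76) (nat_lit 166772962803) (nat_lit 1) (nat_lit 4) (nat_lit 2) (nat_lit 5) (nat_lit 2) (nat_lit 4) (nat_lit 333) (nat_lit 199) (nat_lit 188))))) (XT.nd (nat_lit 36582) (nat_lit 0) (nat_lit 0) (XT.nd (nat_lit 36426) (nat_lit 0) (nat_lit 0) (XT.lf (nat_lit 0) (nat_lit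 1753040519983) (nat_lit 76) (nat_lit 180279339043) (nat_lit 76) (nat_lit 179820968876) (nat_lit 1) (nat_lit 4) (nat_lit 2) (nat_lit 5) (nat_lit 2) (nat_lit 4) (nat_lit 334) (nat_lit 199) (nat_lit 187)) (XT.nd (nat_lit 78) (nat_lit 0) (nat_lit 0) (XT.lf (nat_lit 0) (nat_lit 295130433043) (nat_lit 76) (nat_lit 32374512598) (nat_lit 76) (nat_lit 32374512598) (nat_lit 1) (nat_lit 4) (nat_lit 2) (nat_lit 5) (nat_lit 2) (nat_lit 4) (nat_lit 320) (nat_lit 200) (nat_lit 200)) (XT.lf (nat_lit 0) (nat_lit 638469489434) (nat_lit 76) (nat_lit 69441708625) (nat_lit 76) (nat_lit 69380885188) (nat_lit 1) (nat_lit 4) (nat_lit 2) (nat_lit 5) (nat_lit 2) (nat_lit 4) (nat_lit 321) (nat_lit 200) (nat_lit 199)))) (XT.nd (nat_lit 78) (nat_lit 0) (nat_lit 0) (XT.lf (nat_lit 0) (nat_lit 690486642113) (nat_lit 76) (nat_lit 74530360466) (nat_lit 76) (nat_lit 74413219031) (nat_lit 1) (nat_lit 4) (nat_lit 2)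 (nat_lit 5) (nat_lit 2) (nat_lit 4) (nat_lit 322) (nat_lit 200) (nat_lit 198)) (XT.nd (nat_lit 78) (nat_lit 0) (nat_lit 0) (XT.lf (nat_lit 0) (nat_lit 746620573918) (nat_lit 76) (nat_lit 80045135694) (nat_lit 76) (nat_lit 79875847965) (nat_lit 1) (nat_lit 4) (nat_lit 2) (nat_lit 5) (nat_lit 2) (nat_lit 4) (nat_lit 323) (nat_lit 200) (nat_lit 197)) (XT.lf (nat_lit 0) (nat_lit 807203930370) (nat_lit 76) (nat_lit 86018714458) (nat_lit 76) (nat_lit 85801143124) (nat_lit 1) (nat_lit 4) (nat_lit 2) (nat_lit 5) (nat_lit 2) (nat_lit 4) (nat_lit 324) (nat_lit 200) (nat_lit 196)))))) (XT.nd (nat_lit 390) (nat_lit 0) (nat_lit 0) (XT.nd (nat_lit 156) (nat_lit 0) (nat_lit 0) (XT.nd (nat_lit 78) (nat_lit 0) (nat_lit 0) (XT.lf (nat_lit 0) (nat_lit 872595723953) (nat_lit 76) (nat_lit 92486495743) (nat_lit 76) (nat_lit 92224217368) (nat_lit 1) (nat_lit 4) (nat_lit 2) (nat_lit 5) (nat_lit 2) (nat_lit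 4) (nat_lit 325) (nat_lit 200) (nat_lit 195)) (XT.lf (nat_lit 0) (nat_lit 943183461592) (nat_lit 76) (nat_lit 99486807143) (nat_lit 76) (nat_lit 99183133358) (nat_lit 1) (nat_lit 4) (nat_lit 2) (nat_lit 5) (nat_lit 2) (nat_lit 4) (nat_lit 326) (nat_lit 200) (nat_lit 194))) (XT.nd (nat_lit 78) (nat_lit 0) (nat_lit 0) (XT.lf (nat_lit 0) (nat_lit 1019385440990) (nat_lit 76) (nat_lit 107061131984) (nat_lit 76) (nat_lit 106719129117) (nat_lit 1) (nat_lit 4) (nat_lit 2) (nat_lit 5) (nat_lit 2) (nat_lit 4) (nat_lit 327) (nat_lit 200) (nat_lit 193)) (XT.nd (nat_lit 78) (nat_lit 0) (nat_lit 0) (XT.lf (nat_lit 0) (nat_lit 1101653229433) (nat_lit 76) (nat_lit 115254355155) (nat_lit 76) (nat_lit 114876862396) (nat_lit 1) (nat_lit 4) (nat_lit 2) (nat_lit 5) (nat_lit 2) (nat_lit 4) (nat_lit 328) (nat_lit 200) (nat_lit 192)) (XT.lf (nat_lit 0) (nat_lit 1190474339742) (nat_lit 76) (nat_lit 124115029088)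 (nat_lit 76) (nat_lit 123704675318) (nat_lit 1) (nat_lit 4) (nat_lit 2) (nat_lit 5) (nat_lit 2) (nat_lit 4) (nat_lit 329) (nat_lit 200) (nat_lit 191))))) (XT.nd (nat_lit 234) (nat_lit 0) (nat_lit 0) (XT.nd (nat_lit 78) (nat_lit 0) (nat_lit 0) (XT.lf (nat_lit 0) (nat_lit 1286375119237) (nat_lit 76) (nat_lit 133695661481) (nat_lit 76) (nat_lit 133254880850) (nat_lit 1) (nat_lit 4) (nat_lit 2) (nat_lit 5) (nat_lit 2) (nat_lit 4) (nat_lit 330) (nat_lit 200) (nat_lit 190)) (XT.nd (nat_lit 78) (nat_lit 0) (nat_lit 0) (XT.lf (nat_lit 0) (nat_lit 1389923868833) (nat_lit 76) (nat_lit 144053026452) (nat_lit 76) (nat_lit 143584072801) (nat_lit 1) (nat_lit 4) (nat_lit 2) (nat_lit 5) (nat_lit 2) (nat_lit 4) (nat_lit 331) (nat_lit 200) (nat_lit 189)) (XT.lf (nat_lit 0) (nat_lit 1501734210751) (nat_lit 76) (nat_lit 155248500979) (nat_lit 76) (nat_lit 154753461199) (nat_lit 1) (nat_lit 4) (nat_lit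 2) (nat_lit 5) (nat_lit 2) (nat_lit 4) (nat_lit 332) (nat_lit 200) (nat_lit 188)))) (XT.nd (nat_lit 78) (nat_lit 0) (nat_lit 0) (XT.lf (nat_lit 0) (nat_lit 1622468724793) (nat_lit 76) (nat_lit 167348428614) (nat_lit 76) (nat_lit 166829235010) (nat_lit 1) (nat_lit 4) (nat_lit 2) (nat_lit 5) (nat_lit 2) (nat_lit 4) (nat_lit 333) (nat_lit 200) (nat_lit 187)) (XT.nd (nat_lit 36270) (nat_lit 0) (nat_lit 0) (XT.lf (nat_lit 0) (nat_lit 1752842874748) (nat_lit 76) (nat_lit 180424512633) (nat_lit 76) (nat_lit 179882954377) (nat_lit 1) (nat_lit 4) (nat_lit 2) (nat_lit 5) (nat_lit 2) (nat_lit 4) (nat_lit 334) (nat_lit 200) (nat_lit 186)) (XT.lf (nat_lit 0) (nat_lit 252087183776) (nat_lit 76) (nat_lit 28248337349) (nat_lit 76) (nat_lit 28248337349) (nat_lit 1) (nat_lit 4) (nat_lit 2) (nat_lit 5) (nat_lit 2) (nat_lit 4) (nat_lit 318) (nat_lit 201) (nat_lit 201))))))) (XT.nd (nat_lit 858) (nat_lit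 0) (nat_lit 0) (XT.nd (nat_lit 390) (nat_lit 0) (nat_lit 0) (XT.nd (nat_lit 156) (nat_lit 0) (nat_lit 0) (XT.nd (nat_lit 78) (nat_lit 0) (nat_lit 0) (XT.lf (nat_lit 0) (nat_lit 545575091342) (nat_lit 76) (nat_lit 60490191000) (nat_lit 76) (nat_lit 60424501688) (nat_lit 1) (nat_lit 4) (nat_lit 2) (nat_lit 5) (nat_lit 2) (nat_lit 4) (nat_lit 319) (nat_lit 201) (nat_lit 200)) (XT.lf (nat_lit 0) (nat_lit 590235859655) (nat_lit 76) (nat_lit 64825386643) (nat_lit 76) (nat_lit 64698873894) (nat_lit 1) (nat_lit 4) (nat_lit 2) (nat_lit 5) (nat_lit 2) (nat_lit 4) (nat_lit 320) (nat_lit 201) (nat_lit 199))) (XT.nd (nat_lit 78) (nat_lit 0) (nat_lit 0) (XT.lf (nat_lit 0) (nat_lit 638421328898) (nat_lit 76) (nat_lit 69527951676) (nat_lit 76) (nat_lit 69345120929) (nat_lit 1) (nat_lit 4) (nat_lit 2) (nat_lit 5) (nat_lit 2) (nat_lit 4) (nat_lit 321) (nat_lit 201) (nat_lit 198)) (XT.nd (nat_lit 78)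 (nat_lit 0) (nat_lit 0) (XT.lf (nat_lit 0) (nat_lit 690417042593) (nat_lit 76) (nat_lit 74625753151) (nat_lit 76) (nat_lit 74390776111) (nat_lit 1) (nat_lit 4) (nat_lit 2) (nat_lit 5) (nat_lit 2) (nat_lit 4) (nat_lit 322) (nat_lit 201) (nat_lit 197)) (XT.lf (nat_lit 0) (nat_lit 746531123486) (nat_lit 76) (nat_lit 80149000262) (nat_lit 76) (nat_lit 79865739617) (nat_lit 1) (nat_lit 4) (nat_lit 2) (nat_lit 5) (nat_lit 2) (nat_lit 4) (nat_lit 323) (nat_lit 201) (nat_lit 196))))) (XT.nd (nat_lit 234) (nat_lit 0) (nat_lit 0) (XT.nd (nat_lit 78) (nat_lit 0) (nat_lit 0) (XT.lf (nat_lit 0) (nat_lit 807096099464) (nat_lit 76) (nat_lit 86130423363) (nat_lit 76) (nat_lit 85802455676) (nat_lit 1) (nat_lit 4) (nat_lit 2) (nat_lit 5) (nat_lit 2) (nat_lit 4) (nat_lit 324) (nat_lit 201) (nat_lit 195)) (XT.nd (nat_lit 78) (nat_lit 0) (nat_lit 0) (XT.lf (nat_lit 0) (nat_lit 872470874090) (nat_lit 76)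 (nat_lit 92605467924) (nat_lit 76) (nat_lit 92236104827) (nat_lit 1) (nat_lit 4) (nat_lit 2) (nat_lit 5) (nat_lit 2) (nat_lit 4) (nat_lit 325) (nat_lit 201) (nat_lit 194)) (XT.lf (nat_lit 0) (nat_lit 943042853434) (nat_lit 76) (nat_lit 99612504578) (nat_lit 76) (nat_lit 99204812398) (nat_lit 1) (nat_lit 4) (nat_lit 2) (nat_lit 5) (nat_lit 2) (nat_lit 4) (nat_lit 326) (nat_lit 201) (nat_lit 193)))) (XT.nd (nat_lit 78) (nat_lit 0) (nat_lit 0) (XT.lf (nat_lit 0) (nat_lit 1019230241820) (nat_lit 76) (nat_lit 107193056507) (nat_lit 76) (nat_lit 106749874436) (nat_lit 1) (nat_lit 4) (nat_lit 2) (nat_lit 5) (nat_lit 2) (nat_lit 4) (nat_lit 327) (nat_lit 201) (nat_lit 192)) (XT.nd (nat_lit 78) (nat_lit 0) (nat_lit 0) (XT.lf (nat_lit 0) (nat_lit 1101484520066) (nat_lit 76) (nat_lit 115392045499) (nat_lit 76) (nat_lit 114916002417) (nat_lit 1) (nat_lit 4) (nat_lit 2) (nat_lit 5) (nat_lit 2)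 (nat_lit 4) (nat_lit 328) (nat_lit 201) (nat_lit 191)) (XT.lf (nat_lit 0) (nat_lit 1190293120933) (nat_lit 76) (nat_lit 124258058155) (nat_lit 76) (nat_lit 123751588213) (nat_lit 1) (nat_lit 4) (nat_lit 2) (nat_lit 5) (nat_lit 2) (nat_lit 4) (nat_lit 329) (nat_lit 201) (nat_lit 190)))))) (XT.nd (nat_lit 36426) (nat_lit 0) (nat_lit 0) (XT.nd (nat_lit 156) (nat_lit 0) (nat_lit 0) (XT.nd (nat_lit 78) (nat_lit 0) (nat_lit 0) (XT.lf (nat_lit 0) (nat_lit 1286182317611) (nat_lit 76) (nat_lit 133843633811) (nat_lit 76) (nat_lit 133308990849) (nat_lit 1) (nat_lit 4) (nat_lit 2) (nat_lit 5) (nat_lit 2) (nat_lit 4) (nat_lit 330) (nat_lit 201) (nat_lit 189)) (XT.lf (nat_lit 0) (nat_lit 1389720342378) (nat_lit 76) (nat_lit 144205575878) (nat_lit 76) (nat_lit 143644846785) (nat_lit 1) (nat_lit 4) (nat_lit 2) (nat_lit 5) (nat_lit 2) (nat_lit 4) (nat_lit 331) (nat_lit 201) (nat_lit 188))) (XT.nd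 (nat_lit 78) (nat_lit 0) (nat_lit 0) (XT.lf (nat_lit 0) (nat_lit 1501520753897) (nat_lit 76) (nat_lit 155405288456) (nat_lit 76) (nat_lit 154820405540) (nat_lit 1) (nat_lit 4) (nat_lit 2) (nat_lit 5) (nat_lit 2) (nat_lit 4) (nat_lit 332) (nat_lit 201) (nat_lit 187)) (XT.nd (nat_lit 78) (nat_lit 0) (nat_lit 0) (XT.lf (nat_lit 0) (nat_lit 1622246073127) (nat_lit 76) (nat_lit 167509140212) (nat_lit 76) (nat_lit 166901892645) (nat_lit 1) (nat_lit 4) (nat_lit 2) (nat_lit 5) (nat_lit 2) (nat_lit 4) (nat_lit 333) (nat_lit 201) (nat_lit 186)) (XT.lf (nat_lit 0) (nat_lit 1752611709366) (nat_lit 76) (nat_lit 180588857677) (nat_lit 76) (nat_lit 179960902098) (nat_lit 1) (nat_lit 4) (nat_lit 2) (nat_lit 5) (nat_lit 2) (nat_lit 4) (nat_lit 334) (nat_lit 201) (nat_lit 185))))) (XT.nd (nat_lit 234) (nat_lit 0) (nat_lit 0) (XT.nd (nat_lit 78) (nat_lit 0) (nat_lit 0) (XT.lf (nat_lit 0) (nat_lit 215109367746)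 (nat_lit 76) (nat_lit 24750200002) (nat_lit 76) (nat_lit 24750200002) (nat_lit 1) (nat_lit 4) (nat_lit 2) (nat_lit 5) (nat_lit 2) (nat_lit 4) (nat_lit 316) (nat_lit 202) (nat_lit 202)) (XT.nd (nat_lit 78) (nat_lit 0) (nat_lit 0) (XT.lf (nat_lit 0) (nat_lit 465788350667) (nat_lit 76) (nat_lit 52892116915) (nat_lit 76) (nat_lit 52821172458) (nat_lit 1) (nat_lit 4) (nat_lit 2) (nat_lit 5) (nat_lit 2) (nat_lit 4) (nat_lit 317) (nat_lit 202) (nat_lit 201)) (XT.lf (nat_lit 0) (nat_lit 504147360607) (nat_lit 76) (nat_lit 56579145060) (nat_lit 76) (nat_lit 56442511291) (nat_lit 1) (nat_lit 4) (nat_lit 2) (nat_lit 5) (nat_lit 2) (nat_lit 4) (nat_lit 318) (nat_lit 202) (nat_lit 200)))) (XT.nd (nat_lit 78) (nat_lit 0) (nat_lit 0) (XT.lf (nat_lit 0) (nat_lit 545523077963) (nat_lit 76) (nat_lit 60583333495) (nat_lit 76) (nat_lit 60385876288) (nat_lit 1) (nat_lit 4) (nat_lit 2) (nat_lit 5) (nat_lit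 2) (nat_lit 4) (nat_lit 319) (nat_lit 202) (nat_lit 199)) (XT.nd (nat_lit 78) (nat_lit 0) (nat_lit 0) (XT.lf (nat_lit 0) (nat_lit 590160692173) (nat_lit 76) (nat_lit 64928410743) (nat_lit 76) (nat_lit 64674635539) (nat_lit 1) (nat_lit 4) (nat_lit 2) (nat_lit 5) (nat_lit 2) (nat_lit 4) (nat_lit 320) (nat_lit 202) (nat_lit 198)) (XT.lf (nat_lit 0) (nat_lit 638324722432) (nat_lit 76) (nat_lit 69640125410) (nat_lit 76) (nat_lit 69334203913) (nat_lit 1) (nat_lit 4) (nat_lit 2) (nat_lit 5) (nat_lit 2) (nat_lit 4) (nat_lit 321) (nat_lit 202) (nat_lit 197))))))))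
noncomputable def xc2 : XT := (XT.nd (nat_lit 37596) (nat_lit 0) (nat_lit 0) (XT.nd (nat_lit 858) (nat_lit 0) (nat_lit 0) (XT.nd (nat_lit 390) (nat_lit 0) (nat_lit 0) (XT.nd (nat_lit 156) (nat_lit 0) (nat_lit 0) (XT.nd (nat_lit 78) (nat_lit 0) (nat_lit 0) (XT.lf (nat_lit 0) (nat_lit 690300585214) (nat_lit 76) (nat_lit 74746398769) (nat_lit 76) (nat_lit 74392193666) (nat_lit 1) (nat_lit 4) (nat_lit 2) (nat_lit 5) (nat_lit 2) (nat_lit 4) (nat_lit 322) (nat_lit 202) (nat_lit 196)) (XT.lf (nat_lit 0) (nat_lit 746396285633) (nat_lit 76) (nat_lit 80277490217) (nat_lit 76) (nat_lit 79878578073) (nat_lit 1) (nat_lit 4) (nat_lit 2) (nat_lit 5) (nat_lit 2) (nat_lit 4) (nat_lit 323) (nat_lit 202) (nat_lit 195))) (XT.nd (nat_lit 78) (nat_lit 0) (nat_lit 0) (XT.lf (nat_lit 0) (nat_lit 806944242654) (nat_lit 76) (nat_lit 86266176593) (nat_lit 76) (nat_lit 85825869039) (nat_lit 1) (nat_lit 4) (nat_lit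 2) (nat_lit 5) (nat_lit 2) (nat_lit 4) (nat_lit 324) (nat_lit 202) (nat_lit 194)) (XT.nd (nat_lit 78) (nat_lit 0) (nat_lit 0) (XT.lf (nat_lit 0) (nat_lit 872303258986) (nat_lit 76) (nat_lit 92747946408) (nat_lit 76) (nat_lit 92269309771) (nat_lit 1) (nat_lit 4) (nat_lit 2) (nat_lit 5) (nat_lit 2) (nat_lit 4) (nat_lit 325) (nat_lit 202) (nat_lit 193)) (XT.lf (nat_lit 0) (nat_lit 942860647318) (nat_lit 76) (nat_lit 99761210149) (nat_lit 76) (nat_lit 99247083622) (nat_lit 1) (nat_lit 4) (nat_lit 2) (nat_lit 5) (nat_lit 2) (nat_lit 4) (nat_lit 326) (nat_lit 202) (nat_lit 192))))) (XT.nd (nat_lit 234) (nat_lit 0) (nat_lit 0) (XT.nd (nat_lit 78) (nat_lit 0) (nat_lit 0) (XT.lf (nat_lit 0) (nat_lit 1019034525506) (nat_lit 76) (nat_lit 107347527900) (nat_lit 76) (nat_lit 106800540361) (nat_lit 1) (nat_lit 4) (nat_lit 2) (nat_lit 5) (nat_lit 2) (nat_lit 4) (nat_lit 327) (nat_lit 202) (nat_lit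 191)) (XT.nd (nat_lit 78) (nat_lit 0) (nat_lit 0) (XT.lf (nat_lit 0) (nat_lit 1101276294310) (nat_lit 76) (nat_lit 115551855616) (nat_lit 76) (nat_lit 114974441216) (nat_lit 1) (nat_lit 4) (nat_lit 2) (nat_lit 5) (nat_lit 2) (nat_lit 4) (nat_lit 328) (nat_lit 202) (nat_lit 190)) (XT.lf (nat_lit 0) (nat_lit 1190073312361) (nat_lit 76) (nat_lit 124422811535) (nat_lit 76) (nat_lit 123817224115) (nat_lit 1) (nat_lit 4) (nat_lit 2) (nat_lit 5) (nat_lit 2) (nat_lit 4) (nat_lit 329) (nat_lit 202) (nat_lit 189)))) (XT.nd (nat_lit 78) (nat_lit 0) (nat_lit 0) (XT.lf (nat_lit 0) (nat_lit 1285951784210) (nat_lit 76) (nat_lit 134012964286) (nat_lit 76) (nat_lit 133381290737) (nat_lit 1) (nat_lit 4) (nat_lit 2) (nat_lit 5) (nat_lit 2) (nat_lit 4) (nat_lit 330) (nat_lit 202) (nat_lit 188)) (XT.nd (nat_lit 78) (nat_lit 0) (nat_lit 0) (XT.lf (nat_lit 0) (nat_lit 1389479878578) (nat_lit 76) (nat_lit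 144379144404) (nat_lit 76) (nat_lit 143723317031) (nat_lit 1) (nat_lit 4) (nat_lit 2) (nat_lit 5) (nat_lit 2) (nat_lit 4) (nat_lit 331) (nat_lit 202) (nat_lit 187)) (XT.lf (nat_lit 0) (nat_lit 1501271095284) (nat_lit 76) (nat_lit 155582781103) (nat_lit 76) (nat_lit 154904589078) (nat_lit 1) (nat_lit 4) (nat_lit 2) (nat_lit 5) (nat_lit 2) (nat_lit 4) (nat_lit 332) (nat_lit 202) (nat_lit 186)))))) (XT.nd (nat_lit 36270) (nat_lit 0) (nat_lit 0) (XT.nd (nat_lit 36036) (nat_lit 0) (nat_lit 0) (XT.nd (nat_lit 78) (nat_lit 0) (nat_lit 0) (XT.lf (nat_lit 0) (nat_lit 1621987900798) (nat_lit 76) (nat_lit 167690266306) (nat_lit 76) (nat_lit 166991366270) (nat_lit 1) (nat_lit 4) (nat_lit 2) (nat_lit 5) (nat_lit 2) (nat_lit 4) (nat_lit 333) (nat_lit 202) (nat_lit 185)) (XT.lf (nat_lit 0) (nat_lit 1752345653967) (nat_lit 76) (nat_lit 180773348071) (nat_lit 76) (nat_lit 180055273952) (nat_lit 1)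 (nat_lit 4) (nat_lit 2) (nat_lit 5) (nat_lit 2) (nat_lit 4) (nat_lit 334) (nat_lit 202) (nat_lit 184))) (XT.nd (nat_lit 78) (nat_lit 0) (nat_lit 0) (XT.lf (nat_lit 0) (nat_lit 183325669692) (nat_lit 76) (nat_lit 21793655357) (nat_lit 76) (nat_lit 21793655357) (nat_lit 1) (nat_lit 4) (nat_lit 2) (nat_lit 5) (nat_lit 2) (nat_lit 4) (nat_lit 314) (nat_lit 203) (nat_lit 203)) (XT.nd (nat_lit 78) (nat_lit 0) (nat_lit 0) (XT.lf (nat_lit 0) (nat_lit 397227732178) (nat_lit 76) (nat_lit 46460515276) (nat_lit 76) (nat_lit 46383895263) (nat_lit 1) (nat_lit 4) (nat_lit 2) (nat_lit 5) (nat_lit 2) (nat_lit 4) (nat_lit 315) (nat_lit 203) (nat_lit 202)) (XT.lf (nat_lit 0) (nat_lit 430189567990) (nat_lit 76) (nat_lit 49589467994) (nat_lit 76) (nat_lit 49441903523) (nat_lit 1) (nat_lit 4) (nat_lit 2) (nat_lit 5) (nat_lit 2) (nat_lit 4) (nat_lit 316) (nat_lit 203) (nat_lit 201))))) (XT.nd (nat_lit 234)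 (nat_lit 0) (nat_lit 0) (XT.nd (nat_lit 78) (nat_lit 0) (nat_lit 0) (XT.lf (nat_lit 0) (nat_lit 465732176218) (nat_lit 76) (nat_lit 52992710809) (nat_lit 76) (nat_lit 52779457027) (nat_lit 1) (nat_lit 4) (nat_lit 2) (nat_lit 5) (nat_lit 2) (nat_lit 4) (nat_lit 317) (nat_lit 203) (nat_lit 200)) (XT.nd (nat_lit 78) (nat_lit 0) (nat_lit 0) (XT.lf (nat_lit 0) (nat_lit 504066179726) (nat_lit 76) (nat_lit 56690411088) (nat_lit 76) (nat_lit 56416333868) (nat_lit 1) (nat_lit 4) (nat_lit 2) (nat_lit 5) (nat_lit 2) (nat_lit 4) (nat_lit 318) (nat_lit 203) (nat_lit 199)) (XT.lf (nat_lit 0) (nat_lit 545418742979) (nat_lit 76) (nat_lit 60704481128) (nat_lit 76) (nat_lit 60374085911) (nat_lit 1) (nat_lit 4) (nat_lit 2) (nat_lit 5) (nat_lit 2) (nat_lit 4) (nat_lit 319) (nat_lit 203) (nat_lit 198)))) (XT.nd (nat_lit 78) (nat_lit 0) (nat_lit 0) (XT.lf (nat_lit 0) (nat_lit 590034918204) (nat_lit 76)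 (nat_lit 65058708010) (nat_lit 76) (nat_lit 64676166499) (nat_lit 1) (nat_lit 4) (nat_lit 2) (nat_lit 5) (nat_lit 2) (nat_lit 4) (nat_lit 320) (nat_lit 203) (nat_lit 197)) (XT.nd (nat_lit 78) (nat_lit 0) (nat_lit 0) (XT.lf (nat_lit 0) (nat_lit 638179097551) (nat_lit 76) (nat_lit 69778894561) (nat_lit 76) (nat_lit 69348069445) (nat_lit 1) (nat_lit 4) (nat_lit 2) (nat_lit 5) (nat_lit 2) (nat_lit 4) (nat_lit 321) (nat_lit 203) (nat_lit 196)) (XT.lf (nat_lit 0) (nat_lit 690136579859) (nat_lit 76) (nat_lit 74893012257) (nat_lit 76) (nat_lit 74417480099) (nat_lit 1) (nat_lit 4) (nat_lit 2) (nat_lit 5) (nat_lit 2) (nat_lit 4) (nat_lit 322) (nat_lit 203) (nat_lit 195))))))) (XT.nd (nat_lit 858) (nat_lit 0) (nat_lit 0) (XT.nd (nat_lit 390) (nat_lit 0) (nat_lit 0) (XT.nd (nat_lit 156) (nat_lit 0) (nat_lit 0) (XT.nd (nat_lit 78) (nat_lit 0) (nat_lit 0) (XT.lf (nat_lit 0) (nat_lit 746215261321)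 (nat_lit 76) (nat_lit 80431366980) (nat_lit 76) (nat_lit 79914439413) (nat_lit 1) (nat_lit 4) (nat_lit 2) (nat_lit 5) (nat_lit 2) (nat_lit 4) (nat_lit 323) (nat_lit 203) (nat_lit 194)) (XT.lf (nat_lit 0) (nat_lit 806747460048) (nat_lit 76) (nat_lit 86426778610) (nat_lit 76) (nat_lit 85871521960) (nat_lit 1) (nat_lit 4) (nat_lit 2) (nat_lit 5) (nat_lit 2) (nat_lit 4) (nat_lit 324) (nat_lit 203) (nat_lit 193))) (XT.nd (nat_lit 78) (nat_lit 0) (nat_lit 0) (XT.lf (nat_lit 0) (nat_lit 872091885367) (nat_lit 76) (nat_lit 92914775512) (nat_lit 76) (nat_lit 92324028971) (nat_lit 1) (nat_lit 4) (nat_lit 2) (nat_lit 5) (nat_lit 2) (nat_lit 4) (nat_lit 325) (nat_lit 203) (nat_lit 192)) (XT.nd (nat_lit 78) (nat_lit 0) (nat_lit 0) (XT.lf (nat_lit 0) (nat_lit 942635763502) (nat_lit 76) (nat_lit 99933805076) (nat_lit 76) (nat_lit 99310197524) (nat_lit 1) (nat_lit 4) (nat_lit 2) (nat_lit 5) (nat_lit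 2) (nat_lit 4) (nat_lit 326) (nat_lit 203) (nat_lit 191)) (XT.lf (nat_lit 0) (nat_lit 1018797132248) (nat_lit 76) (nat_lit 107525461550) (nat_lit 76) (nat_lit 106871427136) (nat_lit 1) (nat_lit 4) (nat_lit 2) (nat_lit 5) (nat_lit 2) (nat_lit 4) (nat_lit 327) (nat_lit 203) (nat_lit 190))))) (XT.nd (nat_lit 234) (nat_lit 0) (nat_lit 0) (XT.nd (nat_lit 78) (nat_lit 0) (nat_lit 0) (XT.lf (nat_lit 0) (nat_lit 1101027318236) (nat_lit 76) (nat_lit 115734732528) (nat_lit 76) (nat_lit 115052525095) (nat_lit 1) (nat_lit 4) (nat_lit 2) (nat_lit 5) (nat_lit 2) (nat_lit 4) (nat_lit 328) (nat_lit 203) (nat_lit 189)) (XT.nd (nat_lit 78) (nat_lit 0) (nat_lit 0) (XT.lf (nat_lit 0) (nat_lit 1189813611457) (nat_lit 76) (nat_lit 124610265543) (nat_lit 76) (nat_lit 123901971980) (nat_lit 1) (nat_lit 4) (nat_lit 2) (nat_lit 5) (nat_lit 2) (nat_lit 4) (nat_lit 329) (nat_lit 203) (nat_lit 188)) (XT.lf (nat_lit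 0) (nat_lit 1285682152907) (nat_lit 76) (nat_lit 134204656346) (nat_lit 76) (nat_lit 133472208959) (nat_lit 1) (nat_lit 4) (nat_lit 2) (nat_lit 5) (nat_lit 2) (nat_lit 4) (nat_lit 330) (nat_lit 203) (nat_lit 187)))) (XT.nd (nat_lit 78) (nat_lit 0) (nat_lit 0) (XT.lf (nat_lit 0) (nat_lit 1389201052462) (nat_lit 76) (nat_lit 144574760584) (nat_lit 76) (nat_lit 143819948546) (nat_lit 1) (nat_lit 4) (nat_lit 2) (nat_lit 5) (nat_lit 2) (nat_lit 4) (nat_lit 331) (nat_lit 203) (nat_lit 186)) (XT.nd (nat_lit 78) (nat_lit 0) (nat_lit 0) (XT.lf (nat_lit 0) (nat_lit 1500983755453) (nat_lit 76) (nat_lit 155782030729) (nat_lit 76) (nat_lit 155006510680) (nat_lit 1) (nat_lit 4) (nat_lit 2) (nat_lit 5) (nat_lit 2) (nat_lit 4) (nat_lit 332) (nat_lit 203) (nat_lit 185)) (XT.lf (nat_lit 0) (nat_lit 1621692677896) (nat_lit 76) (nat_lit 167892880233) (nat_lit 76) (nat_lit 167098186100) (nat_lit 1) (nat_lit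 4) (nat_lit 2) (nat_lit 5) (nat_lit 2) (nat_lit 4) (nat_lit 333) (nat_lit 203) (nat_lit 184)))))) (XT.nd (nat_lit 36114) (nat_lit 0) (nat_lit 0) (XT.nd (nat_lit 35880) (nat_lit 0) (nat_lit 0) (XT.nd (nat_lit 35802) (nat_lit 0) (nat_lit 0) (XT.lf (nat_lit 0) (nat_lit 1752043131926) (nat_lit 76) (nat_lit 180979077093) (nat_lit 76) (nat_lit 180166629179) (nat_lit 1) (nat_lit 4) (nat_lit 2) (nat_lit 5) (nat_lit 2) (nat_lit 4) (nat_lit 334) (nat_lit 203) (nat_lit 183)) (XT.lf (nat_lit 0) (nat_lit 155988596147) (nat_lit 76) (nat_lit 19304842707) (nat_lit 76) (nat_lit 19304842707) (nat_lit 1) (nat_lit 4) (nat_lit 2) (nat_lit 5) (nat_lit 2) (nat_lit 4) (nat_lit 312) (nat_lit 204) (nat_lit 204))) (XT.nd (nat_lit 78) (nat_lit 0) (nat_lit 0) (XT.lf (nat_lit 0) (nat_lit 338279196172) (nat_lit 76) (nat_lit 41035577527) (nat_lit 76) (nat_lit 40952827913) (nat_lit 1) (nat_lit 4) (nat_lit 2) (nat_lit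 5) (nat_lit 2) (nat_lit 4) (nat_lit 313) (nat_lit 204) (nat_lit 203)) (XT.nd (nat_lit 78) (nat_lit 0) (nat_lit 0) (XT.lf (nat_lit 0) (nat_lit 366619838483) (nat_lit 76) (nat_lit 43683504145) (nat_lit 76) (nat_lit 43524134516) (nat_lit 1) (nat_lit 4) (nat_lit 2) (nat_lit 5) (nat_lit 2) (nat_lit 4) (nat_lit 314) (nat_lit 204) (nat_lit 202)) (XT.lf (nat_lit 0) (nat_lit 397167063773) (nat_lit 76) (nat_lit 46569156682) (nat_lit 76) (nat_lit 46338842597) (nat_lit 1) (nat_lit 4) (nat_lit 2) (nat_lit 5) (nat_lit 2) (nat_lit 4) (nat_lit 315) (nat_lit 204) (nat_lit 201))))) (XT.nd (nat_lit 234) (nat_lit 0) (nat_lit 0) (XT.nd (nat_lit 78) (nat_lit 0) (nat_lit 0) (XT.lf (nat_lit 0) (nat_lit 430101892639) (nat_lit 76) (nat_lit 49709635304) (nat_lit 76) (nat_lit 49413631907) (nat_lit 1) (nat_lit 4) (nat_lit 2) (nat_lit 5) (nat_lit 2) (nat_lit 4) (nat_lit 316) (nat_lit 204) (nat_lit 200)) (XT.nd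 (nat_lit 78) (nat_lit 0) (nat_lit 0) (XT.lf (nat_lit 0) (nat_lit 465619494435) (nat_lit 76) (nat_lit 53123550253) (nat_lit 76) (nat_lit 52766723419) (nat_lit 1) (nat_lit 4) (nat_lit 2) (nat_lit 5) (nat_lit 2) (nat_lit 4) (nat_lit 317) (nat_lit 204) (nat_lit 199)) (XT.lf (nat_lit 0) (nat_lit 503930343840) (nat_lit 76) (nat_lit 56831132137) (nat_lit 76) (nat_lit 56417987305) (nat_lit 1) (nat_lit 4) (nat_lit 2) (nat_lit 5) (nat_lit 2) (nat_lit 4) (nat_lit 318) (nat_lit 204) (nat_lit 198)))) (XT.nd (nat_lit 78) (nat_lit 0) (nat_lit 0) (XT.lf (nat_lit 0) (nat_lit 545261468108) (nat_lit 76) (nat_lit 60854351811) (nat_lit 76) (nat_lit 60389060686) (nat_lit 1) (nat_lit 4) (nat_lit 2) (nat_lit 5) (nat_lit 2) (nat_lit 4) (nat_lit 319) (nat_lit 204) (nat_lit 197)) (XT.nd (nat_lit 78) (nat_lit 0) (nat_lit 0) (XT.lf (nat_lit 0) (nat_lit 589857792421) (nat_lit 76) (nat_lit 65217050577) (nat_lit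 76) (nat_lit 64703475846) (nat_lit 1) (nat_lit 4) (nat_lit 2) (nat_lit 5) (nat_lit 2) (nat_lit 4) (nat_lit 320) (nat_lit 204) (nat_lit 196)) (XT.lf (nat_lit 0) (nat_lit 637983591294) (nat_lit 76) (nat_lit 69945081465) (nat_lit 76) (nat_lit 69386799692) (nat_lit 1) (nat_lit 4) (nat_lit 2) (nat_lit 5) (nat_lit 2) (nat_lit 4) (nat_lit 321) (nat_lit 204) (nat_lit 195))))))))
noncomputable def xc3 : XT := (XT.nd (nat_lit 37284) (nat_lit 0) (nat_lit 0) (XT.nd (nat_lit 858) (nat_lit 0) (nat_lit 0) (XT.nd (nat_lit 390) (nat_lit 0) (nat_lit 0) (XT.nd (nat_lit 156) (nat_lit 0) (nat_lit 0) (XT.nd (nat_lit 78) (nat_lit 0) (nat_lit 0) (XT.lf (nat_lit 0) (nat_lit 689924054645) (nat_lit 76) (nat_lit 75066462436) (nat_lit 76) (nat_lit 74466785254) (nat_lit 1) (nat_lit 4) (nat_lit 2) (nat_lit 5) (nat_lit 2) (nat_lit 4) (nat_lit 322) (nat_lit 204) (nat_lit 194)) (XT.lf (nat_lit 0) (nat_lit 745986977813)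 (nat_lit 76) (nat_lit 80611542413) (nat_lit 76) (nat_lit 79973536148) (nat_lit 1) (nat_lit 4) (nat_lit 2) (nat_lit 5) (nat_lit 2) (nat_lit 4) (nat_lit 323) (nat_lit 204) (nat_lit 193))) (XT.nd (nat_lit 78) (nat_lit 0) (nat_lit 0) (XT.lf (nat_lit 0) (nat_lit 806504585527) (nat_lit 76) (nat_lit 86613181130) (nat_lit 76) (nat_lit 85939684974) (nat_lit 1) (nat_lit 4) (nat_lit 2) (nat_lit 5) (nat_lit 2) (nat_lit 4) (nat_lit 324) (nat_lit 204) (nat_lit 192)) (XT.nd (nat_lit 78) (nat_lit 0) (nat_lit 0) (XT.lf (nat_lit 0) (nat_lit 871835500649) (nat_lit 76) (nat_lit 93106943854) (nat_lit 76) (nat_lit 92400586688) (nat_lit 1) (nat_lit 4) (nat_lit 2) (nat_lit 5) (nat_lit 2) (nat_lit 4) (nat_lit 325) (nat_lit 204) (nat_lit 191)) (XT.lf (nat_lit 0) (nat_lit 942366869342) (nat_lit 76) (nat_lit 100131312142) (nat_lit 76) (nat_lit 99394528114) (nat_lit 1) (nat_lit 4) (nat_lit 2) (nat_lit 5) (nat_lit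 2) (nat_lit 4) (nat_lit 326) (nat_lit 204) (nat_lit 190))))) (XT.nd (nat_lit 234) (nat_lit 0) (nat_lit 0) (XT.nd (nat_lit 78) (nat_lit 0) (nat_lit 0) (XT.lf (nat_lit 0) (nat_lit 1018516655272) (nat_lit 76) (nat_lit 107727911879) (nat_lit 76) (nat_lit 106962954830) (nat_lit 1) (nat_lit 4) (nat_lit 2) (nat_lit 5) (nat_lit 2) (nat_lit 4) (nat_lit 327) (nat_lit 204) (nat_lit 189)) (XT.nd (nat_lit 78) (nat_lit 0) (nat_lit 0) (XT.lf (nat_lit 0) (nat_lit 1100736116430) (nat_lit 76) (nat_lit 115941759952) (nat_lit 76) (nat_lit 115150716775) (nat_lit 1) (nat_lit 4) (nat_lit 2) (nat_lit 5) (nat_lit 2) (nat_lit 4) (nat_lit 328) (nat_lit 204) (nat_lit 188)) (XT.lf (nat_lit 0) (nat_lit 1189512479253) (nat_lit 76) (nat_lit 124821531018) (nat_lit 76) (nat_lit 124006334017) (nat_lit 1) (nat_lit 4) (nat_lit 2) (nat_lit 5) (nat_lit 2) (nat_lit 4) (nat_lit 329) (nat_lit 204) (nat_lit 187)))) (XT.nd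 (nat_lit 78) (nat_lit 0) (nat_lit 0) (XT.lf (nat_lit 0) (nat_lit 1285371825890) (nat_lit 76) (nat_lit 134419845942) (nat_lit 76) (nat_lit 133582284289) (nat_lit 1) (nat_lit 4) (nat_lit 2) (nat_lit 5) (nat_lit 2) (nat_lit 4) (nat_lit 330) (nat_lit 204) (nat_lit 186)) (XT.nd (nat_lit 78) (nat_lit 0) (nat_lit 0) (XT.lf (nat_lit 0) (nat_lit 1388882211729) (nat_lit 76) (nat_lit 144793583626) (nat_lit 76) (nat_lit 143935313963) (nat_lit 1) (nat_lit 4) (nat_lit 2) (nat_lit 5) (nat_lit 2) (nat_lit 4) (nat_lit 331) (nat_lit 204) (nat_lit 185)) (XT.lf (nat_lit 0) (nat_lit 1500657031649) (nat_lit 76) (nat_lit 156004218073) (nat_lit 76) (nat_lit 155126774325) (nat_lit 1) (nat_lit 4) (nat_lit 2) (nat_lit 5) (nat_lit 2) (nat_lit 4) (nat_lit 332) (nat_lit 204) (nat_lit 184)))))) (XT.nd (nat_lit 35958) (nat_lit 0) (nat_lit 0) (XT.nd (nat_lit 35724) (nat_lit 0) (nat_lit 0) (XT.nd (nat_lit 78) (nat_lit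 0) (nat_lit 0) (XT.lf (nat_lit 0) (nat_lit 1621358654954) (nat_lit 76) (nat_lit 168118182671) (nat_lit 76) (nat_lit 167222985142) (nat_lit 1) (nat_lit 4) (nat_lit 2) (nat_lit 5) (nat_lit 2) (nat_lit 4) (nat_lit 333) (nat_lit 204) (nat_lit 183)) (XT.lf (nat_lit 0) (nat_lit 1751702350521) (nat_lit 76) (nat_lit 181207263877) (nat_lit 76) (nat_lit 180295627661) (nat_lit 1) (nat_lit 4) (nat_lit 2) (nat_lit 5) (nat_lit 2) (nat_lit 4) (nat_lit 334) (nat_lit 204) (nat_lit 182))) (XT.nd (nat_lit 78) (nat_lit 0) (nat_lit 0) (XT.lf (nat_lit 0) (nat_lit 132456772385) (nat_lit 76) (nat_lit 17220710680) (nat_lit 76) (nat_lit 17220710680) (nat_lit 1) (nat_lit 4) (nat_lit 2) (nat_lit 5) (nat_lit 2) (nat_lit 4) (nat_lit 310) (nat_lit 205) (nat_lit 205)) (XT.nd (nat_lit 78) (nat_lit 0) (nat_lit 0) (XT.lf (nat_lit 0) (nat_lit 287557963125) (nat_lit 76) (nat_lit 36480821731) (nat_lit 76) (nat_lit 36391452147)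 (nat_lit 1) (nat_lit 4) (nat_lit 2) (nat_lit 5) (nat_lit 2) (nat_lit 4) (nat_lit 311) (nat_lit 205) (nat_lit 204)) (XT.lf (nat_lit 0) (nat_lit 311943171321) (nat_lit 76) (nat_lit 38713574318) (nat_lit 76) (nat_lit 38541455119) (nat_lit 1) (nat_lit 4) (nat_lit 2) (nat_lit 5) (nat_lit 2) (nat_lit 4) (nat_lit 312) (nat_lit 205) (nat_lit 203))))) (XT.nd (nat_lit 234) (nat_lit 0) (nat_lit 0) (XT.nd (nat_lit 78) (nat_lit 0) (nat_lit 0) (XT.lf (nat_lit 0) (nat_lit 338213674295) (nat_lit 76) (nat_lit 41152910246) (nat_lit 76) (nat_lit 40904171034) (nat_lit 1) (nat_lit 4) (nat_lit 2) (nat_lit 5) (nat_lit 2) (nat_lit 4) (nat_lit 313) (nat_lit 205) (nat_lit 202)) (XT.nd (nat_lit 78) (nat_lit 0) (nat_lit 0) (XT.lf (nat_lit 0) (nat_lit 366525149104) (nat_lit 76) (nat_lit 43813284840) (nat_lit 76) (nat_lit 43493601170) (nat_lit 1) (nat_lit 4) (nat_lit 2) (nat_lit 5) (nat_lit 2) (nat_lit 4) (nat_lit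 314) (nat_lit 205) (nat_lit 201)) (XT.lf (nat_lit 0) (nat_lit 397045367448) (nat_lit 76) (nat_lit 46710463282) (nat_lit 76) (nat_lit 46325090300) (nat_lit 1) (nat_lit 4) (nat_lit 2) (nat_lit 5) (nat_lit 2) (nat_lit 4) (nat_lit 315) (nat_lit 205) (nat_lit 200)))) (XT.nd (nat_lit 78) (nat_lit 0) (nat_lit 0) (XT.lf (nat_lit 0) (nat_lit 429955189881) (nat_lit 76) (nat_lit 49861614037) (nat_lit 76) (nat_lit 49415417619) (nat_lit 1) (nat_lit 4) (nat_lit 2) (nat_lit 5) (nat_lit 2) (nat_lit 4) (nat_lit 316) (nat_lit 205) (nat_lit 199)) (XT.nd (nat_lit 78) (nat_lit 0) (nat_lit 0) (XT.lf (nat_lit 0) (nat_lit 465449637574) (nat_lit 76) (nat_lit 53285410591) (nat_lit 76) (nat_lit 52782896176) (nat_lit 1) (nat_lit 4) (nat_lit 2) (nat_lit 5) (nat_lit 2) (nat_lit 4) (nat_lit 317) (nat_lit 205) (nat_lit 198)) (XT.lf (nat_lit 0) (nat_lit 503739047994) (nat_lit 76) (nat_lit 57002142109) (nat_lit 76)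 (nat_lit 56447481400) (nat_lit 1) (nat_lit 4) (nat_lit 2) (nat_lit 5) (nat_lit 2) (nat_lit 4) (nat_lit 318) (nat_lit 205) (nat_lit 197))))))) (XT.nd (nat_lit 858) (nat_lit 0) (nat_lit 0) (XT.nd (nat_lit 390) (nat_lit 0) (nat_lit 0) (XT.nd (nat_lit 156) (nat_lit 0) (nat_lit 0) (XT.nd (nat_lit 78) (nat_lit 0) (nat_lit 0) (XT.lf (nat_lit 0) (nat_lit 545050321350) (nat_lit 76) (nat_lit 61033833667) (nat_lit 76) (nat_lit 60430889353) (nat_lit 1) (nat_lit 4) (nat_lit 2) (nat_lit 5) (nat_lit 2) (nat_lit 4) (nat_lit 319) (nat_lit 205) (nat_lit 196)) (XT.lf (nat_lit 0) (nat_lit 589628265190) (nat_lit 76) (nat_lit 65404376770) (nat_lit 76) (nat_lit 64756725413) (nat_lit 1) (nat_lit 4) (nat_lit 2) (nat_lit 5) (nat_lit 2) (nat_lit 4) (nat_lit 320) (nat_lit 205) (nat_lit 195))) (XT.nd (nat_lit 78) (nat_lit 0) (nat_lit 0) (XT.lf (nat_lit 0) (nat_lit 637737045105) (nat_lit 76) (nat_lit 70139670933)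 (nat_lit 76) (nat_lit 69450624167) (nat_lit 1) (nat_lit 4) (nat_lit 2) (nat_lit 5) (nat_lit 2) (nat_lit 4) (nat_lit 321) (nat_lit 205) (nat_lit 194)) (XT.nd (nat_lit 78) (nat_lit 0) (nat_lit 0) (XT.lf (nat_lit 0) (nat_lit 689661750162) (nat_lit 76) (nat_lit 75267777158) (nat_lit 76) (nat_lit 74540401309) (nat_lit 1) (nat_lit 4) (nat_lit 2) (nat_lit 5) (nat_lit 2) (nat_lit 4) (nat_lit 322) (nat_lit 205) (nat_lit 193)) (XT.lf (nat_lit 0) (nat_lit 745710082317) (nat_lit 76) (nat_lit 80819084223) (nat_lit 76) (nat_lit 80056218483) (nat_lit 1) (nat_lit 4) (nat_lit 2) (nat_lit 5) (nat_lit 2) (nat_lit 4) (nat_lit 323) (nat_lit 205) (nat_lit 192))))) (XT.nd (nat_lit 234) (nat_lit 0) (nat_lit 0) (XT.nd (nat_lit 78) (nat_lit 0) (nat_lit 0) (XT.lf (nat_lit 0) (nat_lit 806214179835) (nat_lit 76) (nat_lit 86826488762) (nat_lit 76) (nat_lit 86030762011) (nat_lit 1) (nat_lit 4) (nat_lit 2) (nat_lit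 5) (nat_lit 2) (nat_lit 4) (nat_lit 324) (nat_lit 205) (nat_lit 191)) (XT.nd (nat_lit 78) (nat_lit 0) (nat_lit 0) (XT.lf (nat_lit 0) (nat_lit 871532585515) (nat_lit 76) (nat_lit 93325590209) (nat_lit 76) (nat_lit 92499436597) (nat_lit 1) (nat_lit 4) (nat_lit 2) (nat_lit 5) (nat_lit 2) (nat_lit 4) (nat_lit 325) (nat_lit 205) (nat_lit 190)) (XT.lf (nat_lit 0) (nat_lit 942052371391) (nat_lit 76) (nat_lit 100354901760) (nat_lit 76) (nat_lit 99500575127) (nat_lit 1) (nat_lit 4) (nat_lit 2) (nat_lit 5) (nat_lit 2) (nat_lit 4) (nat_lit 326) (nat_lit 205) (nat_lit 189)))) (XT.nd (nat_lit 78) (nat_lit 0) (nat_lit 0) (XT.lf (nat_lit 0) (nat_lit 1018191432491) (nat_lit 76) (nat_lit 107956078592) (nat_lit 76) (nat_lit 107075665830) (nat_lit 1) (nat_lit 4) (nat_lit 2) (nat_lit 5) (nat_lit 2) (nat_lit 4) (nat_lit 327) (nat_lit 205) (nat_lit 188)) (XT.nd (nat_lit 78) (nat_lit 0) (nat_lit 0) (XT.lf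 (nat_lit 0) (nat_lit 1100400963251) (nat_lit 76) (nat_lit 116174164716) (nat_lit 76) (nat_lit 115269598131) (nat_lit 1) (nat_lit 4) (nat_lit 2) (nat_lit 5) (nat_lit 2) (nat_lit 4) (nat_lit 328) (nat_lit 205) (nat_lit 187)) (XT.lf (nat_lit 0) (nat_lit 1189168131261) (nat_lit 76) (nat_lit 125057859904) (nat_lit 76) (nat_lit 124130928667) (nat_lit 1) (nat_lit 4) (nat_lit 2) (nat_lit 5) (nat_lit 2) (nat_lit 4) (nat_lit 329) (nat_lit 205) (nat_lit 186)))))) (XT.nd (nat_lit 35802) (nat_lit 0) (nat_lit 0) (XT.nd (nat_lit 156) (nat_lit 0) (nat_lit 0) (XT.nd (nat_lit 78) (nat_lit 0) (nat_lit 0) (XT.lf (nat_lit 0) (nat_lit 1285018964182) (nat_lit 76) (nat_lit 134659808273) (nat_lit 76) (nat_lit 133712169025) (nat_lit 1) (nat_lit 4) (nat_lit 2) (nat_lit 5) (nat_lit 2) (nat_lit 4) (nat_lit 330) (nat_lit 205) (nat_lit 185)) (XT.lf (nat_lit 0) (nat_lit 1388521466951) (nat_lit 76) (nat_lit 145036910259)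 (nat_lit 76) (nat_lit 144070096927) (nat_lit 1) (nat_lit 4) (nat_lit 2) (nat_lit 5) (nat_lit 2) (nat_lit 4) (nat_lit 331) (nat_lit 205) (nat_lit 184))) (XT.nd (nat_lit 78) (nat_lit 0) (nat_lit 0) (XT.lf (nat_lit 0) (nat_lit 1500288987732) (nat_lit 76) (nat_lit 156250659800) (nat_lit 76) (nat_lit 155266092687) (nat_lit 1) (nat_lit 4) (nat_lit 2) (nat_lit 5) (nat_lit 2) (nat_lit 4) (nat_lit 332) (nat_lit 205) (nat_lit 183)) (XT.nd (nat_lit 78) (nat_lit 0) (nat_lit 0) (XT.lf (nat_lit 0) (nat_lit 1620983852574) (nat_lit 76) (nat_lit 168367508744) (nat_lit 76) (nat_lit 167366502944) (nat_lit 1) (nat_lit 4) (nat_lit 2) (nat_lit 5) (nat_lit 2) (nat_lit 4) (nat_lit 333) (nat_lit 205) (nat_lit 182)) (XT.lf (nat_lit 0) (nat_lit 1751321290307) (nat_lit 76) (nat_lit 181459260641) (nat_lit 76) (nat_lit 180443033836) (nat_lit 1) (nat_lit 4) (nat_lit 2) (nat_lit 5) (nat_lit 2) (nat_lit 4) (nat_lit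 334) (nat_lit 205) (nat_lit 181))))) (XT.nd (nat_lit 234) (nat_lit 0) (nat_lit 0) (XT.nd (nat_lit 78) (nat_lit 0) (nat_lit 0) (XT.lf (nat_lit 0) (nat_lit 112179761831) (nat_lit 76) (nat_lit 15487496955) (nat_lit 76) (nat_lit 15487496955) (nat_lit 1) (nat_lit 4) (nat_lit 2) (nat_lit 5) (nat_lit 2) (nat_lit 4) (nat_lit 308) (nat_lit 206) (nat_lit 206)) (XT.nd (nat_lit 78) (nat_lit 0) (nat_lit 0) (XT.lf (nat_lit 0) (nat_lit 243875727111) (nat_lit 76) (nat_lit 32679807018) (nat_lit 76) (nat_lit 32583287868) (nat_lit 1) (nat_lit 4) (nat_lit 2) (nat_lit 5) (nat_lit 2) (nat_lit 4) (nat_lit 309) (nat_lit 206) (nat_lit 205)) (XT.lf (nat_lit 0) (nat_lit 264876802118) (nat_lit 76) (nat_lit 34553621376) (nat_lit 76) (nat_lit 34367732641) (nat_lit 1) (nat_lit 4) (nat_lit 2) (nat_lit 5) (nat_lit 2) (nat_lit 4) (nat_lit 310) (nat_lit 206) (nat_lit 204)))) (XT.nd (nat_lit 78) (nat_lit 0) (nat_lit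 0) (XT.lf (nat_lit 0) (nat_lit 287487199498) (nat_lit 76) (nat_lit 36607541067) (nat_lit 76) (nat_lit 36338902718) (nat_lit 1) (nat_lit 4) (nat_lit 2) (nat_lit 5) (nat_lit 2) (nat_lit 4) (nat_lit 311) (nat_lit 206) (nat_lit 203)) (XT.nd (nat_lit 78) (nat_lit 0) (nat_lit 0) (XT.lf (nat_lit 0) (nat_lit 311840906791) (nat_lit 76) (nat_lit 38853737468) (nat_lit 76) (nat_lit 38508479106) (nat_lit 1) (nat_lit 4) (nat_lit 2) (nat_lit 5) (nat_lit 2) (nat_lit 4) (nat_lit 312) (nat_lit 206) (nat_lit 202)) (XT.lf (nat_lit 0) (nat_lit 338082242264) (nat_lit 76) (nat_lit 41305521373) (nat_lit 76) (nat_lit 40889318553) (nat_lit 1) (nat_lit 4) (nat_lit 2) (nat_lit 5) (nat_lit 2) (nat_lit 4) (nat_lit 313) (nat_lit 206) (nat_lit 201))))))))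
noncomputable def xc4 : XT := (XT.nd (nat_lit 36894) (nat_lit 0) (nat_lit 0) (XT.nd (nat_lit 780) (nat_lit 0) (nat_lit 0) (XT.nd (nat_lit 390) (nat_lit 0) (nat_lit 0) (XT.nd (nat_lit 156) (nat_lit 0) (nat_lit 0) (XT.nd (nat_lit 78) (nat_lit 0) (nat_lit 0) (XT.lf (nat_lit 0) (nat_lit 366366710126) (nat_lit 76) (nat_lit 43977421871) (nat_lit 76) (nat_lit 43495529739) (nat_lit 1) (nat_lit 4) (nat_lit 2) (nat_lit 5) (nat_lit 2) (nat_lit 4) (nat_lit 314) (nat_lit 206) (nat_lit 200)) (XT.lf (nat_lit 0) (nat_lit 396861922038) (nat_lit 76) (nat_lit 46885272447) (nat_lit 76) (nat_lit 46342556878) (nat_lit 1) (nat_lit 4) (nat_lit 2) (nat_lit 5) (nat_lit 2) (nat_lit 4) (nat_lit 315) (nat_lit 206) (nat_lit 199))) (XT.nd (nat_lit 78) (nat_lit 0) (nat_lit 0) (XT.lf (nat_lit 0) (nat_lit 429748590368) (nat_lit 76) (nat_lit 50046304807) (nat_lit 76) (nat_lit 49447271241) (nat_lit 1) (nat_lit 4) (nat_lit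 2) (nat_lit 5) (nat_lit 2) (nat_lit 4) (nat_lit 316) (nat_lit 206) (nat_lit 198)) (XT.nd (nat_lit 78) (nat_lit 0) (nat_lit 0) (XT.lf (nat_lit 0) (nat_lit 465221599076) (nat_lit 76) (nat_lit 53479250996) (nat_lit 76) (nat_lit 52828071136) (nat_lit 1) (nat_lit 4) (nat_lit 2) (nat_lit 5) (nat_lit 2) (nat_lit 4) (nat_lit 317) (nat_lit 206) (nat_lit 197)) (XT.lf (nat_lit 0) (nat_lit 503491158584) (nat_lit 76) (nat_lit 57204454398) (nat_lit 76) (nat_lit 56504990932) (nat_lit 1) (nat_lit 4) (nat_lit 2) (nat_lit 5) (nat_lit 2) (nat_lit 4) (nat_lit 318) (nat_lit 206) (nat_lit 196))))) (XT.nd (nat_lit 156) (nat_lit 0) (nat_lit 0) (XT.nd (nat_lit 78) (nat_lit 0) (nat_lit 0) (XT.lf (nat_lit 0) (nat_lit 544784051466) (nat_lit 76) (nat_lit 61243990292) (nat_lit 76) (nat_lit 60499819785) (nat_lit 1) (nat_lit 4) (nat_lit 2) (nat_lit 5) (nat_lit 2) (nat_lit 4) (nat_lit 319) (nat_lit 206) (nat_lit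 195)) (XT.lf (nat_lit 0) (nat_lit 589344976348) (nat_lit 76) (nat_lit 65621796670) (nat_lit 76) (nat_lit 64836230754) (nat_lit 1) (nat_lit 4) (nat_lit 2) (nat_lit 5) (nat_lit 2) (nat_lit 4) (nat_lit 320) (nat_lit 206) (nat_lit 194))) (XT.nd (nat_lit 78) (nat_lit 0) (nat_lit 0) (XT.lf (nat_lit 0) (nat_lit 637437997970) (nat_lit 76) (nat_lit 70363816087) (nat_lit 76) (nat_lit 69539921088) (nat_lit 1) (nat_lit 4) (nat_lit 2) (nat_lit 5) (nat_lit 2) (nat_lit 4) (nat_lit 321) (nat_lit 206) (nat_lit 193)) (XT.nd (nat_lit 78) (nat_lit 0) (nat_lit 0) (XT.lf (nat_lit 0) (nat_lit 689348112014) (nat_lit 76) (nat_lit 75498149400) (nat_lit 76) (nat_lit 74638764509) (nat_lit 1) (nat_lit 4) (nat_lit 2) (nat_lit 5) (nat_lit 2) (nat_lit 4) (nat_lit 322) (nat_lit 206) (nat_lit 192)) (XT.lf (nat_lit 0) (nat_lit 745382933972) (nat_lit 76) (nat_lit 81055222286) (nat_lit 76) (nat_lit 80162976385) (nat_lit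 1) (nat_lit 4) (nat_lit 2) (nat_lit 5) (nat_lit 2) (nat_lit 4) (nat_lit 323) (nat_lit 206) (nat_lit 191)))))) (XT.nd (nat_lit 390) (nat_lit 0) (nat_lit 0) (XT.nd (nat_lit 156) (nat_lit 0) (nat_lit 0) (XT.nd (nat_lit 78) (nat_lit 0) (nat_lit 0) (XT.lf (nat_lit 0) (nat_lit 805874522048) (nat_lit 76) (nat_lit 87067965549) (nat_lit 76) (nat_lit 86145292786) (nat_lit 1) (nat_lit 4) (nat_lit 2) (nat_lit 5) (nat_lit 2) (nat_lit 4) (nat_lit 324) (nat_lit 206) (nat_lit 190)) (XT.lf (nat_lit 0) (nat_lit 871181344911) (nat_lit 76) (nat_lit 93572010259) (nat_lit 76) (nat_lit 92621164477) (nat_lit 1) (nat_lit 4) (nat_lit 2) (nat_lit 5) (nat_lit 2) (nat_lit 4) (nat_lit 325) (nat_lit 206) (nat_lit 189))) (XT.nd (nat_lit 78) (nat_lit 0) (nat_lit 0) (XT.lf (nat_lit 0) (nat_lit 941690405958) (nat_lit 76) (nat_lit 100605898905) (nat_lit 76) (nat_lit 99628966992) (nat_lit 1) (nat_lit 4) (nat_lit 2) (nat_lit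 5) (nat_lit 2) (nat_lit 4) (nat_lit 326) (nat_lit 206) (nat_lit 188)) (XT.nd (nat_lit 78) (nat_lit 0) (nat_lit 0) (XT.lf (nat_lit 0) (nat_lit 1017819536660) (nat_lit 76) (nat_lit 108211313788) (nat_lit 76) (nat_lit 107210228052) (nat_lit 1) (nat_lit 4) (nat_lit 2) (nat_lit 5) (nat_lit 2) (nat_lit 4) (nat_lit 327) (nat_lit 206) (nat_lit 187)) (XT.lf (nat_lit 0) (nat_lit 1100019872607) (nat_lit 76) (nat_lit 116433324034) (nat_lit 76) (nat_lit 115409873646) (nat_lit 1) (nat_lit 4) (nat_lit 2) (nat_lit 5) (nat_lit 2) (nat_lit 4) (nat_lit 328) (nat_lit 206) (nat_lit 186))))) (XT.nd (nat_lit 234) (nat_lit 0) (nat_lit 0) (XT.nd (nat_lit 78) (nat_lit 0) (nat_lit 0) (XT.lf (nat_lit 0) (nat_lit 1188778526900) (nat_lit 76) (nat_lit 125320652667) (nat_lit 76) (nat_lit 124276494269) (nat_lit 1) (nat_lit 4) (nat_lit 2) (nat_lit 5) (nat_lit 2) (nat_lit 4) (nat_lit 329) (nat_lit 206) (nat_lit 185))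 (XT.nd (nat_lit 78) (nat_lit 0) (nat_lit 0) (XT.lf (nat_lit 0) (nat_lit 1284621476751) (nat_lit 76) (nat_lit 134925965338) (nat_lit 76) (nat_lit 133862632856) (nat_lit 1) (nat_lit 4) (nat_lit 2) (nat_lit 5) (nat_lit 2) (nat_lit 4) (nat_lit 330) (nat_lit 206) (nat_lit 184)) (XT.lf (nat_lit 0) (nat_lit 1388116680381) (nat_lit 76) (nat_lit 145306182418) (nat_lit 76) (nat_lit 144225096154) (nat_lit 1) (nat_lit 4) (nat_lit 2) (nat_lit 5) (nat_lit 2) (nat_lit 4) (nat_lit 331) (nat_lit 206) (nat_lit 183)))) (XT.nd (nat_lit 78) (nat_lit 0) (nat_lit 0) (XT.lf (nat_lit 0) (nat_lit 1499877442700) (nat_lit 76) (nat_lit 156522816305) (nat_lit 76) (nat_lit 155425291355) (nat_lit 1) (nat_lit 4) (nat_lit 2) (nat_lit 5) (nat_lit 2) (nat_lit 4) (nat_lit 332) (nat_lit 206) (nat_lit 182)) (XT.nd (nat_lit 78) (nat_lit 0) (nat_lit 0) (XT.lf (nat_lit 0) (nat_lit 1620566049707) (nat_lit 76) (nat_lit 168642335940)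 (nat_lit 76) (nat_lit 167529589984) (nat_lit 1) (nat_lit 4) (nat_lit 2) (nat_lit 5) (nat_lit 2) (nat_lit 4) (nat_lit 333) (nat_lit 206) (nat_lit 181)) (XT.lf (nat_lit 0) (nat_lit 1750897693147) (nat_lit 76) (nat_lit 181736560700) (nat_lit 76) (nat_lit 180609721219) (nat_lit 1) (nat_lit 4) (nat_lit 2) (nat_lit 5) (nat_lit 2) (nat_lit 4) (nat_lit 334) (nat_lit 206) (nat_lit 180))))))) (XT.nd (nat_lit 858) (nat_lit 0) (nat_lit 0) (XT.nd (nat_lit 390) (nat_lit 0) (nat_lit 0) (XT.nd (nat_lit 156) (nat_lit 0) (nat_lit 0) (XT.nd (nat_lit 78) (nat_lit 0) (nat_lit 0) (XT.lf (nat_lit 0) (nat_lit 94685047833) (nat_lit 76) (nat_lit 14059426598) (nat_lit 76) (nat_lit 14059426598) (nat_lit 1) (nat_lit 4) (nat_lit 2) (nat_lit 5) (nat_lit 2) (nat_lit 4) (nat_lit 306) (nat_lit 207) (nat_lit 207)) (XT.lf (nat_lit 0) (nat_lit 206212540198) (nat_lit 76) (nat_lit 29533320136) (nat_lit 76) (nat_lit 29429079454)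 (nat_lit 1) (nat_lit 4) (nat_lit 2) (nat_lit 5) (nat_lit 2) (nat_lit 4) (nat_lit 307) (nat_lit 207) (nat_lit 206))) (XT.nd (nat_lit 78) (nat_lit 0) (nat_lit 0) (XT.lf (nat_lit 0) (nat_lit 224319841599) (nat_lit 76) (nat_lit 31096169927) (nat_lit 76) (nat_lit 30895410094) (nat_lit 1) (nat_lit 4) (nat_lit 2) (nat_lit 5) (nat_lit 2) (nat_lit 4) (nat_lit 308) (nat_lit 207) (nat_lit 205)) (XT.nd (nat_lit 78) (nat_lit 0) (nat_lit 0) (XT.lf (nat_lit 0) (nat_lit 243799302394) (nat_lit 76) (nat_lit 32816663901) (nat_lit 76) (nat_lit 32526534484) (nat_lit 1) (nat_lit 4) (nat_lit 2) (nat_lit 5) (nat_lit 2) (nat_lit 4) (nat_lit 309) (nat_lit 207) (nat_lit 204)) (XT.lf (nat_lit 0) (nat_lit 264766356426) (nat_lit 76) (nat_lit 34704997578) (nat_lit 76) (nat_lit 34332118547) (nat_lit 1) (nat_lit 4) (nat_lit 2) (nat_lit 5) (nat_lit 2) (nat_lit 4) (nat_lit 310) (nat_lit 207) (nat_lit 203))))) (XT.nd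 (nat_lit 234) (nat_lit 0) (nat_lit 0) (XT.nd (nat_lit 78) (nat_lit 0) (nat_lit 0) (XT.lf (nat_lit 0) (nat_lit 287345252904) (nat_lit 76) (nat_lit 36772361084) (nat_lit 76) (nat_lit 36322862039) (nat_lit 1) (nat_lit 4) (nat_lit 2) (nat_lit 5) (nat_lit 2) (nat_lit 4) (nat_lit 311) (nat_lit 207) (nat_lit 202)) (XT.nd (nat_lit 78) (nat_lit 0) (nat_lit 0) (XT.lf (nat_lit 0) (nat_lit 311669792695) (nat_lit 76) (nat_lit 39031005462) (nat_lit 76) (nat_lit 38510561960) (nat_lit 1) (nat_lit 4) (nat_lit 2) (nat_lit 5) (nat_lit 2) (nat_lit 4) (nat_lit 312) (nat_lit 207) (nat_lit 201)) (XT.lf (nat_lit 0) (nat_lit 337884121221) (nat_lit 76) (nat_lit 41494315271) (nat_lit 76) (nat_lit 40908182457) (nat_lit 1) (nat_lit 4) (nat_lit 2) (nat_lit 5) (nat_lit 2) (nat_lit 4) (nat_lit 313) (nat_lit 207) (nat_lit 200)))) (XT.nd (nat_lit 78) (nat_lit 0) (nat_lit 0) (XT.lf (nat_lit 0) (nat_lit 366143582651)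 (nat_lit 76) (nat_lit 44176887903) (nat_lit 76) (nat_lit 43529931651) (nat_lit 1) (nat_lit 4) (nat_lit 2) (nat_lit 5) (nat_lit 2) (nat_lit 4) (nat_lit 314) (nat_lit 207) (nat_lit 199)) (XT.nd (nat_lit 78) (nat_lit 0) (nat_lit 0) (XT.lf (nat_lit 0) (nat_lit 396615640460) (nat_lit 76) (nat_lit 47094620084) (nat_lit 76) (nat_lit 46391345835) (nat_lit 1) (nat_lit 4) (nat_lit 2) (nat_lit 5) (nat_lit 2) (nat_lit 4) (nat_lit 315) (nat_lit 207) (nat_lit 198)) (XT.lf (nat_lit 0) (nat_lit 429480869805) (nat_lit 76) (nat_lit 50264802078) (nat_lit 76) (nat_lit 49509381536) (nat_lit 1) (nat_lit 4) (nat_lit 2) (nat_lit 5) (nat_lit 2) (nat_lit 4) (nat_lit 316) (nat_lit 207) (nat_lit 197)))))) (XT.nd (nat_lit 390) (nat_lit 0) (nat_lit 0) (XT.nd (nat_lit 156) (nat_lit 0) (nat_lit 0) (XT.nd (nat_lit 78) (nat_lit 0) (nat_lit 0) (XT.lf (nat_lit 0) (nat_lit 464934027601) (nat_lit 76) (nat_lit 53706220151)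 (nat_lit 76) (nat_lit 52902516003) (nat_lit 1) (nat_lit 4) (nat_lit 2) (nat_lit 5) (nat_lit 2) (nat_lit 4) (nat_lit 317) (nat_lit 207) (nat_lit 196)) (XT.lf (nat_lit 0) (nat_lit 503185206635) (nat_lit 76) (nat_lit 57439267890) (nat_lit 76) (nat_lit 56590856700) (nat_lit 1) (nat_lit 4) (nat_lit 2) (nat_lit 5) (nat_lit 2) (nat_lit 4) (nat_lit 318) (nat_lit 207) (nat_lit 195))) (XT.nd (nat_lit 78) (nat_lit 0) (nat_lit 0) (XT.lf (nat_lit 0) (nat_lit 544461080560) (nat_lit 76) (nat_lit 61486067059) (nat_lit 76) (nat_lit 60596260460) (nat_lit 1) (nat_lit 4) (nat_lit 2) (nat_lit 5) (nat_lit 2) (nat_lit 4) (nat_lit 319) (nat_lit 207) (nat_lit 194)) (XT.nd (nat_lit 78) (nat_lit 0) (nat_lit 0) (XT.lf (nat_lit 0) (nat_lit 589006247148) (nat_lit 76) (nat_lit 65870598691) (nat_lit 76) (nat_lit 64942463009) (nat_lit 1) (nat_lit 4) (nat_lit 2) (nat_lit 5) (nat_lit 2) (nat_lit 4) (nat_lit 320) (nat_lit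 207) (nat_lit 193)) (XT.lf (nat_lit 0) (nat_lit 637084677757) (nat_lit 76) (nat_lit 70618845196) (nat_lit 76) (nat_lit 69655219623) (nat_lit 1) (nat_lit 4) (nat_lit 2) (nat_lit 5) (nat_lit 2) (nat_lit 4) (nat_lit 321) (nat_lit 207) (nat_lit 192))))) (XT.nd (nat_lit 234) (nat_lit 0) (nat_lit 0) (XT.nd (nat_lit 78) (nat_lit 0) (nat_lit 0) (XT.lf (nat_lit 0) (nat_lit 688981281604) (nat_lit 76) (nat_lit 75758944330) (nat_lit 76) (nat_lit 74762457746) (nat_lit 1) (nat_lit 4) (nat_lit 2) (nat_lit 5) (nat_lit 2) (nat_lit 4) (nat_lit 322) (nat_lit 207) (nat_lit 191)) (XT.nd (nat_lit 78) (nat_lit 0) (nat_lit 0) (XT.lf (nat_lit 0) (nat_lit 745003594120) (nat_lit 76) (nat_lit 81321355940) (nat_lit 76) (nat_lit 80294442495) (nat_lit 1) (nat_lit 4) (nat_lit 2) (nat_lit 5) (nat_lit 2) (nat_lit 4) (nat_lit 323) (nat_lit 207) (nat_lit 190)) (XT.lf (nat_lit 0) (nat_lit 805483599380) (nat_lit 76) (nat_lit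 87339042466) (nat_lit 76) (nat_lit 86283956000) (nat_lit 1) (nat_lit 4) (nat_lit 2) (nat_lit 5) (nat_lit 2) (nat_lit 4) (nat_lit 324) (nat_lit 207) (nat_lit 189)))) (XT.nd (nat_lit 78) (nat_lit 0) (nat_lit 0) (XT.lf (nat_lit 0) (nat_lit 870779697413) (nat_lit 76) (nat_lit 93847664271) (nat_lit 76) (nat_lit 92766491677) (nat_lit 1) (nat_lit 4) (nat_lit 2) (nat_lit 5) (nat_lit 2) (nat_lit 4) (nat_lit 325) (nat_lit 207) (nat_lit 188)) (XT.nd (nat_lit 78) (nat_lit 0) (nat_lit 0) (XT.lf (nat_lit 0) (nat_lit 941278828062) (nat_lit 76) (nat_lit 100885790968) (nat_lit 76) (nat_lit 99780464549) (nat_lit 1) (nat_lit 4) (nat_lit 2) (nat_lit 5) (nat_lit 2) (nat_lit 4) (nat_lit 326) (nat_lit 207) (nat_lit 187)) (XT.lf (nat_lit 0) (nat_lit 1017398763950) (nat_lit 76) (nat_lit 108495129972) (nat_lit 76) (nat_lit 107367438902) (nat_lit 1) (nat_lit 4) (nat_lit 2) (nat_lit 5) (nat_lit 2) (nat_lit 4)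 (nat_lit 327) (nat_lit 207) (nat_lit 186))))))))
noncomputable def xc5 : XT := (XT.nd (nat_lit 36816) (nat_lit 0) (nat_lit 0) (XT.nd (nat_lit 35958) (nat_lit 0) (nat_lit 0) (XT.nd (nat_lit 390) (nat_lit 0) (nat_lit 0) (XT.nd (nat_lit 156) (nat_lit 0) (nat_lit 0) (XT.nd (nat_lit 78) (nat_lit 0) (nat_lit 0) (XT.lf (nat_lit 0) (nat_lit 1099590586181) (nat_lit 76) (nat_lit 116720773664) (nat_lit 76) (nat_lit 115572374583) (nat_lit 1) (nat_lit 4) (nat_lit 2) (nat_lit 5) (nat_lit 2) (nat_lit 4) (nat_lit 328) (nat_lit 207) (nat_lit 185)) (XT.lf (nat_lit 0) (nat_lit 1188341357405) (nat_lit 76) (nat_lit 125611466599) (nat_lit 76) (nat_lit 124443893434) (nat_lit 1) (nat_lit 4) (nat_lit 2) (nat_lit 5) (nat_lit 2) (nat_lit 4) (nat_lit 329) (nat_lit 207) (nat_lit 184))) (XT.nd (nat_lit 78) (nat_lit 0) (nat_lit 0) (XT.lf (nat_lit 0) (nat_lit 1284177008117) (nat_lit 76) (nat_lit 135219894364) (nat_lit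 76) (nat_lit 134034567417) (nat_lit 1) (nat_lit 4) (nat_lit 2) (nat_lit 5) (nat_lit 2) (nat_lit 4) (nat_lit 330) (nat_lit 207) (nat_lit 183)) (XT.nd (nat_lit 78) (nat_lit 0) (nat_lit 0) (XT.lf (nat_lit 0) (nat_lit 1387665453284) (nat_lit 76) (nat_lit 145602995790) (nat_lit 76) (nat_lit 144401230157) (nat_lit 1) (nat_lit 4) (nat_lit 2) (nat_lit 5) (nat_lit 2) (nat_lit 4) (nat_lit 331) (nat_lit 207) (nat_lit 182)) (XT.lf (nat_lit 0) (nat_lit 1499419957768) (nat_lit 76) (nat_lit 156822300368) (nat_lit 76) (nat_lit 155605313729) (nat_lit 1) (nat_lit 4) (nat_lit 2) (nat_lit 5) (nat_lit 2) (nat_lit 4) (nat_lit 332) (nat_lit 207) (nat_lit 181))))) (XT.nd (nat_lit 35334) (nat_lit 0) (nat_lit 0) (XT.nd (nat_lit 78) (nat_lit 0) (nat_lit 0) (XT.lf (nat_lit 0) (nat_lit 1620102770483) (nat_lit 76) (nat_lit 168944292866) (nat_lit 76) (nat_lit 167713212703) (nat_lit 1) (nat_lit 4) (nat_lit 2) (nat_lit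 5) (nat_lit 2) (nat_lit 4) (nat_lit 333) (nat_lit 207) (nat_lit 180)) (XT.nd (nat_lit 35178) (nat_lit 0) (nat_lit 0) (XT.lf (nat_lit 0) (nat_lit 1750429048838) (nat_lit 76) (nat_lit 182040807312) (nat_lit 76) (nat_lit 180796677590) (nat_lit 1) (nat_lit 4) (nat_lit 2) (nat_lit 5) (nat_lit 2) (nat_lit 4) (nat_lit 334) (nat_lit 207) (nat_lit 179)) (XT.lf (nat_lit 0) (nat_lit 79566869024) (nat_lit 76) (nat_lit 12897597982) (nat_lit 76) (nat_lit 12897597982) (nat_lit 1) (nat_lit 4) (nat_lit 2) (nat_lit 5) (nat_lit 2) (nat_lit 4) (nat_lit 304) (nat_lit 208) (nat_lit 208)))) (XT.nd (nat_lit 78) (nat_lit 0) (nat_lit 0) (XT.lf (nat_lit 0) (nat_lit 173692700923) (nat_lit 76) (nat_lit 26956967020) (nat_lit 76) (nat_lit 26844387083) (nat_lit 1) (nat_lit 4) (nat_lit 2) (nat_lit 5) (nat_lit 2) (nat_lit 4) (nat_lit 305) (nat_lit 208) (nat_lit 207)) (XT.nd (nat_lit 78) (nat_lit 0) (nat_lit 0) (XT.lf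 (nat_lit 0) (nat_lit 189327239036) (nat_lit 76) (nat_lit 28249723296) (nat_lit 76) (nat_lit 28032902676) (nat_lit 1) (nat_lit 4) (nat_lit 2) (nat_lit 5) (nat_lit 2) (nat_lit 4) (nat_lit 306) (nat_lit 208) (nat_lit 206)) (XT.lf (nat_lit 0) (nat_lit 206130001504) (nat_lit 76) (nat_lit 29681125570) (nat_lit 76) (nat_lit 29367785800) (nat_lit 1) (nat_lit 4) (nat_lit 2) (nat_lit 5) (nat_lit 2) (nat_lit 4) (nat_lit 307) (nat_lit 208) (nat_lit 205)))))) (XT.nd (nat_lit 390) (nat_lit 0) (nat_lit 0) (XT.nd (nat_lit 156) (nat_lit 0) (nat_lit 0) (XT.nd (nat_lit 78) (nat_lit 0) (nat_lit 0) (XT.lf (nat_lit 0) (nat_lit 224200560252) (nat_lit 76) (nat_lit 31259656226) (nat_lit 76) (nat_lit 30856946872) (nat_lit 1) (nat_lit 4) (nat_lit 2) (nat_lit 5) (nat_lit 2) (nat_lit 4) (nat_lit 308) (nat_lit 208) (nat_lit 204)) (XT.lf (nat_lit 0) (nat_lit 243646000072) (nat_lit 76) (nat_lit 32994669520) (nat_lit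 76) (nat_lit 32509210551) (nat_lit 1) (nat_lit 4) (nat_lit 2) (nat_lit 5) (nat_lit 2) (nat_lit 4) (nat_lit 309) (nat_lit 208) (nat_lit 203))) (XT.nd (nat_lit 78) (nat_lit 0) (nat_lit 0) (XT.lf (nat_lit 0) (nat_lit 264581553202) (nat_lit 76) (nat_lit 34896447012) (nat_lit 76) (nat_lit 34334368029) (nat_lit 1) (nat_lit 4) (nat_lit 2) (nat_lit 5) (nat_lit 2) (nat_lit 4) (nat_lit 310) (nat_lit 208) (nat_lit 202)) (XT.nd (nat_lit 78) (nat_lit 0) (nat_lit 0) (XT.lf (nat_lit 0) (nat_lit 287131282178) (nat_lit 76) (nat_lit 36976258495) (nat_lit 76) (nat_lit 36343235055) (nat_lit 1) (nat_lit 4) (nat_lit 2) (nat_lit 5) (nat_lit 2) (nat_lit 4) (nat_lit 311) (nat_lit 208) (nat_lit 201)) (XT.lf (nat_lit 0) (nat_lit 311428815023) (nat_lit 76) (nat_lit 39246428777) (nat_lit 76) (nat_lit 38547716025) (nat_lit 1) (nat_lit 4) (nat_lit 2) (nat_lit 5) (nat_lit 2) (nat_lit 4) (nat_lit 312) (nat_lit 208)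 (nat_lit 200))))) (XT.nd (nat_lit 234) (nat_lit 0) (nat_lit 0) (XT.nd (nat_lit 78) (nat_lit 0) (nat_lit 0) (XT.lf (nat_lit 0) (nat_lit 337618137117) (nat_lit 76) (nat_lit 41720410719) (nat_lit 76) (nat_lit 40960874531) (nat_lit 1) (nat_lit 4) (nat_lit 2) (nat_lit 5) (nat_lit 2) (nat_lit 4) (nat_lit 313) (nat_lit 208) (nat_lit 199)) (XT.nd (nat_lit 78) (nat_lit 0) (nat_lit 0) (XT.lf (nat_lit 0) (nat_lit 365854444443) (nat_lit 76) (nat_lit 44412864956) (nat_lit 76) (nat_lit 43597010770) (nat_lit 1) (nat_lit 4) (nat_lit 2) (nat_lit 5) (nat_lit 2) (nat_lit 4) (nat_lit 314) (nat_lit 208) (nat_lit 198)) (XT.lf (nat_lit 0) (nat_lit 396305063267) (nat_lit 76) (nat_lit 47339746771) (nat_lit 76) (nat_lit 46471746291) (nat_lit 1) (nat_lit 4) (nat_lit 2) (nat_lit 5) (nat_lit 2) (nat_lit 4) (nat_lit 315) (nat_lit 208) (nat_lit 197)))) (XT.nd (nat_lit 78) (nat_lit 0) (nat_lit 0) (XT.lf (nat_lit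 0) (nat_lit 429150441700) (nat_lit 76) (nat_lit 50518400650) (nat_lit 76) (nat_lit 49602116565) (nat_lit 1) (nat_lit 4) (nat_lit 2) (nat_lit 5) (nat_lit 2) (nat_lit 4) (nat_lit 316) (nat_lit 208) (nat_lit 196)) (XT.nd (nat_lit 78) (nat_lit 0) (nat_lit 0) (XT.lf (nat_lit 0) (nat_lit 464585219023) (nat_lit 76) (nat_lit 53967663059) (nat_lit 76) (nat_lit 53006671932) (nat_lit 1) (nat_lit 4) (nat_lit 2) (nat_lit 5) (nat_lit 2) (nat_lit 4) (nat_lit 317) (nat_lit 208) (nat_lit 195)) (XT.lf (nat_lit 0) (nat_lit 502819379099) (nat_lit 76) (nat_lit 57707974072) (nat_lit 76) (nat_lit 56705587536) (nat_lit 1) (nat_lit 4) (nat_lit 2) (nat_lit 5) (nat_lit 2) (nat_lit 4) (nat_lit 318) (nat_lit 208) (nat_lit 194))))))) (XT.nd (nat_lit 858) (nat_lit 0) (nat_lit 0) (XT.nd (nat_lit 390) (nat_lit 0) (nat_lit 0) (XT.nd (nat_lit 156) (nat_lit 0) (nat_lit 0) (XT.nd (nat_lit 78) (nat_lit 0) (nat_lit 0)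 (XT.lf (nat_lit 0) (nat_lit 544079494730) (nat_lit 76) (nat_lit 61761498496) (nat_lit 76) (nat_lit 60720782877) (nat_lit 1) (nat_lit 4) (nat_lit 2) (nat_lit 5) (nat_lit 2) (nat_lit 4) (nat_lit 319) (nat_lit 208) (nat_lit 193)) (XT.lf (nat_lit 0) (nat_lit 588610070306) (nat_lit 76) (nat_lit 66152257216) (nat_lit 76) (nat_lit 65076051705) (nat_lit 1) (nat_lit 4) (nat_lit 2) (nat_lit 5) (nat_lit 2) (nat_lit 4) (nat_lit 320) (nat_lit 208) (nat_lit 192))) (XT.nd (nat_lit 78) (nat_lit 0) (nat_lit 0) (XT.lf (nat_lit 0) (nat_lit 636674990717) (nat_lit 76) (nat_lit 70906269542) (nat_lit 76) (nat_lit 69797203021) (nat_lit 1) (nat_lit 4) (nat_lit 2) (nat_lit 5) (nat_lit 2) (nat_lit 4) (nat_lit 321) (nat_lit 208) (nat_lit 191)) (XT.nd (nat_lit 78) (nat_lit 0) (nat_lit 0) (XT.lf (nat_lit 0) (nat_lit 688559085123) (nat_lit 76) (nat_lit 76051707400) (nat_lit 76) (nat_lit 74912214017) (nat_lit 1)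 (nat_lit 4) (nat_lit 2) (nat_lit 5) (nat_lit 2) (nat_lit 4) (nat_lit 322) (nat_lit 208) (nat_lit 190)) (XT.lf (nat_lit 0) (nat_lit 744569814822) (nat_lit 76) (nat_lit 81619062273) (nat_lit 76) (nat_lit 80451395870) (nat_lit 1) (nat_lit 4) (nat_lit 2) (nat_lit 5) (nat_lit 2) (nat_lit 4) (nat_lit 323) (nat_lit 208) (nat_lit 189))))) (XT.nd (nat_lit 234) (nat_lit 0) (nat_lit 0) (XT.nd (nat_lit 78) (nat_lit 0) (nat_lit 0) (XT.lf (nat_lit 0) (nat_lit 805039095252) (nat_lit 76) (nat_lit 87641325894) (nat_lit 76) (nat_lit 86447573362) (nat_lit 1) (nat_lit 4) (nat_lit 2) (nat_lit 5) (nat_lit 2) (nat_lit 4) (nat_lit 324) (nat_lit 208) (nat_lit 188)) (XT.nd (nat_lit 78) (nat_lit 0) (nat_lit 0) (XT.lf (nat_lit 0) (nat_lit 870325262887) (nat_lit 76) (nat_lit 94154185750) (nat_lit 76) (nat_lit 92936279395) (nat_lit 1) (nat_lit 4) (nat_lit 2) (nat_lit 5) (nat_lit 2) (nat_lit 4) (nat_lit 325) (nat_lit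 208) (nat_lit 187)) (XT.lf (nat_lit 0) (nat_lit 940815198723) (nat_lit 76) (nat_lit 101196236568) (nat_lit 76) (nat_lit 99955965561) (nat_lit 1) (nat_lit 4) (nat_lit 2) (nat_lit 5) (nat_lit 2) (nat_lit 4) (nat_lit 326) (nat_lit 208) (nat_lit 186)))) (XT.nd (nat_lit 78) (nat_lit 0) (nat_lit 0) (XT.lf (nat_lit 0) (nat_lit 1016926620896) (nat_lit 76) (nat_lit 108809209018) (nat_lit 76) (nat_lit 107548230000) (nat_lit 1) (nat_lit 4) (nat_lit 2) (nat_lit 5) (nat_lit 2) (nat_lit 4) (nat_lit 327) (nat_lit 208) (nat_lit 185)) (XT.nd (nat_lit 78) (nat_lit 0) (nat_lit 0) (XT.lf (nat_lit 0) (nat_lit 1099110560056) (nat_lit 76) (nat_lit 117038217012) (nat_lit 76) (nat_lit 115758063910) (nat_lit 1) (nat_lit 4) (nat_lit 2) (nat_lit 5) (nat_lit 2) (nat_lit 4) (nat_lit 328) (nat_lit 208) (nat_lit 184)) (XT.lf (nat_lit 0) (nat_lit 1187854032141) (nat_lit 76) (nat_lit 125932025040) (nat_lit 76) (nat_lit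 124634118157) (nat_lit 1) (nat_lit 4) (nat_lit 2) (nat_lit 5) (nat_lit 2) (nat_lit 4) (nat_lit 329) (nat_lit 208) (nat_lit 183)))))) (XT.nd (nat_lit 35412) (nat_lit 0) (nat_lit 0) (XT.nd (nat_lit 156) (nat_lit 0) (nat_lit 0) (XT.nd (nat_lit 78) (nat_lit 0) (nat_lit 0) (XT.lf (nat_lit 0) (nat_lit 1283682924390) (nat_lit 76) (nat_lit 135543337152) (nat_lit 76) (nat_lit 134228991582) (nat_lit 1) (nat_lit 4) (nat_lit 2) (nat_lit 5) (nat_lit 2) (nat_lit 4) (nat_lit 330) (nat_lit 208) (nat_lit 182)) (XT.lf (nat_lit 0) (nat_lit 1387165111723) (nat_lit 76) (nat_lit 145929109269) (nat_lit 76) (nat_lit 144599542693) (nat_lit 1) (nat_lit 4) (nat_lit 2) (nat_lit 5) (nat_lit 2) (nat_lit 4) (nat_lit 331) (nat_lit 208) (nat_lit 181))) (XT.nd (nat_lit 78) (nat_lit 0) (nat_lit 0) (XT.lf (nat_lit 0) (nat_lit 1498913821914) (nat_lit 76) (nat_lit 157150886709) (nat_lit 76) (nat_lit 155807226609) (nat_lit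 1) (nat_lit 4) (nat_lit 2) (nat_lit 5) (nat_lit 2) (nat_lit 4) (nat_lit 332) (nat_lit 208) (nat_lit 180)) (XT.nd (nat_lit 35100) (nat_lit 0) (nat_lit 0) (XT.lf (nat_lit 0) (nat_lit 1619591269544) (nat_lit 76) (nat_lit 169275168894) (nat_lit 76) (nat_lit 167918459234) (nat_lit 1) (nat_lit 4) (nat_lit 2) (nat_lit 5) (nat_lit 2) (nat_lit 4) (nat_lit 333) (nat_lit 208) (nat_lit 179)) (XT.lf (nat_lit 0) (nat_lit 66476643585) (nat_lit 76) (nat_lit 11969029669) (nat_lit 76) (nat_lit 11969029669) (nat_lit 1) (nat_lit 4) (nat_lit 2) (nat_lit 5) (nat_lit 2) (nat_lit 4) (nat_lit 302) (nat_lit 209) (nat_lit 209))))) (XT.nd (nat_lit 234) (nat_lit 0) (nat_lit 0) (XT.nd (nat_lit 78) (nat_lit 0) (nat_lit 0) (XT.lf (nat_lit 0) (nat_lit 145564075080) (nat_lit 76) (nat_lit 24879111893) (nat_lit 76) (nat_lit 24757525561) (nat_lit 1) (nat_lit 4) (nat_lit 2) (nat_lit 5) (nat_lit 2) (nat_lit 4) (nat_lit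 303) (nat_lit 209) (nat_lit 208)) (XT.nd (nat_lit 78) (nat_lit 0) (nat_lit 0) (XT.lf (nat_lit 0) (nat_lit 159087452889) (nat_lit 76) (nat_lit 25936535672) (nat_lit 76) (nat_lit 25702369402) (nat_lit 1) (nat_lit 4) (nat_lit 2) (nat_lit 5) (nat_lit 2) (nat_lit 4) (nat_lit 304) (nat_lit 209) (nat_lit 207)) (XT.lf (nat_lit 0) (nat_lit 173603559132) (nat_lit 76) (nat_lit 27116596888) (nat_lit 76) (nat_lit 26778189937) (nat_lit 1) (nat_lit 4) (nat_lit 2) (nat_lit 5) (nat_lit 2) (nat_lit 4) (nat_lit 305) (nat_lit 209) (nat_lit 206)))) (XT.nd (nat_lit 78) (nat_lit 0) (nat_lit 0) (XT.lf (nat_lit 0) (nat_lit 189198415181) (nat_lit 76) (nat_lit 28426288499) (nat_lit 76) (nat_lit 27991362396) (nat_lit 1) (nat_lit 4) (nat_lit 2) (nat_lit 5) (nat_lit 2) (nat_lit 4) (nat_lit 306) (nat_lit 209) (nat_lit 205)) (XT.nd (nat_lit 78) (nat_lit 0) (nat_lit 0) (XT.lf (nat_lit 0) (nat_lit 205964434996) (nat_lit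 76) (nat_lit 29873371638) (nat_lit 76) (nat_lit 29349075952) (nat_lit 1) (nat_lit 4) (nat_lit 2) (nat_lit 5) (nat_lit 2) (nat_lit 4) (nat_lit 307) (nat_lit 209) (nat_lit 204)) (XT.lf (nat_lit 0) (nat_lit 224000972770) (nat_lit 76) (nat_lit 31466421614) (nat_lit 76) (nat_lit 30859376313) (nat_lit 1) (nat_lit 4) (nat_lit 2) (nat_lit 5) (nat_lit 2) (nat_lit 4) (nat_lit 308) (nat_lit 209) (nat_lit 203))))))))
noncomputable def xc6 : XT := (XT.nd (nat_lit 1716) (nat_lit 0) (nat_lit 0) (XT.nd (nat_lit 858) (nat_lit 0) (nat_lit 0) (XT.nd (nat_lit 390) (nat_lit 0) (nat_lit 0) (XT.nd (nat_lit 156) (nat_lit 0) (nat_lit 0) (XT.nd (nat_lit 78) (nat_lit 0) (nat_lit 0) (XT.lf (nat_lit 0) (nat_lit 243414911688) (nat_lit 76) (nat_lit 33214878723) (nat_lit 76) (nat_lit 32531213408) (nat_lit 1) (nat_lit 4) (nat_lit 2) (nat_lit 5) (nat_lit 2) (nat_lit 4) (nat_lit 309) (nat_lit 209) (nat_lit 202)) (XT.lf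 (nat_lit 0) (nat_lit 264321297316) (nat_lit 76) (nat_lit 35129104191) (nat_lit 76) (nat_lit 34374494420) (nat_lit 1) (nat_lit 4) (nat_lit 2) (nat_lit 5) (nat_lit 2) (nat_lit 4) (nat_lit 310) (nat_lit 209) (nat_lit 201))) (XT.nd (nat_lit 78) (nat_lit 0) (nat_lit 0) (XT.lf (nat_lit 0) (nat_lit 286844019345) (nat_lit 76) (nat_lit 37220441578) (nat_lit 76) (nat_lit 36400142495) (nat_lit 1) (nat_lit 4) (nat_lit 2) (nat_lit 5) (nat_lit 2) (nat_lit 4) (nat_lit 311) (nat_lit 209) (nat_lit 200)) (XT.nd (nat_lit 78) (nat_lit 0) (nat_lit 0) (XT.lf (nat_lit 0) (nat_lit 311116545758) (nat_lit 76) (nat_lit 39501283994) (nat_lit 76) (nat_lit 38620161473) (nat_lit 1) (nat_lit 4) (nat_lit 2) (nat_lit 5) (nat_lit 2) (nat_lit 4) (nat_lit 312) (nat_lit 209) (nat_lit 199)) (XT.lf (nat_lit 0) (nat_lit 337282713749) (nat_lit 76) (nat_lit 41985147542) (nat_lit 76) (nat_lit 41047707024) (nat_lit 1) (nat_lit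 4) (nat_lit 2) (nat_lit 5) (nat_lit 2) (nat_lit 4) (nat_lit 313) (nat_lit 209) (nat_lit 198))))) (XT.nd (nat_lit 234) (nat_lit 0) (nat_lit 0) (XT.nd (nat_lit 78) (nat_lit 0) (nat_lit 0) (XT.lf (nat_lit 0) (nat_lit 365497582090) (nat_lit 76) (nat_lit 44686751413) (nat_lit 76) (nat_lit 43697164601) (nat_lit 1) (nat_lit 4) (nat_lit 2) (nat_lit 5) (nat_lit 2) (nat_lit 4) (nat_lit 314) (nat_lit 209) (nat_lit 197)) (XT.nd (nat_lit 78) (nat_lit 0) (nat_lit 0) (XT.lf (nat_lit 0) (nat_lit 395928350002) (nat_lit 76) (nat_lit 47622105112) (nat_lit 76) (nat_lit 46584234695) (nat_lit 1) (nat_lit 4) (nat_lit 2) (nat_lit 5) (nat_lit 2) (nat_lit 4) (nat_lit 315) (nat_lit 209) (nat_lit 196)) (XT.lf (nat_lit 0) (nat_lit 428755347962) (nat_lit 76) (nat_lit 50808603327) (nat_lit 76) (nat_lit 49726025868) (nat_lit 1) (nat_lit 4) (nat_lit 2) (nat_lit 5) (nat_lit 2) (nat_lit 4) (nat_lit 316) (nat_lit 209)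 (nat_lit 195)))) (XT.nd (nat_lit 78) (nat_lit 0) (nat_lit 0) (XT.lf (nat_lit 0) (nat_lit 464173106326) (nat_lit 76) (nat_lit 54265129011) (nat_lit 76) (nat_lit 53141156142) (nat_lit 1) (nat_lit 4) (nat_lit 2) (nat_lit 5) (nat_lit 2) (nat_lit 4) (nat_lit 317) (nat_lit 209) (nat_lit 194)) (XT.nd (nat_lit 78) (nat_lit 0) (nat_lit 0) (XT.lf (nat_lit 0) (nat_lit 502391508109) (nat_lit 76) (nat_lit 58012165279) (nat_lit 76) (nat_lit 56849863328) (nat_lit 1) (nat_lit 4) (nat_lit 2) (nat_lit 5) (nat_lit 2) (nat_lit 4) (nat_lit 318) (nat_lit 209) (nat_lit 193)) (XT.lf (nat_lit 0) (nat_lit 543637032728) (nat_lit 76) (nat_lit 62071916790) (nat_lit 76) (nat_lit 60874124948) (nat_lit 1) (nat_lit 4) (nat_lit 2) (nat_lit 5) (nat_lit 2) (nat_lit 4) (nat_lit 319) (nat_lit 209) (nat_lit 192)))))) (XT.nd (nat_lit 390) (nat_lit 0) (nat_lit 0) (XT.nd (nat_lit 156) (nat_lit 0) (nat_lit 0) (XT.nd (nat_lit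 78) (nat_lit 0) (nat_lit 0) (XT.lf (nat_lit 0) (nat_lit 588154098106) (nat_lit 76) (nat_lit 66468441331) (nat_lit 76) (nat_lit 65237788478) (nat_lit 1) (nat_lit 4) (nat_lit 2) (nat_lit 5) (nat_lit 2) (nat_lit 4) (nat_lit 320) (nat_lit 209) (nat_lit 191)) (XT.lf (nat_lit 0) (nat_lit 636206509075) (nat_lit 76) (nat_lit 71227792381) (nat_lit 76) (nat_lit 69966712667) (nat_lit 1) (nat_lit 4) (nat_lit 2) (nat_lit 5) (nat_lit 2) (nat_lit 4) (nat_lit 321) (nat_lit 209) (nat_lit 190))) (XT.nd (nat_lit 78) (nat_lit 0) (nat_lit 0) (XT.lf (nat_lit 0) (nat_lit 688079020665) (nat_lit 76) (nat_lit 76378173502) (nat_lit 76) (nat_lit 75088920768) (nat_lit 1) (nat_lit 4) (nat_lit 2) (nat_lit 5) (nat_lit 2) (nat_lit 4) (nat_lit 322) (nat_lit 209) (nat_lit 189)) (XT.nd (nat_lit 78) (nat_lit 0) (nat_lit 0) (XT.lf (nat_lit 0) (nat_lit 744079025534) (nat_lit 76) (nat_lit 81950105470) (nat_lit 76) (nat_lit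 80634766606) (nat_lit 1) (nat_lit 4) (nat_lit 2) (nat_lit 5) (nat_lit 2) (nat_lit 4) (nat_lit 323) (nat_lit 209) (nat_lit 188)) (XT.lf (nat_lit 0) (nat_lit 804538375566) (nat_lit 76) (nat_lit 87976607142) (nat_lit 76) (nat_lit 86637114454) (nat_lit 1) (nat_lit 4) (nat_lit 2) (nat_lit 5) (nat_lit 2) (nat_lit 4) (nat_lit 324) (nat_lit 209) (nat_lit 187))))) (XT.nd (nat_lit 234) (nat_lit 0) (nat_lit 0) (XT.nd (nat_lit 78) (nat_lit 0) (nat_lit 0) (XT.lf (nat_lit 0) (nat_lit 869815348388) (nat_lit 76) (nat_lit 94493391120) (nat_lit 76) (nat_lit 93131533781) (nat_lit 1) (nat_lit 4) (nat_lit 2) (nat_lit 5) (nat_lit 2) (nat_lit 4) (nat_lit 325) (nat_lit 209) (nat_lit 186)) (XT.nd (nat_lit 78) (nat_lit 0) (nat_lit 0) (XT.lf (nat_lit 0) (nat_lit 940296770507) (nat_lit 76) (nat_lit 101539075384) (nat_lit 76) (nat_lit 100156510033) (nat_lit 1) (nat_lit 4) (nat_lit 2) (nat_lit 5) (nat_lit 2) (nat_lit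 4) (nat_lit 326) (nat_lit 209) (nat_lit 185)) (XT.lf (nat_lit 0) (nat_lit 1016400309610) (nat_lit 76) (nat_lit 109155412135) (nat_lit 76) (nat_lit 107753672701) (nat_lit 1) (nat_lit 4) (nat_lit 2) (nat_lit 5) (nat_lit 2) (nat_lit 4) (nat_lit 327) (nat_lit 209) (nat_lit 184)))) (XT.nd (nat_lit 78) (nat_lit 0) (nat_lit 0) (XT.lf (nat_lit 0) (nat_lit 1098576949632) (nat_lit 76) (nat_lit 117387535223) (nat_lit 76) (nat_lit 115968042007) (nat_lit 1) (nat_lit 4) (nat_lit 2) (nat_lit 5) (nat_lit 2) (nat_lit 4) (nat_lit 328) (nat_lit 209) (nat_lit 183)) (XT.nd (nat_lit 78) (nat_lit 0) (nat_lit 0) (XT.lf (nat_lit 0) (nat_lit 1187313663254) (nat_lit 76) (nat_lit 126284227598) (nat_lit 76) (nat_lit 124848295696) (nat_lit 1) (nat_lit 4) (nat_lit 2) (nat_lit 5) (nat_lit 2) (nat_lit 4) (nat_lit 329) (nat_lit 209) (nat_lit 182)) (XT.lf (nat_lit 0) (nat_lit 1283136297668) (nat_lit 76) (nat_lit 135898210400)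 (nat_lit 76) (nat_lit 134447057492) (nat_lit 1) (nat_lit 4) (nat_lit 2) (nat_lit 5) (nat_lit 2) (nat_lit 4) (nat_lit 330) (nat_lit 209) (nat_lit 181))))))) (XT.nd (nat_lit 35724) (nat_lit 0) (nat_lit 0) (XT.nd (nat_lit 35256) (nat_lit 0) (nat_lit 0) (XT.nd (nat_lit 156) (nat_lit 0) (nat_lit 0) (XT.nd (nat_lit 78) (nat_lit 0) (nat_lit 0) (XT.lf (nat_lit 0) (nat_lit 1386612690709) (nat_lit 76) (nat_lit 146286455380) (nat_lit 76) (nat_lit 144821208948) (nat_lit 1) (nat_lit 4) (nat_lit 2) (nat_lit 5) (nat_lit 2) (nat_lit 4) (nat_lit 331) (nat_lit 209) (nat_lit 180)) (XT.lf (nat_lit 0) (nat_lit 1498356035815) (nat_lit 76) (nat_lit 157510522507) (nat_lit 76) (nat_lit 156032226515) (nat_lit 1) (nat_lit 4) (nat_lit 2) (nat_lit 5) (nat_lit 2) (nat_lit 4) (nat_lit 332) (nat_lit 209) (nat_lit 179))) (XT.nd (nat_lit 34944) (nat_lit 0) (nat_lit 0) (XT.lf (nat_lit 0) (nat_lit 1619028515774) (nat_lit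 76) (nat_lit 169636924773) (nat_lit 76) (nat_lit 168146545855) (nat_lit 1) (nat_lit 4) (nat_lit 2) (nat_lit 5) (nat_lit 2) (nat_lit 4) (nat_lit 333) (nat_lit 209) (nat_lit 178)) (XT.nd (nat_lit 78) (nat_lit 0) (nat_lit 0) (XT.lf (nat_lit 0) (nat_lit 55114755386) (nat_lit 76) (nat_lit 11245845464) (nat_lit 76) (nat_lit 11245845464) (nat_lit 1) (nat_lit 4) (nat_lit 2) (nat_lit 5) (nat_lit 2) (nat_lit 4) (nat_lit 300) (nat_lit 210) (nat_lit 210)) (XT.lf (nat_lit 0) (nat_lit 121180358565) (nat_lit 76) (nat_lit 23239114637) (nat_lit 76) (nat_lit 23107801398) (nat_lit 1) (nat_lit 4) (nat_lit 2) (nat_lit 5) (nat_lit 2) (nat_lit 4) (nat_lit 301) (nat_lit 210) (nat_lit 209))))) (XT.nd (nat_lit 234) (nat_lit 0) (nat_lit 0) (XT.nd (nat_lit 78) (nat_lit 0) (nat_lit 0) (XT.lf (nat_lit 0) (nat_lit 132903299197) (nat_lit 76) (nat_lit 24090706221) (nat_lit 76) (nat_lit 23837806650) (nat_lit 1) (nat_lit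 4) (nat_lit 2) (nat_lit 5) (nat_lit 2) (nat_lit 4) (nat_lit 302) (nat_lit 210) (nat_lit 208)) (XT.nd (nat_lit 78) (nat_lit 0) (nat_lit 0) (XT.lf (nat_lit 0) (nat_lit 145467801947) (nat_lit 76) (nat_lit 25051512151) (nat_lit 76) (nat_lit 24686032643) (nat_lit 1) (nat_lit 4) (nat_lit 2) (nat_lit 5) (nat_lit 2) (nat_lit 4) (nat_lit 303) (nat_lit 210) (nat_lit 207)) (XT.lf (nat_lit 0) (nat_lit 158948323126) (nat_lit 76) (nat_lit 26127226091) (nat_lit 76) (nat_lit 25657505900) (nat_lit 1) (nat_lit 4) (nat_lit 2) (nat_lit 5) (nat_lit 2) (nat_lit 4) (nat_lit 304) (nat_lit 210) (nat_lit 206)))) (XT.nd (nat_lit 78) (nat_lit 0) (nat_lit 0) (XT.lf (nat_lit 0) (nat_lit 173424747305) (nat_lit 76) (nat_lit 27324222642) (nat_lit 76) (nat_lit 26757983301) (nat_lit 1) (nat_lit 4) (nat_lit 2) (nat_lit 5) (nat_lit 2) (nat_lit 4) (nat_lit 305) (nat_lit 210) (nat_lit 205)) (XT.nd (nat_lit 78) (nat_lit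 0) (nat_lit 0) (XT.lf (nat_lit 0) (nat_lit 188982860701) (nat_lit 76) (nat_lit 28649595118) (nat_lit 76) (nat_lit 27993986193) (nat_lit 1) (nat_lit 4) (nat_lit 2) (nat_lit 5) (nat_lit 2) (nat_lit 4) (nat_lit 306) (nat_lit 210) (nat_lit 204)) (XT.lf (nat_lit 0) (nat_lit 205714859541) (nat_lit 76) (nat_lit 30111197577) (nat_lit 76) (nat_lit 29372839038) (nat_lit 1) (nat_lit 4) (nat_lit 2) (nat_lit 5) (nat_lit 2) (nat_lit 4) (nat_lit 307) (nat_lit 210) (nat_lit 203)))))) (XT.nd (nat_lit 390) (nat_lit 0) (nat_lit 0) (XT.nd (nat_lit 156) (nat_lit 0) (nat_lit 0) (XT.nd (nat_lit 78) (nat_lit 0) (nat_lit 0) (XT.lf (nat_lit 0) (nat_lit 223719896413) (nat_lit 76) (nat_lit 31717691368) (nat_lit 76) (nat_lit 30902712815) (nat_lit 1) (nat_lit 4) (nat_lit 2) (nat_lit 5) (nat_lit 2) (nat_lit 4) (nat_lit 308) (nat_lit 210) (nat_lit 202)) (XT.lf (nat_lit 0) (nat_lit 243104667829) (nat_lit 76) (nat_lit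 33478596453) (nat_lit 76) (nat_lit 32592673443) (nat_lit 1) (nat_lit 4) (nat_lit 2) (nat_lit 5) (nat_lit 2) (nat_lit 4) (nat_lit 309) (nat_lit 210) (nat_lit 201))) (XT.nd (nat_lit 78) (nat_lit 0) (nat_lit 0) (XT.lf (nat_lit 0) (nat_lit 263984046510) (nat_lit 76) (nat_lit 35404347826) (nat_lit 76) (nat_lit 34452735504) (nat_lit 1) (nat_lit 4) (nat_lit 2) (nat_lit 5) (nat_lit 2) (nat_lit 4) (nat_lit 310) (nat_lit 210) (nat_lit 200)) (XT.nd (nat_lit 78) (nat_lit 0) (nat_lit 0) (XT.lf (nat_lit 0) (nat_lit 286481762107) (nat_lit 76) (nat_lit 37506357347) (nat_lit 76) (nat_lit 36493921587) (nat_lit 1) (nat_lit 4) (nat_lit 2) (nat_lit 5) (nat_lit 2) (nat_lit 4) (nat_lit 311) (nat_lit 210) (nat_lit 199)) (XT.lf (nat_lit 0) (nat_lit 310731134417) (nat_lit 76) (nat_lit 39797081368) (nat_lit 76) (nat_lit 38728327611) (nat_lit 1) (nat_lit 4) (nat_lit 2) (nat_lit 5) (nat_lit 2) (nat_lit 4) (nat_lit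 312) (nat_lit 210) (nat_lit 198))))) (XT.nd (nat_lit 234) (nat_lit 0) (nat_lit 0) (XT.nd (nat_lit 78) (nat_lit 0) (nat_lit 0) (XT.lf (nat_lit 0) (nat_lit 336875863423) (nat_lit 76) (nat_lit 42290094550) (nat_lit 76) (nat_lit 41169194499) (nat_lit 1) (nat_lit 4) (nat_lit 2) (nat_lit 5) (nat_lit 2) (nat_lit 4) (nat_lit 313) (nat_lit 210) (nat_lit 197)) (XT.nd (nat_lit 78) (nat_lit 0) (nat_lit 0) (XT.lf (nat_lit 0) (nat_lit 365070880852) (nat_lit 76) (nat_lit 45000170304) (nat_lit 76) (nat_lit 43830986648) (nat_lit 1) (nat_lit 4) (nat_lit 2) (nat_lit 5) (nat_lit 2) (nat_lit 4) (nat_lit 314) (nat_lit 210) (nat_lit 196)) (XT.lf (nat_lit 0) (nat_lit 395483268290) (nat_lit 76) (nat_lit 47943368340) (nat_lit 76) (nat_lit 46729477642) (nat_lit 1) (nat_lit 4) (nat_lit 2) (nat_lit 5) (nat_lit 2) (nat_lit 4) (nat_lit 315) (nat_lit 210) (nat_lit 195)))) (XT.nd (nat_lit 78) (nat_lit 0) (nat_lit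 0) (XT.lf (nat_lit 0) (nat_lit 428293247292) (nat_lit 76) (nat_lit 51137129830) (nat_lit 76) (nat_lit 49881843723) (nat_lit 1) (nat_lit 4) (nat_lit 2) (nat_lit 5) (nat_lit 2) (nat_lit 4) (nat_lit 316) (nat_lit 210) (nat_lit 194)) (XT.nd (nat_lit 78) (nat_lit 0) (nat_lit 0) (XT.lf (nat_lit 0) (nat_lit 463695247363) (nat_lit 76) (nat_lit 54600380769) (nat_lit 76) (nat_lit 53306765579) (nat_lit 1) (nat_lit 4) (nat_lit 2) (nat_lit 5) (nat_lit 2) (nat_lit 4) (nat_lit 317) (nat_lit 210) (nat_lit 193)) (XT.lf (nat_lit 0) (nat_lit 501899058133) (nat_lit 76) (nat_lit 58353644124) (nat_lit 76) (nat_lit 57024539043) (nat_lit 1) (nat_lit 4) (nat_lit 2) (nat_lit 5) (nat_lit 2) (nat_lit 4) (nat_lit 318) (nat_lit 210) (nat_lit 192))))))))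
noncomputable def xc7 : XT := (XT.nd (nat_lit 36426) (nat_lit 0) (nat_lit 0) (XT.nd (nat_lit 858) (nat_lit 0) (nat_lit 0) (XT.nd (nat_lit 390) (nat_lit 0) (nat_lit 0) (XT.nd (nat_lit 156) (nat_lit 0) (nat_lit 0) (XT.nd (nat_lit 78) (nat_lit 0) (nat_lit 0) (XT.lf (nat_lit 0) (nat_lit 543131072555) (nat_lit 76) (nat_lit 62419161457) (nat_lit 76) (nat_lit 61057195365) (nat_lit 1) (nat_lit 4) (nat_lit 2) (nat_lit 5) (nat_lit 2) (nat_lit 4) (nat_lit 319) (nat_lit 210) (nat_lit 191)) (XT.lf (nat_lit 0) (nat_lit 587635628491) (nat_lit 76) (nat_lit 66821024722) (nat_lit 76) (nat_lit 65428631769) (nat_lit 1) (nat_lit 4) (nat_lit 2) (nat_lit 5) (nat_lit 2) (nat_lit 4) (nat_lit 320) (nat_lit 210) (nat_lit 190))) (XT.nd (nat_lit 78) (nat_lit 0) (nat_lit 0) (XT.lf (nat_lit 0) (nat_lit 635676456644) (nat_lit 76) (nat_lit 71585319035) (nat_lit 76) (nat_lit 70164753061) (nat_lit 1) (nat_lit 4) (nat_lit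 2) (nat_lit 5) (nat_lit 2) (nat_lit 4) (nat_lit 321) (nat_lit 210) (nat_lit 189)) (XT.nd (nat_lit 78) (nat_lit 0) (nat_lit 0) (XT.lf (nat_lit 0) (nat_lit 687538243403) (nat_lit 76) (nat_lit 76740277250) (nat_lit 76) (nat_lit 75293625148) (nat_lit 1) (nat_lit 4) (nat_lit 2) (nat_lit 5) (nat_lit 2) (nat_lit 4) (nat_lit 322) (nat_lit 210) (nat_lit 188)) (XT.lf (nat_lit 0) (nat_lit 743528317875) (nat_lit 76) (nat_lit 82316447270) (nat_lit 76) (nat_lit 80845641343) (nat_lit 1) (nat_lit 4) (nat_lit 2) (nat_lit 5) (nat_lit 2) (nat_lit 4) (nat_lit 323) (nat_lit 210) (nat_lit 187))))) (XT.nd (nat_lit 234) (nat_lit 0) (nat_lit 0) (XT.nd (nat_lit 78) (nat_lit 0) (nat_lit 0) (XT.lf (nat_lit 0) (nat_lit 803978473093) (nat_lit 76) (nat_lit 88346873063) (nat_lit 76) (nat_lit 86853702485) (nat_lit 1) (nat_lit 4) (nat_lit 2) (nat_lit 5) (nat_lit 2) (nat_lit 4) (nat_lit 324) (nat_lit 210) (nat_lit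 186)) (XT.nd (nat_lit 78) (nat_lit 0) (nat_lit 0) (XT.lf (nat_lit 0) (nat_lit 869246932200) (nat_lit 76) (nat_lit 94867290487) (nat_lit 76) (nat_lit 93353411898) (nat_lit 1) (nat_lit 4) (nat_lit 2) (nat_lit 5) (nat_lit 2) (nat_lit 4) (nat_lit 325) (nat_lit 210) (nat_lit 185)) (XT.lf (nat_lit 0) (nat_lit 939720471249) (nat_lit 76) (nat_lit 101916339052) (nat_lit 76) (nat_lit 100383286379) (nat_lit 1) (nat_lit 4) (nat_lit 2) (nat_lit 5) (nat_lit 2) (nat_lit 4) (nat_lit 326) (nat_lit 210) (nat_lit 184)))) (XT.nd (nat_lit 78) (nat_lit 0) (nat_lit 0) (XT.lf (nat_lit 0) (nat_lit 1015816711212) (nat_lit 76) (nat_lit 109535790898) (nat_lit 76) (nat_lit 107984984443) (nat_lit 1) (nat_lit 4) (nat_lit 2) (nat_lit 5) (nat_lit 2) (nat_lit 4) (nat_lit 327) (nat_lit 210) (nat_lit 183)) (XT.nd (nat_lit 78) (nat_lit 0) (nat_lit 0) (XT.lf (nat_lit 0) (nat_lit 1097986592772) (nat_lit 76) (nat_lit 117770798332)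 (nat_lit 76) (nat_lit 116203553190) (nat_lit 1) (nat_lit 4) (nat_lit 2) (nat_lit 5) (nat_lit 2) (nat_lit 4) (nat_lit 328) (nat_lit 210) (nat_lit 182)) (XT.lf (nat_lit 0) (nat_lit 1186717048559) (nat_lit 76) (nat_lit 126670161398) (nat_lit 76) (nat_lit 125087695250) (nat_lit 1) (nat_lit 4) (nat_lit 2) (nat_lit 5) (nat_lit 2) (nat_lit 4) (nat_lit 329) (nat_lit 210) (nat_lit 181)))))) (XT.nd (nat_lit 35100) (nat_lit 0) (nat_lit 0) (XT.nd (nat_lit 156) (nat_lit 0) (nat_lit 0) (XT.nd (nat_lit 78) (nat_lit 0) (nat_lit 0) (XT.lf (nat_lit 0) (nat_lit 1282533888681) (nat_lit 76) (nat_lit 136286617062) (nat_lit 76) (nat_lit 134690057391) (nat_lit 1) (nat_lit 4) (nat_lit 2) (nat_lit 5) (nat_lit 2) (nat_lit 4) (nat_lit 330) (nat_lit 210) (nat_lit 180)) (XT.lf (nat_lit 0) (nat_lit 1386004916637) (nat_lit 76) (nat_lit 146677151729) (nat_lit 76) (nat_lit 145067542498) (nat_lit 1) (nat_lit 4) (nat_lit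 2) (nat_lit 5) (nat_lit 2) (nat_lit 4) (nat_lit 331) (nat_lit 210) (nat_lit 179))) (XT.nd (nat_lit 78) (nat_lit 0) (nat_lit 0) (XT.lf (nat_lit 0) (nat_lit 1497743294072) (nat_lit 76) (nat_lit 157903338937) (nat_lit 76) (nat_lit 156281646781) (nat_lit 1) (nat_lit 4) (nat_lit 2) (nat_lit 5) (nat_lit 2) (nat_lit 4) (nat_lit 332) (nat_lit 210) (nat_lit 178)) (XT.nd (nat_lit 34788) (nat_lit 0) (nat_lit 0) (XT.lf (nat_lit 0) (nat_lit 1618411174335) (nat_lit 76) (nat_lit 170031704240) (nat_lit 76) (nat_lit 168398824190) (nat_lit 1) (nat_lit 4) (nat_lit 2) (nat_lit 5) (nat_lit 2) (nat_lit 4) (nat_lit 333) (nat_lit 210) (nat_lit 177)) (XT.lf (nat_lit 0) (nat_lit 45223507417) (nat_lit 76) (nat_lit 10704578107) (nat_lit 76) (nat_lit 10704578107) (nat_lit 1) (nat_lit 4) (nat_lit 2) (nat_lit 5) (nat_lit 2) (nat_lit 4) (nat_lit 298) (nat_lit 211) (nat_lit 211))))) (XT.nd (nat_lit 234) (nat_lit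 0) (nat_lit 0) (XT.nd (nat_lit 78) (nat_lit 0) (nat_lit 0) (XT.lf (nat_lit 0) (nat_lit 99985861907) (nat_lit 76) (nat_lit 21985824219) (nat_lit 76) (nat_lit 21844005921) (nat_lit 1) (nat_lit 4) (nat_lit 2) (nat_lit 5) (nat_lit 2) (nat_lit 4) (nat_lit 299) (nat_lit 211) (nat_lit 210)) (XT.nd (nat_lit 78) (nat_lit 0) (nat_lit 0) (XT.lf (nat_lit 0) (nat_lit 110175523762) (nat_lit 76) (nat_lit 22656549563) (nat_lit 76) (nat_lit 22383418027) (nat_lit 1) (nat_lit 4) (nat_lit 2) (nat_lit 5) (nat_lit 2) (nat_lit 4) (nat_lit 300) (nat_lit 211) (nat_lit 209)) (XT.lf (nat_lit 0) (nat_lit 121076383581) (nat_lit 76) (nat_lit 23425306915) (nat_lit 76) (nat_lit 23030589046) (nat_lit 1) (nat_lit 4) (nat_lit 2) (nat_lit 5) (nat_lit 2) (nat_lit 4) (nat_lit 301) (nat_lit 211) (nat_lit 208)))) (XT.nd (nat_lit 78) (nat_lit 0) (nat_lit 0) (XT.lf (nat_lit 0) (nat_lit 132753039053) (nat_lit 76) (nat_lit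 24296651874) (nat_lit 76) (nat_lit 23789354068) (nat_lit 1) (nat_lit 4) (nat_lit 2) (nat_lit 5) (nat_lit 2) (nat_lit 4) (nat_lit 302) (nat_lit 211) (nat_lit 207)) (XT.nd (nat_lit 78) (nat_lit 0) (nat_lit 0) (XT.lf (nat_lit 0) (nat_lit 145274685173) (nat_lit 76) (nat_lit 25275747965) (nat_lit 76) (nat_lit 24664209476) (nat_lit 1) (nat_lit 4) (nat_lit 2) (nat_lit 5) (nat_lit 2) (nat_lit 4) (nat_lit 303) (nat_lit 211) (nat_lit 206)) (XT.lf (nat_lit 0) (nat_lit 158715524287) (nat_lit 76) (nat_lit 26368397240) (nat_lit 76) (nat_lit 25660339600) (nat_lit 1) (nat_lit 4) (nat_lit 2) (nat_lit 5) (nat_lit 2) (nat_lit 4) (nat_lit 304) (nat_lit 211) (nat_lit 205))))))) (XT.nd (nat_lit 858) (nat_lit 0) (nat_lit 0) (XT.nd (nat_lit 390) (nat_lit 0) (nat_lit 0) (XT.nd (nat_lit 156) (nat_lit 0) (nat_lit 0) (XT.nd (nat_lit 78) (nat_lit 0) (nat_lit 0) (XT.lf (nat_lit 0) (nat_lit 173155205813) (nat_lit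 76) (nat_lit 27581074657) (nat_lit 76) (nat_lit 26783647434) (nat_lit 1) (nat_lit 4) (nat_lit 2) (nat_lit 5) (nat_lit 2) (nat_lit 4) (nat_lit 305) (nat_lit 211) (nat_lit 204)) (XT.lf (nat_lit 0) (nat_lit 188679298235) (nat_lit 76) (nat_lit 28920966452) (nat_lit 76) (nat_lit 28040789615) (nat_lit 1) (nat_lit 4) (nat_lit 2) (nat_lit 5) (nat_lit 2) (nat_lit 4) (nat_lit 306) (nat_lit 211) (nat_lit 203))) (XT.nd (nat_lit 78) (nat_lit 0) (nat_lit 0) (XT.lf (nat_lit 0) (nat_lit 205379796173) (nat_lit 76) (nat_lit 30396012726) (nat_lit 76) (nat_lit 29439215875) (nat_lit 1) (nat_lit 4) (nat_lit 2) (nat_lit 5) (nat_lit 2) (nat_lit 4) (nat_lit 307) (nat_lit 211) (nat_lit 202)) (XT.nd (nat_lit 78) (nat_lit 0) (nat_lit 0) (XT.lf (nat_lit 0) (nat_lit 223355665542) (nat_lit 76) (nat_lit 32014954494) (nat_lit 76) (nat_lit 30987213185) (nat_lit 1) (nat_lit 4) (nat_lit 2) (nat_lit 5) (nat_lit 2) (nat_lit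 4) (nat_lit 308) (nat_lit 211) (nat_lit 201)) (XT.lf (nat_lit 0) (nat_lit 242713430012) (nat_lit 76) (nat_lit 33787385483) (nat_lit 76) (nat_lit 32693954863) (nat_lit 1) (nat_lit 4) (nat_lit 2) (nat_lit 5) (nat_lit 2) (nat_lit 4) (nat_lit 309) (nat_lit 211) (nat_lit 200))))) (XT.nd (nat_lit 234) (nat_lit 0) (nat_lit 0) (XT.nd (nat_lit 78) (nat_lit 0) (nat_lit 0) (XT.lf (nat_lit 0) (nat_lit 263567802262) (nat_lit 76) (nat_lit 35723808989) (nat_lit 76) (nat_lit 34569554932) (nat_lit 1) (nat_lit 4) (nat_lit 2) (nat_lit 5) (nat_lit 2) (nat_lit 4) (nat_lit 310) (nat_lit 211) (nat_lit 199)) (XT.nd (nat_lit 78) (nat_lit 0) (nat_lit 0) (XT.lf (nat_lit 0) (nat_lit 286042363755) (nat_lit 76) (nat_lit 37835700115) (nat_lit 76) (nat_lit 36625128060) (nat_lit 1) (nat_lit 4) (nat_lit 2) (nat_lit 5) (nat_lit 2) (nat_lit 4) (nat_lit 311) (nat_lit 211) (nat_lit 198)) (XT.lf (nat_lit 0) (nat_lit 310270297080)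 (nat_lit 76) (nat_lit 40135573770) (nat_lit 76) (nat_lit 38872855422) (nat_lit 1) (nat_lit 4) (nat_lit 2) (nat_lit 5) (nat_lit 2) (nat_lit 4) (nat_lit 312) (nat_lit 211) (nat_lit 197)))) (XT.nd (nat_lit 78) (nat_lit 0) (nat_lit 0) (XT.lf (nat_lit 0) (nat_lit 336395175174) (nat_lit 76) (nat_lit 42637058836) (nat_lit 76) (nat_lit 41326056882) (nat_lit 1) (nat_lit 4) (nat_lit 2) (nat_lit 5) (nat_lit 2) (nat_lit 4) (nat_lit 313) (nat_lit 211) (nat_lit 196)) (XT.nd (nat_lit 78) (nat_lit 0) (nat_lit 0) (XT.lf (nat_lit 0) (nat_lit 364571812129) (nat_lit 76) (nat_lit 45354978928) (nat_lit 76) (nat_lit 43999269932) (nat_lit 1) (nat_lit 4) (nat_lit 2) (nat_lit 5) (nat_lit 2) (nat_lit 4) (nat_lit 314) (nat_lit 211) (nat_lit 195)) (XT.lf (nat_lit 0) (nat_lit 394967180610) (nat_lit 76) (nat_lit 48305440238) (nat_lit 76) (nat_lit 46908335833) (nat_lit 1) (nat_lit 4) (nat_lit 2) (nat_lit 5) (nat_lit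 2) (nat_lit 4) (nat_lit 315) (nat_lit 211) (nat_lit 194)))))) (XT.nd (nat_lit 390) (nat_lit 0) (nat_lit 0) (XT.nd (nat_lit 156) (nat_lit 0) (nat_lit 0) (XT.nd (nat_lit 78) (nat_lit 0) (nat_lit 0) (XT.lf (nat_lit 0) (nat_lit 427761401318) (nat_lit 76) (nat_lit 51505926983) (nat_lit 76) (nat_lit 50070493495) (nat_lit 1) (nat_lit 4) (nat_lit 2) (nat_lit 5) (nat_lit 2) (nat_lit 4) (nat_lit 316) (nat_lit 211) (nat_lit 193)) (XT.lf (nat_lit 0) (nat_lit 463148810376) (nat_lit 76) (nat_lit 54975405009) (nat_lit 76) (nat_lit 53504481629) (nat_lit 1) (nat_lit 4) (nat_lit 2) (nat_lit 5) (nat_lit 2) (nat_lit 4) (nat_lit 317) (nat_lit 211) (nat_lit 192))) (XT.nd (nat_lit 78) (nat_lit 0) (nat_lit 0) (XT.lf (nat_lit 0) (nat_lit 501339110949) (nat_lit 76) (nat_lit 58734434186) (nat_lit 76) (nat_lit 57230649796) (nat_lit 1) (nat_lit 4) (nat_lit 2) (nat_lit 5) (nat_lit 2) (nat_lit 4) (nat_lit 318)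 (nat_lit 211) (nat_lit 191)) (XT.nd (nat_lit 78) (nat_lit 0) (nat_lit 0) (XT.lf (nat_lit 0) (nat_lit 542558615929) (nat_lit 76) (nat_lit 62805290242) (nat_lit 76) (nat_lit 61271078991) (nat_lit 1) (nat_lit 4) (nat_lit 2) (nat_lit 5) (nat_lit 2) (nat_lit 4) (nat_lit 319) (nat_lit 211) (nat_lit 190)) (XT.lf (nat_lit 0) (nat_lit 587051589049) (nat_lit 76) (nat_lit 67212096770) (nat_lit 76) (nat_lit 65649712499) (nat_lit 1) (nat_lit 4) (nat_lit 2) (nat_lit 5) (nat_lit 2) (nat_lit 4) (nat_lit 320) (nat_lit 211) (nat_lit 189))))) (XT.nd (nat_lit 234) (nat_lit 0) (nat_lit 0) (XT.nd (nat_lit 78) (nat_lit 0) (nat_lit 0) (XT.lf (nat_lit 0) (nat_lit 635081692372) (nat_lit 76) (nat_lit 71980968178) (nat_lit 76) (nat_lit 70392497777) (nat_lit 1) (nat_lit 4) (nat_lit 2) (nat_lit 5) (nat_lit 2) (nat_lit 4) (nat_lit 321) (nat_lit 211) (nat_lit 188)) (XT.nd (nat_lit 78) (nat_lit 0) (nat_lit 0) (XT.lf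 (nat_lit 0) (nat_lit 686933548733) (nat_lit 76) (nat_lit 77140164445) (nat_lit 76) (nat_lit 75527540220) (nat_lit 1) (nat_lit 4) (nat_lit 2) (nat_lit 5) (nat_lit 2) (nat_lit 4) (nat_lit 322) (nat_lit 211) (nat_lit 187)) (XT.lf (nat_lit 0) (nat_lit 742914428392) (nat_lit 76) (nat_lit 82720258586) (nat_lit 76) (nat_lit 81085269710) (nat_lit 1) (nat_lit 4) (nat_lit 2) (nat_lit 5) (nat_lit 2) (nat_lit 4) (nat_lit 323) (nat_lit 211) (nat_lit 186)))) (XT.nd (nat_lit 78) (nat_lit 0) (nat_lit 0) (XT.lf (nat_lit 0) (nat_lit 803356069894) (nat_lit 76) (nat_lit 88754317825) (nat_lit 76) (nat_lit 87098620938) (nat_lit 1) (nat_lit 4) (nat_lit 2) (nat_lit 5) (nat_lit 2) (nat_lit 4) (nat_lit 324) (nat_lit 211) (nat_lit 185)) (XT.nd (nat_lit 78) (nat_lit 0) (nat_lit 0) (XT.lf (nat_lit 0) (nat_lit 868616645930) (nat_lit 76) (nat_lit 95278099550) (nat_lit 76) (nat_lit 93603228579) (nat_lit 1) (nat_lit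 4) (nat_lit 2) (nat_lit 5) (nat_lit 2) (nat_lit 4) (nat_lit 325) (nat_lit 211) (nat_lit 184)) (XT.lf (nat_lit 0) (nat_lit 939082885840) (nat_lit 76) (nat_lit 102330263209) (nat_lit 76) (nat_lit 100637638457) (nat_lit 1) (nat_lit 4) (nat_lit 2) (nat_lit 5) (nat_lit 2) (nat_lit 4) (nat_lit 326) (nat_lit 211) (nat_lit 183))))))))
noncomputable def xc8 : XT := (XT.nd (nat_lit 36192) (nat_lit 0) (nat_lit 0) (XT.nd (nat_lit 35334) (nat_lit 0) (nat_lit 0) (XT.nd (nat_lit 390) (nat_lit 0) (nat_lit 0) (XT.nd (nat_lit 156) (nat_lit 0) (nat_lit 0) (XT.nd (nat_lit 78) (nat_lit 0) (nat_lit 0) (XT.lf (nat_lit 0) (nat_lit 1015172367342) (nat_lit 76) (nat_lit 109952599401) (nat_lit 76) (nat_lit 108243535962) (nat_lit 1) (nat_lit 4) (nat_lit 2) (nat_lit 5) (nat_lit 2) (nat_lit 4) (nat_lit 327) (nat_lit 211) (nat_lit 182)) (XT.lf (nat_lit 0) (nat_lit 1097335991066) (nat_lit 76) (nat_lit 118190277526)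 (nat_lit 76) (nat_lit 116465993081) (nat_lit 1) (nat_lit 4) (nat_lit 2) (nat_lit 5) (nat_lit 2) (nat_lit 4) (nat_lit 328) (nat_lit 211) (nat_lit 181))) (XT.nd (nat_lit 78) (nat_lit 0) (nat_lit 0) (XT.lf (nat_lit 0) (nat_lit 1186060652561) (nat_lit 76) (nat_lit 127092113454) (nat_lit 76) (nat_lit 125353735485) (nat_lit 1) (nat_lit 4) (nat_lit 2) (nat_lit 5) (nat_lit 2) (nat_lit 4) (nat_lit 329) (nat_lit 211) (nat_lit 180)) (XT.nd (nat_lit 78) (nat_lit 0) (nat_lit 0) (XT.lf (nat_lit 0) (nat_lit 1281872127598) (nat_lit 76) (nat_lit 136710858806) (nat_lit 76) (nat_lit 134959431277) (nat_lit 1) (nat_lit 4) (nat_lit 2) (nat_lit 5) (nat_lit 2) (nat_lit 4) (nat_lit 330) (nat_lit 211) (nat_lit 179)) (XT.lf (nat_lit 0) (nat_lit 1385338187882) (nat_lit 76) (nat_lit 147103513553) (nat_lit 76) (nat_lit 145340003099) (nat_lit 1) (nat_lit 4) (nat_lit 2) (nat_lit 5) (nat_lit 2) (nat_lit 4) (nat_lit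 331) (nat_lit 211) (nat_lit 178))))) (XT.nd (nat_lit 34710) (nat_lit 0) (nat_lit 0) (XT.nd (nat_lit 78) (nat_lit 0) (nat_lit 0) (XT.lf (nat_lit 0) (nat_lit 1497071965622) (nat_lit 76) (nat_lit 158331663799) (nat_lit 76) (nat_lit 156556965451) (nat_lit 1) (nat_lit 4) (nat_lit 2) (nat_lit 5) (nat_lit 2) (nat_lit 4) (nat_lit 332) (nat_lit 211) (nat_lit 177)) (XT.lf (nat_lit 0) (nat_lit 1617735586907) (nat_lit 76) (nat_lit 170461846729) (nat_lit 76) (nat_lit 168676789221) (nat_lit 1) (nat_lit 4) (nat_lit 2) (nat_lit 5) (nat_lit 2) (nat_lit 4) (nat_lit 333) (nat_lit 211) (nat_lit 176))) (XT.nd (nat_lit 78) (nat_lit 0) (nat_lit 0) (XT.lf (nat_lit 0) (nat_lit 36581075596) (nat_lit 76) (nat_lit 10325574847) (nat_lit 76) (nat_lit 10325574847) (nat_lit 1) (nat_lit 4) (nat_lit 2) (nat_lit 5) (nat_lit 2) (nat_lit 4) (nat_lit 296) (nat_lit 212) (nat_lit 212)) (XT.nd (nat_lit 78) (nat_lit 0) (nat_lit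 0) (XT.lf (nat_lit 0) (nat_lit 81502456045) (nat_lit 76) (nat_lit 21076292019) (nat_lit 76) (nat_lit 20923128257) (nat_lit 1) (nat_lit 4) (nat_lit 2) (nat_lit 5) (nat_lit 2) (nat_lit 4) (nat_lit 297) (nat_lit 212) (nat_lit 211)) (XT.lf (nat_lit 0) (nat_lit 90388708863) (nat_lit 76) (nat_lit 21587203539) (nat_lit 76) (nat_lit 21292221479) (nat_lit 1) (nat_lit 4) (nat_lit 2) (nat_lit 5) (nat_lit 2) (nat_lit 4) (nat_lit 298) (nat_lit 212) (nat_lit 210)))))) (XT.nd (nat_lit 390) (nat_lit 0) (nat_lit 0) (XT.nd (nat_lit 156) (nat_lit 0) (nat_lit 0) (XT.nd (nat_lit 78) (nat_lit 0) (nat_lit 0) (XT.lf (nat_lit 0) (nat_lit 99873568924) (nat_lit 76) (nat_lit 22186911880) (nat_lit 76) (nat_lit 21760616581) (nat_lit 1) (nat_lit 4) (nat_lit 2) (nat_lit 5) (nat_lit 2) (nat_lit 4) (nat_lit 299) (nat_lit 212) (nat_lit 209)) (XT.lf (nat_lit 0) (nat_lit 110013242806) (nat_lit 76) (nat_lit 22878970868)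 (nat_lit 76) (nat_lit 22331089238) (nat_lit 1) (nat_lit 4) (nat_lit 2) (nat_lit 5) (nat_lit 2) (nat_lit 4) (nat_lit 300) (nat_lit 212) (nat_lit 208))) (XT.nd (nat_lit 78) (nat_lit 0) (nat_lit 0) (XT.lf (nat_lit 0) (nat_lit 120867817465) (nat_lit 76) (nat_lit 23667481594) (nat_lit 76) (nat_lit 23007020026) (nat_lit 1) (nat_lit 4) (nat_lit 2) (nat_lit 5) (nat_lit 2) (nat_lit 4) (nat_lit 301) (nat_lit 212) (nat_lit 207)) (XT.nd (nat_lit 78) (nat_lit 0) (nat_lit 0) (XT.lf (nat_lit 0) (nat_lit 132501616307) (nat_lit 76) (nat_lit 24557116714) (nat_lit 76) (nat_lit 23792414464) (nat_lit 1) (nat_lit 4) (nat_lit 2) (nat_lit 5) (nat_lit 2) (nat_lit 4) (nat_lit 302) (nat_lit 212) (nat_lit 206)) (XT.lf (nat_lit 0) (nat_lit 144983580362) (nat_lit 76) (nat_lit 25553148140) (nat_lit 76) (nat_lit 24691926739) (nat_lit 1) (nat_lit 4) (nat_lit 2) (nat_lit 5) (nat_lit 2) (nat_lit 4) (nat_lit 303) (nat_lit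 212) (nat_lit 205))))) (XT.nd (nat_lit 234) (nat_lit 0) (nat_lit 0) (XT.nd (nat_lit 78) (nat_lit 0) (nat_lit 0) (XT.lf (nat_lit 0) (nat_lit 158387676824) (nat_lit 76) (nat_lit 26661478281) (nat_lit 76) (nat_lit 25710887296) (nat_lit 1) (nat_lit 4) (nat_lit 2) (nat_lit 5) (nat_lit 2) (nat_lit 4) (nat_lit 304) (nat_lit 212) (nat_lit 204)) (XT.nd (nat_lit 78) (nat_lit 0) (nat_lit 0) (XT.lf (nat_lit 0) (nat_lit 172793337376) (nat_lit 76) (nat_lit 27888675017) (nat_lit 76) (nat_lit 26855334418) (nat_lit 1) (nat_lit 4) (nat_lit 2) (nat_lit 5) (nat_lit 2) (nat_lit 4) (nat_lit 305) (nat_lit 212) (nat_lit 203)) (XT.lf (nat_lit 0) (nat_lit 188285928895) (nat_lit 76) (nat_lit 29242010628) (nat_lit 76) (nat_lit 28132050015) (nat_lit 1) (nat_lit 4) (nat_lit 2) (nat_lit 5) (nat_lit 2) (nat_lit 4) (nat_lit 306) (nat_lit 212) (nat_lit 202)))) (XT.nd (nat_lit 78) (nat_lit 0) (nat_lit 0) (XT.lf (nat_lit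 0) (nat_lit 204957259331) (nat_lit 76) (nat_lit 30729504878) (nat_lit 76) (nat_lit 29548599809) (nat_lit 1) (nat_lit 4) (nat_lit 2) (nat_lit 5) (nat_lit 2) (nat_lit 4) (nat_lit 307) (nat_lit 212) (nat_lit 201)) (XT.nd (nat_lit 78) (nat_lit 0) (nat_lit 0) (XT.lf (nat_lit 0) (nat_lit 222906121754) (nat_lit 76) (nat_lit 32359972550) (nat_lit 76) (nat_lit 31113378168) (nat_lit 1) (nat_lit 4) (nat_lit 2) (nat_lit 5) (nat_lit 2) (nat_lit 4) (nat_lit 308) (nat_lit 212) (nat_lit 200)) (XT.lf (nat_lit 0) (nat_lit 242238879792) (nat_lit 76) (nat_lit 34143075673) (nat_lit 76) (nat_lit 32835657854) (nat_lit 1) (nat_lit 4) (nat_lit 2) (nat_lit 5) (nat_lit 2) (nat_lit 4) (nat_lit 309) (nat_lit 212) (nat_lit 199))))))) (XT.nd (nat_lit 858) (nat_lit 0) (nat_lit 0) (XT.nd (nat_lit 390) (nat_lit 0) (nat_lit 0) (XT.nd (nat_lit 156) (nat_lit 0) (nat_lit 0) (XT.nd (nat_lit 78) (nat_lit 0) (nat_lit 0)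 (XT.lf (nat_lit 0) (nat_lit 263070097938) (nat_lit 76) (nat_lit 36089380785) (nat_lit 76) (nat_lit 34725644968) (nat_lit 1) (nat_lit 4) (nat_lit 2) (nat_lit 5) (nat_lit 2) (nat_lit 4) (nat_lit 310) (nat_lit 212) (nat_lit 198)) (XT.lf (nat_lit 0) (nat_lit 285523220446) (nat_lit 76) (nat_lit 38210421545) (nat_lit 76) (nat_lit 36794539435) (nat_lit 1) (nat_lit 4) (nat_lit 2) (nat_lit 5) (nat_lit 2) (nat_lit 4) (nat_lit 311) (nat_lit 212) (nat_lit 197))) (XT.nd (nat_lit 78) (nat_lit 0) (nat_lit 0) (XT.lf (nat_lit 0) (nat_lit 309731302859) (nat_lit 76) (nat_lit 40518767084) (nat_lit 76) (nat_lit 39054601368) (nat_lit 1) (nat_lit 4) (nat_lit 2) (nat_lit 5) (nat_lit 2) (nat_lit 4) (nat_lit 312) (nat_lit 212) (nat_lit 196)) (XT.nd (nat_lit 78) (nat_lit 0) (nat_lit 0) (XT.lf (nat_lit 0) (nat_lit 335837800479) (nat_lit 76) (nat_lit 43028096486) (nat_lit 76) (nat_lit 41519223729) (nat_lit 1)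 (nat_lit 4) (nat_lit 2) (nat_lit 5) (nat_lit 2) (nat_lit 4) (nat_lit 313) (nat_lit 212) (nat_lit 195)) (XT.lf (nat_lit 0) (nat_lit 363997418478) (nat_lit 76) (nat_lit 45753279853) (nat_lit 76) (nat_lit 44203011686) (nat_lit 1) (nat_lit 4) (nat_lit 2) (nat_lit 5) (nat_lit 2) (nat_lit 4) (nat_lit 314) (nat_lit 212) (nat_lit 194))))) (XT.nd (nat_lit 234) (nat_lit 0) (nat_lit 0) (XT.nd (nat_lit 78) (nat_lit 0) (nat_lit 0) (XT.lf (nat_lit 0) (nat_lit 394377028665) (nat_lit 76) (nat_lit 48710466417) (nat_lit 76) (nat_lit 47121869168) (nat_lit 1) (nat_lit 4) (nat_lit 2) (nat_lit 5) (nat_lit 2) (nat_lit 4) (nat_lit 315) (nat_lit 212) (nat_lit 193)) (XT.nd (nat_lit 78) (nat_lit 0) (nat_lit 0) (XT.lf (nat_lit 0) (nat_lit 427156658360) (nat_lit 76) (nat_lit 51917180249) (nat_lit 76) (nat_lit 50293093108) (nat_lit 1) (nat_lit 4) (nat_lit 2) (nat_lit 5) (nat_lit 2) (nat_lit 4) (nat_lit 316) (nat_lit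 212) (nat_lit 192)) (XT.lf (nat_lit 0) (nat_lit 462530557221) (nat_lit 76) (nat_lit 55392424097) (nat_lit 76) (nat_lit 53735475946) (nat_lit 1) (nat_lit 4) (nat_lit 2) (nat_lit 5) (nat_lit 2) (nat_lit 4) (nat_lit 317) (nat_lit 212) (nat_lit 191)))) (XT.nd (nat_lit 78) (nat_lit 0) (nat_lit 0) (XT.lf (nat_lit 0) (nat_lit 500708348352) (nat_lit 76) (nat_lit 59156791998) (nat_lit 76) (nat_lit 57469416985) (nat_lit 1) (nat_lit 4) (nat_lit 2) (nat_lit 5) (nat_lit 2) (nat_lit 4) (nat_lit 318) (nat_lit 212) (nat_lit 190)) (XT.nd (nat_lit 78) (nat_lit 0) (nat_lit 0) (XT.lf (nat_lit 0) (nat_lit 541916270515) (nat_lit 76) (nat_lit 63232591317) (nat_lit 76) (nat_lit 61517043284) (nat_lit 1) (nat_lit 4) (nat_lit 2) (nat_lit 5) (nat_lit 2) (nat_lit 4) (nat_lit 319) (nat_lit 212) (nat_lit 189)) (XT.lf (nat_lit 0) (nat_lit 586398518805) (nat_lit 76) (nat_lit 67643974940) (nat_lit 76) (nat_lit 65902340778)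 (nat_lit 1) (nat_lit 4) (nat_lit 2) (nat_lit 5) (nat_lit 2) (nat_lit 4) (nat_lit 320) (nat_lit 212) (nat_lit 188)))))) (XT.nd (nat_lit 390) (nat_lit 0) (nat_lit 0) (XT.nd (nat_lit 156) (nat_lit 0) (nat_lit 0) (XT.nd (nat_lit 78) (nat_lit 0) (nat_lit 0) (XT.lf (nat_lit 0) (nat_lit 634418691730) (nat_lit 76) (nat_lit 72417084399) (nat_lit 76) (nat_lit 70651296413) (nat_lit 1) (nat_lit 4) (nat_lit 2) (nat_lit 5) (nat_lit 2) (nat_lit 4) (nat_lit 321) (nat_lit 212) (nat_lit 187)) (XT.lf (nat_lit 0) (nat_lit 686261353278) (nat_lit 76) (nat_lit 77580204787) (nat_lit 76) (nat_lit 75792052150) (nat_lit 1) (nat_lit 4) (nat_lit 2) (nat_lit 5) (nat_lit 2) (nat_lit 4) (nat_lit 322) (nat_lit 212) (nat_lit 186))) (XT.nd (nat_lit 78) (nat_lit 0) (nat_lit 0) (XT.lf (nat_lit 0) (nat_lit 742233719221) (nat_lit 76) (nat_lit 83163932374) (nat_lit 76) (nat_lit 81355071725) (nat_lit 1) (nat_lit 4) (nat_lit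 2) (nat_lit 5) (nat_lit 2) (nat_lit 4) (nat_lit 323) (nat_lit 212) (nat_lit 185)) (XT.nd (nat_lit 78) (nat_lit 0) (nat_lit 0) (XT.lf (nat_lit 0) (nat_lit 802667477653) (nat_lit 76) (nat_lit 89201355914) (nat_lit 76) (nat_lit 87373321182) (nat_lit 1) (nat_lit 4) (nat_lit 2) (nat_lit 5) (nat_lit 2) (nat_lit 4) (nat_lit 324) (nat_lit 212) (nat_lit 184)) (XT.lf (nat_lit 0) (nat_lit 867920754550) (nat_lit 76) (nat_lit 95728252734) (nat_lit 76) (nat_lit 93882464220) (nat_lit 1) (nat_lit 4) (nat_lit 2) (nat_lit 5) (nat_lit 2) (nat_lit 4) (nat_lit 325) (nat_lit 212) (nat_lit 183))))) (XT.nd (nat_lit 234) (nat_lit 0) (nat_lit 0) (XT.nd (nat_lit 78) (nat_lit 0) (nat_lit 0) (XT.lf (nat_lit 0) (nat_lit 938380235998) (nat_lit 76) (nat_lit 102783300739) (nat_lit 76) (nat_lit 100921073539) (nat_lit 1) (nat_lit 4) (nat_lit 2) (nat_lit 5) (nat_lit 2) (nat_lit 4) (nat_lit 326) (nat_lit 212) (nat_lit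 182)) (XT.nd (nat_lit 78) (nat_lit 0) (nat_lit 0) (XT.lf (nat_lit 0) (nat_lit 1014463459664) (nat_lit 76) (nat_lit 110408307622) (nat_lit 76) (nat_lit 108530859416) (nat_lit 1) (nat_lit 4) (nat_lit 2) (nat_lit 5) (nat_lit 2) (nat_lit 4) (nat_lit 327) (nat_lit 212) (nat_lit 181)) (XT.lf (nat_lit 0) (nat_lit 1096621289096) (nat_lit 76) (nat_lit 118648458609) (nat_lit 76) (nat_lit 116756916879) (nat_lit 1) (nat_lit 4) (nat_lit 2) (nat_lit 5) (nat_lit 2) (nat_lit 4) (nat_lit 328) (nat_lit 212) (nat_lit 180)))) (XT.nd (nat_lit 78) (nat_lit 0) (nat_lit 0) (XT.lf (nat_lit 0) (nat_lit 1185340585506) (nat_lit 76) (nat_lit 127552584225) (nat_lit 76) (nat_lit 125647992935) (nat_lit 1) (nat_lit 4) (nat_lit 2) (nat_lit 5) (nat_lit 2) (nat_lit 4) (nat_lit 329) (nat_lit 212) (nat_lit 179)) (XT.nd (nat_lit 78) (nat_lit 0) (nat_lit 0) (XT.lf (nat_lit 0) (nat_lit 1281147092872) (nat_lit 76) (nat_lit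 137173449657) (nat_lit 76) (nat_lit 135256775441) (nat_lit 1) (nat_lit 4) (nat_lit 2) (nat_lit 5) (nat_lit 2) (nat_lit 4) (nat_lit 330) (nat_lit 212) (nat_lit 178)) (XT.lf (nat_lit 0) (nat_lit 1384608553460) (nat_lit 76) (nat_lit 147568067442) (nat_lit 76) (nat_lit 145640205333) (nat_lit 1) (nat_lit 4) (nat_lit 2) (nat_lit 5) (nat_lit 2) (nat_lit 4) (nat_lit 331) (nat_lit 212) (nat_lit 177))))))))
noncomputable def xc9 : XT := (XT.nd (nat_lit 36114) (nat_lit 0) (nat_lit 0) (XT.nd (nat_lit 35256) (nat_lit 0) (nat_lit 0) (XT.nd (nat_lit 34788) (nat_lit 0) (nat_lit 0) (XT.nd (nat_lit 34554) (nat_lit 0) (nat_lit 0) (XT.nd (nat_lit 78) (nat_lit 0) (nat_lit 0) (XT.lf (nat_lit 0) (nat_lit 1496338072222) (nat_lit 76) (nat_lit 158798035315) (nat_lit 76) (nat_lit 156859814045) (nat_lit 1) (nat_lit 4) (nat_lit 2) (nat_lit 5) (nat_lit 2) (nat_lit 4) (nat_lit 332) (nat_lit 212) (nat_lit 176))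 (XT.lf (nat_lit 0) (nat_lit 1616997750010) (nat_lit 76) (nat_lit 170929901234) (nat_lit 76) (nat_lit 168982088148) (nat_lit 1) (nat_lit 4) (nat_lit 2) (nat_lit 5) (nat_lit 2) (nat_lit 4) (nat_lit 333) (nat_lit 212) (nat_lit 175))) (XT.nd (nat_lit 78) (nat_lit 0) (nat_lit 0) (XT.lf (nat_lit 0) (nat_lit 28996319862) (nat_lit 76) (nat_lit 10092490598) (nat_lit 76) (nat_lit 10092490598) (nat_lit 1) (nat_lit 4) (nat_lit 2) (nat_lit 5) (nat_lit 2) (nat_lit 4) (nat_lit 294) (nat_lit 213) (nat_lit 213)) (XT.nd (nat_lit 78) (nat_lit 0) (nat_lit 0) (XT.lf (nat_lit 0) (nat_lit 65318370280) (nat_lit 76) (nat_lit 20474674068) (nat_lit 76) (nat_lit 20309257206) (nat_lit 1) (nat_lit 4) (nat_lit 2) (nat_lit 5) (nat_lit 2) (nat_lit 4) (nat_lit 295) (nat_lit 213) (nat_lit 212)) (XT.lf (nat_lit 0) (nat_lit 73099180744) (nat_lit 76) (nat_lit 20843440805) (nat_lit 76) (nat_lit 20524860181) (nat_lit 1)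 (nat_lit 4) (nat_lit 2) (nat_lit 5) (nat_lit 2) (nat_lit 4) (nat_lit 296) (nat_lit 213) (nat_lit 211))))) (XT.nd (nat_lit 234) (nat_lit 0) (nat_lit 0) (XT.nd (nat_lit 78) (nat_lit 0) (nat_lit 0) (XT.lf (nat_lit 0) (nat_lit 81381179624) (nat_lit 76) (nat_lit 21293466692) (nat_lit 76) (nat_lit 20833067770) (nat_lit 1) (nat_lit 4) (nat_lit 2) (nat_lit 5) (nat_lit 2) (nat_lit 4) (nat_lit 297) (nat_lit 213) (nat_lit 210)) (XT.nd (nat_lit 78) (nat_lit 0) (nat_lit 0) (XT.lf (nat_lit 0) (nat_lit 90213445431) (nat_lit 76) (nat_lit 21827418548) (nat_lit 76) (nat_lit 21235706387) (nat_lit 1) (nat_lit 4) (nat_lit 2) (nat_lit 5) (nat_lit 2) (nat_lit 4) (nat_lit 298) (nat_lit 213) (nat_lit 209)) (XT.lf (nat_lit 0) (nat_lit 99648317519) (nat_lit 76) (nat_lit 22448460533) (nat_lit 76) (nat_lit 21735162040) (nat_lit 1) (nat_lit 4) (nat_lit 2) (nat_lit 5) (nat_lit 2) (nat_lit 4) (nat_lit 299) (nat_lit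 213) (nat_lit 208)))) (XT.nd (nat_lit 78) (nat_lit 0) (nat_lit 0) (XT.lf (nat_lit 0) (nat_lit 109741706241) (nat_lit 76) (nat_lit 23160272896) (nat_lit 76) (nat_lit 22334394466) (nat_lit 1) (nat_lit 4) (nat_lit 2) (nat_lit 5) (nat_lit 2) (nat_lit 4) (nat_lit 300) (nat_lit 213) (nat_lit 207)) (XT.nd (nat_lit 78) (nat_lit 0) (nat_lit 0) (XT.lf (nat_lit 0) (nat_lit 120553424270) (nat_lit 76) (nat_lit 23967073784) (nat_lit 76) (nat_lit 23036954671) (nat_lit 1) (nat_lit 4) (nat_lit 2) (nat_lit 5) (nat_lit 2) (nat_lit 4) (nat_lit 301) (nat_lit 213) (nat_lit 206)) (XT.lf (nat_lit 0) (nat_lit 132147541047) (nat_lit 76) (nat_lit 24873644238) (nat_lit 76) (nat_lit 23847005975) (nat_lit 1) (nat_lit 4) (nat_lit 2) (nat_lit 5) (nat_lit 2) (nat_lit 4) (nat_lit 302) (nat_lit 213) (nat_lit 205)))))) (XT.nd (nat_lit 390) (nat_lit 0) (nat_lit 0) (XT.nd (nat_lit 156) (nat_lit 0) (nat_lit 0) (XT.nd (nat_lit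 78) (nat_lit 0) (nat_lit 0) (XT.lf (nat_lit 0) (nat_lit 144592762450) (nat_lit 76) (nat_lit 25885356530) (nat_lit 76) (nat_lit 24769348683) (nat_lit 1) (nat_lit 4) (nat_lit 2) (nat_lit 5) (nat_lit 2) (nat_lit 4) (nat_lit 303) (nat_lit 213) (nat_lit 204)) (XT.lf (nat_lit 0) (nat_lit 157962837937) (nat_lit 76) (nat_lit 27008205990) (nat_lit 76) (nat_lit 25809448528) (nat_lit 1) (nat_lit 4) (nat_lit 2) (nat_lit 5) (nat_lit 2) (nat_lit 4) (nat_lit 304) (nat_lit 213) (nat_lit 203))) (XT.nd (nat_lit 78) (nat_lit 0) (nat_lit 0) (XT.lf (nat_lit 0) (nat_lit 172336997587) (nat_lit 76) (nat_lit 28248846542) (nat_lit 76) (nat_lit 26973469066) (nat_lit 1) (nat_lit 4) (nat_lit 2) (nat_lit 5) (nat_lit 2) (nat_lit 4) (nat_lit 305) (nat_lit 213) (nat_lit 202)) (XT.nd (nat_lit 78) (nat_lit 0) (nat_lit 0) (XT.lf (nat_lit 0) (nat_lit 187800421604) (nat_lit 76) (nat_lit 29614630129) (nat_lit 76) (nat_lit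 28268308196) (nat_lit 1) (nat_lit 4) (nat_lit 2) (nat_lit 5) (nat_lit 2) (nat_lit 4) (nat_lit 306) (nat_lit 213) (nat_lit 201)) (XT.lf (nat_lit 0) (nat_lit 204444745093) (nat_lit 76) (nat_lit 31113650284) (nat_lit 76) (nat_lit 29701639039) (nat_lit 1) (nat_lit 4) (nat_lit 2) (nat_lit 5) (nat_lit 2) (nat_lit 4) (nat_lit 307) (nat_lit 213) (nat_lit 200))))) (XT.nd (nat_lit 234) (nat_lit 0) (nat_lit 0) (XT.nd (nat_lit 78) (nat_lit 0) (nat_lit 0) (XT.lf (nat_lit 0) (nat_lit 222368601084) (nat_lit 76) (nat_lit 32754790089) (nat_lit 76) (nat_lit 31281955407) (nat_lit 1) (nat_lit 4) (nat_lit 2) (nat_lit 5) (nat_lit 2) (nat_lit 4) (nat_lit 308) (nat_lit 213) (nat_lit 199)) (XT.nd (nat_lit 78) (nat_lit 0) (nat_lit 0) (XT.lf (nat_lit 0) (nat_lit 241678205019) (nat_lit 76) (nat_lit 34547774817) (nat_lit 76) (nat_lit 33018622138) (nat_lit 1) (nat_lit 4) (nat_lit 2) (nat_lit 5) (nat_lit 2) (nat_lit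 4) (nat_lit 309) (nat_lit 213) (nat_lit 198)) (XT.lf (nat_lit 0) (nat_lit 262487984179) (nat_lit 76) (nat_lit 36503229563) (nat_lit 76) (nat_lit 34921930590) (nat_lit 1) (nat_lit 4) (nat_lit 2) (nat_lit 5) (nat_lit 2) (nat_lit 4) (nat_lit 310) (nat_lit 213) (nat_lit 197)))) (XT.nd (nat_lit 78) (nat_lit 0) (nat_lit 0) (XT.lf (nat_lit 0) (nat_lit 284921255776) (nat_lit 76) (nat_lit 38632742207) (nat_lit 76) (nat_lit 37003159629) (nat_lit 1) (nat_lit 4) (nat_lit 2) (nat_lit 5) (nat_lit 2) (nat_lit 4) (nat_lit 311) (nat_lit 213) (nat_lit 196)) (XT.nd (nat_lit 78) (nat_lit 0) (nat_lit 0) (XT.lf (nat_lit 0) (nat_lit 309110957715) (nat_lit 76) (nat_lit 40948932082) (nat_lit 76) (nat_lit 39274642462) (nat_lit 1) (nat_lit 4) (nat_lit 2) (nat_lit 5) (nat_lit 2) (nat_lit 4) (nat_lit 312) (nat_lit 213) (nat_lit 195)) (XT.lf (nat_lit 0) (nat_lit 335200436378) (nat_lit 76) (nat_lit 43465524760)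 (nat_lit 76) (nat_lit 41749839730) (nat_lit 1) (nat_lit 4) (nat_lit 2) (nat_lit 5) (nat_lit 2) (nat_lit 4) (nat_lit 313) (nat_lit 213) (nat_lit 194))))))) (XT.nd (nat_lit 858) (nat_lit 0) (nat_lit 0) (XT.nd (nat_lit 390) (nat_lit 0) (nat_lit 0) (XT.nd (nat_lit 156) (nat_lit 0) (nat_lit 0) (XT.nd (nat_lit 78) (nat_lit 0) (nat_lit 0) (XT.lf (nat_lit 0) (nat_lit 363344296082) (nat_lit 76) (nat_lit 46197433380) (nat_lit 76) (nat_lit 44443419268) (nat_lit 1) (nat_lit 4) (nat_lit 2) (nat_lit 5) (nat_lit 2) (nat_lit 4) (nat_lit 314) (nat_lit 213) (nat_lit 193)) (XT.lf (nat_lit 0) (nat_lit 393709315256) (nat_lit 76) (nat_lit 49160847033) (nat_lit 76) (nat_lit 47371343029) (nat_lit 1) (nat_lit 4) (nat_lit 2) (nat_lit 5) (nat_lit 2) (nat_lit 4) (nat_lit 315) (nat_lit 213) (nat_lit 192))) (XT.nd (nat_lit 78) (nat_lit 0) (nat_lit 0) (XT.lf (nat_lit 0) (nat_lit 426475434755) (nat_lit 76) (nat_lit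 52373326686) (nat_lit 76) (nat_lit 50550961672) (nat_lit 1) (nat_lit 4) (nat_lit 2) (nat_lit 5) (nat_lit 2) (nat_lit 4) (nat_lit 316) (nat_lit 213) (nat_lit 191)) (XT.nd (nat_lit 78) (nat_lit 0) (nat_lit 0) (XT.lf (nat_lit 0) (nat_lit 461836824174) (nat_lit 76) (nat_lit 55853909258) (nat_lit 76) (nat_lit 54001117382) (nat_lit 1) (nat_lit 4) (nat_lit 2) (nat_lit 5) (nat_lit 2) (nat_lit 4) (nat_lit 317) (nat_lit 213) (nat_lit 190)) (XT.lf (nat_lit 0) (nat_lit 500003032488) (nat_lit 76) (nat_lit 59623220421) (nat_lit 76) (nat_lit 57742255526) (nat_lit 1) (nat_lit 4) (nat_lit 2) (nat_lit 5) (nat_lit 2) (nat_lit 4) (nat_lit 318) (nat_lit 213) (nat_lit 189))))) (XT.nd (nat_lit 234) (nat_lit 0) (nat_lit 0) (XT.nd (nat_lit 78) (nat_lit 0) (nat_lit 0) (XT.lf (nat_lit 0) (nat_lit 541200229822) (nat_lit 76) (nat_lit 63703596836) (nat_lit 76) (nat_lit 61796545811) (nat_lit 1) (nat_lit 4) (nat_lit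 2) (nat_lit 5) (nat_lit 2) (nat_lit 4) (nat_lit 319) (nat_lit 213) (nat_lit 188)) (XT.nd (nat_lit 78) (nat_lit 0) (nat_lit 0) (XT.lf (nat_lit 0) (nat_lit 585672547714) (nat_lit 76) (nat_lit 68119218510) (nat_lit 76) (nat_lit 66188013661) (nat_lit 1) (nat_lit 4) (nat_lit 2) (nat_lit 5) (nat_lit 2) (nat_lit 4) (nat_lit 320) (nat_lit 213) (nat_lit 187)) (XT.lf (nat_lit 0) (nat_lit 633683525826) (nat_lit 76) (nat_lit 72896252090) (nat_lit 76) (nat_lit 70942682590) (nat_lit 1) (nat_lit 4) (nat_lit 2) (nat_lit 5) (nat_lit 2) (nat_lit 4) (nat_lit 321) (nat_lit 213) (nat_lit 186)))) (XT.nd (nat_lit 78) (nat_lit 0) (nat_lit 0) (XT.lf (nat_lit 0) (nat_lit 685517673658) (nat_lit 76) (nat_lit 78063005924) (nat_lit 76) (nat_lit 76088728413) (nat_lit 1) (nat_lit 4) (nat_lit 2) (nat_lit 5) (nat_lit 2) (nat_lit 4) (nat_lit 322) (nat_lit 213) (nat_lit 185)) (XT.nd (nat_lit 78) (nat_lit 0) (nat_lit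 0) (XT.lf (nat_lit 0) (nat_lit 741482156530) (nat_lit 76) (nat_lit 83650097812) (nat_lit 76) (nat_lit 81656646217) (nat_lit 1) (nat_lit 4) (nat_lit 2) (nat_lit 5) (nat_lit 2) (nat_lit 4) (nat_lit 323) (nat_lit 213) (nat_lit 184)) (XT.lf (nat_lit 0) (nat_lit 801908615823) (nat_lit 76) (nat_lit 89690636447) (nat_lit 76) (nat_lit 87679431070) (nat_lit 1) (nat_lit 4) (nat_lit 2) (nat_lit 5) (nat_lit 2) (nat_lit 4) (nat_lit 324) (nat_lit 213) (nat_lit 183)))))) (XT.nd (nat_lit 390) (nat_lit 0) (nat_lit 0) (XT.nd (nat_lit 156) (nat_lit 0) (nat_lit 0) (XT.nd (nat_lit 78) (nat_lit 0) (nat_lit 0) (XT.lf (nat_lit 0) (nat_lit 867155134258) (nat_lit 76) (nat_lit 96220417613) (nat_lit 76) (nat_lit 94192773550) (nat_lit 1) (nat_lit 4) (nat_lit 2) (nat_lit 5) (nat_lit 2) (nat_lit 4) (nat_lit 325) (nat_lit 213) (nat_lit 182)) (XT.lf (nat_lit 0) (nat_lit 937608357871) (nat_lit 76) (nat_lit 103278136309)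 (nat_lit 76) (nat_lit 101235271240) (nat_lit 1) (nat_lit 4) (nat_lit 2) (nat_lit 5) (nat_lit 2) (nat_lit 4) (nat_lit 326) (nat_lit 213) (nat_lit 181))) (XT.nd (nat_lit 78) (nat_lit 0) (nat_lit 0) (XT.lf (nat_lit 0) (nat_lit 1013685787245) (nat_lit 76) (nat_lit 110905616054) (nat_lit 76) (nat_lit 108848657461) (nat_lit 1) (nat_lit 4) (nat_lit 2) (nat_lit 5) (nat_lit 2) (nat_lit 4) (nat_lit 327) (nat_lit 213) (nat_lit 180)) (XT.nd (nat_lit 78) (nat_lit 0) (nat_lit 0) (XT.lf (nat_lit 0) (nat_lit 1095838251592) (nat_lit 76) (nat_lit 119148056729) (nat_lit 76) (nat_lit 117078048576) (nat_lit 1) (nat_lit 4) (nat_lit 2) (nat_lit 5) (nat_lit 2) (nat_lit 4) (nat_lit 328) (nat_lit 213) (nat_lit 179)) (XT.lf (nat_lit 0) (nat_lit 1184552580331) (nat_lit 76) (nat_lit 128054302425) (nat_lit 76) (nat_lit 125972211346) (nat_lit 1) (nat_lit 4) (nat_lit 2) (nat_lit 5) (nat_lit 2) (nat_lit 4) (nat_lit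 329) (nat_lit 213) (nat_lit 178))))) (XT.nd (nat_lit 234) (nat_lit 0) (nat_lit 0) (XT.nd (nat_lit 78) (nat_lit 0) (nat_lit 0) (XT.lf (nat_lit 0) (nat_lit 1280354488001) (nat_lit 76) (nat_lit 137677130894) (nat_lit 76) (nat_lit 135583851922) (nat_lit 1) (nat_lit 4) (nat_lit 2) (nat_lit 5) (nat_lit 2) (nat_lit 4) (nat_lit 330) (nat_lit 213) (nat_lit 177)) (XT.nd (nat_lit 78) (nat_lit 0) (nat_lit 0) (XT.lf (nat_lit 0) (nat_lit 1383811689611) (nat_lit 76) (nat_lit 148073566307) (nat_lit 76) (nat_lit 145969928174) (nat_lit 1) (nat_lit 4) (nat_lit 2) (nat_lit 5) (nat_lit 2) (nat_lit 4) (nat_lit 331) (nat_lit 213) (nat_lit 176)) (XT.lf (nat_lit 0) (nat_lit 1495537264875) (nat_lit 76) (nat_lit 159305217169) (nat_lit 76) (nat_lit 157191987220) (nat_lit 1) (nat_lit 4) (nat_lit 2) (nat_lit 5) (nat_lit 2) (nat_lit 4) (nat_lit 332) (nat_lit 213) (nat_lit 175)))) (XT.nd (nat_lit 34320) (nat_lit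 0) (nat_lit 0) (XT.lf (nat_lit 0) (nat_lit 1616193291276) (nat_lit 76) (nat_lit 171438641410) (nat_lit 76) (nat_lit 169316530150) (nat_lit 1) (nat_lit 4) (nat_lit 2) (nat_lit 5) (nat_lit 2) (nat_lit 4) (nat_lit 333) (nat_lit 213) (nat_lit 174)) (XT.nd (nat_lit 78) (nat_lit 0) (nat_lit 0) (XT.lf (nat_lit 0) (nat_lit 22304329822) (nat_lit 76) (nat_lit 9991856378) (nat_lit 76) (nat_lit 9991856378) (nat_lit 1) (nat_lit 4) (nat_lit 2) (nat_lit 5) (nat_lit 2) (nat_lit 4) (nat_lit 292) (nat_lit 214) (nat_lit 214)) (XT.lf (nat_lit 0) (nat_lit 51078577344) (nat_lit 76) (nat_lit 20151295703) (nat_lit 76) (nat_lit 19972645491) (nat_lit 1) (nat_lit 4) (nat_lit 2) (nat_lit 5) (nat_lit 2) (nat_lit 4) (nat_lit 293) (nat_lit 214) (nat_lit 213))))))))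
noncomputable def xc10 : XT := (XT.nd (nat_lit 1716) (nat_lit 0) (nat_lit 0) (XT.nd (nat_lit 858) (nat_lit 0) (nat_lit 0) (XT.nd (nat_lit 390) (nat_lit 0) (nat_lit 0) (XT.nd (nat_lit 156) (nat_lit 0) (nat_lit 0) (XT.nd (nat_lit 78) (nat_lit 0) (nat_lit 0) (XT.lf (nat_lit 0) (nat_lit 57924631640) (nat_lit 76) (nat_lit 20392655596) (nat_lit 76) (nat_lit 20048588522) (nat_lit 1) (nat_lit 4) (nat_lit 2) (nat_lit 5) (nat_lit 2) (nat_lit 4) (nat_lit 294) (nat_lit 214) (nat_lit 212)) (XT.lf (nat_lit 0) (nat_lit 65187391745) (nat_lit 76) (nat_lit 20709222715) (nat_lit 76) (nat_lit 20211991880) (nat_lit 1) (nat_lit 4) (nat_lit 2) (nat_lit 5) (nat_lit 2) (nat_lit 4) (nat_lit 295) (nat_lit 214) (nat_lit 211))) (XT.nd (nat_lit 78) (nat_lit 0) (nat_lit 0) (XT.lf (nat_lit 0) (nat_lit 72909896237) (nat_lit 76) (nat_lit 21102873015) (nat_lit 76) (nat_lit 20463823881) (nat_lit 1) (nat_lit 4) (nat_lit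 2) (nat_lit 5) (nat_lit 2) (nat_lit 4) (nat_lit 296) (nat_lit 214) (nat_lit 210)) (XT.nd (nat_lit 78) (nat_lit 0) (nat_lit 0) (XT.lf (nat_lit 0) (nat_lit 81137908106) (nat_lit 76) (nat_lit 21575939238) (nat_lit 76) (nat_lit 20805576865) (nat_lit 1) (nat_lit 4) (nat_lit 2) (nat_lit 5) (nat_lit 2) (nat_lit 4) (nat_lit 297) (nat_lit 214) (nat_lit 209)) (XT.lf (nat_lit 0) (nat_lit 89920185940) (nat_lit 76) (nat_lit 22131224738) (nat_lit 76) (nat_lit 21239276034) (nat_lit 1) (nat_lit 4) (nat_lit 2) (nat_lit 5) (nat_lit 2) (nat_lit 4) (nat_lit 298) (nat_lit 214) (nat_lit 208))))) (XT.nd (nat_lit 234) (nat_lit 0) (nat_lit 0) (XT.nd (nat_lit 78) (nat_lit 0) (nat_lit 0) (XT.lf (nat_lit 0) (nat_lit 99308772868) (nat_lit 76) (nat_lit 22772020098) (nat_lit 76) (nat_lit 21767491456) (nat_lit 1) (nat_lit 4) (nat_lit 2) (nat_lit 5) (nat_lit 2) (nat_lit 4) (nat_lit 299) (nat_lit 214) (nat_lit 207))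 (XT.nd (nat_lit 78) (nat_lit 0) (nat_lit 0) (XT.lf (nat_lit 0) (nat_lit 109359304960) (nat_lit 76) (nat_lit 23502122622) (nat_lit 76) (nat_lit 22393353298) (nat_lit 1) (nat_lit 4) (nat_lit 2) (nat_lit 5) (nat_lit 2) (nat_lit 4) (nat_lit 300) (nat_lit 214) (nat_lit 206)) (XT.lf (nat_lit 0) (nat_lit 120131340925) (nat_lit 76) (nat_lit 24325858844) (nat_lit 76) (nat_lit 23120570369) (nat_lit 1) (nat_lit 4) (nat_lit 2) (nat_lit 5) (nat_lit 2) (nat_lit 4) (nat_lit 301) (nat_lit 214) (nat_lit 205)))) (XT.nd (nat_lit 78) (nat_lit 0) (nat_lit 0) (XT.lf (nat_lit 0) (nat_lit 131688715049) (nat_lit 76) (nat_lit 25248110165) (nat_lit 76) (nat_lit 23953452106) (nat_lit 1) (nat_lit 4) (nat_lit 2) (nat_lit 5) (nat_lit 2) (nat_lit 4) (nat_lit 302) (nat_lit 214) (nat_lit 204)) (XT.nd (nat_lit 78) (nat_lit 0) (nat_lit 0) (XT.lf (nat_lit 0) (nat_lit 144099915477) (nat_lit 76) (nat_lit 26274341776) (nat_lit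 76) (nat_lit 24896934103) (nat_lit 1) (nat_lit 4) (nat_lit 2) (nat_lit 5) (nat_lit 2) (nat_lit 4) (nat_lit 303) (nat_lit 214) (nat_lit 203)) (XT.lf (nat_lit 0) (nat_lit 157438490062) (nat_lit 76) (nat_lit 27410635051) (nat_lit 76) (nat_lit 25956607364) (nat_lit 1) (nat_lit 4) (nat_lit 2) (nat_lit 5) (nat_lit 2) (nat_lit 4) (nat_lit 304) (nat_lit 214) (nat_lit 202)))))) (XT.nd (nat_lit 390) (nat_lit 0) (nat_lit 0) (XT.nd (nat_lit 156) (nat_lit 0) (nat_lit 0) (XT.nd (nat_lit 78) (nat_lit 0) (nat_lit 0) (XT.lf (nat_lit 0) (nat_lit 171783482210) (nat_lit 76) (nat_lit 28663723579) (nat_lit 76) (nat_lit 27138751435) (nat_lit 1) (nat_lit 4) (nat_lit 2) (nat_lit 5) (nat_lit 2) (nat_lit 4) (nat_lit 305) (nat_lit 214) (nat_lit 201)) (XT.lf (nat_lit 0) (nat_lit 187219899280) (nat_lit 76) (nat_lit 30041033071) (nat_lit 76) (nat_lit 28450371614) (nat_lit 1) (nat_lit 4) (nat_lit 2) (nat_lit 5)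 (nat_lit 2) (nat_lit 4) (nat_lit 306) (nat_lit 214) (nat_lit 200))) (XT.nd (nat_lit 78) (nat_lit 0) (nat_lit 0) (XT.lf (nat_lit 0) (nat_lit 203839216338) (nat_lit 76) (nat_lit 31550725359) (nat_lit 76) (nat_lit 29899240466) (nat_lit 1) (nat_lit 4) (nat_lit 2) (nat_lit 5) (nat_lit 2) (nat_lit 4) (nat_lit 307) (nat_lit 214) (nat_lit 199)) (XT.nd (nat_lit 78) (nat_lit 0) (nat_lit 0) (XT.lf (nat_lit 0) (nat_lit 221739918225) (nat_lit 76) (nat_lit 33201746769) (nat_lit 76) (nat_lit 31493943879) (nat_lit 1) (nat_lit 4) (nat_lit 2) (nat_lit 5) (nat_lit 2) (nat_lit 4) (nat_lit 308) (nat_lit 214) (nat_lit 198)) (XT.lf (nat_lit 0) (nat_lit 241028083175) (nat_lit 76) (nat_lit 35003881132) (nat_lit 76) (nat_lit 33243931947) (nat_lit 1) (nat_lit 4) (nat_lit 2) (nat_lit 5) (nat_lit 2) (nat_lit 4) (nat_lit 309) (nat_lit 214) (nat_lit 197))))) (XT.nd (nat_lit 234) (nat_lit 0) (nat_lit 0) (XT.nd (nat_lit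 78) (nat_lit 0) (nat_lit 0) (XT.lf (nat_lit 0) (nat_lit 261818011424) (nat_lit 76) (nat_lit 36967807761) (nat_lit 76) (nat_lit 35159574972) (nat_lit 1) (nat_lit 4) (nat_lit 2) (nat_lit 5) (nat_lit 2) (nat_lit 4) (nat_lit 310) (nat_lit 214) (nat_lit 196)) (XT.nd (nat_lit 78) (nat_lit 0) (nat_lit 0) (XT.lf (nat_lit 0) (nat_lit 284232902547) (nat_lit 76) (nat_lit 39105164742) (nat_lit 76) (nat_lit 37252224910) (nat_lit 1) (nat_lit 4) (nat_lit 2) (nat_lit 5) (nat_lit 2) (nat_lit 4) (nat_lit 311) (nat_lit 214) (nat_lit 195)) (XT.lf (nat_lit 0) (nat_lit 308405585528) (nat_lit 76) (nat_lit 41428617893) (nat_lit 76) (nat_lit 39534282652) (nat_lit 1) (nat_lit 4) (nat_lit 2) (nat_lit 5) (nat_lit 2) (nat_lit 4) (nat_lit 312) (nat_lit 214) (nat_lit 194)))) (XT.nd (nat_lit 78) (nat_lit 0) (nat_lit 0) (XT.lf (nat_lit 0) (nat_lit 334479305897) (nat_lit 76) (nat_lit 43951935824) (nat_lit 76) (nat_lit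 42019271501) (nat_lit 1) (nat_lit 4) (nat_lit 2) (nat_lit 5) (nat_lit 2) (nat_lit 4) (nat_lit 313) (nat_lit 214) (nat_lit 193)) (XT.nd (nat_lit 78) (nat_lit 0) (nat_lit 0) (XT.lf (nat_lit 0) (nat_lit 362608574589) (nat_lit 76) (nat_lit 46690071533) (nat_lit 76) (nat_lit 44721917318) (nat_lit 1) (nat_lit 4) (nat_lit 2) (nat_lit 5) (nat_lit 2) (nat_lit 4) (nat_lit 314) (nat_lit 214) (nat_lit 192)) (XT.lf (nat_lit 0) (nat_lit 392960083566) (nat_lit 76) (nat_lit 49659251006) (nat_lit 76) (nat_lit 47658235781) (nat_lit 1) (nat_lit 4) (nat_lit 2) (nat_lit 5) (nat_lit 2) (nat_lit 4) (nat_lit 315) (nat_lit 214) (nat_lit 191))))))) (XT.nd (nat_lit 858) (nat_lit 0) (nat_lit 0) (XT.nd (nat_lit 390) (nat_lit 0) (nat_lit 0) (XT.nd (nat_lit 156) (nat_lit 0) (nat_lit 0) (XT.nd (nat_lit 78) (nat_lit 0) (nat_lit 0) (XT.lf (nat_lit 0) (nat_lit 425713693622) (nat_lit 76) (nat_lit 52877069384) (nat_lit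 76) (nat_lit 50845627297) (nat_lit 1) (nat_lit 4) (nat_lit 2) (nat_lit 5) (nat_lit 2) (nat_lit 4) (nat_lit 316) (nat_lit 214) (nat_lit 190)) (XT.lf (nat_lit 0) (nat_lit 461063500225) (nat_lit 76) (nat_lit 56362595218) (nat_lit 76) (nat_lit 54302980111) (nat_lit 1) (nat_lit 4) (nat_lit 2) (nat_lit 5) (nat_lit 2) (nat_lit 4) (nat_lit 317) (nat_lit 214) (nat_lit 189))) (XT.nd (nat_lit 78) (nat_lit 0) (nat_lit 0) (XT.lf (nat_lit 0) (nat_lit 499218983710) (nat_lit 76) (nat_lit 60136483477) (nat_lit 76) (nat_lit 58050782240) (nat_lit 1) (nat_lit 4) (nat_lit 2) (nat_lit 5) (nat_lit 2) (nat_lit 4) (nat_lit 318) (nat_lit 214) (nat_lit 188)) (XT.nd (nat_lit 78) (nat_lit 0) (nat_lit 0) (XT.lf (nat_lit 0) (nat_lit 540406250645) (nat_lit 76) (nat_lit 64221097943) (nat_lit 76) (nat_lit 62111242882) (nat_lit 1) (nat_lit 4) (nat_lit 2) (nat_lit 5) (nat_lit 2) (nat_lit 4) (nat_lit 319) (nat_lit 214)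 (nat_lit 187)) (XT.lf (nat_lit 0) (nat_lit 584869373724) (nat_lit 76) (nat_lit 68640643738) (nat_lit 76) (nat_lit 66508424026) (nat_lit 1) (nat_lit 4) (nat_lit 2) (nat_lit 5) (nat_lit 2) (nat_lit 4) (nat_lit 320) (nat_lit 214) (nat_lit 186))))) (XT.nd (nat_lit 234) (nat_lit 0) (nat_lit 0) (XT.nd (nat_lit 78) (nat_lit 0) (nat_lit 0) (XT.lf (nat_lit 0) (nat_lit 632871838120) (nat_lit 76) (nat_lit 73421310764) (nat_lit 76) (nat_lit 71268383041) (nat_lit 1) (nat_lit 4) (nat_lit 2) (nat_lit 5) (nat_lit 2) (nat_lit 4) (nat_lit 321) (nat_lit 214) (nat_lit 185)) (XT.nd (nat_lit 78) (nat_lit 0) (nat_lit 0) (XT.lf (nat_lit 0) (nat_lit 684698102881) (nat_lit 76) (nat_lit 78591428900) (nat_lit 76) (nat_lit 76419327093) (nat_lit 1) (nat_lit 4) (nat_lit 2) (nat_lit 5) (nat_lit 2) (nat_lit 4) (nat_lit 322) (nat_lit 214) (nat_lit 184)) (XT.lf (nat_lit 0) (nat_lit 740655286615) (nat_lit 76) (nat_lit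 84181635882) (nat_lit 76) (nat_lit 81991780293) (nat_lit 1) (nat_lit 4) (nat_lit 2) (nat_lit 5) (nat_lit 2) (nat_lit 4) (nat_lit 323) (nat_lit 214) (nat_lit 183)))) (XT.nd (nat_lit 78) (nat_lit 0) (nat_lit 0) (XT.lf (nat_lit 0) (nat_lit 801074987446) (nat_lit 76) (nat_lit 90225058863) (nat_lit 76) (nat_lit 88018764588) (nat_lit 1) (nat_lit 4) (nat_lit 2) (nat_lit 5) (nat_lit 2) (nat_lit 4) (nat_lit 324) (nat_lit 214) (nat_lit 182)) (XT.nd (nat_lit 78) (nat_lit 0) (nat_lit 0) (XT.lf (nat_lit 0) (nat_lit 866315248046) (nat_lit 76) (nat_lit 96757510719) (nat_lit 76) (nat_lit 94535995439) (nat_lit 1) (nat_lit 4) (nat_lit 2) (nat_lit 5) (nat_lit 2) (nat_lit 4) (nat_lit 325) (nat_lit 214) (nat_lit 181)) (XT.lf (nat_lit 0) (nat_lit 936762677366) (nat_lit 76) (nat_lit 103817702278) (nat_lit 76) (nat_lit 101582093473) (nat_lit 1) (nat_lit 4) (nat_lit 2) (nat_lit 5) (nat_lit 2) (nat_lit 4)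 (nat_lit 326) (nat_lit 214) (nat_lit 180)))))) (XT.nd (nat_lit 390) (nat_lit 0) (nat_lit 0) (XT.nd (nat_lit 156) (nat_lit 0) (nat_lit 0) (XT.nd (nat_lit 78) (nat_lit 0) (nat_lit 0) (XT.lf (nat_lit 0) (nat_lit 1012834741655) (nat_lit 76) (nat_lit 111447471710) (nat_lit 76) (nat_lit 109198813346) (nat_lit 1) (nat_lit 4) (nat_lit 2) (nat_lit 5) (nat_lit 2) (nat_lit 4) (nat_lit 327) (nat_lit 214) (nat_lit 179)) (XT.lf (nat_lit 0) (nat_lit 1094982238331) (nat_lit 76) (nat_lit 119692032465) (nat_lit 76) (nat_lit 117431291175) (nat_lit 1) (nat_lit 4) (nat_lit 2) (nat_lit 5) (nat_lit 2) (nat_lit 4) (nat_lit 328) (nat_lit 214) (nat_lit 178))) (XT.nd (nat_lit 78) (nat_lit 0) (nat_lit 0) (XT.lf (nat_lit 0) (nat_lit 1183691967374) (nat_lit 76) (nat_lit 128600241199) (nat_lit 76) (nat_lit 126328312015) (nat_lit 1) (nat_lit 4) (nat_lit 2) (nat_lit 5) (nat_lit 2) (nat_lit 4) (nat_lit 329) (nat_lit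 214) (nat_lit 177)) (XT.nd (nat_lit 78) (nat_lit 0) (nat_lit 0) (XT.lf (nat_lit 0) (nat_lit 1279489616066) (nat_lit 76) (nat_lit 138224887296) (nat_lit 76) (nat_lit 135942598952) (nat_lit 1) (nat_lit 4) (nat_lit 2) (nat_lit 5) (nat_lit 2) (nat_lit 4) (nat_lit 330) (nat_lit 214) (nat_lit 176)) (XT.lf (nat_lit 0) (nat_lit 1382942874179) (nat_lit 76) (nat_lit 148623005697) (nat_lit 76) (nat_lit 146331125537) (nat_lit 1) (nat_lit 4) (nat_lit 2) (nat_lit 5) (nat_lit 2) (nat_lit 4) (nat_lit 331) (nat_lit 214) (nat_lit 175))))) (XT.nd (nat_lit 34320) (nat_lit 0) (nat_lit 0) (XT.nd (nat_lit 78) (nat_lit 0) (nat_lit 0) (XT.lf (nat_lit 0) (nat_lit 1494664798056) (nat_lit 76) (nat_lit 159856214881) (nat_lit 76) (nat_lit 157555453410) (nat_lit 1) (nat_lit 4) (nat_lit 2) (nat_lit 5) (nat_lit 2) (nat_lit 4) (nat_lit 332) (nat_lit 214) (nat_lit 174)) (XT.nd (nat_lit 34164) (nat_lit 0) (nat_lit 0)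 (XT.lf (nat_lit 0) (nat_lit 1615317443543) (nat_lit 76) (nat_lit 171991082014) (nat_lit 76) (nat_lit 169682097107) (nat_lit 1) (nat_lit 4) (nat_lit 2) (nat_lit 5) (nat_lit 2) (nat_lit 4) (nat_lit 333) (nat_lit 214) (nat_lit 173)) (XT.lf (nat_lit 0) (nat_lit 16362599709) (nat_lit 76) (nat_lit 10012712546) (nat_lit 76) (nat_lit 10012712546) (nat_lit 1) (nat_lit 4) (nat_lit 2) (nat_lit 5) (nat_lit 2) (nat_lit 4) (nat_lit 290) (nat_lit 215) (nat_lit 215)))) (XT.nd (nat_lit 78) (nat_lit 0) (nat_lit 0) (XT.lf (nat_lit 0) (nat_lit 38476538292) (nat_lit 76) (nat_lit 20081855900) (nat_lit 76) (nat_lit 19888913672) (nat_lit 1) (nat_lit 4) (nat_lit 2) (nat_lit 5) (nat_lit 2) (nat_lit 4) (nat_lit 291) (nat_lit 215) (nat_lit 214)) (XT.nd (nat_lit 78) (nat_lit 0) (nat_lit 0) (XT.lf (nat_lit 0) (nat_lit 44535210913) (nat_lit 76) (nat_lit 20208001108) (nat_lit 76) (nat_lit 19836408667) (nat_lit 1)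 (nat_lit 4) (nat_lit 2) (nat_lit 5) (nat_lit 2) (nat_lit 4) (nat_lit 292) (nat_lit 215) (nat_lit 213)) (XT.lf (nat_lit 0) (nat_lit 50937120526) (nat_lit 76) (nat_lit 20404608242) (nat_lit 76) (nat_lit 19867598939) (nat_lit 1) (nat_lit 4) (nat_lit 2) (nat_lit 5) (nat_lit 2) (nat_lit 4) (nat_lit 293) (nat_lit 215) (nat_lit 212))))))))
noncomputable def xc11 : XT := (XT.nd (nat_lit 1716) (nat_lit 0) (nat_lit 0) (XT.nd (nat_lit 858) (nat_lit 0) (nat_lit 0) (XT.nd (nat_lit 390) (nat_lit 0) (nat_lit 0) (XT.nd (nat_lit 156) (nat_lit 0) (nat_lit 0) (XT.nd (nat_lit 78) (nat_lit 0) (nat_lit 0) (XT.lf (nat_lit 0) (nat_lit 57720204373) (nat_lit 76) (nat_lit 20672842382) (nat_lit 76) (nat_lit 19982669318) (nat_lit 1) (nat_lit 4) (nat_lit 2) (nat_lit 5) (nat_lit 2) (nat_lit 4) (nat_lit 294) (nat_lit 215) (nat_lit 211)) (XT.lf (nat_lit 0) (nat_lit 64924658506) (nat_lit 76) (nat_lit 21014293065)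 (nat_lit 76) (nat_lit 20182301703) (nat_lit 1) (nat_lit 4) (nat_lit 2) (nat_lit 5) (nat_lit 2) (nat_lit 4) (nat_lit 295) (nat_lit 215) (nat_lit 210))) (XT.nd (nat_lit 78) (nat_lit 0) (nat_lit 0) (XT.lf (nat_lit 0) (nat_lit 72593175987) (nat_lit 76) (nat_lit 21430983701) (nat_lit 76) (nat_lit 20467679100) (nat_lit 1) (nat_lit 4) (nat_lit 2) (nat_lit 5) (nat_lit 2) (nat_lit 4) (nat_lit 296) (nat_lit 215) (nat_lit 209)) (XT.nd (nat_lit 78) (nat_lit 0) (nat_lit 0) (XT.lf (nat_lit 0) (nat_lit 80771199883) (nat_lit 76) (nat_lit 21925383568) (nat_lit 76) (nat_lit 20840492634) (nat_lit 1) (nat_lit 4) (nat_lit 2) (nat_lit 5) (nat_lit 2) (nat_lit 4) (nat_lit 297) (nat_lit 215) (nat_lit 208)) (XT.lf (nat_lit 0) (nat_lit 89507192557) (nat_lit 76) (nat_lit 22500422443) (nat_lit 76) (nat_lit 21302951572) (nat_lit 1) (nat_lit 4) (nat_lit 2) (nat_lit 5) (nat_lit 2) (nat_lit 4) (nat_lit 298) (nat_lit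 215) (nat_lit 207))))) (XT.nd (nat_lit 234) (nat_lit 0) (nat_lit 0) (XT.nd (nat_lit 78) (nat_lit 0) (nat_lit 0) (XT.lf (nat_lit 0) (nat_lit 98852922855) (nat_lit 76) (nat_lit 23159507964) (nat_lit 76) (nat_lit 21857796411) (nat_lit 1) (nat_lit 4) (nat_lit 2) (nat_lit 5) (nat_lit 2) (nat_lit 4) (nat_lit 299) (nat_lit 215) (nat_lit 206)) (XT.nd (nat_lit 78) (nat_lit 0) (nat_lit 0) (XT.lf (nat_lit 0) (nat_lit 108863772882) (nat_lit 76) (nat_lit 23906545823) (nat_lit 76) (nat_lit 22508315119) (nat_lit 1) (nat_lit 4) (nat_lit 2) (nat_lit 5) (nat_lit 2) (nat_lit 4) (nat_lit 300) (nat_lit 215) (nat_lit 205)) (XT.lf (nat_lit 0) (nat_lit 119599066194) (nat_lit 76) (nat_lit 24745962910) (nat_lit 76) (nat_lit 23258362623) (nat_lit 1) (nat_lit 4) (nat_lit 2) (nat_lit 5) (nat_lit 2) (nat_lit 4) (nat_lit 301) (nat_lit 215) (nat_lit 204)))) (XT.nd (nat_lit 78) (nat_lit 0) (nat_lit 0) (XT.lf (nat_lit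 0) (nat_lit 131122419345) (nat_lit 76) (nat_lit 25682733551) (nat_lit 76) (nat_lit 24112383649) (nat_lit 1) (nat_lit 4) (nat_lit 2) (nat_lit 5) (nat_lit 2) (nat_lit 4) (nat_lit 302) (nat_lit 215) (nat_lit 203)) (XT.nd (nat_lit 78) (nat_lit 0) (nat_lit 0) (XT.lf (nat_lit 0) (nat_lit 143502118870) (nat_lit 76) (nat_lit 26722408977) (nat_lit 76) (nat_lit 25075439061) (nat_lit 1) (nat_lit 4) (nat_lit 2) (nat_lit 5) (nat_lit 2) (nat_lit 4) (nat_lit 303) (nat_lit 215) (nat_lit 202)) (XT.lf (nat_lit 0) (nat_lit 156811525953) (nat_lit 76) (nat_lit 27871150228) (nat_lit 76) (nat_lit 26153235856) (nat_lit 1) (nat_lit 4) (nat_lit 2) (nat_lit 5) (nat_lit 2) (nat_lit 4) (nat_lit 304) (nat_lit 215) (nat_lit 201)))))) (XT.nd (nat_lit 390) (nat_lit 0) (nat_lit 0) (XT.nd (nat_lit 156) (nat_lit 0) (nat_lit 0) (XT.nd (nat_lit 78) (nat_lit 0) (nat_lit 0) (XT.lf (nat_lit 0) (nat_lit 171129511154) (nat_lit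 76) (nat_lit 29135764661) (nat_lit 76) (nat_lit 27352160976) (nat_lit 1) (nat_lit 4) (nat_lit 2) (nat_lit 5) (nat_lit 2) (nat_lit 4) (nat_lit 305) (nat_lit 215) (nat_lit 200)) (XT.lf (nat_lit 0) (nat_lit 186540921793) (nat_lit 76) (nat_lit 30523746286) (nat_lit 76) (nat_lit 28679319164) (nat_lit 1) (nat_lit 4) (nat_lit 2) (nat_lit 5) (nat_lit 2) (nat_lit 4) (nat_lit 306) (nat_lit 215) (nat_lit 199))) (XT.nd (nat_lit 78) (nat_lit 0) (nat_lit 0) (XT.lf (nat_lit 0) (nat_lit 203137084747) (nat_lit 76) (nat_lit 32043320179) (nat_lit 76) (nat_lit 30142575060) (nat_lit 1) (nat_lit 4) (nat_lit 2) (nat_lit 5) (nat_lit 2) (nat_lit 4) (nat_lit 307) (nat_lit 215) (nat_lit 198)) (XT.nd (nat_lit 78) (nat_lit 0) (nat_lit 0) (XT.lf (nat_lit 0) (nat_lit 221016347649) (nat_lit 76) (nat_lit 33703491224) (nat_lit 76) (nat_lit 31750599811) (nat_lit 1) (nat_lit 4) (nat_lit 2) (nat_lit 5) (nat_lit 2) (nat_lit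 4) (nat_lit 308) (nat_lit 215) (nat_lit 197)) (XT.lf (nat_lit 0) (nat_lit 240284661687) (nat_lit 76) (nat_lit 35514097470) (nat_lit 76) (nat_lit 33512922452) (nat_lit 1) (nat_lit 4) (nat_lit 2) (nat_lit 5) (nat_lit 2) (nat_lit 4) (nat_lit 309) (nat_lit 215) (nat_lit 196))))) (XT.nd (nat_lit 234) (nat_lit 0) (nat_lit 0) (XT.nd (nat_lit 78) (nat_lit 0) (nat_lit 0) (XT.lf (nat_lit 0) (nat_lit 261056209462) (nat_lit 76) (nat_lit 37485868436) (nat_lit 76) (nat_lit 35439986376) (nat_lit 1) (nat_lit 4) (nat_lit 2) (nat_lit 5) (nat_lit 2) (nat_lit 4) (nat_lit 310) (nat_lit 215) (nat_lit 195)) (XT.nd (nat_lit 78) (nat_lit 0) (nat_lit 0) (XT.lf (nat_lit 0) (nat_lit 283454081627) (nat_lit 76) (nat_lit 39630488692) (nat_lit 76) (nat_lit 37543211222) (nat_lit 1) (nat_lit 4) (nat_lit 2) (nat_lit 5) (nat_lit 2) (nat_lit 4) (nat_lit 311) (nat_lit 215) (nat_lit 194)) (XT.lf (nat_lit 0) (nat_lit 307611006315)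 (nat_lit 76) (nat_lit 41960667097) (nat_lit 76) (nat_lit 39835060545) (nat_lit 1) (nat_lit 4) (nat_lit 2) (nat_lit 5) (nat_lit 2) (nat_lit 4) (nat_lit 312) (nat_lit 215) (nat_lit 193)))) (XT.nd (nat_lit 78) (nat_lit 0) (nat_lit 0) (XT.lf (nat_lit 0) (nat_lit 333670135671) (nat_lit 76) (nat_lit 44490212116) (nat_lit 76) (nat_lit 42329115672) (nat_lit 1) (nat_lit 4) (nat_lit 2) (nat_lit 5) (nat_lit 2) (nat_lit 4) (nat_lit 313) (nat_lit 215) (nat_lit 192)) (XT.nd (nat_lit 78) (nat_lit 0) (nat_lit 0) (XT.lf (nat_lit 0) (nat_lit 361785894166) (nat_lit 76) (nat_lit 47234113646) (nat_lit 76) (nat_lit 45040156192) (nat_lit 1) (nat_lit 4) (nat_lit 2) (nat_lit 5) (nat_lit 2) (nat_lit 4) (nat_lit 314) (nat_lit 215) (nat_lit 191)) (XT.lf (nat_lit 0) (nat_lit 392124893701) (nat_lit 76) (nat_lit 50208631844) (nat_lit 76) (nat_lit 47984247528) (nat_lit 1) (nat_lit 4) (nat_lit 2) (nat_lit 5) (nat_lit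 2) (nat_lit 4) (nat_lit 315) (nat_lit 215) (nat_lit 190))))))) (XT.nd (nat_lit 858) (nat_lit 0) (nat_lit 0) (XT.nd (nat_lit 390) (nat_lit 0) (nat_lit 0) (XT.nd (nat_lit 156) (nat_lit 0) (nat_lit 0) (XT.nd (nat_lit 78) (nat_lit 0) (nat_lit 0) (XT.lf (nat_lit 0) (nat_lit 424866920941) (nat_lit 76) (nat_lit 53431393484) (nat_lit 76) (nat_lit 51178836148) (nat_lit 1) (nat_lit 4) (nat_lit 2) (nat_lit 5) (nat_lit 2) (nat_lit 4) (nat_lit 316) (nat_lit 215) (nat_lit 189)) (XT.lf (nat_lit 0) (nat_lit 460206002714) (nat_lit 76) (nat_lit 56921496413) (nat_lit 76) (nat_lit 54642852948) (nat_lit 1) (nat_lit 4) (nat_lit 2) (nat_lit 5) (nat_lit 2) (nat_lit 4) (nat_lit 317) (nat_lit 215) (nat_lit 188))) (XT.nd (nat_lit 78) (nat_lit 0) (nat_lit 0) (XT.lf (nat_lit 0) (nat_lit 498351555800) (nat_lit 76) (nat_lit 60699622723) (nat_lit 76) (nat_lit 58396825434) (nat_lit 1) (nat_lit 4) (nat_lit 2) (nat_lit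 5) (nat_lit 2) (nat_lit 4) (nat_lit 318) (nat_lit 215) (nat_lit 187)) (XT.nd (nat_lit 78) (nat_lit 0) (nat_lit 0) (XT.lf (nat_lit 0) (nat_lit 539529627922) (nat_lit 76) (nat_lit 64788161310) (nat_lit 76) (nat_lit 62462999370) (nat_lit 1) (nat_lit 4) (nat_lit 2) (nat_lit 5) (nat_lit 2) (nat_lit 4) (nat_lit 319) (nat_lit 215) (nat_lit 186)) (XT.lf (nat_lit 0) (nat_lit 583984237285) (nat_lit 76) (nat_lit 69211340551) (nat_lit 76) (nat_lit 66865470600) (nat_lit 1) (nat_lit 4) (nat_lit 2) (nat_lit 5) (nat_lit 2) (nat_lit 4) (nat_lit 320) (nat_lit 215) (nat_lit 185))))) (XT.nd (nat_lit 234) (nat_lit 0) (nat_lit 0) (XT.nd (nat_lit 78) (nat_lit 0) (nat_lit 0) (XT.lf (nat_lit 0) (nat_lit 631978818611) (nat_lit 76) (nat_lit 73995371879) (nat_lit 76) (nat_lit 71630327844) (nat_lit 1) (nat_lit 4) (nat_lit 2) (nat_lit 5) (nat_lit 2) (nat_lit 4) (nat_lit 321) (nat_lit 215) (nat_lit 184)) (XT.nd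 (nat_lit 78) (nat_lit 0) (nat_lit 0) (XT.lf (nat_lit 0) (nat_lit 683797784234) (nat_lit 76) (nat_lit 79168605108) (nat_lit 76) (nat_lit 76785807292) (nat_lit 1) (nat_lit 4) (nat_lit 2) (nat_lit 5) (nat_lit 2) (nat_lit 4) (nat_lit 322) (nat_lit 215) (nat_lit 183)) (XT.lf (nat_lit 0) (nat_lit 739748209505) (nat_lit 76) (nat_lit 84761696437) (nat_lit 76) (nat_lit 82362459933) (nat_lit 1) (nat_lit 4) (nat_lit 2) (nat_lit 5) (nat_lit 2) (nat_lit 4) (nat_lit 323) (nat_lit 215) (nat_lit 182)))) (XT.nd (nat_lit 78) (nat_lit 0) (nat_lit 0) (XT.lf (nat_lit 0) (nat_lit 800161652501) (nat_lit 76) (nat_lit 90807790109) (nat_lit 76) (nat_lit 88393332599) (nat_lit 1) (nat_lit 4) (nat_lit 2) (nat_lit 5) (nat_lit 2) (nat_lit 4) (nat_lit 324) (nat_lit 215) (nat_lit 181)) (XT.nd (nat_lit 78) (nat_lit 0) (nat_lit 0) (XT.lf (nat_lit 0) (nat_lit 865396118809) (nat_lit 76) (nat_lit 97342714828) (nat_lit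 76) (nat_lit 94914163794) (nat_lit 1) (nat_lit 4) (nat_lit 2) (nat_lit 5) (nat_lit 2) (nat_lit 4) (nat_lit 325) (nat_lit 215) (nat_lit 180)) (XT.lf (nat_lit 0) (nat_lit 935838183044) (nat_lit 76) (nat_lit 104405196073) (nat_lit 76) (nat_lit 101963595480) (nat_lit 1) (nat_lit 4) (nat_lit 2) (nat_lit 5) (nat_lit 2) (nat_lit 4) (nat_lit 326) (nat_lit 215) (nat_lit 179)))))) (XT.nd (nat_lit 390) (nat_lit 0) (nat_lit 0) (XT.nd (nat_lit 156) (nat_lit 0) (nat_lit 0) (XT.nd (nat_lit 78) (nat_lit 0) (nat_lit 0) (XT.lf (nat_lit 0) (nat_lit 1011905279662) (nat_lit 76) (nat_lit 112037085587) (nat_lit 76) (nat_lit 109583402068) (nat_lit 1) (nat_lit 4) (nat_lit 2) (nat_lit 5) (nat_lit 2) (nat_lit 4) (nat_lit 327) (nat_lit 215) (nat_lit 178)) (XT.lf (nat_lit 0) (nat_lit 1094048176642) (nat_lit 76) (nat_lit 120283609379) (nat_lit 76) (nat_lit 117818737967) (nat_lit 1) (nat_lit 4) (nat_lit 2) (nat_lit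 5) (nat_lit 2) (nat_lit 4) (nat_lit 328) (nat_lit 215) (nat_lit 177))) (XT.nd (nat_lit 78) (nat_lit 0) (nat_lit 0) (XT.lf (nat_lit 0) (nat_lit 1182753646707) (nat_lit 76) (nat_lit 129193635740) (nat_lit 76) (nat_lit 126718405167) (nat_lit 1) (nat_lit 4) (nat_lit 2) (nat_lit 5) (nat_lit 2) (nat_lit 4) (nat_lit 329) (nat_lit 215) (nat_lit 176)) (XT.nd (nat_lit 78) (nat_lit 0) (nat_lit 0) (XT.lf (nat_lit 0) (nat_lit 1278547351902) (nat_lit 76) (nat_lit 138819964826) (nat_lit 76) (nat_lit 136335142437) (nat_lit 1) (nat_lit 4) (nat_lit 2) (nat_lit 5) (nat_lit 2) (nat_lit 4) (nat_lit 330) (nat_lit 215) (nat_lit 175)) (XT.lf (nat_lit 0) (nat_lit 1381996958628) (nat_lit 76) (nat_lit 149219641549) (nat_lit 76) (nat_lit 146725937850) (nat_lit 1) (nat_lit 4) (nat_lit 2) (nat_lit 5) (nat_lit 2) (nat_lit 4) (nat_lit 331) (nat_lit 215) (nat_lit 174))))) (XT.nd (nat_lit 34164) (nat_lit 0) (nat_lit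 0) (XT.nd (nat_lit 78) (nat_lit 0) (nat_lit 0) (XT.lf (nat_lit 0) (nat_lit 1493715501591) (nat_lit 76) (nat_lit 160454293625) (nat_lit 76) (nat_lit 157952366489) (nat_lit 1) (nat_lit 4) (nat_lit 2) (nat_lit 5) (nat_lit 2) (nat_lit 4) (nat_lit 332) (nat_lit 215) (nat_lit 173)) (XT.nd (nat_lit 34008) (nat_lit 0) (nat_lit 0) (XT.lf (nat_lit 0) (nat_lit 1614365016603) (nat_lit 76) (nat_lit 172590496768) (nat_lit 76) (nat_lit 170080955340) (nat_lit 1) (nat_lit 4) (nat_lit 2) (nat_lit 5) (nat_lit 2) (nat_lit 4) (nat_lit 333) (nat_lit 215) (nat_lit 172)) (XT.lf (nat_lit 0) (nat_lit 11047742374) (nat_lit 76) (nat_lit 10146297844) (nat_lit 76) (nat_lit 10146297844) (nat_lit 1) (nat_lit 4) (nat_lit 2) (nat_lit 5) (nat_lit 2) (nat_lit 4) (nat_lit 288) (nat_lit 216) (nat_lit 216)))) (XT.nd (nat_lit 78) (nat_lit 0) (nat_lit 0) (XT.lf (nat_lit 0) (nat_lit 27247112283) (nat_lit 76) (nat_lit 20246751887)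 (nat_lit 76) (nat_lit 20038374280) (nat_lit 1) (nat_lit 4) (nat_lit 2) (nat_lit 5) (nat_lit 2) (nat_lit 4) (nat_lit 289) (nat_lit 216) (nat_lit 215)) (XT.nd (nat_lit 78) (nat_lit 0) (nat_lit 0) (XT.lf (nat_lit 0) (nat_lit 32645874787) (nat_lit 76) (nat_lit 20267656512) (nat_lit 76) (nat_lit 19866336677) (nat_lit 1) (nat_lit 4) (nat_lit 2) (nat_lit 5) (nat_lit 2) (nat_lit 4) (nat_lit 290) (nat_lit 216) (nat_lit 214)) (XT.lf (nat_lit 0) (nat_lit 38323764929) (nat_lit 76) (nat_lit 20355433442) (nat_lit 76) (nat_lit 19775463395) (nat_lit 1) (nat_lit 4) (nat_lit 2) (nat_lit 5) (nat_lit 2) (nat_lit 4) (nat_lit 291) (nat_lit 216) (nat_lit 213))))))))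
noncomputable def xc12 : XT := (XT.nd (nat_lit 1716) (nat_lit 0) (nat_lit 0) (XT.nd (nat_lit 858) (nat_lit 0) (nat_lit 0) (XT.nd (nat_lit 390) (nat_lit 0) (nat_lit 0) (XT.nd (nat_lit 156) (nat_lit 0) (nat_lit 0) (XT.nd (nat_lit 78) (nat_lit 0) (nat_lit 0) (XT.lf (nat_lit 0) (nat_lit 44314429464) (nat_lit 76) (nat_lit 20510602837) (nat_lit 76) (nat_lit 19765215928) (nat_lit 1) (nat_lit 4) (nat_lit 2) (nat_lit 5) (nat_lit 2) (nat_lit 4) (nat_lit 292) (nat_lit 216) (nat_lit 212)) (XT.lf (nat_lit 0) (nat_lit 50653368628) (nat_lit 76) (nat_lit 20734084219) (nat_lit 76) (nat_lit 19835533548) (nat_lit 1) (nat_lit 4) (nat_lit 2) (nat_lit 5) (nat_lit 2) (nat_lit 4) (nat_lit 293) (nat_lit 216) (nat_lit 211))) (XT.nd (nat_lit 78) (nat_lit 0) (nat_lit 0) (XT.lf (nat_lit 0) (nat_lit 57378146503) (nat_lit 76) (nat_lit 21027201923) (nat_lit 76) (nat_lit 19986832954) (nat_lit 1) (nat_lit 4) (nat_lit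 2) (nat_lit 5) (nat_lit 2) (nat_lit 4) (nat_lit 294) (nat_lit 216) (nat_lit 210)) (XT.nd (nat_lit 78) (nat_lit 0) (nat_lit 0) (XT.lf (nat_lit 0) (nat_lit 64528613625) (nat_lit 76) (nat_lit 21391692941) (nat_lit 76) (nat_lit 20220010733) (nat_lit 1) (nat_lit 4) (nat_lit 2) (nat_lit 5) (nat_lit 2) (nat_lit 4) (nat_lit 295) (nat_lit 216) (nat_lit 209)) (XT.lf (nat_lit 0) (nat_lit 72147143133) (nat_lit 76) (nat_lit 21829717221) (nat_lit 76) (nat_lit 20536448681) (nat_lit 1) (nat_lit 4) (nat_lit 2) (nat_lit 5) (nat_lit 2) (nat_lit 4) (nat_lit 296) (nat_lit 216) (nat_lit 208))))) (XT.nd (nat_lit 234) (nat_lit 0) (nat_lit 0) (XT.nd (nat_lit 78) (nat_lit 0) (nat_lit 0) (XT.lf (nat_lit 0) (nat_lit 80278881869) (nat_lit 76) (nat_lit 22343870463) (nat_lit 76) (nat_lit 20938021985) (nat_lit 1) (nat_lit 4) (nat_lit 2) (nat_lit 5) (nat_lit 2) (nat_lit 4) (nat_lit 297) (nat_lit 216) (nat_lit 207))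 (XT.nd (nat_lit 78) (nat_lit 0) (nat_lit 0) (XT.lf (nat_lit 0) (nat_lit 88972017913) (nat_lit 76) (nat_lit 22937199499) (nat_lit 76) (nat_lit 21427110339) (nat_lit 1) (nat_lit 4) (nat_lit 2) (nat_lit 5) (nat_lit 2) (nat_lit 4) (nat_lit 298) (nat_lit 216) (nat_lit 206)) (XT.lf (nat_lit 0) (nat_lit 98278066146) (nat_lit 76) (nat_lit 23613220355) (nat_lit 76) (nat_lit 22006612044) (nat_lit 1) (nat_lit 4) (nat_lit 2) (nat_lit 5) (nat_lit 2) (nat_lit 4) (nat_lit 299) (nat_lit 216) (nat_lit 205)))) (XT.nd (nat_lit 78) (nat_lit 0) (nat_lit 0) (XT.lf (nat_lit 0) (nat_lit 108252173521) (nat_lit 76) (nat_lit 24375939079) (nat_lit 76) (nat_lit 22679961185) (nat_lit 1) (nat_lit 4) (nat_lit 2) (nat_lit 5) (nat_lit 2) (nat_lit 4) (nat_lit 300) (nat_lit 216) (nat_lit 204)) (XT.nd (nat_lit 78) (nat_lit 0) (nat_lit 0) (XT.lf (nat_lit 0) (nat_lit 118953445859) (nat_lit 76) (nat_lit 25229875487) (nat_lit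 76) (nat_lit 23451147978) (nat_lit 1) (nat_lit 4) (nat_lit 2) (nat_lit 5) (nat_lit 2) (nat_lit 4) (nat_lit 301) (nat_lit 216) (nat_lit 203)) (XT.lf (nat_lit 0) (nat_lit 130445298106) (nat_lit 76) (nat_lit 26180089942) (nat_lit 76) (nat_lit 24324742420) (nat_lit 1) (nat_lit 4) (nat_lit 2) (nat_lit 5) (nat_lit 2) (nat_lit 4) (nat_lit 302) (nat_lit 216) (nat_lit 202)))))) (XT.nd (nat_lit 390) (nat_lit 0) (nat_lit 0) (XT.nd (nat_lit 156) (nat_lit 0) (nat_lit 0) (XT.nd (nat_lit 78) (nat_lit 0) (nat_lit 0) (XT.lf (nat_lit 0) (nat_lit 142795830130) (nat_lit 76) (nat_lit 27232213345) (nat_lit 76) (nat_lit 25305921365) (nat_lit 1) (nat_lit 4) (nat_lit 2) (nat_lit 5) (nat_lit 2) (nat_lit 4) (nat_lit 303) (nat_lit 216) (nat_lit 201)) (XT.lf (nat_lit 0) (nat_lit 156078230266) (nat_lit 76) (nat_lit 28392480500) (nat_lit 76) (nat_lit 26400499209) (nat_lit 1) (nat_lit 4) (nat_lit 2) (nat_lit 5)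 (nat_lit 2) (nat_lit 4) (nat_lit 304) (nat_lit 216) (nat_lit 200))) (XT.nd (nat_lit 78) (nat_lit 0) (nat_lit 0) (XT.lf (nat_lit 0) (nat_lit 170371209035) (nat_lit 76) (nat_lit 29667767066) (nat_lit 76) (nat_lit 27614962338) (nat_lit 1) (nat_lit 4) (nat_lit 2) (nat_lit 5) (nat_lit 2) (nat_lit 4) (nat_lit 305) (nat_lit 216) (nat_lit 199)) (XT.nd (nat_lit 78) (nat_lit 0) (nat_lit 0) (XT.lf (nat_lit 0) (nat_lit 185759465570) (nat_lit 76) (nat_lit 31065630296) (nat_lit 76) (nat_lit 28956507571) (nat_lit 1) (nat_lit 4) (nat_lit 2) (nat_lit 5) (nat_lit 2) (nat_lit 4) (nat_lit 306) (nat_lit 216) (nat_lit 198)) (XT.lf (nat_lit 0) (nat_lit 202334189540) (nat_lit 76) (nat_lit 32594353824) (nat_lit 76) (nat_lit 30433084805) (nat_lit 1) (nat_lit 4) (nat_lit 2) (nat_lit 5) (nat_lit 2) (nat_lit 4) (nat_lit 307) (nat_lit 216) (nat_lit 197))))) (XT.nd (nat_lit 234) (nat_lit 0) (nat_lit 0) (XT.nd (nat_lit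 78) (nat_lit 0) (nat_lit 0) (XT.lf (nat_lit 0) (nat_lit 220193601530) (nat_lit 76) (nat_lit 34262996753) (nat_lit 76) (nat_lit 32053444128) (nat_lit 1) (nat_lit 4) (nat_lit 2) (nat_lit 5) (nat_lit 2) (nat_lit 4) (nat_lit 308) (nat_lit 216) (nat_lit 196)) (XT.nd (nat_lit 78) (nat_lit 0) (nat_lit 0) (XT.lf (nat_lit 0) (nat_lit 239443535094) (nat_lit 76) (nat_lit 36081447336) (nat_lit 76) (nat_lit 33827187669) (nat_lit 1) (nat_lit 4) (nat_lit 2) (nat_lit 5) (nat_lit 2) (nat_lit 4) (nat_lit 309) (nat_lit 216) (nat_lit 195)) (XT.lf (nat_lit 0) (nat_lit 260198063912) (nat_lit 76) (nat_lit 38060481577) (nat_lit 76) (nat_lit 35764826501) (nat_lit 1) (nat_lit 4) (nat_lit 2) (nat_lit 5) (nat_lit 2) (nat_lit 4) (nat_lit 310) (nat_lit 216) (nat_lit 194)))) (XT.nd (nat_lit 78) (nat_lit 0) (nat_lit 0) (XT.lf (nat_lit 0) (nat_lit 282580177783) (nat_lit 76) (nat_lit 40211827087) (nat_lit 76) (nat_lit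 37877842928) (nat_lit 1) (nat_lit 4) (nat_lit 2) (nat_lit 5) (nat_lit 2) (nat_lit 4) (nat_lit 311) (nat_lit 216) (nat_lit 193)) (XT.nd (nat_lit 78) (nat_lit 0) (nat_lit 0) (XT.lf (nat_lit 0) (nat_lit 306722511458) (nat_lit 76) (nat_lit 42548232579) (nat_lit 76) (nat_lit 40178758529) (nat_lit 1) (nat_lit 4) (nat_lit 2) (nat_lit 5) (nat_lit 2) (nat_lit 4) (nat_lit 312) (nat_lit 216) (nat_lit 192)) (XT.lf (nat_lit 0) (nat_lit 332768130617) (nat_lit 76) (nat_lit 45083543420) (nat_lit 76) (nat_lit 42681208359) (nat_lit 1) (nat_lit 4) (nat_lit 2) (nat_lit 5) (nat_lit 2) (nat_lit 4) (nat_lit 313) (nat_lit 216) (nat_lit 191))))))) (XT.nd (nat_lit 858) (nat_lit 0) (nat_lit 0) (XT.nd (nat_lit 390) (nat_lit 0) (nat_lit 0) (XT.nd (nat_lit 156) (nat_lit 0) (nat_lit 0) (XT.nd (nat_lit 78) (nat_lit 0) (nat_lit 0) (XT.lf (nat_lit 0) (nat_lit 360871379670) (nat_lit 76) (nat_lit 47832783674) (nat_lit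 76) (nat_lit 45400021751) (nat_lit 1) (nat_lit 4) (nat_lit 2) (nat_lit 5) (nat_lit 2) (nat_lit 4) (nat_lit 314) (nat_lit 216) (nat_lit 190)) (XT.lf (nat_lit 0) (nat_lit 391198796389) (nat_lit 76) (nat_lit 50812245134) (nat_lit 76) (nat_lit 48351310192) (nat_lit 1) (nat_lit 4) (nat_lit 2) (nat_lit 5) (nat_lit 2) (nat_lit 4) (nat_lit 315) (nat_lit 216) (nat_lit 189))) (XT.nd (nat_lit 78) (nat_lit 0) (nat_lit 0) (XT.lf (nat_lit 0) (nat_lit 423930098799) (nat_lit 76) (nat_lit 54039583870) (nat_lit 76) (nat_lit 51552562798) (nat_lit 1) (nat_lit 4) (nat_lit 2) (nat_lit 5) (nat_lit 2) (nat_lit 4) (nat_lit 316) (nat_lit 216) (nat_lit 188)) (XT.nd (nat_lit 78) (nat_lit 0) (nat_lit 0) (XT.lf (nat_lit 0) (nat_lit 459259250174) (nat_lit 76) (nat_lit 57533924850) (nat_lit 76) (nat_lit 55022749954) (nat_lit 1) (nat_lit 4) (nat_lit 2) (nat_lit 5) (nat_lit 2) (nat_lit 4) (nat_lit 317) (nat_lit 216)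 (nat_lit 187)) (XT.lf (nat_lit 0) (nat_lit 497395608447) (nat_lit 76) (nat_lit 61315975281) (nat_lit 76) (nat_lit 58782435734) (nat_lit 1) (nat_lit 4) (nat_lit 2) (nat_lit 5) (nat_lit 2) (nat_lit 4) (nat_lit 318) (nat_lit 216) (nat_lit 186))))) (XT.nd (nat_lit 234) (nat_lit 0) (nat_lit 0) (XT.nd (nat_lit 78) (nat_lit 0) (nat_lit 0) (XT.lf (nat_lit 0) (nat_lit 538565166853) (nat_lit 76) (nat_lit 65408147314) (nat_lit 76) (nat_lit 62853899756) (nat_lit 1) (nat_lit 4) (nat_lit 2) (nat_lit 5) (nat_lit 2) (nat_lit 4) (nat_lit 319) (nat_lit 216) (nat_lit 185)) (XT.nd (nat_lit 78) (nat_lit 0) (nat_lit 0) (XT.lf (nat_lit 0) (nat_lit 583011893146) (nat_lit 76) (nat_lit 69834690857) (nat_lit 76) (nat_lit 67261269215) (nat_lit 1) (nat_lit 4) (nat_lit 2) (nat_lit 5) (nat_lit 2) (nat_lit 4) (nat_lit 320) (nat_lit 216) (nat_lit 184)) (XT.lf (nat_lit 0) (nat_lit 630999175333) (nat_lit 76) (nat_lit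 74621837278) (nat_lit 76) (nat_lit 72030661855) (nat_lit 1) (nat_lit 4) (nat_lit 2) (nat_lit 5) (nat_lit 2) (nat_lit 4) (nat_lit 321) (nat_lit 216) (nat_lit 183)))) (XT.nd (nat_lit 78) (nat_lit 0) (nat_lit 0) (XT.lf (nat_lit 0) (nat_lit 682811382493) (nat_lit 76) (nat_lit 79797954854) (nat_lit 76) (nat_lit 77190340744) (nat_lit 1) (nat_lit 4) (nat_lit 2) (nat_lit 5) (nat_lit 2) (nat_lit 4) (nat_lit 322) (nat_lit 216) (nat_lit 182)) (XT.nd (nat_lit 78) (nat_lit 0) (nat_lit 0) (XT.lf (nat_lit 0) (nat_lit 738755549929) (nat_lit 76) (nat_lit 85393716874) (nat_lit 76) (nat_lit 82770881758) (nat_lit 1) (nat_lit 4) (nat_lit 2) (nat_lit 5) (nat_lit 2) (nat_lit 4) (nat_lit 323) (nat_lit 216) (nat_lit 181)) (XT.lf (nat_lit 0) (nat_lit 799163198633) (nat_lit 76) (nat_lit 91442283408) (nat_lit 76) (nat_lit 88805354768) (nat_lit 1) (nat_lit 4) (nat_lit 2) (nat_lit 5) (nat_lit 2) (nat_lit 4) (nat_lit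 324) (nat_lit 216) (nat_lit 180)))))) (XT.nd (nat_lit 390) (nat_lit 0) (nat_lit 0) (XT.nd (nat_lit 156) (nat_lit 0) (nat_lit 0) (XT.nd (nat_lit 78) (nat_lit 0) (nat_lit 0) (XT.lf (nat_lit 0) (nat_lit 864392299856) (nat_lit 76) (nat_lit 97979497814) (nat_lit 76) (nat_lit 95329519614) (nat_lit 1) (nat_lit 4) (nat_lit 2) (nat_lit 5) (nat_lit 2) (nat_lit 4) (nat_lit 325) (nat_lit 216) (nat_lit 179)) (XT.lf (nat_lit 0) (nat_lit 934829396420) (nat_lit 76) (nat_lit 105044099140) (nat_lit 76) (nat_lit 102382038015) (nat_lit 1) (nat_lit 4) (nat_lit 2) (nat_lit 5) (nat_lit 2) (nat_lit 4) (nat_lit 326) (nat_lit 216) (nat_lit 178))) (XT.nd (nat_lit 78) (nat_lit 0) (nat_lit 0) (XT.lf (nat_lit 0) (nat_lit 1010891893342) (nat_lit 76) (nat_lit 112677951691) (nat_lit 76) (nat_lit 110004702672) (nat_lit 1) (nat_lit 4) (nat_lit 2) (nat_lit 5) (nat_lit 2) (nat_lit 4) (nat_lit 327) (nat_lit 216) (nat_lit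 177)) (XT.nd (nat_lit 78) (nat_lit 0) (nat_lit 0) (XT.lf (nat_lit 0) (nat_lit 1093030531344) (nat_lit 76) (nat_lit 120926293111) (nat_lit 76) (nat_lit 118242684931) (nat_lit 1) (nat_lit 4) (nat_lit 2) (nat_lit 5) (nat_lit 2) (nat_lit 4) (nat_lit 328) (nat_lit 216) (nat_lit 176)) (XT.lf (nat_lit 0) (nat_lit 1181732057911) (nat_lit 76) (nat_lit 129838002460) (nat_lit 76) (nat_lit 127144802465) (nat_lit 1) (nat_lit 4) (nat_lit 2) (nat_lit 5) (nat_lit 2) (nat_lit 4) (nat_lit 329) (nat_lit 216) (nat_lit 175))))) (XT.nd (nat_lit 234) (nat_lit 0) (nat_lit 0) (XT.nd (nat_lit 78) (nat_lit 0) (nat_lit 0) (XT.lf (nat_lit 0) (nat_lit 1277522111719) (nat_lit 76) (nat_lit 139465889869) (nat_lit 76) (nat_lit 136763808562) (nat_lit 1) (nat_lit 4) (nat_lit 2) (nat_lit 5) (nat_lit 2) (nat_lit 4) (nat_lit 330) (nat_lit 216) (nat_lit 174)) (XT.nd (nat_lit 78) (nat_lit 0) (nat_lit 0) (XT.lf (nat_lit 0)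 (nat_lit 1380968337532) (nat_lit 76) (nat_lit 149867009484) (nat_lit 76) (nat_lit 147156704741) (nat_lit 1) (nat_lit 4) (nat_lit 2) (nat_lit 5) (nat_lit 2) (nat_lit 4) (nat_lit 331) (nat_lit 216) (nat_lit 173)) (XT.lf (nat_lit 0) (nat_lit 1492683750020) (nat_lit 76) (nat_lit 161102997570) (nat_lit 76) (nat_lit 158385078534) (nat_lit 1) (nat_lit 4) (nat_lit 2) (nat_lit 5) (nat_lit 2) (nat_lit 4) (nat_lit 332) (nat_lit 216) (nat_lit 172)))) (XT.nd (nat_lit 33852) (nat_lit 0) (nat_lit 0) (XT.lf (nat_lit 0) (nat_lit 1613330366443) (nat_lit 76) (nat_lit 173240437759) (nat_lit 76) (nat_lit 170515468453) (nat_lit 1) (nat_lit 4) (nat_lit 2) (nat_lit 5) (nat_lit 2) (nat_lit 4) (nat_lit 333) (nat_lit 216) (nat_lit 171)) (XT.nd (nat_lit 78) (nat_lit 0) (nat_lit 0) (XT.lf (nat_lit 0) (nat_lit 6252664892) (nat_lit 76) (nat_lit 10385786559) (nat_lit 76) (nat_lit 10385786559) (nat_lit 1) (nat_lit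 4) (nat_lit 2) (nat_lit 5) (nat_lit 2) (nat_lit 4) (nat_lit 286) (nat_lit 217) (nat_lit 217)) (XT.lf (nat_lit 0) (nat_lit 17160464021) (nat_lit 76) (nat_lit 20630507397) (nat_lit 76) (nat_lit 20405459581) (nat_lit 1) (nat_lit 4) (nat_lit 2) (nat_lit 5) (nat_lit 2) (nat_lit 4) (nat_lit 287) (nat_lit 217) (nat_lit 216))))))))
noncomputable def xc13 : XT := (XT.nd (nat_lit 1716) (nat_lit 0) (nat_lit 0) (XT.nd (nat_lit 858) (nat_lit 0) (nat_lit 0) (XT.nd (nat_lit 390) (nat_lit 0) (nat_lit 0) (XT.nd (nat_lit 156) (nat_lit 0) (nat_lit 0) (XT.nd (nat_lit 78) (nat_lit 0) (nat_lit 0) (XT.lf (nat_lit 0) (nat_lit 22009814147) (nat_lit 76) (nat_lit 20554205620) (nat_lit 76) (nat_lit 20120780198) (nat_lit 1) (nat_lit 4) (nat_lit 2) (nat_lit 5) (nat_lit 2) (nat_lit 4) (nat_lit 288) (nat_lit 217) (nat_lit 215)) (XT.lf (nat_lit 0) (nat_lit 27082117050) (nat_lit 76) (nat_lit 20542215632) (nat_lit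 76) (nat_lit 19915847981) (nat_lit 1) (nat_lit 4) (nat_lit 2) (nat_lit 5) (nat_lit 2) (nat_lit 4) (nat_lit 289) (nat_lit 217) (nat_lit 214))) (XT.nd (nat_lit 78) (nat_lit 0) (nat_lit 0) (XT.lf (nat_lit 0) (nat_lit 32407430823) (nat_lit 76) (nat_lit 20594466380) (nat_lit 76) (nat_lit 19789448518) (nat_lit 1) (nat_lit 4) (nat_lit 2) (nat_lit 5) (nat_lit 2) (nat_lit 4) (nat_lit 290) (nat_lit 217) (nat_lit 213)) (XT.nd (nat_lit 78) (nat_lit 0) (nat_lit 0) (XT.lf (nat_lit 0) (nat_lit 38017312879) (nat_lit 76) (nat_lit 20711267498) (nat_lit 76) (nat_lit 19740832773) (nat_lit 1) (nat_lit 4) (nat_lit 2) (nat_lit 5) (nat_lit 2) (nat_lit 4) (nat_lit 291) (nat_lit 217) (nat_lit 212)) (XT.lf (nat_lit 0) (nat_lit 43945006965) (nat_lit 76) (nat_lit 20893311141) (nat_lit 76) (nat_lit 19769712654) (nat_lit 1) (nat_lit 4) (nat_lit 2) (nat_lit 5) (nat_lit 2) (nat_lit 4) (nat_lit 292) (nat_lit 217)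 (nat_lit 211))))) (XT.nd (nat_lit 234) (nat_lit 0) (nat_lit 0) (XT.nd (nat_lit 78) (nat_lit 0) (nat_lit 0) (XT.lf (nat_lit 0) (nat_lit 50225640156) (nat_lit 76) (nat_lit 21141676086) (nat_lit 76) (nat_lit 19876259301) (nat_lit 1) (nat_lit 4) (nat_lit 2) (nat_lit 5) (nat_lit 2) (nat_lit 4) (nat_lit 293) (nat_lit 217) (nat_lit 210)) (XT.nd (nat_lit 78) (nat_lit 0) (nat_lit 0) (XT.lf (nat_lit 0) (nat_lit 56896431020) (nat_lit 76) (nat_lit 21457834125) (nat_lit 76) (nat_lit 20061104102) (nat_lit 1) (nat_lit 4) (nat_lit 2) (nat_lit 5) (nat_lit 2) (nat_lit 4) (nat_lit 294) (nat_lit 217) (nat_lit 209)) (XT.lf (nat_lit 0) (nat_lit 63996910170) (nat_lit 76) (nat_lit 21843658788) (nat_lit 76) (nat_lit 20325342432) (nat_lit 1) (nat_lit 4) (nat_lit 2) (nat_lit 5) (nat_lit 2) (nat_lit 4) (nat_lit 295) (nat_lit 217) (nat_lit 208)))) (XT.nd (nat_lit 78) (nat_lit 0) (nat_lit 0) (XT.lf (nat_lit 0)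 (nat_lit 71569154518) (nat_lit 76) (nat_lit 22301436442) (nat_lit 76) (nat_lit 20670540150) (nat_lit 1) (nat_lit 4) (nat_lit 2) (nat_lit 5) (nat_lit 2) (nat_lit 4) (nat_lit 296) (nat_lit 217) (nat_lit 207)) (XT.nd (nat_lit 78) (nat_lit 0) (nat_lit 0) (XT.lf (nat_lit 0) (nat_lit 79658036623) (nat_lit 76) (nat_lit 22833879845) (nat_lit 76) (nat_lit 21098742870) (nat_lit 1) (nat_lit 4) (nat_lit 2) (nat_lit 5) (nat_lit 2) (nat_lit 4) (nat_lit 297) (nat_lit 217) (nat_lit 206)) (XT.lf (nat_lit 0) (nat_lit 88311490603) (nat_lit 76) (nat_lit 23444144216) (nat_lit 76) (nat_lit 21612488091) (nat_lit 1) (nat_lit 4) (nat_lit 2) (nat_lit 5) (nat_lit 2) (nat_lit 4) (nat_lit 298) (nat_lit 217) (nat_lit 205)))))) (XT.nd (nat_lit 390) (nat_lit 0) (nat_lit 0) (XT.nd (nat_lit 156) (nat_lit 0) (nat_lit 0) (XT.nd (nat_lit 78) (nat_lit 0) (nat_lit 0) (XT.lf (nat_lit 0) (nat_lit 97580796183) (nat_lit 76)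 (nat_lit 24135845938) (nat_lit 76) (nat_lit 22214820228) (nat_lit 1) (nat_lit 4) (nat_lit 2) (nat_lit 5) (nat_lit 2) (nat_lit 4) (nat_lit 299) (nat_lit 217) (nat_lit 204)) (XT.lf (nat_lit 0) (nat_lit 107520882584) (nat_lit 76) (nat_lit 24913083982) (nat_lit 76) (nat_lit 22909308658) (nat_lit 1) (nat_lit 4) (nat_lit 2) (nat_lit 5) (nat_lit 2) (nat_lit 4) (nat_lit 300) (nat_lit 217) (nat_lit 203))) (XT.nd (nat_lit 78) (nat_lit 0) (nat_lit 0) (XT.lf (nat_lit 0) (nat_lit 118190654019) (nat_lit 76) (nat_lit 25780464204) (nat_lit 76) (nat_lit 23700068867) (nat_lit 1) (nat_lit 4) (nat_lit 2) (nat_lit 5) (nat_lit 2) (nat_lit 4) (nat_lit 301) (nat_lit 217) (nat_lit 202)) (XT.nd (nat_lit 78) (nat_lit 0) (nat_lit 0) (XT.lf (nat_lit 0) (nat_lit 129653338765) (nat_lit 76) (nat_lit 26743126636) (nat_lit 76) (nat_lit 24591786841) (nat_lit 1) (nat_lit 4) (nat_lit 2) (nat_lit 5) (nat_lit 2) (nat_lit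 4) (nat_lit 302) (nat_lit 217) (nat_lit 201)) (XT.lf (nat_lit 0) (nat_lit 141976863842) (nat_lit 76) (nat_lit 27806775943) (nat_lit 76) (nat_lit 25589746836) (nat_lit 1) (nat_lit 4) (nat_lit 2) (nat_lit 5) (nat_lit 2) (nat_lit 4) (nat_lit 303) (nat_lit 217) (nat_lit 200))))) (XT.nd (nat_lit 234) (nat_lit 0) (nat_lit 0) (XT.nd (nat_lit 78) (nat_lit 0) (nat_lit 0) (XT.lf (nat_lit 0) (nat_lit 155234257546) (nat_lit 76) (nat_lit 28977715232) (nat_lit 76) (nat_lit 26699862688) (nat_lit 1) (nat_lit 4) (nat_lit 2) (nat_lit 5) (nat_lit 2) (nat_lit 4) (nat_lit 304) (nat_lit 217) (nat_lit 199)) (XT.nd (nat_lit 78) (nat_lit 0) (nat_lit 0) (XT.lf (nat_lit 0) (nat_lit 169504082212) (nat_lit 76) (nat_lit 30262883403) (nat_lit 76) (nat_lit 27928712862) (nat_lit 1) (nat_lit 4) (nat_lit 2) (nat_lit 5) (nat_lit 2) (nat_lit 4) (nat_lit 305) (nat_lit 217) (nat_lit 198)) (XT.lf (nat_lit 0) (nat_lit 184870899762)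 (nat_lit 76) (nat_lit 31669896268) (nat_lit 76) (nat_lit 29283579433) (nat_lit 1) (nat_lit 4) (nat_lit 2) (nat_lit 5) (nat_lit 2) (nat_lit 4) (nat_lit 306) (nat_lit 217) (nat_lit 197)))) (XT.nd (nat_lit 78) (nat_lit 0) (nat_lit 0) (XT.lf (nat_lit 0) (nat_lit 201425772820) (nat_lit 76) (nat_lit 33207091679) (nat_lit 76) (nat_lit 30772491239) (nat_lit 1) (nat_lit 4) (nat_lit 2) (nat_lit 5) (nat_lit 2) (nat_lit 4) (nat_lit 307) (nat_lit 217) (nat_lit 196)) (XT.nd (nat_lit 78) (nat_lit 0) (nat_lit 0) (XT.lf (nat_lit 0) (nat_lit 219266804336) (nat_lit 76) (nat_lit 34883578945) (nat_lit 76) (nat_lit 32404271462) (nat_lit 1) (nat_lit 4) (nat_lit 2) (nat_lit 5) (nat_lit 2) (nat_lit 4) (nat_lit 308) (nat_lit 217) (nat_lit 195)) (XT.lf (nat_lit 0) (nat_lit 238499718943) (nat_lit 76) (nat_lit 36709292802) (nat_lit 76) (nat_lit 34188589911) (nat_lit 1) (nat_lit 4) (nat_lit 2) (nat_lit 5) (nat_lit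 2) (nat_lit 4) (nat_lit 309) (nat_lit 217) (nat_lit 194))))))) (XT.nd (nat_lit 858) (nat_lit 0) (nat_lit 0) (XT.nd (nat_lit 390) (nat_lit 0) (nat_lit 0) (XT.nd (nat_lit 156) (nat_lit 0) (nat_lit 0) (XT.nd (nat_lit 78) (nat_lit 0) (nat_lit 0) (XT.lf (nat_lit 0) (nat_lit 259238489466) (nat_lit 76) (nat_lit 38695052298) (nat_lit 76) (nat_lit 36136020324) (nat_lit 1) (nat_lit 4) (nat_lit 2) (nat_lit 5) (nat_lit 2) (nat_lit 4) (nat_lit 310) (nat_lit 217) (nat_lit 193)) (XT.lf (nat_lit 0) (nat_lit 281606012325) (nat_lit 76) (nat_lit 40852624895) (nat_lit 76) (nat_lit 38258103029) (nat_lit 1) (nat_lit 4) (nat_lit 2) (nat_lit 5) (nat_lit 2) (nat_lit 4) (nat_lit 311) (nat_lit 217) (nat_lit 192))) (XT.nd (nat_lit 78) (nat_lit 0) (nat_lit 0) (XT.lf (nat_lit 0) (nat_lit 305734835803) (nat_lit 76) (nat_lit 43194796209) (nat_lit 76) (nat_lit 40567413333) (nat_lit 1) (nat_lit 4) (nat_lit 2) (nat_lit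 5) (nat_lit 2) (nat_lit 4) (nat_lit 312) (nat_lit 217) (nat_lit 191)) (XT.nd (nat_lit 78) (nat_lit 0) (nat_lit 0) (XT.lf (nat_lit 0) (nat_lit 331767945520) (nat_lit 76) (nat_lit 45735445774) (nat_lit 76) (nat_lit 43077636036) (nat_lit 1) (nat_lit 4) (nat_lit 2) (nat_lit 5) (nat_lit 2) (nat_lit 4) (nat_lit 313) (nat_lit 217) (nat_lit 190)) (XT.lf (nat_lit 0) (nat_lit 359859611757) (nat_lit 76) (nat_lit 48489629290) (nat_lit 76) (nat_lit 45803646533) (nat_lit 1) (nat_lit 4) (nat_lit 2) (nat_lit 5) (nat_lit 2) (nat_lit 4) (nat_lit 314) (nat_lit 217) (nat_lit 189))))) (XT.nd (nat_lit 234) (nat_lit 0) (nat_lit 0) (XT.nd (nat_lit 78) (nat_lit 0) (nat_lit 0) (XT.lf (nat_lit 0) (nat_lit 390176303646) (nat_lit 76) (nat_lit 51473667846) (nat_lit 76) (nat_lit 48761598959) (nat_lit 1) (nat_lit 4) (nat_lit 2) (nat_lit 5) (nat_lit 2) (nat_lit 4) (nat_lit 315) (nat_lit 217) (nat_lit 188)) (XT.nd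 (nat_lit 78) (nat_lit 0) (nat_lit 0) (XT.lf (nat_lit 0) (nat_lit 422897675657) (nat_lit 76) (nat_lit 54705244633) (nat_lit 76) (nat_lit 51969021921) (nat_lit 1) (nat_lit 4) (nat_lit 2) (nat_lit 5) (nat_lit 2) (nat_lit 4) (nat_lit 316) (nat_lit 217) (nat_lit 187)) (XT.lf (nat_lit 0) (nat_lit 458217632219) (nat_lit 76) (nat_lit 58203509734) (nat_lit 76) (nat_lit 55444922372) (nat_lit 1) (nat_lit 4) (nat_lit 2) (nat_lit 5) (nat_lit 2) (nat_lit 4) (nat_lit 317) (nat_lit 217) (nat_lit 186)))) (XT.nd (nat_lit 78) (nat_lit 0) (nat_lit 0) (XT.lf (nat_lit 0) (nat_lit 496345476776) (nat_lit 76) (nat_lit 61989193611) (nat_lit 76) (nat_lit 59209898238) (nat_lit 1) (nat_lit 4) (nat_lit 2) (nat_lit 5) (nat_lit 2) (nat_lit 4) (nat_lit 318) (nat_lit 217) (nat_lit 185)) (XT.nd (nat_lit 78) (nat_lit 0) (nat_lit 0) (XT.lf (nat_lit 0) (nat_lit 537507152113) (nat_lit 76) (nat_lit 66084729946) (nat_lit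 76) (nat_lit 63286260488) (nat_lit 1) (nat_lit 4) (nat_lit 2) (nat_lit 5) (nat_lit 2) (nat_lit 4) (nat_lit 319) (nat_lit 217) (nat_lit 184)) (XT.lf (nat_lit 0) (nat_lit 581946579266) (nat_lit 76) (nat_lit 70514388582) (nat_lit 76) (nat_lit 67698165343) (nat_lit 1) (nat_lit 4) (nat_lit 2) (nat_lit 5) (nat_lit 2) (nat_lit 4) (nat_lit 320) (nat_lit 217) (nat_lit 183)))))) (XT.nd (nat_lit 390) (nat_lit 0) (nat_lit 0) (XT.nd (nat_lit 156) (nat_lit 0) (nat_lit 0) (XT.nd (nat_lit 78) (nat_lit 0) (nat_lit 0) (XT.lf (nat_lit 0) (nat_lit 629927102991) (nat_lit 76) (nat_lit 75304419350) (nat_lit 76) (nat_lit 72471757425) (nat_lit 1) (nat_lit 4) (nat_lit 2) (nat_lit 5) (nat_lit 2) (nat_lit 4) (nat_lit 321) (nat_lit 217) (nat_lit 182)) (XT.lf (nat_lit 0) (nat_lit 681733052316) (nat_lit 76) (nat_lit 80483207617) (nat_lit 76) (nat_lit 77635324686) (nat_lit 1) (nat_lit 4) (nat_lit 2) (nat_lit 5)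 (nat_lit 2) (nat_lit 4) (nat_lit 322) (nat_lit 217) (nat_lit 181))) (XT.nd (nat_lit 78) (nat_lit 0) (nat_lit 0) (XT.lf (nat_lit 0) (nat_lit 737671425460) (nat_lit 76) (nat_lit 86081442499) (nat_lit 76) (nat_lit 83219466043) (nat_lit 1) (nat_lit 4) (nat_lit 2) (nat_lit 5) (nat_lit 2) (nat_lit 4) (nat_lit 323) (nat_lit 217) (nat_lit 180)) (XT.nd (nat_lit 78) (nat_lit 0) (nat_lit 0) (XT.lf (nat_lit 0) (nat_lit 798073709078) (nat_lit 76) (nat_lit 92132298720) (nat_lit 76) (nat_lit 89257272705) (nat_lit 1) (nat_lit 4) (nat_lit 2) (nat_lit 5) (nat_lit 2) (nat_lit 4) (nat_lit 324) (nat_lit 217) (nat_lit 179)) (XT.lf (nat_lit 0) (nat_lit 863297842630) (nat_lit 76) (nat_lit 98671633207) (nat_lit 76) (nat_lit 95784524266) (nat_lit 1) (nat_lit 4) (nat_lit 2) (nat_lit 5) (nat_lit 2) (nat_lit 4) (nat_lit 325) (nat_lit 217) (nat_lit 178))))) (XT.nd (nat_lit 234) (nat_lit 0) (nat_lit 0) (XT.nd (nat_lit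 78) (nat_lit 0) (nat_lit 0) (XT.lf (nat_lit 0) (nat_lit 933730339498) (nat_lit 76) (nat_lit 105738197571) (nat_lit 76) (nat_lit 102839900737) (nat_lit 1) (nat_lit 4) (nat_lit 2) (nat_lit 5) (nat_lit 2) (nat_lit 4) (nat_lit 326) (nat_lit 217) (nat_lit 177)) (XT.nd (nat_lit 78) (nat_lit 0) (nat_lit 0) (XT.lf (nat_lit 0) (nat_lit 1009788577442) (nat_lit 76) (nat_lit 113373867749) (nat_lit 76) (nat_lit 110465211754) (nat_lit 1) (nat_lit 4) (nat_lit 2) (nat_lit 5) (nat_lit 2) (nat_lit 4) (nat_lit 327) (nat_lit 217) (nat_lit 176)) (XT.lf (nat_lit 0) (nat_lit 1091923271947) (nat_lit 76) (nat_lit 121623892158) (nat_lit 76) (nat_lit 118705644346) (nat_lit 1) (nat_lit 4) (nat_lit 2) (nat_lit 5) (nat_lit 2) (nat_lit 4) (nat_lit 328) (nat_lit 217) (nat_lit 175)))) (XT.nd (nat_lit 78) (nat_lit 0) (nat_lit 0) (XT.lf (nat_lit 0) (nat_lit 1180621147128) (nat_lit 76) (nat_lit 130537159830) (nat_lit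 76) (nat_lit 127610030708) (nat_lit 1) (nat_lit 4) (nat_lit 2) (nat_lit 5) (nat_lit 2) (nat_lit 4) (nat_lit 329) (nat_lit 217) (nat_lit 174)) (XT.nd (nat_lit 78) (nat_lit 0) (nat_lit 0) (XT.lf (nat_lit 0) (nat_lit 1276407820022) (nat_lit 76) (nat_lit 140166490129) (nat_lit 76) (nat_lit 137231137571) (nat_lit 1) (nat_lit 4) (nat_lit 2) (nat_lit 5) (nat_lit 2) (nat_lit 4) (nat_lit 330) (nat_lit 217) (nat_lit 173)) (XT.lf (nat_lit 0) (nat_lit 1379850915359) (nat_lit 76) (nat_lit 150568945754) (nat_lit 76) (nat_lit 147625978904) (nat_lit 1) (nat_lit 4) (nat_lit 2) (nat_lit 5) (nat_lit 2) (nat_lit 4) (nat_lit 331) (nat_lit 217) (nat_lit 172))))))))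
noncomputable def xc14 : XT := (XT.nd (nat_lit 35334) (nat_lit 0) (nat_lit 0) (XT.nd (nat_lit 34476) (nat_lit 0) (nat_lit 0) (XT.nd (nat_lit 34008) (nat_lit 0) (nat_lit 0) (XT.nd (nat_lit 33774) (nat_lit 0) (nat_lit 0) (XT.nd (nat_lit 78) (nat_lit 0) (nat_lit 0) (XT.lf (nat_lit 0) (nat_lit 1491563429258) (nat_lit 76) (nat_lit 161806170887) (nat_lit 76) (nat_lit 158856153766) (nat_lit 1) (nat_lit 4) (nat_lit 2) (nat_lit 5) (nat_lit 2) (nat_lit 4) (nat_lit 332) (nat_lit 217) (nat_lit 171)) (XT.lf (nat_lit 0) (nat_lit 1612207361803) (nat_lit 76) (nat_lit 173944756490) (nat_lit 76) (nat_lit 170988211340) (nat_lit 1) (nat_lit 4) (nat_lit 2) (nat_lit 5) (nat_lit 2) (nat_lit 4) (nat_lit 333) (nat_lit 217) (nat_lit 170))) (XT.nd (nat_lit 78) (nat_lit 0) (nat_lit 0) (XT.lf (nat_lit 0) (nat_lit 1884139338) (nat_lit 76) (nat_lit 10726067255) (nat_lit 76) (nat_lit 10726067255) (nat_lit 1) (nat_lit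 4) (nat_lit 2) (nat_lit 5) (nat_lit 2) (nat_lit 4) (nat_lit 284) (nat_lit 218) (nat_lit 218)) (XT.nd (nat_lit 78) (nat_lit 0) (nat_lit 0) (XT.lf (nat_lit 0) (nat_lit 8016825454) (nat_lit 76) (nat_lit 21221290374) (nat_lit 76) (nat_lit 20978238733) (nat_lit 1) (nat_lit 4) (nat_lit 2) (nat_lit 5) (nat_lit 2) (nat_lit 4) (nat_lit 285) (nat_lit 218) (nat_lit 217)) (XT.lf (nat_lit 0) (nat_lit 12412805534) (nat_lit 76) (nat_lit 21054111847) (nat_lit 76) (nat_lit 20586012391) (nat_lit 1) (nat_lit 4) (nat_lit 2) (nat_lit 5) (nat_lit 2) (nat_lit 4) (nat_lit 286) (nat_lit 218) (nat_lit 216))))) (XT.nd (nat_lit 234) (nat_lit 0) (nat_lit 0) (XT.nd (nat_lit 78) (nat_lit 0) (nat_lit 0) (XT.lf (nat_lit 0) (nat_lit 16982269170) (nat_lit 76) (nat_lit 20949608241) (nat_lit 76) (nat_lit 20273131179) (nat_lit 1) (nat_lit 4) (nat_lit 2) (nat_lit 5) (nat_lit 2) (nat_lit 4) (nat_lit 287) (nat_lit 218) (nat_lit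 215)) (XT.nd (nat_lit 78) (nat_lit 0) (nat_lit 0) (XT.lf (nat_lit 0) (nat_lit 21752294665) (nat_lit 76) (nat_lit 20907160278) (nat_lit 76) (nat_lit 20037740986) (nat_lit 1) (nat_lit 4) (nat_lit 2) (nat_lit 5) (nat_lit 2) (nat_lit 4) (nat_lit 288) (nat_lit 218) (nat_lit 214)) (XT.lf (nat_lit 0) (nat_lit 26751148836) (nat_lit 76) (nat_lit 20926516412) (nat_lit 76) (nat_lit 19878446909) (nat_lit 1) (nat_lit 4) (nat_lit 2) (nat_lit 5) (nat_lit 2) (nat_lit 4) (nat_lit 289) (nat_lit 218) (nat_lit 213)))) (XT.nd (nat_lit 78) (nat_lit 0) (nat_lit 0) (XT.lf (nat_lit 0) (nat_lit 32008454523) (nat_lit 76) (nat_lit 21007791348) (nat_lit 76) (nat_lit 19794304982) (nat_lit 1) (nat_lit 4) (nat_lit 2) (nat_lit 5) (nat_lit 2) (nat_lit 4) (nat_lit 290) (nat_lit 218) (nat_lit 212)) (XT.nd (nat_lit 78) (nat_lit 0) (nat_lit 0) (XT.lf (nat_lit 0) (nat_lit 37555366130) (nat_lit 76) (nat_lit 21151466713)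 (nat_lit 76) (nat_lit 19784816586) (nat_lit 1) (nat_lit 4) (nat_lit 2) (nat_lit 5) (nat_lit 2) (nat_lit 4) (nat_lit 291) (nat_lit 218) (nat_lit 211)) (XT.lf (nat_lit 0) (nat_lit 43424754244) (nat_lit 76) (nat_lit 21358393919) (nat_lit 76) (nat_lit 19849925494) (nat_lit 1) (nat_lit 4) (nat_lit 2) (nat_lit 5) (nat_lit 2) (nat_lit 4) (nat_lit 292) (nat_lit 218) (nat_lit 210)))))) (XT.nd (nat_lit 390) (nat_lit 0) (nat_lit 0) (XT.nd (nat_lit 156) (nat_lit 0) (nat_lit 0) (XT.nd (nat_lit 78) (nat_lit 0) (nat_lit 0) (XT.lf (nat_lit 0) (nat_lit 49651400425) (nat_lit 76) (nat_lit 21629799200) (nat_lit 76) (nat_lit 19990017536) (nat_lit 1) (nat_lit 4) (nat_lit 2) (nat_lit 5) (nat_lit 2) (nat_lit 4) (nat_lit 293) (nat_lit 218) (nat_lit 209)) (XT.lf (nat_lit 0) (nat_lit 56272203316) (nat_lit 76) (nat_lit 21967290884) (nat_lit 76) (nat_lit 20205922888) (nat_lit 1) (nat_lit 4) (nat_lit 2) (nat_lit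 5) (nat_lit 2) (nat_lit 4) (nat_lit 294) (nat_lit 218) (nat_lit 208))) (XT.nd (nat_lit 78) (nat_lit 0) (nat_lit 0) (XT.lf (nat_lit 0) (nat_lit 63326397305) (nat_lit 76) (nat_lit 22372868921) (nat_lit 76) (nat_lit 20498920988) (nat_lit 1) (nat_lit 4) (nat_lit 2) (nat_lit 5) (nat_lit 2) (nat_lit 4) (nat_lit 295) (nat_lit 218) (nat_lit 207)) (XT.nd (nat_lit 78) (nat_lit 0) (nat_lit 0) (XT.lf (nat_lit 0) (nat_lit 70855785023) (nat_lit 76) (nat_lit 22848936737) (nat_lit 76) (nat_lit 20870748121) (nat_lit 1) (nat_lit 4) (nat_lit 2) (nat_lit 5) (nat_lit 2) (nat_lit 4) (nat_lit 296) (nat_lit 218) (nat_lit 206)) (XT.lf (nat_lit 0) (nat_lit 78904985064) (nat_lit 76) (nat_lit 23398315474) (nat_lit 76) (nat_lit 21323607708) (nat_lit 1) (nat_lit 4) (nat_lit 2) (nat_lit 5) (nat_lit 2) (nat_lit 4) (nat_lit 297) (nat_lit 218) (nat_lit 205))))) (XT.nd (nat_lit 234) (nat_lit 0) (nat_lit 0) (XT.nd (nat_lit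 78) (nat_lit 0) (nat_lit 0) (XT.lf (nat_lit 0) (nat_lit 87521696391) (nat_lit 76) (nat_lit 24024260711) (nat_lit 76) (nat_lit 21860183361) (nat_lit 1) (nat_lit 4) (nat_lit 2) (nat_lit 5) (nat_lit 2) (nat_lit 4) (nat_lit 298) (nat_lit 218) (nat_lit 204)) (XT.nd (nat_lit 78) (nat_lit 0) (nat_lit 0) (XT.lf (nat_lit 0) (nat_lit 96756980997) (nat_lit 76) (nat_lit 24730481752) (nat_lit 76) (nat_lit 22483654787) (nat_lit 1) (nat_lit 4) (nat_lit 2) (nat_lit 5) (nat_lit 2) (nat_lit 4) (nat_lit 299) (nat_lit 218) (nat_lit 203)) (XT.lf (nat_lit 0) (nat_lit 106665566495) (nat_lit 76) (nat_lit 25521163611) (nat_lit 76) (nat_lit 23197716633) (nat_lit 1) (nat_lit 4) (nat_lit 2) (nat_lit 5) (nat_lit 2) (nat_lit 4) (nat_lit 300) (nat_lit 218) (nat_lit 202)))) (XT.nd (nat_lit 78) (nat_lit 0) (nat_lit 0) (XT.lf (nat_lit 0) (nat_lit 117306170428) (nat_lit 76) (nat_lit 26400991810) (nat_lit 76) (nat_lit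 24006600375) (nat_lit 1) (nat_lit 4) (nat_lit 2) (nat_lit 5) (nat_lit 2) (nat_lit 4) (nat_lit 301) (nat_lit 218) (nat_lit 201)) (XT.nd (nat_lit 78) (nat_lit 0) (nat_lit 0) (XT.lf (nat_lit 0) (nat_lit 128741848227) (nat_lit 76) (nat_lit 27375180146) (nat_lit 76) (nat_lit 24915099399) (nat_lit 1) (nat_lit 4) (nat_lit 2) (nat_lit 5) (nat_lit 2) (nat_lit 4) (nat_lit 302) (nat_lit 218) (nat_lit 200)) (XT.lf (nat_lit 0) (nat_lit 141040366872) (nat_lit 76) (nat_lit 28449501587) (nat_lit 76) (nat_lit 25928597402) (nat_lit 1) (nat_lit 4) (nat_lit 2) (nat_lit 5) (nat_lit 2) (nat_lit 4) (nat_lit 303) (nat_lit 218) (nat_lit 199))))))) (XT.nd (nat_lit 858) (nat_lit 0) (nat_lit 0) (XT.nd (nat_lit 390) (nat_lit 0) (nat_lit 0) (XT.nd (nat_lit 156) (nat_lit 0) (nat_lit 0) (XT.nd (nat_lit 78) (nat_lit 0) (nat_lit 0) (XT.lf (nat_lit 0) (nat_lit 154274606473) (nat_lit 76) (nat_lit 29630322481) (nat_lit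 76) (nat_lit 27053100299) (nat_lit 1) (nat_lit 4) (nat_lit 2) (nat_lit 5) (nat_lit 2) (nat_lit 4) (nat_lit 304) (nat_lit 218) (nat_lit 198)) (XT.lf (nat_lit 0) (nat_lit 168522992154) (nat_lit 76) (nat_lit 30924640287) (nat_lit 76) (nat_lit 28295271811) (nat_lit 1) (nat_lit 4) (nat_lit 2) (nat_lit 5) (nat_lit 2) (nat_lit 4) (nat_lit 305) (nat_lit 218) (nat_lit 197))) (XT.nd (nat_lit 78) (nat_lit 0) (nat_lit 0) (XT.lf (nat_lit 0) (nat_lit 183869958792) (nat_lit 76) (nat_lit 32340125035) (nat_lit 76) (nat_lit 29662472954) (nat_lit 1) (nat_lit 4) (nat_lit 2) (nat_lit 5) (nat_lit 2) (nat_lit 4) (nat_lit 306) (nat_lit 218) (nat_lit 196)) (XT.nd (nat_lit 78) (nat_lit 0) (nat_lit 0) (XT.lf (nat_lit 0) (nat_lit 200406451376) (nat_lit 76) (nat_lit 33885164783) (nat_lit 76) (nat_lit 31162805660) (nat_lit 1) (nat_lit 4) (nat_lit 2) (nat_lit 5) (nat_lit 2) (nat_lit 4) (nat_lit 307) (nat_lit 218)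 (nat_lit 195)) (XT.lf (nat_lit 0) (nat_lit 218230463935) (nat_lit 76) (nat_lit 35568915323) (nat_lit 76) (nat_lit 32805160791) (nat_lit 1) (nat_lit 4) (nat_lit 2) (nat_lit 5) (nat_lit 2) (nat_lit 4) (nat_lit 308) (nat_lit 218) (nat_lit 194))))) (XT.nd (nat_lit 234) (nat_lit 0) (nat_lit 0) (XT.nd (nat_lit 78) (nat_lit 0) (nat_lit 0) (XT.lf (nat_lit 0) (nat_lit 237447620248) (nat_lit 76) (nat_lit 37401354435) (nat_lit 76) (nat_lit 34599270820) (nat_lit 1) (nat_lit 4) (nat_lit 2) (nat_lit 5) (nat_lit 2) (nat_lit 4) (nat_lit 309) (nat_lit 218) (nat_lit 193)) (XT.nd (nat_lit 78) (nat_lit 0) (nat_lit 0) (XT.lf (nat_lit 0) (nat_lit 258171799759) (nat_lit 76) (nat_lit 39393341019) (nat_lit 76) (nat_lit 36555767512) (nat_lit 1) (nat_lit 4) (nat_lit 2) (nat_lit 5) (nat_lit 2) (nat_lit 4) (nat_lit 310) (nat_lit 218) (nat_lit 192)) (XT.lf (nat_lit 0) (nat_lit 280525812420) (nat_lit 76) (nat_lit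 41556679437) (nat_lit 76) (nat_lit 38686244921) (nat_lit 1) (nat_lit 4) (nat_lit 2) (nat_lit 5) (nat_lit 2) (nat_lit 4) (nat_lit 311) (nat_lit 218) (nat_lit 191)))) (XT.nd (nat_lit 78) (nat_lit 0) (nat_lit 0) (XT.lf (nat_lit 0) (nat_lit 304642126456) (nat_lit 76) (nat_lit 43904189475) (nat_lit 76) (nat_lit 41003328097) (nat_lit 1) (nat_lit 4) (nat_lit 2) (nat_lit 5) (nat_lit 2) (nat_lit 4) (nat_lit 312) (nat_lit 218) (nat_lit 190)) (XT.nd (nat_lit 78) (nat_lit 0) (nat_lit 0) (XT.lf (nat_lit 0) (nat_lit 330663653357) (nat_lit 76) (nat_lit 46449782303) (nat_lit 76) (nat_lit 43520747904) (nat_lit 1) (nat_lit 4) (nat_lit 2) (nat_lit 5) (nat_lit 2) (nat_lit 4) (nat_lit 313) (nat_lit 218) (nat_lit 189)) (XT.lf (nat_lit 0) (nat_lit 358744594764) (nat_lit 76) (nat_lit 49208542914) (nat_lit 76) (nat_lit 46253422386) (nat_lit 1) (nat_lit 4) (nat_lit 2) (nat_lit 5) (nat_lit 2) (nat_lit 4) (nat_lit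 314) (nat_lit 218) (nat_lit 188)))))) (XT.nd (nat_lit 390) (nat_lit 0) (nat_lit 0) (XT.nd (nat_lit 156) (nat_lit 0) (nat_lit 0) (XT.nd (nat_lit 78) (nat_lit 0) (nat_lit 0) (XT.lf (nat_lit 0) (nat_lit 389051356254) (nat_lit 76) (nat_lit 52196819521) (nat_lit 76) (nat_lit 49217545169) (nat_lit 1) (nat_lit 4) (nat_lit 2) (nat_lit 5) (nat_lit 2) (nat_lit 4) (nat_lit 315) (nat_lit 218) (nat_lit 187)) (XT.lf (nat_lit 0) (nat_lit 421763533453) (nat_lit 76) (nat_lit 55432320429) (nat_lit 76) (nat_lit 52430681426) (nat_lit 1) (nat_lit 4) (nat_lit 2) (nat_lit 5) (nat_lit 2) (nat_lit 4) (nat_lit 316) (nat_lit 218) (nat_lit 186))) (XT.nd (nat_lit 78) (nat_lit 0) (nat_lit 0) (XT.lf (nat_lit 0) (nat_lit 457074976299) (nat_lit 76) (nat_lit 58934218976) (nat_lit 76) (nat_lit 55911871962) (nat_lit 1) (nat_lit 4) (nat_lit 2) (nat_lit 5) (nat_lit 2) (nat_lit 4) (nat_lit 317) (nat_lit 218) (nat_lit 185))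 (XT.nd (nat_lit 78) (nat_lit 0) (nat_lit 0) (XT.lf (nat_lit 0) (nat_lit 495194937786) (nat_lit 76) (nat_lit 62723267155) (nat_lit 76) (nat_lit 59681746057) (nat_lit 1) (nat_lit 4) (nat_lit 2) (nat_lit 5) (nat_lit 2) (nat_lit 4) (nat_lit 318) (nat_lit 218) (nat_lit 184)) (XT.lf (nat_lit 0) (nat_lit 536349313983) (nat_lit 76) (nat_lit 66821918583) (nat_lit 76) (nat_lit 63762643704) (nat_lit 1) (nat_lit 4) (nat_lit 2) (nat_lit 5) (nat_lit 2) (nat_lit 4) (nat_lit 319) (nat_lit 218) (nat_lit 183))))) (XT.nd (nat_lit 234) (nat_lit 0) (nat_lit 0) (XT.nd (nat_lit 78) (nat_lit 0) (nat_lit 0) (XT.lf (nat_lit 0) (nat_lit 580781982675) (nat_lit 76) (nat_lit 71254461566) (nat_lit 76) (nat_lit 68178748000) (nat_lit 1) (nat_lit 4) (nat_lit 2) (nat_lit 5) (nat_lit 2) (nat_lit 4) (nat_lit 320) (nat_lit 218) (nat_lit 182)) (XT.nd (nat_lit 78) (nat_lit 0) (nat_lit 0) (XT.lf (nat_lit 0) (nat_lit 628756248564)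 (nat_lit 76) (nat_lit 76047163026) (nat_lit 76) (nat_lit 72956228453) (nat_lit 1) (nat_lit 4) (nat_lit 2) (nat_lit 5) (nat_lit 2) (nat_lit 4) (nat_lit 321) (nat_lit 218) (nat_lit 181)) (XT.lf (nat_lit 0) (nat_lit 680556403597) (nat_lit 76) (nat_lit 81228424155) (nat_lit 76) (nat_lit 78123396058) (nat_lit 1) (nat_lit 4) (nat_lit 2) (nat_lit 5) (nat_lit 2) (nat_lit 4) (nat_lit 322) (nat_lit 218) (nat_lit 180)))) (XT.nd (nat_lit 78) (nat_lit 0) (nat_lit 0) (XT.lf (nat_lit 0) (nat_lit 736489411656) (nat_lit 76) (nat_lit 86828948723) (nat_lit 76) (nat_lit 83710871068) (nat_lit 1) (nat_lit 4) (nat_lit 2) (nat_lit 5) (nat_lit 2) (nat_lit 4) (nat_lit 323) (nat_lit 218) (nat_lit 179)) (XT.nd (nat_lit 78) (nat_lit 0) (nat_lit 0) (XT.lf (nat_lit 0) (nat_lit 796886727603) (nat_lit 76) (nat_lit 92881925025) (nat_lit 76) (nat_lit 89751764444) (nat_lit 1) (nat_lit 4) (nat_lit 2) (nat_lit 5) (nat_lit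 2) (nat_lit 4) (nat_lit 324) (nat_lit 218) (nat_lit 178)) (XT.lf (nat_lit 0) (nat_lit 862106261459) (nat_lit 76) (nat_lit 99423222550) (nat_lit 76) (nat_lit 96281874075) (nat_lit 1) (nat_lit 4) (nat_lit 2) (nat_lit 5) (nat_lit 2) (nat_lit 4) (nat_lit 325) (nat_lit 218) (nat_lit 177))))))))
noncomputable def xc15 : XT := (XT.nd (nat_lit 35178) (nat_lit 0) (nat_lit 0) (XT.nd (nat_lit 34320) (nat_lit 0) (nat_lit 0) (XT.nd (nat_lit 390) (nat_lit 0) (nat_lit 0) (XT.nd (nat_lit 156) (nat_lit 0) (nat_lit 0) (XT.nd (nat_lit 78) (nat_lit 0) (nat_lit 0) (XT.lf (nat_lit 0) (nat_lit 932534499349) (nat_lit 76) (nat_lit 106491604541) (nat_lit 76) (nat_lit 103339896905) (nat_lit 1) (nat_lit 4) (nat_lit 2) (nat_lit 5) (nat_lit 2) (nat_lit 4) (nat_lit 326) (nat_lit 218) (nat_lit 176)) (XT.lf (nat_lit 0) (nat_lit 1008588793796) (nat_lit 76) (nat_lit 114128957708) (nat_lit 76) (nat_lit 110967658256)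 (nat_lit 1) (nat_lit 4) (nat_lit 2) (nat_lit 5) (nat_lit 2) (nat_lit 4) (nat_lit 327) (nat_lit 218) (nat_lit 175))) (XT.nd (nat_lit 78) (nat_lit 0) (nat_lit 0) (XT.lf (nat_lit 0) (nat_lit 1090719836914) (nat_lit 76) (nat_lit 122380540439) (nat_lit 76) (nat_lit 119210359676) (nat_lit 1) (nat_lit 4) (nat_lit 2) (nat_lit 5) (nat_lit 2) (nat_lit 4) (nat_lit 328) (nat_lit 218) (nat_lit 174)) (XT.nd (nat_lit 78) (nat_lit 0) (nat_lit 0) (XT.lf (nat_lit 0) (nat_lit 1179414331181) (nat_lit 76) (nat_lit 131295251002) (nat_lit 76) (nat_lit 128116846803) (nat_lit 1) (nat_lit 4) (nat_lit 2) (nat_lit 5) (nat_lit 2) (nat_lit 4) (nat_lit 329) (nat_lit 218) (nat_lit 173)) (XT.lf (nat_lit 0) (nat_lit 1275197873600) (nat_lit 76) (nat_lit 140925917312) (nat_lit 76) (nat_lit 137739898821) (nat_lit 1) (nat_lit 4) (nat_lit 2) (nat_lit 5) (nat_lit 2) (nat_lit 4) (nat_lit 330) (nat_lit 218) (nat_lit 172)))))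 (XT.nd (nat_lit 33696) (nat_lit 0) (nat_lit 0) (XT.nd (nat_lit 78) (nat_lit 0) (nat_lit 0) (XT.lf (nat_lit 0) (nat_lit 1378638070348) (nat_lit 76) (nat_lit 151329609984) (nat_lit 76) (nat_lit 148136541222) (nat_lit 1) (nat_lit 4) (nat_lit 2) (nat_lit 5) (nat_lit 2) (nat_lit 4) (nat_lit 331) (nat_lit 218) (nat_lit 171)) (XT.nd (nat_lit 78) (nat_lit 0) (nat_lit 0) (XT.lf (nat_lit 0) (nat_lit 1490347900369) (nat_lit 76) (nat_lit 162567980530) (nat_lit 76) (nat_lit 159368383740) (nat_lit 1) (nat_lit 4) (nat_lit 2) (nat_lit 5) (nat_lit 2) (nat_lit 4) (nat_lit 332) (nat_lit 218) (nat_lit 170)) (XT.lf (nat_lit 0) (nat_lit 1610989347841) (nat_lit 76) (nat_lit 174707626702) (nat_lit 76) (nat_lit 171501985440) (nat_lit 1) (nat_lit 4) (nat_lit 2) (nat_lit 5) (nat_lit 2) (nat_lit 4) (nat_lit 333) (nat_lit 218) (nat_lit 169)))) (XT.nd (nat_lit 78) (nat_lit 76) (nat_lit 0) (XT.lf (nat_lit 0) (nat_lit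 9075719134) (nat_lit 152) (nat_lit 2032272384) (nat_lit 0) (nat_lit 9075719134) (nat_lit 2) (nat_lit 5) (nat_lit 4) (nat_lit 4) (nat_lit 2) (nat_lit 4) (nat_lit 282) (nat_lit 219) (nat_lit 219)) (XT.nd (nat_lit 78) (nat_lit 76) (nat_lit 0) (XT.lf (nat_lit 0) (nat_lit 21661106807) (nat_lit 152) (nat_lit 340102191) (nat_lit 0) (nat_lit 21398611035) (nat_lit 2) (nat_lit 5) (nat_lit 4) (nat_lit 4) (nat_lit 2) (nat_lit 4) (nat_lit 283) (nat_lit 219) (nat_lit 218)) (XT.lf (nat_lit 0) (nat_lit 3668352487) (nat_lit 76) (nat_lit 21757276337) (nat_lit 76) (nat_lit 21251728924) (nat_lit 1) (nat_lit 4) (nat_lit 2) (nat_lit 5) (nat_lit 2) (nat_lit 4) (nat_lit 284) (nat_lit 219) (nat_lit 217)))))) (XT.nd (nat_lit 390) (nat_lit 0) (nat_lit 0) (XT.nd (nat_lit 156) (nat_lit 0) (nat_lit 0) (XT.nd (nat_lit 78) (nat_lit 0) (nat_lit 0) (XT.lf (nat_lit 0) (nat_lit 7824375015) (nat_lit 76) (nat_lit 21565919287)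 (nat_lit 76) (nat_lit 20835324059) (nat_lit 1) (nat_lit 4) (nat_lit 2) (nat_lit 5) (nat_lit 2) (nat_lit 4) (nat_lit 285) (nat_lit 219) (nat_lit 216)) (XT.lf (nat_lit 0) (nat_lit 12134684494) (nat_lit 76) (nat_lit 21435302877) (nat_lit 76) (nat_lit 20496330042) (nat_lit 1) (nat_lit 4) (nat_lit 2) (nat_lit 5) (nat_lit 2) (nat_lit 4) (nat_lit 286) (nat_lit 219) (nat_lit 215))) (XT.nd (nat_lit 78) (nat_lit 0) (nat_lit 0) (XT.lf (nat_lit 0) (nat_lit 16624823499) (nat_lit 76) (nat_lit 21364653084) (nat_lit 76) (nat_lit 20232738021) (nat_lit 1) (nat_lit 4) (nat_lit 2) (nat_lit 5) (nat_lit 2) (nat_lit 4) (nat_lit 287) (nat_lit 219) (nat_lit 214)) (XT.nd (nat_lit 78) (nat_lit 0) (nat_lit 0) (XT.lf (nat_lit 0) (nat_lit 21321400262) (nat_lit 76) (nat_lit 21353551243) (nat_lit 76) (nat_lit 20042985968) (nat_lit 1) (nat_lit 4) (nat_lit 2) (nat_lit 5) (nat_lit 2) (nat_lit 4) (nat_lit 288) (nat_lit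 219) (nat_lit 213)) (XT.lf (nat_lit 0) (nat_lit 26252246347) (nat_lit 76) (nat_lit 21401931565) (nat_lit 76) (nat_lit 19925949428) (nat_lit 1) (nat_lit 4) (nat_lit 2) (nat_lit 5) (nat_lit 2) (nat_lit 4) (nat_lit 289) (nat_lit 219) (nat_lit 212))))) (XT.nd (nat_lit 234) (nat_lit 0) (nat_lit 0) (XT.nd (nat_lit 78) (nat_lit 0) (nat_lit 0) (XT.lf (nat_lit 0) (nat_lit 31446581585) (nat_lit 76) (nat_lit 21510080748) (nat_lit 76) (nat_lit 19880934849) (nat_lit 1) (nat_lit 4) (nat_lit 2) (nat_lit 5) (nat_lit 2) (nat_lit 4) (nat_lit 290) (nat_lit 219) (nat_lit 211)) (XT.nd (nat_lit 78) (nat_lit 0) (nat_lit 0) (XT.lf (nat_lit 0) (nat_lit 36935187220) (nat_lit 76) (nat_lit 21678639677) (nat_lit 76) (nat_lit 19907675480) (nat_lit 1) (nat_lit 4) (nat_lit 2) (nat_lit 5) (nat_lit 2) (nat_lit 4) (nat_lit 291) (nat_lit 219) (nat_lit 210)) (XT.lf (nat_lit 0) (nat_lit 42750588323) (nat_lit 76) (nat_lit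 21908607219) (nat_lit 76) (nat_lit 20006329783) (nat_lit 1) (nat_lit 4) (nat_lit 2) (nat_lit 5) (nat_lit 2) (nat_lit 4) (nat_lit 292) (nat_lit 219) (nat_lit 209)))) (XT.nd (nat_lit 78) (nat_lit 0) (nat_lit 0) (XT.lf (nat_lit 0) (nat_lit 48927246530) (nat_lit 76) (nat_lit 22201346144) (nat_lit 76) (nat_lit 20177482376) (nat_lit 1) (nat_lit 4) (nat_lit 2) (nat_lit 5) (nat_lit 2) (nat_lit 4) (nat_lit 293) (nat_lit 219) (nat_lit 208)) (XT.nd (nat_lit 78) (nat_lit 0) (nat_lit 0) (XT.lf (nat_lit 0) (nat_lit 55501764261) (nat_lit 76) (nat_lit 22558591202) (nat_lit 76) (nat_lit 20422147497) (nat_lit 1) (nat_lit 4) (nat_lit 2) (nat_lit 5) (nat_lit 2) (nat_lit 4) (nat_lit 294) (nat_lit 219) (nat_lit 207)) (XT.lf (nat_lit 0) (nat_lit 62513101620) (nat_lit 76) (nat_lit 22982459401) (nat_lit 76) (nat_lit 20741775013) (nat_lit 1) (nat_lit 4) (nat_lit 2) (nat_lit 5) (nat_lit 2) (nat_lit 4) (nat_lit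 295) (nat_lit 219) (nat_lit 206))))))) (XT.nd (nat_lit 858) (nat_lit 0) (nat_lit 0) (XT.nd (nat_lit 390) (nat_lit 0) (nat_lit 0) (XT.nd (nat_lit 156) (nat_lit 0) (nat_lit 0) (XT.nd (nat_lit 78) (nat_lit 0) (nat_lit 0) (XT.lf (nat_lit 0) (nat_lit 70002807274) (nat_lit 76) (nat_lit 23475462551) (nat_lit 76) (nat_lit 21138259013) (nat_lit 1) (nat_lit 4) (nat_lit 2) (nat_lit 5) (nat_lit 2) (nat_lit 4) (nat_lit 296) (nat_lit 219) (nat_lit 205)) (XT.lf (nat_lit 0) (nat_lit 78015264662) (nat_lit 76) (nat_lit 24040522154) (nat_lit 76) (nat_lit 21613949032) (nat_lit 1) (nat_lit 4) (nat_lit 2) (nat_lit 5) (nat_lit 2) (nat_lit 4) (nat_lit 297) (nat_lit 219) (nat_lit 204))) (XT.nd (nat_lit 78) (nat_lit 0) (nat_lit 0) (XT.lf (nat_lit 0) (nat_lit 86597955015) (nat_lit 76) (nat_lit 24680986711) (nat_lit 76) (nat_lit 22171663974) (nat_lit 1) (nat_lit 4) (nat_lit 2) (nat_lit 5) (nat_lit 2) (nat_lit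 4) (nat_lit 298) (nat_lit 219) (nat_lit 203)) (XT.nd (nat_lit 78) (nat_lit 0) (nat_lit 0) (XT.lf (nat_lit 0) (nat_lit 95801738719) (nat_lit 76) (nat_lit 25400651567) (nat_lit 76) (nat_lit 22814708817) (nat_lit 1) (nat_lit 4) (nat_lit 2) (nat_lit 5) (nat_lit 2) (nat_lit 4) (nat_lit 299) (nat_lit 219) (nat_lit 202)) (XT.lf (nat_lit 0) (nat_lit 105681156714) (nat_lit 76) (nat_lit 26203781403) (nat_lit 76) (nat_lit 23546894195) (nat_lit 1) (nat_lit 4) (nat_lit 2) (nat_lit 5) (nat_lit 2) (nat_lit 4) (nat_lit 300) (nat_lit 219) (nat_lit 201))))) (XT.nd (nat_lit 234) (nat_lit 0) (nat_lit 0) (XT.nd (nat_lit 78) (nat_lit 0) (nat_lit 0) (XT.lf (nat_lit 0) (nat_lit 116294753701) (nat_lit 76) (nat_lit 27095135506) (nat_lit 76) (nat_lit 24372558986) (nat_lit 1) (nat_lit 4) (nat_lit 2) (nat_lit 5) (nat_lit 2) (nat_lit 4) (nat_lit 301) (nat_lit 219) (nat_lit 200)) (XT.nd (nat_lit 78) (nat_lit 0)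 (nat_lit 0) (XT.lf (nat_lit 0) (nat_lit 127705425069) (nat_lit 76) (nat_lit 28079995975) (nat_lit 76) (nat_lit 25296596019) (nat_lit 1) (nat_lit 4) (nat_lit 2) (nat_lit 5) (nat_lit 2) (nat_lit 4) (nat_lit 302) (nat_lit 219) (nat_lit 199)) (XT.lf (nat_lit 0) (nat_lit 139980789610) (nat_lit 76) (nat_lit 29164199021) (nat_lit 76) (nat_lit 26324481067) (nat_lit 1) (nat_lit 4) (nat_lit 2) (nat_lit 5) (nat_lit 2) (nat_lit 4) (nat_lit 303) (nat_lit 219) (nat_lit 198)))) (XT.nd (nat_lit 78) (nat_lit 0) (nat_lit 0) (XT.lf (nat_lit 0) (nat_lit 153193590226) (nat_lit 76) (nat_lit 30354169550) (nat_lit 76) (nat_lit 27462305302) (nat_lit 1) (nat_lit 4) (nat_lit 2) (nat_lit 5) (nat_lit 2) (nat_lit 4) (nat_lit 304) (nat_lit 219) (nat_lit 197)) (XT.nd (nat_lit 78) (nat_lit 0) (nat_lit 0) (XT.lf (nat_lit 0) (nat_lit 167422124995) (nat_lit 76) (nat_lit 31656959239) (nat_lit 76) (nat_lit 28716811386)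 (nat_lit 1) (nat_lit 4) (nat_lit 2) (nat_lit 5) (nat_lit 2) (nat_lit 4) (nat_lit 305) (nat_lit 219) (nat_lit 196)) (XT.lf (nat_lit 0) (nat_lit 182750711159) (nat_lit 76) (nat_lit 33080288324) (nat_lit 76) (nat_lit 30095433429) (nat_lit 1) (nat_lit 4) (nat_lit 2) (nat_lit 5) (nat_lit 2) (nat_lit 4) (nat_lit 306) (nat_lit 219) (nat_lit 195)))))) (XT.nd (nat_lit 390) (nat_lit 0) (nat_lit 0) (XT.nd (nat_lit 156) (nat_lit 0) (nat_lit 0) (XT.nd (nat_lit 78) (nat_lit 0) (nat_lit 0) (XT.lf (nat_lit 0) (nat_lit 199270184786) (nat_lit 76) (nat_lit 34632591347) (nat_lit 76) (nat_lit 31606341043) (nat_lit 1) (nat_lit 4) (nat_lit 2) (nat_lit 5) (nat_lit 2) (nat_lit 4) (nat_lit 307) (nat_lit 219) (nat_lit 194)) (XT.lf (nat_lit 0) (nat_lit 217078439051) (nat_lit 76) (nat_lit 36323067141) (nat_lit 76) (nat_lit 33258487755) (nat_lit 1) (nat_lit 4) (nat_lit 2) (nat_lit 5) (nat_lit 2) (nat_lit 4) (nat_lit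 308) (nat_lit 219) (nat_lit 193))) (XT.nd (nat_lit 78) (nat_lit 0) (nat_lit 0) (XT.lf (nat_lit 0) (nat_lit 236281004351) (nat_lit 76) (nat_lit 38161733341) (nat_lit 76) (nat_lit 35061664063) (nat_lit 1) (nat_lit 4) (nat_lit 2) (nat_lit 5) (nat_lit 2) (nat_lit 4) (nat_lit 309) (nat_lit 219) (nat_lit 192)) (XT.nd (nat_lit 78) (nat_lit 0) (nat_lit 0) (XT.lf (nat_lit 0) (nat_lit 256991673664) (nat_lit 76) (nat_lit 40159485746) (nat_lit 76) (nat_lit 37026555457) (nat_lit 1) (nat_lit 4) (nat_lit 2) (nat_lit 5) (nat_lit 2) (nat_lit 4) (nat_lit 310) (nat_lit 219) (nat_lit 191)) (XT.lf (nat_lit 0) (nat_lit 279333176885) (nat_lit 76) (nat_lit 42328162889) (nat_lit 76) (nat_lit 39164805738) (nat_lit 1) (nat_lit 4) (nat_lit 2) (nat_lit 5) (nat_lit 2) (nat_lit 4) (nat_lit 311) (nat_lit 219) (nat_lit 190))))) (XT.nd (nat_lit 234) (nat_lit 0) (nat_lit 0) (XT.nd (nat_lit 78) (nat_lit 0) (nat_lit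 0) (XT.lf (nat_lit 0) (nat_lit 303437908104) (nat_lit 76) (nat_lit 44680616189) (nat_lit 76) (nat_lit 41489086019) (nat_lit 1) (nat_lit 4) (nat_lit 2) (nat_lit 5) (nat_lit 2) (nat_lit 4) (nat_lit 312) (nat_lit 219) (nat_lit 189)) (XT.nd (nat_lit 78) (nat_lit 0) (nat_lit 0) (XT.lf (nat_lit 0) (nat_lit 329448710175) (nat_lit 76) (nat_lit 47230786112) (nat_lit 76) (nat_lit 44013169812) (nat_lit 1) (nat_lit 4) (nat_lit 2) (nat_lit 5) (nat_lit 2) (nat_lit 4) (nat_lit 313) (nat_lit 219) (nat_lit 188)) (XT.lf (nat_lit 0) (nat_lit 357519721183) (nat_lit 76) (nat_lit 49993784775) (nat_lit 76) (nat_lit 46752014651) (nat_lit 1) (nat_lit 4) (nat_lit 2) (nat_lit 5) (nat_lit 2) (nat_lit 4) (nat_lit 314) (nat_lit 219) (nat_lit 187)))) (XT.nd (nat_lit 78) (nat_lit 0) (nat_lit 0) (XT.lf (nat_lit 0) (nat_lit 387817287861) (nat_lit 76) (nat_lit 52985985503) (nat_lit 76) (nat_lit 49721850727) (nat_lit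 1) (nat_lit 4) (nat_lit 2) (nat_lit 5) (nat_lit 2) (nat_lit 4) (nat_lit 315) (nat_lit 219) (nat_lit 186)) (XT.nd (nat_lit 78) (nat_lit 0) (nat_lit 0) (XT.lf (nat_lit 0) (nat_lit 420520951344) (nat_lit 76) (nat_lit 56225119856) (nat_lit 76) (nat_lit 52940277070) (nat_lit 1) (nat_lit 4) (nat_lit 2) (nat_lit 5) (nat_lit 2) (nat_lit 4) (nat_lit 316) (nat_lit 219) (nat_lit 185)) (XT.lf (nat_lit 0) (nat_lit 455824511119) (nat_lit 76) (nat_lit 59730382705) (nat_lit 76) (nat_lit 56426365835) (nat_lit 1) (nat_lit 4) (nat_lit 2) (nat_lit 5) (nat_lit 2) (nat_lit 4) (nat_lit 317) (nat_lit 219) (nat_lit 184))))))))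
noncomputable def xc16 : XT := (XT.nd (nat_lit 34944) (nat_lit 0) (nat_lit 0) (XT.nd (nat_lit 780) (nat_lit 0) (nat_lit 0) (XT.nd (nat_lit 390) (nat_lit 0) (nat_lit 0) (XT.nd (nat_lit 156) (nat_lit 0) (nat_lit 0) (XT.nd (nat_lit 78) (nat_lit 0) (nat_lit 0) (XT.lf (nat_lit 0) (nat_lit 493937173467) (nat_lit 76) (nat_lit 63522545978) (nat_lit 76) (nat_lit 60200775326) (nat_lit 1) (nat_lit 4) (nat_lit 2) (nat_lit 5) (nat_lit 2) (nat_lit 4) (nat_lit 318) (nat_lit 219) (nat_lit 183)) (XT.lf (nat_lit 0) (nat_lit 535084791202) (nat_lit 76) (nat_lit 67624081752) (nat_lit 76) (nat_lit 64285872415) (nat_lit 1) (nat_lit 4) (nat_lit 2) (nat_lit 5) (nat_lit 2) (nat_lit 4) (nat_lit 319) (nat_lit 219) (nat_lit 182))) (XT.nd (nat_lit 78) (nat_lit 0) (nat_lit 0) (XT.lf (nat_lit 0) (nat_lit 579511202058) (nat_lit 76) (nat_lit 72059295427) (nat_lit 76) (nat_lit 68705865083) (nat_lit 1) (nat_lit 4) (nat_lit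 2) (nat_lit 5) (nat_lit 2) (nat_lit 4) (nat_lit 320) (nat_lit 219) (nat_lit 181)) (XT.nd (nat_lit 78) (nat_lit 0) (nat_lit 0) (XT.lf (nat_lit 0) (nat_lit 627479673656) (nat_lit 76) (nat_lit 76854469748) (nat_lit 76) (nat_lit 73486945880) (nat_lit 1) (nat_lit 4) (nat_lit 2) (nat_lit 5) (nat_lit 2) (nat_lit 4) (nat_lit 321) (nat_lit 219) (nat_lit 180)) (XT.lf (nat_lit 0) (nat_lit 679274463604) (nat_lit 76) (nat_lit 82038020564) (nat_lit 76) (nat_lit 78657447137) (nat_lit 1) (nat_lit 4) (nat_lit 2) (nat_lit 5) (nat_lit 2) (nat_lit 4) (nat_lit 322) (nat_lit 219) (nat_lit 179))))) (XT.nd (nat_lit 156) (nat_lit 0) (nat_lit 0) (XT.nd (nat_lit 78) (nat_lit 0) (nat_lit 0) (XT.lf (nat_lit 0) (nat_lit 735202503991) (nat_lit 76) (nat_lit 87640665213) (nat_lit 76) (nat_lit 84248008860) (nat_lit 1) (nat_lit 4) (nat_lit 2) (nat_lit 5) (nat_lit 2) (nat_lit 4) (nat_lit 323) (nat_lit 219) (nat_lit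 178)) (XT.lf (nat_lit 0) (nat_lit 795595220243) (nat_lit 76) (nat_lit 93695604553) (nat_lit 76) (nat_lit 90291760306) (nat_lit 1) (nat_lit 4) (nat_lit 2) (nat_lit 5) (nat_lit 2) (nat_lit 4) (nat_lit 324) (nat_lit 219) (nat_lit 177))) (XT.nd (nat_lit 78) (nat_lit 0) (nat_lit 0) (XT.lf (nat_lit 0) (nat_lit 860810495121) (nat_lit 76) (nat_lit 100238719705) (nat_lit 76) (nat_lit 96824516297) (nat_lit 1) (nat_lit 4) (nat_lit 2) (nat_lit 5) (nat_lit 2) (nat_lit 4) (nat_lit 325) (nat_lit 219) (nat_lit 176)) (XT.nd (nat_lit 78) (nat_lit 0) (nat_lit 0) (XT.lf (nat_lit 0) (nat_lit 931234789514) (nat_lit 76) (nat_lit 107308784685) (nat_lit 76) (nat_lit 103884989461) (nat_lit 1) (nat_lit 4) (nat_lit 2) (nat_lit 5) (nat_lit 2) (nat_lit 4) (nat_lit 326) (nat_lit 219) (nat_lit 175)) (XT.lf (nat_lit 0) (nat_lit 1007285432574) (nat_lit 76) (nat_lit 114947696174) (nat_lit 76) (nat_lit 111515019640)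 (nat_lit 1) (nat_lit 4) (nat_lit 2) (nat_lit 5) (nat_lit 2) (nat_lit 4) (nat_lit 327) (nat_lit 219) (nat_lit 174)))))) (XT.nd (nat_lit 390) (nat_lit 0) (nat_lit 0) (XT.nd (nat_lit 156) (nat_lit 0) (nat_lit 0) (XT.nd (nat_lit 78) (nat_lit 0) (nat_lit 0) (XT.lf (nat_lit 0) (nat_lit 1089413094778) (nat_lit 76) (nat_lit 123200721796) (nat_lit 76) (nat_lit 119759821826) (nat_lit 1) (nat_lit 4) (nat_lit 2) (nat_lit 5) (nat_lit 2) (nat_lit 4) (nat_lit 328) (nat_lit 219) (nat_lit 173)) (XT.lf (nat_lit 0) (nat_lit 1178104458569) (nat_lit 76) (nat_lit 132116768370) (nat_lit 76) (nat_lit 128668254107) (nat_lit 1) (nat_lit 4) (nat_lit 2) (nat_lit 5) (nat_lit 2) (nat_lit 4) (nat_lit 329) (nat_lit 219) (nat_lit 172))) (XT.nd (nat_lit 78) (nat_lit 0) (nat_lit 0) (XT.lf (nat_lit 0) (nat_lit 1273885102399) (nat_lit 76) (nat_lit 141748671727) (nat_lit 76) (nat_lit 138293107193) (nat_lit 1) (nat_lit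 4) (nat_lit 2) (nat_lit 5) (nat_lit 2) (nat_lit 4) (nat_lit 330) (nat_lit 219) (nat_lit 171)) (XT.nd (nat_lit 78) (nat_lit 0) (nat_lit 0) (XT.lf (nat_lit 0) (nat_lit 1377322615269) (nat_lit 76) (nat_lit 152153509812) (nat_lit 76) (nat_lit 148691417250) (nat_lit 1) (nat_lit 4) (nat_lit 2) (nat_lit 5) (nat_lit 2) (nat_lit 4) (nat_lit 331) (nat_lit 219) (nat_lit 170)) (XT.lf (nat_lit 0) (nat_lit 1489029960218) (nat_lit 76) (nat_lit 163392940927) (nat_lit 76) (nat_lit 159924803893) (nat_lit 1) (nat_lit 4) (nat_lit 2) (nat_lit 5) (nat_lit 2) (nat_lit 4) (nat_lit 332) (nat_lit 219) (nat_lit 169))))) (XT.nd (nat_lit 33540) (nat_lit 0) (nat_lit 0) (XT.nd (nat_lit 33384) (nat_lit 0) (nat_lit 76) (XT.lf (nat_lit 0) (nat_lit 1609669106697) (nat_lit 76) (nat_lit 175533569106) (nat_lit 76) (nat_lit 172059835340) (nat_lit 1) (nat_lit 4) (nat_lit 2) (nat_lit 5) (nat_lit 2) (nat_lit 4) (nat_lit 333)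 (nat_lit 219) (nat_lit 168)) (XT.nd (nat_lit 78) (nat_lit 0) (nat_lit 0) (XT.lf (nat_lit 0) (nat_lit 5948582818) (nat_lit 152) (nat_lit 5594503014) (nat_lit 0) (nat_lit 5948582818) (nat_lit 2) (nat_lit 5) (nat_lit 4) (nat_lit 4) (nat_lit 2) (nat_lit 4) (nat_lit 280) (nat_lit 220) (nat_lit 220)) (XT.lf (nat_lit 0) (nat_lit 15071096642) (nat_lit 152) (nat_lit 7710551860) (nat_lit 0) (nat_lit 14787601208) (nat_lit 2) (nat_lit 5) (nat_lit 4) (nat_lit 4) (nat_lit 2) (nat_lit 4) (nat_lit 281) (nat_lit 220) (nat_lit 219)))) (XT.nd (nat_lit 78) (nat_lit 76) (nat_lit 0) (XT.lf (nat_lit 0) (nat_lit 18375666641) (nat_lit 152) (nat_lit 4167066442) (nat_lit 0) (nat_lit 17829675436) (nat_lit 2) (nat_lit 5) (nat_lit 4) (nat_lit 4) (nat_lit 2) (nat_lit 4) (nat_lit 282) (nat_lit 220) (nat_lit 218)) (XT.nd (nat_lit 78) (nat_lit 76) (nat_lit 0) (XT.lf (nat_lit 0) (nat_lit 21830458271) (nat_lit 152)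 (nat_lit 537551343) (nat_lit 0) (nat_lit 21041415425) (nat_lit 2) (nat_lit 5) (nat_lit 4) (nat_lit 4) (nat_lit 2) (nat_lit 4) (nat_lit 283) (nat_lit 220) (nat_lit 217)) (XT.lf (nat_lit 0) (nat_lit 3367981764) (nat_lit 76) (nat_lit 22168962649) (nat_lit 76) (nat_lit 21154871988) (nat_lit 1) (nat_lit 4) (nat_lit 2) (nat_lit 5) (nat_lit 2) (nat_lit 4) (nat_lit 284) (nat_lit 220) (nat_lit 216))))))) (XT.nd (nat_lit 858) (nat_lit 0) (nat_lit 0) (XT.nd (nat_lit 390) (nat_lit 0) (nat_lit 0) (XT.nd (nat_lit 156) (nat_lit 0) (nat_lit 0) (XT.nd (nat_lit 78) (nat_lit 0) (nat_lit 0) (XT.lf (nat_lit 0) (nat_lit 7438333690) (nat_lit 76) (nat_lit 22014167717) (nat_lit 76) (nat_lit 20791699448) (nat_lit 1) (nat_lit 4) (nat_lit 2) (nat_lit 5) (nat_lit 2) (nat_lit 4) (nat_lit 285) (nat_lit 220) (nat_lit 215)) (XT.lf (nat_lit 0) (nat_lit 11669318538) (nat_lit 76) (nat_lit 21917405119) (nat_lit 76) (nat_lit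 20501994622) (nat_lit 1) (nat_lit 4) (nat_lit 2) (nat_lit 5) (nat_lit 2) (nat_lit 4) (nat_lit 286) (nat_lit 220) (nat_lit 214))) (XT.nd (nat_lit 78) (nat_lit 0) (nat_lit 0) (XT.lf (nat_lit 0) (nat_lit 16086008811) (nat_lit 76) (nat_lit 21878101449) (nat_lit 76) (nat_lit 20284040741) (nat_lit 1) (nat_lit 4) (nat_lit 2) (nat_lit 5) (nat_lit 2) (nat_lit 4) (nat_lit 287) (nat_lit 220) (nat_lit 213)) (XT.nd (nat_lit 78) (nat_lit 0) (nat_lit 0) (XT.lf (nat_lit 0) (nat_lit 20714577488) (nat_lit 76) (nat_lit 21896023796) (nat_lit 76) (nat_lit 20136546225) (nat_lit 1) (nat_lit 4) (nat_lit 2) (nat_lit 5) (nat_lit 2) (nat_lit 4) (nat_lit 288) (nat_lit 220) (nat_lit 212)) (XT.lf (nat_lit 0) (nat_lit 25582453124) (nat_lit 76) (nat_lit 21971278366) (nat_lit 76) (nat_lit 20058637033) (nat_lit 1) (nat_lit 4) (nat_lit 2) (nat_lit 5) (nat_lit 2) (nat_lit 4) (nat_lit 289) (nat_lit 220) (nat_lit 211)))))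 (XT.nd (nat_lit 234) (nat_lit 0) (nat_lit 0) (XT.nd (nat_lit 78) (nat_lit 0) (nat_lit 0) (XT.lf (nat_lit 0) (nat_lit 30718482390) (nat_lit 76) (nat_lit 22104311112) (nat_lit 76) (nat_lit 20049851481) (nat_lit 1) (nat_lit 4) (nat_lit 2) (nat_lit 5) (nat_lit 2) (nat_lit 4) (nat_lit 290) (nat_lit 220) (nat_lit 210)) (XT.nd (nat_lit 78) (nat_lit 0) (nat_lit 0) (XT.lf (nat_lit 0) (nat_lit 36153101014) (nat_lit 76) (nat_lit 22295910376) (nat_lit 76) (nat_lit 20110137507) (nat_lit 1) (nat_lit 4) (nat_lit 2) (nat_lit 5) (nat_lit 2) (nat_lit 4) (nat_lit 291) (nat_lit 220) (nat_lit 209)) (XT.lf (nat_lit 0) (nat_lit 41918514144) (nat_lit 76) (nat_lit 22547211562) (nat_lit 76) (nat_lit 20239852361) (nat_lit 1) (nat_lit 4) (nat_lit 2) (nat_lit 5) (nat_lit 2) (nat_lit 4) (nat_lit 292) (nat_lit 220) (nat_lit 208)))) (XT.nd (nat_lit 78) (nat_lit 0) (nat_lit 0) (XT.lf (nat_lit 0) (nat_lit 48048887191)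 (nat_lit 76) (nat_lit 22859703862) (nat_lit 76) (nat_lit 20439764723) (nat_lit 1) (nat_lit 4) (nat_lit 2) (nat_lit 5) (nat_lit 2) (nat_lit 4) (nat_lit 293) (nat_lit 220) (nat_lit 207)) (XT.nd (nat_lit 78) (nat_lit 0) (nat_lit 0) (XT.lf (nat_lit 0) (nat_lit 54580548292) (nat_lit 76) (nat_lit 23235239081) (nat_lit 76) (nat_lit 20711059260) (nat_lit 1) (nat_lit 4) (nat_lit 2) (nat_lit 5) (nat_lit 2) (nat_lit 4) (nat_lit 294) (nat_lit 220) (nat_lit 206)) (XT.lf (nat_lit 0) (nat_lit 61552203587) (nat_lit 76) (nat_lit 23676042615) (nat_lit 76) (nat_lit 21055343643) (nat_lit 1) (nat_lit 4) (nat_lit 2) (nat_lit 5) (nat_lit 2) (nat_lit 4) (nat_lit 295) (nat_lit 220) (nat_lit 205)))))) (XT.nd (nat_lit 390) (nat_lit 0) (nat_lit 0) (XT.nd (nat_lit 156) (nat_lit 0) (nat_lit 0) (XT.nd (nat_lit 78) (nat_lit 0) (nat_lit 0) (XT.lf (nat_lit 0) (nat_lit 69005166587) (nat_lit 76) (nat_lit 24184726631)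 (nat_lit 76) (nat_lit 21474658075) (nat_lit 1) (nat_lit 4) (nat_lit 2) (nat_lit 5) (nat_lit 2) (nat_lit 4) (nat_lit 296) (nat_lit 220) (nat_lit 204)) (XT.lf (nat_lit 0) (nat_lit 76983603001) (nat_lit 76) (nat_lit 24764305554) (nat_lit 76) (nat_lit 21971487384) (nat_lit 1) (nat_lit 4) (nat_lit 2) (nat_lit 5) (nat_lit 2) (nat_lit 4) (nat_lit 297) (nat_lit 220) (nat_lit 203))) (XT.nd (nat_lit 78) (nat_lit 0) (nat_lit 0) (XT.lf (nat_lit 0) (nat_lit 85534792452) (nat_lit 76) (nat_lit 25418213925) (nat_lit 76) (nat_lit 22548775742) (nat_lit 1) (nat_lit 4) (nat_lit 2) (nat_lit 5) (nat_lit 2) (nat_lit 4) (nat_lit 298) (nat_lit 220) (nat_lit 202)) (XT.nd (nat_lit 78) (nat_lit 0) (nat_lit 0) (XT.lf (nat_lit 0) (nat_lit 94709408653) (nat_lit 76) (nat_lit 26150326758) (nat_lit 76) (nat_lit 23209944117) (nat_lit 1) (nat_lit 4) (nat_lit 2) (nat_lit 5) (nat_lit 2) (nat_lit 4) (nat_lit 299) (nat_lit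 220) (nat_lit 201)) (XT.lf (nat_lit 0) (nat_lit 104561819703) (nat_lit 76) (nat_lit 26964982498) (nat_lit 76) (nat_lit 23958910545) (nat_lit 1) (nat_lit 4) (nat_lit 2) (nat_lit 5) (nat_lit 2) (nat_lit 4) (nat_lit 300) (nat_lit 220) (nat_lit 200))))) (XT.nd (nat_lit 234) (nat_lit 0) (nat_lit 0) (XT.nd (nat_lit 78) (nat_lit 0) (nat_lit 0) (XT.lf (nat_lit 0) (nat_lit 115150410258) (nat_lit 76) (nat_lit 27867008735) (nat_lit 76) (nat_lit 24800113345) (nat_lit 1) (nat_lit 4) (nat_lit 2) (nat_lit 5) (nat_lit 2) (nat_lit 4) (nat_lit 301) (nat_lit 220) (nat_lit 199)) (XT.nd (nat_lit 78) (nat_lit 0) (nat_lit 0) (XT.lf (nat_lit 0) (nat_lit 126537927521) (nat_lit 76) (nat_lit 28861750809) (nat_lit 76) (nat_lit 25738537422) (nat_lit 1) (nat_lit 4) (nat_lit 2) (nat_lit 5) (nat_lit 2) (nat_lit 4) (nat_lit 302) (nat_lit 220) (nat_lit 198)) (XT.lf (nat_lit 0) (nat_lit 138791853078) (nat_lit 76) (nat_lit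 29955103489) (nat_lit 76) (nat_lit 26779743808) (nat_lit 1) (nat_lit 4) (nat_lit 2) (nat_lit 5) (nat_lit 2) (nat_lit 4) (nat_lit 303) (nat_lit 220) (nat_lit 197)))) (XT.nd (nat_lit 78) (nat_lit 0) (nat_lit 0) (XT.lf (nat_lit 0) (nat_lit 151984802782) (nat_lit 76) (nat_lit 31153545902) (nat_lit 76) (nat_lit 27929902615) (nat_lit 1) (nat_lit 4) (nat_lit 2) (nat_lit 5) (nat_lit 2) (nat_lit 4) (nat_lit 304) (nat_lit 220) (nat_lit 196)) (XT.nd (nat_lit 78) (nat_lit 0) (nat_lit 0) (XT.lf (nat_lit 0) (nat_lit 166194957077) (nat_lit 76) (nat_lit 32464179928) (nat_lit 76) (nat_lit 29195829599) (nat_lit 1) (nat_lit 4) (nat_lit 2) (nat_lit 5) (nat_lit 2) (nat_lit 4) (nat_lit 305) (nat_lit 220) (nat_lit 195)) (XT.lf (nat_lit 0) (nat_lit 181506524284) (nat_lit 76) (nat_lit 33894772288) (nat_lit 76) (nat_lit 30585026550) (nat_lit 1) (nat_lit 4) (nat_lit 2) (nat_lit 5) (nat_lit 2) (nat_lit 4) (nat_lit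 306) (nat_lit 220) (nat_lit 194))))))))
noncomputable def xc17 : XT := (XT.nd (nat_lit 1716) (nat_lit 0) (nat_lit 0) (XT.nd (nat_lit 858) (nat_lit 0) (nat_lit 0) (XT.nd (nat_lit 390) (nat_lit 0) (nat_lit 0) (XT.nd (nat_lit 156) (nat_lit 0) (nat_lit 0) (XT.nd (nat_lit 78) (nat_lit 0) (nat_lit 0) (XT.lf (nat_lit 0) (nat_lit 198010239617) (nat_lit 76) (nat_lit 35453800565) (nat_lit 76) (nat_lit 32105725745) (nat_lit 1) (nat_lit 4) (nat_lit 2) (nat_lit 5) (nat_lit 2) (nat_lit 4) (nat_lit 307) (nat_lit 220) (nat_lit 193)) (XT.lf (nat_lit 0) (nat_lit 215803902869) (nat_lit 76) (nat_lit 37150503447) (nat_lit 76) (nat_lit 33766938735) (nat_lit 1) (nat_lit 4) (nat_lit 2) (nat_lit 5) (nat_lit 2) (nat_lit 4) (nat_lit 308) (nat_lit 220) (nat_lit 192))) (XT.nd (nat_lit 78) (nat_lit 0) (nat_lit 0) (XT.lf (nat_lit 0) (nat_lit 234992957972) (nat_lit 76) (nat_lit 38994935468) (nat_lit 76) (nat_lit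 35578509746) (nat_lit 1) (nat_lit 4) (nat_lit 2) (nat_lit 5) (nat_lit 2) (nat_lit 4) (nat_lit 309) (nat_lit 220) (nat_lit 191)) (XT.nd (nat_lit 78) (nat_lit 0) (nat_lit 0) (XT.lf (nat_lit 0) (nat_lit 255691117844) (nat_lit 76) (nat_lit 40998026597) (nat_lit 76) (nat_lit 37551174013) (nat_lit 1) (nat_lit 4) (nat_lit 2) (nat_lit 5) (nat_lit 2) (nat_lit 4) (nat_lit 310) (nat_lit 220) (nat_lit 190)) (XT.lf (nat_lit 0) (nat_lit 278021038248) (nat_lit 76) (nat_lit 43171647002) (nat_lit 76) (nat_lit 39696621398) (nat_lit 1) (nat_lit 4) (nat_lit 2) (nat_lit 5) (nat_lit 2) (nat_lit 4) (nat_lit 311) (nat_lit 220) (nat_lit 189))))) (XT.nd (nat_lit 234) (nat_lit 0) (nat_lit 0) (XT.nd (nat_lit 78) (nat_lit 0) (nat_lit 0) (XT.lf (nat_lit 0) (nat_lit 302115044637) (nat_lit 76) (nat_lit 45528677398) (nat_lit 76) (nat_lit 42027565665) (nat_lit 1) (nat_lit 4) (nat_lit 2) (nat_lit 5) (nat_lit 2) (nat_lit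 4) (nat_lit 312) (nat_lit 220) (nat_lit 188)) (XT.nd (nat_lit 78) (nat_lit 0) (nat_lit 0) (XT.lf (nat_lit 0) (nat_lit 328115916310) (nat_lit 76) (nat_lit 48083085372) (nat_lit 76) (nat_lit 44557819815) (nat_lit 1) (nat_lit 4) (nat_lit 2) (nat_lit 5) (nat_lit 2) (nat_lit 4) (nat_lit 313) (nat_lit 220) (nat_lit 187)) (XT.lf (nat_lit 0) (nat_lit 356177732505) (nat_lit 76) (nat_lit 50850008156) (nat_lit 76) (nat_lit 47302377947) (nat_lit 1) (nat_lit 4) (nat_lit 2) (nat_lit 5) (nat_lit 2) (nat_lit 4) (nat_lit 314) (nat_lit 220) (nat_lit 186)))) (XT.nd (nat_lit 78) (nat_lit 0) (nat_lit 0) (XT.lf (nat_lit 0) (nat_lit 386466785467) (nat_lit 76) (nat_lit 53845842330) (nat_lit 76) (nat_lit 50277504110) (nat_lit 1) (nat_lit 4) (nat_lit 2) (nat_lit 5) (nat_lit 2) (nat_lit 4) (nat_lit 315) (nat_lit 220) (nat_lit 185)) (XT.nd (nat_lit 78) (nat_lit 0) (nat_lit 0) (XT.lf (nat_lit 0) (nat_lit 419162565879)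 (nat_lit 76) (nat_lit 57088340985) (nat_lit 76) (nat_lit 53500828681) (nat_lit 1) (nat_lit 4) (nat_lit 2) (nat_lit 5) (nat_lit 2) (nat_lit 4) (nat_lit 316) (nat_lit 220) (nat_lit 184)) (XT.lf (nat_lit 0) (nat_lit 454458826516) (nat_lit 76) (nat_lit 60596718928) (nat_lit 76) (nat_lit 56991452843) (nat_lit 1) (nat_lit 4) (nat_lit 2) (nat_lit 5) (nat_lit 2) (nat_lit 4) (nat_lit 317) (nat_lit 220) (nat_lit 183)))))) (XT.nd (nat_lit 390) (nat_lit 0) (nat_lit 0) (XT.nd (nat_lit 156) (nat_lit 0) (nat_lit 0) (XT.nd (nat_lit 78) (nat_lit 0) (nat_lit 0) (XT.lf (nat_lit 0) (nat_lit 492564730402) (nat_lit 76) (nat_lit 64391766547) (nat_lit 76) (nat_lit 60770061775) (nat_lit 1) (nat_lit 4) (nat_lit 2) (nat_lit 5) (nat_lit 2) (nat_lit 4) (nat_lit 318) (nat_lit 220) (nat_lit 182)) (XT.lf (nat_lit 0) (nat_lit 533706090301) (nat_lit 76) (nat_lit 68495973013) (nat_lit 76) (nat_lit 64859047235) (nat_lit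 1) (nat_lit 4) (nat_lit 2) (nat_lit 5) (nat_lit 2) (nat_lit 4) (nat_lit 319) (nat_lit 220) (nat_lit 181))) (XT.nd (nat_lit 78) (nat_lit 0) (nat_lit 0) (XT.lf (nat_lit 0) (nat_lit 578126706866) (nat_lit 76) (nat_lit 72933659549) (nat_lit 76) (nat_lit 69282640247) (nat_lit 1) (nat_lit 4) (nat_lit 2) (nat_lit 5) (nat_lit 2) (nat_lit 4) (nat_lit 320) (nat_lit 220) (nat_lit 180)) (XT.nd (nat_lit 78) (nat_lit 0) (nat_lit 0) (XT.lf (nat_lit 0) (nat_lit 626089813378) (nat_lit 76) (nat_lit 77731123557) (nat_lit 76) (nat_lit 74067054696) (nat_lit 1) (nat_lit 4) (nat_lit 2) (nat_lit 5) (nat_lit 2) (nat_lit 4) (nat_lit 321) (nat_lit 220) (nat_lit 179)) (XT.lf (nat_lit 0) (nat_lit 677879635655) (nat_lit 76) (nat_lit 82916794454) (nat_lit 76) (nat_lit 79240642668) (nat_lit 1) (nat_lit 4) (nat_lit 2) (nat_lit 5) (nat_lit 2) (nat_lit 4) (nat_lit 322) (nat_lit 220) (nat_lit 178))))) (XT.nd (nat_lit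 234) (nat_lit 0) (nat_lit 0) (XT.nd (nat_lit 78) (nat_lit 0) (nat_lit 0) (XT.lf (nat_lit 0) (nat_lit 733803076346) (nat_lit 76) (nat_lit 88521402141) (nat_lit 76) (nat_lit 84834062461) (nat_lit 1) (nat_lit 4) (nat_lit 2) (nat_lit 5) (nat_lit 2) (nat_lit 4) (nat_lit 323) (nat_lit 220) (nat_lit 177)) (XT.nd (nat_lit 78) (nat_lit 0) (nat_lit 0) (XT.lf (nat_lit 0) (nat_lit 794191533620) (nat_lit 76) (nat_lit 94578159108) (nat_lit 76) (nat_lit 90880460267) (nat_lit 1) (nat_lit 4) (nat_lit 2) (nat_lit 5) (nat_lit 2) (nat_lit 4) (nat_lit 324) (nat_lit 220) (nat_lit 176)) (XT.lf (nat_lit 0) (nat_lit 859402865000) (nat_lit 76) (nat_lit 101122957248) (nat_lit 76) (nat_lit 97415666591) (nat_lit 1) (nat_lit 4) (nat_lit 2) (nat_lit 5) (nat_lit 2) (nat_lit 4) (nat_lit 325) (nat_lit 220) (nat_lit 175)))) (XT.nd (nat_lit 78) (nat_lit 0) (nat_lit 0) (XT.lf (nat_lit 0) (nat_lit 929823508007) (nat_lit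 76) (nat_lit 108194580551) (nat_lit 76) (nat_lit 104478408583) (nat_lit 1) (nat_lit 4) (nat_lit 2) (nat_lit 5) (nat_lit 2) (nat_lit 4) (nat_lit 326) (nat_lit 220) (nat_lit 174)) (XT.nd (nat_lit 78) (nat_lit 0) (nat_lit 0) (XT.lf (nat_lit 0) (nat_lit 1005870770153) (nat_lit 76) (nat_lit 115834934931) (nat_lit 76) (nat_lit 112110539527) (nat_lit 1) (nat_lit 4) (nat_lit 2) (nat_lit 5) (nat_lit 2) (nat_lit 4) (nat_lit 327) (nat_lit 220) (nat_lit 173)) (XT.lf (nat_lit 0) (nat_lit 1087995301881) (nat_lit 76) (nat_lit 124089296564) (nat_lit 76) (nat_lit 120357286867) (nat_lit 1) (nat_lit 4) (nat_lit 2) (nat_lit 5) (nat_lit 2) (nat_lit 4) (nat_lit 328) (nat_lit 220) (nat_lit 172))))))) (XT.nd (nat_lit 34008) (nat_lit 0) (nat_lit 0) (XT.nd (nat_lit 33540) (nat_lit 0) (nat_lit 76) (XT.nd (nat_lit 156) (nat_lit 0) (nat_lit 0) (XT.nd (nat_lit 78) (nat_lit 0) (nat_lit 0) (XT.lf (nat_lit 0) (nat_lit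 1176683767084) (nat_lit 76) (nat_lit 133006580184) (nat_lit 76) (nat_lit 129267520217) (nat_lit 1) (nat_lit 4) (nat_lit 2) (nat_lit 5) (nat_lit 2) (nat_lit 4) (nat_lit 329) (nat_lit 220) (nat_lit 171)) (XT.lf (nat_lit 0) (nat_lit 1272461727036) (nat_lit 76) (nat_lit 142639628955) (nat_lit 76) (nat_lit 138894040959) (nat_lit 1) (nat_lit 4) (nat_lit 2) (nat_lit 5) (nat_lit 2) (nat_lit 4) (nat_lit 330) (nat_lit 220) (nat_lit 170))) (XT.nd (nat_lit 78) (nat_lit 0) (nat_lit 0) (XT.lf (nat_lit 0) (nat_lit 1375896754833) (nat_lit 76) (nat_lit 153045527609) (nat_lit 76) (nat_lit 149293895142) (nat_lit 1) (nat_lit 4) (nat_lit 2) (nat_lit 5) (nat_lit 2) (nat_lit 4) (nat_lit 331) (nat_lit 220) (nat_lit 169)) (XT.nd (nat_lit 78) (nat_lit 0) (nat_lit 0) (XT.lf (nat_lit 0) (nat_lit 1487601798789) (nat_lit 76) (nat_lit 164285940731) (nat_lit 76) (nat_lit 160528711531) (nat_lit 1) (nat_lit 4) (nat_lit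 2) (nat_lit 5) (nat_lit 2) (nat_lit 4) (nat_lit 332) (nat_lit 220) (nat_lit 168)) (XT.lf (nat_lit 0) (nat_lit 1608238814718) (nat_lit 76) (nat_lit 176427478176) (nat_lit 76) (nat_lit 172665066817) (nat_lit 1) (nat_lit 4) (nat_lit 2) (nat_lit 5) (nat_lit 2) (nat_lit 4) (nat_lit 333) (nat_lit 220) (nat_lit 167))))) (XT.nd (nat_lit 234) (nat_lit 0) (nat_lit 0) (XT.nd (nat_lit 78) (nat_lit 0) (nat_lit 0) (XT.lf (nat_lit 0) (nat_lit 3120976776) (nat_lit 152) (nat_lit 8956714181) (nat_lit 0) (nat_lit 3120976776) (nat_lit 2) (nat_lit 5) (nat_lit 4) (nat_lit 4) (nat_lit 2) (nat_lit 4) (nat_lit 278) (nat_lit 221) (nat_lit 221)) (XT.nd (nat_lit 78) (nat_lit 0) (nat_lit 0) (XT.lf (nat_lit 0) (nat_lit 9141240211) (nat_lit 152) (nat_lit 14623042009) (nat_lit 0) (nat_lit 8835065143) (nat_lit 2) (nat_lit 5) (nat_lit 4) (nat_lit 4) (nat_lit 2) (nat_lit 4) (nat_lit 279) (nat_lit 221) (nat_lit 220))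 (XT.lf (nat_lit 0) (nat_lit 12139332278) (nat_lit 152) (nat_lit 11299729437) (nat_lit 0) (nat_lit 11549661776) (nat_lit 2) (nat_lit 5) (nat_lit 4) (nat_lit 4) (nat_lit 2) (nat_lit 4) (nat_lit 280) (nat_lit 221) (nat_lit 219)))) (XT.nd (nat_lit 78) (nat_lit 0) (nat_lit 0) (XT.lf (nat_lit 0) (nat_lit 15253996223) (nat_lit 152) (nat_lit 7923796944) (nat_lit 0) (nat_lit 14401829949) (nat_lit 2) (nat_lit 5) (nat_lit 4) (nat_lit 4) (nat_lit 2) (nat_lit 4) (nat_lit 281) (nat_lit 221) (nat_lit 218)) (XT.nd (nat_lit 78) (nat_lit 0) (nat_lit 0) (XT.lf (nat_lit 0) (nat_lit 18503689314) (nat_lit 152) (nat_lit 4475239003) (nat_lit 0) (nat_lit 17408471400) (nat_lit 2) (nat_lit 5) (nat_lit 4) (nat_lit 4) (nat_lit 2) (nat_lit 4) (nat_lit 282) (nat_lit 221) (nat_lit 217)) (XT.lf (nat_lit 0) (nat_lit 21907668992) (nat_lit 152) (nat_lit 933619715) (nat_lit 0) (nat_lit 20587403262) (nat_lit 2) (nat_lit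 5) (nat_lit 4) (nat_lit 4) (nat_lit 2) (nat_lit 4) (nat_lit 283) (nat_lit 221) (nat_lit 216)))))) (XT.nd (nat_lit 390) (nat_lit 0) (nat_lit 0) (XT.nd (nat_lit 156) (nat_lit 0) (nat_lit 0) (XT.nd (nat_lit 78) (nat_lit 0) (nat_lit 0) (XT.lf (nat_lit 0) (nat_lit 2865386531) (nat_lit 76) (nat_lit 22689633071) (nat_lit 76) (nat_lit 21160989735) (nat_lit 1) (nat_lit 4) (nat_lit 2) (nat_lit 5) (nat_lit 2) (nat_lit 4) (nat_lit 284) (nat_lit 221) (nat_lit 215)) (XT.lf (nat_lit 0) (nat_lit 6856413827) (nat_lit 76) (nat_lit 22568691951) (nat_lit 76) (nat_lit 20847106386) (nat_lit 1) (nat_lit 4) (nat_lit 2) (nat_lit 5) (nat_lit 2) (nat_lit 4) (nat_lit 285) (nat_lit 221) (nat_lit 214))) (XT.nd (nat_lit 78) (nat_lit 0) (nat_lit 0) (XT.lf (nat_lit 0) (nat_lit 11013949943) (nat_lit 76) (nat_lit 22503275476) (nat_lit 76) (nat_lit 20603039699) (nat_lit 1) (nat_lit 4) (nat_lit 2) (nat_lit 5) (nat_lit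 2) (nat_lit 4) (nat_lit 286) (nat_lit 221) (nat_lit 213)) (XT.nd (nat_lit 78) (nat_lit 0) (nat_lit 0) (XT.lf (nat_lit 0) (nat_lit 15362632130) (nat_lit 76) (nat_lit 22492995994) (nat_lit 76) (nat_lit 20427343354) (nat_lit 1) (nat_lit 4) (nat_lit 2) (nat_lit 5) (nat_lit 2) (nat_lit 4) (nat_lit 287) (nat_lit 221) (nat_lit 212)) (XT.lf (nat_lit 0) (nat_lit 19928230358) (nat_lit 76) (nat_lit 22537792588) (nat_lit 76) (nat_lit 20318976187) (nat_lit 1) (nat_lit 4) (nat_lit 2) (nat_lit 5) (nat_lit 2) (nat_lit 4) (nat_lit 288) (nat_lit 221) (nat_lit 211))))) (XT.nd (nat_lit 234) (nat_lit 0) (nat_lit 0) (XT.nd (nat_lit 78) (nat_lit 0) (nat_lit 0) (XT.lf (nat_lit 0) (nat_lit 24737800022) (nat_lit 76) (nat_lit 22637930721) (nat_lit 76) (nat_lit 20277296022) (nat_lit 1) (nat_lit 4) (nat_lit 2) (nat_lit 5) (nat_lit 2) (nat_lit 4) (nat_lit 289) (nat_lit 221) (nat_lit 210)) (XT.nd (nat_lit 78) (nat_lit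 0) (nat_lit 0) (XT.lf (nat_lit 0) (nat_lit 29819842276) (nat_lit 76) (nat_lit 22794003803) (nat_lit 76) (nat_lit 20302055865) (nat_lit 1) (nat_lit 4) (nat_lit 2) (nat_lit 5) (nat_lit 2) (nat_lit 4) (nat_lit 290) (nat_lit 221) (nat_lit 209)) (XT.lf (nat_lit 0) (nat_lit 35204472928) (nat_lit 76) (nat_lit 23006936712) (nat_lit 76) (nat_lit 20393402442) (nat_lit 1) (nat_lit 4) (nat_lit 2) (nat_lit 5) (nat_lit 2) (nat_lit 4) (nat_lit 291) (nat_lit 221) (nat_lit 208)))) (XT.nd (nat_lit 78) (nat_lit 0) (nat_lit 0) (XT.lf (nat_lit 0) (nat_lit 40923600897) (nat_lit 76) (nat_lit 23277991272) (nat_lit 76) (nat_lit 20551877065) (nat_lit 1) (nat_lit 4) (nat_lit 2) (nat_lit 5) (nat_lit 2) (nat_lit 4) (nat_lit 292) (nat_lit 221) (nat_lit 207)) (XT.nd (nat_lit 78) (nat_lit 0) (nat_lit 0) (XT.lf (nat_lit 0) (nat_lit 47011117315) (nat_lit 76) (nat_lit 23608773733) (nat_lit 76) (nat_lit 20778418844)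 (nat_lit 1) (nat_lit 4) (nat_lit 2) (nat_lit 5) (nat_lit 2) (nat_lit 4) (nat_lit 293) (nat_lit 221) (nat_lit 206)) (XT.lf (nat_lit 0) (nat_lit 53503096351) (nat_lit 76) (nat_lit 24001244288) (nat_lit 76) (nat_lit 21074370248) (nat_lit 1) (nat_lit 4) (nat_lit 2) (nat_lit 5) (nat_lit 2) (nat_lit 4) (nat_lit 294) (nat_lit 221) (nat_lit 205))))))))
noncomputable def xc18 : XT := (XT.nd (nat_lit 1716) (nat_lit 0) (nat_lit 0) (XT.nd (nat_lit 858) (nat_lit 0) (nat_lit 0) (XT.nd (nat_lit 390) (nat_lit 0) (nat_lit 0) (XT.nd (nat_lit 156) (nat_lit 0) (nat_lit 0) (XT.nd (nat_lit 78) (nat_lit 0) (nat_lit 0) (XT.lf (nat_lit 0) (nat_lit 60438008993) (nat_lit 76) (nat_lit 24457728687) (nat_lit 76) (nat_lit 21441485063) (nat_lit 1) (nat_lit 4) (nat_lit 2) (nat_lit 5) (nat_lit 2) (nat_lit 4) (nat_lit 295) (nat_lit 221) (nat_lit 204)) (XT.lf (nat_lit 0) (nat_lit 67856951019) (nat_lit 76) (nat_lit 24980932023)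 (nat_lit 76) (nat_lit 21881938784) (nat_lit 1) (nat_lit 4) (nat_lit 2) (nat_lit 5) (nat_lit 2) (nat_lit 4) (nat_lit 296) (nat_lit 221) (nat_lit 203))) (XT.nd (nat_lit 78) (nat_lit 0) (nat_lit 0) (XT.lf (nat_lit 0) (nat_lit 75803886531) (nat_lit 76) (nat_lit 25573954760) (nat_lit 76) (nat_lit 22398341508) (nat_lit 1) (nat_lit 4) (nat_lit 2) (nat_lit 5) (nat_lit 2) (nat_lit 4) (nat_lit 297) (nat_lit 221) (nat_lit 202)) (XT.nd (nat_lit 78) (nat_lit 0) (nat_lit 0) (XT.lf (nat_lit 0) (nat_lit 84325908479) (nat_lit 76) (nat_lit 26240311108) (nat_lit 76) (nat_lit 22993753399) (nat_lit 1) (nat_lit 4) (nat_lit 2) (nat_lit 5) (nat_lit 2) (nat_lit 4) (nat_lit 298) (nat_lit 221) (nat_lit 201)) (XT.lf (nat_lit 0) (nat_lit 93473517735) (nat_lit 76) (nat_lit 26983949845) (nat_lit 76) (nat_lit 23671702824) (nat_lit 1) (nat_lit 4) (nat_lit 2) (nat_lit 5) (nat_lit 2) (nat_lit 4) (nat_lit 299) (nat_lit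 221) (nat_lit 200))))) (XT.nd (nat_lit 234) (nat_lit 0) (nat_lit 0) (XT.nd (nat_lit 78) (nat_lit 0) (nat_lit 0) (XT.lf (nat_lit 0) (nat_lit 103300922352) (nat_lit 76) (nat_lit 27809277718) (nat_lit 76) (nat_lit 24436207260) (nat_lit 1) (nat_lit 4) (nat_lit 2) (nat_lit 5) (nat_lit 2) (nat_lit 4) (nat_lit 300) (nat_lit 221) (nat_lit 199)) (XT.nd (nat_lit 78) (nat_lit 0) (nat_lit 0) (XT.lf (nat_lit 0) (nat_lit 113866358803) (nat_lit 76) (nat_lit 28721185561) (nat_lit 76) (nat_lit 25291797105) (nat_lit 1) (nat_lit 4) (nat_lit 2) (nat_lit 5) (nat_lit 2) (nat_lit 4) (nat_lit 301) (nat_lit 221) (nat_lit 198)) (XT.lf (nat_lit 0) (nat_lit 125232437082) (nat_lit 76) (nat_lit 29725077269) (nat_lit 76) (nat_lit 26243542520) (nat_lit 1) (nat_lit 4) (nat_lit 2) (nat_lit 5) (nat_lit 2) (nat_lit 4) (nat_lit 302) (nat_lit 221) (nat_lit 197)))) (XT.nd (nat_lit 78) (nat_lit 0) (nat_lit 0) (XT.lf (nat_lit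 0) (nat_lit 137466511727) (nat_lit 76) (nat_lit 30826901833) (nat_lit 76) (nat_lit 27297083478) (nat_lit 1) (nat_lit 4) (nat_lit 2) (nat_lit 5) (nat_lit 2) (nat_lit 4) (nat_lit 303) (nat_lit 221) (nat_lit 196)) (XT.nd (nat_lit 78) (nat_lit 0) (nat_lit 0) (XT.lf (nat_lit 0) (nat_lit 150641080957) (nat_lit 76) (nat_lit 32033188583) (nat_lit 76) (nat_lit 28458663186) (nat_lit 1) (nat_lit 4) (nat_lit 2) (nat_lit 5) (nat_lit 2) (nat_lit 4) (nat_lit 304) (nat_lit 221) (nat_lit 195)) (XT.lf (nat_lit 0) (nat_lit 164834216295) (nat_lit 76) (nat_lit 33351085883) (nat_lit 76) (nat_lit 29735165077) (nat_lit 1) (nat_lit 4) (nat_lit 2) (nat_lit 5) (nat_lit 2) (nat_lit 4) (nat_lit 305) (nat_lit 221) (nat_lit 194)))))) (XT.nd (nat_lit 390) (nat_lit 0) (nat_lit 0) (XT.nd (nat_lit 156) (nat_lit 0) (nat_lit 0) (XT.nd (nat_lit 78) (nat_lit 0) (nat_lit 0) (XT.lf (nat_lit 0) (nat_lit 180130025208) (nat_lit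 76) (nat_lit 34788403497) (nat_lit 76) (nat_lit 31134153609) (nat_lit 1) (nat_lit 4) (nat_lit 2) (nat_lit 5) (nat_lit 2) (nat_lit 4) (nat_lit 306) (nat_lit 221) (nat_lit 193)) (XT.lf (nat_lit 0) (nat_lit 196619149528) (nat_lit 76) (nat_lit 36353658863) (nat_lit 76) (nat_lit 32663919082) (nat_lit 1) (nat_lit 4) (nat_lit 2) (nat_lit 5) (nat_lit 2) (nat_lit 4) (nat_lit 307) (nat_lit 221) (nat_lit 192))) (XT.nd (nat_lit 78) (nat_lit 0) (nat_lit 0) (XT.lf (nat_lit 0) (nat_lit 214399302583) (nat_lit 76) (nat_lit 38056127566) (nat_lit 76) (nat_lit 34333526775) (nat_lit 1) (nat_lit 4) (nat_lit 2) (nat_lit 5) (nat_lit 2) (nat_lit 4) (nat_lit 308) (nat_lit 221) (nat_lit 191)) (XT.nd (nat_lit 78) (nat_lit 0) (nat_lit 0) (XT.lf (nat_lit 0) (nat_lit 233575848244) (nat_lit 76) (nat_lit 39905898311) (nat_lit 76) (nat_lit 36152870659) (nat_lit 1) (nat_lit 4) (nat_lit 2) (nat_lit 5) (nat_lit 2) (nat_lit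 4) (nat_lit 309) (nat_lit 221) (nat_lit 190)) (XT.lf (nat_lit 0) (nat_lit 254262425300) (nat_lit 76) (nat_lit 41913932703) (nat_lit 76) (nat_lit 38132732030) (nat_lit 1) (nat_lit 4) (nat_lit 2) (nat_lit 5) (nat_lit 2) (nat_lit 4) (nat_lit 310) (nat_lit 221) (nat_lit 189))))) (XT.nd (nat_lit 234) (nat_lit 0) (nat_lit 0) (XT.nd (nat_lit 78) (nat_lit 0) (nat_lit 0) (XT.lf (nat_lit 0) (nat_lit 276581620873) (nat_lit 76) (nat_lit 44092130203) (nat_lit 76) (nat_lit 40284843401) (nat_lit 1) (nat_lit 4) (nat_lit 2) (nat_lit 5) (nat_lit 2) (nat_lit 4) (nat_lit 311) (nat_lit 221) (nat_lit 188)) (XT.nd (nat_lit 78) (nat_lit 0) (nat_lit 0) (XT.lf (nat_lit 0) (nat_lit 300665696865) (nat_lit 76) (nat_lit 46453398650) (nat_lit 76) (nat_lit 42621958025) (nat_lit 1) (nat_lit 4) (nat_lit 2) (nat_lit 5) (nat_lit 2) (nat_lit 4) (nat_lit 312) (nat_lit 221) (nat_lit 187)) (XT.lf (nat_lit 0) (nat_lit 326657373724)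 (nat_lit 76) (nat_lit 49011730745) (nat_lit 76) (nat_lit 45157925468) (nat_lit 1) (nat_lit 4) (nat_lit 2) (nat_lit 5) (nat_lit 2) (nat_lit 4) (nat_lit 313) (nat_lit 221) (nat_lit 186)))) (XT.nd (nat_lit 78) (nat_lit 0) (nat_lit 0) (XT.lf (nat_lit 0) (nat_lit 354710676204) (nat_lit 76) (nat_lit 51782286975) (nat_lit 76) (nat_lit 47907773687) (nat_lit 1) (nat_lit 4) (nat_lit 2) (nat_lit 5) (nat_lit 2) (nat_lit 4) (nat_lit 314) (nat_lit 221) (nat_lit 185)) (XT.nd (nat_lit 78) (nat_lit 0) (nat_lit 0) (XT.lf (nat_lit 0) (nat_lit 384991846095) (nat_lit 76) (nat_lit 54781485450) (nat_lit 76) (nat_lit 50887798078) (nat_lit 1) (nat_lit 4) (nat_lit 2) (nat_lit 5) (nat_lit 2) (nat_lit 4) (nat_lit 315) (nat_lit 221) (nat_lit 184)) (XT.lf (nat_lit 0) (nat_lit 417680327369) (nat_lit 76) (nat_lit 58027099199) (nat_lit 76) (nat_lit 54115658046) (nat_lit 1) (nat_lit 4) (nat_lit 2) (nat_lit 5) (nat_lit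 2) (nat_lit 4) (nat_lit 316) (nat_lit 221) (nat_lit 183))))))) (XT.nd (nat_lit 858) (nat_lit 0) (nat_lit 0) (XT.nd (nat_lit 390) (nat_lit 0) (nat_lit 0) (XT.nd (nat_lit 156) (nat_lit 0) (nat_lit 0) (XT.nd (nat_lit 78) (nat_lit 0) (nat_lit 0) (XT.lf (nat_lit 0) (nat_lit 452969829543) (nat_lit 76) (nat_lit 61538361489) (nat_lit 76) (nat_lit 57610481649) (nat_lit 1) (nat_lit 4) (nat_lit 2) (nat_lit 5) (nat_lit 2) (nat_lit 4) (nat_lit 317) (nat_lit 221) (nat_lit 182)) (XT.lf (nat_lit 0) (nat_lit 491069475594) (nat_lit 76) (nat_lit 65336079799) (nat_lit 76) (nat_lit 61392978953) (nat_lit 1) (nat_lit 4) (nat_lit 2) (nat_lit 5) (nat_lit 2) (nat_lit 4) (nat_lit 318) (nat_lit 221) (nat_lit 181))) (XT.nd (nat_lit 78) (nat_lit 0) (nat_lit 0) (XT.lf (nat_lit 0) (nat_lit 532205041201) (nat_lit 76) (nat_lit 69442759127) (nat_lit 76) (nat_lit 65485564757) (nat_lit 1) (nat_lit 4) (nat_lit 2) (nat_lit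 5) (nat_lit 2) (nat_lit 4) (nat_lit 319) (nat_lit 221) (nat_lit 180)) (XT.nd (nat_lit 78) (nat_lit 0) (nat_lit 0) (XT.lf (nat_lit 0) (nat_lit 576620292680) (nat_lit 76) (nat_lit 73882735350) (nat_lit 76) (nat_lit 69912491421) (nat_lit 1) (nat_lit 4) (nat_lit 2) (nat_lit 5) (nat_lit 2) (nat_lit 4) (nat_lit 320) (nat_lit 221) (nat_lit 179)) (XT.lf (nat_lit 0) (nat_lit 624578431521) (nat_lit 76) (nat_lit 78682319439) (nat_lit 76) (nat_lit 74699992584) (nat_lit 1) (nat_lit 4) (nat_lit 2) (nat_lit 5) (nat_lit 2) (nat_lit 4) (nat_lit 321) (nat_lit 221) (nat_lit 178))))) (XT.nd (nat_lit 234) (nat_lit 0) (nat_lit 0) (XT.nd (nat_lit 78) (nat_lit 0) (nat_lit 0) (XT.lf (nat_lit 0) (nat_lit 676363654102) (nat_lit 76) (nat_lit 83869953374) (nat_lit 76) (nat_lit 79876438625) (nat_lit 1) (nat_lit 4) (nat_lit 2) (nat_lit 5) (nat_lit 2) (nat_lit 4) (nat_lit 322) (nat_lit 221) (nat_lit 177)) (XT.nd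 (nat_lit 78) (nat_lit 0) (nat_lit 0) (XT.lf (nat_lit 0) (nat_lit 732282835816) (nat_lit 76) (nat_lit 89476378688) (nat_lit 76) (nat_lit 85472504778) (nat_lit 1) (nat_lit 4) (nat_lit 2) (nat_lit 5) (nat_lit 2) (nat_lit 4) (nat_lit 323) (nat_lit 221) (nat_lit 176)) (XT.lf (nat_lit 0) (nat_lit 792667349592) (nat_lit 76) (nat_lit 95534818644) (nat_lit 76) (nat_lit 91521352918) (nat_lit 1) (nat_lit 4) (nat_lit 2) (nat_lit 5) (nat_lit 2) (nat_lit 4) (nat_lit 324) (nat_lit 221) (nat_lit 175)))) (XT.nd (nat_lit 78) (nat_lit 0) (nat_lit 0) (XT.lf (nat_lit 0) (nat_lit 857875029586) (nat_lit 76) (nat_lit 102081175106) (nat_lit 76) (nat_lit 98058828070) (nat_lit 1) (nat_lit 4) (nat_lit 2) (nat_lit 5) (nat_lit 2) (nat_lit 4) (nat_lit 325) (nat_lit 221) (nat_lit 174)) (XT.nd (nat_lit 78) (nat_lit 0) (nat_lit 0) (XT.lf (nat_lit 0) (nat_lit 928292291678) (nat_lit 76) (nat_lit 109154241300) (nat_lit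 76) (nat_lit 105123670828) (nat_lit 1) (nat_lit 4) (nat_lit 2) (nat_lit 5) (nat_lit 2) (nat_lit 4) (nat_lit 326) (nat_lit 221) (nat_lit 173)) (XT.lf (nat_lit 0) (nat_lit 1004336423349) (nat_lit 76) (nat_lit 116795931691) (nat_lit 76) (nat_lit 112757746926) (nat_lit 1) (nat_lit 4) (nat_lit 2) (nat_lit 5) (nat_lit 2) (nat_lit 4) (nat_lit 327) (nat_lit 221) (nat_lit 172)))))) (XT.nd (nat_lit 390) (nat_lit 0) (nat_lit 0) (XT.nd (nat_lit 156) (nat_lit 0) (nat_lit 0) (XT.nd (nat_lit 78) (nat_lit 0) (nat_lit 0) (XT.lf (nat_lit 0) (nat_lit 1086458056489) (nat_lit 76) (nat_lit 125051530370) (nat_lit 76) (nat_lit 121006295335) (nat_lit 1) (nat_lit 4) (nat_lit 2) (nat_lit 5) (nat_lit 2) (nat_lit 4) (nat_lit 328) (nat_lit 221) (nat_lit 171)) (XT.lf (nat_lit 0) (nat_lit 1175143837813) (nat_lit 76) (nat_lit 133969959404) (nat_lit 76) (nat_lit 129918196340) (nat_lit 1) (nat_lit 4) (nat_lit 2) (nat_lit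 5) (nat_lit 2) (nat_lit 4) (nat_lit 329) (nat_lit 221) (nat_lit 170))) (XT.nd (nat_lit 78) (nat_lit 0) (nat_lit 0) (XT.lf (nat_lit 0) (nat_lit 1270919312693) (nat_lit 76) (nat_lit 143604068743) (nat_lit 76) (nat_lit 139546261208) (nat_lit 1) (nat_lit 4) (nat_lit 2) (nat_lit 5) (nat_lit 2) (nat_lit 4) (nat_lit 330) (nat_lit 221) (nat_lit 169)) (XT.nd (nat_lit 78) (nat_lit 0) (nat_lit 0) (XT.lf (nat_lit 0) (nat_lit 1374352039497) (nat_lit 76) (nat_lit 154010949404) (nat_lit 76) (nat_lit 149947545137) (nat_lit 1) (nat_lit 4) (nat_lit 2) (nat_lit 5) (nat_lit 2) (nat_lit 4) (nat_lit 331) (nat_lit 221) (nat_lit 168)) (XT.lf (nat_lit 0) (nat_lit 1486054952903) (nat_lit 76) (nat_lit 165252271793) (nat_lit 76) (nat_lit 161183685365) (nat_lit 1) (nat_lit 4) (nat_lit 2) (nat_lit 5) (nat_lit 2) (nat_lit 4) (nat_lit 332) (nat_lit 221) (nat_lit 167))))) (XT.nd (nat_lit 33228) (nat_lit 0) (nat_lit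 76) (XT.nd (nat_lit 33072) (nat_lit 0) (nat_lit 76) (XT.lf (nat_lit 0) (nat_lit 1606689996102) (nat_lit 76) (nat_lit 177394651151) (nat_lit 76) (nat_lit 173321266428) (nat_lit 1) (nat_lit 4) (nat_lit 2) (nat_lit 5) (nat_lit 2) (nat_lit 4) (nat_lit 333) (nat_lit 221) (nat_lit 166)) (XT.nd (nat_lit 78) (nat_lit 0) (nat_lit 0) (XT.lf (nat_lit 0) (nat_lit 538442411) (nat_lit 152) (nat_lit 12172094702) (nat_lit 0) (nat_lit 538442411) (nat_lit 2) (nat_lit 5) (nat_lit 4) (nat_lit 4) (nat_lit 2) (nat_lit 4) (nat_lit 276) (nat_lit 222) (nat_lit 222)) (XT.lf (nat_lit 0) (nat_lit 3754960415) (nat_lit 152) (nat_lit 21190387084) (nat_lit 0) (nat_lit 3424291341) (nat_lit 2) (nat_lit 5) (nat_lit 4) (nat_lit 4) (nat_lit 2) (nat_lit 4) (nat_lit 277) (nat_lit 222) (nat_lit 221)))) (XT.nd (nat_lit 78) (nat_lit 0) (nat_lit 0) (XT.lf (nat_lit 0) (nat_lit 6503493526) (nat_lit 152) (nat_lit 18033009644)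 (nat_lit 0) (nat_lit 5866649383) (nat_lit 2) (nat_lit 5) (nat_lit 4) (nat_lit 4) (nat_lit 2) (nat_lit 4) (nat_lit 278) (nat_lit 222) (nat_lit 220)) (XT.nd (nat_lit 78) (nat_lit 0) (nat_lit 0) (XT.lf (nat_lit 0) (nat_lit 9338771759) (nat_lit 152) (nat_lit 14853346699) (nat_lit 0) (nat_lit 8418432184) (nat_lit 2) (nat_lit 5) (nat_lit 4) (nat_lit 4) (nat_lit 2) (nat_lit 4) (nat_lit 279) (nat_lit 222) (nat_lit 219)) (XT.lf (nat_lit 0) (nat_lit 12277596765) (nat_lit 152) (nat_lit 11632555803) (nat_lit 0) (nat_lit 11094761417) (nat_lit 2) (nat_lit 5) (nat_lit 4) (nat_lit 4) (nat_lit 2) (nat_lit 4) (nat_lit 280) (nat_lit 222) (nat_lit 218))))))))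
noncomputable def xc19 : XT := (XT.nd (nat_lit 1716) (nat_lit 0) (nat_lit 0) (XT.nd (nat_lit 858) (nat_lit 0) (nat_lit 0) (XT.nd (nat_lit 390) (nat_lit 0) (nat_lit 0) (XT.nd (nat_lit 156) (nat_lit 76) (nat_lit 0) (XT.nd (nat_lit 78) (nat_lit 0) (nat_lit 0) (XT.lf (nat_lit 0) (nat_lit 15337383801) (nat_lit 152) (nat_lit 8351550786) (nat_lit 0) (nat_lit 13911496813) (nat_lit 2) (nat_lit 5) (nat_lit 4) (nat_lit 4) (nat_lit 2) (nat_lit 4) (nat_lit 281) (nat_lit 222) (nat_lit 217)) (XT.lf (nat_lit 0) (nat_lit 18536264940) (nat_lit 152) (nat_lit 4990888657) (nat_lit 0) (nat_lit 16885330137) (nat_lit 2) (nat_lit 5) (nat_lit 4) (nat_lit 4) (nat_lit 2) (nat_lit 4) (nat_lit 282) (nat_lit 222) (nat_lit 216))) (XT.nd (nat_lit 78) (nat_lit 76) (nat_lit 0) (XT.lf (nat_lit 0) (nat_lit 21893196514) (nat_lit 152) (nat_lit 1530654380) (nat_lit 0) (nat_lit 20033884104) (nat_lit 2) (nat_lit 5) (nat_lit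 4) (nat_lit 4) (nat_lit 2) (nat_lit 4) (nat_lit 283) (nat_lit 222) (nat_lit 215)) (XT.nd (nat_lit 78) (nat_lit 0) (nat_lit 0) (XT.lf (nat_lit 0) (nat_lit 2157588448) (nat_lit 76) (nat_lit 23322373057) (nat_lit 76) (nat_lit 21270118418) (nat_lit 1) (nat_lit 4) (nat_lit 2) (nat_lit 5) (nat_lit 2) (nat_lit 4) (nat_lit 284) (nat_lit 222) (nat_lit 214)) (XT.lf (nat_lit 0) (nat_lit 6075167011) (nat_lit 76) (nat_lit 23232778059) (nat_lit 76) (nat_lit 21001873208) (nat_lit 1) (nat_lit 4) (nat_lit 2) (nat_lit 5) (nat_lit 2) (nat_lit 4) (nat_lit 285) (nat_lit 222) (nat_lit 213))))) (XT.nd (nat_lit 234) (nat_lit 0) (nat_lit 0) (XT.nd (nat_lit 78) (nat_lit 0) (nat_lit 0) (XT.lf (nat_lit 0) (nat_lit 10164695042) (nat_lit 76) (nat_lit 23196385772) (nat_lit 76) (nat_lit 20800064059) (nat_lit 1) (nat_lit 4) (nat_lit 2) (nat_lit 5) (nat_lit 2) (nat_lit 4) (nat_lit 286) (nat_lit 222) (nat_lit 212))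 (XT.nd (nat_lit 78) (nat_lit 0) (nat_lit 0) (XT.lf (nat_lit 0) (nat_lit 14450406780) (nat_lit 76) (nat_lit 23212980537) (nat_lit 76) (nat_lit 20663495063) (nat_lit 1) (nat_lit 4) (nat_lit 2) (nat_lit 5) (nat_lit 2) (nat_lit 4) (nat_lit 287) (nat_lit 222) (nat_lit 211)) (XT.lf (nat_lit 0) (nat_lit 18957699035) (nat_lit 76) (nat_lit 23282660695) (nat_lit 76) (nat_lit 20591356922) (nat_lit 1) (nat_lit 4) (nat_lit 2) (nat_lit 5) (nat_lit 2) (nat_lit 4) (nat_lit 288) (nat_lit 222) (nat_lit 210)))) (XT.nd (nat_lit 78) (nat_lit 0) (nat_lit 0) (XT.lf (nat_lit 0) (nat_lit 23713281689) (nat_lit 76) (nat_lit 23405839163) (nat_lit 76) (nat_lit 20583222152) (nat_lit 1) (nat_lit 4) (nat_lit 2) (nat_lit 5) (nat_lit 2) (nat_lit 4) (nat_lit 289) (nat_lit 222) (nat_lit 209)) (XT.nd (nat_lit 78) (nat_lit 0) (nat_lit 0) (XT.lf (nat_lit 0) (nat_lit 28745335970) (nat_lit 76) (nat_lit 23583245890) (nat_lit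 76) (nat_lit 20639042546) (nat_lit 1) (nat_lit 4) (nat_lit 2) (nat_lit 5) (nat_lit 2) (nat_lit 4) (nat_lit 290) (nat_lit 222) (nat_lit 208)) (XT.lf (nat_lit 0) (nat_lit 34083681461) (nat_lit 76) (nat_lit 23815932173) (nat_lit 76) (nat_lit 20759148892) (nat_lit 1) (nat_lit 4) (nat_lit 2) (nat_lit 5) (nat_lit 2) (nat_lit 4) (nat_lit 291) (nat_lit 222) (nat_lit 207)))))) (XT.nd (nat_lit 390) (nat_lit 0) (nat_lit 0) (XT.nd (nat_lit 156) (nat_lit 0) (nat_lit 0) (XT.nd (nat_lit 78) (nat_lit 0) (nat_lit 0) (XT.lf (nat_lit 0) (nat_lit 39759952801) (nat_lit 76) (nat_lit 24105276895) (nat_lit 76) (nat_lit 20944252932) (nat_lit 1) (nat_lit 4) (nat_lit 2) (nat_lit 5) (nat_lit 2) (nat_lit 4) (nat_lit 292) (nat_lit 222) (nat_lit 206)) (XT.lf (nat_lit 0) (nat_lit 45807787154) (nat_lit 76) (nat_lit 24452994691) (nat_lit 76) (nat_lit 21195451577) (nat_lit 1) (nat_lit 4) (nat_lit 2) (nat_lit 5) (nat_lit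 2) (nat_lit 4) (nat_lit 293) (nat_lit 222) (nat_lit 205))) (XT.nd (nat_lit 78) (nat_lit 0) (nat_lit 0) (XT.lf (nat_lit 0) (nat_lit 52263023538) (nat_lit 76) (nat_lit 24861146111) (nat_lit 76) (nat_lit 21514233413) (nat_lit 1) (nat_lit 4) (nat_lit 2) (nat_lit 5) (nat_lit 2) (nat_lit 4) (nat_lit 294) (nat_lit 222) (nat_lit 204)) (XT.nd (nat_lit 78) (nat_lit 0) (nat_lit 0) (XT.lf (nat_lit 0) (nat_lit 59163915205) (nat_lit 76) (nat_lit 25332149829) (nat_lit 76) (nat_lit 21902487517) (nat_lit 1) (nat_lit 4) (nat_lit 2) (nat_lit 5) (nat_lit 2) (nat_lit 4) (nat_lit 295) (nat_lit 222) (nat_lit 203)) (XT.lf (nat_lit 0) (nat_lit 66551356329) (nat_lit 76) (nat_lit 25868796980) (nat_lit 76) (nat_lit 22362514654) (nat_lit 1) (nat_lit 4) (nat_lit 2) (nat_lit 5) (nat_lit 2) (nat_lit 4) (nat_lit 296) (nat_lit 222) (nat_lit 202))))) (XT.nd (nat_lit 234) (nat_lit 0) (nat_lit 0) (XT.nd (nat_lit 78)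 (nat_lit 0) (nat_lit 0) (XT.lf (nat_lit 0) (nat_lit 74469124339) (nat_lit 76) (nat_lit 26474267694) (nat_lit 76) (nat_lit 22897040912) (nat_lit 1) (nat_lit 4) (nat_lit 2) (nat_lit 5) (nat_lit 2) (nat_lit 4) (nat_lit 297) (nat_lit 222) (nat_lit 201)) (XT.nd (nat_lit 78) (nat_lit 0) (nat_lit 0) (XT.lf (nat_lit 0) (nat_lit 82964139340) (nat_lit 76) (nat_lit 27152149947) (nat_lit 76) (nat_lit 23509233852) (nat_lit 1) (nat_lit 4) (nat_lit 2) (nat_lit 5) (nat_lit 2) (nat_lit 4) (nat_lit 298) (nat_lit 222) (nat_lit 200)) (XT.lf (nat_lit 0) (nat_lit 92086742164) (nat_lit 76) (nat_lit 27906460817) (nat_lit 76) (nat_lit 24202721285) (nat_lit 1) (nat_lit 4) (nat_lit 2) (nat_lit 5) (nat_lit 2) (nat_lit 4) (nat_lit 299) (nat_lit 222) (nat_lit 199)))) (XT.nd (nat_lit 78) (nat_lit 0) (nat_lit 0) (XT.lf (nat_lit 0) (nat_lit 101890992678) (nat_lit 76) (nat_lit 28741670296) (nat_lit 76) (nat_lit 24981612766)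 (nat_lit 1) (nat_lit 4) (nat_lit 2) (nat_lit 5) (nat_lit 2) (nat_lit 4) (nat_lit 300) (nat_lit 222) (nat_lit 198)) (XT.nd (nat_lit 78) (nat_lit 0) (nat_lit 0) (XT.lf (nat_lit 0) (nat_lit 112434990144) (nat_lit 76) (nat_lit 29662727772) (nat_lit 76) (nat_lit 25850523949) (nat_lit 1) (nat_lit 4) (nat_lit 2) (nat_lit 5) (nat_lit 2) (nat_lit 4) (nat_lit 301) (nat_lit 222) (nat_lit 197)) (XT.lf (nat_lit 0) (nat_lit 123781217511) (nat_lit 76) (nat_lit 30675091365) (nat_lit 76) (nat_lit 26814603936) (nat_lit 1) (nat_lit 4) (nat_lit 2) (nat_lit 5) (nat_lit 2) (nat_lit 4) (nat_lit 302) (nat_lit 222) (nat_lit 196))))))) (XT.nd (nat_lit 858) (nat_lit 0) (nat_lit 0) (XT.nd (nat_lit 390) (nat_lit 0) (nat_lit 0) (XT.nd (nat_lit 156) (nat_lit 0) (nat_lit 0) (XT.nd (nat_lit 78) (nat_lit 0) (nat_lit 0) (XT.lf (nat_lit 0) (nat_lit 135996911682) (nat_lit 76) (nat_lit 31784760265) (nat_lit 76) (nat_lit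 27879565795) (nat_lit 1) (nat_lit 4) (nat_lit 2) (nat_lit 5) (nat_lit 2) (nat_lit 4) (nat_lit 303) (nat_lit 222) (nat_lit 195)) (XT.lf (nat_lit 0) (nat_lit 149154461955) (nat_lit 76) (nat_lit 32998310289) (nat_lit 76) (nat_lit 29051720409) (nat_lit 1) (nat_lit 4) (nat_lit 2) (nat_lit 5) (nat_lit 2) (nat_lit 4) (nat_lit 304) (nat_lit 222) (nat_lit 194))) (XT.nd (nat_lit 78) (nat_lit 0) (nat_lit 0) (XT.lf (nat_lit 0) (nat_lit 163331838998) (nat_lit 76) (nat_lit 34322932845) (nat_lit 76) (nat_lit 30338013882) (nat_lit 1) (nat_lit 4) (nat_lit 2) (nat_lit 5) (nat_lit 2) (nat_lit 4) (nat_lit 305) (nat_lit 222) (nat_lit 193)) (XT.nd (nat_lit 78) (nat_lit 0) (nat_lit 0) (XT.lf (nat_lit 0) (nat_lit 178613056899) (nat_lit 76) (nat_lit 35766477546) (nat_lit 76) (nat_lit 31746068692) (nat_lit 1) (nat_lit 4) (nat_lit 2) (nat_lit 5) (nat_lit 2) (nat_lit 4) (nat_lit 306) (nat_lit 222) (nat_lit 192))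 (XT.lf (nat_lit 0) (nat_lit 195088671021) (nat_lit 76) (nat_lit 37337498733) (nat_lit 76) (nat_lit 33284228868) (nat_lit 1) (nat_lit 4) (nat_lit 2) (nat_lit 5) (nat_lit 2) (nat_lit 4) (nat_lit 307) (nat_lit 222) (nat_lit 191))))) (XT.nd (nat_lit 234) (nat_lit 0) (nat_lit 0) (XT.nd (nat_lit 78) (nat_lit 0) (nat_lit 0) (XT.lf (nat_lit 0) (nat_lit 212856314635) (nat_lit 76) (nat_lit 39045306160) (nat_lit 76) (nat_lit 34961609434) (nat_lit 1) (nat_lit 4) (nat_lit 2) (nat_lit 5) (nat_lit 2) (nat_lit 4) (nat_lit 308) (nat_lit 222) (nat_lit 190)) (XT.nd (nat_lit 78) (nat_lit 0) (nat_lit 0) (XT.lf (nat_lit 0) (nat_lit 232021277480) (nat_lit 76) (nat_lit 40900020168) (nat_lit 76) (nat_lit 36788150422) (nat_lit 1) (nat_lit 4) (nat_lit 2) (nat_lit 5) (nat_lit 2) (nat_lit 4) (nat_lit 309) (nat_lit 222) (nat_lit 189)) (XT.lf (nat_lit 0) (nat_lit 252697129705) (nat_lit 76) (nat_lit 42912631655)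 (nat_lit 76) (nat_lit 38774675779) (nat_lit 1) (nat_lit 4) (nat_lit 2) (nat_lit 5) (nat_lit 2) (nat_lit 4) (nat_lit 310) (nat_lit 222) (nat_lit 188)))) (XT.nd (nat_lit 78) (nat_lit 0) (nat_lit 0) (XT.lf (nat_lit 0) (nat_lit 275006394881) (nat_lit 76) (nat_lit 45095067206) (nat_lit 76) (nat_lit 40932957507) (nat_lit 1) (nat_lit 4) (nat_lit 2) (nat_lit 5) (nat_lit 2) (nat_lit 4) (nat_lit 311) (nat_lit 222) (nat_lit 187)) (XT.nd (nat_lit 78) (nat_lit 0) (nat_lit 0) (XT.lf (nat_lit 0) (nat_lit 299081276059) (nat_lit 76) (nat_lit 47460259774) (nat_lit 76) (nat_lit 43275785424) (nat_lit 1) (nat_lit 4) (nat_lit 2) (nat_lit 5) (nat_lit 2) (nat_lit 4) (nat_lit 312) (nat_lit 222) (nat_lit 186)) (XT.lf (nat_lit 0) (nat_lit 325064439203) (nat_lit 76) (nat_lit 50022225315) (nat_lit 76) (nat_lit 45817042954) (nat_lit 1) (nat_lit 4) (nat_lit 2) (nat_lit 5) (nat_lit 2) (nat_lit 4) (nat_lit 313) (nat_lit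 222) (nat_lit 185)))))) (XT.nd (nat_lit 390) (nat_lit 0) (nat_lit 0) (XT.nd (nat_lit 156) (nat_lit 0) (nat_lit 0) (XT.nd (nat_lit 78) (nat_lit 0) (nat_lit 0) (XT.lf (nat_lit 0) (nat_lit 353109858612) (nat_lit 76) (nat_lit 52796145847) (nat_lit 76) (nat_lit 48571789401) (nat_lit 1) (nat_lit 4) (nat_lit 2) (nat_lit 5) (nat_lit 2) (nat_lit 4) (nat_lit 314) (nat_lit 222) (nat_lit 184)) (XT.lf (nat_lit 0) (nat_lit 383383729364) (nat_lit 76) (nat_lit 55798459416) (nat_lit 76) (nat_lit 51556349189) (nat_lit 1) (nat_lit 4) (nat_lit 2) (nat_lit 5) (nat_lit 2) (nat_lit 4) (nat_lit 315) (nat_lit 222) (nat_lit 183))) (XT.nd (nat_lit 78) (nat_lit 0) (nat_lit 0) (XT.lf (nat_lit 0) (nat_lit 416065452176) (nat_lit 76) (nat_lit 59046957511) (nat_lit 76) (nat_lit 54788408598) (nat_lit 1) (nat_lit 4) (nat_lit 2) (nat_lit 5) (nat_lit 2) (nat_lit 4) (nat_lit 316) (nat_lit 222) (nat_lit 182)) (XT.nd (nat_lit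 78) (nat_lit 0) (nat_lit 0) (XT.lf (nat_lit 0) (nat_lit 451348696515) (nat_lit 76) (nat_lit 62560890492) (nat_lit 76) (nat_lit 58287120572) (nat_lit 1) (nat_lit 4) (nat_lit 2) (nat_lit 5) (nat_lit 2) (nat_lit 4) (nat_lit 317) (nat_lit 222) (nat_lit 181)) (XT.lf (nat_lit 0) (nat_lit 489442548274) (nat_lit 76) (nat_lit 66361081664) (nat_lit 76) (nat_lit 62073218220) (nat_lit 1) (nat_lit 4) (nat_lit 2) (nat_lit 5) (nat_lit 2) (nat_lit 4) (nat_lit 318) (nat_lit 222) (nat_lit 180))))) (XT.nd (nat_lit 234) (nat_lit 0) (nat_lit 0) (XT.nd (nat_lit 78) (nat_lit 0) (nat_lit 0) (XT.lf (nat_lit 0) (nat_lit 530572748796) (nat_lit 76) (nat_lit 70470050679) (nat_lit 76) (nat_lit 66169137676) (nat_lit 1) (nat_lit 4) (nat_lit 2) (nat_lit 5) (nat_lit 2) (nat_lit 4) (nat_lit 319) (nat_lit 222) (nat_lit 179)) (XT.nd (nat_lit 78) (nat_lit 0) (nat_lit 0) (XT.lf (nat_lit 0) (nat_lit 574983032604) (nat_lit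 76) (nat_lit 74912146983) (nat_lit 76) (nat_lit 70599151055) (nat_lit 1) (nat_lit 4) (nat_lit 2) (nat_lit 5) (nat_lit 2) (nat_lit 4) (nat_lit 320) (nat_lit 222) (nat_lit 178)) (XT.lf (nat_lit 0) (nat_lit 622936571749) (nat_lit 76) (nat_lit 79713694110) (nat_lit 76) (nat_lit 75389510287) (nat_lit 1) (nat_lit 4) (nat_lit 2) (nat_lit 5) (nat_lit 2) (nat_lit 4) (nat_lit 321) (nat_lit 222) (nat_lit 177)))) (XT.nd (nat_lit 78) (nat_lit 0) (nat_lit 0) (XT.lf (nat_lit 0) (nat_lit 674717535352) (nat_lit 76) (nat_lit 84903145672) (nat_lit 76) (nat_lit 80568602688) (nat_lit 1) (nat_lit 4) (nat_lit 2) (nat_lit 5) (nat_lit 2) (nat_lit 4) (nat_lit 322) (nat_lit 222) (nat_lit 176)) (XT.nd (nat_lit 78) (nat_lit 0) (nat_lit 0) (XT.lf (nat_lit 0) (nat_lit 730632773569) (nat_lit 76) (nat_lit 90511253975) (nat_lit 76) (nat_lit 86167119176) (nat_lit 1) (nat_lit 4) (nat_lit 2) (nat_lit 5) (nat_lit 2) (nat_lit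 4) (nat_lit 323) (nat_lit 222) (nat_lit 175)) (XT.lf (nat_lit 0) (nat_lit 791013635958) (nat_lit 76) (nat_lit 96571252253) (nat_lit 76) (nat_lit 92218236143) (nat_lit 1) (nat_lit 4) (nat_lit 2) (nat_lit 5) (nat_lit 2) (nat_lit 4) (nat_lit 324) (nat_lit 222) (nat_lit 174))))))))
noncomputable def xc20 : XT := (XT.nd (nat_lit 34554) (nat_lit 0) (nat_lit 0) (XT.nd (nat_lit 33696) (nat_lit 0) (nat_lit 0) (XT.nd (nat_lit 390) (nat_lit 0) (nat_lit 0) (XT.nd (nat_lit 156) (nat_lit 0) (nat_lit 0) (XT.nd (nat_lit 78) (nat_lit 0) (nat_lit 0) (XT.lf (nat_lit 0) (nat_lit 856217935038) (nat_lit 76) (nat_lit 103119051607) (nat_lit 76) (nat_lit 98757812061) (nat_lit 1) (nat_lit 4) (nat_lit 2) (nat_lit 5) (nat_lit 2) (nat_lit 4) (nat_lit 325) (nat_lit 222) (nat_lit 173)) (XT.lf (nat_lit 0) (nat_lit 926632066654) (nat_lit 76) (nat_lit 110193453811) (nat_lit 76) (nat_lit 105824599972) (nat_lit 1) (nat_lit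 4) (nat_lit 2) (nat_lit 5) (nat_lit 2) (nat_lit 4) (nat_lit 326) (nat_lit 222) (nat_lit 172))) (XT.nd (nat_lit 78) (nat_lit 0) (nat_lit 0) (XT.lf (nat_lit 0) (nat_lit 1002673299736) (nat_lit 76) (nat_lit 117836381249) (nat_lit 76) (nat_lit 113460477139) (nat_lit 1) (nat_lit 4) (nat_lit 2) (nat_lit 5) (nat_lit 2) (nat_lit 4) (nat_lit 327) (nat_lit 222) (nat_lit 171)) (XT.nd (nat_lit 78) (nat_lit 0) (nat_lit 0) (XT.lf (nat_lit 0) (nat_lit 1084792248998) (nat_lit 76) (nat_lit 126093125342) (nat_lit 76) (nat_lit 121710693204) (nat_lit 1) (nat_lit 4) (nat_lit 2) (nat_lit 5) (nat_lit 2) (nat_lit 4) (nat_lit 328) (nat_lit 222) (nat_lit 170)) (XT.lf (nat_lit 0) (nat_lit 1173475545250) (nat_lit 76) (nat_lit 135012614944) (nat_lit 76) (nat_lit 130624138335) (nat_lit 1) (nat_lit 4) (nat_lit 2) (nat_lit 5) (nat_lit 2) (nat_lit 4) (nat_lit 329) (nat_lit 222) (nat_lit 169))))) (XT.nd (nat_lit 234)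 (nat_lit 0) (nat_lit 0) (XT.nd (nat_lit 78) (nat_lit 0) (nat_lit 0) (XT.lf (nat_lit 0) (nat_lit 1269248719136) (nat_lit 76) (nat_lit 144647706290) (nat_lit 76) (nat_lit 140253632949) (nat_lit 1) (nat_lit 4) (nat_lit 2) (nat_lit 5) (nat_lit 2) (nat_lit 4) (nat_lit 330) (nat_lit 222) (nat_lit 168)) (XT.nd (nat_lit 78) (nat_lit 0) (nat_lit 0) (XT.lf (nat_lit 0) (nat_lit 1372679315391) (nat_lit 76) (nat_lit 155055496218) (nat_lit 76) (nat_lit 150656240717) (nat_lit 1) (nat_lit 4) (nat_lit 2) (nat_lit 5) (nat_lit 2) (nat_lit 4) (nat_lit 331) (nat_lit 222) (nat_lit 167)) (XT.lf (nat_lit 0) (nat_lit 1484380256067) (nat_lit 76) (nat_lit 166297660519) (nat_lit 76) (nat_lit 161893606722) (nat_lit 1) (nat_lit 4) (nat_lit 2) (nat_lit 5) (nat_lit 2) (nat_lit 4) (nat_lit 332) (nat_lit 222) (nat_lit 166)))) (XT.nd (nat_lit 32916) (nat_lit 0) (nat_lit 228) (XT.lf (nat_lit 0) (nat_lit 1605013472664)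 (nat_lit 76) (nat_lit 178440819427) (nat_lit 76) (nat_lit 174032322763) (nat_lit 1) (nat_lit 4) (nat_lit 2) (nat_lit 5) (nat_lit 2) (nat_lit 4) (nat_lit 333) (nat_lit 222) (nat_lit 165)) (XT.nd (nat_lit 78) (nat_lit 0) (nat_lit 0) (XT.lf (nat_lit 0) (nat_lit 7980721078) (nat_lit 76) (nat_lit 1799897343) (nat_lit 76) (nat_lit 1799897343) (nat_lit 4) (nat_lit 4) (nat_lit 5) (nat_lit 5) (nat_lit 5) (nat_lit 4) (nat_lit 274) (nat_lit 223) (nat_lit 223)) (XT.lf (nat_lit 0) (nat_lit 22099533254) (nat_lit 76) (nat_lit 1526254254) (nat_lit 76) (nat_lit 1140561846) (nat_lit 4) (nat_lit 4) (nat_lit 5) (nat_lit 5) (nat_lit 5) (nat_lit 4) (nat_lit 275) (nat_lit 223) (nat_lit 222)))))) (XT.nd (nat_lit 390) (nat_lit 76) (nat_lit 0) (XT.nd (nat_lit 156) (nat_lit 0) (nat_lit 0) (XT.nd (nat_lit 78) (nat_lit 0) (nat_lit 0) (XT.lf (nat_lit 0) (nat_lit 1359347995) (nat_lit 152) (nat_lit 24473337188)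 (nat_lit 0) (nat_lit 671556322) (nat_lit 2) (nat_lit 5) (nat_lit 4) (nat_lit 4) (nat_lit 2) (nat_lit 4) (nat_lit 276) (nat_lit 223) (nat_lit 221)) (XT.lf (nat_lit 0) (nat_lit 3968294486) (nat_lit 152) (nat_lit 21439116150) (nat_lit 0) (nat_lit 2974327745) (nat_lit 2) (nat_lit 5) (nat_lit 4) (nat_lit 4) (nat_lit 2) (nat_lit 4) (nat_lit 277) (nat_lit 223) (nat_lit 220))) (XT.nd (nat_lit 78) (nat_lit 0) (nat_lit 0) (XT.lf (nat_lit 0) (nat_lit 6652819171) (nat_lit 152) (nat_lit 18392462119) (nat_lit 0) (nat_lit 5375356996) (nat_lit 2) (nat_lit 5) (nat_lit 4) (nat_lit 4) (nat_lit 2) (nat_lit 4) (nat_lit 278) (nat_lit 223) (nat_lit 219)) (XT.nd (nat_lit 78) (nat_lit 0) (nat_lit 0) (XT.lf (nat_lit 0) (nat_lit 9428830344) (nat_lit 152) (nat_lit 15315320849) (nat_lit 0) (nat_lit 7888872397) (nat_lit 2) (nat_lit 5) (nat_lit 4) (nat_lit 4) (nat_lit 2) (nat_lit 4) (nat_lit 279) (nat_lit 223)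 (nat_lit 218)) (XT.lf (nat_lit 0) (nat_lit 12312778441) (nat_lit 152) (nat_lit 12189457429) (nat_lit 0) (nat_lit 10529768853) (nat_lit 2) (nat_lit 5) (nat_lit 4) (nat_lit 4) (nat_lit 2) (nat_lit 4) (nat_lit 280) (nat_lit 223) (nat_lit 217))))) (XT.nd (nat_lit 234) (nat_lit 76) (nat_lit 0) (XT.nd (nat_lit 78) (nat_lit 0) (nat_lit 0) (XT.lf (nat_lit 0) (nat_lit 15321753526) (nat_lit 152) (nat_lit 8996348224) (nat_lit 0) (nat_lit 13313696122) (nat_lit 2) (nat_lit 5) (nat_lit 4) (nat_lit 4) (nat_lit 2) (nat_lit 4) (nat_lit 281) (nat_lit 223) (nat_lit 216)) (XT.nd (nat_lit 78) (nat_lit 0) (nat_lit 0) (XT.lf (nat_lit 0) (nat_lit 18473586561) (nat_lit 152) (nat_lit 5717071106) (nat_lit 0) (nat_lit 16257151551) (nat_lit 2) (nat_lit 5) (nat_lit 4) (nat_lit 4) (nat_lit 2) (nat_lit 4) (nat_lit 282) (nat_lit 223) (nat_lit 215)) (XT.lf (nat_lit 0) (nat_lit 21786955076) (nat_lit 152) (nat_lit 2332193320)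 (nat_lit 0) (nat_lit 19377577837) (nat_lit 2) (nat_lit 5) (nat_lit 4) (nat_lit 4) (nat_lit 2) (nat_lit 4) (nat_lit 283) (nat_lit 223) (nat_lit 214)))) (XT.nd (nat_lit 78) (nat_lit 0) (nat_lit 0) (XT.lf (nat_lit 0) (nat_lit 1240393155) (nat_lit 76) (nat_lit 24070932176) (nat_lit 76) (nat_lit 21482904726) (nat_lit 1) (nat_lit 4) (nat_lit 2) (nat_lit 5) (nat_lit 2) (nat_lit 4) (nat_lit 284) (nat_lit 223) (nat_lit 213)) (XT.nd (nat_lit 78) (nat_lit 0) (nat_lit 0) (XT.lf (nat_lit 0) (nat_lit 5089963633) (nat_lit 76) (nat_lit 24010361366) (nat_lit 76) (nat_lit 21256917053) (nat_lit 1) (nat_lit 4) (nat_lit 2) (nat_lit 5) (nat_lit 2) (nat_lit 4) (nat_lit 285) (nat_lit 223) (nat_lit 212)) (XT.lf (nat_lit 0) (nat_lit 9116521214) (nat_lit 76) (nat_lit 24000843327) (nat_lit 76) (nat_lit 21094235252) (nat_lit 1) (nat_lit 4) (nat_lit 2) (nat_lit 5) (nat_lit 2) (nat_lit 4) (nat_lit 286) (nat_lit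 223) (nat_lit 211))))))) (XT.nd (nat_lit 858) (nat_lit 0) (nat_lit 0) (XT.nd (nat_lit 390) (nat_lit 0) (nat_lit 0) (XT.nd (nat_lit 156) (nat_lit 0) (nat_lit 0) (XT.nd (nat_lit 78) (nat_lit 0) (nat_lit 0) (XT.lf (nat_lit 0) (nat_lit 13343926980) (nat_lit 76) (nat_lit 24042321655) (nat_lit 76) (nat_lit 20993895283) (nat_lit 1) (nat_lit 4) (nat_lit 2) (nat_lit 5) (nat_lit 2) (nat_lit 4) (nat_lit 287) (nat_lit 223) (nat_lit 210)) (XT.lf (nat_lit 0) (nat_lit 17797232225) (nat_lit 76) (nat_lit 24135042148) (nat_lit 76) (nat_lit 20955302537) (nat_lit 1) (nat_lit 4) (nat_lit 2) (nat_lit 5) (nat_lit 2) (nat_lit 4) (nat_lit 288) (nat_lit 223) (nat_lit 209))) (XT.nd (nat_lit 78) (nat_lit 0) (nat_lit 0) (XT.lf (nat_lit 0) (nat_lit 22502826905) (nat_lit 76) (nat_lit 24279554261) (nat_lit 76) (nat_lit 20978228318) (nat_lit 1) (nat_lit 4) (nat_lit 2) (nat_lit 5) (nat_lit 2) (nat_lit 4) (nat_lit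 289) (nat_lit 223) (nat_lit 208)) (XT.nd (nat_lit 78) (nat_lit 0) (nat_lit 0) (XT.lf (nat_lit 0) (nat_lit 27488596026) (nat_lit 76) (nat_lit 24476714362) (nat_lit 76) (nat_lit 21062808482) (nat_lit 1) (nat_lit 4) (nat_lit 2) (nat_lit 5) (nat_lit 2) (nat_lit 4) (nat_lit 290) (nat_lit 223) (nat_lit 207)) (XT.lf (nat_lit 0) (nat_lit 32784084887) (nat_lit 76) (nat_lit 24727690807) (nat_lit 76) (nat_lit 21209544244) (nat_lit 1) (nat_lit 4) (nat_lit 2) (nat_lit 5) (nat_lit 2) (nat_lit 4) (nat_lit 291) (nat_lit 223) (nat_lit 206))))) (XT.nd (nat_lit 234) (nat_lit 0) (nat_lit 0) (XT.nd (nat_lit 78) (nat_lit 0) (nat_lit 0) (XT.lf (nat_lit 0) (nat_lit 38420674163) (nat_lit 76) (nat_lit 25033970864) (nat_lit 76) (nat_lit 21419305150) (nat_lit 1) (nat_lit 4) (nat_lit 2) (nat_lit 5) (nat_lit 2) (nat_lit 4) (nat_lit 292) (nat_lit 223) (nat_lit 205)) (XT.nd (nat_lit 78) (nat_lit 0) (nat_lit 0) (XT.lf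 (nat_lit 0) (nat_lit 44431765863) (nat_lit 76) (nat_lit 25397369525) (nat_lit 76) (nat_lit 21693334228) (nat_lit 1) (nat_lit 4) (nat_lit 2) (nat_lit 5) (nat_lit 2) (nat_lit 4) (nat_lit 293) (nat_lit 223) (nat_lit 204)) (XT.lf (nat_lit 0) (nat_lit 50852981272) (nat_lit 76) (nat_lit 25820040265) (nat_lit 76) (nat_lit 22033255353) (nat_lit 1) (nat_lit 4) (nat_lit 2) (nat_lit 5) (nat_lit 2) (nat_lit 4) (nat_lit 294) (nat_lit 223) (nat_lit 203)))) (XT.nd (nat_lit 78) (nat_lit 0) (nat_lit 0) (XT.lf (nat_lit 0) (nat_lit 57722372037) (nat_lit 76) (nat_lit 26304487798) (nat_lit 76) (nat_lit 22441082873) (nat_lit 1) (nat_lit 4) (nat_lit 2) (nat_lit 5) (nat_lit 2) (nat_lit 4) (nat_lit 295) (nat_lit 223) (nat_lit 202)) (XT.nd (nat_lit 78) (nat_lit 0) (nat_lit 0) (XT.lf (nat_lit 0) (nat_lit 65080645659) (nat_lit 76) (nat_lit 26853582926) (nat_lit 76) (nat_lit 22919233543) (nat_lit 1) (nat_lit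 4) (nat_lit 2) (nat_lit 5) (nat_lit 2) (nat_lit 4) (nat_lit 296) (nat_lit 223) (nat_lit 201)) (XT.lf (nat_lit 0) (nat_lit 72971406722) (nat_lit 76) (nat_lit 27470579544) (nat_lit 76) (nat_lit 23470540849) (nat_lit 1) (nat_lit 4) (nat_lit 2) (nat_lit 5) (nat_lit 2) (nat_lit 4) (nat_lit 297) (nat_lit 223) (nat_lit 200)))))) (XT.nd (nat_lit 390) (nat_lit 0) (nat_lit 0) (XT.nd (nat_lit 156) (nat_lit 0) (nat_lit 0) (XT.nd (nat_lit 78) (nat_lit 0) (nat_lit 0) (XT.lf (nat_lit 0) (nat_lit 81441415292) (nat_lit 76) (nat_lit 28159133930) (nat_lit 76) (nat_lit 24098271798) (nat_lit 1) (nat_lit 4) (nat_lit 2) (nat_lit 5) (nat_lit 2) (nat_lit 4) (nat_lit 298) (nat_lit 223) (nat_lit 199)) (XT.lf (nat_lit 0) (nat_lit 90540864012) (nat_lit 76) (nat_lit 28923326405) (nat_lit 76) (nat_lit 24806146276) (nat_lit 1) (nat_lit 4) (nat_lit 2) (nat_lit 5) (nat_lit 2) (nat_lit 4) (nat_lit 299) (nat_lit 223)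 (nat_lit 198))) (XT.nd (nat_lit 78) (nat_lit 0) (nat_lit 0) (XT.lf (nat_lit 0) (nat_lit 100323675541) (nat_lit 76) (nat_lit 29767685518) (nat_lit 76) (nat_lit 25598359095) (nat_lit 1) (nat_lit 4) (nat_lit 2) (nat_lit 5) (nat_lit 2) (nat_lit 4) (nat_lit 300) (nat_lit 223) (nat_lit 197)) (XT.nd (nat_lit 78) (nat_lit 0) (nat_lit 0) (XT.lf (nat_lit 0) (nat_lit 110847822095) (nat_lit 76) (nat_lit 30697214878) (nat_lit 76) (nat_lit 26479604850) (nat_lit 1) (nat_lit 4) (nat_lit 2) (nat_lit 5) (nat_lit 2) (nat_lit 4) (nat_lit 301) (nat_lit 223) (nat_lit 196)) (XT.lf (nat_lit 0) (nat_lit 122175668989) (nat_lit 76) (nat_lit 31717422808) (nat_lit 76) (nat_lit 27455105738) (nat_lit 1) (nat_lit 4) (nat_lit 2) (nat_lit 5) (nat_lit 2) (nat_lit 4) (nat_lit 302) (nat_lit 223) (nat_lit 195))))) (XT.nd (nat_lit 234) (nat_lit 0) (nat_lit 0) (XT.nd (nat_lit 78) (nat_lit 0) (nat_lit 0) (XT.lf (nat_lit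 0) (nat_lit 134374344202) (nat_lit 76) (nat_lit 32834354983) (nat_lit 76) (nat_lit 28530642504) (nat_lit 1) (nat_lit 4) (nat_lit 2) (nat_lit 5) (nat_lit 2) (nat_lit 4) (nat_lit 303) (nat_lit 223) (nat_lit 194)) (XT.nd (nat_lit 78) (nat_lit 0) (nat_lit 0) (XT.lf (nat_lit 0) (nat_lit 147516136181) (nat_lit 76) (nat_lit 34054630262) (nat_lit 76) (nat_lit 29712588700) (nat_lit 1) (nat_lit 4) (nat_lit 2) (nat_lit 5) (nat_lit 2) (nat_lit 4) (nat_lit 304) (nat_lit 223) (nat_lit 193)) (XT.lf (nat_lit 0) (nat_lit 161678922212) (nat_lit 76) (nat_lit 35385479904) (nat_lit 76) (nat_lit 31007948451) (nat_lit 1) (nat_lit 4) (nat_lit 2) (nat_lit 5) (nat_lit 2) (nat_lit 4) (nat_lit 305) (nat_lit 223) (nat_lit 192)))) (XT.nd (nat_lit 78) (nat_lit 0) (nat_lit 0) (XT.lf (nat_lit 0) (nat_lit 176946629915) (nat_lit 76) (nat_lit 36834790428) (nat_lit 76) (nat_lit 32424397964) (nat_lit 1) (nat_lit 4) (nat_lit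 2) (nat_lit 5) (nat_lit 2) (nat_lit 4) (nat_lit 306) (nat_lit 223) (nat_lit 191)) (XT.nd (nat_lit 78) (nat_lit 0) (nat_lit 0) (XT.lf (nat_lit 0) (nat_lit 193409734596) (nat_lit 76) (nat_lit 38411150338) (nat_lit 76) (nat_lit 33970331013) (nat_lit 1) (nat_lit 4) (nat_lit 2) (nat_lit 5) (nat_lit 2) (nat_lit 4) (nat_lit 307) (nat_lit 223) (nat_lit 190)) (XT.lf (nat_lit 0) (nat_lit 211165795393) (nat_lit 76) (nat_lit 40123901028) (nat_lit 76) (nat_lit 35654908683) (nat_lit 1) (nat_lit 4) (nat_lit 2) (nat_lit 5) (nat_lit 2) (nat_lit 4) (nat_lit 308) (nat_lit 223) (nat_lit 189))))))))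
noncomputable def xc21 : XT := (XT.nd (nat_lit 1716) (nat_lit 0) (nat_lit 0) (XT.nd (nat_lit 858) (nat_lit 0) (nat_lit 0) (XT.nd (nat_lit 390) (nat_lit 0) (nat_lit 0) (XT.nd (nat_lit 156) (nat_lit 0) (nat_lit 0) (XT.nd (nat_lit 78) (nat_lit 0) (nat_lit 0) (XT.lf (nat_lit 0) (nat_lit 230320033408) (nat_lit 76) (nat_lit 41983192131) (nat_lit 76) (nat_lit 37488113656) (nat_lit 1) (nat_lit 4) (nat_lit 2) (nat_lit 5) (nat_lit 2) (nat_lit 4) (nat_lit 309) (nat_lit 223) (nat_lit 188)) (XT.lf (nat_lit 0) (nat_lit 250985955235) (nat_lit 76) (nat_lit 44000041669) (nat_lit 76) (nat_lit 39480809370) (nat_lit 1) (nat_lit 4) (nat_lit 2) (nat_lit 5) (nat_lit 2) (nat_lit 4) (nat_lit 310) (nat_lit 223) (nat_lit 187))) (XT.nd (nat_lit 78) (nat_lit 0) (nat_lit 0) (XT.lf (nat_lit 0) (nat_lit 273286025598) (nat_lit 76) (nat_lit 46186401342) (nat_lit 76) (nat_lit 41644804391) (nat_lit 1) (nat_lit 4) (nat_lit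 2) (nat_lit 5) (nat_lit 2) (nat_lit 4) (nat_lit 311) (nat_lit 223) (nat_lit 186)) (XT.nd (nat_lit 78) (nat_lit 0) (nat_lit 0) (XT.lf (nat_lit 0) (nat_lit 297352393060) (nat_lit 76) (nat_lit 48555227356) (nat_lit 76) (nat_lit 43992922395) (nat_lit 1) (nat_lit 4) (nat_lit 2) (nat_lit 5) (nat_lit 2) (nat_lit 4) (nat_lit 312) (nat_lit 223) (nat_lit 185)) (XT.lf (nat_lit 0) (nat_lit 323327673134) (nat_lit 76) (nat_lit 51120557198) (nat_lit 76) (nat_lit 46539078153) (nat_lit 1) (nat_lit 4) (nat_lit 2) (nat_lit 5) (nat_lit 2) (nat_lit 4) (nat_lit 313) (nat_lit 223) (nat_lit 184))))) (XT.nd (nat_lit 234) (nat_lit 0) (nat_lit 0) (XT.nd (nat_lit 78) (nat_lit 0) (nat_lit 0) (XT.lf (nat_lit 0) (nat_lit 351365793404) (nat_lit 76) (nat_lit 53897592824) (nat_lit 76) (nat_lit 49298359997) (nat_lit 1) (nat_lit 4) (nat_lit 2) (nat_lit 5) (nat_lit 2) (nat_lit 4) (nat_lit 314) (nat_lit 223) (nat_lit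 183)) (XT.nd (nat_lit 78) (nat_lit 0) (nat_lit 0) (XT.lf (nat_lit 0) (nat_lit 381632905694) (nat_lit 76) (nat_lit 56902790740) (nat_lit 76) (nat_lit 52287119226) (nat_lit 1) (nat_lit 4) (nat_lit 2) (nat_lit 5) (nat_lit 2) (nat_lit 4) (nat_lit 315) (nat_lit 223) (nat_lit 182)) (XT.lf (nat_lit 0) (nat_lit 414308370670) (nat_lit 76) (nat_lit 60153959526) (nat_lit 76) (nat_lit 55523067007) (nat_lit 1) (nat_lit 4) (nat_lit 2) (nat_lit 5) (nat_lit 2) (nat_lit 4) (nat_lit 316) (nat_lit 223) (nat_lit 181)))) (XT.nd (nat_lit 78) (nat_lit 0) (nat_lit 0) (XT.lf (nat_lit 0) (nat_lit 449585820717) (nat_lit 76) (nat_lit 63670365369) (nat_lit 76) (nat_lit 59025379325) (nat_lit 1) (nat_lit 4) (nat_lit 2) (nat_lit 5) (nat_lit 2) (nat_lit 4) (nat_lit 317) (nat_lit 223) (nat_lit 180)) (XT.nd (nat_lit 78) (nat_lit 0) (nat_lit 0) (XT.lf (nat_lit 0) (nat_lit 487674307391) (nat_lit 76) (nat_lit 67472846228)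 (nat_lit 76) (nat_lit 62814810625) (nat_lit 1) (nat_lit 4) (nat_lit 2) (nat_lit 5) (nat_lit 2) (nat_lit 4) (nat_lit 318) (nat_lit 223) (nat_lit 179)) (XT.lf (nat_lit 0) (nat_lit 528799540242) (nat_lit 76) (nat_lit 71583935324) (nat_lit 76) (nat_lit 66913816795) (nat_lit 1) (nat_lit 4) (nat_lit 2) (nat_lit 5) (nat_lit 2) (nat_lit 4) (nat_lit 319) (nat_lit 223) (nat_lit 178)))))) (XT.nd (nat_lit 390) (nat_lit 0) (nat_lit 0) (XT.nd (nat_lit 156) (nat_lit 0) (nat_lit 0) (XT.nd (nat_lit 78) (nat_lit 0) (nat_lit 0) (XT.lf (nat_lit 0) (nat_lit 573205224354) (nat_lit 76) (nat_lit 76027994665) (nat_lit 76) (nat_lit 71346688243) (nat_lit 1) (nat_lit 4) (nat_lit 2) (nat_lit 5) (nat_lit 2) (nat_lit 4) (nat_lit 320) (nat_lit 223) (nat_lit 177)) (XT.lf (nat_lit 0) (nat_lit 621154504521) (nat_lit 76) (nat_lit 80831359419) (nat_lit 76) (nat_lit 76139693836) (nat_lit 1) (nat_lit 4) (nat_lit 2) (nat_lit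 5) (nat_lit 2) (nat_lit 4) (nat_lit 321) (nat_lit 223) (nat_lit 176))) (XT.nd (nat_lit 78) (nat_lit 0) (nat_lit 0) (XT.lf (nat_lit 0) (nat_lit 672931524627) (nat_lit 76) (nat_lit 86022493970) (nat_lit 76) (nat_lit 81321236571) (nat_lit 1) (nat_lit 4) (nat_lit 2) (nat_lit 5) (nat_lit 2) (nat_lit 4) (nat_lit 322) (nat_lit 223) (nat_lit 175)) (XT.nd (nat_lit 78) (nat_lit 0) (nat_lit 0) (XT.lf (nat_lit 0) (nat_lit 728843111457) (nat_lit 76) (nat_lit 91632160595) (nat_lit 76) (nat_lit 86922021886) (nat_lit 1) (nat_lit 4) (nat_lit 2) (nat_lit 5) (nat_lit 2) (nat_lit 4) (nat_lit 323) (nat_lit 223) (nat_lit 174)) (XT.lf (nat_lit 0) (nat_lit 789220592932) (nat_lit 76) (nat_lit 97693601765) (nat_lit 76) (nat_lit 92975239619) (nat_lit 1) (nat_lit 4) (nat_lit 2) (nat_lit 5) (nat_lit 2) (nat_lit 4) (nat_lit 324) (nat_lit 223) (nat_lit 173))))) (XT.nd (nat_lit 234) (nat_lit 0) (nat_lit 0) (XT.nd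 (nat_lit 78) (nat_lit 0) (nat_lit 0) (XT.lf (nat_lit 0) (nat_lit 854421761536) (nat_lit 76) (nat_lit 104242737129) (nat_lit 76) (nat_lit 99516760691) (nat_lit 1) (nat_lit 4) (nat_lit 2) (nat_lit 5) (nat_lit 2) (nat_lit 4) (nat_lit 325) (nat_lit 223) (nat_lit 172)) (XT.nd (nat_lit 78) (nat_lit 0) (nat_lit 0) (XT.lf (nat_lit 0) (nat_lit 924832994564) (nat_lit 76) (nat_lit 111318376380) (nat_lit 76) (nat_lit 106585349671) (nat_lit 1) (nat_lit 4) (nat_lit 2) (nat_lit 5) (nat_lit 2) (nat_lit 4) (nat_lit 326) (nat_lit 223) (nat_lit 171)) (XT.lf (nat_lit 0) (nat_lit 1000871543768) (nat_lit 76) (nat_lit 118962449231) (nat_lit 76) (nat_lit 114222894494) (nat_lit 1) (nat_lit 4) (nat_lit 2) (nat_lit 5) (nat_lit 2) (nat_lit 4) (nat_lit 327) (nat_lit 223) (nat_lit 170)))) (XT.nd (nat_lit 78) (nat_lit 0) (nat_lit 0) (XT.lf (nat_lit 0) (nat_lit 1082988007957) (nat_lit 76) (nat_lit 127220253892)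 (nat_lit 76) (nat_lit 122474654684) (nat_lit 1) (nat_lit 4) (nat_lit 2) (nat_lit 5) (nat_lit 2) (nat_lit 4) (nat_lit 328) (nat_lit 223) (nat_lit 169)) (XT.nd (nat_lit 78) (nat_lit 0) (nat_lit 0) (XT.lf (nat_lit 0) (nat_lit 1171669003216) (nat_lit 76) (nat_lit 136140725502) (nat_lit 76) (nat_lit 131389529561) (nat_lit 1) (nat_lit 4) (nat_lit 2) (nat_lit 5) (nat_lit 2) (nat_lit 4) (nat_lit 329) (nat_lit 223) (nat_lit 168)) (XT.lf (nat_lit 0) (nat_lit 1267440046553) (nat_lit 76) (nat_lit 145776726115) (nat_lit 76) (nat_lit 141020348014) (nat_lit 1) (nat_lit 4) (nat_lit 2) (nat_lit 5) (nat_lit 2) (nat_lit 4) (nat_lit 330) (nat_lit 223) (nat_lit 167))))))) (XT.nd (nat_lit 33540) (nat_lit 0) (nat_lit 0) (XT.nd (nat_lit 33072) (nat_lit 0) (nat_lit 76) (XT.nd (nat_lit 156) (nat_lit 0) (nat_lit 0) (XT.nd (nat_lit 78) (nat_lit 0) (nat_lit 0) (XT.lf (nat_lit 0) (nat_lit 1370868670078) (nat_lit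 76) (nat_lit 156185357955) (nat_lit 76) (nat_lit 151424181559) (nat_lit 1) (nat_lit 4) (nat_lit 2) (nat_lit 5) (nat_lit 2) (nat_lit 4) (nat_lit 331) (nat_lit 223) (nat_lit 166)) (XT.lf (nat_lit 0) (nat_lit 1482567784151) (nat_lit 76) (nat_lit 167428301806) (nat_lit 76) (nat_lit 162662682543) (nat_lit 1) (nat_lit 4) (nat_lit 2) (nat_lit 5) (nat_lit 2) (nat_lit 4) (nat_lit 332) (nat_lit 223) (nat_lit 165))) (XT.nd (nat_lit 32760) (nat_lit 0) (nat_lit 228) (XT.lf (nat_lit 0) (nat_lit 1603199309449) (nat_lit 76) (nat_lit 179572182519) (nat_lit 76) (nat_lit 174802449490) (nat_lit 1) (nat_lit 4) (nat_lit 2) (nat_lit 5) (nat_lit 2) (nat_lit 4) (nat_lit 333) (nat_lit 223) (nat_lit 164)) (XT.nd (nat_lit 78) (nat_lit 0) (nat_lit 0) (XT.lf (nat_lit 0) (nat_lit 2218025620) (nat_lit 76) (nat_lit 3972947069) (nat_lit 76) (nat_lit 3972947069) (nat_lit 4) (nat_lit 4) (nat_lit 5) (nat_lit 5) (nat_lit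 5) (nat_lit 4) (nat_lit 272) (nat_lit 224) (nat_lit 224)) (XT.lf (nat_lit 0) (nat_lit 10041005123) (nat_lit 76) (nat_lit 6031119740) (nat_lit 76) (nat_lit 5614571940) (nat_lit 4) (nat_lit 4) (nat_lit 5) (nat_lit 5) (nat_lit 5) (nat_lit 4) (nat_lit 273) (nat_lit 224) (nat_lit 223))))) (XT.nd (nat_lit 234) (nat_lit 0) (nat_lit 0) (XT.nd (nat_lit 78) (nat_lit 152) (nat_lit 0) (XT.lf (nat_lit 0) (nat_lit 15838374417) (nat_lit 76) (nat_lit 4065582391) (nat_lit 76) (nat_lit 3263342183) (nat_lit 4) (nat_lit 4) (nat_lit 5) (nat_lit 5) (nat_lit 5) (nat_lit 4) (nat_lit 274) (nat_lit 224) (nat_lit 222)) (XT.nd (nat_lit 78) (nat_lit 152) (nat_lit 0) (XT.lf (nat_lit 0) (nat_lit 21862513904) (nat_lit 76) (nat_lit 2037634462) (nat_lit 76) (nat_lit 878271654) (nat_lit 4) (nat_lit 4) (nat_lit 5) (nat_lit 5) (nat_lit 5) (nat_lit 4) (nat_lit 275) (nat_lit 224) (nat_lit 221)) (XT.lf (nat_lit 0) (nat_lit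 1520619692) (nat_lit 152) (nat_lit 24861545861) (nat_lit 0) (nat_lit 140960543) (nat_lit 2) (nat_lit 5) (nat_lit 4) (nat_lit 4) (nat_lit 2) (nat_lit 4) (nat_lit 276) (nat_lit 224) (nat_lit 220)))) (XT.nd (nat_lit 78) (nat_lit 0) (nat_lit 0) (XT.lf (nat_lit 0) (nat_lit 4065557758) (nat_lit 152) (nat_lit 21938048231) (nat_lit 0) (nat_lit 2402403175) (nat_lit 2) (nat_lit 5) (nat_lit 4) (nat_lit 4) (nat_lit 2) (nat_lit 4) (nat_lit 277) (nat_lit 224) (nat_lit 219)) (XT.nd (nat_lit 78) (nat_lit 0) (nat_lit 0) (XT.lf (nat_lit 0) (nat_lit 6690815382) (nat_lit 152) (nat_lit 18993915875) (nat_lit 0) (nat_lit 4765165027) (nat_lit 2) (nat_lit 5) (nat_lit 4) (nat_lit 4) (nat_lit 2) (nat_lit 4) (nat_lit 278) (nat_lit 224) (nat_lit 218)) (XT.lf (nat_lit 0) (nat_lit 9411949646) (nat_lit 152) (nat_lit 16011702082) (nat_lit 0) (nat_lit 7243247651) (nat_lit 2) (nat_lit 5) (nat_lit 4) (nat_lit 4) (nat_lit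 2) (nat_lit 4) (nat_lit 279) (nat_lit 224) (nat_lit 217)))))) (XT.nd (nat_lit 390) (nat_lit 0) (nat_lit 0) (XT.nd (nat_lit 156) (nat_lit 76) (nat_lit 0) (XT.nd (nat_lit 78) (nat_lit 0) (nat_lit 0) (XT.lf (nat_lit 0) (nat_lit 12245085791) (nat_lit 152) (nat_lit 12973734474) (nat_lit 0) (nat_lit 9851335980) (nat_lit 2) (nat_lit 5) (nat_lit 4) (nat_lit 4) (nat_lit 2) (nat_lit 4) (nat_lit 280) (nat_lit 224) (nat_lit 216)) (XT.lf (nat_lit 0) (nat_lit 15207012772) (nat_lit 152) (nat_lit 9862010280) (nat_lit 0) (nat_lit 12604885354) (nat_lit 2) (nat_lit 5) (nat_lit 4) (nat_lit 4) (nat_lit 2) (nat_lit 4) (nat_lit 281) (nat_lit 224) (nat_lit 215))) (XT.nd (nat_lit 78) (nat_lit 76) (nat_lit 0) (XT.lf (nat_lit 0) (nat_lit 18315282748) (nat_lit 152) (nat_lit 6658089653) (nat_lit 0) (nat_lit 15520213102) (nat_lit 2) (nat_lit 5) (nat_lit 4) (nat_lit 4) (nat_lit 2) (nat_lit 4) (nat_lit 282) (nat_lit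 224) (nat_lit 214)) (XT.nd (nat_lit 78) (nat_lit 76) (nat_lit 0) (XT.lf (nat_lit 0) (nat_lit 21588315097) (nat_lit 152) (nat_lit 3342986397) (nat_lit 0) (nat_lit 18614595239) (nat_lit 2) (nat_lit 5) (nat_lit 4) (nat_lit 4) (nat_lit 2) (nat_lit 4) (nat_lit 283) (nat_lit 224) (nat_lit 213)) (XT.lf (nat_lit 0) (nat_lit 108365421) (nat_lit 76) (nat_lit 24939746335) (nat_lit 76) (nat_lit 21800609615) (nat_lit 1) (nat_lit 4) (nat_lit 2) (nat_lit 5) (nat_lit 2) (nat_lit 4) (nat_lit 284) (nat_lit 224) (nat_lit 212))))) (XT.nd (nat_lit 234) (nat_lit 0) (nat_lit 0) (XT.nd (nat_lit 78) (nat_lit 0) (nat_lit 0) (XT.lf (nat_lit 0) (nat_lit 3894965449) (nat_lit 76) (nat_lit 24906049773) (nat_lit 76) (nat_lit 21613749291) (nat_lit 1) (nat_lit 4) (nat_lit 2) (nat_lit 5) (nat_lit 2) (nat_lit 4) (nat_lit 285) (nat_lit 224) (nat_lit 211)) (XT.nd (nat_lit 78) (nat_lit 0) (nat_lit 0) (XT.lf (nat_lit 0)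 (nat_lit 7863217058) (nat_lit 76) (nat_lit 24921415297) (nat_lit 76) (nat_lit 21487296517) (nat_lit 1) (nat_lit 4) (nat_lit 2) (nat_lit 5) (nat_lit 2) (nat_lit 4) (nat_lit 286) (nat_lit 224) (nat_lit 210)) (XT.lf (nat_lit 0) (nat_lit 12036635814) (nat_lit 76) (nat_lit 24985933961) (nat_lit 76) (nat_lit 21420501942) (nat_lit 1) (nat_lit 4) (nat_lit 2) (nat_lit 5) (nat_lit 2) (nat_lit 4) (nat_lit 287) (nat_lit 224) (nat_lit 209)))) (XT.nd (nat_lit 78) (nat_lit 0) (nat_lit 0) (XT.lf (nat_lit 0) (nat_lit 16439953085) (nat_lit 76) (nat_lit 25099988099) (nat_lit 76) (nat_lit 21412969748) (nat_lit 1) (nat_lit 4) (nat_lit 2) (nat_lit 5) (nat_lit 2) (nat_lit 4) (nat_lit 288) (nat_lit 224) (nat_lit 208)) (XT.nd (nat_lit 78) (nat_lit 0) (nat_lit 0) (XT.lf (nat_lit 0) (nat_lit 21099262605) (nat_lit 76) (nat_lit 25264253586) (nat_lit 76) (nat_lit 21464655298) (nat_lit 1) (nat_lit 4) (nat_lit 2)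 (nat_lit 5) (nat_lit 2) (nat_lit 4) (nat_lit 289) (nat_lit 224) (nat_lit 207)) (XT.lf (nat_lit 0) (nat_lit 26042175097) (nat_lit 76) (nat_lit 25479703848) (nat_lit 76) (nat_lit 21575864878) (nat_lit 1) (nat_lit 4) (nat_lit 2) (nat_lit 5) (nat_lit 2) (nat_lit 4) (nat_lit 290) (nat_lit 224) (nat_lit 206))))))))
noncomputable def xc22 : XT := (XT.nd (nat_lit 1716) (nat_lit 0) (nat_lit 0) (XT.nd (nat_lit 858) (nat_lit 0) (nat_lit 0) (XT.nd (nat_lit 390) (nat_lit 0) (nat_lit 0) (XT.nd (nat_lit 156) (nat_lit 0) (nat_lit 0) (XT.nd (nat_lit 78) (nat_lit 0) (nat_lit 0) (XT.lf (nat_lit 0) (nat_lit 31297981893) (nat_lit 76) (nat_lit 25747615628) (nat_lit 76) (nat_lit 21747257507) (nat_lit 1) (nat_lit 4) (nat_lit 2) (nat_lit 5) (nat_lit 2) (nat_lit 4) (nat_lit 291) (nat_lit 224) (nat_lit 205)) (XT.lf (nat_lit 0) (nat_lit 36897828516) (nat_lit 76) (nat_lit 26069576550) (nat_lit 76) (nat_lit 21979848845)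 (nat_lit 1) (nat_lit 4) (nat_lit 2) (nat_lit 5) (nat_lit 2) (nat_lit 4) (nat_lit 292) (nat_lit 224) (nat_lit 204))) (XT.nd (nat_lit 78) (nat_lit 0) (nat_lit 0) (XT.lf (nat_lit 0) (nat_lit 42874899242) (nat_lit 76) (nat_lit 26447494531) (nat_lit 76) (nat_lit 22275017212) (nat_lit 1) (nat_lit 4) (nat_lit 2) (nat_lit 5) (nat_lit 2) (nat_lit 4) (nat_lit 293) (nat_lit 224) (nat_lit 203)) (XT.nd (nat_lit 78) (nat_lit 0) (nat_lit 0) (XT.lf (nat_lit 0) (nat_lit 49264613749) (nat_lit 76) (nat_lit 26883609086) (nat_lit 76) (nat_lit 22634511753) (nat_lit 1) (nat_lit 4) (nat_lit 2) (nat_lit 5) (nat_lit 2) (nat_lit 4) (nat_lit 294) (nat_lit 224) (nat_lit 202)) (XT.lf (nat_lit 0) (nat_lit 56104837012) (nat_lit 76) (nat_lit 27380504596) (nat_lit 76) (nat_lit 23060462806) (nat_lit 1) (nat_lit 4) (nat_lit 2) (nat_lit 5) (nat_lit 2) (nat_lit 4) (nat_lit 295) (nat_lit 224) (nat_lit 201))))) (XT.nd (nat_lit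 234) (nat_lit 0) (nat_lit 0) (XT.nd (nat_lit 78) (nat_lit 0) (nat_lit 0) (XT.lf (nat_lit 0) (nat_lit 63436103687) (nat_lit 76) (nat_lit 27941125628) (nat_lit 76) (nat_lit 23555394525) (nat_lit 1) (nat_lit 4) (nat_lit 2) (nat_lit 5) (nat_lit 2) (nat_lit 4) (nat_lit 296) (nat_lit 224) (nat_lit 200)) (XT.nd (nat_lit 78) (nat_lit 0) (nat_lit 0) (XT.lf (nat_lit 0) (nat_lit 71301858318) (nat_lit 76) (nat_lit 28568794380) (nat_lit 76) (nat_lit 24122239840) (nat_lit 1) (nat_lit 4) (nat_lit 2) (nat_lit 5) (nat_lit 2) (nat_lit 4) (nat_lit 297) (nat_lit 224) (nat_lit 199)) (XT.lf (nat_lit 0) (nat_lit 79748712784) (nat_lit 76) (nat_lit 29267230371) (nat_lit 76) (nat_lit 24764357834) (nat_lit 1) (nat_lit 4) (nat_lit 2) (nat_lit 5) (nat_lit 2) (nat_lit 4) (nat_lit 298) (nat_lit 224) (nat_lit 198)))) (XT.nd (nat_lit 78) (nat_lit 0) (nat_lit 0) (XT.lf (nat_lit 0) (nat_lit 88826722519) (nat_lit 76)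 (nat_lit 30040572480) (nat_lit 76) (nat_lit 25485553650) (nat_lit 1) (nat_lit 4) (nat_lit 2) (nat_lit 5) (nat_lit 2) (nat_lit 4) (nat_lit 299) (nat_lit 224) (nat_lit 197)) (XT.nd (nat_lit 78) (nat_lit 0) (nat_lit 0) (XT.lf (nat_lit 0) (nat_lit 98589683136) (nat_lit 76) (nat_lit 30893403477) (nat_lit 76) (nat_lit 26290101041) (nat_lit 1) (nat_lit 4) (nat_lit 2) (nat_lit 5) (nat_lit 2) (nat_lit 4) (nat_lit 300) (nat_lit 224) (nat_lit 196)) (XT.lf (nat_lit 0) (nat_lit 109095449217) (nat_lit 76) (nat_lit 31830777174) (nat_lit 76) (nat_lit 27182767696) (nat_lit 1) (nat_lit 4) (nat_lit 2) (nat_lit 5) (nat_lit 2) (nat_lit 4) (nat_lit 301) (nat_lit 224) (nat_lit 195)))))) (XT.nd (nat_lit 390) (nat_lit 0) (nat_lit 0) (XT.nd (nat_lit 156) (nat_lit 0) (nat_lit 0) (XT.nd (nat_lit 78) (nat_lit 0) (nat_lit 0) (XT.lf (nat_lit 0) (nat_lit 120406277153) (nat_lit 76) (nat_lit 32858248378) (nat_lit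 76) (nat_lit 28168843491) (nat_lit 1) (nat_lit 4) (nat_lit 2) (nat_lit 5) (nat_lit 2) (nat_lit 4) (nat_lit 302) (nat_lit 224) (nat_lit 194)) (XT.lf (nat_lit 0) (nat_lit 132589194072) (nat_lit 76) (nat_lit 33981905808) (nat_lit 76) (nat_lit 29254171838) (nat_lit 1) (nat_lit 4) (nat_lit 2) (nat_lit 5) (nat_lit 2) (nat_lit 4) (nat_lit 303) (nat_lit 224) (nat_lit 193))) (XT.nd (nat_lit 78) (nat_lit 0) (nat_lit 0) (XT.lf (nat_lit 0) (nat_lit 145716395039) (nat_lit 76) (nat_lit 35208408174) (nat_lit 76) (nat_lit 30445184313) (nat_lit 1) (nat_lit 4) (nat_lit 2) (nat_lit 5) (nat_lit 2) (nat_lit 4) (nat_lit 304) (nat_lit 224) (nat_lit 192)) (XT.nd (nat_lit 78) (nat_lit 0) (nat_lit 0) (XT.lf (nat_lit 0) (nat_lit 159865670872) (nat_lit 76) (nat_lit 36545023638) (nat_lit 76) (nat_lit 31748938767) (nat_lit 1) (nat_lit 4) (nat_lit 2) (nat_lit 5) (nat_lit 2) (nat_lit 4) (nat_lit 305) (nat_lit 224)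 (nat_lit 191)) (XT.lf (nat_lit 0) (nat_lit 175120869134) (nat_lit 76) (nat_lit 37999672885) (nat_lit 76) (nat_lit 33173161152) (nat_lit 1) (nat_lit 4) (nat_lit 2) (nat_lit 5) (nat_lit 2) (nat_lit 4) (nat_lit 306) (nat_lit 224) (nat_lit 190))))) (XT.nd (nat_lit 234) (nat_lit 0) (nat_lit 0) (XT.nd (nat_lit 78) (nat_lit 0) (nat_lit 0) (XT.lf (nat_lit 0) (nat_lit 191572390998) (nat_lit 76) (nat_lit 39580976059) (nat_lit 76) (nat_lit 34726291305) (nat_lit 1) (nat_lit 4) (nat_lit 2) (nat_lit 5) (nat_lit 2) (nat_lit 4) (nat_lit 307) (nat_lit 224) (nat_lit 189)) (XT.nd (nat_lit 78) (nat_lit 0) (nat_lit 0) (XT.lf (nat_lit 0) (nat_lit 209317726966) (nat_lit 76) (nat_lit 41298303844) (nat_lit 76) (nat_lit 36417532961) (nat_lit 1) (nat_lit 4) (nat_lit 2) (nat_lit 5) (nat_lit 2) (nat_lit 4) (nat_lit 308) (nat_lit 224) (nat_lit 188)) (XT.lf (nat_lit 0) (nat_lit 228462034582) (nat_lit 76) (nat_lit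 43161832998) (nat_lit 76) (nat_lit 38256908291) (nat_lit 1) (nat_lit 4) (nat_lit 2) (nat_lit 5) (nat_lit 2) (nat_lit 4) (nat_lit 309) (nat_lit 224) (nat_lit 187)))) (XT.nd (nat_lit 78) (nat_lit 0) (nat_lit 0) (XT.lf (nat_lit 0) (nat_lit 249118761596) (nat_lit 76) (nat_lit 45182606657) (nat_lit 76) (nat_lit 40255317299) (nat_lit 1) (nat_lit 4) (nat_lit 2) (nat_lit 5) (nat_lit 2) (nat_lit 4) (nat_lit 310) (nat_lit 224) (nat_lit 186)) (XT.nd (nat_lit 78) (nat_lit 0) (nat_lit 0) (XT.lf (nat_lit 0) (nat_lit 271410318243) (nat_lit 76) (nat_lit 47372599776) (nat_lit 76) (nat_lit 42424602407) (nat_lit 1) (nat_lit 4) (nat_lit 2) (nat_lit 5) (nat_lit 2) (nat_lit 4) (nat_lit 311) (nat_lit 224) (nat_lit 185)) (XT.lf (nat_lit 0) (nat_lit 295468802635) (nat_lit 76) (nat_lit 49744790091) (nat_lit 76) (nat_lit 44777618638) (nat_lit 1) (nat_lit 4) (nat_lit 2) (nat_lit 5) (nat_lit 2) (nat_lit 4) (nat_lit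 312) (nat_lit 224) (nat_lit 184))))))) (XT.nd (nat_lit 858) (nat_lit 0) (nat_lit 0) (XT.nd (nat_lit 390) (nat_lit 0) (nat_lit 0) (XT.nd (nat_lit 156) (nat_lit 0) (nat_lit 0) (XT.nd (nat_lit 78) (nat_lit 0) (nat_lit 0) (XT.lf (nat_lit 0) (nat_lit 321436783570) (nat_lit 76) (nat_lit 52313235028) (nat_lit 76) (nat_lit 47328309793) (nat_lit 1) (nat_lit 4) (nat_lit 2) (nat_lit 5) (nat_lit 2) (nat_lit 4) (nat_lit 313) (nat_lit 224) (nat_lit 183)) (XT.lf (nat_lit 0) (nat_lit 349468145378) (nat_lit 76) (nat_lit 55093154999) (nat_lit 76) (nat_lit 50091791078) (nat_lit 1) (nat_lit 4) (nat_lit 2) (nat_lit 5) (nat_lit 2) (nat_lit 4) (nat_lit 314) (nat_lit 224) (nat_lit 182))) (XT.nd (nat_lit 78) (nat_lit 0) (nat_lit 0) (XT.lf (nat_lit 0) (nat_lit 379728999833) (nat_lit 76) (nat_lit 58101023606) (nat_lit 76) (nat_lit 53084438679) (nat_lit 1) (nat_lit 4) (nat_lit 2) (nat_lit 5) (nat_lit 2) (nat_lit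 4) (nat_lit 315) (nat_lit 224) (nat_lit 181)) (XT.nd (nat_lit 78) (nat_lit 0) (nat_lit 0) (XT.lf (nat_lit 0) (nat_lit 412398670517) (nat_lit 76) (nat_lit 61354665255) (nat_lit 76) (nat_lit 56323986804) (nat_lit 1) (nat_lit 4) (nat_lit 2) (nat_lit 5) (nat_lit 2) (nat_lit 4) (nat_lit 316) (nat_lit 224) (nat_lit 180)) (XT.lf (nat_lit 0) (nat_lit 447670755479) (nat_lit 76) (nat_lit 64873360785) (nat_lit 76) (nat_lit 59829632774) (nat_lit 1) (nat_lit 4) (nat_lit 2) (nat_lit 5) (nat_lit 2) (nat_lit 4) (nat_lit 317) (nat_lit 224) (nat_lit 179))))) (XT.nd (nat_lit 234) (nat_lit 0) (nat_lit 0) (XT.nd (nat_lit 78) (nat_lit 0) (nat_lit 0) (XT.lf (nat_lit 0) (nat_lit 485754274481) (nat_lit 76) (nat_lit 68677961724) (nat_lit 76) (nat_lit 63622150789) (nat_lit 1) (nat_lit 4) (nat_lit 2) (nat_lit 5) (nat_lit 2) (nat_lit 4) (nat_lit 318) (nat_lit 224) (nat_lit 178)) (XT.nd (nat_lit 78) (nat_lit 0)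 (nat_lit 0) (XT.lf (nat_lit 0) (nat_lit 526874907636) (nat_lit 76) (nat_lit 72791013858) (nat_lit 76) (nat_lit 67724015028) (nat_lit 1) (nat_lit 4) (nat_lit 2) (nat_lit 5) (nat_lit 2) (nat_lit 4) (nat_lit 319) (nat_lit 224) (nat_lit 177)) (XT.lf (nat_lit 0) (nat_lit 571276332771) (nat_lit 76) (nat_lit 77236890827) (nat_lit 76) (nat_lit 72159532836) (nat_lit 1) (nat_lit 4) (nat_lit 2) (nat_lit 5) (nat_lit 2) (nat_lit 4) (nat_lit 320) (nat_lit 224) (nat_lit 176)))) (XT.nd (nat_lit 78) (nat_lit 0) (nat_lit 0) (XT.lf (nat_lit 0) (nat_lit 619221669440) (nat_lit 76) (nat_lit 82041938570) (nat_lit 76) (nat_lit 76954988763) (nat_lit 1) (nat_lit 4) (nat_lit 2) (nat_lit 5) (nat_lit 2) (nat_lit 4) (nat_lit 321) (nat_lit 224) (nat_lit 175)) (XT.nd (nat_lit 78) (nat_lit 0) (nat_lit 0) (XT.lf (nat_lit 0) (nat_lit 670995038159) (nat_lit 76) (nat_lit 87234631443) (nat_lit 76) (nat_lit 82138800325)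 (nat_lit 1) (nat_lit 4) (nat_lit 2) (nat_lit 5) (nat_lit 2) (nat_lit 4) (nat_lit 322) (nat_lit 224) (nat_lit 174)) (XT.lf (nat_lit 0) (nat_lit 726903244075) (nat_lit 76) (nat_lit 92845740959) (nat_lit 76) (nat_lit 87741686406) (nat_lit 1) (nat_lit 4) (nat_lit 2) (nat_lit 5) (nat_lit 2) (nat_lit 4) (nat_lit 323) (nat_lit 224) (nat_lit 173)))))) (XT.nd (nat_lit 390) (nat_lit 0) (nat_lit 0) (XT.nd (nat_lit 156) (nat_lit 0) (nat_lit 0) (XT.nd (nat_lit 78) (nat_lit 0) (nat_lit 0) (XT.lf (nat_lit 0) (nat_lit 787277595075) (nat_lit 76) (nat_lit 98908518139) (nat_lit 76) (nat_lit 93796849293) (nat_lit 1) (nat_lit 4) (nat_lit 2) (nat_lit 5) (nat_lit 2) (nat_lit 4) (nat_lit 324) (nat_lit 224) (nat_lit 172)) (XT.lf (nat_lit 0) (nat_lit 852475865090) (nat_lit 76) (nat_lit 105458890550) (nat_lit 76) (nat_lit 100340171434) (nat_lit 1) (nat_lit 4) (nat_lit 2) (nat_lit 5) (nat_lit 2) (nat_lit 4)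 (nat_lit 325) (nat_lit 224) (nat_lit 171))) (XT.nd (nat_lit 78) (nat_lit 0) (nat_lit 0) (XT.lf (nat_lit 0) (nat_lit 922884414240) (nat_lit 76) (nat_lit 112535675215) (nat_lit 76) (nat_lit 107410428069) (nat_lit 1) (nat_lit 4) (nat_lit 2) (nat_lit 5) (nat_lit 2) (nat_lit 4) (nat_lit 326) (nat_lit 224) (nat_lit 170)) (XT.nd (nat_lit 78) (nat_lit 0) (nat_lit 0) (XT.lf (nat_lit 0) (nat_lit 998920478372) (nat_lit 76) (nat_lit 120180808634) (nat_lit 76) (nat_lit 115049517018) (nat_lit 1) (nat_lit 4) (nat_lit 2) (nat_lit 5) (nat_lit 2) (nat_lit 4) (nat_lit 327) (nat_lit 224) (nat_lit 169)) (XT.lf (nat_lit 0) (nat_lit 1081034641568) (nat_lit 76) (nat_lit 128439595303) (nat_lit 76) (nat_lit 123302706954) (nat_lit 1) (nat_lit 4) (nat_lit 2) (nat_lit 5) (nat_lit 2) (nat_lit 4) (nat_lit 328) (nat_lit 224) (nat_lit 168))))) (XT.nd (nat_lit 234) (nat_lit 0) (nat_lit 0) (XT.nd (nat_lit 78) (nat_lit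 0) (nat_lit 0) (XT.lf (nat_lit 0) (nat_lit 1169713506277) (nat_lit 76) (nat_lit 137360976179) (nat_lit 76) (nat_lit 132218905671) (nat_lit 1) (nat_lit 4) (nat_lit 2) (nat_lit 5) (nat_lit 2) (nat_lit 4) (nat_lit 329) (nat_lit 224) (nat_lit 167)) (XT.nd (nat_lit 78) (nat_lit 0) (nat_lit 0) (XT.lf (nat_lit 0) (nat_lit 1265482576884) (nat_lit 76) (nat_lit 146997818705) (nat_lit 76) (nat_lit 141850949900) (nat_lit 1) (nat_lit 4) (nat_lit 2) (nat_lit 5) (nat_lit 2) (nat_lit 4) (nat_lit 330) (nat_lit 224) (nat_lit 166)) (XT.lf (nat_lit 0) (nat_lit 1368909373806) (nat_lit 76) (nat_lit 157407230095) (nat_lit 76) (nat_lit 152255918424) (nat_lit 1) (nat_lit 4) (nat_lit 2) (nat_lit 5) (nat_lit 2) (nat_lit 4) (nat_lit 331) (nat_lit 224) (nat_lit 165)))) (XT.nd (nat_lit 78) (nat_lit 0) (nat_lit 0) (XT.lf (nat_lit 0) (nat_lit 1480606796581) (nat_lit 76) (nat_lit 168650895750) (nat_lit 76) (nat_lit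 163495470314) (nat_lit 1) (nat_lit 4) (nat_lit 2) (nat_lit 5) (nat_lit 2) (nat_lit 4) (nat_lit 332) (nat_lit 224) (nat_lit 164)) (XT.nd (nat_lit 32604) (nat_lit 0) (nat_lit 304) (XT.lf (nat_lit 0) (nat_lit 1601236755862) (nat_lit 76) (nat_lit 180795444801) (nat_lit 76) (nat_lit 175636210323) (nat_lit 1) (nat_lit 4) (nat_lit 2) (nat_lit 5) (nat_lit 2) (nat_lit 4) (nat_lit 333) (nat_lit 224) (nat_lit 163)) (XT.lf (nat_lit 0) (nat_lit 3012258003) (nat_lit 152) (nat_lit 2937790569) (nat_lit 0) (nat_lit 3012258003) (nat_lit 5) (nat_lit 5) (nat_lit 7) (nat_lit 4) (nat_lit 5) (nat_lit 4) (nat_lit 270) (nat_lit 225) (nat_lit 225))))))))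
noncomputable def xc23 : XT := (XT.nd (nat_lit 1716) (nat_lit 0) (nat_lit 0) (XT.nd (nat_lit 858) (nat_lit 76) (nat_lit 0) (XT.nd (nat_lit 390) (nat_lit 152) (nat_lit 0) (XT.nd (nat_lit 156) (nat_lit 0) (nat_lit 0) (XT.nd (nat_lit 78) (nat_lit 76) (nat_lit 0) (XT.lf (nat_lit 0) (nat_lit 9285705601) (nat_lit 152) (nat_lit 959192398) (nat_lit 0) (nat_lit 8835833977) (nat_lit 5) (nat_lit 5) (nat_lit 7) (nat_lit 4) (nat_lit 5) (nat_lit 4) (nat_lit 271) (nat_lit 225) (nat_lit 224)) (XT.lf (nat_lit 0) (nat_lit 4303138082) (nat_lit 76) (nat_lit 8448944859) (nat_lit 76) (nat_lit 7582525434) (nat_lit 4) (nat_lit 4) (nat_lit 5) (nat_lit 5) (nat_lit 5) (nat_lit 4) (nat_lit 272) (nat_lit 225) (nat_lit 223))) (XT.nd (nat_lit 78) (nat_lit 0) (nat_lit 0) (XT.lf (nat_lit 0) (nat_lit 9785024224) (nat_lit 76) (nat_lit 6583410365) (nat_lit 76) (nat_lit 5331298533) (nat_lit 4) (nat_lit 4) (nat_lit 5)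 (nat_lit 5) (nat_lit 5) (nat_lit 4) (nat_lit 273) (nat_lit 225) (nat_lit 222)) (XT.nd (nat_lit 78) (nat_lit 0) (nat_lit 0) (XT.lf (nat_lit 0) (nat_lit 15468441907) (nat_lit 76) (nat_lit 4663465520) (nat_lit 76) (nat_lit 3054231088) (nat_lit 4) (nat_lit 4) (nat_lit 5) (nat_lit 5) (nat_lit 5) (nat_lit 4) (nat_lit 274) (nat_lit 225) (nat_lit 221)) (XT.lf (nat_lit 0) (nat_lit 21387070643) (nat_lit 76) (nat_lit 2677732871) (nat_lit 76) (nat_lit 737829366) (nat_lit 4) (nat_lit 4) (nat_lit 5) (nat_lit 5) (nat_lit 5) (nat_lit 4) (nat_lit 275) (nat_lit 225) (nat_lit 220))))) (XT.nd (nat_lit 234) (nat_lit 0) (nat_lit 0) (XT.nd (nat_lit 78) (nat_lit 0) (nat_lit 0) (XT.lf (nat_lit 0) (nat_lit 1029444500) (nat_lit 76) (nat_lit 545326208) (nat_lit 152) (nat_lit 24978904818) (nat_lit 2) (nat_lit 5) (nat_lit 3) (nat_lit 5) (nat_lit 4) (nat_lit 4) (nat_lit 276) (nat_lit 225) (nat_lit 219)) (XT.nd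 (nat_lit 78) (nat_lit 0) (nat_lit 0) (XT.lf (nat_lit 0) (nat_lit 4047326604) (nat_lit 152) (nat_lit 22690139963) (nat_lit 0) (nat_lit 1705128449) (nat_lit 2) (nat_lit 5) (nat_lit 4) (nat_lit 4) (nat_lit 2) (nat_lit 4) (nat_lit 277) (nat_lit 225) (nat_lit 218)) (XT.lf (nat_lit 0) (nat_lit 6617707320) (nat_lit 152) (nat_lit 19840935083) (nat_lit 0) (nat_lit 4032457524) (nat_lit 2) (nat_lit 5) (nat_lit 4) (nat_lit 4) (nat_lit 2) (nat_lit 4) (nat_lit 278) (nat_lit 225) (nat_lit 217)))) (XT.nd (nat_lit 78) (nat_lit 0) (nat_lit 0) (XT.lf (nat_lit 0) (nat_lit 9288029632) (nat_lit 152) (nat_lit 16946617102) (nat_lit 0) (nat_lit 6477732021) (nat_lit 2) (nat_lit 5) (nat_lit 4) (nat_lit 4) (nat_lit 2) (nat_lit 4) (nat_lit 279) (nat_lit 225) (nat_lit 216)) (XT.nd (nat_lit 78) (nat_lit 0) (nat_lit 0) (XT.lf (nat_lit 0) (nat_lit 12074117673) (nat_lit 152) (nat_lit 13990034505) (nat_lit 0) (nat_lit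 9055442455) (nat_lit 2) (nat_lit 5) (nat_lit 4) (nat_lit 4) (nat_lit 2) (nat_lit 4) (nat_lit 280) (nat_lit 225) (nat_lit 215)) (XT.lf (nat_lit 0) (nat_lit 14992481594) (nat_lit 152) (nat_lit 10953666803) (nat_lit 0) (nat_lit 11780864148) (nat_lit 2) (nat_lit 5) (nat_lit 4) (nat_lit 4) (nat_lit 2) (nat_lit 4) (nat_lit 281) (nat_lit 225) (nat_lit 214)))))) (XT.nd (nat_lit 390) (nat_lit 0) (nat_lit 0) (XT.nd (nat_lit 156) (nat_lit 76) (nat_lit 0) (XT.nd (nat_lit 78) (nat_lit 0) (nat_lit 0) (XT.lf (nat_lit 0) (nat_lit 18060415405) (nat_lit 152) (nat_lit 7819520705) (nat_lit 0) (nat_lit 14670147747) (nat_lit 2) (nat_lit 5) (nat_lit 4) (nat_lit 4) (nat_lit 2) (nat_lit 4) (nat_lit 282) (nat_lit 225) (nat_lit 213)) (XT.lf (nat_lit 0) (nat_lit 21296099452) (nat_lit 152) (nat_lit 4569023495) (nat_lit 0) (nat_lit 17740414931) (nat_lit 2) (nat_lit 5) (nat_lit 4) (nat_lit 4) (nat_lit 2) (nat_lit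 4) (nat_lit 283) (nat_lit 225) (nat_lit 212))) (XT.nd (nat_lit 78) (nat_lit 76) (nat_lit 0) (XT.lf (nat_lit 0) (nat_lit 24718708160) (nat_lit 152) (nat_lit 1182912965) (nat_lit 0) (nat_lit 21009859878) (nat_lit 2) (nat_lit 5) (nat_lit 4) (nat_lit 4) (nat_lit 2) (nat_lit 4) (nat_lit 284) (nat_lit 225) (nat_lit 211)) (XT.nd (nat_lit 78) (nat_lit 0) (nat_lit 0) (XT.lf (nat_lit 0) (nat_lit 2483090990) (nat_lit 76) (nat_lit 25925151064) (nat_lit 76) (nat_lit 22074484484) (nat_lit 1) (nat_lit 4) (nat_lit 2) (nat_lit 5) (nat_lit 2) (nat_lit 4) (nat_lit 285) (nat_lit 225) (nat_lit 210)) (XT.lf (nat_lit 0) (nat_lit 6397355588) (nat_lit 76) (nat_lit 25963556923) (nat_lit 76) (nat_lit 21981577104) (nat_lit 1) (nat_lit 4) (nat_lit 2) (nat_lit 5) (nat_lit 2) (nat_lit 4) (nat_lit 286) (nat_lit 225) (nat_lit 209))))) (XT.nd (nat_lit 234) (nat_lit 0) (nat_lit 0) (XT.nd (nat_lit 78) (nat_lit 0) (nat_lit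 0) (XT.lf (nat_lit 0) (nat_lit 10520786370) (nat_lit 76) (nat_lit 26049409232) (nat_lit 76) (nat_lit 21945843081) (nat_lit 1) (nat_lit 4) (nat_lit 2) (nat_lit 5) (nat_lit 2) (nat_lit 4) (nat_lit 287) (nat_lit 225) (nat_lit 208)) (XT.nd (nat_lit 78) (nat_lit 0) (nat_lit 0) (XT.lf (nat_lit 0) (nat_lit 14877818481) (nat_lit 76) (nat_lit 26183216744) (nat_lit 76) (nat_lit 21967070655) (nat_lit 1) (nat_lit 4) (nat_lit 2) (nat_lit 5) (nat_lit 2) (nat_lit 4) (nat_lit 288) (nat_lit 225) (nat_lit 207)) (XT.lf (nat_lit 0) (nat_lit 19494271371) (nat_lit 76) (nat_lit 26365772393) (nat_lit 76) (nat_lit 22045385622) (nat_lit 1) (nat_lit 4) (nat_lit 2) (nat_lit 5) (nat_lit 2) (nat_lit 4) (nat_lit 289) (nat_lit 225) (nat_lit 206)))) (XT.nd (nat_lit 78) (nat_lit 0) (nat_lit 0) (XT.lf (nat_lit 0) (nat_lit 24397501798) (nat_lit 76) (nat_lit 26598157990) (nat_lit 76) (nat_lit 22181252068) (nat_lit 1)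 (nat_lit 4) (nat_lit 2) (nat_lit 5) (nat_lit 2) (nat_lit 4) (nat_lit 290) (nat_lit 225) (nat_lit 205)) (XT.nd (nat_lit 78) (nat_lit 0) (nat_lit 0) (XT.lf (nat_lit 0) (nat_lit 29616565942) (nat_lit 76) (nat_lit 26881750635) (nat_lit 76) (nat_lit 22375475130) (nat_lit 1) (nat_lit 4) (nat_lit 2) (nat_lit 5) (nat_lit 2) (nat_lit 4) (nat_lit 291) (nat_lit 225) (nat_lit 204)) (XT.lf (nat_lit 0) (nat_lit 35182391590) (nat_lit 76) (nat_lit 27218230877) (nat_lit 76) (nat_lit 22629205757) (nat_lit 1) (nat_lit 4) (nat_lit 2) (nat_lit 5) (nat_lit 2) (nat_lit 4) (nat_lit 292) (nat_lit 225) (nat_lit 203))))))) (XT.nd (nat_lit 858) (nat_lit 0) (nat_lit 0) (XT.nd (nat_lit 390) (nat_lit 0) (nat_lit 0) (XT.nd (nat_lit 156) (nat_lit 0) (nat_lit 0) (XT.nd (nat_lit 78) (nat_lit 0) (nat_lit 0) (XT.lf (nat_lit 0) (nat_lit 41127961414) (nat_lit 76) (nat_lit 27609592673) (nat_lit 76) (nat_lit 22943947539)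 (nat_lit 1) (nat_lit 4) (nat_lit 2) (nat_lit 5) (nat_lit 2) (nat_lit 4) (nat_lit 293) (nat_lit 225) (nat_lit 202)) (XT.lf (nat_lit 0) (nat_lit 47488508419) (nat_lit 76) (nat_lit 28058155204) (nat_lit 76) (nat_lit 23321565613) (nat_lit 1) (nat_lit 4) (nat_lit 2) (nat_lit 5) (nat_lit 2) (nat_lit 4) (nat_lit 294) (nat_lit 225) (nat_lit 201))) (XT.nd (nat_lit 78) (nat_lit 0) (nat_lit 0) (XT.lf (nat_lit 0) (nat_lit 54301724735) (nat_lit 76) (nat_lit 28566576618) (nat_lit 76) (nat_lit 23764297716) (nat_lit 1) (nat_lit 4) (nat_lit 2) (nat_lit 5) (nat_lit 2) (nat_lit 4) (nat_lit 295) (nat_lit 225) (nat_lit 200)) (XT.nd (nat_lit 78) (nat_lit 0) (nat_lit 0) (XT.lf (nat_lit 0) (nat_lit 61607984979) (nat_lit 76) (nat_lit 29137869783) (nat_lit 76) (nat_lit 24274767444) (nat_lit 1) (nat_lit 4) (nat_lit 2) (nat_lit 5) (nat_lit 2) (nat_lit 4) (nat_lit 296) (nat_lit 225) (nat_lit 199)) (XT.lf (nat_lit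 0) (nat_lit 69450585506) (nat_lit 76) (nat_lit 29775420141) (nat_lit 76) (nat_lit 24855999804) (nat_lit 1) (nat_lit 4) (nat_lit 2) (nat_lit 5) (nat_lit 2) (nat_lit 4) (nat_lit 297) (nat_lit 225) (nat_lit 198))))) (XT.nd (nat_lit 234) (nat_lit 0) (nat_lit 0) (XT.nd (nat_lit 78) (nat_lit 0) (nat_lit 0) (XT.lf (nat_lit 0) (nat_lit 77876000988) (nat_lit 76) (nat_lit 30483005766) (nat_lit 76) (nat_lit 25511439135) (nat_lit 1) (nat_lit 4) (nat_lit 2) (nat_lit 5) (nat_lit 2) (nat_lit 4) (nat_lit 298) (nat_lit 225) (nat_lit 197)) (XT.nd (nat_lit 78) (nat_lit 0) (nat_lit 0) (XT.lf (nat_lit 0) (nat_lit 86934159811) (nat_lit 76) (nat_lit 31264819760) (nat_lit 76) (nat_lit 26244969523) (nat_lit 1) (nat_lit 4) (nat_lit 2) (nat_lit 5) (nat_lit 2) (nat_lit 4) (nat_lit 299) (nat_lit 225) (nat_lit 196)) (XT.lf (nat_lit 0) (nat_lit 96678739954) (nat_lit 76) (nat_lit 32125495093) (nat_lit 76) (nat_lit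 27060937815) (nat_lit 1) (nat_lit 4) (nat_lit 2) (nat_lit 5) (nat_lit 2) (nat_lit 4) (nat_lit 300) (nat_lit 225) (nat_lit 195)))) (XT.nd (nat_lit 78) (nat_lit 0) (nat_lit 0) (XT.lf (nat_lit 0) (nat_lit 107167487077) (nat_lit 76) (nat_lit 33070132065) (nat_lit 76) (nat_lit 27964179377) (nat_lit 1) (nat_lit 4) (nat_lit 2) (nat_lit 5) (nat_lit 2) (nat_lit 4) (nat_lit 301) (nat_lit 225) (nat_lit 194)) (XT.nd (nat_lit 78) (nat_lit 0) (nat_lit 0) (XT.lf (nat_lit 0) (nat_lit 118462556719) (nat_lit 76) (nat_lit 34104328523) (nat_lit 76) (nat_lit 28960046753) (nat_lit 1) (nat_lit 4) (nat_lit 2) (nat_lit 5) (nat_lit 2) (nat_lit 4) (nat_lit 302) (nat_lit 225) (nat_lit 193)) (XT.lf (nat_lit 0) (nat_lit 130630882626) (nat_lit 76) (nat_lit 35234213040) (nat_lit 76) (nat_lit 30054441379) (nat_lit 1) (nat_lit 4) (nat_lit 2) (nat_lit 5) (nat_lit 2) (nat_lit 4) (nat_lit 303) (nat_lit 225) (nat_lit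 192)))))) (XT.nd (nat_lit 390) (nat_lit 0) (nat_lit 0) (XT.nd (nat_lit 156) (nat_lit 0) (nat_lit 0) (XT.nd (nat_lit 78) (nat_lit 0) (nat_lit 0) (XT.lf (nat_lit 0) (nat_lit 143744573395) (nat_lit 76) (nat_lit 36466481228) (nat_lit 76) (nat_lit 31253848556) (nat_lit 1) (nat_lit 4) (nat_lit 2) (nat_lit 5) (nat_lit 2) (nat_lit 4) (nat_lit 304) (nat_lit 225) (nat_lit 191)) (XT.lf (nat_lit 0) (nat_lit 157881339787) (nat_lit 76) (nat_lit 37808435416) (nat_lit 76) (nat_lit 32565375883) (nat_lit 1) (nat_lit 4) (nat_lit 2) (nat_lit 5) (nat_lit 2) (nat_lit 4) (nat_lit 305) (nat_lit 225) (nat_lit 190))) (XT.nd (nat_lit 78) (nat_lit 0) (nat_lit 0) (XT.lf (nat_lit 0) (nat_lit 173124955232) (nat_lit 76) (nat_lit 39268027926) (nat_lit 76) (nat_lit 33996795373) (nat_lit 1) (nat_lit 4) (nat_lit 2) (nat_lit 5) (nat_lit 2) (nat_lit 4) (nat_lit 306) (nat_lit 225) (nat_lit 189)) (XT.nd (nat_lit 78) (nat_lit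 0) (nat_lit 0) (XT.lf (nat_lit 0) (nat_lit 189565752267) (nat_lit 76) (nat_lit 40853908195) (nat_lit 76) (nat_lit 35556589512) (nat_lit 1) (nat_lit 4) (nat_lit 2) (nat_lit 5) (nat_lit 2) (nat_lit 4) (nat_lit 307) (nat_lit 225) (nat_lit 188)) (XT.lf (nat_lit 0) (nat_lit 207301157836) (nat_lit 76) (nat_lit 42575474031) (nat_lit 76) (nat_lit 37254001524) (nat_lit 1) (nat_lit 4) (nat_lit 2) (nat_lit 5) (nat_lit 2) (nat_lit 4) (nat_lit 308) (nat_lit 225) (nat_lit 187))))) (XT.nd (nat_lit 234) (nat_lit 0) (nat_lit 0) (XT.nd (nat_lit 78) (nat_lit 0) (nat_lit 0) (XT.lf (nat_lit 0) (nat_lit 226436270639) (nat_lit 76) (nat_lit 44442927306) (nat_lit 76) (nat_lit 39099090148) (nat_lit 1) (nat_lit 4) (nat_lit 2) (nat_lit 5) (nat_lit 2) (nat_lit 4) (nat_lit 309) (nat_lit 225) (nat_lit 186)) (XT.nd (nat_lit 78) (nat_lit 0) (nat_lit 0) (XT.lf (nat_lit 0) (nat_lit 247084483938) (nat_lit 76) (nat_lit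 46467334411) (nat_lit 76) (nat_lit 41102789242) (nat_lit 1) (nat_lit 4) (nat_lit 2) (nat_lit 5) (nat_lit 2) (nat_lit 4) (nat_lit 310) (nat_lit 225) (nat_lit 185)) (XT.lf (nat_lit 0) (nat_lit 269368157514) (nat_lit 76) (nat_lit 48660691831) (nat_lit 76) (nat_lit 43276972578) (nat_lit 1) (nat_lit 4) (nat_lit 2) (nat_lit 5) (nat_lit 2) (nat_lit 4) (nat_lit 311) (nat_lit 225) (nat_lit 184)))) (XT.nd (nat_lit 78) (nat_lit 0) (nat_lit 0) (XT.lf (nat_lit 0) (nat_lit 293419342767) (nat_lit 76) (nat_lit 51035997241) (nat_lit 76) (nat_lit 45634524206) (nat_lit 1) (nat_lit 4) (nat_lit 2) (nat_lit 5) (nat_lit 2) (nat_lit 4) (nat_lit 312) (nat_lit 225) (nat_lit 183)) (XT.nd (nat_lit 78) (nat_lit 0) (nat_lit 0) (XT.lf (nat_lit 0) (nat_lit 319380565239) (nat_lit 76) (nat_lit 53607326524) (nat_lit 76) (nat_lit 48189414803) (nat_lit 1) (nat_lit 4) (nat_lit 2) (nat_lit 5) (nat_lit 2) (nat_lit 4) (nat_lit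 313) (nat_lit 225) (nat_lit 182)) (XT.lf (nat_lit 0) (nat_lit 347405669212) (nat_lit 76) (nat_lit 56389917187) (nat_lit 76) (nat_lit 50956784459) (nat_lit 1) (nat_lit 4) (nat_lit 2) (nat_lit 5) (nat_lit 2) (nat_lit 4) (nat_lit 314) (nat_lit 225) (nat_lit 181))))))))
noncomputable def xc24 : XT := (XT.nd (nat_lit 34008) (nat_lit 0) (nat_lit 0) (XT.nd (nat_lit 780) (nat_lit 0) (nat_lit 0) (XT.nd (nat_lit 390) (nat_lit 0) (nat_lit 0) (XT.nd (nat_lit 156) (nat_lit 0) (nat_lit 0) (XT.nd (nat_lit 78) (nat_lit 0) (nat_lit 0) (XT.lf (nat_lit 0) (nat_lit 377660729375) (nat_lit 76) (nat_lit 59400258656) (nat_lit 76) (nat_lit 53953032404) (nat_lit 1) (nat_lit 4) (nat_lit 2) (nat_lit 5) (nat_lit 2) (nat_lit 4) (nat_lit 315) (nat_lit 225) (nat_lit 180)) (XT.lf (nat_lit 0) (nat_lit 410325034974) (nat_lit 76) (nat_lit 62656189991) (nat_lit 76) (nat_lit 57195914180) (nat_lit 1) (nat_lit 4) (nat_lit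 2) (nat_lit 5) (nat_lit 2) (nat_lit 4) (nat_lit 316) (nat_lit 225) (nat_lit 179))) (XT.nd (nat_lit 78) (nat_lit 0) (nat_lit 0) (XT.lf (nat_lit 0) (nat_lit 445592152264) (nat_lit 76) (nat_lit 66177005602) (nat_lit 76) (nat_lit 60704646865) (nat_lit 1) (nat_lit 4) (nat_lit 2) (nat_lit 5) (nat_lit 2) (nat_lit 4) (nat_lit 317) (nat_lit 225) (nat_lit 178)) (XT.nd (nat_lit 78) (nat_lit 0) (nat_lit 0) (XT.lf (nat_lit 0) (nat_lit 483671071571) (nat_lit 76) (nat_lit 69983569579) (nat_lit 76) (nat_lit 64500022949) (nat_lit 1) (nat_lit 4) (nat_lit 2) (nat_lit 5) (nat_lit 2) (nat_lit 4) (nat_lit 318) (nat_lit 225) (nat_lit 177)) (XT.lf (nat_lit 0) (nat_lit 524787445749) (nat_lit 76) (nat_lit 74098439340) (nat_lit 76) (nat_lit 68604533549) (nat_lit 1) (nat_lit 4) (nat_lit 2) (nat_lit 5) (nat_lit 2) (nat_lit 4) (nat_lit 319) (nat_lit 225) (nat_lit 176))))) (XT.nd (nat_lit 156) (nat_lit 0) (nat_lit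 0) (XT.nd (nat_lit 78) (nat_lit 0) (nat_lit 0) (XT.lf (nat_lit 0) (nat_lit 569184927385) (nat_lit 76) (nat_lit 78545999298) (nat_lit 76) (nat_lit 73042501691) (nat_lit 1) (nat_lit 4) (nat_lit 2) (nat_lit 5) (nat_lit 2) (nat_lit 4) (nat_lit 320) (nat_lit 225) (nat_lit 175)) (XT.lf (nat_lit 0) (nat_lit 617126612668) (nat_lit 76) (nat_lit 83352605363) (nat_lit 76) (nat_lit 77840226445) (nat_lit 1) (nat_lit 4) (nat_lit 2) (nat_lit 5) (nat_lit 2) (nat_lit 4) (nat_lit 321) (nat_lit 225) (nat_lit 174))) (XT.nd (nat_lit 78) (nat_lit 0) (nat_lit 0) (XT.lf (nat_lit 0) (nat_lit 668896600473) (nat_lit 76) (nat_lit 88546741127) (nat_lit 76) (nat_lit 83026138774) (nat_lit 1) (nat_lit 4) (nat_lit 2) (nat_lit 5) (nat_lit 2) (nat_lit 4) (nat_lit 322) (nat_lit 225) (nat_lit 173)) (XT.nd (nat_lit 78) (nat_lit 0) (nat_lit 0) (XT.lf (nat_lit 0) (nat_lit 724801675914) (nat_lit 76) (nat_lit 94159186654)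 (nat_lit 76) (nat_lit 88630970008) (nat_lit 1) (nat_lit 4) (nat_lit 2) (nat_lit 5) (nat_lit 2) (nat_lit 4) (nat_lit 323) (nat_lit 225) (nat_lit 172)) (XT.lf (nat_lit 0) (nat_lit 785173128325) (nat_lit 76) (nat_lit 100223200881) (nat_lit 76) (nat_lit 94687933964) (nat_lit 1) (nat_lit 4) (nat_lit 2) (nat_lit 5) (nat_lit 2) (nat_lit 4) (nat_lit 324) (nat_lit 225) (nat_lit 171)))))) (XT.nd (nat_lit 390) (nat_lit 0) (nat_lit 0) (XT.nd (nat_lit 156) (nat_lit 0) (nat_lit 0) (XT.nd (nat_lit 78) (nat_lit 0) (nat_lit 0) (XT.lf (nat_lit 0) (nat_lit 850368714462) (nat_lit 76) (nat_lit 106774718705) (nat_lit 76) (nat_lit 101232923760) (nat_lit 1) (nat_lit 4) (nat_lit 2) (nat_lit 5) (nat_lit 2) (nat_lit 4) (nat_lit 325) (nat_lit 225) (nat_lit 170)) (XT.lf (nat_lit 0) (nat_lit 920774778540) (nat_lit 76) (nat_lit 113852563938) (nat_lit 76) (nat_lit 108304724522) (nat_lit 1) (nat_lit 4) (nat_lit 2)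 (nat_lit 5) (nat_lit 2) (nat_lit 4) (nat_lit 326) (nat_lit 225) (nat_lit 169))) (XT.nd (nat_lit 78) (nat_lit 0) (nat_lit 0) (XT.lf (nat_lit 0) (nat_lit 996808541678) (nat_lit 76) (nat_lit 121498679365) (nat_lit 76) (nat_lit 115945243216) (nat_lit 1) (nat_lit 4) (nat_lit 2) (nat_lit 5) (nat_lit 2) (nat_lit 4) (nat_lit 327) (nat_lit 225) (nat_lit 168)) (XT.nd (nat_lit 78) (nat_lit 0) (nat_lit 0) (XT.lf (nat_lit 0) (nat_lit 1078920574325) (nat_lit 76) (nat_lit 129758375300) (nat_lit 76) (nat_lit 124199756992) (nat_lit 1) (nat_lit 4) (nat_lit 2) (nat_lit 5) (nat_lit 2) (nat_lit 4) (nat_lit 328) (nat_lit 225) (nat_lit 167)) (XT.lf (nat_lit 0) (nat_lit 1167597466304) (nat_lit 76) (nat_lit 138680598089) (nat_lit 76) (nat_lit 133117181485) (nat_lit 1) (nat_lit 4) (nat_lit 2) (nat_lit 5) (nat_lit 2) (nat_lit 4) (nat_lit 329) (nat_lit 225) (nat_lit 166))))) (XT.nd (nat_lit 234) (nat_lit 0)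 (nat_lit 0) (XT.nd (nat_lit 78) (nat_lit 0) (nat_lit 0) (XT.lf (nat_lit 0) (nat_lit 1263364710308) (nat_lit 76) (nat_lit 148318220164) (nat_lit 76) (nat_lit 142750360693) (nat_lit 1) (nat_lit 4) (nat_lit 2) (nat_lit 5) (nat_lit 2) (nat_lit 4) (nat_lit 330) (nat_lit 225) (nat_lit 165)) (XT.nd (nat_lit 78) (nat_lit 0) (nat_lit 0) (XT.lf (nat_lit 0) (nat_lit 1366789815931) (nat_lit 76) (nat_lit 158728353359) (nat_lit 76) (nat_lit 153156380123) (nat_lit 1) (nat_lit 4) (nat_lit 2) (nat_lit 5) (nat_lit 2) (nat_lit 4) (nat_lit 331) (nat_lit 225) (nat_lit 164)) (XT.lf (nat_lit 0) (nat_lit 1478485672689) (nat_lit 76) (nat_lit 169972687353) (nat_lit 76) (nat_lit 164396905074) (nat_lit 1) (nat_lit 4) (nat_lit 2) (nat_lit 5) (nat_lit 2) (nat_lit 4) (nat_lit 332) (nat_lit 225) (nat_lit 163)))) (XT.nd (nat_lit 32448) (nat_lit 0) (nat_lit 304) (XT.lf (nat_lit 0) (nat_lit 1599114181954) (nat_lit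 76) (nat_lit 182117855235) (nat_lit 76) (nat_lit 176538546065) (nat_lit 1) (nat_lit 4) (nat_lit 2) (nat_lit 5) (nat_lit 2) (nat_lit 4) (nat_lit 333) (nat_lit 225) (nat_lit 162)) (XT.nd (nat_lit 78) (nat_lit 0) (nat_lit 0) (XT.lf (nat_lit 0) (nat_lit 152774441) (nat_lit 152) (nat_lit 7642487379) (nat_lit 0) (nat_lit 152774441) (nat_lit 5) (nat_lit 5) (nat_lit 7) (nat_lit 4) (nat_lit 5) (nat_lit 4) (nat_lit 268) (nat_lit 226) (nat_lit 226)) (XT.lf (nat_lit 0) (nat_lit 3331559371) (nat_lit 152) (nat_lit 10690422689) (nat_lit 0) (nat_lit 2845698017) (nat_lit 5) (nat_lit 5) (nat_lit 7) (nat_lit 4) (nat_lit 5) (nat_lit 4) (nat_lit 269) (nat_lit 226) (nat_lit 225))))))) (XT.nd (nat_lit 858) (nat_lit 76) (nat_lit 0) (XT.nd (nat_lit 390) (nat_lit 152) (nat_lit 0) (XT.nd (nat_lit 156) (nat_lit 76) (nat_lit 0) (XT.nd (nat_lit 78) (nat_lit 0) (nat_lit 0) (XT.lf (nat_lit 0) (nat_lit 6427716864)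 (nat_lit 152) (nat_lit 6011946587) (nat_lit 0) (nat_lit 5491983885) (nat_lit 5) (nat_lit 5) (nat_lit 7) (nat_lit 4) (nat_lit 5) (nat_lit 4) (nat_lit 270) (nat_lit 226) (nat_lit 224)) (XT.lf (nat_lit 0) (nat_lit 9612368960) (nat_lit 152) (nat_lit 1221822151) (nat_lit 0) (nat_lit 8260088181) (nat_lit 5) (nat_lit 5) (nat_lit 7) (nat_lit 4) (nat_lit 5) (nat_lit 4) (nat_lit 271) (nat_lit 226) (nat_lit 223))) (XT.nd (nat_lit 78) (nat_lit 0) (nat_lit 0) (XT.lf (nat_lit 0) (nat_lit 3903610971) (nat_lit 76) (nat_lit 9094658637) (nat_lit 76) (nat_lit 7356685451) (nat_lit 4) (nat_lit 4) (nat_lit 5) (nat_lit 5) (nat_lit 5) (nat_lit 4) (nat_lit 272) (nat_lit 226) (nat_lit 222)) (XT.nd (nat_lit 78) (nat_lit 0) (nat_lit 0) (XT.lf (nat_lit 0) (nat_lit 9271545503) (nat_lit 76) (nat_lit 7274716647) (nat_lit 76) (nat_lit 5179620861) (nat_lit 4) (nat_lit 4) (nat_lit 5) (nat_lit 5) (nat_lit 5) (nat_lit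 4) (nat_lit 273) (nat_lit 226) (nat_lit 221)) (XT.lf (nat_lit 0) (nat_lit 14849452435) (nat_lit 76) (nat_lit 5396987083) (nat_lit 76) (nat_lit 2971222223) (nat_lit 4) (nat_lit 4) (nat_lit 5) (nat_lit 5) (nat_lit 5) (nat_lit 4) (nat_lit 274) (nat_lit 226) (nat_lit 220))))) (XT.nd (nat_lit 234) (nat_lit 0) (nat_lit 0) (XT.nd (nat_lit 78) (nat_lit 152) (nat_lit 0) (XT.lf (nat_lit 0) (nat_lit 20670386030) (nat_lit 76) (nat_lit 3450342658) (nat_lit 76) (nat_lit 718402730) (nat_lit 4) (nat_lit 4) (nat_lit 5) (nat_lit 5) (nat_lit 5) (nat_lit 4) (nat_lit 275) (nat_lit 226) (nat_lit 219)) (XT.nd (nat_lit 78) (nat_lit 0) (nat_lit 0) (XT.lf (nat_lit 0) (nat_lit 137527486) (nat_lit 76) (nat_lit 1378320036) (nat_lit 152) (nat_lit 25080725256) (nat_lit 2) (nat_lit 5) (nat_lit 3) (nat_lit 5) (nat_lit 4) (nat_lit 4) (nat_lit 276) (nat_lit 226) (nat_lit 218)) (XT.lf (nat_lit 0) (nat_lit 3913492989)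 (nat_lit 152) (nat_lit 23699848185) (nat_lit 0) (nat_lit 878371569) (nat_lit 2) (nat_lit 5) (nat_lit 4) (nat_lit 4) (nat_lit 2) (nat_lit 4) (nat_lit 277) (nat_lit 226) (nat_lit 217)))) (XT.nd (nat_lit 78) (nat_lit 0) (nat_lit 0) (XT.lf (nat_lit 0) (nat_lit 6433061752) (nat_lit 152) (nat_lit 20938539117) (nat_lit 0) (nat_lit 3172892517) (nat_lit 2) (nat_lit 5) (nat_lit 4) (nat_lit 4) (nat_lit 2) (nat_lit 4) (nat_lit 278) (nat_lit 226) (nat_lit 216)) (XT.nd (nat_lit 78) (nat_lit 0) (nat_lit 0) (XT.lf (nat_lit 0) (nat_lit 9056335961) (nat_lit 152) (nat_lit 18125606147) (nat_lit 0) (nat_lit 5587789118) (nat_lit 2) (nat_lit 5) (nat_lit 4) (nat_lit 4) (nat_lit 2) (nat_lit 4) (nat_lit 279) (nat_lit 226) (nat_lit 215)) (XT.lf (nat_lit 0) (nat_lit 11798860943) (nat_lit 152) (nat_lit 15244380041) (nat_lit 0) (nat_lit 8137371872) (nat_lit 2) (nat_lit 5) (nat_lit 4) (nat_lit 4) (nat_lit 2) (nat_lit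 4) (nat_lit 280) (nat_lit 226) (nat_lit 214)))))) (XT.nd (nat_lit 390) (nat_lit 0) (nat_lit 0) (XT.nd (nat_lit 156) (nat_lit 76) (nat_lit 0) (XT.nd (nat_lit 78) (nat_lit 0) (nat_lit 0) (XT.lf (nat_lit 0) (nat_lit 14676888698) (nat_lit 152) (nat_lit 12277786868) (nat_lit 0) (nat_lit 10836749416) (nat_lit 2) (nat_lit 5) (nat_lit 4) (nat_lit 4) (nat_lit 2) (nat_lit 4) (nat_lit 281) (nat_lit 226) (nat_lit 213)) (XT.lf (nat_lit 0) (nat_lit 17707474206) (nat_lit 152) (nat_lit 9208246816) (nat_lit 0) (nat_lit 13701918062) (nat_lit 2) (nat_lit 5) (nat_lit 4) (nat_lit 4) (nat_lit 2) (nat_lit 4) (nat_lit 282) (nat_lit 226) (nat_lit 212))) (XT.nd (nat_lit 78) (nat_lit 76) (nat_lit 0) (XT.lf (nat_lit 0) (nat_lit 20908576493) (nat_lit 152) (nat_lit 6017570018) (nat_lit 0) (nat_lit 16749856586) (nat_lit 2) (nat_lit 5) (nat_lit 4) (nat_lit 4) (nat_lit 2) (nat_lit 4) (nat_lit 283) (nat_lit 226) (nat_lit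 211)) (XT.nd (nat_lit 78) (nat_lit 76) (nat_lit 0) (XT.lf (nat_lit 0) (nat_lit 24299165052) (nat_lit 152) (nat_lit 2686848760) (nat_lit 0) (nat_lit 19998626848) (nat_lit 2) (nat_lit 5) (nat_lit 4) (nat_lit 4) (nat_lit 2) (nat_lit 4) (nat_lit 284) (nat_lit 226) (nat_lit 210)) (XT.lf (nat_lit 0) (nat_lit 845973590) (nat_lit 76) (nat_lit 27073704356) (nat_lit 76) (nat_lit 22641852913) (nat_lit 1) (nat_lit 4) (nat_lit 2) (nat_lit 5) (nat_lit 2) (nat_lit 4) (nat_lit 285) (nat_lit 226) (nat_lit 209))))) (XT.nd (nat_lit 234) (nat_lit 0) (nat_lit 0) (XT.nd (nat_lit 78) (nat_lit 0) (nat_lit 0) (XT.lf (nat_lit 0) (nat_lit 4710250215) (nat_lit 76) (nat_lit 27133443860) (nat_lit 76) (nat_lit 22580006085) (nat_lit 1) (nat_lit 4) (nat_lit 2) (nat_lit 5) (nat_lit 2) (nat_lit 4) (nat_lit 286) (nat_lit 226) (nat_lit 208)) (XT.nd (nat_lit 78) (nat_lit 0) (nat_lit 0) (XT.lf (nat_lit 0) (nat_lit 8787395837)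 (nat_lit 76) (nat_lit 27239049543) (nat_lit 76) (nat_lit 22573031830) (nat_lit 1) (nat_lit 4) (nat_lit 2) (nat_lit 5) (nat_lit 2) (nat_lit 4) (nat_lit 287) (nat_lit 226) (nat_lit 207)) (XT.lf (nat_lit 0) (nat_lit 13101571319) (nat_lit 76) (nat_lit 27391147216) (nat_lit 76) (nat_lit 22620888821) (nat_lit 1) (nat_lit 4) (nat_lit 2) (nat_lit 5) (nat_lit 2) (nat_lit 4) (nat_lit 288) (nat_lit 226) (nat_lit 206)))) (XT.nd (nat_lit 78) (nat_lit 0) (nat_lit 0) (XT.lf (nat_lit 0) (nat_lit 17678342144) (nat_lit 76) (nat_lit 27590638200) (nat_lit 76) (nat_lit 22723860654) (nat_lit 1) (nat_lit 4) (nat_lit 2) (nat_lit 5) (nat_lit 2) (nat_lit 4) (nat_lit 289) (nat_lit 226) (nat_lit 205)) (XT.nd (nat_lit 78) (nat_lit 0) (nat_lit 0) (XT.lf (nat_lit 0) (nat_lit 22544829919) (nat_lit 76) (nat_lit 27838704663) (nat_lit 76) (nat_lit 22882557533) (nat_lit 1) (nat_lit 4) (nat_lit 2) (nat_lit 5) (nat_lit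 2) (nat_lit 4) (nat_lit 290) (nat_lit 226) (nat_lit 204)) (XT.lf (nat_lit 0) (nat_lit 27729873088) (nat_lit 76) (nat_lit 28136816628) (nat_lit 76) (nat_lit 23097919883) (nat_lit 1) (nat_lit 4) (nat_lit 2) (nat_lit 5) (nat_lit 2) (nat_lit 4) (nat_lit 291) (nat_lit 226) (nat_lit 203))))))))
noncomputable def xc25 : XT := (XT.nd (nat_lit 1716) (nat_lit 0) (nat_lit 0) (XT.nd (nat_lit 858) (nat_lit 0) (nat_lit 0) (XT.nd (nat_lit 390) (nat_lit 0) (nat_lit 0) (XT.nd (nat_lit 156) (nat_lit 0) (nat_lit 0) (XT.nd (nat_lit 78) (nat_lit 0) (nat_lit 0) (XT.lf (nat_lit 0) (nat_lit 33264197834) (nat_lit 76) (nat_lit 28486740684) (nat_lit 76) (nat_lit 23371223927) (nat_lit 1) (nat_lit 4) (nat_lit 2) (nat_lit 5) (nat_lit 2) (nat_lit 4) (nat_lit 292) (nat_lit 226) (nat_lit 202)) (XT.lf (nat_lit 0) (nat_lit 39180600155) (nat_lit 76) (nat_lit 28890550457) (nat_lit 76) (nat_lit 23704089242) (nat_lit 1)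 (nat_lit 4) (nat_lit 2) (nat_lit 5) (nat_lit 2) (nat_lit 4) (nat_lit 293) (nat_lit 226) (nat_lit 201))) (XT.nd (nat_lit 78) (nat_lit 0) (nat_lit 0) (XT.lf (nat_lit 0) (nat_lit 45514140214) (nat_lit 76) (nat_lit 29350638892) (nat_lit 76) (nat_lit 24098488365) (nat_lit 1) (nat_lit 4) (nat_lit 2) (nat_lit 5) (nat_lit 2) (nat_lit 4) (nat_lit 294) (nat_lit 226) (nat_lit 200)) (XT.nd (nat_lit 78) (nat_lit 0) (nat_lit 0) (XT.lf (nat_lit 0) (nat_lit 52302350098) (nat_lit 76) (nat_lit 29869732440) (nat_lit 76) (nat_lit 24556758476) (nat_lit 1) (nat_lit 4) (nat_lit 2) (nat_lit 5) (nat_lit 2) (nat_lit 4) (nat_lit 295) (nat_lit 226) (nat_lit 199)) (XT.lf (nat_lit 0) (nat_lit 59585456238) (nat_lit 76) (nat_lit 30450907211) (nat_lit 76) (nat_lit 25081615249) (nat_lit 1) (nat_lit 4) (nat_lit 2) (nat_lit 5) (nat_lit 2) (nat_lit 4) (nat_lit 296) (nat_lit 226) (nat_lit 198))))) (XT.nd (nat_lit 234)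 (nat_lit 0) (nat_lit 0) (XT.nd (nat_lit 78) (nat_lit 0) (nat_lit 0) (XT.lf (nat_lit 0) (nat_lit 67406617781) (nat_lit 76) (nat_lit 31097607202) (nat_lit 76) (nat_lit 25676168947) (nat_lit 1) (nat_lit 4) (nat_lit 2) (nat_lit 5) (nat_lit 2) (nat_lit 4) (nat_lit 297) (nat_lit 226) (nat_lit 197)) (XT.nd (nat_lit 78) (nat_lit 0) (nat_lit 0) (XT.lf (nat_lit 0) (nat_lit 75812182350) (nat_lit 76) (nat_lit 31813664711) (nat_lit 76) (nat_lit 26343942851) (nat_lit 1) (nat_lit 4) (nat_lit 2) (nat_lit 5) (nat_lit 2) (nat_lit 4) (nat_lit 298) (nat_lit 226) (nat_lit 196)) (XT.lf (nat_lit 0) (nat_lit 84851960700) (nat_lit 76) (nat_lit 32603323041) (nat_lit 76) (nat_lit 27088894139) (nat_lit 1) (nat_lit 4) (nat_lit 2) (nat_lit 5) (nat_lit 2) (nat_lit 4) (nat_lit 299) (nat_lit 226) (nat_lit 195)))) (XT.nd (nat_lit 78) (nat_lit 0) (nat_lit 0) (XT.lf (nat_lit 0) (nat_lit 94579521885) (nat_lit 76) (nat_lit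 33471261650) (nat_lit 76) (nat_lit 27915437338) (nat_lit 1) (nat_lit 4) (nat_lit 2) (nat_lit 5) (nat_lit 2) (nat_lit 4) (nat_lit 300) (nat_lit 226) (nat_lit 194)) (XT.nd (nat_lit 78) (nat_lit 0) (nat_lit 0) (XT.lf (nat_lit 0) (nat_lit 105052510715) (nat_lit 76) (nat_lit 34422623876) (nat_lit 76) (nat_lit 28828470482) (nat_lit 1) (nat_lit 4) (nat_lit 2) (nat_lit 5) (nat_lit 2) (nat_lit 4) (nat_lit 301) (nat_lit 226) (nat_lit 193)) (XT.lf (nat_lit 0) (nat_lit 116332989344) (nat_lit 76) (nat_lit 35463047422) (nat_lit 76) (nat_lit 29833404136) (nat_lit 1) (nat_lit 4) (nat_lit 2) (nat_lit 5) (nat_lit 2) (nat_lit 4) (nat_lit 302) (nat_lit 226) (nat_lit 192)))))) (XT.nd (nat_lit 390) (nat_lit 0) (nat_lit 0) (XT.nd (nat_lit 156) (nat_lit 0) (nat_lit 0) (XT.nd (nat_lit 78) (nat_lit 0) (nat_lit 0) (XT.lf (nat_lit 0) (nat_lit 128487805054) (nat_lit 76) (nat_lit 36598697761) (nat_lit 76) (nat_lit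 30936193465) (nat_lit 1) (nat_lit 4) (nat_lit 2) (nat_lit 5) (nat_lit 2) (nat_lit 4) (nat_lit 303) (nat_lit 226) (nat_lit 191)) (XT.lf (nat_lit 0) (nat_lit 141588986381) (nat_lit 76) (nat_lit 37836304672) (nat_lit 76) (nat_lit 32143373514) (nat_lit 1) (nat_lit 4) (nat_lit 2) (nat_lit 5) (nat_lit 2) (nat_lit 4) (nat_lit 304) (nat_lit 226) (nat_lit 190))) (XT.nd (nat_lit 78) (nat_lit 0) (nat_lit 0) (XT.lf (nat_lit 0) (nat_lit 155714169957) (nat_lit 76) (nat_lit 39183202123) (nat_lit 76) (nat_lit 33462097945) (nat_lit 1) (nat_lit 4) (nat_lit 2) (nat_lit 5) (nat_lit 2) (nat_lit 4) (nat_lit 305) (nat_lit 226) (nat_lit 189)) (XT.nd (nat_lit 78) (nat_lit 0) (nat_lit 0) (XT.lf (nat_lit 0) (nat_lit 170947060572) (nat_lit 76) (nat_lit 40647371728) (nat_lit 76) (nat_lit 34900181421) (nat_lit 1) (nat_lit 4) (nat_lit 2) (nat_lit 5) (nat_lit 2) (nat_lit 4) (nat_lit 306) (nat_lit 226) (nat_lit 188))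 (XT.lf (nat_lit 0) (nat_lit 187377927208) (nat_lit 76) (nat_lit 42237490048) (nat_lit 76) (nat_lit 36466145917) (nat_lit 1) (nat_lit 4) (nat_lit 2) (nat_lit 5) (nat_lit 2) (nat_lit 4) (nat_lit 307) (nat_lit 226) (nat_lit 187))))) (XT.nd (nat_lit 234) (nat_lit 0) (nat_lit 0) (XT.nd (nat_lit 78) (nat_lit 0) (nat_lit 0) (XT.lf (nat_lit 0) (nat_lit 205104137964) (nat_lit 76) (nat_lit 43962980005) (nat_lit 76) (nat_lit 38169271223) (nat_lit 1) (nat_lit 4) (nat_lit 2) (nat_lit 5) (nat_lit 2) (nat_lit 4) (nat_lit 308) (nat_lit 226) (nat_lit 186)) (XT.nd (nat_lit 78) (nat_lit 0) (nat_lit 0) (XT.lf (nat_lit 0) (nat_lit 224230737051) (nat_lit 76) (nat_lit 45834066727) (nat_lit 76) (nat_lit 40019649933) (nat_lit 1) (nat_lit 4) (nat_lit 2) (nat_lit 5) (nat_lit 2) (nat_lit 4) (nat_lit 309) (nat_lit 226) (nat_lit 185)) (XT.lf (nat_lit 0) (nat_lit 244871067280) (nat_lit 76) (nat_lit 47861838133)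 (nat_lit 76) (nat_lit 42028247255) (nat_lit 1) (nat_lit 4) (nat_lit 2) (nat_lit 5) (nat_lit 2) (nat_lit 4) (nat_lit 310) (nat_lit 226) (nat_lit 184)))) (XT.nd (nat_lit 78) (nat_lit 0) (nat_lit 0) (XT.lf (nat_lit 0) (nat_lit 267147441717) (nat_lit 76) (nat_lit 50058310647) (nat_lit 76) (nat_lit 44206965988) (nat_lit 1) (nat_lit 4) (nat_lit 2) (nat_lit 5) (nat_lit 2) (nat_lit 4) (nat_lit 311) (nat_lit 226) (nat_lit 183)) (XT.nd (nat_lit 78) (nat_lit 0) (nat_lit 0) (XT.lf (nat_lit 0) (nat_lit 291191868508) (nat_lit 76) (nat_lit 52436500403) (nat_lit 76) (nat_lit 46568717058) (nat_lit 1) (nat_lit 4) (nat_lit 2) (nat_lit 5) (nat_lit 2) (nat_lit 4) (nat_lit 312) (nat_lit 226) (nat_lit 182)) (XT.lf (nat_lit 0) (nat_lit 317146833145) (nat_lit 76) (nat_lit 55010500377) (nat_lit 76) (nat_lit 49127496025) (nat_lit 1) (nat_lit 4) (nat_lit 2) (nat_lit 5) (nat_lit 2) (nat_lit 4) (nat_lit 313) (nat_lit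 226) (nat_lit 181))))))) (XT.nd (nat_lit 858) (nat_lit 0) (nat_lit 0) (XT.nd (nat_lit 390) (nat_lit 0) (nat_lit 0) (XT.nd (nat_lit 156) (nat_lit 0) (nat_lit 0) (XT.nd (nat_lit 78) (nat_lit 0) (nat_lit 0) (XT.lf (nat_lit 0) (nat_lit 345166142826) (nat_lit 76) (nat_lit 57795563902) (nat_lit 76) (nat_lit 51898466026) (nat_lit 1) (nat_lit 4) (nat_lit 2) (nat_lit 5) (nat_lit 2) (nat_lit 4) (nat_lit 314) (nat_lit 226) (nat_lit 180)) (XT.lf (nat_lit 0) (nat_lit 375415837904) (nat_lit 76) (nat_lit 60808195058) (nat_lit 76) (nat_lit 54898047623) (nat_lit 1) (nat_lit 4) (nat_lit 2) (nat_lit 5) (nat_lit 2) (nat_lit 4) (nat_lit 315) (nat_lit 226) (nat_lit 179))) (XT.nd (nat_lit 78) (nat_lit 0) (nat_lit 0) (XT.lf (nat_lit 0) (nat_lit 408075175831) (nat_lit 76) (nat_lit 64066246474) (nat_lit 76) (nat_lit 58144016114) (nat_lit 1) (nat_lit 4) (nat_lit 2) (nat_lit 5) (nat_lit 2) (nat_lit 4) (nat_lit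 316) (nat_lit 226) (nat_lit 178)) (XT.nd (nat_lit 78) (nat_lit 0) (nat_lit 0) (XT.lf (nat_lit 0) (nat_lit 443337693426) (nat_lit 76) (nat_lit 67589025122) (nat_lit 76) (nat_lit 61655606868) (nat_lit 1) (nat_lit 4) (nat_lit 2) (nat_lit 5) (nat_lit 2) (nat_lit 4) (nat_lit 317) (nat_lit 226) (nat_lit 177)) (XT.lf (nat_lit 0) (nat_lit 481412353755) (nat_lit 76) (nat_lit 71397406727) (nat_lit 76) (nat_lit 65453629312) (nat_lit 1) (nat_lit 4) (nat_lit 2) (nat_lit 5) (nat_lit 2) (nat_lit 4) (nat_lit 318) (nat_lit 226) (nat_lit 176))))) (XT.nd (nat_lit 234) (nat_lit 0) (nat_lit 0) (XT.nd (nat_lit 78) (nat_lit 0) (nat_lit 0) (XT.lf (nat_lit 0) (nat_lit 522524784435) (nat_lit 76) (nat_lit 75513959477) (nat_lit 76) (nat_lit 69560590246) (nat_lit 1) (nat_lit 4) (nat_lit 2) (nat_lit 5) (nat_lit 2) (nat_lit 4) (nat_lit 319) (nat_lit 226) (nat_lit 175)) (XT.nd (nat_lit 78) (nat_lit 0) (nat_lit 0)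 (XT.lf (nat_lit 0) (nat_lit 566918614685) (nat_lit 76) (nat_lit 79963077757) (nat_lit 76) (nat_lit 74000827215) (nat_lit 1) (nat_lit 4) (nat_lit 2) (nat_lit 5) (nat_lit 2) (nat_lit 4) (nat_lit 320) (nat_lit 226) (nat_lit 174)) (XT.lf (nat_lit 0) (nat_lit 614856919054) (nat_lit 76) (nat_lit 84771126713) (nat_lit 76) (nat_lit 78800652735) (nat_lit 1) (nat_lit 4) (nat_lit 2) (nat_lit 5) (nat_lit 2) (nat_lit 4) (nat_lit 321) (nat_lit 226) (nat_lit 173)))) (XT.nd (nat_lit 78) (nat_lit 0) (nat_lit 0) (XT.lf (nat_lit 0) (nat_lit 666623776384) (nat_lit 76) (nat_lit 89966598488) (nat_lit 76) (nat_lit 83988510218) (nat_lit 1) (nat_lit 4) (nat_lit 2) (nat_lit 5) (nat_lit 2) (nat_lit 4) (nat_lit 322) (nat_lit 226) (nat_lit 172)) (XT.nd (nat_lit 78) (nat_lit 0) (nat_lit 0) (XT.lf (nat_lit 0) (nat_lit 722525953235) (nat_lit 76) (nat_lit 95580281062) (nat_lit 76) (nat_lit 89595142521) (nat_lit 1)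 (nat_lit 4) (nat_lit 2) (nat_lit 5) (nat_lit 2) (nat_lit 4) (nat_lit 323) (nat_lit 226) (nat_lit 171)) (XT.lf (nat_lit 0) (nat_lit 782894721768) (nat_lit 76) (nat_lit 101645440702) (nat_lit 76) (nat_lit 95653774132) (nat_lit 1) (nat_lit 4) (nat_lit 2) (nat_lit 5) (nat_lit 2) (nat_lit 4) (nat_lit 324) (nat_lit 226) (nat_lit 170)))))) (XT.nd (nat_lit 390) (nat_lit 0) (nat_lit 0) (XT.nd (nat_lit 156) (nat_lit 0) (nat_lit 0) (XT.nd (nat_lit 78) (nat_lit 0) (nat_lit 0) (XT.lf (nat_lit 0) (nat_lit 848087822833) (nat_lit 76) (nat_lit 108198019095) (nat_lit 76) (nat_lit 102200308054) (nat_lit 1) (nat_lit 4) (nat_lit 2) (nat_lit 5) (nat_lit 2) (nat_lit 4) (nat_lit 325) (nat_lit 226) (nat_lit 169)) (XT.lf (nat_lit 0) (nat_lit 918491585917) (nat_lit 76) (nat_lit 115276846335) (nat_lit 76) (nat_lit 109273538562) (nat_lit 1) (nat_lit 4) (nat_lit 2) (nat_lit 5) (nat_lit 2) (nat_lit 4) (nat_lit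 326) (nat_lit 226) (nat_lit 168))) (XT.nd (nat_lit 78) (nat_lit 0) (nat_lit 0) (XT.lf (nat_lit 0) (nat_lit 994523218506) (nat_lit 76) (nat_lit 122923871028) (nat_lit 76) (nat_lit 116915381096) (nat_lit 1) (nat_lit 4) (nat_lit 2) (nat_lit 5) (nat_lit 2) (nat_lit 4) (nat_lit 327) (nat_lit 226) (nat_lit 167)) (XT.nd (nat_lit 78) (nat_lit 0) (nat_lit 0) (XT.lf (nat_lit 0) (nat_lit 1076633278423) (nat_lit 76) (nat_lit 131184408877) (nat_lit 76) (nat_lit 125171120648) (nat_lit 1) (nat_lit 4) (nat_lit 2) (nat_lit 5) (nat_lit 2) (nat_lit 4) (nat_lit 328) (nat_lit 226) (nat_lit 166)) (XT.lf (nat_lit 0) (nat_lit 1165308343799) (nat_lit 76) (nat_lit 140107411215) (nat_lit 76) (nat_lit 134089680120) (nat_lit 1) (nat_lit 4) (nat_lit 2) (nat_lit 5) (nat_lit 2) (nat_lit 4) (nat_lit 329) (nat_lit 226) (nat_lit 165))))) (XT.nd (nat_lit 32526) (nat_lit 0) (nat_lit 304) (XT.nd (nat_lit 78) (nat_lit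 0) (nat_lit 0) (XT.lf (nat_lit 0) (nat_lit 1261073896505) (nat_lit 76) (nat_lit 149745755095) (nat_lit 76) (nat_lit 143723910234) (nat_lit 1) (nat_lit 4) (nat_lit 2) (nat_lit 5) (nat_lit 2) (nat_lit 4) (nat_lit 330) (nat_lit 226) (nat_lit 164)) (XT.nd (nat_lit 78) (nat_lit 0) (nat_lit 0) (XT.lf (nat_lit 0) (nat_lit 1364497436111) (nat_lit 76) (nat_lit 160156556628) (nat_lit 76) (nat_lit 154130902725) (nat_lit 1) (nat_lit 4) (nat_lit 2) (nat_lit 5) (nat_lit 2) (nat_lit 4) (nat_lit 331) (nat_lit 226) (nat_lit 163)) (XT.lf (nat_lit 0) (nat_lit 1476191842853) (nat_lit 76) (nat_lit 171401509452) (nat_lit 76) (nat_lit 165372328659) (nat_lit 1) (nat_lit 4) (nat_lit 2) (nat_lit 5) (nat_lit 2) (nat_lit 4) (nat_lit 332) (nat_lit 226) (nat_lit 162)))) (XT.nd (nat_lit 78) (nat_lit 152) (nat_lit 0) (XT.lf (nat_lit 0) (nat_lit 2220089243) (nat_lit 152) (nat_lit 2430034155) (nat_lit 152) (nat_lit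 2430034155) (nat_lit 7) (nat_lit 4) (nat_lit 9) (nat_lit 5) (nat_lit 9) (nat_lit 4) (nat_lit 266) (nat_lit 227) (nat_lit 227)) (XT.nd (nat_lit 78) (nat_lit 152) (nat_lit 0) (XT.lf (nat_lit 0) (nat_lit 10302352198) (nat_lit 152) (nat_lit 2628327338) (nat_lit 152) (nat_lit 2061618654) (nat_lit 7) (nat_lit 4) (nat_lit 9) (nat_lit 5) (nat_lit 9) (nat_lit 4) (nat_lit 267) (nat_lit 227) (nat_lit 226)) (XT.lf (nat_lit 0) (nat_lit 464049043) (nat_lit 76) (nat_lit 283781720) (nat_lit 152) (nat_lit 15155292680) (nat_lit 5) (nat_lit 5) (nat_lit 6) (nat_lit 5) (nat_lit 7) (nat_lit 4) (nat_lit 268) (nat_lit 227) (nat_lit 225))))))))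
noncomputable def xc26 : XT := (XT.nd (nat_lit 1716) (nat_lit 0) (nat_lit 0) (XT.nd (nat_lit 858) (nat_lit 76) (nat_lit 0) (XT.nd (nat_lit 390) (nat_lit 152) (nat_lit 0) (XT.nd (nat_lit 156) (nat_lit 76) (nat_lit 0) (XT.nd (nat_lit 78) (nat_lit 0) (nat_lit 0) (XT.lf (nat_lit 0) (nat_lit 3684355798) (nat_lit 152) (nat_lit 10974062822) (nat_lit 0) (nat_lit 2223892557) (nat_lit 5) (nat_lit 5) (nat_lit 7) (nat_lit 4) (nat_lit 5) (nat_lit 4) (nat_lit 269) (nat_lit 227) (nat_lit 224)) (XT.lf (nat_lit 0) (nat_lit 6703975792) (nat_lit 152) (nat_lit 6421851026) (nat_lit 0) (nat_lit 4826964751) (nat_lit 5) (nat_lit 5) (nat_lit 7) (nat_lit 4) (nat_lit 5) (nat_lit 4) (nat_lit 270) (nat_lit 227) (nat_lit 223))) (XT.nd (nat_lit 78) (nat_lit 76) (nat_lit 0) (XT.lf (nat_lit 0) (nat_lit 9817759835) (nat_lit 152) (nat_lit 1748637983) (nat_lit 0) (nat_lit 7555056386) (nat_lit 5) (nat_lit 5) (nat_lit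 7) (nat_lit 4) (nat_lit 5) (nat_lit 4) (nat_lit 271) (nat_lit 227) (nat_lit 222)) (XT.nd (nat_lit 78) (nat_lit 0) (nat_lit 0) (XT.lf (nat_lit 0) (nat_lit 3235102341) (nat_lit 76) (nat_lit 9886861926) (nat_lit 76) (nat_lit 7267035877) (nat_lit 4) (nat_lit 4) (nat_lit 5) (nat_lit 5) (nat_lit 5) (nat_lit 4) (nat_lit 272) (nat_lit 227) (nat_lit 221)) (XT.lf (nat_lit 0) (nat_lit 8497526121) (nat_lit 76) (nat_lit 8109135217) (nat_lit 76) (nat_lit 5158640095) (nat_lit 4) (nat_lit 4) (nat_lit 5) (nat_lit 5) (nat_lit 5) (nat_lit 4) (nat_lit 273) (nat_lit 227) (nat_lit 220))))) (XT.nd (nat_lit 234) (nat_lit 76) (nat_lit 0) (XT.nd (nat_lit 78) (nat_lit 76) (nat_lit 0) (XT.lf (nat_lit 0) (nat_lit 13977737913) (nat_lit 76) (nat_lit 6270493876) (nat_lit 76) (nat_lit 3013823686) (nat_lit 4) (nat_lit 4) (nat_lit 5) (nat_lit 5) (nat_lit 5) (nat_lit 4) (nat_lit 274) (nat_lit 227) (nat_lit 219)) (XT.nd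 (nat_lit 78) (nat_lit 76) (nat_lit 0) (XT.lf (nat_lit 0) (nat_lit 19708213047) (nat_lit 76) (nat_lit 4360042251) (nat_lit 76) (nat_lit 819876626) (nat_lit 4) (nat_lit 4) (nat_lit 5) (nat_lit 5) (nat_lit 5) (nat_lit 4) (nat_lit 275) (nat_lit 227) (nat_lit 218)) (XT.lf (nat_lit 0) (nat_lit 1364357596) (nat_lit 152) (nat_lit 964797595) (nat_lit 76) (nat_lit 24321248341) (nat_lit 3) (nat_lit 5) (nat_lit 5) (nat_lit 5) (nat_lit 4) (nat_lit 4) (nat_lit 276) (nat_lit 227) (nat_lit 217)))) (XT.nd (nat_lit 78) (nat_lit 0) (nat_lit 0) (XT.lf (nat_lit 0) (nat_lit 3578234069) (nat_lit 76) (nat_lit 87125116) (nat_lit 152) (nat_lit 24888126598) (nat_lit 2) (nat_lit 5) (nat_lit 3) (nat_lit 5) (nat_lit 4) (nat_lit 4) (nat_lit 277) (nat_lit 227) (nat_lit 216)) (XT.nd (nat_lit 78) (nat_lit 0) (nat_lit 0) (XT.lf (nat_lit 0) (nat_lit 6135784483) (nat_lit 152) (nat_lit 22293232296) (nat_lit 0) (nat_lit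 2181376287) (nat_lit 2) (nat_lit 5) (nat_lit 4) (nat_lit 4) (nat_lit 2) (nat_lit 4) (nat_lit 278) (nat_lit 227) (nat_lit 215)) (XT.lf (nat_lit 0) (nat_lit 8715495632) (nat_lit 152) (nat_lit 19555655817) (nat_lit 0) (nat_lit 4568145208) (nat_lit 2) (nat_lit 5) (nat_lit 4) (nat_lit 4) (nat_lit 2) (nat_lit 4) (nat_lit 279) (nat_lit 227) (nat_lit 214)))))) (XT.nd (nat_lit 390) (nat_lit 76) (nat_lit 0) (XT.nd (nat_lit 156) (nat_lit 0) (nat_lit 0) (XT.nd (nat_lit 78) (nat_lit 0) (nat_lit 0) (XT.lf (nat_lit 0) (nat_lit 11417684449) (nat_lit 152) (nat_lit 16744204241) (nat_lit 0) (nat_lit 7091683812) (nat_lit 2) (nat_lit 5) (nat_lit 4) (nat_lit 4) (nat_lit 2) (nat_lit 4) (nat_lit 280) (nat_lit 227) (nat_lit 213)) (XT.lf (nat_lit 0) (nat_lit 14258363902) (nat_lit 152) (nat_lit 13842217114) (nat_lit 0) (nat_lit 9766946403) (nat_lit 2) (nat_lit 5) (nat_lit 4) (nat_lit 4) (nat_lit 2) (nat_lit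 4) (nat_lit 281) (nat_lit 227) (nat_lit 212))) (XT.nd (nat_lit 78) (nat_lit 0) (nat_lit 0) (XT.lf (nat_lit 0) (nat_lit 17254367650) (nat_lit 152) (nat_lit 10832497474) (nat_lit 0) (nat_lit 12609786389) (nat_lit 2) (nat_lit 5) (nat_lit 4) (nat_lit 4) (nat_lit 2) (nat_lit 4) (nat_lit 282) (nat_lit 227) (nat_lit 211)) (XT.nd (nat_lit 78) (nat_lit 0) (nat_lit 0) (XT.lf (nat_lit 0) (nat_lit 20423449787) (nat_lit 152) (nat_lit 7697209947) (nat_lit 0) (nat_lit 15637050229) (nat_lit 2) (nat_lit 5) (nat_lit 4) (nat_lit 4) (nat_lit 2) (nat_lit 4) (nat_lit 283) (nat_lit 227) (nat_lit 210)) (XT.lf (nat_lit 0) (nat_lit 23784390061) (nat_lit 152) (nat_lit 4417775051) (nat_lit 0) (nat_lit 18866677263) (nat_lit 2) (nat_lit 5) (nat_lit 4) (nat_lit 4) (nat_lit 2) (nat_lit 4) (nat_lit 284) (nat_lit 227) (nat_lit 209))))) (XT.nd (nat_lit 234) (nat_lit 0) (nat_lit 0) (XT.nd (nat_lit 78) (nat_lit 76) (nat_lit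 0) (XT.lf (nat_lit 0) (nat_lit 27357105153) (nat_lit 152) (nat_lit 974759097) (nat_lit 0) (nat_lit 22317806024) (nat_lit 2) (nat_lit 5) (nat_lit 4) (nat_lit 4) (nat_lit 2) (nat_lit 4) (nat_lit 285) (nat_lit 227) (nat_lit 208)) (XT.nd (nat_lit 78) (nat_lit 0) (nat_lit 0) (XT.lf (nat_lit 0) (nat_lit 2791903280) (nat_lit 76) (nat_lit 28438008770) (nat_lit 76) (nat_lit 23286129704) (nat_lit 1) (nat_lit 4) (nat_lit 2) (nat_lit 5) (nat_lit 2) (nat_lit 4) (nat_lit 286) (nat_lit 227) (nat_lit 207)) (XT.lf (nat_lit 0) (nat_lit 6826192272) (nat_lit 76) (nat_lit 28561904615) (nat_lit 76) (nat_lit 23305784866) (nat_lit 1) (nat_lit 4) (nat_lit 2) (nat_lit 5) (nat_lit 2) (nat_lit 4) (nat_lit 287) (nat_lit 227) (nat_lit 206)))) (XT.nd (nat_lit 78) (nat_lit 0) (nat_lit 0) (XT.lf (nat_lit 0) (nat_lit 11100685689) (nat_lit 76) (nat_lit 28730937623) (nat_lit 76) (nat_lit 23378298723) (nat_lit 1) (nat_lit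 4) (nat_lit 2) (nat_lit 5) (nat_lit 2) (nat_lit 4) (nat_lit 288) (nat_lit 227) (nat_lit 205)) (XT.nd (nat_lit 78) (nat_lit 0) (nat_lit 0) (XT.lf (nat_lit 0) (nat_lit 15640713862) (nat_lit 76) (nat_lit 28946109472) (nat_lit 76) (nat_lit 23504100989) (nat_lit 1) (nat_lit 4) (nat_lit 2) (nat_lit 5) (nat_lit 2) (nat_lit 4) (nat_lit 289) (nat_lit 227) (nat_lit 204)) (XT.lf (nat_lit 0) (nat_lit 20473180662) (nat_lit 76) (nat_lit 29208695255) (nat_lit 76) (nat_lit 23683937156) (nat_lit 1) (nat_lit 4) (nat_lit 2) (nat_lit 5) (nat_lit 2) (nat_lit 4) (nat_lit 290) (nat_lit 227) (nat_lit 203))))))) (XT.nd (nat_lit 858) (nat_lit 0) (nat_lit 0) (XT.nd (nat_lit 390) (nat_lit 0) (nat_lit 0) (XT.nd (nat_lit 156) (nat_lit 0) (nat_lit 0) (XT.nd (nat_lit 78) (nat_lit 0) (nat_lit 0) (XT.lf (nat_lit 0) (nat_lit 25626722929) (nat_lit 76) (nat_lit 29520251034) (nat_lit 76) (nat_lit 23918872922) (nat_lit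 1) (nat_lit 4) (nat_lit 2) (nat_lit 5) (nat_lit 2) (nat_lit 4) (nat_lit 291) (nat_lit 227) (nat_lit 202)) (XT.lf (nat_lit 0) (nat_lit 31131880173) (nat_lit 76) (nat_lit 29882623068) (nat_lit 76) (nat_lit 24210300499) (nat_lit 1) (nat_lit 4) (nat_lit 2) (nat_lit 5) (nat_lit 2) (nat_lit 4) (nat_lit 292) (nat_lit 227) (nat_lit 201))) (XT.nd (nat_lit 78) (nat_lit 0) (nat_lit 0) (XT.lf (nat_lit 0) (nat_lit 37021275547) (nat_lit 76) (nat_lit 30297958745) (nat_lit 76) (nat_lit 24559946864) (nat_lit 1) (nat_lit 4) (nat_lit 2) (nat_lit 5) (nat_lit 2) (nat_lit 4) (nat_lit 293) (nat_lit 227) (nat_lit 200)) (XT.nd (nat_lit 78) (nat_lit 0) (nat_lit 0) (XT.lf (nat_lit 0) (nat_lit 43329809174) (nat_lit 76) (nat_lit 30768719313) (nat_lit 76) (nat_lit 24969883995) (nat_lit 1) (nat_lit 4) (nat_lit 2) (nat_lit 5) (nat_lit 2) (nat_lit 4) (nat_lit 294) (nat_lit 227) (nat_lit 199)) (XT.lf (nat_lit 0) (nat_lit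 50094864955) (nat_lit 76) (nat_lit 31297694466) (nat_lit 76) (nat_lit 25442541151) (nat_lit 1) (nat_lit 4) (nat_lit 2) (nat_lit 5) (nat_lit 2) (nat_lit 4) (nat_lit 295) (nat_lit 227) (nat_lit 198))))) (XT.nd (nat_lit 234) (nat_lit 0) (nat_lit 0) (XT.nd (nat_lit 78) (nat_lit 0) (nat_lit 0) (XT.lf (nat_lit 0) (nat_lit 57356532110) (nat_lit 76) (nat_lit 31888018871) (nat_lit 76) (nat_lit 25980719262) (nat_lit 1) (nat_lit 4) (nat_lit 2) (nat_lit 5) (nat_lit 2) (nat_lit 4) (nat_lit 296) (nat_lit 227) (nat_lit 197)) (XT.nd (nat_lit 78) (nat_lit 0) (nat_lit 0) (XT.lf (nat_lit 0) (nat_lit 65157842741) (nat_lit 76) (nat_lit 32543190747) (nat_lit 76) (nat_lit 26587607532) (nat_lit 1) (nat_lit 4) (nat_lit 2) (nat_lit 5) (nat_lit 2) (nat_lit 4) (nat_lit 297) (nat_lit 227) (nat_lit 196)) (XT.lf (nat_lit 0) (nat_lit 73545026836) (nat_lit 76) (nat_lit 33267092592) (nat_lit 76) (nat_lit 27266802336)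 (nat_lit 1) (nat_lit 4) (nat_lit 2) (nat_lit 5) (nat_lit 2) (nat_lit 4) (nat_lit 298) (nat_lit 227) (nat_lit 195)))) (XT.nd (nat_lit 78) (nat_lit 0) (nat_lit 0) (XT.lf (nat_lit 0) (nat_lit 82567786228) (nat_lit 76) (nat_lit 34064014198) (nat_lit 76) (nat_lit 28022328532) (nat_lit 1) (nat_lit 4) (nat_lit 2) (nat_lit 5) (nat_lit 2) (nat_lit 4) (nat_lit 299) (nat_lit 227) (nat_lit 194)) (XT.nd (nat_lit 78) (nat_lit 0) (nat_lit 0) (XT.lf (nat_lit 0) (nat_lit 92279589120) (nat_lit 76) (nat_lit 34938678060) (nat_lit 76) (nat_lit 28858663312) (nat_lit 1) (nat_lit 4) (nat_lit 2) (nat_lit 5) (nat_lit 2) (nat_lit 4) (nat_lit 300) (nat_lit 227) (nat_lit 193)) (XT.lf (nat_lit 0) (nat_lit 102737986937) (nat_lit 76) (nat_lit 35896267374) (nat_lit 76) (nat_lit 29780762734) (nat_lit 1) (nat_lit 4) (nat_lit 2) (nat_lit 5) (nat_lit 2) (nat_lit 4) (nat_lit 301) (nat_lit 227) (nat_lit 192)))))) (XT.nd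 (nat_lit 390) (nat_lit 0) (nat_lit 0) (XT.nd (nat_lit 156) (nat_lit 0) (nat_lit 0) (XT.nd (nat_lit 78) (nat_lit 0) (nat_lit 0) (XT.lf (nat_lit 0) (nat_lit 114004955369) (nat_lit 76) (nat_lit 36942456741) (nat_lit 76) (nat_lit 30794091091) (nat_lit 1) (nat_lit 4) (nat_lit 2) (nat_lit 5) (nat_lit 2) (nat_lit 4) (nat_lit 302) (nat_lit 227) (nat_lit 191)) (XT.lf (nat_lit 0) (nat_lit 126147261637) (nat_lit 76) (nat_lit 38083445804) (nat_lit 76) (nat_lit 31904653292) (nat_lit 1) (nat_lit 4) (nat_lit 2) (nat_lit 5) (nat_lit 2) (nat_lit 4) (nat_lit 303) (nat_lit 227) (nat_lit 190))) (XT.nd (nat_lit 78) (nat_lit 0) (nat_lit 0) (XT.lf (nat_lit 0) (nat_lit 139236860148) (nat_lit 76) (nat_lit 39325995978) (nat_lit 76) (nat_lit 33119030446) (nat_lit 1) (nat_lit 4) (nat_lit 2) (nat_lit 5) (nat_lit 2) (nat_lit 4) (nat_lit 304) (nat_lit 227) (nat_lit 189)) (XT.nd (nat_lit 78) (nat_lit 0) (nat_lit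 0) (XT.lf (nat_lit 0) (nat_lit 153351318893) (nat_lit 76) (nat_lit 40677470524) (nat_lit 76) (nat_lit 34444418863) (nat_lit 1) (nat_lit 4) (nat_lit 2) (nat_lit 5) (nat_lit 2) (nat_lit 4) (nat_lit 305) (nat_lit 227) (nat_lit 188)) (XT.lf (nat_lit 0) (nat_lit 168574279111) (nat_lit 76) (nat_lit 42145878180) (nat_lit 76) (nat_lit 35888672695) (nat_lit 1) (nat_lit 4) (nat_lit 2) (nat_lit 5) (nat_lit 2) (nat_lit 4) (nat_lit 306) (nat_lit 227) (nat_lit 187))))) (XT.nd (nat_lit 234) (nat_lit 0) (nat_lit 0) (XT.nd (nat_lit 78) (nat_lit 0) (nat_lit 0) (XT.lf (nat_lit 0) (nat_lit 184995950934) (nat_lit 76) (nat_lit 43739920621) (nat_lit 76) (nat_lit 37460350485) (nat_lit 1) (nat_lit 4) (nat_lit 2) (nat_lit 5) (nat_lit 2) (nat_lit 4) (nat_lit 307) (nat_lit 227) (nat_lit 186)) (XT.nd (nat_lit 78) (nat_lit 0) (nat_lit 0) (XT.lf (nat_lit 0) (nat_lit 202713647974) (nat_lit 76) (nat_lit 45469044025)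 (nat_lit 76) (nat_lit 39168765877) (nat_lit 1) (nat_lit 4) (nat_lit 2) (nat_lit 5) (nat_lit 2) (nat_lit 4) (nat_lit 308) (nat_lit 227) (nat_lit 185)) (XT.lf (nat_lit 0) (nat_lit 221832363991) (nat_lit 76) (nat_lit 47343495048) (nat_lit 76) (nat_lit 41024042816) (nat_lit 1) (nat_lit 4) (nat_lit 2) (nat_lit 5) (nat_lit 2) (nat_lit 4) (nat_lit 309) (nat_lit 227) (nat_lit 184)))) (XT.nd (nat_lit 78) (nat_lit 0) (nat_lit 0) (XT.lf (nat_lit 0) (nat_lit 242465395080) (nat_lit 76) (nat_lit 49374381548) (nat_lit 76) (nat_lit 43037175535) (nat_lit 1) (nat_lit 4) (nat_lit 2) (nat_lit 5) (nat_lit 2) (nat_lit 4) (nat_lit 310) (nat_lit 227) (nat_lit 183)) (XT.nd (nat_lit 78) (nat_lit 0) (nat_lit 0) (XT.lf (nat_lit 0) (nat_lit 264735011055) (nat_lit 76) (nat_lit 51573738409) (nat_lit 76) (nat_lit 45220093709) (nat_lit 1) (nat_lit 4) (nat_lit 2) (nat_lit 5) (nat_lit 2) (nat_lit 4) (nat_lit 311) (nat_lit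 227) (nat_lit 182)) (XT.lf (nat_lit 0) (nat_lit 288773180011) (nat_lit 76) (nat_lit 53954598856) (nat_lit 76) (nat_lit 47585733150) (nat_lit 1) (nat_lit 4) (nat_lit 2) (nat_lit 5) (nat_lit 2) (nat_lit 4) (nat_lit 312) (nat_lit 227) (nat_lit 181))))))))
noncomputable def xc27 : XT := (XT.nd (nat_lit 33852) (nat_lit 0) (nat_lit 0) (XT.nd (nat_lit 858) (nat_lit 0) (nat_lit 0) (XT.nd (nat_lit 390) (nat_lit 0) (nat_lit 0) (XT.nd (nat_lit 156) (nat_lit 0) (nat_lit 0) (XT.nd (nat_lit 78) (nat_lit 0) (nat_lit 0) (XT.lf (nat_lit 0) (nat_lit 314722350356) (nat_lit 76) (nat_lit 56531071692) (nat_lit 76) (nat_lit 50148112462) (nat_lit 1) (nat_lit 4) (nat_lit 2) (nat_lit 5) (nat_lit 2) (nat_lit 4) (nat_lit 313) (nat_lit 227) (nat_lit 180)) (XT.lf (nat_lit 0) (nat_lit 342736294952) (nat_lit 76) (nat_lit 59318424904) (nat_lit 76) (nat_lit 52922416114) (nat_lit 1) (nat_lit 4) (nat_lit 2) (nat_lit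 5) (nat_lit 2) (nat_lit 4) (nat_lit 314) (nat_lit 227) (nat_lit 179))) (XT.nd (nat_lit 78) (nat_lit 0) (nat_lit 0) (XT.lf (nat_lit 0) (nat_lit 372981022358) (nat_lit 76) (nat_lit 62333176140) (nat_lit 76) (nat_lit 55925084426) (nat_lit 1) (nat_lit 4) (nat_lit 2) (nat_lit 5) (nat_lit 2) (nat_lit 4) (nat_lit 315) (nat_lit 227) (nat_lit 178)) (XT.nd (nat_lit 78) (nat_lit 0) (nat_lit 0) (XT.lf (nat_lit 0) (nat_lit 405635760590) (nat_lit 76) (nat_lit 65593190594) (nat_lit 76) (nat_lit 59173910986) (nat_lit 1) (nat_lit 4) (nat_lit 2) (nat_lit 5) (nat_lit 2) (nat_lit 4) (nat_lit 316) (nat_lit 227) (nat_lit 177)) (XT.lf (nat_lit 0) (nat_lit 440894019207) (nat_lit 76) (nat_lit 69117786870) (nat_lit 76) (nat_lit 62688148100) (nat_lit 1) (nat_lit 4) (nat_lit 2) (nat_lit 5) (nat_lit 2) (nat_lit 4) (nat_lit 317) (nat_lit 227) (nat_lit 176))))) (XT.nd (nat_lit 234) (nat_lit 0) (nat_lit 0) (XT.nd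 (nat_lit 78) (nat_lit 0) (nat_lit 0) (XT.lf (nat_lit 0) (nat_lit 478964736038) (nat_lit 76) (nat_lit 72927851463) (nat_lit 76) (nat_lit 66488620878) (nat_lit 1) (nat_lit 4) (nat_lit 2) (nat_lit 5) (nat_lit 2) (nat_lit 4) (nat_lit 318) (nat_lit 227) (nat_lit 175)) (XT.nd (nat_lit 78) (nat_lit 0) (nat_lit 0) (XT.lf (nat_lit 0) (nat_lit 520073515331) (nat_lit 76) (nat_lit 77045962535) (nat_lit 76) (nat_lit 70597850639) (nat_lit 1) (nat_lit 4) (nat_lit 2) (nat_lit 5) (nat_lit 2) (nat_lit 4) (nat_lit 319) (nat_lit 227) (nat_lit 174)) (XT.lf (nat_lit 0) (nat_lit 564463964668) (nat_lit 76) (nat_lit 81496523707) (nat_lit 76) (nat_lit 75040188375) (nat_lit 1) (nat_lit 4) (nat_lit 2) (nat_lit 5) (nat_lit 2) (nat_lit 4) (nat_lit 320) (nat_lit 227) (nat_lit 173)))) (XT.nd (nat_lit 78) (nat_lit 0) (nat_lit 0) (XT.lf (nat_lit 0) (nat_lit 612399138561) (nat_lit 76) (nat_lit 86305908673) (nat_lit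 76) (nat_lit 79841959049) (nat_lit 1) (nat_lit 4) (nat_lit 2) (nat_lit 5) (nat_lit 2) (nat_lit 4) (nat_lit 321) (nat_lit 227) (nat_lit 172)) (XT.nd (nat_lit 78) (nat_lit 0) (nat_lit 0) (XT.lf (nat_lit 0) (nat_lit 664163097302) (nat_lit 76) (nat_lit 91502617495) (nat_lit 76) (nat_lit 85031617599) (nat_lit 1) (nat_lit 4) (nat_lit 2) (nat_lit 5) (nat_lit 2) (nat_lit 4) (nat_lit 322) (nat_lit 227) (nat_lit 171)) (XT.lf (nat_lit 0) (nat_lit 720062590276) (nat_lit 76) (nat_lit 97117445482) (nat_lit 76) (nat_lit 90639917558) (nat_lit 1) (nat_lit 4) (nat_lit 2) (nat_lit 5) (nat_lit 2) (nat_lit 4) (nat_lit 323) (nat_lit 227) (nat_lit 170)))))) (XT.nd (nat_lit 390) (nat_lit 0) (nat_lit 0) (XT.nd (nat_lit 156) (nat_lit 0) (nat_lit 0) (XT.nd (nat_lit 78) (nat_lit 0) (nat_lit 0) (XT.lf (nat_lit 0) (nat_lit 780428873736) (nat_lit 76) (nat_lit 103183665691) (nat_lit 76) (nat_lit 96700093296) (nat_lit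 1) (nat_lit 4) (nat_lit 2) (nat_lit 5) (nat_lit 2) (nat_lit 4) (nat_lit 324) (nat_lit 227) (nat_lit 169)) (XT.lf (nat_lit 0) (nat_lit 845619673808) (nat_lit 76) (nat_lit 109737226091) (nat_lit 76) (nat_lit 103248056964) (nat_lit 1) (nat_lit 4) (nat_lit 2) (nat_lit 5) (nat_lit 2) (nat_lit 4) (nat_lit 325) (nat_lit 227) (nat_lit 168))) (XT.nd (nat_lit 78) (nat_lit 0) (nat_lit 0) (XT.lf (nat_lit 0) (nat_lit 916021306343) (nat_lit 76) (nat_lit 116816962598) (nat_lit 76) (nat_lit 110322611311) (nat_lit 1) (nat_lit 4) (nat_lit 2) (nat_lit 5) (nat_lit 2) (nat_lit 4) (nat_lit 326) (nat_lit 227) (nat_lit 167)) (XT.nd (nat_lit 78) (nat_lit 0) (nat_lit 0) (XT.lf (nat_lit 0) (nat_lit 992050966201) (nat_lit 76) (nat_lit 124464829204) (nat_lit 76) (nat_lit 117965679621) (nat_lit 1) (nat_lit 4) (nat_lit 2) (nat_lit 5) (nat_lit 2) (nat_lit 4) (nat_lit 327) (nat_lit 227) (nat_lit 166)) (XT.lf (nat_lit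 0) (nat_lit 1074159199515) (nat_lit 76) (nat_lit 132726146602) (nat_lit 76) (nat_lit 126222554152) (nat_lit 1) (nat_lit 4) (nat_lit 2) (nat_lit 5) (nat_lit 2) (nat_lit 4) (nat_lit 328) (nat_lit 227) (nat_lit 165))))) (XT.nd (nat_lit 234) (nat_lit 0) (nat_lit 0) (XT.nd (nat_lit 78) (nat_lit 0) (nat_lit 0) (XT.lf (nat_lit 0) (nat_lit 1162832573593) (nat_lit 76) (nat_lit 141649870745) (nat_lit 76) (nat_lit 135142164530) (nat_lit 1) (nat_lit 4) (nat_lit 2) (nat_lit 5) (nat_lit 2) (nat_lit 4) (nat_lit 329) (nat_lit 227) (nat_lit 164)) (XT.nd (nat_lit 78) (nat_lit 0) (nat_lit 0) (XT.lf (nat_lit 0) (nat_lit 1258596560282) (nat_lit 76) (nat_lit 151288882963) (nat_lit 76) (nat_lit 144777367706) (nat_lit 1) (nat_lit 4) (nat_lit 2) (nat_lit 5) (nat_lit 2) (nat_lit 4) (nat_lit 330) (nat_lit 227) (nat_lit 163)) (XT.lf (nat_lit 0) (nat_lit 1362018649872) (nat_lit 76) (nat_lit 161700303327) (nat_lit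 76) (nat_lit 155185261179) (nat_lit 1) (nat_lit 4) (nat_lit 2) (nat_lit 5) (nat_lit 2) (nat_lit 4) (nat_lit 331) (nat_lit 227) (nat_lit 162)))) (XT.nd (nat_lit 32214) (nat_lit 0) (nat_lit 608) (XT.lf (nat_lit 0) (nat_lit 1473711714006) (nat_lit 76) (nat_lit 172945829143) (nat_lit 76) (nat_lit 166427521356) (nat_lit 1) (nat_lit 4) (nat_lit 2) (nat_lit 5) (nat_lit 2) (nat_lit 4) (nat_lit 332) (nat_lit 227) (nat_lit 161)) (XT.nd (nat_lit 78) (nat_lit 0) (nat_lit 0) (XT.lf (nat_lit 0) (nat_lit 1590800460) (nat_lit 152) (nat_lit 3168250077) (nat_lit 0) (nat_lit 1590800460) (nat_lit 9) (nat_lit 5) (nat_lit 11) (nat_lit 4) (nat_lit 9) (nat_lit 4) (nat_lit 264) (nat_lit 228) (nat_lit 228)) (XT.lf (nat_lit 0) (nat_lit 6410417120) (nat_lit 152) (nat_lit 1193422828) (nat_lit 0) (nat_lit 5798371742) (nat_lit 9) (nat_lit 5) (nat_lit 11) (nat_lit 4) (nat_lit 9) (nat_lit 4) (nat_lit 265) (nat_lit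 228) (nat_lit 227))))))) (XT.nd (nat_lit 858) (nat_lit 152) (nat_lit 0) (XT.nd (nat_lit 390) (nat_lit 152) (nat_lit 0) (XT.nd (nat_lit 156) (nat_lit 152) (nat_lit 0) (XT.nd (nat_lit 78) (nat_lit 0) (nat_lit 0) (XT.lf (nat_lit 0) (nat_lit 4300761793) (nat_lit 152) (nat_lit 5522961817) (nat_lit 152) (nat_lit 4344207755) (nat_lit 7) (nat_lit 4) (nat_lit 9) (nat_lit 5) (nat_lit 9) (nat_lit 4) (nat_lit 266) (nat_lit 228) (nat_lit 226)) (XT.lf (nat_lit 0) (nat_lit 10033845972) (nat_lit 152) (nat_lit 3338302444) (nat_lit 152) (nat_lit 1634818120) (nat_lit 7) (nat_lit 4) (nat_lit 9) (nat_lit 5) (nat_lit 9) (nat_lit 4) (nat_lit 267) (nat_lit 228) (nat_lit 225))) (XT.nd (nat_lit 78) (nat_lit 0) (nat_lit 0) (XT.lf (nat_lit 0) (nat_lit 24550596) (nat_lit 76) (nat_lit 1039822612) (nat_lit 152) (nat_lit 14860131383) (nat_lit 5) (nat_lit 5) (nat_lit 6) (nat_lit 5) (nat_lit 7) (nat_lit 4) (nat_lit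 268) (nat_lit 228) (nat_lit 224)) (XT.nd (nat_lit 78) (nat_lit 0) (nat_lit 0) (XT.lf (nat_lit 0) (nat_lit 3906177943) (nat_lit 152) (nat_lit 11543023920) (nat_lit 0) (nat_lit 1462458218) (nat_lit 5) (nat_lit 5) (nat_lit 7) (nat_lit 4) (nat_lit 5) (nat_lit 4) (nat_lit 269) (nat_lit 228) (nat_lit 223)) (XT.lf (nat_lit 0) (nat_lit 6854929884) (nat_lit 152) (nat_lit 7107723517) (nat_lit 0) (nat_lit 4025517751) (nat_lit 5) (nat_lit 5) (nat_lit 7) (nat_lit 4) (nat_lit 5) (nat_lit 4) (nat_lit 270) (nat_lit 228) (nat_lit 222))))) (XT.nd (nat_lit 234) (nat_lit 76) (nat_lit 0) (XT.nd (nat_lit 78) (nat_lit 76) (nat_lit 0) (XT.lf (nat_lit 0) (nat_lit 9903095358) (nat_lit 152) (nat_lit 2542761764) (nat_lit 0) (nat_lit 6716560625) (nat_lit 5) (nat_lit 5) (nat_lit 7) (nat_lit 4) (nat_lit 5) (nat_lit 4) (nat_lit 271) (nat_lit 228) (nat_lit 221)) (XT.nd (nat_lit 78) (nat_lit 0) (nat_lit 0) (XT.lf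 (nat_lit 0) (nat_lit 2293650658) (nat_lit 76) (nat_lit 10830249262) (nat_lit 76) (nat_lit 7313045456) (nat_lit 4) (nat_lit 4) (nat_lit 5) (nat_lit 5) (nat_lit 5) (nat_lit 4) (nat_lit 272) (nat_lit 228) (nat_lit 220)) (XT.lf (nat_lit 0) (nat_lit 7458379299) (nat_lit 76) (nat_lit 9091610777) (nat_lit 76) (nat_lit 5268231903) (nat_lit 4) (nat_lit 4) (nat_lit 5) (nat_lit 5) (nat_lit 5) (nat_lit 4) (nat_lit 273) (nat_lit 228) (nat_lit 219)))) (XT.nd (nat_lit 78) (nat_lit 76) (nat_lit 0) (XT.lf (nat_lit 0) (nat_lit 12848132628) (nat_lit 76) (nat_lit 7289162235) (nat_lit 76) (nat_lit 3182287928) (nat_lit 4) (nat_lit 4) (nat_lit 5) (nat_lit 5) (nat_lit 5) (nat_lit 4) (nat_lit 274) (nat_lit 228) (nat_lit 218)) (XT.nd (nat_lit 78) (nat_lit 76) (nat_lit 0) (XT.lf (nat_lit 0) (nat_lit 18494849925) (nat_lit 76) (nat_lit 5412222461) (nat_lit 76) (nat_lit 1042852382) (nat_lit 4) (nat_lit 4) (nat_lit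 5) (nat_lit 5) (nat_lit 5) (nat_lit 4) (nat_lit 275) (nat_lit 228) (nat_lit 217)) (XT.lf (nat_lit 0) (nat_lit 1104587263) (nat_lit 152) (nat_lit 2314880211) (nat_lit 76) (nat_lit 23297204582) (nat_lit 3) (nat_lit 5) (nat_lit 5) (nat_lit 5) (nat_lit 4) (nat_lit 4) (nat_lit 276) (nat_lit 228) (nat_lit 216)))))) (XT.nd (nat_lit 390) (nat_lit 76) (nat_lit 0) (XT.nd (nat_lit 156) (nat_lit 0) (nat_lit 0) (XT.nd (nat_lit 78) (nat_lit 0) (nat_lit 0) (XT.lf (nat_lit 0) (nat_lit 2078801909) (nat_lit 76) (nat_lit 1246328592) (nat_lit 152) (nat_lit 25301255637) (nat_lit 2) (nat_lit 5) (nat_lit 3) (nat_lit 5) (nat_lit 4) (nat_lit 4) (nat_lit 277) (nat_lit 228) (nat_lit 215)) (XT.lf (nat_lit 0) (nat_lit 5724113870) (nat_lit 152) (nat_lit 23913042432) (nat_lit 0) (nat_lit 1052033182) (nat_lit 2) (nat_lit 5) (nat_lit 4) (nat_lit 4) (nat_lit 2) (nat_lit 4) (nat_lit 278) (nat_lit 228) (nat_lit 214)))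 (XT.nd (nat_lit 78) (nat_lit 0) (nat_lit 0) (XT.lf (nat_lit 0) (nat_lit 8263488853) (nat_lit 152) (nat_lit 21245240482) (nat_lit 0) (nat_lit 3412757954) (nat_lit 2) (nat_lit 5) (nat_lit 4) (nat_lit 4) (nat_lit 2) (nat_lit 4) (nat_lit 279) (nat_lit 228) (nat_lit 213)) (XT.nd (nat_lit 78) (nat_lit 0) (nat_lit 0) (XT.lf (nat_lit 0) (nat_lit 10928329367) (nat_lit 152) (nat_lit 18498394952) (nat_lit 0) (nat_lit 5912181606) (nat_lit 2) (nat_lit 5) (nat_lit 4) (nat_lit 4) (nat_lit 2) (nat_lit 4) (nat_lit 280) (nat_lit 228) (nat_lit 212)) (XT.lf (nat_lit 0) (nat_lit 13734427060) (nat_lit 152) (nat_lit 15656228237) (nat_lit 0) (nat_lit 8565115537) (nat_lit 2) (nat_lit 5) (nat_lit 4) (nat_lit 4) (nat_lit 2) (nat_lit 4) (nat_lit 281) (nat_lit 228) (nat_lit 211))))) (XT.nd (nat_lit 234) (nat_lit 76) (nat_lit 0) (XT.nd (nat_lit 78) (nat_lit 0) (nat_lit 0) (XT.lf (nat_lit 0) (nat_lit 16698410659)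 (nat_lit 152) (nat_lit 12701897869) (nat_lit 0) (nat_lit 11387280838) (nat_lit 2) (nat_lit 5) (nat_lit 4) (nat_lit 4) (nat_lit 2) (nat_lit 4) (nat_lit 282) (nat_lit 228) (nat_lit 210)) (XT.nd (nat_lit 78) (nat_lit 0) (nat_lit 0) (XT.lf (nat_lit 0) (nat_lit 19837844510) (nat_lit 152) (nat_lit 9617896704) (nat_lit 0) (nat_lit 14395401450) (nat_lit 2) (nat_lit 5) (nat_lit 4) (nat_lit 4) (nat_lit 2) (nat_lit 4) (nat_lit 283) (nat_lit 228) (nat_lit 209)) (XT.lf (nat_lit 0) (nat_lit 23171332667) (nat_lit 152) (nat_lit 6385949179) (nat_lit 0) (nat_lit 17607303275) (nat_lit 2) (nat_lit 5) (nat_lit 4) (nat_lit 4) (nat_lit 2) (nat_lit 4) (nat_lit 284) (nat_lit 228) (nat_lit 208)))) (XT.nd (nat_lit 78) (nat_lit 76) (nat_lit 0) (XT.lf (nat_lit 0) (nat_lit 26718629133) (nat_lit 152) (nat_lit 2986903015) (nat_lit 0) (nat_lit 21042019804) (nat_lit 2) (nat_lit 5) (nat_lit 4) (nat_lit 4) (nat_lit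 2) (nat_lit 4) (nat_lit 285) (nat_lit 228) (nat_lit 207)) (XT.nd (nat_lit 78) (nat_lit 0) (nat_lit 0) (XT.lf (nat_lit 0) (nat_lit 630946800) (nat_lit 76) (nat_lit 29884982410) (nat_lit 76) (nat_lit 24104132398) (nat_lit 1) (nat_lit 4) (nat_lit 2) (nat_lit 5) (nat_lit 2) (nat_lit 4) (nat_lit 286) (nat_lit 228) (nat_lit 206)) (XT.lf (nat_lit 0) (nat_lit 4625553727) (nat_lit 76) (nat_lit 30025813589) (nat_lit 76) (nat_lit 24148444426) (nat_lit 1) (nat_lit 4) (nat_lit 2) (nat_lit 5) (nat_lit 2) (nat_lit 4) (nat_lit 287) (nat_lit 228) (nat_lit 205))))))))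
noncomputable def xc28 : XT := (XT.nd (nat_lit 1716) (nat_lit 0) (nat_lit 0) (XT.nd (nat_lit 858) (nat_lit 0) (nat_lit 0) (XT.nd (nat_lit 390) (nat_lit 0) (nat_lit 0) (XT.nd (nat_lit 156) (nat_lit 0) (nat_lit 0) (XT.nd (nat_lit 78) (nat_lit 0) (nat_lit 0) (XT.lf (nat_lit 0) (nat_lit 8863304491) (nat_lit 76) (nat_lit 30210527463) (nat_lit 76) (nat_lit 24243788716) (nat_lit 1) (nat_lit 4) (nat_lit 2) (nat_lit 5) (nat_lit 2) (nat_lit 4) (nat_lit 288) (nat_lit 228) (nat_lit 204)) (XT.lf (nat_lit 0) (nat_lit 13369311690) (nat_lit 76) (nat_lit 30440218632) (nat_lit 76) (nat_lit 24390730271) (nat_lit 1) (nat_lit 4) (nat_lit 2) (nat_lit 5) (nat_lit 2) (nat_lit 4) (nat_lit 289) (nat_lit 228) (nat_lit 203))) (XT.nd (nat_lit 78) (nat_lit 0) (nat_lit 0) (XT.lf (nat_lit 0) (nat_lit 18170277588) (nat_lit 76) (nat_lit 30716248229) (nat_lit 76) (nat_lit 24590139854) (nat_lit 1) (nat_lit 4) (nat_lit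 2) (nat_lit 5) (nat_lit 2) (nat_lit 4) (nat_lit 290) (nat_lit 228) (nat_lit 202)) (XT.nd (nat_lit 78) (nat_lit 0) (nat_lit 0) (XT.lf (nat_lit 0) (nat_lit 23294652352) (nat_lit 76) (nat_lit 31040251985) (nat_lit 76) (nat_lit 24843199154) (nat_lit 1) (nat_lit 4) (nat_lit 2) (nat_lit 5) (nat_lit 2) (nat_lit 4) (nat_lit 291) (nat_lit 228) (nat_lit 201)) (XT.lf (nat_lit 0) (nat_lit 28772802650) (nat_lit 76) (nat_lit 31414149923) (nat_lit 76) (nat_lit 25151407779) (nat_lit 1) (nat_lit 4) (nat_lit 2) (nat_lit 5) (nat_lit 2) (nat_lit 4) (nat_lit 292) (nat_lit 228) (nat_lit 200))))) (XT.nd (nat_lit 234) (nat_lit 0) (nat_lit 0) (XT.nd (nat_lit 78) (nat_lit 0) (nat_lit 0) (XT.lf (nat_lit 0) (nat_lit 34637191593) (nat_lit 76) (nat_lit 31840157733) (nat_lit 76) (nat_lit 25516592152) (nat_lit 1) (nat_lit 4) (nat_lit 2) (nat_lit 5) (nat_lit 2) (nat_lit 4) (nat_lit 293) (nat_lit 228) (nat_lit 199))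 (XT.nd (nat_lit 78) (nat_lit 0) (nat_lit 0) (XT.lf (nat_lit 0) (nat_lit 40922571116) (nat_lit 76) (nat_lit 32320799907) (nat_lit 76) (nat_lit 25940916329) (nat_lit 1) (nat_lit 4) (nat_lit 2) (nat_lit 5) (nat_lit 2) (nat_lit 4) (nat_lit 294) (nat_lit 228) (nat_lit 198)) (XT.lf (nat_lit 0) (nat_lit 47666187912) (nat_lit 76) (nat_lit 32858924695) (nat_lit 76) (nat_lit 26426894823) (nat_lit 1) (nat_lit 4) (nat_lit 2) (nat_lit 5) (nat_lit 2) (nat_lit 4) (nat_lit 295) (nat_lit 228) (nat_lit 197)))) (XT.nd (nat_lit 78) (nat_lit 0) (nat_lit 0) (XT.lf (nat_lit 0) (nat_lit 54908004155) (nat_lit 76) (nat_lit 33457720983) (nat_lit 76) (nat_lit 26977407506) (nat_lit 1) (nat_lit 4) (nat_lit 2) (nat_lit 5) (nat_lit 2) (nat_lit 4) (nat_lit 296) (nat_lit 228) (nat_lit 196)) (XT.nd (nat_lit 78) (nat_lit 0) (nat_lit 0) (XT.lf (nat_lit 0) (nat_lit 62690934312) (nat_lit 76) (nat_lit 34120737195) (nat_lit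 76) (nat_lit 27595716676) (nat_lit 1) (nat_lit 4) (nat_lit 2) (nat_lit 5) (nat_lit 2) (nat_lit 4) (nat_lit 297) (nat_lit 228) (nat_lit 195)) (XT.lf (nat_lit 0) (nat_lit 71061099450) (nat_lit 76) (nat_lit 34851902316) (nat_lit 76) (nat_lit 28285486387) (nat_lit 1) (nat_lit 4) (nat_lit 2) (nat_lit 5) (nat_lit 2) (nat_lit 4) (nat_lit 298) (nat_lit 228) (nat_lit 194)))))) (XT.nd (nat_lit 390) (nat_lit 0) (nat_lit 0) (XT.nd (nat_lit 156) (nat_lit 0) (nat_lit 0) (XT.nd (nat_lit 78) (nat_lit 0) (nat_lit 0) (XT.lf (nat_lit 0) (nat_lit 80068100548) (nat_lit 76) (nat_lit 35655549175) (nat_lit 76) (nat_lit 29050804164) (nat_lit 1) (nat_lit 4) (nat_lit 2) (nat_lit 5) (nat_lit 2) (nat_lit 4) (nat_lit 299) (nat_lit 228) (nat_lit 193)) (XT.lf (nat_lit 0) (nat_lit 89765312427) (nat_lit 76) (nat_lit 36536440125) (nat_lit 76) (nat_lit 29896205223) (nat_lit 1) (nat_lit 4) (nat_lit 2) (nat_lit 5) (nat_lit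 2) (nat_lit 4) (nat_lit 300) (nat_lit 228) (nat_lit 192))) (XT.nd (nat_lit 78) (nat_lit 0) (nat_lit 0) (XT.lf (nat_lit 0) (nat_lit 100210200047) (nat_lit 76) (nat_lit 37499795261) (nat_lit 76) (nat_lit 30826699348) (nat_lit 1) (nat_lit 4) (nat_lit 2) (nat_lit 5) (nat_lit 2) (nat_lit 4) (nat_lit 301) (nat_lit 228) (nat_lit 191)) (XT.nd (nat_lit 78) (nat_lit 0) (nat_lit 0) (XT.lf (nat_lit 0) (nat_lit 111464659037) (nat_lit 76) (nat_lit 38551323352) (nat_lit 76) (nat_lit 31847800578) (nat_lit 1) (nat_lit 4) (nat_lit 2) (nat_lit 5) (nat_lit 2) (nat_lit 4) (nat_lit 302) (nat_lit 228) (nat_lit 190)) (XT.lf (nat_lit 0) (nat_lit 123595382488) (nat_lit 76) (nat_lit 39697255678) (nat_lit 76) (nat_lit 32965559883) (nat_lit 1) (nat_lit 4) (nat_lit 2) (nat_lit 5) (nat_lit 2) (nat_lit 4) (nat_lit 303) (nat_lit 228) (nat_lit 189))))) (XT.nd (nat_lit 234) (nat_lit 0) (nat_lit 0) (XT.nd (nat_lit 78)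 (nat_lit 0) (nat_lit 0) (XT.lf (nat_lit 0) (nat_lit 136674256170) (nat_lit 76) (nat_lit 40944382947) (nat_lit 76) (nat_lit 34186601023) (nat_lit 1) (nat_lit 4) (nat_lit 2) (nat_lit 5) (nat_lit 2) (nat_lit 4) (nat_lit 304) (nat_lit 228) (nat_lit 188)) (XT.nd (nat_lit 78) (nat_lit 0) (nat_lit 0) (XT.lf (nat_lit 0) (nat_lit 150778784517) (nat_lit 76) (nat_lit 42300095544) (nat_lit 76) (nat_lit 35518159796) (nat_lit 1) (nat_lit 4) (nat_lit 2) (nat_lit 5) (nat_lit 2) (nat_lit 4) (nat_lit 305) (nat_lit 228) (nat_lit 187)) (XT.lf (nat_lit 0) (nat_lit 165992549921) (nat_lit 76) (nat_lit 43772427322) (nat_lit 76) (nat_lit 36968126922) (nat_lit 1) (nat_lit 4) (nat_lit 2) (nat_lit 5) (nat_lit 2) (nat_lit 4) (nat_lit 306) (nat_lit 228) (nat_lit 186)))) (XT.nd (nat_lit 78) (nat_lit 0) (nat_lit 0) (XT.lf (nat_lit 0) (nat_lit 182405708028) (nat_lit 76) (nat_lit 45370103208) (nat_lit 76) (nat_lit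 38545094798) (nat_lit 1) (nat_lit 4) (nat_lit 2) (nat_lit 5) (nat_lit 2) (nat_lit 4) (nat_lit 307) (nat_lit 228) (nat_lit 185)) (XT.nd (nat_lit 78) (nat_lit 0) (nat_lit 0) (XT.lf (nat_lit 0) (nat_lit 200115521998) (nat_lit 76) (nat_lit 47102590913) (nat_lit 76) (nat_lit 40258408419) (nat_lit 1) (nat_lit 4) (nat_lit 2) (nat_lit 5) (nat_lit 2) (nat_lit 4) (nat_lit 308) (nat_lit 228) (nat_lit 184)) (XT.lf (nat_lit 0) (nat_lit 219226938876) (nat_lit 76) (nat_lit 48980157030) (nat_lit 76) (nat_lit 42118220754) (nat_lit 1) (nat_lit 4) (nat_lit 2) (nat_lit 5) (nat_lit 2) (nat_lit 4) (nat_lit 309) (nat_lit 228) (nat_lit 183))))))) (XT.nd (nat_lit 858) (nat_lit 0) (nat_lit 0) (XT.nd (nat_lit 390) (nat_lit 0) (nat_lit 0) (XT.nd (nat_lit 156) (nat_lit 0) (nat_lit 0) (XT.nd (nat_lit 78) (nat_lit 0) (nat_lit 0) (XT.lf (nat_lit 0) (nat_lit 239853211503) (nat_lit 76) (nat_lit 51013927877) (nat_lit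 76) (nat_lit 44135552914) (nat_lit 1) (nat_lit 4) (nat_lit 2) (nat_lit 5) (nat_lit 2) (nat_lit 4) (nat_lit 310) (nat_lit 228) (nat_lit 182)) (XT.lf (nat_lit 0) (nat_lit 262116569643) (nat_lit 76) (nat_lit 53215955428) (nat_lit 76) (nat_lit 46322359460) (nat_lit 1) (nat_lit 4) (nat_lit 2) (nat_lit 5) (nat_lit 2) (nat_lit 4) (nat_lit 311) (nat_lit 228) (nat_lit 181))) (XT.nd (nat_lit 78) (nat_lit 0) (nat_lit 0) (XT.lf (nat_lit 0) (nat_lit 286148944307) (nat_lit 76) (nat_lit 55599288737) (nat_lit 76) (nat_lit 48691599245) (nat_lit 1) (nat_lit 4) (nat_lit 2) (nat_lit 5) (nat_lit 2) (nat_lit 4) (nat_lit 312) (nat_lit 228) (nat_lit 180)) (XT.nd (nat_lit 78) (nat_lit 0) (nat_lit 0) (XT.lf (nat_lit 0) (nat_lit 312092749567) (nat_lit 76) (nat_lit 58178051261) (nat_lit 76) (nat_lit 51257312209) (nat_lit 1) (nat_lit 4) (nat_lit 2) (nat_lit 5) (nat_lit 2) (nat_lit 4) (nat_lit 313) (nat_lit 228)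 (nat_lit 179)) (XT.lf (nat_lit 0) (nat_lit 340101726491) (nat_lit 76) (nat_lit 60967524553) (nat_lit 76) (nat_lit 54034702576) (nat_lit 1) (nat_lit 4) (nat_lit 2) (nat_lit 5) (nat_lit 2) (nat_lit 4) (nat_lit 314) (nat_lit 228) (nat_lit 178))))) (XT.nd (nat_lit 234) (nat_lit 0) (nat_lit 0) (XT.nd (nat_lit 78) (nat_lit 0) (nat_lit 0) (XT.lf (nat_lit 0) (nat_lit 370341854202) (nat_lit 76) (nat_lit 63984238828) (nat_lit 76) (nat_lit 57040228957) (nat_lit 1) (nat_lit 4) (nat_lit 2) (nat_lit 5) (nat_lit 2) (nat_lit 4) (nat_lit 315) (nat_lit 228) (nat_lit 177)) (XT.nd (nat_lit 78) (nat_lit 0) (nat_lit 0) (XT.lf (nat_lit 0) (nat_lit 402992333456) (nat_lit 76) (nat_lit 67246070909) (nat_lit 76) (nat_lit 60291701877) (nat_lit 1) (nat_lit 4) (nat_lit 2) (nat_lit 5) (nat_lit 2) (nat_lit 4) (nat_lit 316) (nat_lit 228) (nat_lit 176)) (XT.lf (nat_lit 0) (nat_lit 438246648575) (nat_lit 76) (nat_lit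 70772350173) (nat_lit 76) (nat_lit 63808389325) (nat_lit 1) (nat_lit 4) (nat_lit 2) (nat_lit 5) (nat_lit 2) (nat_lit 4) (nat_lit 317) (nat_lit 228) (nat_lit 175)))) (XT.nd (nat_lit 78) (nat_lit 0) (nat_lit 0) (XT.lf (nat_lit 0) (nat_lit 476313714020) (nat_lit 76) (nat_lit 74583973089) (nat_lit 76) (nat_lit 67611130931) (nat_lit 1) (nat_lit 4) (nat_lit 2) (nat_lit 5) (nat_lit 2) (nat_lit 4) (nat_lit 318) (nat_lit 228) (nat_lit 174)) (XT.nd (nat_lit 78) (nat_lit 0) (nat_lit 0) (XT.lf (nat_lit 0) (nat_lit 517419112399) (nat_lit 76) (nat_lit 78703527052) (nat_lit 76) (nat_lit 71722461458) (nat_lit 1) (nat_lit 4) (nat_lit 2) (nat_lit 5) (nat_lit 2) (nat_lit 4) (nat_lit 319) (nat_lit 228) (nat_lit 173)) (XT.lf (nat_lit 0) (nat_lit 561806431260) (nat_lit 76) (nat_lit 83155424234) (nat_lit 76) (nat_lit 76166744347) (nat_lit 1) (nat_lit 4) (nat_lit 2) (nat_lit 5) (nat_lit 2) (nat_lit 4) (nat_lit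 320) (nat_lit 228) (nat_lit 172)))))) (XT.nd (nat_lit 390) (nat_lit 0) (nat_lit 0) (XT.nd (nat_lit 156) (nat_lit 0) (nat_lit 0) (XT.nd (nat_lit 78) (nat_lit 0) (nat_lit 0) (XT.lf (nat_lit 0) (nat_lit 609738706565) (nat_lit 76) (nat_lit 87966046248) (nat_lit 76) (nat_lit 80970316090) (nat_lit 1) (nat_lit 4) (nat_lit 2) (nat_lit 5) (nat_lit 2) (nat_lit 4) (nat_lit 321) (nat_lit 228) (nat_lit 171)) (XT.lf (nat_lit 0) (nat_lit 661499981428) (nat_lit 76) (nat_lit 93163900483) (nat_lit 76) (nat_lit 86161642296) (nat_lit 1) (nat_lit 4) (nat_lit 2) (nat_lit 5) (nat_lit 2) (nat_lit 4) (nat_lit 322) (nat_lit 228) (nat_lit 170))) (XT.nd (nat_lit 78) (nat_lit 0) (nat_lit 0) (XT.lf (nat_lit 0) (nat_lit 717396989328) (nat_lit 76) (nat_lit 98779789038) (nat_lit 76) (nat_lit 91771486381) (nat_lit 1) (nat_lit 4) (nat_lit 2) (nat_lit 5) (nat_lit 2) (nat_lit 4) (nat_lit 323) (nat_lit 228) (nat_lit 169))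 (XT.nd (nat_lit 78) (nat_lit 0) (nat_lit 0) (XT.lf (nat_lit 0) (nat_lit 777760971796) (nat_lit 76) (nat_lit 104846991254) (nat_lit 76) (nat_lit 97833091864) (nat_lit 1) (nat_lit 4) (nat_lit 2) (nat_lit 5) (nat_lit 2) (nat_lit 4) (nat_lit 324) (nat_lit 228) (nat_lit 168)) (XT.lf (nat_lit 0) (nat_lit 842949641318) (nat_lit 76) (nat_lit 111401460921) (nat_lit 76) (nat_lit 104382379372) (nat_lit 1) (nat_lit 4) (nat_lit 2) (nat_lit 5) (nat_lit 2) (nat_lit 4) (nat_lit 325) (nat_lit 228) (nat_lit 167))))) (XT.nd (nat_lit 234) (nat_lit 0) (nat_lit 0) (XT.nd (nat_lit 78) (nat_lit 0) (nat_lit 0) (XT.lf (nat_lit 0) (nat_lit 913349301123) (nat_lit 76) (nat_lit 118482039341) (nat_lit 76) (nat_lit 111458159495) (nat_lit 1) (nat_lit 4) (nat_lit 2) (nat_lit 5) (nat_lit 2) (nat_lit 4) (nat_lit 326) (nat_lit 228) (nat_lit 166)) (XT.nd (nat_lit 78) (nat_lit 0) (nat_lit 0) (XT.lf (nat_lit 0) (nat_lit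 989377134379) (nat_lit 76) (nat_lit 126130685496) (nat_lit 76) (nat_lit 119102362784) (nat_lit 1) (nat_lit 4) (nat_lit 2) (nat_lit 5) (nat_lit 2) (nat_lit 4) (nat_lit 327) (nat_lit 228) (nat_lit 165)) (XT.lf (nat_lit 0) (nat_lit 1071483676394) (nat_lit 76) (nat_lit 134392724699) (nat_lit 76) (nat_lit 127360288221) (nat_lit 1) (nat_lit 4) (nat_lit 2) (nat_lit 5) (nat_lit 2) (nat_lit 4) (nat_lit 328) (nat_lit 228) (nat_lit 164)))) (XT.nd (nat_lit 78) (nat_lit 0) (nat_lit 0) (XT.lf (nat_lit 0) (nat_lit 1160155484455) (nat_lit 76) (nat_lit 143317117180) (nat_lit 76) (nat_lit 136280871661) (nat_lit 1) (nat_lit 4) (nat_lit 2) (nat_lit 5) (nat_lit 2) (nat_lit 4) (nat_lit 329) (nat_lit 228) (nat_lit 163)) (XT.nd (nat_lit 78) (nat_lit 0) (nat_lit 0) (XT.lf (nat_lit 0) (nat_lit 1255918021127) (nat_lit 76) (nat_lit 152956748229) (nat_lit 76) (nat_lit 145916975819) (nat_lit 1) (nat_lit 4) (nat_lit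 2) (nat_lit 5) (nat_lit 2) (nat_lit 4) (nat_lit 330) (nat_lit 228) (nat_lit 162)) (XT.lf (nat_lit 0) (nat_lit 1359338768110) (nat_lit 76) (nat_lit 163368741585) (nat_lit 76) (nat_lit 156325703535) (nat_lit 1) (nat_lit 4) (nat_lit 2) (nat_lit 5) (nat_lit 2) (nat_lit 4) (nat_lit 331) (nat_lit 228) (nat_lit 161))))))))
noncomputable def xc29 : XT := (XT.nd (nat_lit 33696) (nat_lit 0) (nat_lit 0) (XT.nd (nat_lit 32838) (nat_lit 0) (nat_lit 76) (XT.nd (nat_lit 32370) (nat_lit 0) (nat_lit 304) (XT.nd (nat_lit 32136) (nat_lit 0) (nat_lit 608) (XT.nd (nat_lit 32058) (nat_lit 0) (nat_lit 760) (XT.lf (nat_lit 0) (nat_lit 1471030589089) (nat_lit 76) (nat_lit 174614797950) (nat_lit 76) (nat_lit 167568736160) (nat_lit 1) (nat_lit 4) (nat_lit 2) (nat_lit 5) (nat_lit 2) (nat_lit 4) (nat_lit 332) (nat_lit 228) (nat_lit 160)) (XT.lf (nat_lit 0) (nat_lit 3443829767) (nat_lit 152) (nat_lit 1144582757)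 (nat_lit 152) (nat_lit 1144582757) (nat_lit 11) (nat_lit 4) (nat_lit 13) (nat_lit 5) (nat_lit 13) (nat_lit 4) (nat_lit 262) (nat_lit 229) (nat_lit 229))) (XT.nd (nat_lit 78) (nat_lit 0) (nat_lit 0) (XT.lf (nat_lit 0) (nat_lit 675716868) (nat_lit 152) (nat_lit 11374089205) (nat_lit 0) (nat_lit 14707859) (nat_lit 9) (nat_lit 5) (nat_lit 11) (nat_lit 4) (nat_lit 9) (nat_lit 4) (nat_lit 263) (nat_lit 229) (nat_lit 228)) (XT.nd (nat_lit 78) (nat_lit 0) (nat_lit 0) (XT.lf (nat_lit 0) (nat_lit 3750577089) (nat_lit 152) (nat_lit 6479538062) (nat_lit 0) (nat_lit 2477522703) (nat_lit 9) (nat_lit 5) (nat_lit 11) (nat_lit 4) (nat_lit 9) (nat_lit 4) (nat_lit 264) (nat_lit 229) (nat_lit 227)) (XT.lf (nat_lit 0) (nat_lit 6894177698) (nat_lit 152) (nat_lit 1468903242) (nat_lit 0) (nat_lit 5054414628) (nat_lit 9) (nat_lit 5) (nat_lit 11) (nat_lit 4) (nat_lit 9) (nat_lit 4) (nat_lit 265) (nat_lit 229)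 (nat_lit 226))))) (XT.nd (nat_lit 234) (nat_lit 76) (nat_lit 0) (XT.nd (nat_lit 78) (nat_lit 76) (nat_lit 0) (XT.lf (nat_lit 0) (nat_lit 3881685537) (nat_lit 152) (nat_lit 6336816532) (nat_lit 152) (nat_lit 3972323199) (nat_lit 7) (nat_lit 4) (nat_lit 9) (nat_lit 5) (nat_lit 9) (nat_lit 4) (nat_lit 266) (nat_lit 229) (nat_lit 225)) (XT.nd (nat_lit 78) (nat_lit 76) (nat_lit 0) (XT.lf (nat_lit 0) (nat_lit 9495242371) (nat_lit 152) (nat_lit 4195751233) (nat_lit 152) (nat_lit 1345396546) (nat_lit 7) (nat_lit 4) (nat_lit 9) (nat_lit 5) (nat_lit 9) (nat_lit 4) (nat_lit 267) (nat_lit 229) (nat_lit 224)) (XT.lf (nat_lit 0) (nat_lit 1266191254) (nat_lit 228) (nat_lit 666548501) (nat_lit 76) (nat_lit 14026871774) (nat_lit 6) (nat_lit 5) (nat_lit 9) (nat_lit 5) (nat_lit 7) (nat_lit 4) (nat_lit 268) (nat_lit 229) (nat_lit 223)))) (XT.nd (nat_lit 78) (nat_lit 0) (nat_lit 0) (XT.lf (nat_lit 0)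 (nat_lit 3998340308) (nat_lit 152) (nat_lit 12400677604) (nat_lit 0) (nat_lit 556882797) (nat_lit 5) (nat_lit 5) (nat_lit 7) (nat_lit 4) (nat_lit 5) (nat_lit 4) (nat_lit 269) (nat_lit 229) (nat_lit 222)) (XT.nd (nat_lit 78) (nat_lit 0) (nat_lit 0) (XT.lf (nat_lit 0) (nat_lit 6881473680) (nat_lit 152) (nat_lit 8073628490) (nat_lit 0) (nat_lit 3082893570) (nat_lit 5) (nat_lit 5) (nat_lit 7) (nat_lit 4) (nat_lit 5) (nat_lit 4) (nat_lit 270) (nat_lit 229) (nat_lit 221)) (XT.lf (nat_lit 0) (nat_lit 9868881220) (nat_lit 152) (nat_lit 3608899413) (nat_lit 0) (nat_lit 5739632036) (nat_lit 5) (nat_lit 5) (nat_lit 7) (nat_lit 4) (nat_lit 5) (nat_lit 4) (nat_lit 271) (nat_lit 229) (nat_lit 220)))))) (XT.nd (nat_lit 390) (nat_lit 76) (nat_lit 0) (XT.nd (nat_lit 156) (nat_lit 76) (nat_lit 0) (XT.nd (nat_lit 78) (nat_lit 0) (nat_lit 0) (XT.lf (nat_lit 0) (nat_lit 1073676950) (nat_lit 76) (nat_lit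 11930411090) (nat_lit 76) (nat_lit 7494986838) (nat_lit 4) (nat_lit 4) (nat_lit 5) (nat_lit 5) (nat_lit 5) (nat_lit 4) (nat_lit 272) (nat_lit 229) (nat_lit 219)) (XT.lf (nat_lit 0) (nat_lit 6147947128) (nat_lit 76) (nat_lit 10227965404) (nat_lit 76) (nat_lit 5509045718) (nat_lit 4) (nat_lit 4) (nat_lit 5) (nat_lit 5) (nat_lit 5) (nat_lit 4) (nat_lit 273) (nat_lit 229) (nat_lit 218))) (XT.nd (nat_lit 78) (nat_lit 76) (nat_lit 0) (XT.lf (nat_lit 0) (nat_lit 11453942622) (nat_lit 76) (nat_lit 8459028714) (nat_lit 76) (nat_lit 3477613256) (nat_lit 4) (nat_lit 4) (nat_lit 5) (nat_lit 5) (nat_lit 5) (nat_lit 4) (nat_lit 274) (nat_lit 229) (nat_lit 217)) (XT.nd (nat_lit 78) (nat_lit 76) (nat_lit 0) (XT.lf (nat_lit 0) (nat_lit 17023106367) (nat_lit 76) (nat_lit 6613118432) (nat_lit 76) (nat_lit 1388651333) (nat_lit 4) (nat_lit 4) (nat_lit 5) (nat_lit 5) (nat_lit 5) (nat_lit 4) (nat_lit 275)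 (nat_lit 229) (nat_lit 216)) (XT.lf (nat_lit 0) (nat_lit 731689605) (nat_lit 152) (nat_lit 3927600534) (nat_lit 76) (nat_lit 22136745520) (nat_lit 3) (nat_lit 5) (nat_lit 5) (nat_lit 5) (nat_lit 4) (nat_lit 4) (nat_lit 276) (nat_lit 229) (nat_lit 215))))) (XT.nd (nat_lit 234) (nat_lit 0) (nat_lit 0) (XT.nd (nat_lit 78) (nat_lit 0) (nat_lit 0) (XT.lf (nat_lit 0) (nat_lit 308698792) (nat_lit 76) (nat_lit 2559854723) (nat_lit 152) (nat_lit 25844071280) (nat_lit 2) (nat_lit 5) (nat_lit 3) (nat_lit 5) (nat_lit 4) (nat_lit 4) (nat_lit 277) (nat_lit 229) (nat_lit 214)) (XT.nd (nat_lit 78) (nat_lit 0) (nat_lit 0) (XT.lf (nat_lit 0) (nat_lit 4967715979) (nat_lit 76) (nat_lit 233510332) (nat_lit 152) (nat_lit 25579673996) (nat_lit 2) (nat_lit 5) (nat_lit 3) (nat_lit 5) (nat_lit 4) (nat_lit 4) (nat_lit 278) (nat_lit 229) (nat_lit 213)) (XT.lf (nat_lit 0) (nat_lit 7697637064) (nat_lit 152) (nat_lit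 23204372496) (nat_lit 0) (nat_lit 2114780619) (nat_lit 2) (nat_lit 5) (nat_lit 4) (nat_lit 4) (nat_lit 2) (nat_lit 4) (nat_lit 279) (nat_lit 229) (nat_lit 212)))) (XT.nd (nat_lit 78) (nat_lit 0) (nat_lit 0) (XT.lf (nat_lit 0) (nat_lit 10327895817) (nat_lit 152) (nat_lit 20517347378) (nat_lit 0) (nat_lit 4591875610) (nat_lit 2) (nat_lit 5) (nat_lit 4) (nat_lit 4) (nat_lit 2) (nat_lit 4) (nat_lit 280) (nat_lit 229) (nat_lit 211)) (XT.nd (nat_lit 78) (nat_lit 0) (nat_lit 0) (XT.lf (nat_lit 0) (nat_lit 13101973361) (nat_lit 152) (nat_lit 17730569934) (nat_lit 0) (nat_lit 7224134857) (nat_lit 2) (nat_lit 5) (nat_lit 4) (nat_lit 4) (nat_lit 2) (nat_lit 4) (nat_lit 281) (nat_lit 229) (nat_lit 210)) (XT.lf (nat_lit 0) (nat_lit 16036308674) (nat_lit 152) (nat_lit 14827525927) (nat_lit 0) (nat_lit 10027156930) (nat_lit 2) (nat_lit 5) (nat_lit 4) (nat_lit 4) (nat_lit 2) (nat_lit 4) (nat_lit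 282) (nat_lit 229) (nat_lit 209))))))) (XT.nd (nat_lit 858) (nat_lit 0) (nat_lit 0) (XT.nd (nat_lit 390) (nat_lit 0) (nat_lit 0) (XT.nd (nat_lit 156) (nat_lit 76) (nat_lit 0) (XT.nd (nat_lit 78) (nat_lit 0) (nat_lit 0) (XT.lf (nat_lit 0) (nat_lit 19148290408) (nat_lit 152) (nat_lit 11791012135) (nat_lit 0) (nat_lit 13017552333) (nat_lit 2) (nat_lit 5) (nat_lit 4) (nat_lit 4) (nat_lit 2) (nat_lit 4) (nat_lit 283) (nat_lit 229) (nat_lit 208)) (XT.lf (nat_lit 0) (nat_lit 22456359938) (nat_lit 152) (nat_lit 8603034399) (nat_lit 0) (nat_lit 16213041926) (nat_lit 2) (nat_lit 5) (nat_lit 4) (nat_lit 4) (nat_lit 2) (nat_lit 4) (nat_lit 284) (nat_lit 229) (nat_lit 207))) (XT.nd (nat_lit 78) (nat_lit 76) (nat_lit 0) (XT.lf (nat_lit 0) (nat_lit 25980120639) (nat_lit 152) (nat_lit 5244701002) (nat_lit 0) (nat_lit 19632561944) (nat_lit 2) (nat_lit 5) (nat_lit 4) (nat_lit 4) (nat_lit 2) (nat_lit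 4) (nat_lit 285) (nat_lit 229) (nat_lit 206)) (XT.nd (nat_lit 78) (nat_lit 76) (nat_lit 0) (XT.lf (nat_lit 0) (nat_lit 29740454055) (nat_lit 152) (nat_lit 1696110708) (nat_lit 0) (nat_lit 23296376209) (nat_lit 2) (nat_lit 5) (nat_lit 4) (nat_lit 4) (nat_lit 2) (nat_lit 4) (nat_lit 286) (nat_lit 229) (nat_lit 205)) (XT.lf (nat_lit 0) (nat_lit 2172439381) (nat_lit 76) (nat_lit 31639451481) (nat_lit 76) (nat_lit 25106004051) (nat_lit 1) (nat_lit 4) (nat_lit 2) (nat_lit 5) (nat_lit 2) (nat_lit 4) (nat_lit 287) (nat_lit 229) (nat_lit 204))))) (XT.nd (nat_lit 234) (nat_lit 0) (nat_lit 0) (XT.nd (nat_lit 78) (nat_lit 0) (nat_lit 0) (XT.lf (nat_lit 0) (nat_lit 6376169171) (nat_lit 76) (nat_lit 31838684675) (nat_lit 76) (nat_lit 25222487630) (nat_lit 1) (nat_lit 4) (nat_lit 2) (nat_lit 5) (nat_lit 2) (nat_lit 4) (nat_lit 288) (nat_lit 229) (nat_lit 203)) (XT.nd (nat_lit 78) (nat_lit 0) (nat_lit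 0) (XT.lf (nat_lit 0) (nat_lit 10850675467) (nat_lit 76) (nat_lit 32081819658) (nat_lit 76) (nat_lit 25389002600) (nat_lit 1) (nat_lit 4) (nat_lit 2) (nat_lit 5) (nat_lit 2) (nat_lit 4) (nat_lit 289) (nat_lit 229) (nat_lit 202)) (XT.lf (nat_lit 0) (nat_lit 15622473863) (nat_lit 76) (nat_lit 32370297232) (nat_lit 76) (nat_lit 25606535717) (nat_lit 1) (nat_lit 4) (nat_lit 2) (nat_lit 5) (nat_lit 2) (nat_lit 4) (nat_lit 290) (nat_lit 229) (nat_lit 201)))) (XT.nd (nat_lit 78) (nat_lit 0) (nat_lit 0) (XT.lf (nat_lit 0) (nat_lit 20719841681) (nat_lit 76) (nat_lit 32705826893) (nat_lit 76) (nat_lit 25876376066) (nat_lit 1) (nat_lit 4) (nat_lit 2) (nat_lit 5) (nat_lit 2) (nat_lit 4) (nat_lit 291) (nat_lit 229) (nat_lit 200)) (XT.nd (nat_lit 78) (nat_lit 0) (nat_lit 0) (XT.lf (nat_lit 0) (nat_lit 26172985547) (nat_lit 76) (nat_lit 33090396964) (nat_lit 76) (nat_lit 26200122700) (nat_lit 1)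 (nat_lit 4) (nat_lit 2) (nat_lit 5) (nat_lit 2) (nat_lit 4) (nat_lit 292) (nat_lit 229) (nat_lit 199)) (XT.lf (nat_lit 0) (nat_lit 32014220386) (nat_lit 76) (nat_lit 33526286379) (nat_lit 76) (nat_lit 26579694118) (nat_lit 1) (nat_lit 4) (nat_lit 2) (nat_lit 5) (nat_lit 2) (nat_lit 4) (nat_lit 293) (nat_lit 229) (nat_lit 198)))))) (XT.nd (nat_lit 390) (nat_lit 0) (nat_lit 0) (XT.nd (nat_lit 156) (nat_lit 0) (nat_lit 0) (XT.nd (nat_lit 78) (nat_lit 0) (nat_lit 0) (XT.lf (nat_lit 0) (nat_lit 38278160924) (nat_lit 76) (nat_lit 34016078188) (nat_lit 76) (nat_lit 27017339632) (nat_lit 1) (nat_lit 4) (nat_lit 2) (nat_lit 5) (nat_lit 2) (nat_lit 4) (nat_lit 294) (nat_lit 229) (nat_lit 197)) (XT.lf (nat_lit 0) (nat_lit 45001926808) (nat_lit 76) (nat_lit 34562674859) (nat_lit 76) (nat_lit 27515652698) (nat_lit 1) (nat_lit 4) (nat_lit 2) (nat_lit 5) (nat_lit 2) (nat_lit 4) (nat_lit 295) (nat_lit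 229) (nat_lit 196))) (XT.nd (nat_lit 78) (nat_lit 0) (nat_lit 0) (XT.lf (nat_lit 0) (nat_lit 52225362578) (nat_lit 76) (nat_lit 35169315484) (nat_lit 76) (nat_lit 28077586282) (nat_lit 1) (nat_lit 4) (nat_lit 2) (nat_lit 5) (nat_lit 2) (nat_lit 4) (nat_lit 296) (nat_lit 229) (nat_lit 195)) (XT.nd (nat_lit 78) (nat_lit 0) (nat_lit 0) (XT.lf (nat_lit 0) (nat_lit 59991273777) (nat_lit 76) (nat_lit 35839594971) (nat_lit 76) (nat_lit 28706470359) (nat_lit 1) (nat_lit 4) (nat_lit 2) (nat_lit 5) (nat_lit 2) (nat_lit 4) (nat_lit 297) (nat_lit 229) (nat_lit 194)) (XT.lf (nat_lit 0) (nat_lit 68345680622) (nat_lit 76) (nat_lit 36577485346) (nat_lit 76) (nat_lit 29406031652) (nat_lit 1) (nat_lit 4) (nat_lit 2) (nat_lit 5) (nat_lit 2) (nat_lit 4) (nat_lit 298) (nat_lit 229) (nat_lit 193))))) (XT.nd (nat_lit 234) (nat_lit 0) (nat_lit 0) (XT.nd (nat_lit 78) (nat_lit 0) (nat_lit 0) (XT.lf (nat_lit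 0) (nat_lit 77338090707) (nat_lit 76) (nat_lit 37387359293) (nat_lit 76) (nat_lit 30180415707) (nat_lit 1) (nat_lit 4) (nat_lit 2) (nat_lit 5) (nat_lit 2) (nat_lit 4) (nat_lit 299) (nat_lit 229) (nat_lit 192)) (XT.nd (nat_lit 78) (nat_lit 0) (nat_lit 0) (XT.lf (nat_lit 0) (nat_lit 87021792389) (nat_lit 76) (nat_lit 38274016065) (nat_lit 76) (nat_lit 31034211468) (nat_lit 1) (nat_lit 4) (nat_lit 2) (nat_lit 5) (nat_lit 2) (nat_lit 4) (nat_lit 300) (nat_lit 229) (nat_lit 191)) (XT.lf (nat_lit 0) (nat_lit 97454170567) (nat_lit 76) (nat_lit 39242709924) (nat_lit 76) (nat_lit 31972478466) (nat_lit 1) (nat_lit 4) (nat_lit 2) (nat_lit 5) (nat_lit 2) (nat_lit 4) (nat_lit 301) (nat_lit 229) (nat_lit 190)))) (XT.nd (nat_lit 78) (nat_lit 0) (nat_lit 0) (XT.lf (nat_lit 0) (nat_lit 108697046741) (nat_lit 76) (nat_lit 40299181278) (nat_lit 76) (nat_lit 33000776800) (nat_lit 1) (nat_lit 4) (nat_lit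 2) (nat_lit 5) (nat_lit 2) (nat_lit 4) (nat_lit 302) (nat_lit 229) (nat_lit 189)) (XT.nd (nat_lit 78) (nat_lit 0) (nat_lit 0) (XT.lf (nat_lit 0) (nat_lit 120817045362) (nat_lit 76) (nat_lit 41449690699) (nat_lit 76) (nat_lit 34125200091) (nat_lit 1) (nat_lit 4) (nat_lit 2) (nat_lit 5) (nat_lit 2) (nat_lit 4) (nat_lit 303) (nat_lit 229) (nat_lit 188)) (XT.lf (nat_lit 0) (nat_lit 133885988645) (nat_lit 76) (nat_lit 42701056019) (nat_lit 76) (nat_lit 35352411588) (nat_lit 1) (nat_lit 4) (nat_lit 2) (nat_lit 5) (nat_lit 2) (nat_lit 4) (nat_lit 304) (nat_lit 229) (nat_lit 187))))))))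
noncomputable def xc30 : XT := (XT.nd (nat_lit 1716) (nat_lit 0) (nat_lit 0) (XT.nd (nat_lit 858) (nat_lit 0) (nat_lit 0) (XT.nd (nat_lit 390) (nat_lit 0) (nat_lit 0) (XT.nd (nat_lit 156) (nat_lit 0) (nat_lit 0) (XT.nd (nat_lit 78) (nat_lit 0) (nat_lit 0) (XT.lf (nat_lit 0) (nat_lit 147981322179) (nat_lit 76) (nat_lit 44060692738) (nat_lit 76) (nat_lit 36689683655) (nat_lit 1) (nat_lit 4) (nat_lit 2) (nat_lit 5) (nat_lit 2) (nat_lit 4) (nat_lit 305) (nat_lit 229) (nat_lit 186)) (XT.lf (nat_lit 0) (nat_lit 163186573867) (nat_lit 76) (nat_lit 45536657961) (nat_lit 76) (nat_lit 38144940867) (nat_lit 1) (nat_lit 4) (nat_lit 2) (nat_lit 5) (nat_lit 2) (nat_lit 4) (nat_lit 306) (nat_lit 229) (nat_lit 185))) (XT.nd (nat_lit 78) (nat_lit 0) (nat_lit 0) (XT.lf (nat_lit 0) (nat_lit 179591848904) (nat_lit 76) (nat_lit 47137698149) (nat_lit 76) (nat_lit 39726806971) (nat_lit 1) (nat_lit 4) (nat_lit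 2) (nat_lit 5) (nat_lit 2) (nat_lit 4) (nat_lit 307) (nat_lit 229) (nat_lit 184)) (XT.nd (nat_lit 78) (nat_lit 0) (nat_lit 0) (XT.lf (nat_lit 0) (nat_lit 197294363735) (nat_lit 76) (nat_lit 48873300948) (nat_lit 76) (nat_lit 41444655989) (nat_lit 1) (nat_lit 4) (nat_lit 2) (nat_lit 5) (nat_lit 2) (nat_lit 4) (nat_lit 308) (nat_lit 229) (nat_lit 183)) (XT.lf (nat_lit 0) (nat_lit 216399022151) (nat_lit 76) (nat_lit 50753751411) (nat_lit 76) (nat_lit 43308667766) (nat_lit 1) (nat_lit 4) (nat_lit 2) (nat_lit 5) (nat_lit 2) (nat_lit 4) (nat_lit 309) (nat_lit 229) (nat_lit 182))))) (XT.nd (nat_lit 234) (nat_lit 0) (nat_lit 0) (XT.nd (nat_lit 78) (nat_lit 0) (nat_lit 0) (XT.lf (nat_lit 0) (nat_lit 237019036943) (nat_lit 76) (nat_lit 52790192949) (nat_lit 76) (nat_lit 45329888297) (nat_lit 1) (nat_lit 4) (nat_lit 2) (nat_lit 5) (nat_lit 2) (nat_lit 4) (nat_lit 310) (nat_lit 229) (nat_lit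 181)) (XT.nd (nat_lit 78) (nat_lit 0) (nat_lit 0) (XT.lf (nat_lit 0) (nat_lit 259276600791) (nat_lit 76) (nat_lit 54994693363) (nat_lit 76) (nat_lit 47520295187) (nat_lit 1) (nat_lit 4) (nat_lit 2) (nat_lit 5) (nat_lit 2) (nat_lit 4) (nat_lit 311) (nat_lit 229) (nat_lit 180)) (XT.lf (nat_lit 0) (nat_lit 283303610370) (nat_lit 76) (nat_lit 57380316359) (nat_lit 76) (nat_lit 49892868624) (nat_lit 1) (nat_lit 4) (nat_lit 2) (nat_lit 5) (nat_lit 2) (nat_lit 4) (nat_lit 312) (nat_lit 229) (nat_lit 179)))) (XT.nd (nat_lit 78) (nat_lit 0) (nat_lit 0) (XT.lf (nat_lit 0) (nat_lit 309242447958) (nat_lit 76) (nat_lit 59961198963) (nat_lit 76) (nat_lit 52461668302) (nat_lit 1) (nat_lit 4) (nat_lit 2) (nat_lit 5) (nat_lit 2) (nat_lit 4) (nat_lit 313) (nat_lit 229) (nat_lit 178)) (XT.nd (nat_lit 78) (nat_lit 0) (nat_lit 0) (XT.lf (nat_lit 0) (nat_lit 337246825186) (nat_lit 76) (nat_lit 62752635293)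 (nat_lit 76) (nat_lit 55241916739) (nat_lit 1) (nat_lit 4) (nat_lit 2) (nat_lit 5) (nat_lit 2) (nat_lit 4) (nat_lit 314) (nat_lit 229) (nat_lit 177)) (XT.lf (nat_lit 0) (nat_lit 367482693919) (nat_lit 76) (nat_lit 65771167195) (nat_lit 76) (nat_lit 58250089480) (nat_lit 1) (nat_lit 4) (nat_lit 2) (nat_lit 5) (nat_lit 2) (nat_lit 4) (nat_lit 315) (nat_lit 229) (nat_lit 176)))))) (XT.nd (nat_lit 390) (nat_lit 0) (nat_lit 0) (XT.nd (nat_lit 156) (nat_lit 0) (nat_lit 0) (XT.nd (nat_lit 78) (nat_lit 0) (nat_lit 0) (XT.lf (nat_lit 0) (nat_lit 400129229676) (nat_lit 76) (nat_lit 69034682265) (nat_lit 76) (nat_lit 61504012734) (nat_lit 1) (nat_lit 4) (nat_lit 2) (nat_lit 5) (nat_lit 2) (nat_lit 4) (nat_lit 316) (nat_lit 229) (nat_lit 175)) (XT.lf (nat_lit 0) (nat_lit 435379893409) (nat_lit 76) (nat_lit 72562519851) (nat_lit 76) (nat_lit 65022969009) (nat_lit 1) (nat_lit 4) (nat_lit 2) (nat_lit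 5) (nat_lit 2) (nat_lit 4) (nat_lit 317) (nat_lit 229) (nat_lit 174))) (XT.nd (nat_lit 78) (nat_lit 0) (nat_lit 0) (XT.lf (nat_lit 0) (nat_lit 473443577939) (nat_lit 76) (nat_lit 76375585659) (nat_lit 76) (nat_lit 68827811381) (nat_lit 1) (nat_lit 4) (nat_lit 2) (nat_lit 5) (nat_lit 2) (nat_lit 4) (nat_lit 318) (nat_lit 229) (nat_lit 173)) (XT.nd (nat_lit 78) (nat_lit 0) (nat_lit 0) (XT.lf (nat_lit 0) (nat_lit 514545845843) (nat_lit 76) (nat_lit 80496475632) (nat_lit 76) (nat_lit 72941087062) (nat_lit 1) (nat_lit 4) (nat_lit 2) (nat_lit 5) (nat_lit 2) (nat_lit 4) (nat_lit 319) (nat_lit 229) (nat_lit 172)) (XT.lf (nat_lit 0) (nat_lit 558930266115) (nat_lit 76) (nat_lit 84949609861) (nat_lit 76) (nat_lit 77387171019) (nat_lit 1) (nat_lit 4) (nat_lit 2) (nat_lit 5) (nat_lit 2) (nat_lit 4) (nat_lit 320) (nat_lit 229) (nat_lit 171))))) (XT.nd (nat_lit 234) (nat_lit 0) (nat_lit 0) (XT.nd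 (nat_lit 78) (nat_lit 0) (nat_lit 0) (XT.lf (nat_lit 0) (nat_lit 606859857542) (nat_lit 76) (nat_lit 89761377288) (nat_lit 76) (nat_lit 82192410418) (nat_lit 1) (nat_lit 4) (nat_lit 2) (nat_lit 5) (nat_lit 2) (nat_lit 4) (nat_lit 321) (nat_lit 229) (nat_lit 170)) (XT.nd (nat_lit 78) (nat_lit 0) (nat_lit 0) (XT.lf (nat_lit 0) (nat_lit 658618647332) (nat_lit 76) (nat_lit 94960292091) (nat_lit 76) (nat_lit 87385280750) (nat_lit 1) (nat_lit 4) (nat_lit 2) (nat_lit 5) (nat_lit 2) (nat_lit 4) (nat_lit 322) (nat_lit 229) (nat_lit 169)) (XT.lf (nat_lit 0) (nat_lit 714513354240) (nat_lit 76) (nat_lit 100577162655) (nat_lit 76) (nat_lit 92996554581) (nat_lit 1) (nat_lit 4) (nat_lit 2) (nat_lit 5) (nat_lit 2) (nat_lit 4) (nat_lit 323) (nat_lit 229) (nat_lit 168)))) (XT.nd (nat_lit 78) (nat_lit 0) (nat_lit 0) (XT.lf (nat_lit 0) (nat_lit 774875206158) (nat_lit 76) (nat_lit 106645274137) (nat_lit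 76) (nat_lit 99059483904) (nat_lit 1) (nat_lit 4) (nat_lit 2) (nat_lit 5) (nat_lit 2) (nat_lit 4) (nat_lit 324) (nat_lit 229) (nat_lit 167)) (XT.nd (nat_lit 78) (nat_lit 0) (nat_lit 0) (XT.lf (nat_lit 0) (nat_lit 840061902950) (nat_lit 76) (nat_lit 113200585717) (nat_lit 76) (nat_lit 105609997188) (nat_lit 1) (nat_lit 4) (nat_lit 2) (nat_lit 5) (nat_lit 2) (nat_lit 4) (nat_lit 325) (nat_lit 229) (nat_lit 166)) (XT.lf (nat_lit 0) (nat_lit 910459736152) (nat_lit 76) (nat_lit 120281943686) (nat_lit 76) (nat_lit 112686912290) (nat_lit 1) (nat_lit 4) (nat_lit 2) (nat_lit 5) (nat_lit 2) (nat_lit 4) (nat_lit 326) (nat_lit 229) (nat_lit 165))))))) (XT.nd (nat_lit 32682) (nat_lit 0) (nat_lit 228) (XT.nd (nat_lit 390) (nat_lit 0) (nat_lit 0) (XT.nd (nat_lit 156) (nat_lit 0) (nat_lit 0) (XT.nd (nat_lit 78) (nat_lit 0) (nat_lit 0) (XT.lf (nat_lit 0) (nat_lit 986485878110) (nat_lit 76) (nat_lit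 127931311646) (nat_lit 76) (nat_lit 120332166485) (nat_lit 1) (nat_lit 4) (nat_lit 2) (nat_lit 5) (nat_lit 2) (nat_lit 4) (nat_lit 327) (nat_lit 229) (nat_lit 164)) (XT.lf (nat_lit 0) (nat_lit 1068590854108) (nat_lit 76) (nat_lit 136194019186) (nat_lit 76) (nat_lit 128591064984) (nat_lit 1) (nat_lit 4) (nat_lit 2) (nat_lit 5) (nat_lit 2) (nat_lit 4) (nat_lit 328) (nat_lit 229) (nat_lit 163))) (XT.nd (nat_lit 78) (nat_lit 0) (nat_lit 0) (XT.lf (nat_lit 0) (nat_lit 1157261212152) (nat_lit 76) (nat_lit 145119030499) (nat_lit 76) (nat_lit 137512549405) (nat_lit 1) (nat_lit 4) (nat_lit 2) (nat_lit 5) (nat_lit 2) (nat_lit 4) (nat_lit 329) (nat_lit 229) (nat_lit 162)) (XT.nd (nat_lit 78) (nat_lit 0) (nat_lit 0) (XT.lf (nat_lit 0) (nat_lit 1253022406217) (nat_lit 76) (nat_lit 154759234540) (nat_lit 76) (nat_lit 147149487807) (nat_lit 1) (nat_lit 4) (nat_lit 2) (nat_lit 5) (nat_lit 2) (nat_lit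 4) (nat_lit 330) (nat_lit 229) (nat_lit 161)) (XT.lf (nat_lit 0) (nat_lit 1356441910045) (nat_lit 76) (nat_lit 165171758444) (nat_lit 76) (nat_lit 157558987971) (nat_lit 1) (nat_lit 4) (nat_lit 2) (nat_lit 5) (nat_lit 2) (nat_lit 4) (nat_lit 331) (nat_lit 229) (nat_lit 160))))) (XT.nd (nat_lit 32058) (nat_lit 0) (nat_lit 608) (XT.nd (nat_lit 31902) (nat_lit 0) (nat_lit 760) (XT.lf (nat_lit 0) (nat_lit 1468132579955) (nat_lit 76) (nat_lit 176418306057) (nat_lit 76) (nat_lit 168802735824) (nat_lit 1) (nat_lit 4) (nat_lit 2) (nat_lit 5) (nat_lit 2) (nat_lit 4) (nat_lit 332) (nat_lit 229) (nat_lit 159)) (XT.nd (nat_lit 78) (nat_lit 152) (nat_lit 0) (XT.lf (nat_lit 0) (nat_lit 1612929663) (nat_lit 228) (nat_lit 1985890360) (nat_lit 0) (nat_lit 1612929663) (nat_lit 13) (nat_lit 5) (nat_lit 16) (nat_lit 4) (nat_lit 13) (nat_lit 4) (nat_lit 260) (nat_lit 230) (nat_lit 230)) (XT.lf (nat_lit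 0) (nat_lit 1210196892) (nat_lit 152) (nat_lit 5242761578) (nat_lit 152) (nat_lit 4471760671) (nat_lit 11) (nat_lit 4) (nat_lit 13) (nat_lit 5) (nat_lit 13) (nat_lit 4) (nat_lit 261) (nat_lit 230) (nat_lit 229)))) (XT.nd (nat_lit 78) (nat_lit 152) (nat_lit 0) (XT.lf (nat_lit 0) (nat_lit 6753444844) (nat_lit 152) (nat_lit 3102718974) (nat_lit 152) (nat_lit 1617828337) (nat_lit 11) (nat_lit 4) (nat_lit 13) (nat_lit 5) (nat_lit 13) (nat_lit 4) (nat_lit 262) (nat_lit 230) (nat_lit 228)) (XT.nd (nat_lit 78) (nat_lit 0) (nat_lit 0) (XT.lf (nat_lit 0) (nat_lit 387846214) (nat_lit 76) (nat_lit 830300833) (nat_lit 152) (nat_lit 10861275973) (nat_lit 9) (nat_lit 5) (nat_lit 10) (nat_lit 5) (nat_lit 11) (nat_lit 4) (nat_lit 263) (nat_lit 230) (nat_lit 227)) (XT.lf (nat_lit 0) (nat_lit 4187822922) (nat_lit 152) (nat_lit 6909499416) (nat_lit 0) (nat_lit 1634170123) (nat_lit 9) (nat_lit 5) (nat_lit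 11) (nat_lit 4) (nat_lit 9) (nat_lit 4) (nat_lit 264) (nat_lit 230) (nat_lit 226)))))) (XT.nd (nat_lit 390) (nat_lit 76) (nat_lit 0) (XT.nd (nat_lit 156) (nat_lit 152) (nat_lit 0) (XT.nd (nat_lit 78) (nat_lit 152) (nat_lit 0) (XT.lf (nat_lit 0) (nat_lit 7252520205) (nat_lit 152) (nat_lit 2021496547) (nat_lit 0) (nat_lit 4174137143) (nat_lit 9) (nat_lit 5) (nat_lit 11) (nat_lit 4) (nat_lit 9) (nat_lit 4) (nat_lit 265) (nat_lit 230) (nat_lit 225)) (XT.lf (nat_lit 0) (nat_lit 3180466303) (nat_lit 152) (nat_lit 7306455298) (nat_lit 152) (nat_lit 3742210882) (nat_lit 7) (nat_lit 4) (nat_lit 9) (nat_lit 5) (nat_lit 9) (nat_lit 4) (nat_lit 266) (nat_lit 230) (nat_lit 224))) (XT.nd (nat_lit 78) (nat_lit 152) (nat_lit 0) (XT.lf (nat_lit 0) (nat_lit 8683349671) (nat_lit 152) (nat_lit 5205754883) (nat_lit 152) (nat_lit 1191638843) (nat_lit 7) (nat_lit 4) (nat_lit 9) (nat_lit 5) (nat_lit 9) (nat_lit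 4) (nat_lit 267) (nat_lit 230) (nat_lit 223)) (XT.nd (nat_lit 78) (nat_lit 76) (nat_lit 0) (XT.lf (nat_lit 0) (nat_lit 1345095294) (nat_lit 228) (nat_lit 1632865627) (nat_lit 76) (nat_lit 13031442224) (nat_lit 6) (nat_lit 5) (nat_lit 9) (nat_lit 5) (nat_lit 7) (nat_lit 4) (nat_lit 268) (nat_lit 230) (nat_lit 222)) (XT.lf (nat_lit 0) (nat_lit 3449567288) (nat_lit 76) (nat_lit 524434411) (nat_lit 152) (nat_lit 13040284513) (nat_lit 5) (nat_lit 5) (nat_lit 6) (nat_lit 5) (nat_lit 7) (nat_lit 4) (nat_lit 269) (nat_lit 230) (nat_lit 221))))) (XT.nd (nat_lit 234) (nat_lit 76) (nat_lit 0) (XT.nd (nat_lit 78) (nat_lit 0) (nat_lit 0) (XT.lf (nat_lit 0) (nat_lit 6783764478) (nat_lit 152) (nat_lit 9325289827) (nat_lit 0) (nat_lit 1993506286) (nat_lit 5) (nat_lit 5) (nat_lit 7) (nat_lit 4) (nat_lit 5) (nat_lit 4) (nat_lit 270) (nat_lit 230) (nat_lit 220)) (XT.nd (nat_lit 78) (nat_lit 0) (nat_lit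 0) (XT.lf (nat_lit 0) (nat_lit 9714914673) (nat_lit 152) (nat_lit 4953368783) (nat_lit 0) (nat_lit 4618481412) (nat_lit 5) (nat_lit 5) (nat_lit 7) (nat_lit 4) (nat_lit 5) (nat_lit 4) (nat_lit 271) (nat_lit 230) (nat_lit 219)) (XT.lf (nat_lit 0) (nat_lit 12772209402) (nat_lit 152) (nat_lit 410435452) (nat_lit 0) (nat_lit 7392280707) (nat_lit 5) (nat_lit 5) (nat_lit 7) (nat_lit 4) (nat_lit 5) (nat_lit 4) (nat_lit 272) (nat_lit 230) (nat_lit 218)))) (XT.nd (nat_lit 78) (nat_lit 0) (nat_lit 0) (XT.lf (nat_lit 0) (nat_lit 4558464085) (nat_lit 76) (nat_lit 11524933052) (nat_lit 76) (nat_lit 5882508586) (nat_lit 4) (nat_lit 4) (nat_lit 5) (nat_lit 5) (nat_lit 5) (nat_lit 4) (nat_lit 273) (nat_lit 230) (nat_lit 217)) (XT.nd (nat_lit 78) (nat_lit 0) (nat_lit 0) (XT.lf (nat_lit 0) (nat_lit 9786906027) (nat_lit 76) (nat_lit 9787025854) (nat_lit 76) (nat_lit 3901549747) (nat_lit 4) (nat_lit 4)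 (nat_lit 5) (nat_lit 5) (nat_lit 5) (nat_lit 4) (nat_lit 274) (nat_lit 230) (nat_lit 216)) (XT.lf (nat_lit 0) (nat_lit 15284260928) (nat_lit 76) (nat_lit 7969846583) (nat_lit 76) (nat_lit 1859322661) (nat_lit 4) (nat_lit 4) (nat_lit 5) (nat_lit 5) (nat_lit 5) (nat_lit 4) (nat_lit 275) (nat_lit 230) (nat_lit 215))))))))
noncomputable def xc31 : XT := (XT.nd (nat_lit 1716) (nat_lit 0) (nat_lit 0) (XT.nd (nat_lit 858) (nat_lit 76) (nat_lit 0) (XT.nd (nat_lit 390) (nat_lit 0) (nat_lit 0) (XT.nd (nat_lit 156) (nat_lit 76) (nat_lit 0) (XT.nd (nat_lit 78) (nat_lit 0) (nat_lit 0) (XT.lf (nat_lit 0) (nat_lit 243454858) (nat_lit 152) (nat_lit 5812515424) (nat_lit 76) (nat_lit 20832994362) (nat_lit 3) (nat_lit 5) (nat_lit 5) (nat_lit 5) (nat_lit 4) (nat_lit 4) (nat_lit 276) (nat_lit 230) (nat_lit 214)) (XT.lf (nat_lit 0) (nat_lit 2334831308) (nat_lit 152) (nat_lit 1655394635) (nat_lit 76) (nat_lit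 24819134153) (nat_lit 3) (nat_lit 5) (nat_lit 5) (nat_lit 5) (nat_lit 4) (nat_lit 4) (nat_lit 277) (nat_lit 230) (nat_lit 213))) (XT.nd (nat_lit 78) (nat_lit 0) (nat_lit 0) (XT.lf (nat_lit 0) (nat_lit 2854329803) (nat_lit 76) (nat_lit 1734527779) (nat_lit 152) (nat_lit 26295224675) (nat_lit 2) (nat_lit 5) (nat_lit 3) (nat_lit 5) (nat_lit 4) (nat_lit 4) (nat_lit 278) (nat_lit 230) (nat_lit 212)) (XT.nd (nat_lit 78) (nat_lit 0) (nat_lit 0) (XT.lf (nat_lit 0) (nat_lit 7014587069) (nat_lit 152) (nat_lit 25444661528) (nat_lit 0) (nat_lit 666521484) (nat_lit 2) (nat_lit 5) (nat_lit 4) (nat_lit 4) (nat_lit 2) (nat_lit 4) (nat_lit 279) (nat_lit 230) (nat_lit 211)) (XT.lf (nat_lit 0) (nat_lit 9612825673) (nat_lit 152) (nat_lit 22813025681) (nat_lit 0) (nat_lit 3122941790) (nat_lit 2) (nat_lit 5) (nat_lit 4) (nat_lit 4) (nat_lit 2) (nat_lit 4) (nat_lit 280) (nat_lit 230) (nat_lit 210))))) (XT.nd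 (nat_lit 234) (nat_lit 0) (nat_lit 0) (XT.nd (nat_lit 78) (nat_lit 0) (nat_lit 0) (XT.lf (nat_lit 0) (nat_lit 12357254931) (nat_lit 152) (nat_lit 20077534599) (nat_lit 0) (nat_lit 5736057809) (nat_lit 2) (nat_lit 5) (nat_lit 4) (nat_lit 4) (nat_lit 2) (nat_lit 4) (nat_lit 281) (nat_lit 230) (nat_lit 209)) (XT.nd (nat_lit 78) (nat_lit 0) (nat_lit 0) (XT.lf (nat_lit 0) (nat_lit 15264138127) (nat_lit 152) (nat_lit 17221977965) (nat_lit 0) (nat_lit 8521354673) (nat_lit 2) (nat_lit 5) (nat_lit 4) (nat_lit 4) (nat_lit 2) (nat_lit 4) (nat_lit 282) (nat_lit 230) (nat_lit 208)) (XT.lf (nat_lit 0) (nat_lit 18350701235) (nat_lit 152) (nat_lit 14229433961) (nat_lit 0) (nat_lit 11495337844) (nat_lit 2) (nat_lit 5) (nat_lit 4) (nat_lit 4) (nat_lit 2) (nat_lit 4) (nat_lit 283) (nat_lit 230) (nat_lit 207)))) (XT.nd (nat_lit 78) (nat_lit 0) (nat_lit 0) (XT.lf (nat_lit 0) (nat_lit 21635235000) (nat_lit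 152) (nat_lit 11082168994) (nat_lit 0) (nat_lit 14675630926) (nat_lit 2) (nat_lit 5) (nat_lit 4) (nat_lit 4) (nat_lit 2) (nat_lit 4) (nat_lit 284) (nat_lit 230) (nat_lit 206)) (XT.nd (nat_lit 78) (nat_lit 0) (nat_lit 0) (XT.lf (nat_lit 0) (nat_lit 25137203325) (nat_lit 152) (nat_lit 7761532604) (nat_lit 0) (nat_lit 18081080101) (nat_lit 2) (nat_lit 5) (nat_lit 4) (nat_lit 4) (nat_lit 2) (nat_lit 4) (nat_lit 285) (nat_lit 230) (nat_lit 205)) (XT.lf (nat_lit 0) (nat_lit 28877358616) (nat_lit 152) (nat_lit 4247846946) (nat_lit 0) (nat_lit 21731865808) (nat_lit 2) (nat_lit 5) (nat_lit 4) (nat_lit 4) (nat_lit 2) (nat_lit 4) (nat_lit 286) (nat_lit 230) (nat_lit 204)))))) (XT.nd (nat_lit 390) (nat_lit 0) (nat_lit 0) (XT.nd (nat_lit 156) (nat_lit 0) (nat_lit 0) (XT.nd (nat_lit 78) (nat_lit 76) (nat_lit 0) (XT.lf (nat_lit 0) (nat_lit 32877864755) (nat_lit 152) (nat_lit 520290179) (nat_lit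 0) (nat_lit 25649622332) (nat_lit 2) (nat_lit 5) (nat_lit 4) (nat_lit 4) (nat_lit 2) (nat_lit 4) (nat_lit 287) (nat_lit 230) (nat_lit 203)) (XT.lf (nat_lit 0) (nat_lit 3624541149) (nat_lit 76) (nat_lit 33625057598) (nat_lit 76) (nat_lit 26320195162) (nat_lit 1) (nat_lit 4) (nat_lit 2) (nat_lit 5) (nat_lit 2) (nat_lit 4) (nat_lit 288) (nat_lit 230) (nat_lit 202))) (XT.nd (nat_lit 78) (nat_lit 0) (nat_lit 0) (XT.lf (nat_lit 0) (nat_lit 8069879943) (nat_lit 76) (nat_lit 33880640559) (nat_lit 76) (nat_lit 26504833665) (nat_lit 1) (nat_lit 4) (nat_lit 2) (nat_lit 5) (nat_lit 2) (nat_lit 4) (nat_lit 289) (nat_lit 230) (nat_lit 201)) (XT.nd (nat_lit 78) (nat_lit 0) (nat_lit 0) (XT.lf (nat_lit 0) (nat_lit 12814671392) (nat_lit 76) (nat_lit 34180644037) (nat_lit 76) (nat_lit 26739147831) (nat_lit 1) (nat_lit 4) (nat_lit 2) (nat_lit 5) (nat_lit 2) (nat_lit 4) (nat_lit 290) (nat_lit 230) (nat_lit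 200)) (XT.lf (nat_lit 0) (nat_lit 17887032778) (nat_lit 76) (nat_lit 34526845831) (nat_lit 76) (nat_lit 27024526188) (nat_lit 1) (nat_lit 4) (nat_lit 2) (nat_lit 5) (nat_lit 2) (nat_lit 4) (nat_lit 291) (nat_lit 230) (nat_lit 199))))) (XT.nd (nat_lit 234) (nat_lit 0) (nat_lit 0) (XT.nd (nat_lit 78) (nat_lit 0) (nat_lit 0) (XT.lf (nat_lit 0) (nat_lit 23317022540) (nat_lit 76) (nat_lit 34921297507) (nat_lit 76) (nat_lit 27362659867) (nat_lit 1) (nat_lit 4) (nat_lit 2) (nat_lit 5) (nat_lit 2) (nat_lit 4) (nat_lit 292) (nat_lit 230) (nat_lit 198)) (XT.nd (nat_lit 78) (nat_lit 0) (nat_lit 0) (XT.lf (nat_lit 0) (nat_lit 29136818394) (nat_lit 76) (nat_lit 35366336557) (nat_lit 76) (nat_lit 27755552623) (nat_lit 1) (nat_lit 4) (nat_lit 2) (nat_lit 5) (nat_lit 2) (nat_lit 4) (nat_lit 293) (nat_lit 230) (nat_lit 197)) (XT.lf (nat_lit 0) (nat_lit 35380908021) (nat_lit 76) (nat_lit 35864600249)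 (nat_lit 76) (nat_lit 28205532710) (nat_lit 1) (nat_lit 4) (nat_lit 2) (nat_lit 5) (nat_lit 2) (nat_lit 4) (nat_lit 294) (nat_lit 230) (nat_lit 196)))) (XT.nd (nat_lit 78) (nat_lit 0) (nat_lit 0) (XT.lf (nat_lit 0) (nat_lit 42086293431) (nat_lit 76) (nat_lit 36419041257) (nat_lit 76) (nat_lit 28715266676) (nat_lit 1) (nat_lit 4) (nat_lit 2) (nat_lit 5) (nat_lit 2) (nat_lit 4) (nat_lit 295) (nat_lit 230) (nat_lit 195)) (XT.nd (nat_lit 78) (nat_lit 0) (nat_lit 0) (XT.lf (nat_lit 0) (nat_lit 49292710243) (nat_lit 76) (nat_lit 37032945157) (nat_lit 76) (nat_lit 29287775167) (nat_lit 1) (nat_lit 4) (nat_lit 2) (nat_lit 5) (nat_lit 2) (nat_lit 4) (nat_lit 296) (nat_lit 230) (nat_lit 194)) (XT.lf (nat_lit 0) (nat_lit 57042863149) (nat_lit 76) (nat_lit 37709949898) (nat_lit 76) (nat_lit 29926450826) (nat_lit 1) (nat_lit 4) (nat_lit 2) (nat_lit 5) (nat_lit 2) (nat_lit 4) (nat_lit 297) (nat_lit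 230) (nat_lit 193))))))) (XT.nd (nat_lit 858) (nat_lit 0) (nat_lit 0) (XT.nd (nat_lit 390) (nat_lit 0) (nat_lit 0) (XT.nd (nat_lit 156) (nat_lit 0) (nat_lit 0) (XT.nd (nat_lit 78) (nat_lit 0) (nat_lit 0) (XT.lf (nat_lit 0) (nat_lit 65382678980) (nat_lit 76) (nat_lit 38454067361) (nat_lit 76) (nat_lit 30635078397) (nat_lit 1) (nat_lit 4) (nat_lit 2) (nat_lit 5) (nat_lit 2) (nat_lit 4) (nat_lit 298) (nat_lit 230) (nat_lit 192)) (XT.lf (nat_lit 0) (nat_lit 74361578868) (nat_lit 76) (nat_lit 39269707129) (nat_lit 76) (nat_lit 31417857155) (nat_lit 1) (nat_lit 4) (nat_lit 2) (nat_lit 5) (nat_lit 2) (nat_lit 4) (nat_lit 299) (nat_lit 230) (nat_lit 191))) (XT.nd (nat_lit 78) (nat_lit 0) (nat_lit 0) (XT.lf (nat_lit 0) (nat_lit 84032771109) (nat_lit 76) (nat_lit 40161702625) (nat_lit 76) (nat_lit 32279425789) (nat_lit 1) (nat_lit 4) (nat_lit 2) (nat_lit 5) (nat_lit 2) (nat_lit 4) (nat_lit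 300) (nat_lit 230) (nat_lit 190)) (XT.nd (nat_lit 78) (nat_lit 0) (nat_lit 0) (XT.lf (nat_lit 0) (nat_lit 94453566470) (nat_lit 76) (nat_lit 41135339747) (nat_lit 76) (nat_lit 33224889891) (nat_lit 1) (nat_lit 4) (nat_lit 2) (nat_lit 5) (nat_lit 2) (nat_lit 4) (nat_lit 301) (nat_lit 230) (nat_lit 189)) (XT.lf (nat_lit 0) (nat_lit 105685717814) (nat_lit 76) (nat_lit 42196388196) (nat_lit 76) (nat_lit 34259852210) (nat_lit 1) (nat_lit 4) (nat_lit 2) (nat_lit 5) (nat_lit 2) (nat_lit 4) (nat_lit 302) (nat_lit 230) (nat_lit 188))))) (XT.nd (nat_lit 234) (nat_lit 0) (nat_lit 0) (XT.nd (nat_lit 78) (nat_lit 0) (nat_lit 0) (XT.lf (nat_lit 0) (nat_lit 117795786037) (nat_lit 76) (nat_lit 43351135668) (nat_lit 76) (nat_lit 35390445858) (nat_lit 1) (nat_lit 4) (nat_lit 2) (nat_lit 5) (nat_lit 2) (nat_lit 4) (nat_lit 303) (nat_lit 230) (nat_lit 187)) (XT.nd (nat_lit 78) (nat_lit 0) (nat_lit 0)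 (XT.lf (nat_lit 0) (nat_lit 130855534507) (nat_lit 76) (nat_lit 44606425110) (nat_lit 76) (nat_lit 36623370649) (nat_lit 1) (nat_lit 4) (nat_lit 2) (nat_lit 5) (nat_lit 2) (nat_lit 4) (nat_lit 304) (nat_lit 230) (nat_lit 186)) (XT.lf (nat_lit 0) (nat_lit 144942354325) (nat_lit 76) (nat_lit 45969695274) (nat_lit 76) (nat_lit 37965932802) (nat_lit 1) (nat_lit 4) (nat_lit 2) (nat_lit 5) (nat_lit 2) (nat_lit 4) (nat_lit 305) (nat_lit 230) (nat_lit 185)))) (XT.nd (nat_lit 78) (nat_lit 0) (nat_lit 0) (XT.lf (nat_lit 0) (nat_lit 160139722943) (nat_lit 76) (nat_lit 47449024799) (nat_lit 76) (nat_lit 39426088243) (nat_lit 1) (nat_lit 4) (nat_lit 2) (nat_lit 5) (nat_lit 2) (nat_lit 4) (nat_lit 306) (nat_lit 230) (nat_lit 184)) (XT.nd (nat_lit 78) (nat_lit 0) (nat_lit 0) (XT.lf (nat_lit 0) (nat_lit 176537698841) (nat_lit 76) (nat_lit 49053180081) (nat_lit 76) (nat_lit 41012489744) (nat_lit 1)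 (nat_lit 4) (nat_lit 2) (nat_lit 5) (nat_lit 2) (nat_lit 4) (nat_lit 307) (nat_lit 230) (nat_lit 183)) (XT.lf (nat_lit 0) (nat_lit 194233455210) (nat_lit 76) (nat_lit 50791667226) (nat_lit 76) (nat_lit 42734538202) (nat_lit 1) (nat_lit 4) (nat_lit 2) (nat_lit 5) (nat_lit 2) (nat_lit 4) (nat_lit 308) (nat_lit 230) (nat_lit 182)))))) (XT.nd (nat_lit 390) (nat_lit 0) (nat_lit 0) (XT.nd (nat_lit 156) (nat_lit 0) (nat_lit 0) (XT.nd (nat_lit 78) (nat_lit 0) (nat_lit 0) (XT.lf (nat_lit 0) (nat_lit 213331855791) (nat_lit 76) (nat_lit 52674788381) (nat_lit 76) (nat_lit 44602438351) (nat_lit 1) (nat_lit 4) (nat_lit 2) (nat_lit 5) (nat_lit 2) (nat_lit 4) (nat_lit 309) (nat_lit 230) (nat_lit 181)) (XT.lf (nat_lit 0) (nat_lit 233946076290) (nat_lit 76) (nat_lit 54713702780) (nat_lit 76) (nat_lit 46627259226) (nat_lit 1) (nat_lit 4) (nat_lit 2) (nat_lit 5) (nat_lit 2) (nat_lit 4) (nat_lit 310)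 (nat_lit 230) (nat_lit 180))) (XT.nd (nat_lit 78) (nat_lit 0) (nat_lit 0) (XT.lf (nat_lit 0) (nat_lit 256198275053) (nat_lit 76) (nat_lit 56920492881) (nat_lit 76) (nat_lit 48820999768) (nat_lit 1) (nat_lit 4) (nat_lit 2) (nat_lit 5) (nat_lit 2) (nat_lit 4) (nat_lit 311) (nat_lit 230) (nat_lit 179)) (XT.nd (nat_lit 78) (nat_lit 0) (nat_lit 0) (XT.lf (nat_lit 0) (nat_lit 280220316960) (nat_lit 76) (nat_lit 59308235958) (nat_lit 76) (nat_lit 51196659919) (nat_lit 1) (nat_lit 4) (nat_lit 2) (nat_lit 5) (nat_lit 2) (nat_lit 4) (nat_lit 312) (nat_lit 230) (nat_lit 178)) (XT.lf (nat_lit 0) (nat_lit 306154554853) (nat_lit 76) (nat_lit 61891081600) (nat_lit 76) (nat_lit 53768317667) (nat_lit 1) (nat_lit 4) (nat_lit 2) (nat_lit 5) (nat_lit 2) (nat_lit 4) (nat_lit 313) (nat_lit 230) (nat_lit 177))))) (XT.nd (nat_lit 234) (nat_lit 0) (nat_lit 0) (XT.nd (nat_lit 78) (nat_lit 0) (nat_lit 0) (XT.lf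 (nat_lit 0) (nat_lit 334154673104) (nat_lit 76) (nat_lit 64684335558) (nat_lit 76) (nat_lit 56551212464) (nat_lit 1) (nat_lit 4) (nat_lit 2) (nat_lit 5) (nat_lit 2) (nat_lit 4) (nat_lit 314) (nat_lit 230) (nat_lit 176)) (XT.nd (nat_lit 78) (nat_lit 0) (nat_lit 0) (XT.lf (nat_lit 0) (nat_lit 364386598339) (nat_lit 76) (nat_lit 67704550448) (nat_lit 76) (nat_lit 59561835538) (nat_lit 1) (nat_lit 4) (nat_lit 2) (nat_lit 5) (nat_lit 2) (nat_lit 4) (nat_lit 315) (nat_lit 230) (nat_lit 175)) (XT.lf (nat_lit 0) (nat_lit 397029482709) (nat_lit 76) (nat_lit 70969623840) (nat_lit 76) (nat_lit 62818027620) (nat_lit 1) (nat_lit 4) (nat_lit 2) (nat_lit 5) (nat_lit 2) (nat_lit 4) (nat_lit 316) (nat_lit 230) (nat_lit 174)))) (XT.nd (nat_lit 78) (nat_lit 0) (nat_lit 0) (XT.lf (nat_lit 0) (nat_lit 432276765528) (nat_lit 76) (nat_lit 74498904318) (nat_lit 76) (nat_lit 66339084662) (nat_lit 1) (nat_lit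 4) (nat_lit 2) (nat_lit 5) (nat_lit 2) (nat_lit 4) (nat_lit 317) (nat_lit 230) (nat_lit 173)) (XT.nd (nat_lit 78) (nat_lit 0) (nat_lit 0) (XT.lf (nat_lit 0) (nat_lit 470337319583) (nat_lit 76) (nat_lit 78313306136) (nat_lit 76) (nat_lit 70145872187) (nat_lit 1) (nat_lit 4) (nat_lit 2) (nat_lit 5) (nat_lit 2) (nat_lit 4) (nat_lit 318) (nat_lit 230) (nat_lit 172)) (XT.lf (nat_lit 0) (nat_lit 511436688898) (nat_lit 76) (nat_lit 82435433156) (nat_lit 76) (nat_lit 74260948936) (nat_lit 1) (nat_lit 4) (nat_lit 2) (nat_lit 5) (nat_lit 2) (nat_lit 4) (nat_lit 319) (nat_lit 230) (nat_lit 171))))))))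
noncomputable def xc32 : XT := (XT.nd (nat_lit 33306) (nat_lit 0) (nat_lit 76) (XT.nd (nat_lit 780) (nat_lit 0) (nat_lit 0) (XT.nd (nat_lit 390) (nat_lit 0) (nat_lit 0) (XT.nd (nat_lit 156) (nat_lit 0) (nat_lit 0) (XT.nd (nat_lit 78) (nat_lit 0) (nat_lit 0) (XT.lf (nat_lit 0) (nat_lit 555818425292) (nat_lit 76) (nat_lit 86889712798) (nat_lit 76) (nat_lit 78708700550) (nat_lit 1) (nat_lit 4) (nat_lit 2) (nat_lit 5) (nat_lit 2) (nat_lit 4) (nat_lit 320) (nat_lit 230) (nat_lit 170)) (XT.lf (nat_lit 0) (nat_lit 603745531646) (nat_lit 76) (nat_lit 91702540794) (nat_lit 76) (nat_lit 83515484074) (nat_lit 1) (nat_lit 4) (nat_lit 2) (nat_lit 5) (nat_lit 2) (nat_lit 4) (nat_lit 321) (nat_lit 230) (nat_lit 169))) (XT.nd (nat_lit 78) (nat_lit 0) (nat_lit 0) (XT.lf (nat_lit 0) (nat_lit 655502020443) (nat_lit 76) (nat_lit 96902437604) (nat_lit 76) (nat_lit 88709784153) (nat_lit 1) (nat_lit 4)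 (nat_lit 2) (nat_lit 5) (nat_lit 2) (nat_lit 4) (nat_lit 322) (nat_lit 230) (nat_lit 168)) (XT.nd (nat_lit 78) (nat_lit 0) (nat_lit 0) (XT.lf (nat_lit 0) (nat_lit 711394596802) (nat_lit 76) (nat_lit 102520217434) (nat_lit 76) (nat_lit 94322381823) (nat_lit 1) (nat_lit 4) (nat_lit 2) (nat_lit 5) (nat_lit 2) (nat_lit 4) (nat_lit 323) (nat_lit 230) (nat_lit 167)) (XT.lf (nat_lit 0) (nat_lit 771754475990) (nat_lit 76) (nat_lit 108589170829) (nat_lit 76) (nat_lit 100386536922) (nat_lit 1) (nat_lit 4) (nat_lit 2) (nat_lit 5) (nat_lit 2) (nat_lit 4) (nat_lit 324) (nat_lit 230) (nat_lit 166))))) (XT.nd (nat_lit 156) (nat_lit 0) (nat_lit 0) (XT.nd (nat_lit 78) (nat_lit 0) (nat_lit 0) (XT.lf (nat_lit 0) (nat_lit 836939346179) (nat_lit 76) (nat_lit 115145261958) (nat_lit 76) (nat_lit 106938185185) (nat_lit 1) (nat_lit 4) (nat_lit 2) (nat_lit 5) (nat_lit 2) (nat_lit 4) (nat_lit 325) (nat_lit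 230) (nat_lit 165)) (XT.lf (nat_lit 0) (nat_lit 907335488083) (nat_lit 76) (nat_lit 122227341732) (nat_lit 76) (nat_lit 114016151193) (nat_lit 1) (nat_lit 4) (nat_lit 2) (nat_lit 5) (nat_lit 2) (nat_lit 4) (nat_lit 326) (nat_lit 230) (nat_lit 164))) (XT.nd (nat_lit 78) (nat_lit 0) (nat_lit 0) (XT.lf (nat_lit 0) (nat_lit 983360064023) (nat_lit 76) (nat_lit 129877378031) (nat_lit 76) (nat_lit 121662378450) (nat_lit 1) (nat_lit 4) (nat_lit 2) (nat_lit 5) (nat_lit 2) (nat_lit 4) (nat_lit 327) (nat_lit 230) (nat_lit 163)) (XT.nd (nat_lit 78) (nat_lit 0) (nat_lit 0) (XT.lf (nat_lit 0) (nat_lit 1065463590005) (nat_lit 76) (nat_lit 138140704402) (nat_lit 76) (nat_lit 129922177930) (nat_lit 1) (nat_lit 4) (nat_lit 2) (nat_lit 5) (nat_lit 2) (nat_lit 4) (nat_lit 328) (nat_lit 230) (nat_lit 162)) (XT.lf (nat_lit 0) (nat_lit 1154132605442) (nat_lit 76) (nat_lit 147066288707) (nat_lit 76) (nat_lit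 138844496595) (nat_lit 1) (nat_lit 4) (nat_lit 2) (nat_lit 5) (nat_lit 2) (nat_lit 4) (nat_lit 329) (nat_lit 230) (nat_lit 161)))))) (XT.nd (nat_lit 32058) (nat_lit 0) (nat_lit 608) (XT.nd (nat_lit 156) (nat_lit 0) (nat_lit 0) (XT.nd (nat_lit 78) (nat_lit 0) (nat_lit 0) (XT.lf (nat_lit 0) (nat_lit 1249892556352) (nat_lit 76) (nat_lit 156707023296) (nat_lit 76) (nat_lit 148482207444) (nat_lit 1) (nat_lit 4) (nat_lit 2) (nat_lit 5) (nat_lit 2) (nat_lit 4) (nat_lit 330) (nat_lit 230) (nat_lit 160)) (XT.lf (nat_lit 0) (nat_lit 1353310909111) (nat_lit 76) (nat_lit 167120038448) (nat_lit 76) (nat_lit 158892422837) (nat_lit 1) (nat_lit 4) (nat_lit 2) (nat_lit 5) (nat_lit 2) (nat_lit 4) (nat_lit 331) (nat_lit 230) (nat_lit 159))) (XT.nd (nat_lit 31746) (nat_lit 0) (nat_lit 912) (XT.lf (nat_lit 0) (nat_lit 1465000513216) (nat_lit 76) (nat_lit 178367040921) (nat_lit 76) (nat_lit 170136832940)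 (nat_lit 1) (nat_lit 4) (nat_lit 2) (nat_lit 5) (nat_lit 2) (nat_lit 4) (nat_lit 332) (nat_lit 230) (nat_lit 158)) (XT.nd (nat_lit 78) (nat_lit 228) (nat_lit 0) (XT.lf (nat_lit 0) (nat_lit 2733208213) (nat_lit 152) (nat_lit 1020542211) (nat_lit 152) (nat_lit 1020542211) (nat_lit 16) (nat_lit 4) (nat_lit 18) (nat_lit 5) (nat_lit 18) (nat_lit 4) (nat_lit 258) (nat_lit 231) (nat_lit 231)) (XT.lf (nat_lit 0) (nat_lit 913491573) (nat_lit 228) (nat_lit 8979055074) (nat_lit 0) (nat_lit 80810593) (nat_lit 13) (nat_lit 5) (nat_lit 16) (nat_lit 4) (nat_lit 13) (nat_lit 4) (nat_lit 259) (nat_lit 231) (nat_lit 230))))) (XT.nd (nat_lit 234) (nat_lit 152) (nat_lit 0) (XT.nd (nat_lit 78) (nat_lit 152) (nat_lit 0) (XT.lf (nat_lit 0) (nat_lit 3963031291) (nat_lit 228) (nat_lit 4109481508) (nat_lit 0) (nat_lit 2359349404) (nat_lit 13) (nat_lit 5) (nat_lit 16) (nat_lit 4) (nat_lit 13) (nat_lit 4) (nat_lit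 260) (nat_lit 231) (nat_lit 229)) (XT.nd (nat_lit 78) (nat_lit 0) (nat_lit 0) (XT.lf (nat_lit 0) (nat_lit 931030332) (nat_lit 152) (nat_lit 6163951866) (nat_lit 152) (nat_lit 3846380249) (nat_lit 11) (nat_lit 4) (nat_lit 13) (nat_lit 5) (nat_lit 13) (nat_lit 4) (nat_lit 261) (nat_lit 231) (nat_lit 228)) (XT.lf (nat_lit 0) (nat_lit 6350005421) (nat_lit 152) (nat_lit 4063309773) (nat_lit 152) (nat_lit 1084729147) (nat_lit 11) (nat_lit 4) (nat_lit 13) (nat_lit 5) (nat_lit 13) (nat_lit 4) (nat_lit 262) (nat_lit 231) (nat_lit 227)))) (XT.nd (nat_lit 78) (nat_lit 76) (nat_lit 0) (XT.lf (nat_lit 0) (nat_lit 1634079495) (nat_lit 228) (nat_lit 191740652) (nat_lit 76) (nat_lit 10284400064) (nat_lit 10) (nat_lit 5) (nat_lit 13) (nat_lit 5) (nat_lit 11) (nat_lit 4) (nat_lit 263) (nat_lit 231) (nat_lit 226)) (XT.nd (nat_lit 78) (nat_lit 0) (nat_lit 0) (XT.lf (nat_lit 0) (nat_lit 4495929504) (nat_lit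 152) (nat_lit 7628932136) (nat_lit 0) (nat_lit 646545535) (nat_lit 9) (nat_lit 5) (nat_lit 11) (nat_lit 4) (nat_lit 9) (nat_lit 4) (nat_lit 264) (nat_lit 231) (nat_lit 225)) (XT.lf (nat_lit 0) (nat_lit 7487568153) (nat_lit 152) (nat_lit 2854477369) (nat_lit 0) (nat_lit 3152322829) (nat_lit 9) (nat_lit 5) (nat_lit 11) (nat_lit 4) (nat_lit 9) (nat_lit 4) (nat_lit 265) (nat_lit 231) (nat_lit 224))))))) (XT.nd (nat_lit 858) (nat_lit 152) (nat_lit 0) (XT.nd (nat_lit 390) (nat_lit 76) (nat_lit 0) (XT.nd (nat_lit 156) (nat_lit 152) (nat_lit 0) (XT.nd (nat_lit 78) (nat_lit 0) (nat_lit 0) (XT.lf (nat_lit 0) (nat_lit 2192948720) (nat_lit 152) (nat_lit 8437624123) (nat_lit 152) (nat_lit 3652507176) (nat_lit 7) (nat_lit 4) (nat_lit 9) (nat_lit 5) (nat_lit 9) (nat_lit 4) (nat_lit 266) (nat_lit 231) (nat_lit 223)) (XT.lf (nat_lit 0) (nat_lit 7593356655) (nat_lit 152) (nat_lit 6374298601) (nat_lit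 152) (nat_lit 1172633853) (nat_lit 7) (nat_lit 4) (nat_lit 9) (nat_lit 5) (nat_lit 9) (nat_lit 4) (nat_lit 267) (nat_lit 231) (nat_lit 222))) (XT.nd (nat_lit 78) (nat_lit 76) (nat_lit 0) (XT.lf (nat_lit 0) (nat_lit 1300962467) (nat_lit 228) (nat_lit 2881355223) (nat_lit 76) (nat_lit 11891904046) (nat_lit 6) (nat_lit 5) (nat_lit 9) (nat_lit 5) (nat_lit 7) (nat_lit 4) (nat_lit 268) (nat_lit 231) (nat_lit 221)) (XT.nd (nat_lit 78) (nat_lit 0) (nat_lit 0) (XT.lf (nat_lit 0) (nat_lit 2039334157) (nat_lit 76) (nat_lit 1799037915) (nat_lit 152) (nat_lit 13248362174) (nat_lit 5) (nat_lit 5) (nat_lit 6) (nat_lit 5) (nat_lit 7) (nat_lit 4) (nat_lit 269) (nat_lit 231) (nat_lit 220)) (XT.lf (nat_lit 0) (nat_lit 6561223261) (nat_lit 152) (nat_lit 10870124779) (nat_lit 0) (nat_lit 750900271) (nat_lit 5) (nat_lit 5) (nat_lit 7) (nat_lit 4) (nat_lit 5) (nat_lit 4) (nat_lit 270) (nat_lit 231) (nat_lit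 219))))) (XT.nd (nat_lit 234) (nat_lit 0) (nat_lit 0) (XT.nd (nat_lit 78) (nat_lit 76) (nat_lit 0) (XT.lf (nat_lit 0) (nat_lit 9440283320) (nat_lit 152) (nat_lit 6584137099) (nat_lit 0) (nat_lit 3346464897) (nat_lit 5) (nat_lit 5) (nat_lit 7) (nat_lit 4) (nat_lit 5) (nat_lit 4) (nat_lit 271) (nat_lit 231) (nat_lit 218)) (XT.nd (nat_lit 78) (nat_lit 76) (nat_lit 0) (XT.lf (nat_lit 0) (nat_lit 12449346443) (nat_lit 152) (nat_lit 2120771699) (nat_lit 0) (nat_lit 6093032247) (nat_lit 5) (nat_lit 5) (nat_lit 7) (nat_lit 4) (nat_lit 5) (nat_lit 4) (nat_lit 272) (nat_lit 231) (nat_lit 217)) (XT.lf (nat_lit 0) (nat_lit 2680511011) (nat_lit 76) (nat_lit 12990199456) (nat_lit 76) (nat_lit 6390833620) (nat_lit 4) (nat_lit 4) (nat_lit 5) (nat_lit 5) (nat_lit 5) (nat_lit 4) (nat_lit 273) (nat_lit 231) (nat_lit 216)))) (XT.nd (nat_lit 78) (nat_lit 0) (nat_lit 0) (XT.lf (nat_lit 0) (nat_lit 7837144109)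 (nat_lit 76) (nat_lit 11281023268) (nat_lit 76) (nat_lit 4456609617) (nat_lit 4) (nat_lit 4) (nat_lit 5) (nat_lit 5) (nat_lit 5) (nat_lit 4) (nat_lit 274) (nat_lit 231) (nat_lit 215)) (XT.nd (nat_lit 78) (nat_lit 0) (nat_lit 0) (XT.lf (nat_lit 0) (nat_lit 13268009340) (nat_lit 76) (nat_lit 9490446785) (nat_lit 76) (nat_lit 2457655527) (nat_lit 4) (nat_lit 4) (nat_lit 5) (nat_lit 5) (nat_lit 5) (nat_lit 4) (nat_lit 275) (nat_lit 231) (nat_lit 214)) (XT.lf (nat_lit 0) (nat_lit 19005289608) (nat_lit 76) (nat_lit 7607859182) (nat_lit 76) (nat_lit 382125696) (nat_lit 4) (nat_lit 4) (nat_lit 5) (nat_lit 5) (nat_lit 5) (nat_lit 4) (nat_lit 276) (nat_lit 231) (nat_lit 213)))))) (XT.nd (nat_lit 390) (nat_lit 0) (nat_lit 0) (XT.nd (nat_lit 156) (nat_lit 0) (nat_lit 0) (XT.nd (nat_lit 78) (nat_lit 76) (nat_lit 0) (XT.lf (nat_lit 0) (nat_lit 1693122482) (nat_lit 152) (nat_lit 3882688933) (nat_lit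 76) (nat_lit 23343568161) (nat_lit 3) (nat_lit 5) (nat_lit 5) (nat_lit 5) (nat_lit 4) (nat_lit 4) (nat_lit 277) (nat_lit 231) (nat_lit 212)) (XT.lf (nat_lit 0) (nat_lit 452229208) (nat_lit 76) (nat_lit 3404515872) (nat_lit 152) (nat_lit 27144732403) (nat_lit 2) (nat_lit 5) (nat_lit 3) (nat_lit 5) (nat_lit 4) (nat_lit 4) (nat_lit 278) (nat_lit 231) (nat_lit 211))) (XT.nd (nat_lit 78) (nat_lit 0) (nat_lit 0) (XT.lf (nat_lit 0) (nat_lit 5243971719) (nat_lit 76) (nat_lit 990132146) (nat_lit 152) (nat_lit 27013063922) (nat_lit 2) (nat_lit 5) (nat_lit 3) (nat_lit 5) (nat_lit 4) (nat_lit 4) (nat_lit 279) (nat_lit 231) (nat_lit 210)) (XT.nd (nat_lit 78) (nat_lit 0) (nat_lit 0) (XT.lf (nat_lit 0) (nat_lit 8778881483) (nat_lit 152) (nat_lit 25399033882) (nat_lit 0) (nat_lit 1496675352) (nat_lit 2) (nat_lit 5) (nat_lit 4) (nat_lit 4) (nat_lit 2) (nat_lit 4) (nat_lit 280) (nat_lit 231) (nat_lit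 209)) (XT.lf (nat_lit 0) (nat_lit 11495858624) (nat_lit 152) (nat_lit 22711030172) (nat_lit 0) (nat_lit 4092066162) (nat_lit 2) (nat_lit 5) (nat_lit 4) (nat_lit 4) (nat_lit 2) (nat_lit 4) (nat_lit 281) (nat_lit 231) (nat_lit 208))))) (XT.nd (nat_lit 234) (nat_lit 0) (nat_lit 0) (XT.nd (nat_lit 78) (nat_lit 0) (nat_lit 0) (XT.lf (nat_lit 0) (nat_lit 14377323193) (nat_lit 152) (nat_lit 19899443327) (nat_lit 0) (nat_lit 6860950793) (nat_lit 2) (nat_lit 5) (nat_lit 4) (nat_lit 4) (nat_lit 2) (nat_lit 4) (nat_lit 282) (nat_lit 231) (nat_lit 207)) (XT.nd (nat_lit 78) (nat_lit 0) (nat_lit 0) (XT.lf (nat_lit 0) (nat_lit 17440350536) (nat_lit 152) (nat_lit 16947612091) (nat_lit 0) (nat_lit 9819737454) (nat_lit 2) (nat_lit 5) (nat_lit 4) (nat_lit 4) (nat_lit 2) (nat_lit 4) (nat_lit 283) (nat_lit 231) (nat_lit 206)) (XT.lf (nat_lit 0) (nat_lit 20703091925) (nat_lit 152) (nat_lit 13838044130)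 (nat_lit 0) (nat_lit 12985959692) (nat_lit 2) (nat_lit 5) (nat_lit 4) (nat_lit 4) (nat_lit 2) (nat_lit 4) (nat_lit 284) (nat_lit 231) (nat_lit 205)))) (XT.nd (nat_lit 78) (nat_lit 0) (nat_lit 0) (XT.lf (nat_lit 0) (nat_lit 24184882125) (nat_lit 152) (nat_lit 10552312377) (nat_lit 0) (nat_lit 16378380309) (nat_lit 2) (nat_lit 5) (nat_lit 4) (nat_lit 4) (nat_lit 2) (nat_lit 4) (nat_lit 285) (nat_lit 231) (nat_lit 204)) (XT.nd (nat_lit 78) (nat_lit 0) (nat_lit 0) (XT.lf (nat_lit 0) (nat_lit 27906353966) (nat_lit 152) (nat_lit 7070945826) (nat_lit 0) (nat_lit 20017102535) (nat_lit 2) (nat_lit 5) (nat_lit 4) (nat_lit 4) (nat_lit 2) (nat_lit 4) (nat_lit 286) (nat_lit 231) (nat_lit 203)) (XT.lf (nat_lit 0) (nat_lit 31889560615) (nat_lit 152) (nat_lit 3373314159) (nat_lit 0) (nat_lit 23923689171) (nat_lit 2) (nat_lit 5) (nat_lit 4) (nat_lit 4) (nat_lit 2) (nat_lit 4) (nat_lit 287) (nat_lit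 231) (nat_lit 202))))))))
noncomputable def xc33 : XT := (XT.nd (nat_lit 1716) (nat_lit 0) (nat_lit 0) (XT.nd (nat_lit 858) (nat_lit 0) (nat_lit 0) (XT.nd (nat_lit 390) (nat_lit 0) (nat_lit 0) (XT.nd (nat_lit 156) (nat_lit 0) (nat_lit 0) (XT.nd (nat_lit 78) (nat_lit 0) (nat_lit 0) (XT.lf (nat_lit 0) (nat_lit 592114480) (nat_lit 76) (nat_lit 35580232147) (nat_lit 76) (nat_lit 27543416245) (nat_lit 1) (nat_lit 4) (nat_lit 2) (nat_lit 5) (nat_lit 2) (nat_lit 4) (nat_lit 288) (nat_lit 231) (nat_lit 201)) (XT.lf (nat_lit 0) (nat_lit 5010446327) (nat_lit 76) (nat_lit 35847341012) (nat_lit 76) (nat_lit 27744835798) (nat_lit 1) (nat_lit 4) (nat_lit 2) (nat_lit 5) (nat_lit 2) (nat_lit 4) (nat_lit 289) (nat_lit 231) (nat_lit 200))) (XT.nd (nat_lit 78) (nat_lit 0) (nat_lit 0) (XT.lf (nat_lit 0) (nat_lit 9730231344) (nat_lit 76) (nat_lit 36158016623) (nat_lit 76) (nat_lit 27994687972) (nat_lit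 1) (nat_lit 4) (nat_lit 2) (nat_lit 5) (nat_lit 2) (nat_lit 4) (nat_lit 290) (nat_lit 231) (nat_lit 199)) (XT.nd (nat_lit 78) (nat_lit 0) (nat_lit 0) (XT.lf (nat_lit 0) (nat_lit 14779438627) (nat_lit 76) (nat_lit 36514100022) (nat_lit 76) (nat_lit 28294453374) (nat_lit 1) (nat_lit 4) (nat_lit 2) (nat_lit 5) (nat_lit 2) (nat_lit 4) (nat_lit 291) (nat_lit 231) (nat_lit 198)) (XT.lf (nat_lit 0) (nat_lit 20187989404) (nat_lit 76) (nat_lit 36917701333) (nat_lit 76) (nat_lit 28645908391) (nat_lit 1) (nat_lit 4) (nat_lit 2) (nat_lit 5) (nat_lit 2) (nat_lit 4) (nat_lit 292) (nat_lit 231) (nat_lit 197))))) (XT.nd (nat_lit 234) (nat_lit 0) (nat_lit 0) (XT.nd (nat_lit 78) (nat_lit 0) (nat_lit 0) (XT.lf (nat_lit 0) (nat_lit 25987934347) (nat_lit 76) (nat_lit 37371212267) (nat_lit 76) (nat_lit 29051135719) (nat_lit 1) (nat_lit 4) (nat_lit 2) (nat_lit 5) (nat_lit 2) (nat_lit 4) (nat_lit 293) (nat_lit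 231) (nat_lit 196)) (XT.nd (nat_lit 78) (nat_lit 0) (nat_lit 0) (XT.lf (nat_lit 0) (nat_lit 32213643499) (nat_lit 76) (nat_lit 37877320296) (nat_lit 76) (nat_lit 29512536706) (nat_lit 1) (nat_lit 4) (nat_lit 2) (nat_lit 5) (nat_lit 2) (nat_lit 4) (nat_lit 294) (nat_lit 231) (nat_lit 195)) (XT.lf (nat_lit 0) (nat_lit 38902009952) (nat_lit 76) (nat_lit 38439024578) (nat_lit 76) (nat_lit 30032845580) (nat_lit 1) (nat_lit 4) (nat_lit 2) (nat_lit 5) (nat_lit 2) (nat_lit 4) (nat_lit 295) (nat_lit 231) (nat_lit 194)))) (XT.nd (nat_lit 78) (nat_lit 0) (nat_lit 0) (XT.lf (nat_lit 0) (nat_lit 46092668470) (nat_lit 76) (nat_lit 39059653733) (nat_lit 76) (nat_lit 30615145652) (nat_lit 1) (nat_lit 4) (nat_lit 2) (nat_lit 5) (nat_lit 2) (nat_lit 4) (nat_lit 296) (nat_lit 231) (nat_lit 193)) (XT.nd (nat_lit 78) (nat_lit 0) (nat_lit 0) (XT.lf (nat_lit 0) (nat_lit 53828230363) (nat_lit 76) (nat_lit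 39742885562) (nat_lit 76) (nat_lit 31262887589) (nat_lit 1) (nat_lit 4) (nat_lit 2) (nat_lit 5) (nat_lit 2) (nat_lit 4) (nat_lit 297) (nat_lit 231) (nat_lit 192)) (XT.lf (nat_lit 0) (nat_lit 62154535997) (nat_lit 76) (nat_lit 40492768846) (nat_lit 76) (nat_lit 31979909863) (nat_lit 1) (nat_lit 4) (nat_lit 2) (nat_lit 5) (nat_lit 2) (nat_lit 4) (nat_lit 298) (nat_lit 231) (nat_lit 191)))))) (XT.nd (nat_lit 390) (nat_lit 0) (nat_lit 0) (XT.nd (nat_lit 156) (nat_lit 0) (nat_lit 0) (XT.nd (nat_lit 78) (nat_lit 0) (nat_lit 0) (XT.lf (nat_lit 0) (nat_lit 71120926444) (nat_lit 76) (nat_lit 41313747338) (nat_lit 76) (nat_lit 32770461493) (nat_lit 1) (nat_lit 4) (nat_lit 2) (nat_lit 5) (nat_lit 2) (nat_lit 4) (nat_lit 299) (nat_lit 231) (nat_lit 190)) (XT.lf (nat_lit 0) (nat_lit 80780535868) (nat_lit 76) (nat_lit 42210686097) (nat_lit 76) (nat_lit 33639227232) (nat_lit 1) (nat_lit 4) (nat_lit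 2) (nat_lit 5) (nat_lit 2) (nat_lit 4) (nat_lit 300) (nat_lit 231) (nat_lit 189))) (XT.nd (nat_lit 78) (nat_lit 0) (nat_lit 0) (XT.lf (nat_lit 0) (nat_lit 91190606399) (nat_lit 76) (nat_lit 43188900314) (nat_lit 76) (nat_lit 34591355319) (nat_lit 1) (nat_lit 4) (nat_lit 2) (nat_lit 5) (nat_lit 2) (nat_lit 4) (nat_lit 301) (nat_lit 231) (nat_lit 188)) (XT.nd (nat_lit 78) (nat_lit 0) (nat_lit 0) (XT.lf (nat_lit 0) (nat_lit 102412827345) (nat_lit 76) (nat_lit 44254186814) (nat_lit 76) (nat_lit 35632487996) (nat_lit 1) (nat_lit 4) (nat_lit 2) (nat_lit 5) (nat_lit 2) (nat_lit 4) (nat_lit 302) (nat_lit 231) (nat_lit 187)) (XT.lf (nat_lit 0) (nat_lit 114513700755) (nat_lit 76) (nat_lit 45412858407) (nat_lit 76) (nat_lit 36768794937) (nat_lit 1) (nat_lit 4) (nat_lit 2) (nat_lit 5) (nat_lit 2) (nat_lit 4) (nat_lit 303) (nat_lit 231) (nat_lit 186))))) (XT.nd (nat_lit 234) (nat_lit 0) (nat_lit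 0) (XT.nd (nat_lit 78) (nat_lit 0) (nat_lit 0) (XT.lf (nat_lit 0) (nat_lit 127564935509) (nat_lit 76) (nat_lit 46671781295) (nat_lit 76) (nat_lit 38007009814) (nat_lit 1) (nat_lit 4) (nat_lit 2) (nat_lit 5) (nat_lit 2) (nat_lit 4) (nat_lit 304) (nat_lit 231) (nat_lit 185)) (XT.nd (nat_lit 78) (nat_lit 0) (nat_lit 0) (XT.lf (nat_lit 0) (nat_lit 141643872257) (nat_lit 76) (nat_lit 48038415760) (nat_lit 76) (nat_lit 39354470196) (nat_lit 1) (nat_lit 4) (nat_lit 2) (nat_lit 5) (nat_lit 2) (nat_lit 4) (nat_lit 305) (nat_lit 231) (nat_lit 184)) (XT.lf (nat_lit 0) (nat_lit 156833941736) (nat_lit 76) (nat_lit 49520860379) (nat_lit 76) (nat_lit 40819161033) (nat_lit 1) (nat_lit 4) (nat_lit 2) (nat_lit 5) (nat_lit 2) (nat_lit 4) (nat_lit 306) (nat_lit 231) (nat_lit 183)))) (XT.nd (nat_lit 78) (nat_lit 0) (nat_lit 0) (XT.lf (nat_lit 0) (nat_lit 173225159172) (nat_lit 76) (nat_lit 51127900008)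 (nat_lit 76) (nat_lit 42409761975) (nat_lit 1) (nat_lit 4) (nat_lit 2) (nat_lit 5) (nat_lit 2) (nat_lit 4) (nat_lit 307) (nat_lit 231) (nat_lit 182)) (XT.nd (nat_lit 78) (nat_lit 0) (nat_lit 0) (XT.lf (nat_lit 0) (nat_lit 190914657705) (nat_lit 76) (nat_lit 52869057844) (nat_lit 76) (nat_lit 44135698806) (nat_lit 1) (nat_lit 4) (nat_lit 2) (nat_lit 5) (nat_lit 2) (nat_lit 4) (nat_lit 308) (nat_lit 231) (nat_lit 181)) (XT.lf (nat_lit 0) (nat_lit 210007263994) (nat_lit 76) (nat_lit 54754651861) (nat_lit 76) (nat_lit 46007199298) (nat_lit 1) (nat_lit 4) (nat_lit 2) (nat_lit 5) (nat_lit 2) (nat_lit 4) (nat_lit 309) (nat_lit 231) (nat_lit 180))))))) (XT.nd (nat_lit 858) (nat_lit 0) (nat_lit 0) (XT.nd (nat_lit 390) (nat_lit 0) (nat_lit 0) (XT.nd (nat_lit 156) (nat_lit 0) (nat_lit 0) (XT.nd (nat_lit 78) (nat_lit 0) (nat_lit 0) (XT.lf (nat_lit 0) (nat_lit 230616119409) (nat_lit 76) (nat_lit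 56795855947) (nat_lit 76) (nat_lit 48035353825) (nat_lit 1) (nat_lit 4) (nat_lit 2) (nat_lit 5) (nat_lit 2) (nat_lit 4) (nat_lit 310) (nat_lit 231) (nat_lit 179)) (XT.lf (nat_lit 0) (nat_lit 252863350500) (nat_lit 76) (nat_lit 59004766129) (nat_lit 76) (nat_lit 50232181082) (nat_lit 1) (nat_lit 4) (nat_lit 2) (nat_lit 5) (nat_lit 2) (nat_lit 4) (nat_lit 311) (nat_lit 231) (nat_lit 178))) (XT.nd (nat_lit 78) (nat_lit 0) (nat_lit 0) (XT.lf (nat_lit 0) (nat_lit 276880792712) (nat_lit 76) (nat_lit 61394472244) (nat_lit 76) (nat_lit 52610699303) (nat_lit 1) (nat_lit 4) (nat_lit 2) (nat_lit 5) (nat_lit 2) (nat_lit 4) (nat_lit 312) (nat_lit 231) (nat_lit 177)) (XT.nd (nat_lit 78) (nat_lit 0) (nat_lit 0) (XT.lf (nat_lit 0) (nat_lit 302810771627) (nat_lit 76) (nat_lit 63979135513) (nat_lit 76) (nat_lit 55185003410) (nat_lit 1) (nat_lit 4) (nat_lit 2) (nat_lit 5) (nat_lit 2) (nat_lit 4) (nat_lit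 313) (nat_lit 231) (nat_lit 176)) (XT.lf (nat_lit 0) (nat_lit 330806946380) (nat_lit 76) (nat_lit 66774072459) (nat_lit 76) (nat_lit 57970348541) (nat_lit 1) (nat_lit 4) (nat_lit 2) (nat_lit 5) (nat_lit 2) (nat_lit 4) (nat_lit 314) (nat_lit 231) (nat_lit 175))))) (XT.nd (nat_lit 234) (nat_lit 0) (nat_lit 0) (XT.nd (nat_lit 78) (nat_lit 0) (nat_lit 0) (XT.lf (nat_lit 0) (nat_lit 361035220228) (nat_lit 76) (nat_lit 69795845672) (nat_lit 76) (nat_lit 60983240443) (nat_lit 1) (nat_lit 4) (nat_lit 2) (nat_lit 5) (nat_lit 2) (nat_lit 4) (nat_lit 315) (nat_lit 231) (nat_lit 174)) (XT.nd (nat_lit 78) (nat_lit 0) (nat_lit 0) (XT.lf (nat_lit 0) (nat_lit 393674723684) (nat_lit 76) (nat_lit 73062361955) (nat_lit 76) (nat_lit 64241533291) (nat_lit 1) (nat_lit 4) (nat_lit 2) (nat_lit 5) (nat_lit 2) (nat_lit 4) (nat_lit 316) (nat_lit 231) (nat_lit 173)) (XT.lf (nat_lit 0) (nat_lit 428918876028)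 (nat_lit 76) (nat_lit 76592978444) (nat_lit 76) (nat_lit 67764535486) (nat_lit 1) (nat_lit 4) (nat_lit 2) (nat_lit 5) (nat_lit 2) (nat_lit 4) (nat_lit 317) (nat_lit 231) (nat_lit 172)))) (XT.nd (nat_lit 78) (nat_lit 0) (nat_lit 0) (XT.lf (nat_lit 0) (nat_lit 466976531494) (nat_lit 76) (nat_lit 80408617308) (nat_lit 76) (nat_lit 71573124080) (nat_lit 1) (nat_lit 4) (nat_lit 2) (nat_lit 5) (nat_lit 2) (nat_lit 4) (nat_lit 318) (nat_lit 231) (nat_lit 171)) (XT.nd (nat_lit 78) (nat_lit 0) (nat_lit 0) (XT.lf (nat_lit 0) (nat_lit 508073216931) (nat_lit 76) (nat_lit 84531889742) (nat_lit 76) (nat_lit 75689868485) (nat_lit 1) (nat_lit 4) (nat_lit 2) (nat_lit 5) (nat_lit 2) (nat_lit 4) (nat_lit 319) (nat_lit 231) (nat_lit 170)) (XT.lf (nat_lit 0) (nat_lit 552452468252) (nat_lit 76) (nat_lit 88987229952) (nat_lit 76) (nat_lit 80139164225) (nat_lit 1) (nat_lit 4) (nat_lit 2) (nat_lit 5) (nat_lit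 2) (nat_lit 4) (nat_lit 320) (nat_lit 231) (nat_lit 169)))))) (XT.nd (nat_lit 390) (nat_lit 0) (nat_lit 0) (XT.nd (nat_lit 156) (nat_lit 0) (nat_lit 0) (XT.nd (nat_lit 78) (nat_lit 0) (nat_lit 0) (XT.lf (nat_lit 0) (nat_lit 600377273614) (nat_lit 76) (nat_lit 93801039955) (nat_lit 76) (nat_lit 84947377495) (nat_lit 1) (nat_lit 4) (nat_lit 2) (nat_lit 5) (nat_lit 2) (nat_lit 4) (nat_lit 321) (nat_lit 231) (nat_lit 168)) (XT.lf (nat_lit 0) (nat_lit 652131631861) (nat_lit 76) (nat_lit 99001846032) (nat_lit 76) (nat_lit 90143001413) (nat_lit 1) (nat_lit 4) (nat_lit 2) (nat_lit 5) (nat_lit 2) (nat_lit 4) (nat_lit 322) (nat_lit 231) (nat_lit 167))) (XT.nd (nat_lit 78) (nat_lit 0) (nat_lit 0) (XT.lf (nat_lit 0) (nat_lit 708022235490) (nat_lit 76) (nat_lit 104620467775) (nat_lit 76) (nat_lit 95756824859) (nat_lit 1) (nat_lit 4) (nat_lit 2) (nat_lit 5) (nat_lit 2) (nat_lit 4) (nat_lit 323)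 (nat_lit 231) (nat_lit 166)) (XT.nd (nat_lit 78) (nat_lit 0) (nat_lit 0) (XT.lf (nat_lit 0) (nat_lit 768380288075) (nat_lit 76) (nat_lit 110690200719) (nat_lit 76) (nat_lit 101822114937) (nat_lit 1) (nat_lit 4) (nat_lit 2) (nat_lit 5) (nat_lit 2) (nat_lit 4) (nat_lit 324) (nat_lit 231) (nat_lit 165)) (XT.lf (nat_lit 0) (nat_lit 833563466966) (nat_lit 76) (nat_lit 117247013654) (nat_lit 76) (nat_lit 108374814106) (nat_lit 1) (nat_lit 4) (nat_lit 2) (nat_lit 5) (nat_lit 2) (nat_lit 4) (nat_lit 325) (nat_lit 231) (nat_lit 164))))) (XT.nd (nat_lit 234) (nat_lit 0) (nat_lit 0) (XT.nd (nat_lit 78) (nat_lit 0) (nat_lit 0) (XT.lf (nat_lit 0) (nat_lit 903958042852) (nat_lit 76) (nat_lit 124329761765) (nat_lit 76) (nat_lit 115453753176) (nat_lit 1) (nat_lit 4) (nat_lit 2) (nat_lit 5) (nat_lit 2) (nat_lit 4) (nat_lit 326) (nat_lit 231) (nat_lit 163)) (XT.nd (nat_lit 78) (nat_lit 0) (nat_lit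 0) (XT.lf (nat_lit 0) (nat_lit 979981168776) (nat_lit 76) (nat_lit 131980416895) (nat_lit 76) (nat_lit 123100881415) (nat_lit 1) (nat_lit 4) (nat_lit 2) (nat_lit 5) (nat_lit 2) (nat_lit 4) (nat_lit 327) (nat_lit 231) (nat_lit 162)) (XT.lf (nat_lit 0) (nat_lit 1062083352151) (nat_lit 76) (nat_lit 140244316259) (nat_lit 76) (nat_lit 131361515139) (nat_lit 1) (nat_lit 4) (nat_lit 2) (nat_lit 5) (nat_lit 2) (nat_lit 4) (nat_lit 328) (nat_lit 231) (nat_lit 161)))) (XT.nd (nat_lit 78) (nat_lit 0) (nat_lit 0) (XT.lf (nat_lit 0) (nat_lit 1150751124433) (nat_lit 76) (nat_lit 149170431111) (nat_lit 76) (nat_lit 140284606251) (nat_lit 1) (nat_lit 4) (nat_lit 2) (nat_lit 5) (nat_lit 2) (nat_lit 4) (nat_lit 329) (nat_lit 231) (nat_lit 160)) (XT.nd (nat_lit 78) (nat_lit 0) (nat_lit 0) (XT.lf (nat_lit 0) (nat_lit 1246509924274) (nat_lit 76) (nat_lit 158811656949) (nat_lit 76) (nat_lit 149923032329)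 (nat_lit 1) (nat_lit 4) (nat_lit 2) (nat_lit 5) (nat_lit 2) (nat_lit 4) (nat_lit 330) (nat_lit 231) (nat_lit 159)) (XT.lf (nat_lit 0) (nat_lit 1349927211228) (nat_lit 76) (nat_lit 169225126961) (nat_lit 76) (nat_lit 160333909971) (nat_lit 1) (nat_lit 4) (nat_lit 2) (nat_lit 5) (nat_lit 2) (nat_lit 4) (nat_lit 331) (nat_lit 231) (nat_lit 158))))))))
noncomputable def xc34 : XT := (XT.nd (nat_lit 33228) (nat_lit 0) (nat_lit 0) (XT.nd (nat_lit 32370) (nat_lit 0) (nat_lit 228) (XT.nd (nat_lit 31902) (nat_lit 0) (nat_lit 608) (XT.nd (nat_lit 31668) (nat_lit 0) (nat_lit 912) (XT.nd (nat_lit 31590) (nat_lit 0) (nat_lit 1292) (XT.lf (nat_lit 0) (nat_lit 1461615828476) (nat_lit 76) (nat_lit 180472550599) (nat_lit 76) (nat_lit 171578933267) (nat_lit 1) (nat_lit 4) (nat_lit 2) (nat_lit 5) (nat_lit 2) (nat_lit 4) (nat_lit 332) (nat_lit 231) (nat_lit 157)) (XT.lf (nat_lit 0) (nat_lit 1038303397)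 (nat_lit 228) (nat_lit 2330750249) (nat_lit 0) (nat_lit 1038303397) (nat_lit 18) (nat_lit 5) (nat_lit 21) (nat_lit 4) (nat_lit 18) (nat_lit 4) (nat_lit 256) (nat_lit 232) (nat_lit 232))) (XT.nd (nat_lit 78) (nat_lit 228) (nat_lit 0) (XT.lf (nat_lit 0) (nat_lit 146522512) (nat_lit 152) (nat_lit 4996374354) (nat_lit 152) (nat_lit 4025135259) (nat_lit 16) (nat_lit 4) (nat_lit 18) (nat_lit 5) (nat_lit 18) (nat_lit 4) (nat_lit 257) (nat_lit 232) (nat_lit 231)) (XT.nd (nat_lit 78) (nat_lit 228) (nat_lit 0) (XT.lf (nat_lit 0) (nat_lit 5338754760) (nat_lit 152) (nat_lit 3044426032) (nat_lit 152) (nat_lit 1173891478) (nat_lit 16) (nat_lit 4) (nat_lit 18) (nat_lit 5) (nat_lit 18) (nat_lit 4) (nat_lit 258) (nat_lit 232) (nat_lit 230)) (XT.lf (nat_lit 0) (nat_lit 700976505) (nat_lit 152) (nat_lit 935654282) (nat_lit 228) (nat_lit 8352320939) (nat_lit 13) (nat_lit 5) (nat_lit 15) (nat_lit 5) (nat_lit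 16) (nat_lit 4) (nat_lit 259) (nat_lit 232) (nat_lit 229))))) (XT.nd (nat_lit 234) (nat_lit 152) (nat_lit 0) (XT.nd (nat_lit 78) (nat_lit 152) (nat_lit 0) (XT.lf (nat_lit 0) (nat_lit 4575233724) (nat_lit 228) (nat_lit 4523399877) (nat_lit 0) (nat_lit 1358366648) (nat_lit 13) (nat_lit 5) (nat_lit 16) (nat_lit 4) (nat_lit 13) (nat_lit 4) (nat_lit 260) (nat_lit 232) (nat_lit 228)) (XT.nd (nat_lit 78) (nat_lit 0) (nat_lit 0) (XT.lf (nat_lit 0) (nat_lit 371042893) (nat_lit 152) (nat_lit 7240790440) (nat_lit 152) (nat_lit 3362914356) (nat_lit 11) (nat_lit 4) (nat_lit 13) (nat_lit 5) (nat_lit 13) (nat_lit 4) (nat_lit 261) (nat_lit 232) (nat_lit 227)) (XT.lf (nat_lit 0) (nat_lit 5674950517) (nat_lit 152) (nat_lit 5176630300) (nat_lit 152) (nat_lit 686708839) (nat_lit 11) (nat_lit 4) (nat_lit 13) (nat_lit 5) (nat_lit 13) (nat_lit 4) (nat_lit 262) (nat_lit 232) (nat_lit 226)))) (XT.nd (nat_lit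 78) (nat_lit 76) (nat_lit 0) (XT.lf (nat_lit 0) (nat_lit 1937030651) (nat_lit 228) (nat_lit 1027606390) (nat_lit 76) (nat_lit 9191566832) (nat_lit 10) (nat_lit 5) (nat_lit 13) (nat_lit 5) (nat_lit 11) (nat_lit 4) (nat_lit 263) (nat_lit 232) (nat_lit 225)) (XT.nd (nat_lit 78) (nat_lit 0) (nat_lit 0) (XT.lf (nat_lit 0) (nat_lit 4172088625) (nat_lit 76) (nat_lit 517069563) (nat_lit 152) (nat_lit 8137465498) (nat_lit 9) (nat_lit 5) (nat_lit 10) (nat_lit 5) (nat_lit 11) (nat_lit 4) (nat_lit 264) (nat_lit 232) (nat_lit 224)) (XT.lf (nat_lit 0) (nat_lit 7600714418) (nat_lit 152) (nat_lit 3972781892) (nat_lit 0) (nat_lit 1982916490) (nat_lit 9) (nat_lit 5) (nat_lit 11) (nat_lit 4) (nat_lit 9) (nat_lit 4) (nat_lit 265) (nat_lit 232) (nat_lit 223)))))) (XT.nd (nat_lit 390) (nat_lit 76) (nat_lit 0) (XT.nd (nat_lit 156) (nat_lit 152) (nat_lit 0) (XT.nd (nat_lit 78) (nat_lit 0) (nat_lit 0) (XT.lf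 (nat_lit 0) (nat_lit 913280831) (nat_lit 152) (nat_lit 9737026230) (nat_lit 152) (nat_lit 3702680502) (nat_lit 7) (nat_lit 4) (nat_lit 9) (nat_lit 5) (nat_lit 9) (nat_lit 4) (nat_lit 266) (nat_lit 232) (nat_lit 222)) (XT.lf (nat_lit 0) (nat_lit 6218804106) (nat_lit 152) (nat_lit 7708307089) (nat_lit 152) (nat_lit 1288268953) (nat_lit 7) (nat_lit 4) (nat_lit 9) (nat_lit 5) (nat_lit 9) (nat_lit 4) (nat_lit 267) (nat_lit 232) (nat_lit 221))) (XT.nd (nat_lit 78) (nat_lit 76) (nat_lit 0) (XT.lf (nat_lit 0) (nat_lit 1133531244) (nat_lit 228) (nat_lit 4419415747) (nat_lit 76) (nat_lit 10601504420) (nat_lit 6) (nat_lit 5) (nat_lit 9) (nat_lit 5) (nat_lit 7) (nat_lit 4) (nat_lit 268) (nat_lit 232) (nat_lit 220)) (XT.nd (nat_lit 78) (nat_lit 0) (nat_lit 0) (XT.lf (nat_lit 0) (nat_lit 331392940) (nat_lit 76) (nat_lit 3245156458) (nat_lit 152) (nat_lit 13598252599) (nat_lit 5) (nat_lit 5) (nat_lit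 6) (nat_lit 5) (nat_lit 7) (nat_lit 4) (nat_lit 269) (nat_lit 232) (nat_lit 219)) (XT.lf (nat_lit 0) (nat_lit 5542408488) (nat_lit 76) (nat_lit 686636398) (nat_lit 152) (nat_lit 12047165149) (nat_lit 5) (nat_lit 5) (nat_lit 6) (nat_lit 5) (nat_lit 7) (nat_lit 4) (nat_lit 270) (nat_lit 232) (nat_lit 218))))) (XT.nd (nat_lit 234) (nat_lit 0) (nat_lit 0) (XT.nd (nat_lit 78) (nat_lit 76) (nat_lit 0) (XT.lf (nat_lit 0) (nat_lit 9043359718) (nat_lit 152) (nat_lit 8510868175) (nat_lit 0) (nat_lit 1916044615) (nat_lit 5) (nat_lit 5) (nat_lit 7) (nat_lit 4) (nat_lit 5) (nat_lit 4) (nat_lit 271) (nat_lit 232) (nat_lit 217)) (XT.nd (nat_lit 78) (nat_lit 76) (nat_lit 0) (XT.lf (nat_lit 0) (nat_lit 12007763945) (nat_lit 152) (nat_lit 4121176784) (nat_lit 0) (nat_lit 4637397202) (nat_lit 5) (nat_lit 5) (nat_lit 7) (nat_lit 4) (nat_lit 5) (nat_lit 4) (nat_lit 272) (nat_lit 232) (nat_lit 216)) (XT.lf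 (nat_lit 0) (nat_lit 502959295) (nat_lit 76) (nat_lit 14632447674) (nat_lit 76) (nat_lit 7037033115) (nat_lit 4) (nat_lit 4) (nat_lit 5) (nat_lit 5) (nat_lit 5) (nat_lit 4) (nat_lit 273) (nat_lit 232) (nat_lit 215)))) (XT.nd (nat_lit 78) (nat_lit 0) (nat_lit 0) (XT.lf (nat_lit 0) (nat_lit 5593102722) (nat_lit 76) (nat_lit 12949874275) (nat_lit 76) (nat_lit 5146082109) (nat_lit 4) (nat_lit 4) (nat_lit 5) (nat_lit 5) (nat_lit 5) (nat_lit 4) (nat_lit 274) (nat_lit 232) (nat_lit 214)) (XT.nd (nat_lit 78) (nat_lit 0) (nat_lit 0) (XT.lf (nat_lit 0) (nat_lit 10962403443) (nat_lit 76) (nat_lit 11183930003) (nat_lit 76) (nat_lit 3187195609) (nat_lit 4) (nat_lit 4) (nat_lit 5) (nat_lit 5) (nat_lit 5) (nat_lit 4) (nat_lit 275) (nat_lit 232) (nat_lit 213)) (XT.lf (nat_lit 0) (nat_lit 16642679537) (nat_lit 76) (nat_lit 9324150003) (nat_lit 76) (nat_lit 1148765397) (nat_lit 4) (nat_lit 4) (nat_lit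 5) (nat_lit 5) (nat_lit 5) (nat_lit 4) (nat_lit 276) (nat_lit 232) (nat_lit 212))))))) (XT.nd (nat_lit 858) (nat_lit 76) (nat_lit 0) (XT.nd (nat_lit 390) (nat_lit 0) (nat_lit 0) (XT.nd (nat_lit 156) (nat_lit 76) (nat_lit 0) (XT.nd (nat_lit 78) (nat_lit 0) (nat_lit 0) (XT.lf (nat_lit 0) (nat_lit 932200105) (nat_lit 152) (nat_lit 6401825248) (nat_lit 76) (nat_lit 21709903789) (nat_lit 3) (nat_lit 5) (nat_lit 5) (nat_lit 5) (nat_lit 4) (nat_lit 4) (nat_lit 277) (nat_lit 232) (nat_lit 211)) (XT.lf (nat_lit 0) (nat_lit 3054730748) (nat_lit 152) (nat_lit 2140125272) (nat_lit 76) (nat_lit 25934591209) (nat_lit 3) (nat_lit 5) (nat_lit 5) (nat_lit 5) (nat_lit 4) (nat_lit 4) (nat_lit 278) (nat_lit 232) (nat_lit 210))) (XT.nd (nat_lit 78) (nat_lit 0) (nat_lit 0) (XT.lf (nat_lit 0) (nat_lit 2489607111) (nat_lit 76) (nat_lit 2859138388) (nat_lit 152) (nat_lit 28033182544) (nat_lit 2) (nat_lit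 5) (nat_lit 3) (nat_lit 5) (nat_lit 4) (nat_lit 4) (nat_lit 279) (nat_lit 232) (nat_lit 209)) (XT.nd (nat_lit 78) (nat_lit 0) (nat_lit 0) (XT.lf (nat_lit 0) (nat_lit 7516452018) (nat_lit 76) (nat_lit 312177205) (nat_lit 152) (nat_lit 27986027137) (nat_lit 2) (nat_lit 5) (nat_lit 3) (nat_lit 5) (nat_lit 4) (nat_lit 4) (nat_lit 280) (nat_lit 232) (nat_lit 208)) (XT.lf (nat_lit 0) (nat_lit 10512679869) (nat_lit 152) (nat_lit 25646662552) (nat_lit 0) (nat_lit 2282417740) (nat_lit 2) (nat_lit 5) (nat_lit 4) (nat_lit 4) (nat_lit 2) (nat_lit 4) (nat_lit 281) (nat_lit 232) (nat_lit 207))))) (XT.nd (nat_lit 234) (nat_lit 0) (nat_lit 0) (XT.nd (nat_lit 78) (nat_lit 0) (nat_lit 0) (XT.lf (nat_lit 0) (nat_lit 13370608672) (nat_lit 152) (nat_lit 22875788474) (nat_lit 0) (nat_lit 5036105861) (nat_lit 2) (nat_lit 5) (nat_lit 4) (nat_lit 4) (nat_lit 2) (nat_lit 4) (nat_lit 282) (nat_lit 232) (nat_lit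 206)) (XT.nd (nat_lit 78) (nat_lit 0) (nat_lit 0) (XT.lf (nat_lit 0) (nat_lit 16411843640) (nat_lit 152) (nat_lit 19961654245) (nat_lit 0) (nat_lit 7980821678) (nat_lit 2) (nat_lit 5) (nat_lit 4) (nat_lit 4) (nat_lit 2) (nat_lit 4) (nat_lit 283) (nat_lit 232) (nat_lit 205)) (XT.lf (nat_lit 0) (nat_lit 19654406904) (nat_lit 152) (nat_lit 16886990921) (nat_lit 0) (nat_lit 11134015358) (nat_lit 2) (nat_lit 5) (nat_lit 4) (nat_lit 4) (nat_lit 2) (nat_lit 4) (nat_lit 284) (nat_lit 232) (nat_lit 204)))) (XT.nd (nat_lit 78) (nat_lit 0) (nat_lit 0) (XT.lf (nat_lit 0) (nat_lit 23117513654) (nat_lit 152) (nat_lit 13633578275) (nat_lit 0) (nat_lit 14514372494) (nat_lit 2) (nat_lit 5) (nat_lit 4) (nat_lit 4) (nat_lit 2) (nat_lit 4) (nat_lit 285) (nat_lit 232) (nat_lit 203)) (XT.nd (nat_lit 78) (nat_lit 0) (nat_lit 0) (XT.lf (nat_lit 0) (nat_lit 26821686005) (nat_lit 152) (nat_lit 10182136824)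 (nat_lit 0) (nat_lit 18141924832) (nat_lit 2) (nat_lit 5) (nat_lit 4) (nat_lit 4) (nat_lit 2) (nat_lit 4) (nat_lit 286) (nat_lit 232) (nat_lit 202)) (XT.lf (nat_lit 0) (nat_lit 30788874608) (nat_lit 152) (nat_lit 6512213583) (nat_lit 0) (nat_lit 22038168977) (nat_lit 2) (nat_lit 5) (nat_lit 4) (nat_lit 4) (nat_lit 2) (nat_lit 4) (nat_lit 287) (nat_lit 232) (nat_lit 201)))))) (XT.nd (nat_lit 390) (nat_lit 0) (nat_lit 0) (XT.nd (nat_lit 156) (nat_lit 0) (nat_lit 0) (XT.nd (nat_lit 78) (nat_lit 76) (nat_lit 0) (XT.lf (nat_lit 0) (nat_lit 35042588728) (nat_lit 152) (nat_lit 2602060857) (nat_lit 0) (nat_lit 26226193785) (nat_lit 2) (nat_lit 5) (nat_lit 4) (nat_lit 4) (nat_lit 2) (nat_lit 4) (nat_lit 288) (nat_lit 232) (nat_lit 200)) (XT.lf (nat_lit 0) (nat_lit 1654244644) (nat_lit 76) (nat_lit 37993575539) (nat_lit 76) (nat_lit 29116357159) (nat_lit 1) (nat_lit 4) (nat_lit 2) (nat_lit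 5) (nat_lit 2) (nat_lit 4) (nat_lit 289) (nat_lit 232) (nat_lit 199))) (XT.nd (nat_lit 78) (nat_lit 0) (nat_lit 0) (XT.lf (nat_lit 0) (nat_lit 6350875558) (nat_lit 76) (nat_lit 38314132755) (nat_lit 76) (nat_lit 29380596378) (nat_lit 1) (nat_lit 4) (nat_lit 2) (nat_lit 5) (nat_lit 2) (nat_lit 4) (nat_lit 290) (nat_lit 232) (nat_lit 198)) (XT.nd (nat_lit 78) (nat_lit 0) (nat_lit 0) (XT.lf (nat_lit 0) (nat_lit 11378643856) (nat_lit 76) (nat_lit 38679365789) (nat_lit 76) (nat_lit 29693683118) (nat_lit 1) (nat_lit 4) (nat_lit 2) (nat_lit 5) (nat_lit 2) (nat_lit 4) (nat_lit 291) (nat_lit 232) (nat_lit 197)) (XT.lf (nat_lit 0) (nat_lit 16767343721) (nat_lit 76) (nat_lit 39091438983) (nat_lit 76) (nat_lit 30057472707) (nat_lit 1) (nat_lit 4) (nat_lit 2) (nat_lit 5) (nat_lit 2) (nat_lit 4) (nat_lit 292) (nat_lit 232) (nat_lit 196))))) (XT.nd (nat_lit 234) (nat_lit 0) (nat_lit 0) (XT.nd (nat_lit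 78) (nat_lit 0) (nat_lit 0) (XT.lf (nat_lit 0) (nat_lit 22548908190) (nat_lit 76) (nat_lit 39552794254) (nat_lit 76) (nat_lit 30474120935) (nat_lit 1) (nat_lit 4) (nat_lit 2) (nat_lit 5) (nat_lit 2) (nat_lit 4) (nat_lit 293) (nat_lit 232) (nat_lit 195)) (XT.nd (nat_lit 78) (nat_lit 0) (nat_lit 0) (XT.lf (nat_lit 0) (nat_lit 28757598384) (nat_lit 76) (nat_lit 40066165558) (nat_lit 76) (nat_lit 30946096830) (nat_lit 1) (nat_lit 4) (nat_lit 2) (nat_lit 5) (nat_lit 2) (nat_lit 4) (nat_lit 294) (nat_lit 232) (nat_lit 194)) (XT.lf (nat_lit 0) (nat_lit 35430206544) (nat_lit 76) (nat_lit 40634595095) (nat_lit 76) (nat_lit 31476197284) (nat_lit 1) (nat_lit 4) (nat_lit 2) (nat_lit 5) (nat_lit 2) (nat_lit 4) (nat_lit 295) (nat_lit 232) (nat_lit 193)))) (XT.nd (nat_lit 78) (nat_lit 0) (nat_lit 0) (XT.lf (nat_lit 0) (nat_lit 42606274049) (nat_lit 76) (nat_lit 41261451337) (nat_lit 76) (nat_lit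 32067563635) (nat_lit 1) (nat_lit 4) (nat_lit 2) (nat_lit 5) (nat_lit 2) (nat_lit 4) (nat_lit 296) (nat_lit 232) (nat_lit 192)) (XT.nd (nat_lit 78) (nat_lit 0) (nat_lit 0) (XT.lf (nat_lit 0) (nat_lit 50328325745) (nat_lit 76) (nat_lit 41950448987) (nat_lit 76) (nat_lit 32723700275) (nat_lit 1) (nat_lit 4) (nat_lit 2) (nat_lit 5) (nat_lit 2) (nat_lit 4) (nat_lit 297) (nat_lit 232) (nat_lit 191)) (XT.lf (nat_lit 0) (nat_lit 58642121937) (nat_lit 76) (nat_lit 42705670995) (nat_lit 76) (nat_lit 33448495421) (nat_lit 1) (nat_lit 4) (nat_lit 2) (nat_lit 5) (nat_lit 2) (nat_lit 4) (nat_lit 298) (nat_lit 232) (nat_lit 190))))))))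
noncomputable def xc35 : XT := (XT.nd (nat_lit 1716) (nat_lit 0) (nat_lit 0) (XT.nd (nat_lit 858) (nat_lit 0) (nat_lit 0) (XT.nd (nat_lit 390) (nat_lit 0) (nat_lit 0) (XT.nd (nat_lit 156) (nat_lit 0) (nat_lit 0) (XT.nd (nat_lit 78) (nat_lit 0) (nat_lit 0) (XT.lf (nat_lit 0) (nat_lit 67596929567) (nat_lit 76) (nat_lit 43531592750) (nat_lit 76) (nat_lit 34246244156) (nat_lit 1) (nat_lit 4) (nat_lit 2) (nat_lit 5) (nat_lit 2) (nat_lit 4) (nat_lit 299) (nat_lit 232) (nat_lit 189)) (XT.lf (nat_lit 0) (nat_lit 77245814161) (nat_lit 76) (nat_lit 44433108604) (nat_lit 76) (nat_lit 35121673880) (nat_lit 1) (nat_lit 4) (nat_lit 2) (nat_lit 5) (nat_lit 2) (nat_lit 4) (nat_lit 300) (nat_lit 232) (nat_lit 188))) (XT.nd (nat_lit 78) (nat_lit 0) (nat_lit 0) (XT.lf (nat_lit 0) (nat_lit 87645954294) (nat_lit 76) (nat_lit 45415560872) (nat_lit 76) (nat_lit 36079972325) (nat_lit 1) (nat_lit 4) (nat_lit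 2) (nat_lit 5) (nat_lit 2) (nat_lit 4) (nat_lit 301) (nat_lit 232) (nat_lit 187)) (XT.nd (nat_lit 78) (nat_lit 0) (nat_lit 0) (XT.lf (nat_lit 0) (nat_lit 98858980427) (nat_lit 76) (nat_lit 46484771494) (nat_lit 76) (nat_lit 37126818295) (nat_lit 1) (nat_lit 4) (nat_lit 2) (nat_lit 5) (nat_lit 2) (nat_lit 4) (nat_lit 302) (nat_lit 232) (nat_lit 186)) (XT.lf (nat_lit 0) (nat_lit 110951340121) (nat_lit 76) (nat_lit 47647076532) (nat_lit 76) (nat_lit 38268415323) (nat_lit 1) (nat_lit 4) (nat_lit 2) (nat_lit 5) (nat_lit 2) (nat_lit 4) (nat_lit 303) (nat_lit 232) (nat_lit 185))))) (XT.nd (nat_lit 234) (nat_lit 0) (nat_lit 0) (XT.nd (nat_lit 78) (nat_lit 0) (nat_lit 0) (XT.lf (nat_lit 0) (nat_lit 123994691805) (nat_lit 76) (nat_lit 48909363722) (nat_lit 76) (nat_lit 39511528428) (nat_lit 1) (nat_lit 4) (nat_lit 2) (nat_lit 5) (nat_lit 2) (nat_lit 4) (nat_lit 304) (nat_lit 232) (nat_lit 184))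 (XT.nd (nat_lit 78) (nat_lit 0) (nat_lit 0) (XT.lf (nat_lit 0) (nat_lit 138066329414) (nat_lit 76) (nat_lit 50279113281) (nat_lit 76) (nat_lit 40863524206) (nat_lit 1) (nat_lit 4) (nat_lit 2) (nat_lit 5) (nat_lit 2) (nat_lit 4) (nat_lit 305) (nat_lit 232) (nat_lit 183)) (XT.lf (nat_lit 0) (nat_lit 153249640431) (nat_lit 76) (nat_lit 51764442246) (nat_lit 76) (nat_lit 42332414485) (nat_lit 1) (nat_lit 4) (nat_lit 2) (nat_lit 5) (nat_lit 2) (nat_lit 4) (nat_lit 306) (nat_lit 232) (nat_lit 182)))) (XT.nd (nat_lit 78) (nat_lit 0) (nat_lit 0) (XT.lf (nat_lit 0) (nat_lit 169634600032) (nat_lit 76) (nat_lit 53374152566) (nat_lit 76) (nat_lit 43926903799) (nat_lit 1) (nat_lit 4) (nat_lit 2) (nat_lit 5) (nat_lit 2) (nat_lit 4) (nat_lit 307) (nat_lit 232) (nat_lit 181)) (XT.nd (nat_lit 78) (nat_lit 0) (nat_lit 0) (XT.lf (nat_lit 0) (nat_lit 187318304273) (nat_lit 76) (nat_lit 55117783265) (nat_lit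 76) (nat_lit 45656440973) (nat_lit 1) (nat_lit 4) (nat_lit 2) (nat_lit 5) (nat_lit 2) (nat_lit 4) (nat_lit 308) (nat_lit 232) (nat_lit 180)) (XT.lf (nat_lit 0) (nat_lit 206405545476) (nat_lit 76) (nat_lit 57005666968) (nat_lit 76) (nat_lit 47531275117) (nat_lit 1) (nat_lit 4) (nat_lit 2) (nat_lit 5) (nat_lit 2) (nat_lit 4) (nat_lit 309) (nat_lit 232) (nat_lit 179)))))) (XT.nd (nat_lit 390) (nat_lit 0) (nat_lit 0) (XT.nd (nat_lit 156) (nat_lit 0) (nat_lit 0) (XT.nd (nat_lit 78) (nat_lit 0) (nat_lit 0) (XT.lf (nat_lit 0) (nat_lit 227009433220) (nat_lit 76) (nat_lit 59048991136) (nat_lit 76) (nat_lit 49562516359) (nat_lit 1) (nat_lit 4) (nat_lit 2) (nat_lit 5) (nat_lit 2) (nat_lit 4) (nat_lit 310) (nat_lit 232) (nat_lit 178)) (XT.lf (nat_lit 0) (nat_lit 249252064615) (nat_lit 76) (nat_lit 61259864355) (nat_lit 76) (nat_lit 51762201685) (nat_lit 1) (nat_lit 4) (nat_lit 2) (nat_lit 5)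 (nat_lit 2) (nat_lit 4) (nat_lit 311) (nat_lit 232) (nat_lit 177))) (XT.nd (nat_lit 78) (nat_lit 0) (nat_lit 0) (XT.lf (nat_lit 0) (nat_lit 273265247849) (nat_lit 76) (nat_lit 63651388097) (nat_lit 76) (nat_lit 54143366266) (nat_lit 1) (nat_lit 4) (nat_lit 2) (nat_lit 5) (nat_lit 2) (nat_lit 4) (nat_lit 312) (nat_lit 232) (nat_lit 176)) (XT.nd (nat_lit 78) (nat_lit 0) (nat_lit 0) (XT.lf (nat_lit 0) (nat_lit 299191283267) (nat_lit 76) (nat_lit 66237734354) (nat_lit 76) (nat_lit 56720120707) (nat_lit 1) (nat_lit 4) (nat_lit 2) (nat_lit 5) (nat_lit 2) (nat_lit 4) (nat_lit 313) (nat_lit 232) (nat_lit 175)) (XT.lf (nat_lit 0) (nat_lit 327183806633) (nat_lit 76) (nat_lit 69034229623) (nat_lit 76) (nat_lit 59507734665) (nat_lit 1) (nat_lit 4) (nat_lit 2) (nat_lit 5) (nat_lit 2) (nat_lit 4) (nat_lit 314) (nat_lit 232) (nat_lit 174))))) (XT.nd (nat_lit 234) (nat_lit 0) (nat_lit 0) (XT.nd (nat_lit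 78) (nat_lit 0) (nat_lit 0) (XT.lf (nat_lit 0) (nat_lit 357408699568) (nat_lit 76) (nat_lit 72057445727) (nat_lit 76) (nat_lit 62522727333) (nat_lit 1) (nat_lit 4) (nat_lit 2) (nat_lit 5) (nat_lit 2) (nat_lit 4) (nat_lit 315) (nat_lit 232) (nat_lit 173)) (XT.nd (nat_lit 78) (nat_lit 0) (nat_lit 0) (XT.lf (nat_lit 0) (nat_lit 390045072548) (nat_lit 76) (nat_lit 75325298022) (nat_lit 76) (nat_lit 65782965335) (nat_lit 1) (nat_lit 4) (nat_lit 2) (nat_lit 5) (nat_lit 2) (nat_lit 4) (nat_lit 316) (nat_lit 232) (nat_lit 172)) (XT.lf (nat_lit 0) (nat_lit 425286326303) (nat_lit 76) (nat_lit 78857151556) (nat_lit 76) (nat_lit 69307768599) (nat_lit 1) (nat_lit 4) (nat_lit 2) (nat_lit 5) (nat_lit 2) (nat_lit 4) (nat_lit 317) (nat_lit 232) (nat_lit 171)))) (XT.nd (nat_lit 78) (nat_lit 0) (nat_lit 0) (XT.lf (nat_lit 0) (nat_lit 463341297891) (nat_lit 76) (nat_lit 82673935834) (nat_lit 76) (nat_lit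 73118024849) (nat_lit 1) (nat_lit 4) (nat_lit 2) (nat_lit 5) (nat_lit 2) (nat_lit 4) (nat_lit 318) (nat_lit 232) (nat_lit 170)) (XT.nd (nat_lit 78) (nat_lit 0) (nat_lit 0) (XT.lf (nat_lit 0) (nat_lit 504435498256) (nat_lit 76) (nat_lit 86798268837) (nat_lit 76) (nat_lit 77236313380) (nat_lit 1) (nat_lit 4) (nat_lit 2) (nat_lit 5) (nat_lit 2) (nat_lit 4) (nat_lit 319) (nat_lit 232) (nat_lit 169)) (XT.lf (nat_lit 0) (nat_lit 548812448584) (nat_lit 76) (nat_lit 91254591055) (nat_lit 76) (nat_lit 81687038865) (nat_lit 1) (nat_lit 4) (nat_lit 2) (nat_lit 5) (nat_lit 2) (nat_lit 4) (nat_lit 320) (nat_lit 232) (nat_lit 168))))))) (XT.nd (nat_lit 858) (nat_lit 0) (nat_lit 0) (XT.nd (nat_lit 390) (nat_lit 0) (nat_lit 0) (XT.nd (nat_lit 156) (nat_lit 0) (nat_lit 0) (XT.nd (nat_lit 78) (nat_lit 0) (nat_lit 0) (XT.lf (nat_lit 0) (nat_lit 596735123396) (nat_lit 76) (nat_lit 96069310324) (nat_lit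 76) (nat_lit 86496575975) (nat_lit 1) (nat_lit 4) (nat_lit 2) (nat_lit 5) (nat_lit 2) (nat_lit 4) (nat_lit 321) (nat_lit 232) (nat_lit 167)) (XT.lf (nat_lit 0) (nat_lit 648487508913) (nat_lit 76) (nat_lit 101270958314) (nat_lit 76) (nat_lit 91693425669) (nat_lit 1) (nat_lit 4) (nat_lit 2) (nat_lit 5) (nat_lit 2) (nat_lit 4) (nat_lit 322) (nat_lit 232) (nat_lit 166))) (XT.nd (nat_lit 78) (nat_lit 0) (nat_lit 0) (XT.lf (nat_lit 0) (nat_lit 704376285939) (nat_lit 76) (nat_lit 106890359606) (nat_lit 76) (nat_lit 97308384095) (nat_lit 1) (nat_lit 4) (nat_lit 2) (nat_lit 5) (nat_lit 2) (nat_lit 4) (nat_lit 323) (nat_lit 232) (nat_lit 165)) (XT.nd (nat_lit 78) (nat_lit 0) (nat_lit 0) (XT.lf (nat_lit 0) (nat_lit 764732647225) (nat_lit 76) (nat_lit 112960814355) (nat_lit 76) (nat_lit 103374725079) (nat_lit 1) (nat_lit 4) (nat_lit 2) (nat_lit 5) (nat_lit 2) (nat_lit 4) (nat_lit 324) (nat_lit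 232) (nat_lit 164)) (XT.lf (nat_lit 0) (nat_lit 829914260099) (nat_lit 76) (nat_lit 119518295627) (nat_lit 76) (nat_lit 109928397309) (nat_lit 1) (nat_lit 4) (nat_lit 2) (nat_lit 5) (nat_lit 2) (nat_lit 4) (nat_lit 325) (nat_lit 232) (nat_lit 163))))) (XT.nd (nat_lit 234) (nat_lit 0) (nat_lit 0) (XT.nd (nat_lit 78) (nat_lit 0) (nat_lit 0) (XT.lf (nat_lit 0) (nat_lit 900307385969) (nat_lit 76) (nat_lit 126601662570) (nat_lit 76) (nat_lit 117008237361) (nat_lit 1) (nat_lit 4) (nat_lit 2) (nat_lit 5) (nat_lit 2) (nat_lit 4) (nat_lit 326) (nat_lit 232) (nat_lit 162)) (XT.nd (nat_lit 78) (nat_lit 0) (nat_lit 0) (XT.lf (nat_lit 0) (nat_lit 976329169286) (nat_lit 76) (nat_lit 134252890692) (nat_lit 76) (nat_lit 124656199843) (nat_lit 1) (nat_lit 4) (nat_lit 2) (nat_lit 5) (nat_lit 2) (nat_lit 4) (nat_lit 327) (nat_lit 232) (nat_lit 161)) (XT.lf (nat_lit 0) (nat_lit 1058430109506) (nat_lit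 76) (nat_lit 142517320604) (nat_lit 76) (nat_lit 132917606014) (nat_lit 1) (nat_lit 4) (nat_lit 2) (nat_lit 5) (nat_lit 2) (nat_lit 4) (nat_lit 328) (nat_lit 232) (nat_lit 160)))) (XT.nd (nat_lit 78) (nat_lit 0) (nat_lit 0) (XT.lf (nat_lit 0) (nat_lit 1147096730719) (nat_lit 76) (nat_lit 151443926705) (nat_lit 76) (nat_lit 141841412356) (nat_lit 1) (nat_lit 4) (nat_lit 2) (nat_lit 5) (nat_lit 2) (nat_lit 4) (nat_lit 329) (nat_lit 232) (nat_lit 159)) (XT.nd (nat_lit 78) (nat_lit 0) (nat_lit 0) (XT.lf (nat_lit 0) (nat_lit 1242854464755) (nat_lit 76) (nat_lit 161085607401) (nat_lit 76) (nat_lit 151480500683) (nat_lit 1) (nat_lit 4) (nat_lit 2) (nat_lit 5) (nat_lit 2) (nat_lit 4) (nat_lit 330) (nat_lit 232) (nat_lit 158)) (XT.lf (nat_lit 0) (nat_lit 1346270764852) (nat_lit 76) (nat_lit 171499498580) (nat_lit 76) (nat_lit 161891991518) (nat_lit 1) (nat_lit 4) (nat_lit 2) (nat_lit 5) (nat_lit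 2) (nat_lit 4) (nat_lit 331) (nat_lit 232) (nat_lit 157)))))) (XT.nd (nat_lit 31746) (nat_lit 0) (nat_lit 684) (XT.nd (nat_lit 31512) (nat_lit 0) (nat_lit 1292) (XT.nd (nat_lit 31434) (nat_lit 0) (nat_lit 1520) (XT.lf (nat_lit 0) (nat_lit 1457958468344) (nat_lit 76) (nat_lit 182747312187) (nat_lit 76) (nat_lit 173137582586) (nat_lit 1) (nat_lit 4) (nat_lit 2) (nat_lit 5) (nat_lit 2) (nat_lit 4) (nat_lit 332) (nat_lit 232) (nat_lit 156)) (XT.lf (nat_lit 0) (nat_lit 1366568864) (nat_lit 228) (nat_lit 1367758602) (nat_lit 228) (nat_lit 1367758602) (nat_lit 21) (nat_lit 4) (nat_lit 24) (nat_lit 5) (nat_lit 24) (nat_lit 4) (nat_lit 254) (nat_lit 233) (nat_lit 233))) (XT.nd (nat_lit 78) (nat_lit 152) (nat_lit 0) (XT.lf (nat_lit 0) (nat_lit 142540196) (nat_lit 304) (nat_lit 836369671) (nat_lit 76) (nat_lit 7521917590) (nat_lit 20) (nat_lit 5) (nat_lit 24) (nat_lit 5) (nat_lit 21) (nat_lit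 4) (nat_lit 255) (nat_lit 233) (nat_lit 232)) (XT.nd (nat_lit 78) (nat_lit 0) (nat_lit 0) (XT.lf (nat_lit 0) (nat_lit 3025657020) (nat_lit 228) (nat_lit 4792478052) (nat_lit 0) (nat_lit 1005479702) (nat_lit 18) (nat_lit 5) (nat_lit 21) (nat_lit 4) (nat_lit 18) (nat_lit 4) (nat_lit 256) (nat_lit 233) (nat_lit 231)) (XT.lf (nat_lit 0) (nat_lit 5995934336) (nat_lit 228) (nat_lit 113060204) (nat_lit 0) (nat_lit 3076461560) (nat_lit 18) (nat_lit 5) (nat_lit 21) (nat_lit 4) (nat_lit 18) (nat_lit 4) (nat_lit 257) (nat_lit 233) (nat_lit 230))))) (XT.nd (nat_lit 234) (nat_lit 228) (nat_lit 0) (XT.nd (nat_lit 78) (nat_lit 228) (nat_lit 0) (XT.lf (nat_lit 0) (nat_lit 4955013245) (nat_lit 152) (nat_lit 4189862036) (nat_lit 152) (nat_lit 437708279) (nat_lit 16) (nat_lit 4) (nat_lit 18) (nat_lit 5) (nat_lit 18) (nat_lit 4) (nat_lit 258) (nat_lit 233) (nat_lit 229)) (XT.nd (nat_lit 78) (nat_lit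 0) (nat_lit 0) (XT.lf (nat_lit 0) (nat_lit 130921825) (nat_lit 152) (nat_lit 2106614948) (nat_lit 228) (nat_lit 7784054472) (nat_lit 13) (nat_lit 5) (nat_lit 15) (nat_lit 5) (nat_lit 16) (nat_lit 4) (nat_lit 259) (nat_lit 233) (nat_lit 228)) (XT.lf (nat_lit 0) (nat_lit 5066094491) (nat_lit 228) (nat_lit 5215988675) (nat_lit 0) (nat_lit 216979312) (nat_lit 13) (nat_lit 5) (nat_lit 16) (nat_lit 4) (nat_lit 13) (nat_lit 4) (nat_lit 260) (nat_lit 233) (nat_lit 227)))) (XT.nd (nat_lit 78) (nat_lit 228) (nat_lit 0) (XT.lf (nat_lit 0) (nat_lit 8017952374) (nat_lit 228) (nat_lit 449418297) (nat_lit 0) (nat_lit 2556791817) (nat_lit 13) (nat_lit 5) (nat_lit 16) (nat_lit 4) (nat_lit 13) (nat_lit 4) (nat_lit 261) (nat_lit 233) (nat_lit 226)) (XT.nd (nat_lit 78) (nat_lit 76) (nat_lit 0) (XT.lf (nat_lit 0) (nat_lit 4724279804) (nat_lit 152) (nat_lit 6449278013) (nat_lit 152) (nat_lit 421408772)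 (nat_lit 11) (nat_lit 4) (nat_lit 13) (nat_lit 5) (nat_lit 13) (nat_lit 4) (nat_lit 262) (nat_lit 233) (nat_lit 225)) (XT.lf (nat_lit 0) (nat_lit 2119468069) (nat_lit 228) (nat_lit 2144105918) (nat_lit 76) (nat_lit 7954818734) (nat_lit 10) (nat_lit 5) (nat_lit 13) (nat_lit 5) (nat_lit 11) (nat_lit 4) (nat_lit 263) (nat_lit 233) (nat_lit 224))))))))
noncomputable def xc36 : XT := (XT.nd (nat_lit 1638) (nat_lit 76) (nat_lit 0) (XT.nd (nat_lit 780) (nat_lit 228) (nat_lit 0) (XT.nd (nat_lit 390) (nat_lit 76) (nat_lit 0) (XT.nd (nat_lit 156) (nat_lit 228) (nat_lit 0) (XT.nd (nat_lit 78) (nat_lit 0) (nat_lit 0) (XT.lf (nat_lit 0) (nat_lit 2896626610) (nat_lit 76) (nat_lit 1879857749) (nat_lit 152) (nat_lit 8120358418) (nat_lit 9) (nat_lit 5) (nat_lit 10) (nat_lit 5) (nat_lit 11) (nat_lit 4) (nat_lit 264) (nat_lit 233) (nat_lit 223)) (XT.lf (nat_lit 0) (nat_lit 7592629496) (nat_lit 152)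 (nat_lit 5383037104) (nat_lit 0) (nat_lit 658988309) (nat_lit 9) (nat_lit 5) (nat_lit 11) (nat_lit 4) (nat_lit 9) (nat_lit 4) (nat_lit 265) (nat_lit 233) (nat_lit 222))) (XT.nd (nat_lit 78) (nat_lit 228) (nat_lit 0) (XT.lf (nat_lit 0) (nat_lit 10562261414) (nat_lit 152) (nat_lit 632798532) (nat_lit 0) (nat_lit 3242927820) (nat_lit 9) (nat_lit 5) (nat_lit 11) (nat_lit 4) (nat_lit 9) (nat_lit 4) (nat_lit 266) (nat_lit 233) (nat_lit 221)) (XT.nd (nat_lit 78) (nat_lit 76) (nat_lit 0) (XT.lf (nat_lit 0) (nat_lit 4551546527) (nat_lit 152) (nat_lit 9215685584) (nat_lit 152) (nat_lit 1539229390) (nat_lit 7) (nat_lit 4) (nat_lit 9) (nat_lit 5) (nat_lit 9) (nat_lit 4) (nat_lit 267) (nat_lit 233) (nat_lit 220)) (XT.lf (nat_lit 0) (nat_lit 841809440) (nat_lit 228) (nat_lit 6256161631) (nat_lit 76) (nat_lit 9152596534) (nat_lit 6) (nat_lit 5) (nat_lit 9) (nat_lit 5) (nat_lit 7) (nat_lit 4) (nat_lit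 268) (nat_lit 233) (nat_lit 219))))) (XT.nd (nat_lit 156) (nat_lit 0) (nat_lit 0) (XT.nd (nat_lit 78) (nat_lit 76) (nat_lit 0) (XT.lf (nat_lit 0) (nat_lit 3227491452) (nat_lit 228) (nat_lit 1600118114) (nat_lit 76) (nat_lit 12448161034) (nat_lit 6) (nat_lit 5) (nat_lit 9) (nat_lit 5) (nat_lit 7) (nat_lit 4) (nat_lit 269) (nat_lit 233) (nat_lit 218)) (XT.lf (nat_lit 0) (nat_lit 3450429929) (nat_lit 76) (nat_lit 2341505503) (nat_lit 152) (nat_lit 12592533178) (nat_lit 5) (nat_lit 5) (nat_lit 6) (nat_lit 5) (nat_lit 7) (nat_lit 4) (nat_lit 270) (nat_lit 233) (nat_lit 217))) (XT.nd (nat_lit 78) (nat_lit 0) (nat_lit 0) (XT.lf (nat_lit 0) (nat_lit 8521791726) (nat_lit 152) (nat_lit 10744979676) (nat_lit 0) (nat_lit 318744002) (nat_lit 5) (nat_lit 5) (nat_lit 7) (nat_lit 4) (nat_lit 5) (nat_lit 4) (nat_lit 271) (nat_lit 233) (nat_lit 216)) (XT.nd (nat_lit 78) (nat_lit 0) (nat_lit 0) (XT.lf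 (nat_lit 0) (nat_lit 11444845124) (nat_lit 152) (nat_lit 6423504959) (nat_lit 0) (nat_lit 3016749585) (nat_lit 5) (nat_lit 5) (nat_lit 7) (nat_lit 4) (nat_lit 5) (nat_lit 4) (nat_lit 272) (nat_lit 233) (nat_lit 215)) (XT.lf (nat_lit 0) (nat_lit 14522104161) (nat_lit 152) (nat_lit 1887692528) (nat_lit 0) (nat_lit 5885631016) (nat_lit 5) (nat_lit 5) (nat_lit 7) (nat_lit 4) (nat_lit 5) (nat_lit 4) (nat_lit 273) (nat_lit 233) (nat_lit 214)))))) (XT.nd (nat_lit 390) (nat_lit 76) (nat_lit 0) (XT.nd (nat_lit 156) (nat_lit 76) (nat_lit 0) (XT.nd (nat_lit 78) (nat_lit 0) (nat_lit 0) (XT.lf (nat_lit 0) (nat_lit 3041483845) (nat_lit 76) (nat_lit 14803468361) (nat_lit 76) (nat_lit 5974052987) (nat_lit 4) (nat_lit 4) (nat_lit 5) (nat_lit 5) (nat_lit 5) (nat_lit 4) (nat_lit 274) (nat_lit 233) (nat_lit 213)) (XT.lf (nat_lit 0) (nat_lit 8353780390) (nat_lit 76) (nat_lit 13060331692) (nat_lit 76)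 (nat_lit 4052266106) (nat_lit 4) (nat_lit 4) (nat_lit 5) (nat_lit 5) (nat_lit 5) (nat_lit 4) (nat_lit 275) (nat_lit 233) (nat_lit 212))) (XT.nd (nat_lit 78) (nat_lit 76) (nat_lit 0) (XT.lf (nat_lit 0) (nat_lit 13981274839) (nat_lit 76) (nat_lit 11221669843) (nat_lit 76) (nat_lit 2048187394) (nat_lit 4) (nat_lit 4) (nat_lit 5) (nat_lit 5) (nat_lit 5) (nat_lit 4) (nat_lit 276) (nat_lit 233) (nat_lit 211)) (XT.nd (nat_lit 78) (nat_lit 0) (nat_lit 0) (XT.lf (nat_lit 0) (nat_lit 47555007) (nat_lit 152) (nat_lit 9227731795) (nat_lit 76) (nat_lit 19908460062) (nat_lit 3) (nat_lit 5) (nat_lit 5) (nat_lit 5) (nat_lit 4) (nat_lit 4) (nat_lit 277) (nat_lit 233) (nat_lit 210)) (XT.lf (nat_lit 0) (nat_lit 2142108028) (nat_lit 152) (nat_lit 5012879809) (nat_lit 76) (nat_lit 24116638310) (nat_lit 3) (nat_lit 5) (nat_lit 5) (nat_lit 5) (nat_lit 4) (nat_lit 4) (nat_lit 278) (nat_lit 233) (nat_lit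 209))))) (XT.nd (nat_lit 234) (nat_lit 0) (nat_lit 0) (XT.nd (nat_lit 78) (nat_lit 76) (nat_lit 0) (XT.lf (nat_lit 0) (nat_lit 4350342462) (nat_lit 152) (nat_lit 551065425) (nat_lit 76) (nat_lit 28629675374) (nat_lit 3) (nat_lit 5) (nat_lit 5) (nat_lit 5) (nat_lit 4) (nat_lit 4) (nat_lit 279) (nat_lit 233) (nat_lit 208)) (XT.nd (nat_lit 78) (nat_lit 0) (nat_lit 0) (XT.lf (nat_lit 0) (nat_lit 4404481755) (nat_lit 76) (nat_lit 2386790280) (nat_lit 152) (nat_lit 29175761315) (nat_lit 2) (nat_lit 5) (nat_lit 3) (nat_lit 5) (nat_lit 4) (nat_lit 4) (nat_lit 280) (nat_lit 233) (nat_lit 207)) (XT.lf (nat_lit 0) (nat_lit 9401892421) (nat_lit 152) (nat_lit 28901828079) (nat_lit 0) (nat_lit 296388702) (nat_lit 2) (nat_lit 5) (nat_lit 4) (nat_lit 4) (nat_lit 2) (nat_lit 4) (nat_lit 281) (nat_lit 233) (nat_lit 206)))) (XT.nd (nat_lit 78) (nat_lit 0) (nat_lit 0) (XT.lf (nat_lit 0) (nat_lit 12238028849)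 (nat_lit 152) (nat_lit 26168651009) (nat_lit 0) (nat_lit 3036005980) (nat_lit 2) (nat_lit 5) (nat_lit 4) (nat_lit 4) (nat_lit 2) (nat_lit 4) (nat_lit 282) (nat_lit 233) (nat_lit 205)) (XT.nd (nat_lit 78) (nat_lit 0) (nat_lit 0) (XT.lf (nat_lit 0) (nat_lit 15259085691) (nat_lit 152) (nat_lit 23289421416) (nat_lit 0) (nat_lit 5967693238) (nat_lit 2) (nat_lit 5) (nat_lit 4) (nat_lit 4) (nat_lit 2) (nat_lit 4) (nat_lit 283) (nat_lit 233) (nat_lit 204)) (XT.lf (nat_lit 0) (nat_lit 18482965506) (nat_lit 152) (nat_lit 20247077199) (nat_lit 0) (nat_lit 9108823438) (nat_lit 2) (nat_lit 5) (nat_lit 4) (nat_lit 4) (nat_lit 2) (nat_lit 4) (nat_lit 284) (nat_lit 233) (nat_lit 203))))))) (XT.nd (nat_lit 858) (nat_lit 0) (nat_lit 0) (XT.nd (nat_lit 390) (nat_lit 76) (nat_lit 0) (XT.nd (nat_lit 156) (nat_lit 0) (nat_lit 0) (XT.nd (nat_lit 78) (nat_lit 0) (nat_lit 0) (XT.lf (nat_lit 0) (nat_lit 21928772767)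 (nat_lit 152) (nat_lit 17023589653) (nat_lit 0) (nat_lit 12478010685) (nat_lit 2) (nat_lit 5) (nat_lit 4) (nat_lit 4) (nat_lit 2) (nat_lit 4) (nat_lit 285) (nat_lit 233) (nat_lit 202)) (XT.lf (nat_lit 0) (nat_lit 25616927071) (nat_lit 152) (nat_lit 13599856627) (nat_lit 0) (nat_lit 16095220533) (nat_lit 2) (nat_lit 5) (nat_lit 4) (nat_lit 4) (nat_lit 2) (nat_lit 4) (nat_lit 286) (nat_lit 233) (nat_lit 201))) (XT.nd (nat_lit 78) (nat_lit 0) (nat_lit 0) (XT.lf (nat_lit 0) (nat_lit 29569284149) (nat_lit 152) (nat_lit 9955589335) (nat_lit 0) (nat_lit 19981888299) (nat_lit 2) (nat_lit 5) (nat_lit 4) (nat_lit 4) (nat_lit 2) (nat_lit 4) (nat_lit 287) (nat_lit 233) (nat_lit 200)) (XT.nd (nat_lit 78) (nat_lit 0) (nat_lit 0) (XT.lf (nat_lit 0) (nat_lit 33809265376) (nat_lit 152) (nat_lit 6069192119) (nat_lit 0) (nat_lit 24161046089) (nat_lit 2) (nat_lit 5) (nat_lit 4) (nat_lit 4) (nat_lit 2)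 (nat_lit 4) (nat_lit 288) (nat_lit 233) (nat_lit 199)) (XT.lf (nat_lit 0) (nat_lit 38361996566) (nat_lit 152) (nat_lit 1917634475) (nat_lit 0) (nat_lit 28657459282) (nat_lit 2) (nat_lit 5) (nat_lit 4) (nat_lit 4) (nat_lit 2) (nat_lit 4) (nat_lit 289) (nat_lit 233) (nat_lit 198))))) (XT.nd (nat_lit 234) (nat_lit 0) (nat_lit 0) (XT.nd (nat_lit 78) (nat_lit 0) (nat_lit 0) (XT.lf (nat_lit 0) (nat_lit 2656578220) (nat_lit 76) (nat_lit 40661769418) (nat_lit 76) (nat_lit 30905085839) (nat_lit 1) (nat_lit 4) (nat_lit 2) (nat_lit 5) (nat_lit 2) (nat_lit 4) (nat_lit 290) (nat_lit 233) (nat_lit 197)) (XT.nd (nat_lit 78) (nat_lit 0) (nat_lit 0) (XT.lf (nat_lit 0) (nat_lit 7664495606) (nat_lit 76) (nat_lit 41035474335) (nat_lit 76) (nat_lit 31230507151) (nat_lit 1) (nat_lit 4) (nat_lit 2) (nat_lit 5) (nat_lit 2) (nat_lit 4) (nat_lit 291) (nat_lit 233) (nat_lit 196)) (XT.lf (nat_lit 0) (nat_lit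 13034814997) (nat_lit 76) (nat_lit 41455391866) (nat_lit 76) (nat_lit 31605717640) (nat_lit 1) (nat_lit 4) (nat_lit 2) (nat_lit 5) (nat_lit 2) (nat_lit 4) (nat_lit 292) (nat_lit 233) (nat_lit 195)))) (XT.nd (nat_lit 78) (nat_lit 0) (nat_lit 0) (XT.lf (nat_lit 0) (nat_lit 18799360508) (nat_lit 76) (nat_lit 41924010412) (nat_lit 76) (nat_lit 32032940776) (nat_lit 1) (nat_lit 4) (nat_lit 2) (nat_lit 5) (nat_lit 2) (nat_lit 4) (nat_lit 293) (nat_lit 233) (nat_lit 194)) (XT.nd (nat_lit 78) (nat_lit 0) (nat_lit 0) (XT.lf (nat_lit 0) (nat_lit 24992292409) (nat_lit 76) (nat_lit 42444106970) (nat_lit 76) (nat_lit 32514708252) (nat_lit 1) (nat_lit 4) (nat_lit 2) (nat_lit 5) (nat_lit 2) (nat_lit 4) (nat_lit 294) (nat_lit 233) (nat_lit 193)) (XT.lf (nat_lit 0) (nat_lit 31650309556) (nat_lit 76) (nat_lit 43018763594) (nat_lit 76) (nat_lit 33053874985) (nat_lit 1) (nat_lit 4) (nat_lit 2) (nat_lit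 5) (nat_lit 2) (nat_lit 4) (nat_lit 295) (nat_lit 233) (nat_lit 192)))))) (XT.nd (nat_lit 390) (nat_lit 0) (nat_lit 0) (XT.nd (nat_lit 156) (nat_lit 0) (nat_lit 0) (XT.nd (nat_lit 78) (nat_lit 0) (nat_lit 0) (XT.lf (nat_lit 0) (nat_lit 38812866864) (nat_lit 76) (nat_lit 43651385658) (nat_lit 76) (nat_lit 33653636038) (nat_lit 1) (nat_lit 4) (nat_lit 2) (nat_lit 5) (nat_lit 2) (nat_lit 4) (nat_lit 296) (nat_lit 233) (nat_lit 191)) (XT.lf (nat_lit 0) (nat_lit 46522409118) (nat_lit 76) (nat_lit 44345722032) (nat_lit 76) (nat_lit 34317545551) (nat_lit 1) (nat_lit 4) (nat_lit 2) (nat_lit 5) (nat_lit 2) (nat_lit 4) (nat_lit 297) (nat_lit 233) (nat_lit 190))) (XT.nd (nat_lit 78) (nat_lit 0) (nat_lit 0) (XT.lf (nat_lit 0) (nat_lit 54824622494) (nat_lit 76) (nat_lit 45105887303) (nat_lit 76) (nat_lit 35049537801) (nat_lit 1) (nat_lit 4) (nat_lit 2) (nat_lit 5) (nat_lit 2) (nat_lit 4) (nat_lit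 298) (nat_lit 233) (nat_lit 189)) (XT.nd (nat_lit 78) (nat_lit 0) (nat_lit 0) (XT.lf (nat_lit 0) (nat_lit 63768705294) (nat_lit 76) (nat_lit 45936386153) (nat_lit 76) (nat_lit 35853950522) (nat_lit 1) (nat_lit 4) (nat_lit 2) (nat_lit 5) (nat_lit 2) (nat_lit 4) (nat_lit 299) (nat_lit 233) (nat_lit 188)) (XT.lf (nat_lit 0) (nat_lit 73407659490) (nat_lit 76) (nat_lit 46842140058) (nat_lit 76) (nat_lit 36735550603) (nat_lit 1) (nat_lit 4) (nat_lit 2) (nat_lit 5) (nat_lit 2) (nat_lit 4) (nat_lit 300) (nat_lit 233) (nat_lit 187))))) (XT.nd (nat_lit 234) (nat_lit 0) (nat_lit 0) (XT.nd (nat_lit 78) (nat_lit 0) (nat_lit 0) (XT.lf (nat_lit 0) (nat_lit 83798604810) (nat_lit 76) (nat_lit 47828516447) (nat_lit 76) (nat_lit 37699562341) (nat_lit 1) (nat_lit 4) (nat_lit 2) (nat_lit 5) (nat_lit 2) (nat_lit 4) (nat_lit 301) (nat_lit 233) (nat_lit 186)) (XT.nd (nat_lit 78) (nat_lit 0) (nat_lit 0) (XT.lf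 (nat_lit 0) (nat_lit 95003117227) (nat_lit 76) (nat_lit 48901360515) (nat_lit 76) (nat_lit 38751698398) (nat_lit 1) (nat_lit 4) (nat_lit 2) (nat_lit 5) (nat_lit 2) (nat_lit 4) (nat_lit 302) (nat_lit 233) (nat_lit 185)) (XT.lf (nat_lit 0) (nat_lit 107087593851) (nat_lit 76) (nat_lit 50067029855) (nat_lit 76) (nat_lit 39898193654) (nat_lit 1) (nat_lit 4) (nat_lit 2) (nat_lit 5) (nat_lit 2) (nat_lit 4) (nat_lit 303) (nat_lit 233) (nat_lit 184)))) (XT.nd (nat_lit 78) (nat_lit 0) (nat_lit 0) (XT.lf (nat_lit 0) (nat_lit 120123646396) (nat_lit 76) (nat_lit 51332432138) (nat_lit 76) (nat_lit 41145842156) (nat_lit 1) (nat_lit 4) (nat_lit 2) (nat_lit 5) (nat_lit 2) (nat_lit 4) (nat_lit 304) (nat_lit 233) (nat_lit 183)) (XT.nd (nat_lit 78) (nat_lit 0) (nat_lit 0) (XT.lf (nat_lit 0) (nat_lit 134188525543) (nat_lit 76) (nat_lit 52705066044) (nat_lit 76) (nat_lit 42502037375) (nat_lit 1) (nat_lit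 4) (nat_lit 2) (nat_lit 5) (nat_lit 2) (nat_lit 4) (nat_lit 305) (nat_lit 233) (nat_lit 182)) (XT.lf (nat_lit 0) (nat_lit 149365578724) (nat_lit 76) (nat_lit 54193065701) (nat_lit 76) (nat_lit 43974816025) (nat_lit 1) (nat_lit 4) (nat_lit 2) (nat_lit 5) (nat_lit 2) (nat_lit 4) (nat_lit 306) (nat_lit 233) (nat_lit 181))))))))
noncomputable def xc37 : XT := (XT.nd (nat_lit 1716) (nat_lit 0) (nat_lit 0) (XT.nd (nat_lit 858) (nat_lit 0) (nat_lit 0) (XT.nd (nat_lit 390) (nat_lit 0) (nat_lit 0) (XT.nd (nat_lit 156) (nat_lit 0) (nat_lit 0) (XT.nd (nat_lit 78) (nat_lit 0) (nat_lit 0) (XT.lf (nat_lit 0) (nat_lit 165744744033) (nat_lit 76) (nat_lit 55805248882) (nat_lit 76) (nat_lit 45572905683) (nat_lit 1) (nat_lit 4) (nat_lit 2) (nat_lit 5) (nat_lit 2) (nat_lit 4) (nat_lit 307) (nat_lit 233) (nat_lit 180)) (XT.lf (nat_lit 0) (nat_lit 183423083189) (nat_lit 76) (nat_lit 57551169268) (nat_lit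 76) (nat_lit 47305776509) (nat_lit 1) (nat_lit 4) (nat_lit 2) (nat_lit 5) (nat_lit 2) (nat_lit 4) (nat_lit 308) (nat_lit 233) (nat_lit 179))) (XT.nd (nat_lit 78) (nat_lit 0) (nat_lit 0) (XT.lf (nat_lit 0) (nat_lit 202505356721) (nat_lit 76) (nat_lit 59441173052) (nat_lit 76) (nat_lit 49183697368) (nat_lit 1) (nat_lit 4) (nat_lit 2) (nat_lit 5) (nat_lit 2) (nat_lit 4) (nat_lit 309) (nat_lit 233) (nat_lit 178)) (XT.nd (nat_lit 78) (nat_lit 0) (nat_lit 0) (XT.lf (nat_lit 0) (nat_lit 223104644769) (nat_lit 76) (nat_lit 61486460257) (nat_lit 76) (nat_lit 51217796680) (nat_lit 1) (nat_lit 4) (nat_lit 2) (nat_lit 5) (nat_lit 2) (nat_lit 4) (nat_lit 310) (nat_lit 233) (nat_lit 177)) (XT.lf (nat_lit 0) (nat_lit 245343017187) (nat_lit 76) (nat_lit 63699151104) (nat_lit 76) (nat_lit 53420128365) (nat_lit 1) (nat_lit 4) (nat_lit 2) (nat_lit 5) (nat_lit 2) (nat_lit 4) (nat_lit 311) (nat_lit 233)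 (nat_lit 176))))) (XT.nd (nat_lit 234) (nat_lit 0) (nat_lit 0) (XT.nd (nat_lit 78) (nat_lit 0) (nat_lit 0) (XT.lf (nat_lit 0) (nat_lit 269352256923) (nat_lit 76) (nat_lit 66092357835) (nat_lit 76) (nat_lit 55803743280) (nat_lit 1) (nat_lit 4) (nat_lit 2) (nat_lit 5) (nat_lit 2) (nat_lit 4) (nat_lit 312) (nat_lit 233) (nat_lit 175)) (XT.nd (nat_lit 78) (nat_lit 0) (nat_lit 0) (XT.lf (nat_lit 0) (nat_lit 295274640953) (nat_lit 76) (nat_lit 68680262414) (nat_lit 76) (nat_lit 58382766549) (nat_lit 1) (nat_lit 4) (nat_lit 2) (nat_lit 5) (nat_lit 2) (nat_lit 4) (nat_lit 313) (nat_lit 233) (nat_lit 174)) (XT.lf (nat_lit 0) (nat_lit 323263783406) (nat_lit 76) (nat_lit 71478200575) (nat_lit 76) (nat_lit 61172481273) (nat_lit 1) (nat_lit 4) (nat_lit 2) (nat_lit 5) (nat_lit 2) (nat_lit 4) (nat_lit 314) (nat_lit 233) (nat_lit 173)))) (XT.nd (nat_lit 78) (nat_lit 0) (nat_lit 0) (XT.lf (nat_lit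 0) (nat_lit 353485545865) (nat_lit 76) (nat_lit 74502752689) (nat_lit 76) (nat_lit 64189419095) (nat_lit 1) (nat_lit 4) (nat_lit 2) (nat_lit 5) (nat_lit 2) (nat_lit 4) (nat_lit 315) (nat_lit 233) (nat_lit 172)) (XT.nd (nat_lit 78) (nat_lit 0) (nat_lit 0) (XT.lf (nat_lit 0) (nat_lit 386119020257) (nat_lit 76) (nat_lit 77771842030) (nat_lit 76) (nat_lit 67451458165) (nat_lit 1) (nat_lit 4) (nat_lit 2) (nat_lit 5) (nat_lit 2) (nat_lit 4) (nat_lit 316) (nat_lit 233) (nat_lit 171)) (XT.lf (nat_lit 0) (nat_lit 421357590134) (nat_lit 76) (nat_lit 81304840979) (nat_lit 76) (nat_lit 70977929085) (nat_lit 1) (nat_lit 4) (nat_lit 2) (nat_lit 5) (nat_lit 2) (nat_lit 4) (nat_lit 317) (nat_lit 233) (nat_lit 170)))))) (XT.nd (nat_lit 390) (nat_lit 0) (nat_lit 0) (XT.nd (nat_lit 156) (nat_lit 0) (nat_lit 0) (XT.nd (nat_lit 78) (nat_lit 0) (nat_lit 0) (XT.lf (nat_lit 0) (nat_lit 459410076649) (nat_lit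 76) (nat_lit 85122685825) (nat_lit 76) (nat_lit 74789729460) (nat_lit 1) (nat_lit 4) (nat_lit 2) (nat_lit 5) (nat_lit 2) (nat_lit 4) (nat_lit 318) (nat_lit 233) (nat_lit 169)) (XT.lf (nat_lit 0) (nat_lit 500501976021) (nat_lit 76) (nat_lit 89248000834) (nat_lit 76) (nat_lit 78909447738) (nat_lit 1) (nat_lit 4) (nat_lit 2) (nat_lit 5) (nat_lit 2) (nat_lit 4) (nat_lit 319) (nat_lit 233) (nat_lit 168))) (XT.nd (nat_lit 78) (nat_lit 0) (nat_lit 0) (XT.lf (nat_lit 0) (nat_lit 544876795800) (nat_lit 76) (nat_lit 93705232319) (nat_lit 76) (nat_lit 83361497062) (nat_lit 1) (nat_lit 4) (nat_lit 2) (nat_lit 5) (nat_lit 2) (nat_lit 4) (nat_lit 320) (nat_lit 233) (nat_lit 167)) (XT.nd (nat_lit 78) (nat_lit 0) (nat_lit 0) (XT.lf (nat_lit 0) (nat_lit 592797497881) (nat_lit 76) (nat_lit 98520793501) (nat_lit 76) (nat_lit 88172259949) (nat_lit 1) (nat_lit 4) (nat_lit 2) (nat_lit 5) (nat_lit 2) (nat_lit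 4) (nat_lit 321) (nat_lit 233) (nat_lit 166)) (XT.lf (nat_lit 0) (nat_lit 644548056796) (nat_lit 76) (nat_lit 103723221041) (nat_lit 76) (nat_lit 93370244622) (nat_lit 1) (nat_lit 4) (nat_lit 2) (nat_lit 5) (nat_lit 2) (nat_lit 4) (nat_lit 322) (nat_lit 233) (nat_lit 165))))) (XT.nd (nat_lit 234) (nat_lit 0) (nat_lit 0) (XT.nd (nat_lit 78) (nat_lit 0) (nat_lit 0) (XT.lf (nat_lit 0) (nat_lit 700435142523) (nat_lit 76) (nat_lit 109343344137) (nat_lit 76) (nat_lit 98986253953) (nat_lit 1) (nat_lit 4) (nat_lit 2) (nat_lit 5) (nat_lit 2) (nat_lit 4) (nat_lit 323) (nat_lit 233) (nat_lit 164)) (XT.nd (nat_lit 78) (nat_lit 0) (nat_lit 0) (XT.lf (nat_lit 0) (nat_lit 760789937792) (nat_lit 76) (nat_lit 115414467225) (nat_lit 76) (nat_lit 105053567998) (nat_lit 1) (nat_lit 4) (nat_lit 2) (nat_lit 5) (nat_lit 2) (nat_lit 4) (nat_lit 324) (nat_lit 233) (nat_lit 163)) (XT.lf (nat_lit 0) (nat_lit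 825970100650) (nat_lit 76) (nat_lit 121972567328) (nat_lit 76) (nat_lit 111608141211) (nat_lit 1) (nat_lit 4) (nat_lit 2) (nat_lit 5) (nat_lit 2) (nat_lit 4) (nat_lit 325) (nat_lit 233) (nat_lit 162)))) (XT.nd (nat_lit 78) (nat_lit 0) (nat_lit 0) (XT.lf (nat_lit 0) (nat_lit 896361883913) (nat_lit 76) (nat_lit 129056507263) (nat_lit 76) (nat_lit 118688815507) (nat_lit 1) (nat_lit 4) (nat_lit 2) (nat_lit 5) (nat_lit 2) (nat_lit 4) (nat_lit 326) (nat_lit 233) (nat_lit 161)) (XT.nd (nat_lit 78) (nat_lit 0) (nat_lit 0) (XT.lf (nat_lit 0) (nat_lit 972382424075) (nat_lit 76) (nat_lit 136708265933) (nat_lit 76) (nat_lit 126337550436) (nat_lit 1) (nat_lit 4) (nat_lit 2) (nat_lit 5) (nat_lit 2) (nat_lit 4) (nat_lit 327) (nat_lit 233) (nat_lit 160)) (XT.lf (nat_lit 0) (nat_lit 1054482213225) (nat_lit 76) (nat_lit 144973187093) (nat_lit 76) (nat_lit 134599671836) (nat_lit 1) (nat_lit 4) (nat_lit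 2) (nat_lit 5) (nat_lit 2) (nat_lit 4) (nat_lit 328) (nat_lit 233) (nat_lit 159))))))) (XT.nd (nat_lit 32058) (nat_lit 0) (nat_lit 380) (XT.nd (nat_lit 31590) (nat_lit 0) (nat_lit 1064) (XT.nd (nat_lit 156) (nat_lit 0) (nat_lit 0) (XT.nd (nat_lit 78) (nat_lit 0) (nat_lit 0) (XT.lf (nat_lit 0) (nat_lit 1143147768633) (nat_lit 76) (nat_lit 153900248053) (nat_lit 76) (nat_lit 143524140427) (nat_lit 1) (nat_lit 4) (nat_lit 2) (nat_lit 5) (nat_lit 2) (nat_lit 4) (nat_lit 329) (nat_lit 233) (nat_lit 158)) (XT.lf (nat_lit 0) (nat_lit 1238904515813) (nat_lit 76) (nat_lit 163542349916) (nat_lit 76) (nat_lit 153163841947) (nat_lit 1) (nat_lit 4) (nat_lit 2) (nat_lit 5) (nat_lit 2) (nat_lit 4) (nat_lit 330) (nat_lit 233) (nat_lit 157))) (XT.nd (nat_lit 78) (nat_lit 0) (nat_lit 0) (XT.lf (nat_lit 0) (nat_lit 1342319902154) (nat_lit 76) (nat_lit 173956631063) (nat_lit 76) (nat_lit 163575900555)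 (nat_lit 1) (nat_lit 4) (nat_lit 2) (nat_lit 5) (nat_lit 2) (nat_lit 4) (nat_lit 331) (nat_lit 233) (nat_lit 156)) (XT.nd (nat_lit 31278) (nat_lit 0) (nat_lit 1748) (XT.lf (nat_lit 0) (nat_lit 1454006759576) (nat_lit 76) (nat_lit 185204805753) (nat_lit 76) (nat_lit 174822017338) (nat_lit 1) (nat_lit 4) (nat_lit 2) (nat_lit 5) (nat_lit 2) (nat_lit 4) (nat_lit 332) (nat_lit 233) (nat_lit 155)) (XT.lf (nat_lit 0) (nat_lit 351605048) (nat_lit 456) (nat_lit 3149156272) (nat_lit 0) (nat_lit 351605048) (nat_lit 24) (nat_lit 5) (nat_lit 30) (nat_lit 4) (nat_lit 24) (nat_lit 4) (nat_lit 252) (nat_lit 234) (nat_lit 234))))) (XT.nd (nat_lit 234) (nat_lit 380) (nat_lit 0) (XT.nd (nat_lit 78) (nat_lit 304) (nat_lit 0) (XT.lf (nat_lit 0) (nat_lit 3601574810) (nat_lit 456) (nat_lit 1963102990) (nat_lit 0) (nat_lit 2378093267) (nat_lit 24) (nat_lit 5) (nat_lit 30) (nat_lit 4) (nat_lit 24) (nat_lit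 4) (nat_lit 253) (nat_lit 234) (nat_lit 233)) (XT.nd (nat_lit 78) (nat_lit 76) (nat_lit 0) (XT.lf (nat_lit 0) (nat_lit 2613730987) (nat_lit 228) (nat_lit 3977937225) (nat_lit 228) (nat_lit 1621602402) (nat_lit 21) (nat_lit 4) (nat_lit 24) (nat_lit 5) (nat_lit 24) (nat_lit 4) (nat_lit 254) (nat_lit 234) (nat_lit 232)) (XT.lf (nat_lit 0) (nat_lit 1104356758) (nat_lit 304) (nat_lit 1108210988) (nat_lit 76) (nat_lit 6303834718) (nat_lit 20) (nat_lit 5) (nat_lit 24) (nat_lit 5) (nat_lit 21) (nat_lit 4) (nat_lit 255) (nat_lit 234) (nat_lit 231)))) (XT.nd (nat_lit 78) (nat_lit 228) (nat_lit 0) (XT.lf (nat_lit 0) (nat_lit 3658876442) (nat_lit 152) (nat_lit 204291146) (nat_lit 228) (nat_lit 4986808940) (nat_lit 18) (nat_lit 5) (nat_lit 20) (nat_lit 5) (nat_lit 21) (nat_lit 4) (nat_lit 256) (nat_lit 234) (nat_lit 230)) (XT.nd (nat_lit 78) (nat_lit 228) (nat_lit 0) (XT.lf (nat_lit 0) (nat_lit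 6742893839) (nat_lit 228) (nat_lit 619061173) (nat_lit 0) (nat_lit 1857886802) (nat_lit 18) (nat_lit 5) (nat_lit 21) (nat_lit 4) (nat_lit 18) (nat_lit 4) (nat_lit 257) (nat_lit 234) (nat_lit 229)) (XT.lf (nat_lit 0) (nat_lit 163232221) (nat_lit 228) (nat_lit 5316484923) (nat_lit 76) (nat_lit 4145222579) (nat_lit 15) (nat_lit 5) (nat_lit 18) (nat_lit 5) (nat_lit 16) (nat_lit 4) (nat_lit 258) (nat_lit 234) (nat_lit 228)))))) (XT.nd (nat_lit 390) (nat_lit 304) (nat_lit 0) (XT.nd (nat_lit 156) (nat_lit 228) (nat_lit 0) (XT.nd (nat_lit 78) (nat_lit 152) (nat_lit 0) (XT.lf (nat_lit 0) (nat_lit 2734969217) (nat_lit 228) (nat_lit 681161701) (nat_lit 76) (nat_lit 6654122400) (nat_lit 15) (nat_lit 5) (nat_lit 18) (nat_lit 5) (nat_lit 16) (nat_lit 4) (nat_lit 259) (nat_lit 234) (nat_lit 227)) (XT.lf (nat_lit 0) (nat_lit 4337647216) (nat_lit 152) (nat_lit 1128003696) (nat_lit 228) (nat_lit 5090476953)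 (nat_lit 13) (nat_lit 5) (nat_lit 15) (nat_lit 5) (nat_lit 16) (nat_lit 4) (nat_lit 260) (nat_lit 234) (nat_lit 226))) (XT.nd (nat_lit 78) (nat_lit 228) (nat_lit 0) (XT.lf (nat_lit 0) (nat_lit 8320178302) (nat_lit 228) (nat_lit 1525995945) (nat_lit 0) (nat_lit 1243370838) (nat_lit 13) (nat_lit 5) (nat_lit 16) (nat_lit 4) (nat_lit 13) (nat_lit 4) (nat_lit 261) (nat_lit 234) (nat_lit 225)) (XT.nd (nat_lit 78) (nat_lit 76) (nat_lit 0) (XT.lf (nat_lit 0) (nat_lit 3492359680) (nat_lit 152) (nat_lit 7888794525) (nat_lit 152) (nat_lit 287256799) (nat_lit 11) (nat_lit 4) (nat_lit 13) (nat_lit 5) (nat_lit 13) (nat_lit 4) (nat_lit 262) (nat_lit 234) (nat_lit 224)) (XT.lf (nat_lit 0) (nat_lit 2182472861) (nat_lit 228) (nat_lit 3547855528) (nat_lit 76) (nat_lit 6566826891) (nat_lit 10) (nat_lit 5) (nat_lit 13) (nat_lit 5) (nat_lit 11) (nat_lit 4) (nat_lit 263) (nat_lit 234) (nat_lit 223)))))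 (XT.nd (nat_lit 234) (nat_lit 228) (nat_lit 0) (XT.nd (nat_lit 78) (nat_lit 0) (nat_lit 0) (XT.lf (nat_lit 0) (nat_lit 1326208403) (nat_lit 76) (nat_lit 3415848859) (nat_lit 152) (nat_lit 8241732756) (nat_lit 9) (nat_lit 5) (nat_lit 10) (nat_lit 5) (nat_lit 11) (nat_lit 4) (nat_lit 264) (nat_lit 234) (nat_lit 222)) (XT.nd (nat_lit 78) (nat_lit 0) (nat_lit 0) (XT.lf (nat_lit 0) (nat_lit 6613338219) (nat_lit 76) (nat_lit 870871743) (nat_lit 152) (nat_lit 6243672818) (nat_lit 9) (nat_lit 5) (nat_lit 10) (nat_lit 5) (nat_lit 11) (nat_lit 4) (nat_lit 265) (nat_lit 234) (nat_lit 221)) (XT.lf (nat_lit 0) (nat_lit 10379197117) (nat_lit 152) (nat_lit 2426822747) (nat_lit 0) (nat_lit 1731501828) (nat_lit 9) (nat_lit 5) (nat_lit 11) (nat_lit 4) (nat_lit 9) (nat_lit 4) (nat_lit 266) (nat_lit 234) (nat_lit 220)))) (XT.nd (nat_lit 78) (nat_lit 76) (nat_lit 0) (XT.lf (nat_lit 0) (nat_lit 2581703873)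 (nat_lit 152) (nat_lit 10905366699) (nat_lit 152) (nat_lit 1927002336) (nat_lit 7) (nat_lit 4) (nat_lit 9) (nat_lit 5) (nat_lit 9) (nat_lit 4) (nat_lit 267) (nat_lit 234) (nat_lit 219)) (XT.nd (nat_lit 78) (nat_lit 0) (nat_lit 0) (XT.lf (nat_lit 0) (nat_lit 424068334) (nat_lit 228) (nat_lit 8402477296) (nat_lit 76) (nat_lit 7536594267) (nat_lit 6) (nat_lit 5) (nat_lit 9) (nat_lit 5) (nat_lit 7) (nat_lit 4) (nat_lit 268) (nat_lit 234) (nat_lit 218)) (XT.lf (nat_lit 0) (nat_lit 2764040963) (nat_lit 228) (nat_lit 3818829661) (nat_lit 76) (nat_lit 10809374868) (nat_lit 6) (nat_lit 5) (nat_lit 9) (nat_lit 5) (nat_lit 7) (nat_lit 4) (nat_lit 269) (nat_lit 234) (nat_lit 217))))))))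
noncomputable def xc38 : XT := (XT.nd (nat_lit 1716) (nat_lit 0) (nat_lit 0) (XT.nd (nat_lit 858) (nat_lit 76) (nat_lit 0) (XT.nd (nat_lit 390) (nat_lit 152) (nat_lit 0) (XT.nd (nat_lit 156) (nat_lit 76) (nat_lit 0) (XT.nd (nat_lit 78) (nat_lit 0) (nat_lit 0) (XT.lf (nat_lit 0) (nat_lit 1044321888) (nat_lit 76) (nat_lit 4183972594) (nat_lit 152) (nat_lit 13280891894) (nat_lit 5) (nat_lit 5) (nat_lit 6) (nat_lit 5) (nat_lit 7) (nat_lit 4) (nat_lit 270) (nat_lit 234) (nat_lit 216)) (XT.lf (nat_lit 0) (nat_lit 6377806533) (nat_lit 76) (nat_lit 1531515010) (nat_lit 152) (nat_lit 11805028743) (nat_lit 5) (nat_lit 5) (nat_lit 6) (nat_lit 5) (nat_lit 7) (nat_lit 4) (nat_lit 271) (nat_lit 234) (nat_lit 215))) (XT.nd (nat_lit 78) (nat_lit 76) (nat_lit 0) (XT.lf (nat_lit 0) (nat_lit 10757254164) (nat_lit 152) (nat_lit 9041399652) (nat_lit 0) (nat_lit 1221485560) (nat_lit 5) (nat_lit 5) (nat_lit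 7) (nat_lit 4) (nat_lit 5) (nat_lit 4) (nat_lit 272) (nat_lit 234) (nat_lit 214)) (XT.nd (nat_lit 78) (nat_lit 76) (nat_lit 0) (XT.lf (nat_lit 0) (nat_lit 13799061531) (nat_lit 152) (nat_lit 4564072024) (nat_lit 0) (nat_lit 4070350698) (nat_lit 5) (nat_lit 5) (nat_lit 7) (nat_lit 4) (nat_lit 5) (nat_lit 4) (nat_lit 273) (nat_lit 234) (nat_lit 213)) (XT.lf (nat_lit 0) (nat_lit 167166772) (nat_lit 76) (nat_lit 16852789788) (nat_lit 76) (nat_lit 6945428744) (nat_lit 4) (nat_lit 4) (nat_lit 5) (nat_lit 5) (nat_lit 5) (nat_lit 4) (nat_lit 274) (nat_lit 234) (nat_lit 212))))) (XT.nd (nat_lit 234) (nat_lit 152) (nat_lit 0) (XT.nd (nat_lit 78) (nat_lit 0) (nat_lit 0) (XT.lf (nat_lit 0) (nat_lit 5426681673) (nat_lit 76) (nat_lit 15130771270) (nat_lit 76) (nat_lit 5057993363) (nat_lit 4) (nat_lit 4) (nat_lit 5) (nat_lit 5) (nat_lit 5) (nat_lit 4) (nat_lit 275) (nat_lit 234) (nat_lit 211)) (XT.nd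 (nat_lit 78) (nat_lit 0) (nat_lit 0) (XT.lf (nat_lit 0) (nat_lit 11005304229) (nat_lit 76) (nat_lit 13311663264) (nat_lit 76) (nat_lit 3085721595) (nat_lit 4) (nat_lit 4) (nat_lit 5) (nat_lit 5) (nat_lit 5) (nat_lit 4) (nat_lit 276) (nat_lit 234) (nat_lit 210)) (XT.lf (nat_lit 0) (nat_lit 16936092945) (nat_lit 76) (nat_lit 11384685872) (nat_lit 76) (nat_lit 1016925905) (nat_lit 4) (nat_lit 4) (nat_lit 5) (nat_lit 5) (nat_lit 5) (nat_lit 4) (nat_lit 277) (nat_lit 234) (nat_lit 209)))) (XT.nd (nat_lit 78) (nat_lit 76) (nat_lit 0) (XT.lf (nat_lit 0) (nat_lit 1102592661) (nat_lit 152) (nat_lit 8205680469) (nat_lit 76) (nat_lit 22121453735) (nat_lit 3) (nat_lit 5) (nat_lit 5) (nat_lit 5) (nat_lit 4) (nat_lit 4) (nat_lit 278) (nat_lit 234) (nat_lit 208)) (XT.nd (nat_lit 78) (nat_lit 76) (nat_lit 0) (XT.lf (nat_lit 0) (nat_lit 3286840794) (nat_lit 152) (nat_lit 3784030685) (nat_lit 76) (nat_lit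 26620336845) (nat_lit 3) (nat_lit 5) (nat_lit 5) (nat_lit 5) (nat_lit 4) (nat_lit 4) (nat_lit 279) (nat_lit 234) (nat_lit 207)) (XT.lf (nat_lit 0) (nat_lit 962126498) (nat_lit 76) (nat_lit 4660645604) (nat_lit 152) (nat_lit 30512883804) (nat_lit 2) (nat_lit 5) (nat_lit 3) (nat_lit 5) (nat_lit 4) (nat_lit 4) (nat_lit 280) (nat_lit 234) (nat_lit 206)))))) (XT.nd (nat_lit 390) (nat_lit 76) (nat_lit 0) (XT.nd (nat_lit 156) (nat_lit 0) (nat_lit 0) (XT.nd (nat_lit 78) (nat_lit 0) (nat_lit 0) (XT.lf (nat_lit 0) (nat_lit 6227781718) (nat_lit 76) (nat_lit 1976671106) (nat_lit 152) (nat_lit 30566684504) (nat_lit 2) (nat_lit 5) (nat_lit 3) (nat_lit 5) (nat_lit 4) (nat_lit 4) (nat_lit 281) (nat_lit 234) (nat_lit 205)) (XT.lf (nat_lit 0) (nat_lit 10972872140) (nat_lit 152) (nat_lit 29797544189) (nat_lit 0) (nat_lit 848798707) (nat_lit 2) (nat_lit 5) (nat_lit 4) (nat_lit 4) (nat_lit 2) (nat_lit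 4) (nat_lit 282) (nat_lit 234) (nat_lit 204))) (XT.nd (nat_lit 78) (nat_lit 0) (nat_lit 0) (XT.lf (nat_lit 0) (nat_lit 13975245533) (nat_lit 152) (nat_lit 26950633703) (nat_lit 0) (nat_lit 3768422485) (nat_lit 2) (nat_lit 5) (nat_lit 4) (nat_lit 4) (nat_lit 2) (nat_lit 4) (nat_lit 283) (nat_lit 234) (nat_lit 203)) (XT.nd (nat_lit 78) (nat_lit 0) (nat_lit 0) (XT.lf (nat_lit 0) (nat_lit 17181825857) (nat_lit 152) (nat_lit 23938214587) (nat_lit 0) (nat_lit 6898382796) (nat_lit 2) (nat_lit 5) (nat_lit 4) (nat_lit 4) (nat_lit 2) (nat_lit 4) (nat_lit 284) (nat_lit 234) (nat_lit 202)) (XT.lf (nat_lit 0) (nat_lit 20611615071) (nat_lit 152) (nat_lit 20742435466) (nat_lit 0) (nat_lit 10257227553) (nat_lit 2) (nat_lit 5) (nat_lit 4) (nat_lit 4) (nat_lit 2) (nat_lit 4) (nat_lit 285) (nat_lit 234) (nat_lit 201))))) (XT.nd (nat_lit 234) (nat_lit 76) (nat_lit 0) (XT.nd (nat_lit 78) (nat_lit 0) (nat_lit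 0) (XT.lf (nat_lit 0) (nat_lit 24284937851) (nat_lit 152) (nat_lit 17344358390) (nat_lit 0) (nat_lit 13864861021) (nat_lit 2) (nat_lit 5) (nat_lit 4) (nat_lit 4) (nat_lit 2) (nat_lit 4) (nat_lit 286) (nat_lit 234) (nat_lit 200)) (XT.nd (nat_lit 78) (nat_lit 0) (nat_lit 0) (XT.lf (nat_lit 0) (nat_lit 28223562036) (nat_lit 152) (nat_lit 13723846607) (nat_lit 0) (nat_lit 17742661769) (nat_lit 2) (nat_lit 5) (nat_lit 4) (nat_lit 4) (nat_lit 2) (nat_lit 4) (nat_lit 287) (nat_lit 234) (nat_lit 199)) (XT.lf (nat_lit 0) (nat_lit 32450827622) (nat_lit 152) (nat_lit 9859445232) (nat_lit 0) (nat_lit 21913609357) (nat_lit 2) (nat_lit 5) (nat_lit 4) (nat_lit 4) (nat_lit 2) (nat_lit 4) (nat_lit 288) (nat_lit 234) (nat_lit 198)))) (XT.nd (nat_lit 78) (nat_lit 76) (nat_lit 0) (XT.lf (nat_lit 0) (nat_lit 36991785070) (nat_lit 152) (nat_lit 5728254108) (nat_lit 0) (nat_lit 26402420511) (nat_lit 2)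 (nat_lit 5) (nat_lit 4) (nat_lit 4) (nat_lit 2) (nat_lit 4) (nat_lit 289) (nat_lit 234) (nat_lit 197)) (XT.nd (nat_lit 78) (nat_lit 76) (nat_lit 0) (XT.lf (nat_lit 0) (nat_lit 41873343758) (nat_lit 152) (nat_lit 1305792103) (nat_lit 0) (nat_lit 31235695594) (nat_lit 2) (nat_lit 5) (nat_lit 4) (nat_lit 4) (nat_lit 2) (nat_lit 4) (nat_lit 290) (nat_lit 234) (nat_lit 196)) (XT.lf (nat_lit 0) (nat_lit 3614984110) (nat_lit 76) (nat_lit 43596387785) (nat_lit 76) (nat_lit 32914032579) (nat_lit 1) (nat_lit 4) (nat_lit 2) (nat_lit 5) (nat_lit 2) (nat_lit 4) (nat_lit 291) (nat_lit 234) (nat_lit 195))))))) (XT.nd (nat_lit 858) (nat_lit 0) (nat_lit 0) (XT.nd (nat_lit 390) (nat_lit 0) (nat_lit 0) (XT.nd (nat_lit 156) (nat_lit 0) (nat_lit 0) (XT.nd (nat_lit 78) (nat_lit 0) (nat_lit 0) (XT.lf (nat_lit 0) (nat_lit 8968284544) (nat_lit 76) (nat_lit 44023568591) (nat_lit 76) (nat_lit 33299817976) (nat_lit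 1) (nat_lit 4) (nat_lit 2) (nat_lit 5) (nat_lit 2) (nat_lit 4) (nat_lit 292) (nat_lit 234) (nat_lit 194)) (XT.lf (nat_lit 0) (nat_lit 14717071762) (nat_lit 76) (nat_lit 44498912391) (nat_lit 76) (nat_lit 33736832693) (nat_lit 1) (nat_lit 4) (nat_lit 2) (nat_lit 5) (nat_lit 2) (nat_lit 4) (nat_lit 293) (nat_lit 234) (nat_lit 193))) (XT.nd (nat_lit 78) (nat_lit 0) (nat_lit 0) (XT.lf (nat_lit 0) (nat_lit 20895412650) (nat_lit 76) (nat_lit 45025236037) (nat_lit 76) (nat_lit 34227666447) (nat_lit 1) (nat_lit 4) (nat_lit 2) (nat_lit 5) (nat_lit 2) (nat_lit 4) (nat_lit 294) (nat_lit 234) (nat_lit 192)) (XT.nd (nat_lit 78) (nat_lit 0) (nat_lit 0) (XT.lf (nat_lit 0) (nat_lit 27539919599) (nat_lit 76) (nat_lit 45605658483) (nat_lit 76) (nat_lit 34775227883) (nat_lit 1) (nat_lit 4) (nat_lit 2) (nat_lit 5) (nat_lit 2) (nat_lit 4) (nat_lit 295) (nat_lit 234) (nat_lit 191)) (XT.lf (nat_lit 0) (nat_lit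 34689967466) (nat_lit 76) (nat_lit 46243619270) (nat_lit 76) (nat_lit 35382761809) (nat_lit 1) (nat_lit 4) (nat_lit 2) (nat_lit 5) (nat_lit 2) (nat_lit 4) (nat_lit 296) (nat_lit 234) (nat_lit 190))))) (XT.nd (nat_lit 234) (nat_lit 0) (nat_lit 0) (XT.nd (nat_lit 78) (nat_lit 0) (nat_lit 0) (XT.lf (nat_lit 0) (nat_lit 42387926903) (nat_lit 76) (nat_lit 46942898907) (nat_lit 76) (nat_lit 36053868426) (nat_lit 1) (nat_lit 4) (nat_lit 2) (nat_lit 5) (nat_lit 2) (nat_lit 4) (nat_lit 297) (nat_lit 234) (nat_lit 189)) (XT.nd (nat_lit 78) (nat_lit 0) (nat_lit 0) (XT.lf (nat_lit 0) (nat_lit 50679415449) (nat_lit 76) (nat_lit 47707641273) (nat_lit 76) (nat_lit 36792524662) (nat_lit 1) (nat_lit 4) (nat_lit 2) (nat_lit 5) (nat_lit 2) (nat_lit 4) (nat_lit 298) (nat_lit 234) (nat_lit 188)) (XT.lf (nat_lit 0) (nat_lit 59613567851) (nat_lit 76) (nat_lit 48542378175) (nat_lit 76) (nat_lit 37603107740)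 (nat_lit 1) (nat_lit 4) (nat_lit 2) (nat_lit 5) (nat_lit 2) (nat_lit 4) (nat_lit 299) (nat_lit 234) (nat_lit 187)))) (XT.nd (nat_lit 78) (nat_lit 0) (nat_lit 0) (XT.lf (nat_lit 0) (nat_lit 69243327234) (nat_lit 76) (nat_lit 49452056200) (nat_lit 76) (nat_lit 38490421114) (nat_lit 1) (nat_lit 4) (nat_lit 2) (nat_lit 5) (nat_lit 2) (nat_lit 4) (nat_lit 300) (nat_lit 234) (nat_lit 186)) (XT.nd (nat_lit 78) (nat_lit 0) (nat_lit 0) (XT.lf (nat_lit 0) (nat_lit 79625758838) (nat_lit 76) (nat_lit 50442066036) (nat_lit 76) (nat_lit 39459722939) (nat_lit 1) (nat_lit 4) (nat_lit 2) (nat_lit 5) (nat_lit 2) (nat_lit 4) (nat_lit 301) (nat_lit 234) (nat_lit 185)) (XT.lf (nat_lit 0) (nat_lit 90822388185) (nat_lit 76) (nat_lit 51518274405) (nat_lit 76) (nat_lit 40516757224) (nat_lit 1) (nat_lit 4) (nat_lit 2) (nat_lit 5) (nat_lit 2) (nat_lit 4) (nat_lit 302) (nat_lit 234) (nat_lit 184)))))) (XT.nd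 (nat_lit 390) (nat_lit 0) (nat_lit 0) (XT.nd (nat_lit 156) (nat_lit 0) (nat_lit 0) (XT.nd (nat_lit 78) (nat_lit 0) (nat_lit 0) (XT.lf (nat_lit 0) (nat_lit 102899565670) (nat_lit 76) (nat_lit 52687058839) (nat_lit 76) (nat_lit 41667787877) (nat_lit 1) (nat_lit 4) (nat_lit 2) (nat_lit 5) (nat_lit 2) (nat_lit 4) (nat_lit 303) (nat_lit 234) (nat_lit 183)) (XT.lf (nat_lit 0) (nat_lit 115928859752) (nat_lit 76) (nat_lit 53955345469) (nat_lit 76) (nat_lit 42919635820) (nat_lit 1) (nat_lit 4) (nat_lit 2) (nat_lit 5) (nat_lit 2) (nat_lit 4) (nat_lit 304) (nat_lit 234) (nat_lit 182))) (XT.nd (nat_lit 78) (nat_lit 0) (nat_lit 0) (XT.lf (nat_lit 0) (nat_lit 129987481064) (nat_lit 76) (nat_lit 55330650066) (nat_lit 76) (nat_lit 44279719411) (nat_lit 1) (nat_lit 4) (nat_lit 2) (nat_lit 5) (nat_lit 2) (nat_lit 4) (nat_lit 305) (nat_lit 234) (nat_lit 181)) (XT.nd (nat_lit 78) (nat_lit 0) (nat_lit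 0) (XT.lf (nat_lit 0) (nat_lit 145158739953) (nat_lit 76) (nat_lit 56821122584) (nat_lit 76) (nat_lit 45756098405) (nat_lit 1) (nat_lit 4) (nat_lit 2) (nat_lit 5) (nat_lit 2) (nat_lit 4) (nat_lit 306) (nat_lit 234) (nat_lit 180)) (XT.lf (nat_lit 0) (nat_lit 161532540177) (nat_lit 76) (nat_lit 58435595453) (nat_lit 76) (nat_lit 47357521714) (nat_lit 1) (nat_lit 4) (nat_lit 2) (nat_lit 5) (nat_lit 2) (nat_lit 4) (nat_lit 307) (nat_lit 234) (nat_lit 179))))) (XT.nd (nat_lit 234) (nat_lit 0) (nat_lit 0) (XT.nd (nat_lit 78) (nat_lit 0) (nat_lit 0) (XT.lf (nat_lit 0) (nat_lit 179205911662) (nat_lit 76) (nat_lit 60183635919) (nat_lit 76) (nat_lit 49093479255) (nat_lit 1) (nat_lit 4) (nat_lit 2) (nat_lit 5) (nat_lit 2) (nat_lit 4) (nat_lit 308) (nat_lit 234) (nat_lit 178)) (XT.nd (nat_lit 78) (nat_lit 0) (nat_lit 0) (XT.lf (nat_lit 0) (nat_lit 198283585498) (nat_lit 76) (nat_lit 62075602741)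 (nat_lit 76) (nat_lit 50974258183) (nat_lit 1) (nat_lit 4) (nat_lit 2) (nat_lit 5) (nat_lit 2) (nat_lit 4) (nat_lit 309) (nat_lit 234) (nat_lit 177)) (XT.lf (nat_lit 0) (nat_lit 218878614568) (nat_lit 76) (nat_lit 64122707574) (nat_lit 76) (nat_lit 53011003855) (nat_lit 1) (nat_lit 4) (nat_lit 2) (nat_lit 5) (nat_lit 2) (nat_lit 4) (nat_lit 310) (nat_lit 234) (nat_lit 176)))) (XT.nd (nat_lit 78) (nat_lit 0) (nat_lit 0) (XT.lf (nat_lit 0) (nat_lit 241113043488) (nat_lit 76) (nat_lit 66337081409) (nat_lit 76) (nat_lit 55215785875) (nat_lit 1) (nat_lit 4) (nat_lit 2) (nat_lit 5) (nat_lit 2) (nat_lit 4) (nat_lit 311) (nat_lit 234) (nat_lit 175)) (XT.nd (nat_lit 78) (nat_lit 0) (nat_lit 0) (XT.lf (nat_lit 0) (nat_lit 265118631838) (nat_lit 76) (nat_lit 68731846462) (nat_lit 76) (nat_lit 57601669617) (nat_lit 1) (nat_lit 4) (nat_lit 2) (nat_lit 5) (nat_lit 2) (nat_lit 4) (nat_lit 312) (nat_lit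 234) (nat_lit 174)) (XT.lf (nat_lit 0) (nat_lit 291037634955) (nat_lit 76) (nat_lit 71321193933) (nat_lit 76) (nat_lit 60182793652) (nat_lit 1) (nat_lit 4) (nat_lit 2) (nat_lit 5) (nat_lit 2) (nat_lit 4) (nat_lit 313) (nat_lit 234) (nat_lit 173))))))))
noncomputable def xc39 : XT := (XT.nd (nat_lit 32760) (nat_lit 0) (nat_lit 304) (XT.nd (nat_lit 858) (nat_lit 0) (nat_lit 0) (XT.nd (nat_lit 390) (nat_lit 0) (nat_lit 0) (XT.nd (nat_lit 156) (nat_lit 0) (nat_lit 0) (XT.nd (nat_lit 78) (nat_lit 0) (nat_lit 0) (XT.lf (nat_lit 0) (nat_lit 319023646931) (nat_lit 76) (nat_lit 74120468104) (nat_lit 76) (nat_lit 62974453530) (nat_lit 1) (nat_lit 4) (nat_lit 2) (nat_lit 5) (nat_lit 2) (nat_lit 4) (nat_lit 314) (nat_lit 234) (nat_lit 172)) (XT.lf (nat_lit 0) (nat_lit 349242510802) (nat_lit 76) (nat_lit 77146257265) (nat_lit 76) (nat_lit 65993192420) (nat_lit 1) (nat_lit 4) (nat_lit 2) (nat_lit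 5) (nat_lit 2) (nat_lit 4) (nat_lit 315) (nat_lit 234) (nat_lit 171))) (XT.nd (nat_lit 78) (nat_lit 0) (nat_lit 0) (XT.lf (nat_lit 0) (nat_lit 381873301316) (nat_lit 76) (nat_lit 80416492020) (nat_lit 76) (nat_lit 69256899146) (nat_lit 1) (nat_lit 4) (nat_lit 2) (nat_lit 5) (nat_lit 2) (nat_lit 4) (nat_lit 316) (nat_lit 234) (nat_lit 170)) (XT.nd (nat_lit 78) (nat_lit 0) (nat_lit 0) (XT.lf (nat_lit 0) (nat_lit 417109386120) (nat_lit 76) (nat_lit 83950551536) (nat_lit 76) (nat_lit 72784914192) (nat_lit 1) (nat_lit 4) (nat_lit 2) (nat_lit 5) (nat_lit 2) (nat_lit 4) (nat_lit 317) (nat_lit 234) (nat_lit 169)) (XT.lf (nat_lit 0) (nat_lit 455159571642) (nat_lit 76) (nat_lit 87769378390) (nat_lit 76) (nat_lit 76598144313) (nat_lit 1) (nat_lit 4) (nat_lit 2) (nat_lit 5) (nat_lit 2) (nat_lit 4) (nat_lit 318) (nat_lit 234) (nat_lit 168))))) (XT.nd (nat_lit 234) (nat_lit 0) (nat_lit 0) (XT.nd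 (nat_lit 78) (nat_lit 0) (nat_lit 0) (XT.lf (nat_lit 0) (nat_lit 496249340465) (nat_lit 76) (nat_lit 91895602666) (nat_lit 76) (nat_lit 80719186430) (nat_lit 1) (nat_lit 4) (nat_lit 2) (nat_lit 5) (nat_lit 2) (nat_lit 4) (nat_lit 319) (nat_lit 234) (nat_lit 167)) (XT.nd (nat_lit 78) (nat_lit 0) (nat_lit 0) (XT.lf (nat_lit 0) (nat_lit 540622187513) (nat_lit 76) (nat_lit 96353676063) (nat_lit 76) (nat_lit 85172461531) (nat_lit 1) (nat_lit 4) (nat_lit 2) (nat_lit 5) (nat_lit 2) (nat_lit 4) (nat_lit 320) (nat_lit 234) (nat_lit 166)) (XT.lf (nat_lit 0) (nat_lit 588541062992) (nat_lit 76) (nat_lit 101170016795) (nat_lit 76) (nat_lit 89984359396) (nat_lit 1) (nat_lit 4) (nat_lit 2) (nat_lit 5) (nat_lit 2) (nat_lit 4) (nat_lit 321) (nat_lit 234) (nat_lit 165)))) (XT.nd (nat_lit 78) (nat_lit 0) (nat_lit 0) (XT.lf (nat_lit 0) (nat_lit 640289930608) (nat_lit 76) (nat_lit 106373166139) (nat_lit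 76) (nat_lit 95183394975) (nat_lit 1) (nat_lit 4) (nat_lit 2) (nat_lit 5) (nat_lit 2) (nat_lit 4) (nat_lit 322) (nat_lit 234) (nat_lit 164)) (XT.nd (nat_lit 78) (nat_lit 0) (nat_lit 0) (XT.lf (nat_lit 0) (nat_lit 696175450318) (nat_lit 76) (nat_lit 111993957574) (nat_lit 76) (nat_lit 100800377368) (nat_lit 1) (nat_lit 4) (nat_lit 2) (nat_lit 5) (nat_lit 2) (nat_lit 4) (nat_lit 323) (nat_lit 234) (nat_lit 163)) (XT.lf (nat_lit 0) (nat_lit 756528795571) (nat_lit 76) (nat_lit 118065699493) (nat_lit 76) (nat_lit 106868592396) (nat_lit 1) (nat_lit 4) (nat_lit 2) (nat_lit 5) (nat_lit 2) (nat_lit 4) (nat_lit 324) (nat_lit 234) (nat_lit 162)))))) (XT.nd (nat_lit 390) (nat_lit 0) (nat_lit 0) (XT.nd (nat_lit 156) (nat_lit 0) (nat_lit 0) (XT.nd (nat_lit 78) (nat_lit 0) (nat_lit 0) (XT.lf (nat_lit 0) (nat_lit 821707615822) (nat_lit 76) (nat_lit 124624372588) (nat_lit 76) (nat_lit 113423999851)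 (nat_lit 1) (nat_lit 4) (nat_lit 2) (nat_lit 5) (nat_lit 2) (nat_lit 4) (nat_lit 325) (nat_lit 234) (nat_lit 161)) (XT.lf (nat_lit 0) (nat_lit 892098155930) (nat_lit 76) (nat_lit 131708843071) (nat_lit 76) (nat_lit 120505446594) (nat_lit 1) (nat_lit 4) (nat_lit 2) (nat_lit 5) (nat_lit 2) (nat_lit 4) (nat_lit 326) (nat_lit 234) (nat_lit 160))) (XT.nd (nat_lit 78) (nat_lit 0) (nat_lit 0) (XT.lf (nat_lit 0) (nat_lit 968117545022) (nat_lit 76) (nat_lit 139361092989) (nat_lit 76) (nat_lit 128154896753) (nat_lit 1) (nat_lit 4) (nat_lit 2) (nat_lit 5) (nat_lit 2) (nat_lit 4) (nat_lit 327) (nat_lit 234) (nat_lit 159)) (XT.nd (nat_lit 78) (nat_lit 0) (nat_lit 0) (XT.lf (nat_lit 0) (nat_lit 1050216268368) (nat_lit 76) (nat_lit 147626469009) (nat_lit 76) (nat_lit 136417680402) (nat_lit 1) (nat_lit 4) (nat_lit 2) (nat_lit 5) (nat_lit 2) (nat_lit 4) (nat_lit 328) (nat_lit 234) (nat_lit 158)) (XT.lf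 (nat_lit 0) (nat_lit 1138880836919) (nat_lit 76) (nat_lit 156553951135) (nat_lit 76) (nat_lit 145342762186) (nat_lit 1) (nat_lit 4) (nat_lit 2) (nat_lit 5) (nat_lit 2) (nat_lit 4) (nat_lit 329) (nat_lit 234) (nat_lit 157))))) (XT.nd (nat_lit 31278) (nat_lit 0) (nat_lit 1748) (XT.nd (nat_lit 78) (nat_lit 0) (nat_lit 0) (XT.lf (nat_lit 0) (nat_lit 1234636670343) (nat_lit 76) (nat_lit 166196442967) (nat_lit 76) (nat_lit 154983031479) (nat_lit 1) (nat_lit 4) (nat_lit 2) (nat_lit 5) (nat_lit 2) (nat_lit 4) (nat_lit 330) (nat_lit 234) (nat_lit 156)) (XT.nd (nat_lit 78) (nat_lit 0) (nat_lit 0) (XT.lf (nat_lit 0) (nat_lit 1338051210613) (nat_lit 76) (nat_lit 176611085196) (nat_lit 76) (nat_lit 165395615801) (nat_lit 1) (nat_lit 4) (nat_lit 2) (nat_lit 5) (nat_lit 2) (nat_lit 4) (nat_lit 331) (nat_lit 234) (nat_lit 155)) (XT.lf (nat_lit 0) (nat_lit 1449737284637) (nat_lit 76) (nat_lit 187859594221)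 (nat_lit 76) (nat_lit 176642219357) (nat_lit 1) (nat_lit 4) (nat_lit 2) (nat_lit 5) (nat_lit 2) (nat_lit 4) (nat_lit 332) (nat_lit 234) (nat_lit 154)))) (XT.nd (nat_lit 78) (nat_lit 456) (nat_lit 0) (XT.lf (nat_lit 0) (nat_lit 100287555) (nat_lit 380) (nat_lit 1774094706) (nat_lit 380) (nat_lit 1774094706) (nat_lit 30) (nat_lit 4) (nat_lit 35) (nat_lit 5) (nat_lit 35) (nat_lit 4) (nat_lit 250) (nat_lit 235) (nat_lit 235)) (XT.nd (nat_lit 78) (nat_lit 456) (nat_lit 0) (XT.lf (nat_lit 0) (nat_lit 4522433791) (nat_lit 380) (nat_lit 2197764685) (nat_lit 380) (nat_lit 770695814) (nat_lit 30) (nat_lit 4) (nat_lit 35) (nat_lit 5) (nat_lit 35) (nat_lit 4) (nat_lit 251) (nat_lit 235) (nat_lit 234)) (XT.lf (nat_lit 0) (nat_lit 1276383128) (nat_lit 380) (nat_lit 658622672) (nat_lit 456) (nat_lit 5778037978) (nat_lit 24) (nat_lit 5) (nat_lit 29) (nat_lit 5) (nat_lit 30) (nat_lit 4) (nat_lit 252)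 (nat_lit 235) (nat_lit 233))))))) (XT.nd (nat_lit 858) (nat_lit 380) (nat_lit 0) (XT.nd (nat_lit 390) (nat_lit 608) (nat_lit 0) (XT.nd (nat_lit 156) (nat_lit 228) (nat_lit 0) (XT.nd (nat_lit 78) (nat_lit 228) (nat_lit 0) (XT.lf (nat_lit 0) (nat_lit 4719934094) (nat_lit 456) (nat_lit 2199044740) (nat_lit 0) (nat_lit 1042239204) (nat_lit 24) (nat_lit 5) (nat_lit 30) (nat_lit 4) (nat_lit 24) (nat_lit 4) (nat_lit 253) (nat_lit 235) (nat_lit 232)) (XT.lf (nat_lit 0) (nat_lit 2254803163) (nat_lit 228) (nat_lit 5356224953) (nat_lit 228) (nat_lit 629591840) (nat_lit 21) (nat_lit 4) (nat_lit 24) (nat_lit 5) (nat_lit 24) (nat_lit 4) (nat_lit 254) (nat_lit 235) (nat_lit 231))) (XT.nd (nat_lit 78) (nat_lit 152) (nat_lit 0) (XT.lf (nat_lit 0) (nat_lit 1957506164) (nat_lit 304) (nat_lit 1626259385) (nat_lit 76) (nat_lit 4966058835) (nat_lit 20) (nat_lit 5) (nat_lit 24) (nat_lit 5) (nat_lit 21)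 (nat_lit 4) (nat_lit 255) (nat_lit 235) (nat_lit 230)) (XT.nd (nat_lit 78) (nat_lit 0) (nat_lit 0) (XT.lf (nat_lit 0) (nat_lit 3008367165) (nat_lit 152) (nat_lit 1609678426) (nat_lit 228) (nat_lit 4273994445) (nat_lit 18) (nat_lit 5) (nat_lit 20) (nat_lit 5) (nat_lit 21) (nat_lit 4) (nat_lit 256) (nat_lit 235) (nat_lit 229)) (XT.lf (nat_lit 0) (nat_lit 7384677933) (nat_lit 228) (nat_lit 1381808567) (nat_lit 0) (nat_lit 505188445) (nat_lit 18) (nat_lit 5) (nat_lit 21) (nat_lit 4) (nat_lit 18) (nat_lit 4) (nat_lit 257) (nat_lit 235) (nat_lit 228))))) (XT.nd (nat_lit 234) (nat_lit 228) (nat_lit 0) (XT.nd (nat_lit 78) (nat_lit 152) (nat_lit 0) (XT.lf (nat_lit 0) (nat_lit 625396384) (nat_lit 228) (nat_lit 6292554737) (nat_lit 76) (nat_lit 2766167763) (nat_lit 15) (nat_lit 5) (nat_lit 18) (nat_lit 5) (nat_lit 16) (nat_lit 4) (nat_lit 258) (nat_lit 235) (nat_lit 227)) (XT.nd (nat_lit 78)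 (nat_lit 152) (nat_lit 0) (XT.lf (nat_lit 0) (nat_lit 3124482043) (nat_lit 228) (nat_lit 1755465575) (nat_lit 76) (nat_lit 5255870200) (nat_lit 15) (nat_lit 5) (nat_lit 18) (nat_lit 5) (nat_lit 16) (nat_lit 4) (nat_lit 259) (nat_lit 235) (nat_lit 226)) (XT.lf (nat_lit 0) (nat_lit 3111025282) (nat_lit 152) (nat_lit 2647368412) (nat_lit 228) (nat_lit 4871571044) (nat_lit 13) (nat_lit 5) (nat_lit 15) (nat_lit 5) (nat_lit 16) (nat_lit 4) (nat_lit 260) (nat_lit 235) (nat_lit 225)))) (XT.nd (nat_lit 78) (nat_lit 228) (nat_lit 0) (XT.lf (nat_lit 0) (nat_lit 8282268427) (nat_lit 152) (nat_lit 234755954) (nat_lit 228) (nat_lit 2654520769) (nat_lit 13) (nat_lit 5) (nat_lit 15) (nat_lit 5) (nat_lit 16) (nat_lit 4) (nat_lit 261) (nat_lit 235) (nat_lit 224)) (XT.nd (nat_lit 78) (nat_lit 76) (nat_lit 0) (XT.lf (nat_lit 0) (nat_lit 1971889876) (nat_lit 152) (nat_lit 9503710307) (nat_lit 152) (nat_lit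 283457946) (nat_lit 11) (nat_lit 4) (nat_lit 13) (nat_lit 5) (nat_lit 13) (nat_lit 4) (nat_lit 262) (nat_lit 235) (nat_lit 223)) (XT.lf (nat_lit 0) (nat_lit 2126418388) (nat_lit 228) (nat_lit 5247173736) (nat_lit 76) (nat_lit 5019366166) (nat_lit 10) (nat_lit 5) (nat_lit 13) (nat_lit 5) (nat_lit 11) (nat_lit 4) (nat_lit 263) (nat_lit 235) (nat_lit 222)))))) (XT.nd (nat_lit 390) (nat_lit 152) (nat_lit 0) (XT.nd (nat_lit 156) (nat_lit 152) (nat_lit 0) (XT.nd (nat_lit 78) (nat_lit 76) (nat_lit 0) (XT.lf (nat_lit 0) (nat_lit 4598863657) (nat_lit 228) (nat_lit 521035377) (nat_lit 76) (nat_lit 7967026360) (nat_lit 10) (nat_lit 5) (nat_lit 13) (nat_lit 5) (nat_lit 11) (nat_lit 4) (nat_lit 264) (nat_lit 235) (nat_lit 221)) (XT.lf (nat_lit 0) (nat_lit 4659139779) (nat_lit 76) (nat_lit 2615621745) (nat_lit 152) (nat_lit 6561891494) (nat_lit 9) (nat_lit 5) (nat_lit 10) (nat_lit 5) (nat_lit 11)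 (nat_lit 4) (nat_lit 265) (nat_lit 235) (nat_lit 220))) (XT.nd (nat_lit 78) (nat_lit 152) (nat_lit 0) (XT.lf (nat_lit 0) (nat_lit 10078064921) (nat_lit 152) (nat_lit 4525109076) (nat_lit 0) (nat_lit 50762335) (nat_lit 9) (nat_lit 5) (nat_lit 11) (nat_lit 4) (nat_lit 9) (nat_lit 4) (nat_lit 266) (nat_lit 235) (nat_lit 219)) (XT.nd (nat_lit 78) (nat_lit 0) (nat_lit 0) (XT.lf (nat_lit 0) (nat_lit 297603003) (nat_lit 152) (nat_lit 12787363359) (nat_lit 152) (nat_lit 2453885705) (nat_lit 7) (nat_lit 4) (nat_lit 9) (nat_lit 5) (nat_lit 9) (nat_lit 4) (nat_lit 267) (nat_lit 235) (nat_lit 218)) (XT.lf (nat_lit 0) (nat_lit 5618413453) (nat_lit 152) (nat_lit 10745573793) (nat_lit 152) (nat_lit 128600706) (nat_lit 7) (nat_lit 4) (nat_lit 9) (nat_lit 5) (nat_lit 9) (nat_lit 4) (nat_lit 268) (nat_lit 235) (nat_lit 217))))) (XT.nd (nat_lit 234) (nat_lit 0) (nat_lit 0) (XT.nd (nat_lit 78) (nat_lit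 76) (nat_lit 0) (XT.lf (nat_lit 0) (nat_lit 2175481548) (nat_lit 228) (nat_lit 6354467238) (nat_lit 76) (nat_lit 8995605708) (nat_lit 6) (nat_lit 5) (nat_lit 9) (nat_lit 5) (nat_lit 7) (nat_lit 4) (nat_lit 269) (nat_lit 235) (nat_lit 216)) (XT.nd (nat_lit 78) (nat_lit 76) (nat_lit 0) (XT.lf (nat_lit 0) (nat_lit 4575430673) (nat_lit 228) (nat_lit 1605624699) (nat_lit 76) (nat_lit 12466795134) (nat_lit 6) (nat_lit 5) (nat_lit 9) (nat_lit 5) (nat_lit 7) (nat_lit 4) (nat_lit 270) (nat_lit 235) (nat_lit 215)) (XT.lf (nat_lit 0) (nat_lit 3582814130) (nat_lit 76) (nat_lit 3595254353) (nat_lit 152) (nat_lit 12681412237) (nat_lit 5) (nat_lit 5) (nat_lit 6) (nat_lit 5) (nat_lit 7) (nat_lit 4) (nat_lit 271) (nat_lit 235) (nat_lit 214)))) (XT.nd (nat_lit 78) (nat_lit 0) (nat_lit 0) (XT.lf (nat_lit 0) (nat_lit 9161129658) (nat_lit 76) (nat_lit 799002832) (nat_lit 152) (nat_lit 11210587516) (nat_lit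 5) (nat_lit 5) (nat_lit 6) (nat_lit 5) (nat_lit 7) (nat_lit 4) (nat_lit 272) (nat_lit 235) (nat_lit 213)) (XT.nd (nat_lit 78) (nat_lit 0) (nat_lit 0) (XT.lf (nat_lit 0) (nat_lit 12949898199) (nat_lit 152) (nat_lit 7567199280) (nat_lit 0) (nat_lit 2071298059) (nat_lit 5) (nat_lit 5) (nat_lit 7) (nat_lit 4) (nat_lit 5) (nat_lit 4) (nat_lit 273) (nat_lit 235) (nat_lit 212)) (XT.lf (nat_lit 0) (nat_lit 16136378769) (nat_lit 152) (nat_lit 2894464134) (nat_lit 0) (nat_lit 5092361767) (nat_lit 5) (nat_lit 5) (nat_lit 7) (nat_lit 4) (nat_lit 5) (nat_lit 4) (nat_lit 274) (nat_lit 235) (nat_lit 211))))))))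
noncomputable def xc40 : XT := (XT.nd (nat_lit 1638) (nat_lit 0) (nat_lit 0) (XT.nd (nat_lit 780) (nat_lit 76) (nat_lit 0) (XT.nd (nat_lit 390) (nat_lit 76) (nat_lit 0) (XT.nd (nat_lit 156) (nat_lit 76) (nat_lit 0) (XT.nd (nat_lit 78) (nat_lit 0) (nat_lit 0) (XT.lf (nat_lit 0) (nat_lit 2163761521) (nat_lit 76) (nat_lit 17407518008) (nat_lit 76) (nat_lit 6210337244) (nat_lit 4) (nat_lit 4) (nat_lit 5) (nat_lit 5) (nat_lit 5) (nat_lit 4) (nat_lit 275) (nat_lit 235) (nat_lit 210)) (XT.lf (nat_lit 0) (nat_lit 7697132325) (nat_lit 76) (nat_lit 15606515413) (nat_lit 76) (nat_lit 4267516351) (nat_lit 4) (nat_lit 4) (nat_lit 5) (nat_lit 5) (nat_lit 5) (nat_lit 4) (nat_lit 276) (nat_lit 235) (nat_lit 209))) (XT.nd (nat_lit 78) (nat_lit 76) (nat_lit 0) (XT.lf (nat_lit 0) (nat_lit 13586021270) (nat_lit 76) (nat_lit 13696302290) (nat_lit 76) (nat_lit 2225989989) (nat_lit 4) (nat_lit 4) (nat_lit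 5) (nat_lit 5) (nat_lit 5) (nat_lit 4) (nat_lit 277) (nat_lit 235) (nat_lit 208)) (XT.nd (nat_lit 78) (nat_lit 76) (nat_lit 0) (XT.lf (nat_lit 0) (nat_lit 19865325475) (nat_lit 76) (nat_lit 11665558857) (nat_lit 76) (nat_lit 73660224) (nat_lit 4) (nat_lit 4) (nat_lit 5) (nat_lit 5) (nat_lit 5) (nat_lit 4) (nat_lit 278) (nat_lit 235) (nat_lit 207)) (XT.lf (nat_lit 0) (nat_lit 2092063152) (nat_lit 152) (nat_lit 7352987213) (nat_lit 76) (nat_lit 24422991766) (nat_lit 3) (nat_lit 5) (nat_lit 5) (nat_lit 5) (nat_lit 4) (nat_lit 4) (nat_lit 279) (nat_lit 235) (nat_lit 206))))) (XT.nd (nat_lit 156) (nat_lit 0) (nat_lit 0) (XT.nd (nat_lit 78) (nat_lit 76) (nat_lit 0) (XT.lf (nat_lit 0) (nat_lit 4384290907) (nat_lit 152) (nat_lit 2689394165) (nat_lit 76) (nat_lit 29242391323) (nat_lit 3) (nat_lit 5) (nat_lit 5) (nat_lit 5) (nat_lit 4) (nat_lit 4) (nat_lit 280) (nat_lit 235) (nat_lit 205))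 (XT.lf (nat_lit 0) (nat_lit 2401079416) (nat_lit 76) (nat_lit 4476957996) (nat_lit 152) (nat_lit 32080638845) (nat_lit 2) (nat_lit 5) (nat_lit 3) (nat_lit 5) (nat_lit 4) (nat_lit 4) (nat_lit 281) (nat_lit 235) (nat_lit 204))) (XT.nd (nat_lit 78) (nat_lit 0) (nat_lit 0) (XT.lf (nat_lit 0) (nat_lit 7987099440) (nat_lit 76) (nat_lit 1619490668) (nat_lit 152) (nat_lit 32203430688) (nat_lit 2) (nat_lit 5) (nat_lit 3) (nat_lit 5) (nat_lit 4) (nat_lit 4) (nat_lit 282) (nat_lit 235) (nat_lit 203)) (XT.nd (nat_lit 78) (nat_lit 0) (nat_lit 0) (XT.lf (nat_lit 0) (nat_lit 12552715222) (nat_lit 152) (nat_lit 30966987181) (nat_lit 0) (nat_lit 1369976702) (nat_lit 2) (nat_lit 5) (nat_lit 4) (nat_lit 4) (nat_lit 2) (nat_lit 4) (nat_lit 283) (nat_lit 235) (nat_lit 202)) (XT.lf (nat_lit 0) (nat_lit 15743277500) (nat_lit 152) (nat_lit 27982276490) (nat_lit 0) (nat_lit 4489594523) (nat_lit 2) (nat_lit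 5) (nat_lit 4) (nat_lit 4) (nat_lit 2) (nat_lit 4) (nat_lit 284) (nat_lit 235) (nat_lit 201)))))) (XT.nd (nat_lit 390) (nat_lit 76) (nat_lit 0) (XT.nd (nat_lit 156) (nat_lit 0) (nat_lit 0) (XT.nd (nat_lit 78) (nat_lit 0) (nat_lit 0) (XT.lf (nat_lit 0) (nat_lit 19158235189) (nat_lit 152) (nat_lit 24812153319) (nat_lit 0) (nat_lit 7838862900) (nat_lit 2) (nat_lit 5) (nat_lit 4) (nat_lit 4) (nat_lit 2) (nat_lit 4) (nat_lit 285) (nat_lit 235) (nat_lit 200)) (XT.lf (nat_lit 0) (nat_lit 22817825076) (nat_lit 152) (nat_lit 21437831752) (nat_lit 0) (nat_lit 11437629350) (nat_lit 2) (nat_lit 5) (nat_lit 4) (nat_lit 4) (nat_lit 2) (nat_lit 4) (nat_lit 286) (nat_lit 235) (nat_lit 199))) (XT.nd (nat_lit 78) (nat_lit 0) (nat_lit 0) (XT.lf (nat_lit 0) (nat_lit 26743733620) (nat_lit 152) (nat_lit 17839315810) (nat_lit 0) (nat_lit 15307219896) (nat_lit 2) (nat_lit 5) (nat_lit 4) (nat_lit 4) (nat_lit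 2) (nat_lit 4) (nat_lit 287) (nat_lit 235) (nat_lit 198)) (XT.nd (nat_lit 78) (nat_lit 0) (nat_lit 0) (XT.lf (nat_lit 0) (nat_lit 30959225463) (nat_lit 152) (nat_lit 13995280955) (nat_lit 0) (nat_lit 19470565445) (nat_lit 2) (nat_lit 5) (nat_lit 4) (nat_lit 4) (nat_lit 2) (nat_lit 4) (nat_lit 288) (nat_lit 235) (nat_lit 197)) (XT.lf (nat_lit 0) (nat_lit 35489281297) (nat_lit 152) (nat_lit 9882947720) (nat_lit 0) (nat_lit 23952337675) (nat_lit 2) (nat_lit 5) (nat_lit 4) (nat_lit 4) (nat_lit 2) (nat_lit 4) (nat_lit 289) (nat_lit 235) (nat_lit 196))))) (XT.nd (nat_lit 234) (nat_lit 0) (nat_lit 0) (XT.nd (nat_lit 78) (nat_lit 76) (nat_lit 0) (XT.lf (nat_lit 0) (nat_lit 40360745899) (nat_lit 152) (nat_lit 5477946724) (nat_lit 0) (nat_lit 28779095235) (nat_lit 2) (nat_lit 5) (nat_lit 4) (nat_lit 4) (nat_lit 2) (nat_lit 4) (nat_lit 290) (nat_lit 235) (nat_lit 195)) (XT.nd (nat_lit 78) (nat_lit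 76) (nat_lit 0) (XT.lf (nat_lit 0) (nat_lit 45602487207) (nat_lit 152) (nat_lit 754174256) (nat_lit 0) (nat_lit 33979441133) (nat_lit 2) (nat_lit 5) (nat_lit 4) (nat_lit 4) (nat_lit 2) (nat_lit 4) (nat_lit 291) (nat_lit 235) (nat_lit 194)) (XT.lf (nat_lit 0) (nat_lit 4543654404) (nat_lit 76) (nat_lit 46811187984) (nat_lit 76) (nat_lit 35149812827) (nat_lit 1) (nat_lit 4) (nat_lit 2) (nat_lit 5) (nat_lit 2) (nat_lit 4) (nat_lit 292) (nat_lit 235) (nat_lit 193)))) (XT.nd (nat_lit 78) (nat_lit 0) (nat_lit 0) (XT.lf (nat_lit 0) (nat_lit 10277850608) (nat_lit 76) (nat_lit 47292758871) (nat_lit 76) (nat_lit 35595893823) (nat_lit 1) (nat_lit 4) (nat_lit 2) (nat_lit 5) (nat_lit 2) (nat_lit 4) (nat_lit 293) (nat_lit 235) (nat_lit 192)) (XT.nd (nat_lit 78) (nat_lit 0) (nat_lit 0) (XT.lf (nat_lit 0) (nat_lit 16442681299) (nat_lit 76) (nat_lit 47824848338) (nat_lit 76) (nat_lit 36095122280) (nat_lit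 1) (nat_lit 4) (nat_lit 2) (nat_lit 5) (nat_lit 2) (nat_lit 4) (nat_lit 294) (nat_lit 235) (nat_lit 191)) (XT.lf (nat_lit 0) (nat_lit 23074678807) (nat_lit 76) (nat_lit 48410609508) (nat_lit 76) (nat_lit 36650456588) (nat_lit 1) (nat_lit 4) (nat_lit 2) (nat_lit 5) (nat_lit 2) (nat_lit 4) (nat_lit 295) (nat_lit 235) (nat_lit 190))))))) (XT.nd (nat_lit 858) (nat_lit 0) (nat_lit 0) (XT.nd (nat_lit 390) (nat_lit 0) (nat_lit 0) (XT.nd (nat_lit 156) (nat_lit 0) (nat_lit 0) (XT.nd (nat_lit 78) (nat_lit 0) (nat_lit 0) (XT.lf (nat_lit 0) (nat_lit 30213143857) (nat_lit 76) (nat_lit 49053513558) (nat_lit 76) (nat_lit 37265187618) (nat_lit 1) (nat_lit 4) (nat_lit 2) (nat_lit 5) (nat_lit 2) (nat_lit 4) (nat_lit 296) (nat_lit 235) (nat_lit 189)) (XT.lf (nat_lit 0) (nat_lit 37900378465) (nat_lit 76) (nat_lit 49757370290) (nat_lit 76) (nat_lit 37942958221) (nat_lit 1) (nat_lit 4) (nat_lit 2) (nat_lit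 5) (nat_lit 2) (nat_lit 4) (nat_lit 297) (nat_lit 235) (nat_lit 188))) (XT.nd (nat_lit 78) (nat_lit 0) (nat_lit 0) (XT.lf (nat_lit 0) (nat_lit 46181936613) (nat_lit 76) (nat_lit 50526350707) (nat_lit 76) (nat_lit 38687784814) (nat_lit 1) (nat_lit 4) (nat_lit 2) (nat_lit 5) (nat_lit 2) (nat_lit 4) (nat_lit 298) (nat_lit 235) (nat_lit 187)) (XT.nd (nat_lit 78) (nat_lit 0) (nat_lit 0) (XT.lf (nat_lit 0) (nat_lit 55106894201) (nat_lit 76) (nat_lit 51365011730) (nat_lit 76) (nat_lit 39504081185) (nat_lit 1) (nat_lit 4) (nat_lit 2) (nat_lit 5) (nat_lit 2) (nat_lit 4) (nat_lit 299) (nat_lit 235) (nat_lit 186)) (XT.lf (nat_lit 0) (nat_lit 64728139868) (nat_lit 76) (nat_lit 52278323202) (nat_lit 76) (nat_lit 40396684646) (nat_lit 1) (nat_lit 4) (nat_lit 2) (nat_lit 5) (nat_lit 2) (nat_lit 4) (nat_lit 300) (nat_lit 235) (nat_lit 185))))) (XT.nd (nat_lit 234) (nat_lit 0) (nat_lit 0) (XT.nd (nat_lit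 78) (nat_lit 0) (nat_lit 0) (XT.lf (nat_lit 0) (nat_lit 75102688402) (nat_lit 76) (nat_lit 53271697338) (nat_lit 76) (nat_lit 41370884699) (nat_lit 1) (nat_lit 4) (nat_lit 2) (nat_lit 5) (nat_lit 2) (nat_lit 4) (nat_lit 301) (nat_lit 235) (nat_lit 184)) (XT.nd (nat_lit 78) (nat_lit 0) (nat_lit 0) (XT.lf (nat_lit 0) (nat_lit 86292018610) (nat_lit 76) (nat_lit 54351020802) (nat_lit 76) (nat_lit 42432454381) (nat_lit 1) (nat_lit 4) (nat_lit 2) (nat_lit 5) (nat_lit 2) (nat_lit 4) (nat_lit 302) (nat_lit 235) (nat_lit 183)) (XT.lf (nat_lit 0) (nat_lit 98362437633) (nat_lit 76) (nat_lit 55522689582) (nat_lit 76) (nat_lit 43587684475) (nat_lit 1) (nat_lit 4) (nat_lit 2) (nat_lit 5) (nat_lit 2) (nat_lit 4) (nat_lit 303) (nat_lit 235) (nat_lit 182)))) (XT.nd (nat_lit 78) (nat_lit 0) (nat_lit 0) (XT.lf (nat_lit 0) (nat_lit 111385473880) (nat_lit 76) (nat_lit 56793646903) (nat_lit 76) (nat_lit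 44843420789) (nat_lit 1) (nat_lit 4) (nat_lit 2) (nat_lit 5) (nat_lit 2) (nat_lit 4) (nat_lit 304) (nat_lit 235) (nat_lit 181)) (XT.nd (nat_lit 78) (nat_lit 0) (nat_lit 0) (XT.lf (nat_lit 0) (nat_lit 125438300900) (nat_lit 76) (nat_lit 58171424362) (nat_lit 76) (nat_lit 46207104725) (nat_lit 1) (nat_lit 4) (nat_lit 2) (nat_lit 5) (nat_lit 2) (nat_lit 4) (nat_lit 305) (nat_lit 235) (nat_lit 180)) (XT.lf (nat_lit 0) (nat_lit 140604194704) (nat_lit 76) (nat_lit 59664186568) (nat_lit 76) (nat_lit 47686817370) (nat_lit 1) (nat_lit 4) (nat_lit 2) (nat_lit 5) (nat_lit 2) (nat_lit 4) (nat_lit 306) (nat_lit 235) (nat_lit 179)))))) (XT.nd (nat_lit 390) (nat_lit 0) (nat_lit 0) (XT.nd (nat_lit 156) (nat_lit 0) (nat_lit 0) (XT.nd (nat_lit 78) (nat_lit 0) (nat_lit 0) (XT.lf (nat_lit 0) (nat_lit 156973027256) (nat_lit 76) (nat_lit 61280779517) (nat_lit 76) (nat_lit 49291327395) (nat_lit 1) (nat_lit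 4) (nat_lit 2) (nat_lit 5) (nat_lit 2) (nat_lit 4) (nat_lit 307) (nat_lit 235) (nat_lit 178)) (XT.lf (nat_lit 0) (nat_lit 174641799045) (nat_lit 76) (nat_lit 63030783021) (nat_lit 76) (nat_lit 51030143005) (nat_lit 1) (nat_lit 4) (nat_lit 2) (nat_lit 5) (nat_lit 2) (nat_lit 4) (nat_lit 308) (nat_lit 235) (nat_lit 177))) (XT.nd (nat_lit 78) (nat_lit 0) (nat_lit 0) (XT.lf (nat_lit 0) (nat_lit 193715213904) (nat_lit 76) (nat_lit 64924567471) (nat_lit 76) (nat_lit 52913568293) (nat_lit 1) (nat_lit 4) (nat_lit 2) (nat_lit 5) (nat_lit 2) (nat_lit 4) (nat_lit 309) (nat_lit 235) (nat_lit 176)) (XT.nd (nat_lit 78) (nat_lit 0) (nat_lit 0) (XT.lf (nat_lit 0) (nat_lit 214306299476) (nat_lit 76) (nat_lit 66973355292) (nat_lit 76) (nat_lit 54952764299) (nat_lit 1) (nat_lit 4) (nat_lit 2) (nat_lit 5) (nat_lit 2) (nat_lit 4) (nat_lit 310) (nat_lit 235) (nat_lit 175)) (XT.lf (nat_lit 0) (nat_lit 236537077010)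 (nat_lit 76) (nat_lit 69189287449) (nat_lit 76) (nat_lit 57159815145) (nat_lit 1) (nat_lit 4) (nat_lit 2) (nat_lit 5) (nat_lit 2) (nat_lit 4) (nat_lit 311) (nat_lit 235) (nat_lit 174))))) (XT.nd (nat_lit 234) (nat_lit 0) (nat_lit 0) (XT.nd (nat_lit 78) (nat_lit 0) (nat_lit 0) (XT.lf (nat_lit 0) (nat_lit 260539284445) (nat_lit 76) (nat_lit 71585495394) (nat_lit 76) (nat_lit 59547799654) (nat_lit 1) (nat_lit 4) (nat_lit 2) (nat_lit 5) (nat_lit 2) (nat_lit 4) (nat_lit 312) (nat_lit 235) (nat_lit 173)) (XT.nd (nat_lit 78) (nat_lit 0) (nat_lit 0) (XT.lf (nat_lit 0) (nat_lit 286455157087) (nat_lit 76) (nat_lit 74176178875) (nat_lit 76) (nat_lit 62130868843) (nat_lit 1) (nat_lit 4) (nat_lit 2) (nat_lit 5) (nat_lit 2) (nat_lit 4) (nat_lit 313) (nat_lit 235) (nat_lit 172)) (XT.lf (nat_lit 0) (nat_lit 314438270475) (nat_lit 76) (nat_lit 76976690093) (nat_lit 76) (nat_lit 64924329789) (nat_lit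 1) (nat_lit 4) (nat_lit 2) (nat_lit 5) (nat_lit 2) (nat_lit 4) (nat_lit 314) (nat_lit 235) (nat_lit 171)))) (XT.nd (nat_lit 78) (nat_lit 0) (nat_lit 0) (XT.lf (nat_lit 0) (nat_lit 344654450467) (nat_lit 76) (nat_lit 80003624667) (nat_lit 76) (nat_lit 67944736335) (nat_lit 1) (nat_lit 4) (nat_lit 2) (nat_lit 5) (nat_lit 2) (nat_lit 4) (nat_lit 315) (nat_lit 235) (nat_lit 170)) (XT.nd (nat_lit 78) (nat_lit 0) (nat_lit 0) (XT.lf (nat_lit 0) (nat_lit 377282755908) (nat_lit 76) (nat_lit 83274919990) (nat_lit 76) (nat_lit 71209987187) (nat_lit 1) (nat_lit 4) (nat_lit 2) (nat_lit 5) (nat_lit 2) (nat_lit 4) (nat_lit 316) (nat_lit 235) (nat_lit 169)) (XT.lf (nat_lit 0) (nat_lit 412516539719) (nat_lit 76) (nat_lit 86809961514) (nat_lit 76) (nat_lit 74739431979) (nat_lit 1) (nat_lit 4) (nat_lit 2) (nat_lit 5) (nat_lit 2) (nat_lit 4) (nat_lit 317) (nat_lit 235) (nat_lit 168))))))))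
noncomputable def xc41 : XT := (XT.nd (nat_lit 32604) (nat_lit 0) (nat_lit 228) (XT.nd (nat_lit 858) (nat_lit 0) (nat_lit 0) (XT.nd (nat_lit 390) (nat_lit 0) (nat_lit 0) (XT.nd (nat_lit 156) (nat_lit 0) (nat_lit 0) (XT.nd (nat_lit 78) (nat_lit 0) (nat_lit 0) (XT.lf (nat_lit 0) (nat_lit 450564594693) (nat_lit 76) (nat_lit 90629697634) (nat_lit 76) (nat_lit 78553985940) (nat_lit 1) (nat_lit 4) (nat_lit 2) (nat_lit 5) (nat_lit 2) (nat_lit 4) (nat_lit 318) (nat_lit 235) (nat_lit 167)) (XT.lf (nat_lit 0) (nat_lit 491652390784) (nat_lit 76) (nat_lit 94756763824) (nat_lit 76) (nat_lit 82676253833) (nat_lit 1) (nat_lit 4) (nat_lit 2) (nat_lit 5) (nat_lit 2) (nat_lit 4) (nat_lit 319) (nat_lit 235) (nat_lit 166))) (XT.nd (nat_lit 78) (nat_lit 0) (nat_lit 0) (XT.lf (nat_lit 0) (nat_lit 536023411230) (nat_lit 76) (nat_lit 99215616770) (nat_lit 76) (nat_lit 87130663913) (nat_lit 1) (nat_lit 4)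 (nat_lit 2) (nat_lit 5) (nat_lit 2) (nat_lit 4) (nat_lit 320) (nat_lit 235) (nat_lit 165)) (XT.nd (nat_lit 78) (nat_lit 0) (nat_lit 0) (XT.lf (nat_lit 0) (nat_lit 583940595411) (nat_lit 76) (nat_lit 104032679307) (nat_lit 76) (nat_lit 91943612684) (nat_lit 1) (nat_lit 4) (nat_lit 2) (nat_lit 5) (nat_lit 2) (nat_lit 4) (nat_lit 321) (nat_lit 235) (nat_lit 164)) (XT.lf (nat_lit 0) (nat_lit 635687897010) (nat_lit 76) (nat_lit 109236496989) (nat_lit 76) (nat_lit 97143621324) (nat_lit 1) (nat_lit 4) (nat_lit 2) (nat_lit 5) (nat_lit 2) (nat_lit 4) (nat_lit 322) (nat_lit 235) (nat_lit 163))))) (XT.nd (nat_lit 234) (nat_lit 0) (nat_lit 0) (XT.nd (nat_lit 78) (nat_lit 0) (nat_lit 0) (XT.lf (nat_lit 0) (nat_lit 691571966704) (nat_lit 76) (nat_lit 114857907255) (nat_lit 76) (nat_lit 102761504699) (nat_lit 1) (nat_lit 4) (nat_lit 2) (nat_lit 5) (nat_lit 2) (nat_lit 4) (nat_lit 323) (nat_lit 235)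 (nat_lit 162)) (XT.nd (nat_lit 78) (nat_lit 0) (nat_lit 0) (XT.lf (nat_lit 0) (nat_lit 751923969350) (nat_lit 76) (nat_lit 120930222165) (nat_lit 76) (nat_lit 108830553970) (nat_lit 1) (nat_lit 4) (nat_lit 2) (nat_lit 5) (nat_lit 2) (nat_lit 4) (nat_lit 324) (nat_lit 235) (nat_lit 161)) (XT.lf (nat_lit 0) (nat_lit 817101546445) (nat_lit 76) (nat_lit 127489425809) (nat_lit 76) (nat_lit 115386733874) (nat_lit 1) (nat_lit 4) (nat_lit 2) (nat_lit 5) (nat_lit 2) (nat_lit 4) (nat_lit 325) (nat_lit 235) (nat_lit 160)))) (XT.nd (nat_lit 78) (nat_lit 0) (nat_lit 0) (XT.lf (nat_lit 0) (nat_lit 887490935484) (nat_lit 76) (nat_lit 134574387540) (nat_lit 76) (nat_lit 122468895845) (nat_lit 1) (nat_lit 4) (nat_lit 2) (nat_lit 5) (nat_lit 2) (nat_lit 4) (nat_lit 326) (nat_lit 235) (nat_lit 159)) (XT.nd (nat_lit 78) (nat_lit 0) (nat_lit 0) (XT.lf (nat_lit 0) (nat_lit 963509258771) (nat_lit 76) (nat_lit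 142227092318) (nat_lit 76) (nat_lit 130119008253) (nat_lit 1) (nat_lit 4) (nat_lit 2) (nat_lit 5) (nat_lit 2) (nat_lit 4) (nat_lit 327) (nat_lit 235) (nat_lit 158)) (XT.lf (nat_lit 0) (nat_lit 1045606995260) (nat_lit 76) (nat_lit 150492889504) (nat_lit 76) (nat_lit 138382405096) (nat_lit 1) (nat_lit 4) (nat_lit 2) (nat_lit 5) (nat_lit 2) (nat_lit 4) (nat_lit 328) (nat_lit 235) (nat_lit 157)))))) (XT.nd (nat_lit 31278) (nat_lit 0) (nat_lit 1444) (XT.nd (nat_lit 156) (nat_lit 0) (nat_lit 0) (XT.nd (nat_lit 78) (nat_lit 0) (nat_lit 0) (XT.lf (nat_lit 0) (nat_lit 1134270650056) (nat_lit 76) (nat_lit 159420761599) (nat_lit 76) (nat_lit 147308054652) (nat_lit 1) (nat_lit 4) (nat_lit 2) (nat_lit 5) (nat_lit 2) (nat_lit 4) (nat_lit 329) (nat_lit 235) (nat_lit 156)) (XT.lf (nat_lit 0) (nat_lit 1230025637409) (nat_lit 76) (nat_lit 169063614513) (nat_lit 76) (nat_lit 156948849659) (nat_lit 1)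 (nat_lit 4) (nat_lit 2) (nat_lit 5) (nat_lit 2) (nat_lit 4) (nat_lit 330) (nat_lit 235) (nat_lit 155))) (XT.nd (nat_lit 78) (nat_lit 0) (nat_lit 0) (XT.lf (nat_lit 0) (nat_lit 1333439394281) (nat_lit 76) (nat_lit 179478591077) (nat_lit 76) (nat_lit 167361920754) (nat_lit 1) (nat_lit 4) (nat_lit 2) (nat_lit 5) (nat_lit 2) (nat_lit 4) (nat_lit 331) (nat_lit 235) (nat_lit 154)) (XT.nd (nat_lit 30966) (nat_lit 0) (nat_lit 2964) (XT.lf (nat_lit 0) (nat_lit 1445124742935) (nat_lit 76) (nat_lit 190727409672) (nat_lit 76) (nat_lit 178608975025) (nat_lit 1) (nat_lit 4) (nat_lit 2) (nat_lit 5) (nat_lit 2) (nat_lit 4) (nat_lit 332) (nat_lit 235) (nat_lit 153)) (XT.lf (nat_lit 0) (nat_lit 3179665687) (nat_lit 228) (nat_lit 155084203) (nat_lit 228) (nat_lit 155084203) (nat_lit 40) (nat_lit 4) (nat_lit 43) (nat_lit 5) (nat_lit 43) (nat_lit 4) (nat_lit 248) (nat_lit 236) (nat_lit 236))))) (XT.nd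 (nat_lit 234) (nat_lit 684) (nat_lit 0) (XT.nd (nat_lit 78) (nat_lit 456) (nat_lit 0) (XT.lf (nat_lit 0) (nat_lit 2429733417) (nat_lit 380) (nat_lit 3810436240) (nat_lit 0) (nat_lit 888499035) (nat_lit 35) (nat_lit 5) (nat_lit 40) (nat_lit 4) (nat_lit 35) (nat_lit 4) (nat_lit 249) (nat_lit 236) (nat_lit 235)) (XT.nd (nat_lit 78) (nat_lit 76) (nat_lit 0) (XT.lf (nat_lit 0) (nat_lit 91567195) (nat_lit 380) (nat_lit 5091779376) (nat_lit 380) (nat_lit 2123476123) (nat_lit 30) (nat_lit 4) (nat_lit 35) (nat_lit 5) (nat_lit 35) (nat_lit 4) (nat_lit 250) (nat_lit 236) (nat_lit 234)) (XT.lf (nat_lit 0) (nat_lit 518808062) (nat_lit 456) (nat_lit 3210542550) (nat_lit 76) (nat_lit 3779499426) (nat_lit 29) (nat_lit 5) (nat_lit 35) (nat_lit 5) (nat_lit 30) (nat_lit 4) (nat_lit 251) (nat_lit 236) (nat_lit 233)))) (XT.nd (nat_lit 78) (nat_lit 304) (nat_lit 0) (XT.lf (nat_lit 0) (nat_lit 897286857)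 (nat_lit 380) (nat_lit 2184651469) (nat_lit 456) (nat_lit 4656960836) (nat_lit 24) (nat_lit 5) (nat_lit 29) (nat_lit 5) (nat_lit 30) (nat_lit 4) (nat_lit 252) (nat_lit 236) (nat_lit 232)) (XT.nd (nat_lit 78) (nat_lit 304) (nat_lit 0) (XT.lf (nat_lit 0) (nat_lit 5314578026) (nat_lit 380) (nat_lit 435698978) (nat_lit 456) (nat_lit 2247106007) (nat_lit 24) (nat_lit 5) (nat_lit 29) (nat_lit 5) (nat_lit 30) (nat_lit 4) (nat_lit 253) (nat_lit 236) (nat_lit 231)) (XT.lf (nat_lit 0) (nat_lit 234067482) (nat_lit 304) (nat_lit 6638080716) (nat_lit 76) (nat_lit 1413759976) (nat_lit 20) (nat_lit 5) (nat_lit 24) (nat_lit 5) (nat_lit 21) (nat_lit 4) (nat_lit 254) (nat_lit 236) (nat_lit 230))))))) (XT.nd (nat_lit 858) (nat_lit 380) (nat_lit 0) (XT.nd (nat_lit 390) (nat_lit 456) (nat_lit 0) (XT.nd (nat_lit 156) (nat_lit 228) (nat_lit 0) (XT.nd (nat_lit 78) (nat_lit 152) (nat_lit 0) (XT.lf (nat_lit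 0) (nat_lit 2707044115) (nat_lit 304) (nat_lit 2393584778) (nat_lit 76) (nat_lit 3500662381) (nat_lit 20) (nat_lit 5) (nat_lit 24) (nat_lit 5) (nat_lit 21) (nat_lit 4) (nat_lit 255) (nat_lit 236) (nat_lit 229)) (XT.lf (nat_lit 0) (nat_lit 2103245619) (nat_lit 152) (nat_lit 3166063581) (nat_lit 228) (nat_lit 3682781782) (nat_lit 18) (nat_lit 5) (nat_lit 20) (nat_lit 5) (nat_lit 21) (nat_lit 4) (nat_lit 256) (nat_lit 236) (nat_lit 228))) (XT.nd (nat_lit 78) (nat_lit 228) (nat_lit 0) (XT.lf (nat_lit 0) (nat_lit 6908381509) (nat_lit 152) (nat_lit 1041762690) (nat_lit 228) (nat_lit 1389114098) (nat_lit 18) (nat_lit 5) (nat_lit 20) (nat_lit 5) (nat_lit 21) (nat_lit 4) (nat_lit 257) (nat_lit 236) (nat_lit 227)) (XT.nd (nat_lit 78) (nat_lit 0) (nat_lit 0) (XT.lf (nat_lit 0) (nat_lit 973418899) (nat_lit 228) (nat_lit 7551036981) (nat_lit 76) (nat_lit 1236858003) (nat_lit 15) (nat_lit 5) (nat_lit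 18) (nat_lit 5) (nat_lit 16) (nat_lit 4) (nat_lit 258) (nat_lit 236) (nat_lit 226)) (XT.lf (nat_lit 0) (nat_lit 3405234802) (nat_lit 228) (nat_lit 3104905281) (nat_lit 76) (nat_lit 3708785086) (nat_lit 15) (nat_lit 5) (nat_lit 18) (nat_lit 5) (nat_lit 16) (nat_lit 4) (nat_lit 259) (nat_lit 236) (nat_lit 225))))) (XT.nd (nat_lit 234) (nat_lit 152) (nat_lit 0) (XT.nd (nat_lit 78) (nat_lit 152) (nat_lit 0) (XT.lf (nat_lit 0) (nat_lit 1601871730) (nat_lit 152) (nat_lit 4338692732) (nat_lit 228) (nat_lit 4780885641) (nat_lit 13) (nat_lit 5) (nat_lit 15) (nat_lit 5) (nat_lit 16) (nat_lit 4) (nat_lit 260) (nat_lit 236) (nat_lit 224)) (XT.nd (nat_lit 78) (nat_lit 152) (nat_lit 0) (XT.lf (nat_lit 0) (nat_lit 6691027151) (nat_lit 152) (nat_lit 1948520813) (nat_lit 228) (nat_lit 2628709376) (nat_lit 13) (nat_lit 5) (nat_lit 15) (nat_lit 5) (nat_lit 16) (nat_lit 4) (nat_lit 261) (nat_lit 236)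 (nat_lit 223)) (XT.lf (nat_lit 0) (nat_lit 153860201) (nat_lit 152) (nat_lit 11303595228) (nat_lit 152) (nat_lit 409989700) (nat_lit 11) (nat_lit 4) (nat_lit 13) (nat_lit 5) (nat_lit 13) (nat_lit 4) (nat_lit 262) (nat_lit 236) (nat_lit 222)))) (XT.nd (nat_lit 78) (nat_lit 76) (nat_lit 0) (XT.lf (nat_lit 0) (nat_lit 1950972476) (nat_lit 228) (nat_lit 7252130577) (nat_lit 76) (nat_lit 3303266422) (nat_lit 10) (nat_lit 5) (nat_lit 13) (nat_lit 5) (nat_lit 11) (nat_lit 4) (nat_lit 263) (nat_lit 236) (nat_lit 221)) (XT.nd (nat_lit 78) (nat_lit 76) (nat_lit 0) (XT.lf (nat_lit 0) (nat_lit 4372266088) (nat_lit 228) (nat_lit 2601532272) (nat_lit 76) (nat_lit 6230964828) (nat_lit 10) (nat_lit 5) (nat_lit 13) (nat_lit 5) (nat_lit 11) (nat_lit 4) (nat_lit 264) (nat_lit 236) (nat_lit 220)) (XT.lf (nat_lit 0) (nat_lit 2395459959) (nat_lit 76) (nat_lit 4550899797) (nat_lit 152) (nat_lit 7016585091)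 (nat_lit 9) (nat_lit 5) (nat_lit 10) (nat_lit 5) (nat_lit 11) (nat_lit 4) (nat_lit 265) (nat_lit 236) (nat_lit 219)))))) (XT.nd (nat_lit 390) (nat_lit 152) (nat_lit 0) (XT.nd (nat_lit 156) (nat_lit 228) (nat_lit 0) (XT.nd (nat_lit 78) (nat_lit 0) (nat_lit 0) (XT.lf (nat_lit 0) (nat_lit 7798361620) (nat_lit 76) (nat_lit 1904522528) (nat_lit 152) (nat_lit 5081373091) (nat_lit 9) (nat_lit 5) (nat_lit 10) (nat_lit 5) (nat_lit 11) (nat_lit 4) (nat_lit 266) (nat_lit 236) (nat_lit 218)) (XT.lf (nat_lit 0) (nat_lit 12614195407) (nat_lit 152) (nat_lit 2198521262) (nat_lit 0) (nat_lit 864369039) (nat_lit 9) (nat_lit 5) (nat_lit 11) (nat_lit 4) (nat_lit 9) (nat_lit 4) (nat_lit 267) (nat_lit 236) (nat_lit 217))) (XT.nd (nat_lit 78) (nat_lit 76) (nat_lit 0) (XT.lf (nat_lit 0) (nat_lit 2941942049) (nat_lit 152) (nat_lit 12854591093) (nat_lit 152) (nat_lit 842268953) (nat_lit 7) (nat_lit 4) (nat_lit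 9) (nat_lit 5) (nat_lit 9) (nat_lit 4) (nat_lit 268) (nat_lit 236) (nat_lit 216)) (XT.nd (nat_lit 78) (nat_lit 0) (nat_lit 0) (XT.lf (nat_lit 0) (nat_lit 1458325448) (nat_lit 228) (nat_lit 9222056847) (nat_lit 76) (nat_lit 6996105291) (nat_lit 6) (nat_lit 5) (nat_lit 9) (nat_lit 5) (nat_lit 7) (nat_lit 4) (nat_lit 269) (nat_lit 236) (nat_lit 215)) (XT.lf (nat_lit 0) (nat_lit 3821988991) (nat_lit 228) (nat_lit 4530684493) (nat_lit 76) (nat_lit 10449208124) (nat_lit 6) (nat_lit 5) (nat_lit 9) (nat_lit 5) (nat_lit 7) (nat_lit 4) (nat_lit 270) (nat_lit 236) (nat_lit 214))))) (XT.nd (nat_lit 234) (nat_lit 76) (nat_lit 0) (XT.nd (nat_lit 78) (nat_lit 0) (nat_lit 0) (XT.lf (nat_lit 0) (nat_lit 447710627) (nat_lit 76) (nat_lit 5867919098) (nat_lit 152) (nat_lit 13706782569) (nat_lit 5) (nat_lit 5) (nat_lit 6) (nat_lit 5) (nat_lit 7) (nat_lit 4) (nat_lit 271) (nat_lit 236) (nat_lit 213)) (XT.nd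 (nat_lit 78) (nat_lit 0) (nat_lit 0) (XT.lf (nat_lit 0) (nat_lit 5974160188) (nat_lit 76) (nat_lit 3091177128) (nat_lit 152) (nat_lit 12271070099) (nat_lit 5) (nat_lit 5) (nat_lit 6) (nat_lit 5) (nat_lit 7) (nat_lit 4) (nat_lit 272) (nat_lit 236) (nat_lit 212)) (XT.lf (nat_lit 0) (nat_lit 11842835705) (nat_lit 76) (nat_lit 129869750) (nat_lit 152) (nat_lit 10788124224) (nat_lit 5) (nat_lit 5) (nat_lit 6) (nat_lit 5) (nat_lit 7) (nat_lit 4) (nat_lit 273) (nat_lit 236) (nat_lit 211)))) (XT.nd (nat_lit 78) (nat_lit 76) (nat_lit 0) (XT.lf (nat_lit 0) (nat_lit 15127919976) (nat_lit 152) (nat_lit 6288562582) (nat_lit 0) (nat_lit 2881800990) (nat_lit 5) (nat_lit 5) (nat_lit 7) (nat_lit 4) (nat_lit 5) (nat_lit 4) (nat_lit 274) (nat_lit 236) (nat_lit 210)) (XT.nd (nat_lit 78) (nat_lit 76) (nat_lit 0) (XT.lf (nat_lit 0) (nat_lit 18484724184) (nat_lit 152) (nat_lit 1381565116) (nat_lit 0) (nat_lit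 6096786899) (nat_lit 5) (nat_lit 5) (nat_lit 7) (nat_lit 4) (nat_lit 5) (nat_lit 4) (nat_lit 275) (nat_lit 236) (nat_lit 209)) (XT.lf (nat_lit 0) (nat_lit 4037155145) (nat_lit 76) (nat_lit 18119825413) (nat_lit 76) (nat_lit 5600574890) (nat_lit 4) (nat_lit 4) (nat_lit 5) (nat_lit 5) (nat_lit 5) (nat_lit 4) (nat_lit 276) (nat_lit 236) (nat_lit 208))))))))
noncomputable def xc42 : XT := (XT.nd (nat_lit 1716) (nat_lit 0) (nat_lit 0) (XT.nd (nat_lit 858) (nat_lit 76) (nat_lit 0) (XT.nd (nat_lit 390) (nat_lit 76) (nat_lit 0) (XT.nd (nat_lit 156) (nat_lit 76) (nat_lit 0) (XT.nd (nat_lit 78) (nat_lit 0) (nat_lit 0) (XT.lf (nat_lit 0) (nat_lit 9887248005) (nat_lit 76) (nat_lit 16225134761) (nat_lit 76) (nat_lit 3584297906) (nat_lit 4) (nat_lit 4) (nat_lit 5) (nat_lit 5) (nat_lit 5) (nat_lit 4) (nat_lit 277) (nat_lit 236) (nat_lit 207)) (XT.lf (nat_lit 0) (nat_lit 16130629911) (nat_lit 76)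 (nat_lit 14208763987) (nat_lit 76) (nat_lit 1455347194) (nat_lit 4) (nat_lit 4) (nat_lit 5) (nat_lit 5) (nat_lit 5) (nat_lit 4) (nat_lit 278) (nat_lit 236) (nat_lit 206))) (XT.nd (nat_lit 78) (nat_lit 0) (nat_lit 0) (XT.lf (nat_lit 0) (nat_lit 758929372) (nat_lit 152) (nat_lit 11279084380) (nat_lit 76) (nat_lit 22024618832) (nat_lit 3) (nat_lit 5) (nat_lit 5) (nat_lit 5) (nat_lit 4) (nat_lit 4) (nat_lit 279) (nat_lit 236) (nat_lit 205)) (XT.nd (nat_lit 78) (nat_lit 0) (nat_lit 0) (XT.lf (nat_lit 0) (nat_lit 3032116028) (nat_lit 152) (nat_lit 6647375287) (nat_lit 76) (nat_lit 26832782524) (nat_lit 3) (nat_lit 5) (nat_lit 5) (nat_lit 5) (nat_lit 4) (nat_lit 4) (nat_lit 280) (nat_lit 236) (nat_lit 204)) (XT.lf (nat_lit 0) (nat_lit 5450485868) (nat_lit 152) (nat_lit 1706535602) (nat_lit 76) (nat_lit 32003959866) (nat_lit 3) (nat_lit 5) (nat_lit 5) (nat_lit 5) (nat_lit 4) (nat_lit 4) (nat_lit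 281) (nat_lit 236) (nat_lit 203))))) (XT.nd (nat_lit 234) (nat_lit 0) (nat_lit 0) (XT.nd (nat_lit 78) (nat_lit 0) (nat_lit 0) (XT.lf (nat_lit 0) (nat_lit 3760846496) (nat_lit 76) (nat_lit 4357971927) (nat_lit 152) (nat_lit 33898396825) (nat_lit 2) (nat_lit 5) (nat_lit 3) (nat_lit 5) (nat_lit 4) (nat_lit 4) (nat_lit 282) (nat_lit 236) (nat_lit 202)) (XT.nd (nat_lit 78) (nat_lit 0) (nat_lit 0) (XT.lf (nat_lit 0) (nat_lit 9707253252) (nat_lit 76) (nat_lit 1307251117) (nat_lit 152) (nat_lit 34086470766) (nat_lit 2) (nat_lit 5) (nat_lit 3) (nat_lit 5) (nat_lit 4) (nat_lit 4) (nat_lit 283) (nat_lit 236) (nat_lit 201)) (XT.lf (nat_lit 0) (nat_lit 14158795703) (nat_lit 152) (nat_lit 32403227721) (nat_lit 0) (nat_lit 1868184319) (nat_lit 2) (nat_lit 5) (nat_lit 4) (nat_lit 4) (nat_lit 2) (nat_lit 4) (nat_lit 284) (nat_lit 236) (nat_lit 200)))) (XT.nd (nat_lit 78) (nat_lit 0) (nat_lit 0) (XT.lf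 (nat_lit 0) (nat_lit 17560020499) (nat_lit 152) (nat_lit 29256860058) (nat_lit 0) (nat_lit 5208585678) (nat_lit 2) (nat_lit 5) (nat_lit 4) (nat_lit 4) (nat_lit 2) (nat_lit 4) (nat_lit 285) (nat_lit 236) (nat_lit 199)) (XT.nd (nat_lit 78) (nat_lit 0) (nat_lit 0) (XT.lf (nat_lit 0) (nat_lit 21206894745) (nat_lit 152) (nat_lit 25904534333) (nat_lit 0) (nat_lit 8799141926) (nat_lit 2) (nat_lit 5) (nat_lit 4) (nat_lit 4) (nat_lit 2) (nat_lit 4) (nat_lit 286) (nat_lit 236) (nat_lit 198)) (XT.lf (nat_lit 0) (nat_lit 25121029546) (nat_lit 152) (nat_lit 22326384912) (nat_lit 0) (nat_lit 12661130433) (nat_lit 2) (nat_lit 5) (nat_lit 4) (nat_lit 4) (nat_lit 2) (nat_lit 4) (nat_lit 287) (nat_lit 236) (nat_lit 197)))))) (XT.nd (nat_lit 390) (nat_lit 76) (nat_lit 0) (XT.nd (nat_lit 156) (nat_lit 0) (nat_lit 0) (XT.nd (nat_lit 78) (nat_lit 0) (nat_lit 0) (XT.lf (nat_lit 0) (nat_lit 29325619775)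 (nat_lit 152) (nat_lit 18501207945) (nat_lit 0) (nat_lit 16817437058) (nat_lit 2) (nat_lit 5) (nat_lit 4) (nat_lit 4) (nat_lit 2) (nat_lit 4) (nat_lit 288) (nat_lit 236) (nat_lit 196)) (XT.lf (nat_lit 0) (nat_lit 33845581524) (nat_lit 152) (nat_lit 14406335719) (nat_lit 0) (nat_lit 21292691764) (nat_lit 2) (nat_lit 5) (nat_lit 4) (nat_lit 4) (nat_lit 2) (nat_lit 4) (nat_lit 289) (nat_lit 236) (nat_lit 195))) (XT.nd (nat_lit 78) (nat_lit 0) (nat_lit 0) (XT.lf (nat_lit 0) (nat_lit 38707699749) (nat_lit 152) (nat_lit 10017502322) (nat_lit 0) (nat_lit 26113414580) (nat_lit 2) (nat_lit 5) (nat_lit 4) (nat_lit 4) (nat_lit 2) (nat_lit 4) (nat_lit 290) (nat_lit 236) (nat_lit 194)) (XT.nd (nat_lit 78) (nat_lit 0) (nat_lit 0) (XT.lf (nat_lit 0) (nat_lit 43940787005) (nat_lit 152) (nat_lit 5308699854) (nat_lit 0) (nat_lit 31308172753) (nat_lit 2) (nat_lit 5) (nat_lit 4) (nat_lit 4) (nat_lit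 2) (nat_lit 4) (nat_lit 291) (nat_lit 236) (nat_lit 193)) (XT.lf (nat_lit 0) (nat_lit 49575854177) (nat_lit 152) (nat_lit 252024301) (nat_lit 0) (nat_lit 36907750034) (nat_lit 2) (nat_lit 5) (nat_lit 4) (nat_lit 4) (nat_lit 2) (nat_lit 4) (nat_lit 292) (nat_lit 236) (nat_lit 192))))) (XT.nd (nat_lit 234) (nat_lit 0) (nat_lit 0) (XT.nd (nat_lit 78) (nat_lit 0) (nat_lit 0) (XT.lf (nat_lit 0) (nat_lit 5455390553) (nat_lit 76) (nat_lit 50322105978) (nat_lit 76) (nat_lit 37621140824) (nat_lit 1) (nat_lit 4) (nat_lit 2) (nat_lit 5) (nat_lit 2) (nat_lit 4) (nat_lit 293) (nat_lit 236) (nat_lit 191)) (XT.nd (nat_lit 78) (nat_lit 0) (nat_lit 0) (XT.lf (nat_lit 0) (nat_lit 11607711802) (nat_lit 76) (nat_lit 50859534169) (nat_lit 76) (nat_lit 38128142154) (nat_lit 1) (nat_lit 4) (nat_lit 2) (nat_lit 5) (nat_lit 2) (nat_lit 4) (nat_lit 294) (nat_lit 236) (nat_lit 190)) (XT.lf (nat_lit 0) (nat_lit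 18228126493) (nat_lit 76) (nat_lit 51450238602) (nat_lit 76) (nat_lit 38690673567) (nat_lit 1) (nat_lit 4) (nat_lit 2) (nat_lit 5) (nat_lit 2) (nat_lit 4) (nat_lit 295) (nat_lit 236) (nat_lit 189)))) (XT.nd (nat_lit 78) (nat_lit 0) (nat_lit 0) (XT.lf (nat_lit 0) (nat_lit 25355866713) (nat_lit 76) (nat_lit 52097719747) (nat_lit 76) (nat_lit 39312068582) (nat_lit 1) (nat_lit 4) (nat_lit 2) (nat_lit 5) (nat_lit 2) (nat_lit 4) (nat_lit 296) (nat_lit 236) (nat_lit 188)) (XT.nd (nat_lit 78) (nat_lit 0) (nat_lit 0) (XT.lf (nat_lit 0) (nat_lit 33033170923) (nat_lit 76) (nat_lit 52805814530) (nat_lit 76) (nat_lit 39996009542) (nat_lit 1) (nat_lit 4) (nat_lit 2) (nat_lit 5) (nat_lit 2) (nat_lit 4) (nat_lit 297) (nat_lit 236) (nat_lit 187)) (XT.lf (nat_lit 0) (nat_lit 41305534258) (nat_lit 76) (nat_lit 53578719069) (nat_lit 76) (nat_lit 40746549429) (nat_lit 1) (nat_lit 4) (nat_lit 2) (nat_lit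 5) (nat_lit 2) (nat_lit 4) (nat_lit 298) (nat_lit 236) (nat_lit 186))))))) (XT.nd (nat_lit 858) (nat_lit 0) (nat_lit 0) (XT.nd (nat_lit 390) (nat_lit 0) (nat_lit 0) (XT.nd (nat_lit 156) (nat_lit 0) (nat_lit 0) (XT.nd (nat_lit 78) (nat_lit 0) (nat_lit 0) (XT.lf (nat_lit 0) (nat_lit 50221978131) (nat_lit 76) (nat_lit 54421013537) (nat_lit 76) (nat_lit 41568135886) (nat_lit 1) (nat_lit 4) (nat_lit 2) (nat_lit 5) (nat_lit 2) (nat_lit 4) (nat_lit 299) (nat_lit 236) (nat_lit 185)) (XT.lf (nat_lit 0) (nat_lit 59835340727) (nat_lit 76) (nat_lit 55337689310) (nat_lit 76) (nat_lit 42465637576) (nat_lit 1) (nat_lit 4) (nat_lit 2) (nat_lit 5) (nat_lit 2) (nat_lit 4) (nat_lit 300) (nat_lit 236) (nat_lit 184))) (XT.nd (nat_lit 78) (nat_lit 0) (nat_lit 0) (XT.lf (nat_lit 0) (nat_lit 70202590122) (nat_lit 76) (nat_lit 56334178541) (nat_lit 76) (nat_lit 43444373025) (nat_lit 1) (nat_lit 4) (nat_lit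 2) (nat_lit 5) (nat_lit 2) (nat_lit 4) (nat_lit 301) (nat_lit 236) (nat_lit 183)) (XT.nd (nat_lit 78) (nat_lit 0) (nat_lit 0) (XT.lf (nat_lit 0) (nat_lit 81385161868) (nat_lit 76) (nat_lit 57416386351) (nat_lit 76) (nat_lit 44510142148) (nat_lit 1) (nat_lit 4) (nat_lit 2) (nat_lit 5) (nat_lit 2) (nat_lit 4) (nat_lit 302) (nat_lit 236) (nat_lit 182)) (XT.lf (nat_lit 0) (nat_lit 93449323055) (nat_lit 76) (nat_lit 58590725822) (nat_lit 76) (nat_lit 45669260614) (nat_lit 1) (nat_lit 4) (nat_lit 2) (nat_lit 5) (nat_lit 2) (nat_lit 4) (nat_lit 303) (nat_lit 236) (nat_lit 181))))) (XT.nd (nat_lit 234) (nat_lit 0) (nat_lit 0) (XT.nd (nat_lit 78) (nat_lit 0) (nat_lit 0) (XT.lf (nat_lit 0) (nat_lit 106466565010) (nat_lit 76) (nat_lit 59864156005) (nat_lit 76) (nat_lit 46928597272) (nat_lit 1) (nat_lit 4) (nat_lit 2) (nat_lit 5) (nat_lit 2) (nat_lit 4) (nat_lit 304) (nat_lit 236) (nat_lit 180))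 (XT.nd (nat_lit 78) (nat_lit 0) (nat_lit 0) (XT.lf (nat_lit 0) (nat_lit 120514026945) (nat_lit 76) (nat_lit 61244223152) (nat_lit 76) (nat_lit 48295614859) (nat_lit 1) (nat_lit 4) (nat_lit 2) (nat_lit 5) (nat_lit 2) (nat_lit 4) (nat_lit 305) (nat_lit 236) (nat_lit 179)) (XT.lf (nat_lit 0) (nat_lit 135674953078) (nat_lit 76) (nat_lit 62739105438) (nat_lit 76) (nat_lit 49778414220) (nat_lit 1) (nat_lit 4) (nat_lit 2) (nat_lit 5) (nat_lit 2) (nat_lit 4) (nat_lit 306) (nat_lit 236) (nat_lit 178)))) (XT.nd (nat_lit 78) (nat_lit 0) (nat_lit 0) (XT.lf (nat_lit 0) (nat_lit 152039185934) (nat_lit 76) (nat_lit 64357661425) (nat_lit 76) (nat_lit 51385782313) (nat_lit 1) (nat_lit 4) (nat_lit 2) (nat_lit 5) (nat_lit 2) (nat_lit 4) (nat_lit 307) (nat_lit 236) (nat_lit 177)) (XT.nd (nat_lit 78) (nat_lit 0) (nat_lit 0) (XT.lf (nat_lit 0) (nat_lit 169703698746) (nat_lit 76) (nat_lit 66109482556) (nat_lit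 76) (nat_lit 53127244284) (nat_lit 1) (nat_lit 4) (nat_lit 2) (nat_lit 5) (nat_lit 2) (nat_lit 4) (nat_lit 308) (nat_lit 236) (nat_lit 176)) (XT.lf (nat_lit 0) (nat_lit 188773170107) (nat_lit 76) (nat_lit 68004949994) (nat_lit 76) (nat_lit 55013119906) (nat_lit 1) (nat_lit 4) (nat_lit 2) (nat_lit 5) (nat_lit 2) (nat_lit 4) (nat_lit 309) (nat_lit 236) (nat_lit 175)))))) (XT.nd (nat_lit 390) (nat_lit 0) (nat_lit 0) (XT.nd (nat_lit 156) (nat_lit 0) (nat_lit 0) (XT.nd (nat_lit 78) (nat_lit 0) (nat_lit 0) (XT.lf (nat_lit 0) (nat_lit 209360604292) (nat_lit 76) (nat_lit 70055296138) (nat_lit 76) (nat_lit 57054584739) (nat_lit 1) (nat_lit 4) (nat_lit 2) (nat_lit 5) (nat_lit 2) (nat_lit 4) (nat_lit 310) (nat_lit 236) (nat_lit 174)) (XT.lf (nat_lit 0) (nat_lit 231588000912) (nat_lit 76) (nat_lit 72272671187) (nat_lit 76) (nat_lit 59263736352) (nat_lit 1) (nat_lit 4) (nat_lit 2) (nat_lit 5)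 (nat_lit 2) (nat_lit 4) (nat_lit 311) (nat_lit 236) (nat_lit 173))) (XT.nd (nat_lit 78) (nat_lit 0) (nat_lit 0) (XT.lf (nat_lit 0) (nat_lit 255587077872) (nat_lit 76) (nat_lit 74670215142) (nat_lit 76) (nat_lit 61653666014) (nat_lit 1) (nat_lit 4) (nat_lit 2) (nat_lit 5) (nat_lit 2) (nat_lit 4) (nat_lit 312) (nat_lit 236) (nat_lit 172)) (XT.nd (nat_lit 78) (nat_lit 0) (nat_lit 0) (XT.lf (nat_lit 0) (nat_lit 281500051925) (nat_lit 76) (nat_lit 77262135670) (nat_lit 76) (nat_lit 64238536271) (nat_lit 1) (nat_lit 4) (nat_lit 2) (nat_lit 5) (nat_lit 2) (nat_lit 4) (nat_lit 313) (nat_lit 236) (nat_lit 171)) (XT.lf (nat_lit 0) (nat_lit 309480481435) (nat_lit 76) (nat_lit 80063792301) (nat_lit 76) (nat_lit 67033664873) (nat_lit 1) (nat_lit 4) (nat_lit 2) (nat_lit 5) (nat_lit 2) (nat_lit 4) (nat_lit 314) (nat_lit 236) (nat_lit 170))))) (XT.nd (nat_lit 234) (nat_lit 0) (nat_lit 0) (XT.nd (nat_lit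 78) (nat_lit 0) (nat_lit 0) (XT.lf (nat_lit 0) (nat_lit 339694176355) (nat_lit 76) (nat_lit 83091787444) (nat_lit 76) (nat_lit 70055615546) (nat_lit 1) (nat_lit 4) (nat_lit 2) (nat_lit 5) (nat_lit 2) (nat_lit 4) (nat_lit 315) (nat_lit 236) (nat_lit 169)) (XT.nd (nat_lit 78) (nat_lit 0) (nat_lit 0) (XT.lf (nat_lit 0) (nat_lit 372320180803) (nat_lit 76) (nat_lit 86364064774) (nat_lit 76) (nat_lit 73322296144) (nat_lit 1) (nat_lit 4) (nat_lit 2) (nat_lit 5) (nat_lit 2) (nat_lit 4) (nat_lit 316) (nat_lit 236) (nat_lit 168)) (XT.lf (nat_lit 0) (nat_lit 407551834065) (nat_lit 76) (nat_lit 89900015565) (nat_lit 76) (nat_lit 76853064774) (nat_lit 1) (nat_lit 4) (nat_lit 2) (nat_lit 5) (nat_lit 2) (nat_lit 4) (nat_lit 317) (nat_lit 236) (nat_lit 167)))) (XT.nd (nat_lit 78) (nat_lit 0) (nat_lit 0) (XT.lf (nat_lit 0) (nat_lit 445597916307) (nat_lit 76) (nat_lit 93720593598) (nat_lit 76) (nat_lit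 80668844512) (nat_lit 1) (nat_lit 4) (nat_lit 2) (nat_lit 5) (nat_lit 2) (nat_lit 4) (nat_lit 318) (nat_lit 236) (nat_lit 166)) (XT.nd (nat_lit 78) (nat_lit 0) (nat_lit 0) (XT.lf (nat_lit 0) (nat_lit 486683885797) (nat_lit 76) (nat_lit 97848439336) (nat_lit 76) (nat_lit 84792247384) (nat_lit 1) (nat_lit 4) (nat_lit 2) (nat_lit 5) (nat_lit 2) (nat_lit 4) (nat_lit 319) (nat_lit 236) (nat_lit 165)) (XT.lf (nat_lit 0) (nat_lit 531053214944) (nat_lit 76) (nat_lit 102308014088) (nat_lit 76) (nat_lit 89247708370) (nat_lit 1) (nat_lit 4) (nat_lit 2) (nat_lit 5) (nat_lit 2) (nat_lit 4) (nat_lit 320) (nat_lit 236) (nat_lit 164))))))))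
noncomputable def xc43 : XT := (XT.nd (nat_lit 32448) (nat_lit 0) (nat_lit 228) (XT.nd (nat_lit 858) (nat_lit 0) (nat_lit 0) (XT.nd (nat_lit 390) (nat_lit 0) (nat_lit 0) (XT.nd (nat_lit 156) (nat_lit 0) (nat_lit 0) (XT.nd (nat_lit 78) (nat_lit 0) (nat_lit 0) (XT.lf (nat_lit 0) (nat_lit 578968833107) (nat_lit 76) (nat_lit 107125744962) (nat_lit 76) (nat_lit 94061630202) (nat_lit 1) (nat_lit 4) (nat_lit 2) (nat_lit 5) (nat_lit 2) (nat_lit 4) (nat_lit 321) (nat_lit 236) (nat_lit 163)) (XT.lf (nat_lit 0) (nat_lit 630714684690) (nat_lit 76) (nat_lit 112330181476) (nat_lit 76) (nat_lit 99262539825) (nat_lit 1) (nat_lit 4) (nat_lit 2) (nat_lit 5) (nat_lit 2) (nat_lit 4) (nat_lit 322) (nat_lit 236) (nat_lit 162))) (XT.nd (nat_lit 78) (nat_lit 0) (nat_lit 0) (XT.lf (nat_lit 0) (nat_lit 686597411777) (nat_lit 76) (nat_lit 117952164734) (nat_lit 76) (nat_lit 104881257443) (nat_lit 1) (nat_lit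 4) (nat_lit 2) (nat_lit 5) (nat_lit 2) (nat_lit 4) (nat_lit 323) (nat_lit 236) (nat_lit 161)) (XT.nd (nat_lit 78) (nat_lit 0) (nat_lit 0) (XT.lf (nat_lit 0) (nat_lit 746948171268) (nat_lit 76) (nat_lit 124025010192) (nat_lit 76) (nat_lit 110951079162) (nat_lit 1) (nat_lit 4) (nat_lit 2) (nat_lit 5) (nat_lit 2) (nat_lit 4) (nat_lit 324) (nat_lit 236) (nat_lit 160)) (XT.lf (nat_lit 0) (nat_lit 812124597294) (nat_lit 76) (nat_lit 130584705084) (nat_lit 76) (nat_lit 117507974294) (nat_lit 1) (nat_lit 4) (nat_lit 2) (nat_lit 5) (nat_lit 2) (nat_lit 4) (nat_lit 325) (nat_lit 236) (nat_lit 159))))) (XT.nd (nat_lit 234) (nat_lit 0) (nat_lit 0) (XT.nd (nat_lit 78) (nat_lit 0) (nat_lit 0) (XT.lf (nat_lit 0) (nat_lit 882512920528) (nat_lit 76) (nat_lit 137670121675) (nat_lit 76) (nat_lit 124590798515) (nat_lit 1) (nat_lit 4) (nat_lit 2) (nat_lit 5) (nat_lit 2) (nat_lit 4) (nat_lit 326) (nat_lit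 236) (nat_lit 158)) (XT.nd (nat_lit 78) (nat_lit 0) (nat_lit 0) (XT.lf (nat_lit 0) (nat_lit 958530256958) (nat_lit 76) (nat_lit 145323247619) (nat_lit 76) (nat_lit 132241524116) (nat_lit 1) (nat_lit 4) (nat_lit 2) (nat_lit 5) (nat_lit 2) (nat_lit 4) (nat_lit 327) (nat_lit 236) (nat_lit 157)) (XT.lf (nat_lit 0) (nat_lit 1040627079691) (nat_lit 76) (nat_lit 153589434773) (nat_lit 76) (nat_lit 140505488731) (nat_lit 1) (nat_lit 4) (nat_lit 2) (nat_lit 5) (nat_lit 2) (nat_lit 4) (nat_lit 328) (nat_lit 236) (nat_lit 156)))) (XT.nd (nat_lit 78) (nat_lit 0) (nat_lit 0) (XT.lf (nat_lit 0) (nat_lit 1129289888417) (nat_lit 76) (nat_lit 162517667951) (nat_lit 76) (nat_lit 149431664002) (nat_lit 1) (nat_lit 4) (nat_lit 2) (nat_lit 5) (nat_lit 2) (nat_lit 4) (nat_lit 329) (nat_lit 236) (nat_lit 155)) (XT.nd (nat_lit 78) (nat_lit 0) (nat_lit 0) (XT.lf (nat_lit 0) (nat_lit 1225044092371) (nat_lit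 76) (nat_lit 172160855200) (nat_lit 76) (nat_lit 159072945782) (nat_lit 1) (nat_lit 4) (nat_lit 2) (nat_lit 5) (nat_lit 2) (nat_lit 4) (nat_lit 330) (nat_lit 236) (nat_lit 154)) (XT.lf (nat_lit 0) (nat_lit 1328457123874) (nat_lit 76) (nat_lit 182576141334) (nat_lit 76) (nat_lit 169486467592) (nat_lit 1) (nat_lit 4) (nat_lit 2) (nat_lit 5) (nat_lit 2) (nat_lit 4) (nat_lit 331) (nat_lit 236) (nat_lit 153)))))) (XT.nd (nat_lit 31122) (nat_lit 0) (nat_lit 1444) (XT.nd (nat_lit 30888) (nat_lit 0) (nat_lit 2584) (XT.nd (nat_lit 30810) (nat_lit 0) (nat_lit 3192) (XT.lf (nat_lit 0) (nat_lit 1440141800891) (nat_lit 76) (nat_lit 193825246567) (nat_lit 76) (nat_lit 180733939193) (nat_lit 1) (nat_lit 4) (nat_lit 2) (nat_lit 5) (nat_lit 2) (nat_lit 4) (nat_lit 332) (nat_lit 236) (nat_lit 152)) (XT.lf (nat_lit 0) (nat_lit 1393882592) (nat_lit 228) (nat_lit 580130958) (nat_lit 0) (nat_lit 1393882592)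 (nat_lit 43) (nat_lit 5) (nat_lit 46) (nat_lit 4) (nat_lit 43) (nat_lit 4) (nat_lit 246) (nat_lit 237) (nat_lit 237))) (XT.nd (nat_lit 78) (nat_lit 380) (nat_lit 0) (XT.lf (nat_lit 0) (nat_lit 2469313351) (nat_lit 228) (nat_lit 3088715892) (nat_lit 228) (nat_lit 1291020110) (nat_lit 40) (nat_lit 4) (nat_lit 43) (nat_lit 5) (nat_lit 43) (nat_lit 4) (nat_lit 247) (nat_lit 237) (nat_lit 236)) (XT.nd (nat_lit 78) (nat_lit 304) (nat_lit 0) (XT.lf (nat_lit 0) (nat_lit 1302916638) (nat_lit 304) (nat_lit 752162305) (nat_lit 76) (nat_lit 4931986623) (nat_lit 39) (nat_lit 5) (nat_lit 43) (nat_lit 5) (nat_lit 40) (nat_lit 4) (nat_lit 248) (nat_lit 237) (nat_lit 235)) (XT.lf (nat_lit 0) (nat_lit 3102287269) (nat_lit 304) (nat_lit 794708194) (nat_lit 380) (nat_lit 3250234985) (nat_lit 35) (nat_lit 5) (nat_lit 39) (nat_lit 5) (nat_lit 40) (nat_lit 4) (nat_lit 249) (nat_lit 237) (nat_lit 234)))))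 (XT.nd (nat_lit 234) (nat_lit 304) (nat_lit 0) (XT.nd (nat_lit 78) (nat_lit 836) (nat_lit 0) (XT.lf (nat_lit 0) (nat_lit 6532968961) (nat_lit 380) (nat_lit 224291720) (nat_lit 0) (nat_lit 578772509) (nat_lit 35) (nat_lit 5) (nat_lit 40) (nat_lit 4) (nat_lit 35) (nat_lit 4) (nat_lit 250) (nat_lit 237) (nat_lit 233)) (XT.nd (nat_lit 78) (nat_lit 380) (nat_lit 0) (XT.lf (nat_lit 0) (nat_lit 1672441096) (nat_lit 456) (nat_lit 3699000514) (nat_lit 76) (nat_lit 2173197582) (nat_lit 29) (nat_lit 5) (nat_lit 35) (nat_lit 5) (nat_lit 30) (nat_lit 4) (nat_lit 251) (nat_lit 237) (nat_lit 232)) (XT.lf (nat_lit 0) (nat_lit 286111893) (nat_lit 380) (nat_lit 3846889630) (nat_lit 456) (nat_lit 3650874801) (nat_lit 24) (nat_lit 5) (nat_lit 29) (nat_lit 5) (nat_lit 30) (nat_lit 4) (nat_lit 252) (nat_lit 237) (nat_lit 231)))) (XT.nd (nat_lit 78) (nat_lit 304) (nat_lit 0) (XT.lf (nat_lit 0) (nat_lit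 4613592257) (nat_lit 380) (nat_lit 2104225894) (nat_lit 456) (nat_lit 1332133434) (nat_lit 24) (nat_lit 5) (nat_lit 29) (nat_lit 5) (nat_lit 30) (nat_lit 4) (nat_lit 253) (nat_lit 237) (nat_lit 230)) (XT.nd (nat_lit 78) (nat_lit 0) (nat_lit 0) (XT.lf (nat_lit 0) (nat_lit 777282587) (nat_lit 228) (nat_lit 188185099) (nat_lit 304) (nat_lit 7383052669) (nat_lit 20) (nat_lit 5) (nat_lit 23) (nat_lit 5) (nat_lit 24) (nat_lit 5) (nat_lit 254) (nat_lit 237) (nat_lit 229)) (XT.lf (nat_lit 0) (nat_lit 3357412316) (nat_lit 304) (nat_lit 3414734281) (nat_lit 76) (nat_lit 1898961526) (nat_lit 20) (nat_lit 5) (nat_lit 24) (nat_lit 5) (nat_lit 21) (nat_lit 4) (nat_lit 255) (nat_lit 237) (nat_lit 228))))))) (XT.nd (nat_lit 858) (nat_lit 380) (nat_lit 0) (XT.nd (nat_lit 390) (nat_lit 456) (nat_lit 0) (XT.nd (nat_lit 156) (nat_lit 228) (nat_lit 0) (XT.nd (nat_lit 78) (nat_lit 0) (nat_lit 0) (XT.lf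 (nat_lit 0) (nat_lit 938148122) (nat_lit 152) (nat_lit 4882669632) (nat_lit 228) (nat_lit 3209667468) (nat_lit 18) (nat_lit 5) (nat_lit 20) (nat_lit 5) (nat_lit 21) (nat_lit 4) (nat_lit 256) (nat_lit 237) (nat_lit 227)) (XT.lf (nat_lit 0) (nat_lit 5659787650) (nat_lit 152) (nat_lit 2774265324) (nat_lit 228) (nat_lit 989626637) (nat_lit 18) (nat_lit 5) (nat_lit 20) (nat_lit 5) (nat_lit 21) (nat_lit 4) (nat_lit 257) (nat_lit 237) (nat_lit 226))) (XT.nd (nat_lit 78) (nat_lit 0) (nat_lit 0) (XT.lf (nat_lit 0) (nat_lit 745240675) (nat_lit 152) (nat_lit 475558643) (nat_lit 228) (nat_lit 8635267879) (nat_lit 15) (nat_lit 5) (nat_lit 17) (nat_lit 5) (nat_lit 18) (nat_lit 5) (nat_lit 258) (nat_lit 237) (nat_lit 225)) (XT.nd (nat_lit 78) (nat_lit 0) (nat_lit 0) (XT.lf (nat_lit 0) (nat_lit 3578891214) (nat_lit 228) (nat_lit 4737477499) (nat_lit 76) (nat_lit 2003699145) (nat_lit 15) (nat_lit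 5) (nat_lit 18) (nat_lit 5) (nat_lit 16) (nat_lit 4) (nat_lit 259) (nat_lit 237) (nat_lit 224)) (XT.lf (nat_lit 0) (nat_lit 6018022848) (nat_lit 228) (nat_lit 188813962) (nat_lit 76) (nat_lit 4623906876) (nat_lit 15) (nat_lit 5) (nat_lit 18) (nat_lit 5) (nat_lit 16) (nat_lit 4) (nat_lit 260) (nat_lit 237) (nat_lit 223))))) (XT.nd (nat_lit 234) (nat_lit 76) (nat_lit 0) (XT.nd (nat_lit 78) (nat_lit 228) (nat_lit 0) (XT.lf (nat_lit 0) (nat_lit 4814391697) (nat_lit 152) (nat_lit 3842605677) (nat_lit 228) (nat_lit 2725775611) (nat_lit 13) (nat_lit 5) (nat_lit 15) (nat_lit 5) (nat_lit 16) (nat_lit 4) (nat_lit 261) (nat_lit 237) (nat_lit 222)) (XT.nd (nat_lit 78) (nat_lit 228) (nat_lit 0) (XT.lf (nat_lit 0) (nat_lit 10082207683) (nat_lit 152) (nat_lit 1323677965) (nat_lit 228) (nat_lit 581986793) (nat_lit 13) (nat_lit 5) (nat_lit 15) (nat_lit 5) (nat_lit 16) (nat_lit 4) (nat_lit 262) (nat_lit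 237) (nat_lit 221)) (XT.lf (nat_lit 0) (nat_lit 1655095445) (nat_lit 228) (nat_lit 9574607276) (nat_lit 76) (nat_lit 1408358179) (nat_lit 10) (nat_lit 5) (nat_lit 13) (nat_lit 5) (nat_lit 11) (nat_lit 4) (nat_lit 263) (nat_lit 237) (nat_lit 220)))) (XT.nd (nat_lit 78) (nat_lit 76) (nat_lit 0) (XT.lf (nat_lit 0) (nat_lit 4029026412) (nat_lit 228) (nat_lit 4993953464) (nat_lit 76) (nat_lit 4317573447) (nat_lit 10) (nat_lit 5) (nat_lit 13) (nat_lit 5) (nat_lit 11) (nat_lit 4) (nat_lit 264) (nat_lit 237) (nat_lit 219)) (XT.nd (nat_lit 78) (nat_lit 76) (nat_lit 0) (XT.lf (nat_lit 0) (nat_lit 6501654910) (nat_lit 228) (nat_lit 181555262) (nat_lit 76) (nat_lit 7423928784) (nat_lit 10) (nat_lit 5) (nat_lit 13) (nat_lit 5) (nat_lit 11) (nat_lit 4) (nat_lit 265) (nat_lit 237) (nat_lit 218)) (XT.lf (nat_lit 0) (nat_lit 5148662180) (nat_lit 76) (nat_lit 4062796821) (nat_lit 152) (nat_lit 5720995489)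 (nat_lit 9) (nat_lit 5) (nat_lit 10) (nat_lit 5) (nat_lit 11) (nat_lit 4) (nat_lit 266) (nat_lit 237) (nat_lit 217)))))) (XT.nd (nat_lit 390) (nat_lit 152) (nat_lit 0) (XT.nd (nat_lit 156) (nat_lit 228) (nat_lit 0) (XT.nd (nat_lit 78) (nat_lit 0) (nat_lit 0) (XT.lf (nat_lit 0) (nat_lit 10794050388) (nat_lit 76) (nat_lit 1267833441) (nat_lit 152) (nat_lit 3768515894) (nat_lit 9) (nat_lit 5) (nat_lit 10) (nat_lit 5) (nat_lit 11) (nat_lit 4) (nat_lit 267) (nat_lit 237) (nat_lit 216)) (XT.lf (nat_lit 0) (nat_lit 15106428856) (nat_lit 152) (nat_lit 69364776) (nat_lit 0) (nat_lit 1627573532) (nat_lit 9) (nat_lit 5) (nat_lit 11) (nat_lit 4) (nat_lit 9) (nat_lit 4) (nat_lit 268) (nat_lit 237) (nat_lit 215))) (XT.nd (nat_lit 78) (nat_lit 0) (nat_lit 0) (XT.lf (nat_lit 0) (nat_lit 608322850) (nat_lit 228) (nat_lit 12438591609) (nat_lit 76) (nat_lit 4799024727) (nat_lit 6) (nat_lit 5) (nat_lit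 9) (nat_lit 5) (nat_lit 7) (nat_lit 4) (nat_lit 269) (nat_lit 237) (nat_lit 214)) (XT.nd (nat_lit 78) (nat_lit 0) (nat_lit 0) (XT.lf (nat_lit 0) (nat_lit 2938388632) (nat_lit 228) (nat_lit 7800432390) (nat_lit 76) (nat_lit 8235380714) (nat_lit 6) (nat_lit 5) (nat_lit 9) (nat_lit 5) (nat_lit 7) (nat_lit 4) (nat_lit 270) (nat_lit 237) (nat_lit 213)) (XT.lf (nat_lit 0) (nat_lit 5390152877) (nat_lit 228) (nat_lit 2893704989) (nat_lit 76) (nat_lit 11914391997) (nat_lit 6) (nat_lit 5) (nat_lit 9) (nat_lit 5) (nat_lit 7) (nat_lit 4) (nat_lit 271) (nat_lit 237) (nat_lit 212))))) (XT.nd (nat_lit 234) (nat_lit 76) (nat_lit 0) (XT.nd (nat_lit 78) (nat_lit 0) (nat_lit 0) (XT.lf (nat_lit 0) (nat_lit 2432343151) (nat_lit 76) (nat_lit 5604299318) (nat_lit 152) (nat_lit 13484014881) (nat_lit 5) (nat_lit 5) (nat_lit 6) (nat_lit 5) (nat_lit 7) (nat_lit 4) (nat_lit 272) (nat_lit 237) (nat_lit 211))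 (XT.nd (nat_lit 78) (nat_lit 0) (nat_lit 0) (XT.lf (nat_lit 0) (nat_lit 8256551961) (nat_lit 76) (nat_lit 2659718235) (nat_lit 152) (nat_lit 12031172102) (nat_lit 5) (nat_lit 5) (nat_lit 6) (nat_lit 5) (nat_lit 7) (nat_lit 4) (nat_lit 273) (nat_lit 237) (nat_lit 210)) (XT.lf (nat_lit 0) (nat_lit 13984583765) (nat_lit 152) (nat_lit 10043604104) (nat_lit 0) (nat_lit 463793199) (nat_lit 5) (nat_lit 5) (nat_lit 7) (nat_lit 4) (nat_lit 5) (nat_lit 4) (nat_lit 274) (nat_lit 237) (nat_lit 209)))) (XT.nd (nat_lit 78) (nat_lit 76) (nat_lit 0) (XT.lf (nat_lit 0) (nat_lit 17317260161) (nat_lit 152) (nat_lit 5176410413) (nat_lit 0) (nat_lit 3665156357) (nat_lit 5) (nat_lit 5) (nat_lit 7) (nat_lit 4) (nat_lit 5) (nat_lit 4) (nat_lit 275) (nat_lit 237) (nat_lit 208)) (XT.nd (nat_lit 78) (nat_lit 0) (nat_lit 0) (XT.lf (nat_lit 0) (nat_lit 3683936) (nat_lit 76) (nat_lit 20866486953) (nat_lit 76)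 (nat_lit 7092796817) (nat_lit 4) (nat_lit 4) (nat_lit 5) (nat_lit 5) (nat_lit 5) (nat_lit 4) (nat_lit 276) (nat_lit 237) (nat_lit 207)) (XT.lf (nat_lit 0) (nat_lit 5817854496) (nat_lit 76) (nat_lit 18986168960) (nat_lit 76) (nat_lit 5099898887) (nat_lit 4) (nat_lit 4) (nat_lit 5) (nat_lit 5) (nat_lit 5) (nat_lit 4) (nat_lit 277) (nat_lit 237) (nat_lit 206))))))))
noncomputable def xc44 : XT := (XT.nd (nat_lit 1716) (nat_lit 0) (nat_lit 0) (XT.nd (nat_lit 858) (nat_lit 76) (nat_lit 0) (XT.nd (nat_lit 390) (nat_lit 76) (nat_lit 0) (XT.nd (nat_lit 156) (nat_lit 76) (nat_lit 0) (XT.nd (nat_lit 78) (nat_lit 0) (nat_lit 0) (XT.lf (nat_lit 0) (nat_lit 12027975012) (nat_lit 76) (nat_lit 16983106203) (nat_lit 76) (nat_lit 2992595447) (nat_lit 4) (nat_lit 4) (nat_lit 5) (nat_lit 5) (nat_lit 5) (nat_lit 4) (nat_lit 278) (nat_lit 237) (nat_lit 205)) (XT.lf (nat_lit 0) (nat_lit 18670846198) (nat_lit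 76) (nat_lit 14845428681) (nat_lit 76) (nat_lit 758398774) (nat_lit 4) (nat_lit 4) (nat_lit 5) (nat_lit 5) (nat_lit 5) (nat_lit 4) (nat_lit 279) (nat_lit 237) (nat_lit 204))) (XT.nd (nat_lit 78) (nat_lit 0) (nat_lit 0) (XT.lf (nat_lit 0) (nat_lit 1535095411) (nat_lit 152) (nat_lit 10983401035) (nat_lit 76) (nat_lit 24208765576) (nat_lit 3) (nat_lit 5) (nat_lit 5) (nat_lit 5) (nat_lit 4) (nat_lit 4) (nat_lit 280) (nat_lit 237) (nat_lit 203)) (XT.nd (nat_lit 78) (nat_lit 0) (nat_lit 0) (XT.lf (nat_lit 0) (nat_lit 3937140577) (nat_lit 152) (nat_lit 6069896703) (nat_lit 76) (nat_lit 29370309975) (nat_lit 3) (nat_lit 5) (nat_lit 5) (nat_lit 5) (nat_lit 4) (nat_lit 4) (nat_lit 281) (nat_lit 237) (nat_lit 202)) (XT.lf (nat_lit 0) (nat_lit 6499909244) (nat_lit 152) (nat_lit 815957889) (nat_lit 76) (nat_lit 34926225590) (nat_lit 3) (nat_lit 5) (nat_lit 5) (nat_lit 5) (nat_lit 4) (nat_lit 4)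 (nat_lit 282) (nat_lit 237) (nat_lit 201))))) (XT.nd (nat_lit 234) (nat_lit 0) (nat_lit 0) (XT.nd (nat_lit 78) (nat_lit 0) (nat_lit 0) (XT.lf (nat_lit 0) (nat_lit 5062812231) (nat_lit 76) (nat_lit 4297536714) (nat_lit 152) (nat_lit 35968384889) (nat_lit 2) (nat_lit 5) (nat_lit 3) (nat_lit 5) (nat_lit 4) (nat_lit 4) (nat_lit 283) (nat_lit 237) (nat_lit 200)) (XT.nd (nat_lit 78) (nat_lit 0) (nat_lit 0) (XT.lf (nat_lit 0) (nat_lit 11410776120) (nat_lit 76) (nat_lit 1033059941) (nat_lit 152) (nat_lit 36219051684) (nat_lit 2) (nat_lit 5) (nat_lit 3) (nat_lit 5) (nat_lit 4) (nat_lit 4) (nat_lit 284) (nat_lit 237) (nat_lit 199)) (XT.lf (nat_lit 0) (nat_lit 15807500099) (nat_lit 152) (nat_lit 34102894688) (nat_lit 0) (nat_lit 2350809058) (nat_lit 2) (nat_lit 5) (nat_lit 4) (nat_lit 4) (nat_lit 2) (nat_lit 4) (nat_lit 285) (nat_lit 237) (nat_lit 198)))) (XT.nd (nat_lit 78) (nat_lit 0) (nat_lit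 0) (XT.lf (nat_lit 0) (nat_lit 19442600602) (nat_lit 152) (nat_lit 30770935483) (nat_lit 0) (nat_lit 5933763267) (nat_lit 2) (nat_lit 5) (nat_lit 4) (nat_lit 4) (nat_lit 2) (nat_lit 4) (nat_lit 286) (nat_lit 237) (nat_lit 197)) (XT.nd (nat_lit 78) (nat_lit 0) (nat_lit 0) (XT.lf (nat_lit 0) (nat_lit 23345833790) (nat_lit 152) (nat_lit 27211643950) (nat_lit 0) (nat_lit 9788712850) (nat_lit 2) (nat_lit 5) (nat_lit 4) (nat_lit 4) (nat_lit 2) (nat_lit 4) (nat_lit 287) (nat_lit 237) (nat_lit 196)) (XT.lf (nat_lit 0) (nat_lit 27540329933) (nat_lit 152) (nat_lit 23403927992) (nat_lit 0) (nat_lit 13938501951) (nat_lit 2) (nat_lit 5) (nat_lit 4) (nat_lit 4) (nat_lit 2) (nat_lit 4) (nat_lit 288) (nat_lit 237) (nat_lit 195)))))) (XT.nd (nat_lit 390) (nat_lit 0) (nat_lit 0) (XT.nd (nat_lit 156) (nat_lit 76) (nat_lit 0) (XT.nd (nat_lit 78) (nat_lit 0) (nat_lit 0) (XT.lf (nat_lit 0) (nat_lit 32050945306)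 (nat_lit 152) (nat_lit 19325223365) (nat_lit 0) (nat_lit 18407721914) (nat_lit 2) (nat_lit 5) (nat_lit 4) (nat_lit 4) (nat_lit 2) (nat_lit 4) (nat_lit 289) (nat_lit 237) (nat_lit 194)) (XT.lf (nat_lit 0) (nat_lit 36904409479) (nat_lit 152) (nat_lit 14951359969) (nat_lit 0) (nat_lit 23222857005) (nat_lit 2) (nat_lit 5) (nat_lit 4) (nat_lit 4) (nat_lit 2) (nat_lit 4) (nat_lit 290) (nat_lit 237) (nat_lit 193))) (XT.nd (nat_lit 78) (nat_lit 76) (nat_lit 0) (XT.lf (nat_lit 0) (nat_lit 42129483723) (nat_lit 152) (nat_lit 10256418613) (nat_lit 0) (nat_lit 28412441357) (nat_lit 2) (nat_lit 5) (nat_lit 4) (nat_lit 4) (nat_lit 2) (nat_lit 4) (nat_lit 291) (nat_lit 237) (nat_lit 192)) (XT.nd (nat_lit 78) (nat_lit 76) (nat_lit 0) (XT.lf (nat_lit 0) (nat_lit 47757131441) (nat_lit 152) (nat_lit 5212577421) (nat_lit 0) (nat_lit 34007228065) (nat_lit 2) (nat_lit 5) (nat_lit 4) (nat_lit 4) (nat_lit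 2) (nat_lit 4) (nat_lit 292) (nat_lit 237) (nat_lit 191)) (XT.lf (nat_lit 0) (nat_lit 221114054) (nat_lit 76) (nat_lit 53604905399) (nat_lit 76) (nat_lit 39824575161) (nat_lit 1) (nat_lit 4) (nat_lit 2) (nat_lit 5) (nat_lit 2) (nat_lit 4) (nat_lit 293) (nat_lit 237) (nat_lit 190))))) (XT.nd (nat_lit 234) (nat_lit 0) (nat_lit 0) (XT.nd (nat_lit 78) (nat_lit 0) (nat_lit 0) (XT.lf (nat_lit 0) (nat_lit 6361852487) (nat_lit 76) (nat_lit 54147276853) (nat_lit 76) (nat_lit 40338773595) (nat_lit 1) (nat_lit 4) (nat_lit 2) (nat_lit 5) (nat_lit 2) (nat_lit 4) (nat_lit 294) (nat_lit 237) (nat_lit 189)) (XT.nd (nat_lit 78) (nat_lit 0) (nat_lit 0) (XT.lf (nat_lit 0) (nat_lit 12971542348) (nat_lit 76) (nat_lit 54742558381) (nat_lit 76) (nat_lit 40907968993) (nat_lit 1) (nat_lit 4) (nat_lit 2) (nat_lit 5) (nat_lit 2) (nat_lit 4) (nat_lit 295) (nat_lit 237) (nat_lit 188)) (XT.lf (nat_lit 0) (nat_lit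 20089352170) (nat_lit 76) (nat_lit 55394277577) (nat_lit 76) (nat_lit 41535534366) (nat_lit 1) (nat_lit 4) (nat_lit 2) (nat_lit 5) (nat_lit 2) (nat_lit 4) (nat_lit 296) (nat_lit 237) (nat_lit 187)))) (XT.nd (nat_lit 78) (nat_lit 0) (nat_lit 0) (XT.lf (nat_lit 0) (nat_lit 27757461567) (nat_lit 76) (nat_lit 56106296482) (nat_lit 76) (nat_lit 42225188619) (nat_lit 1) (nat_lit 4) (nat_lit 2) (nat_lit 5) (nat_lit 2) (nat_lit 4) (nat_lit 297) (nat_lit 237) (nat_lit 186)) (XT.nd (nat_lit 78) (nat_lit 0) (nat_lit 0) (XT.lf (nat_lit 0) (nat_lit 36021311186) (nat_lit 76) (nat_lit 56882834466) (nat_lit 76) (nat_lit 42981018592) (nat_lit 1) (nat_lit 4) (nat_lit 2) (nat_lit 5) (nat_lit 2) (nat_lit 4) (nat_lit 298) (nat_lit 237) (nat_lit 185)) (XT.lf (nat_lit 0) (nat_lit 44929871988) (nat_lit 76) (nat_lit 57728493236) (nat_lit 76) (nat_lit 43807503278) (nat_lit 1) (nat_lit 4) (nat_lit 2) (nat_lit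 5) (nat_lit 2) (nat_lit 4) (nat_lit 299) (nat_lit 237) (nat_lit 184))))))) (XT.nd (nat_lit 858) (nat_lit 0) (nat_lit 0) (XT.nd (nat_lit 390) (nat_lit 0) (nat_lit 0) (XT.nd (nat_lit 156) (nat_lit 0) (nat_lit 0) (XT.nd (nat_lit 78) (nat_lit 0) (nat_lit 0) (XT.lf (nat_lit 0) (nat_lit 54535935446) (nat_lit 76) (nat_lit 58648284103) (nat_lit 76) (nat_lit 44709540364) (nat_lit 1) (nat_lit 4) (nat_lit 2) (nat_lit 5) (nat_lit 2) (nat_lit 4) (nat_lit 300) (nat_lit 237) (nat_lit 183)) (XT.lf (nat_lit 0) (nat_lit 64896426379) (nat_lit 76) (nat_lit 59647657680) (nat_lit 76) (nat_lit 45692475255) (nat_lit 1) (nat_lit 4) (nat_lit 2) (nat_lit 5) (nat_lit 2) (nat_lit 4) (nat_lit 301) (nat_lit 237) (nat_lit 182))) (XT.nd (nat_lit 78) (nat_lit 0) (nat_lit 0) (XT.lf (nat_lit 0) (nat_lit 76072740289) (nat_lit 76) (nat_lit 60732536181) (nat_lit 76) (nat_lit 46762132749) (nat_lit 1) (nat_lit 4) (nat_lit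 2) (nat_lit 5) (nat_lit 2) (nat_lit 4) (nat_lit 302) (nat_lit 237) (nat_lit 181)) (XT.nd (nat_lit 78) (nat_lit 0) (nat_lit 0) (XT.lf (nat_lit 0) (nat_lit 88131107184) (nat_lit 76) (nat_lit 61909348515) (nat_lit 76) (nat_lit 47924851559) (nat_lit 1) (nat_lit 4) (nat_lit 2) (nat_lit 5) (nat_lit 2) (nat_lit 4) (nat_lit 303) (nat_lit 237) (nat_lit 180)) (XT.lf (nat_lit 0) (nat_lit 101142984054) (nat_lit 76) (nat_lit 63185068385) (nat_lit 76) (nat_lit 49187521870) (nat_lit 1) (nat_lit 4) (nat_lit 2) (nat_lit 5) (nat_lit 2) (nat_lit 4) (nat_lit 304) (nat_lit 237) (nat_lit 179))))) (XT.nd (nat_lit 234) (nat_lit 0) (nat_lit 0) (XT.nd (nat_lit 78) (nat_lit 0) (nat_lit 0) (XT.lf (nat_lit 0) (nat_lit 115185478318) (nat_lit 76) (nat_lit 64567255612) (nat_lit 76) (nat_lit 50557626171) (nat_lit 1) (nat_lit 4) (nat_lit 2) (nat_lit 5) (nat_lit 2) (nat_lit 4) (nat_lit 305) (nat_lit 237) (nat_lit 178))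 (XT.nd (nat_lit 78) (nat_lit 0) (nat_lit 0) (XT.lf (nat_lit 0) (nat_lit 130341804755) (nat_lit 76) (nat_lit 66064100936) (nat_lit 76) (nat_lit 52043283601) (nat_lit 1) (nat_lit 4) (nat_lit 2) (nat_lit 5) (nat_lit 2) (nat_lit 4) (nat_lit 306) (nat_lit 237) (nat_lit 177)) (XT.lf (nat_lit 0) (nat_lit 146701778633) (nat_lit 76) (nat_lit 67684474550) (nat_lit 76) (nat_lit 53653298055) (nat_lit 1) (nat_lit 4) (nat_lit 2) (nat_lit 5) (nat_lit 2) (nat_lit 4) (nat_lit 307) (nat_lit 237) (nat_lit 176)))) (XT.nd (nat_lit 78) (nat_lit 0) (nat_lit 0) (XT.lf (nat_lit 0) (nat_lit 164362347947) (nat_lit 76) (nat_lit 69437978670) (nat_lit 76) (nat_lit 55397210359) (nat_lit 1) (nat_lit 4) (nat_lit 2) (nat_lit 5) (nat_lit 2) (nat_lit 4) (nat_lit 308) (nat_lit 237) (nat_lit 175)) (XT.nd (nat_lit 78) (nat_lit 0) (nat_lit 0) (XT.lf (nat_lit 0) (nat_lit 183428167922) (nat_lit 76) (nat_lit 71335004430) (nat_lit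 76) (nat_lit 57285354808) (nat_lit 1) (nat_lit 4) (nat_lit 2) (nat_lit 5) (nat_lit 2) (nat_lit 4) (nat_lit 309) (nat_lit 237) (nat_lit 174)) (XT.lf (nat_lit 0) (nat_lit 204012221193) (nat_lit 76) (nat_lit 73386793465) (nat_lit 76) (nat_lit 59328920407) (nat_lit 1) (nat_lit 4) (nat_lit 2) (nat_lit 5) (nat_lit 2) (nat_lit 4) (nat_lit 310) (nat_lit 237) (nat_lit 173)))))) (XT.nd (nat_lit 390) (nat_lit 0) (nat_lit 0) (XT.nd (nat_lit 156) (nat_lit 0) (nat_lit 0) (XT.nd (nat_lit 78) (nat_lit 0) (nat_lit 0) (XT.lf (nat_lit 0) (nat_lit 226236487337) (nat_lit 76) (nat_lit 75605504525) (nat_lit 76) (nat_lit 61540017174) (nat_lit 1) (nat_lit 4) (nat_lit 2) (nat_lit 5) (nat_lit 2) (nat_lit 4) (nat_lit 311) (nat_lit 237) (nat_lit 172)) (XT.lf (nat_lit 0) (nat_lit 250232665709) (nat_lit 76) (nat_lit 78004285526) (nat_lit 76) (nat_lit 63931747905) (nat_lit 1) (nat_lit 4) (nat_lit 2) (nat_lit 5)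 (nat_lit 2) (nat_lit 4) (nat_lit 312) (nat_lit 237) (nat_lit 171))) (XT.nd (nat_lit 78) (nat_lit 0) (nat_lit 0) (XT.lf (nat_lit 0) (nat_lit 276142955883) (nat_lit 76) (nat_lit 80597351468) (nat_lit 76) (nat_lit 66518285818) (nat_lit 1) (nat_lit 4) (nat_lit 2) (nat_lit 5) (nat_lit 2) (nat_lit 4) (nat_lit 313) (nat_lit 237) (nat_lit 170)) (XT.nd (nat_lit 78) (nat_lit 0) (nat_lit 0) (XT.lf (nat_lit 0) (nat_lit 304120900321) (nat_lit 76) (nat_lit 83400068667) (nat_lit 76) (nat_lit 69314958546) (nat_lit 1) (nat_lit 4) (nat_lit 2) (nat_lit 5) (nat_lit 2) (nat_lit 4) (nat_lit 314) (nat_lit 237) (nat_lit 169)) (XT.lf (nat_lit 0) (nat_lit 334332294248) (nat_lit 76) (nat_lit 86429045818) (nat_lit 76) (nat_lit 72338338965) (nat_lit 1) (nat_lit 4) (nat_lit 2) (nat_lit 5) (nat_lit 2) (nat_lit 4) (nat_lit 315) (nat_lit 237) (nat_lit 168))))) (XT.nd (nat_lit 234) (nat_lit 0) (nat_lit 0) (XT.nd (nat_lit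 78) (nat_lit 0) (nat_lit 0) (XT.lf (nat_lit 0) (nat_lit 366956168147) (nat_lit 76) (nat_lit 89702232414) (nat_lit 76) (nat_lit 75606343402) (nat_lit 1) (nat_lit 4) (nat_lit 2) (nat_lit 5) (nat_lit 2) (nat_lit 4) (nat_lit 316) (nat_lit 237) (nat_lit 167)) (XT.nd (nat_lit 78) (nat_lit 0) (nat_lit 0) (XT.lf (nat_lit 0) (nat_lit 402185848678) (nat_lit 76) (nat_lit 93239025118) (nat_lit 76) (nat_lit 79138337809) (nat_lit 1) (nat_lit 4) (nat_lit 2) (nat_lit 5) (nat_lit 2) (nat_lit 4) (nat_lit 317) (nat_lit 237) (nat_lit 166)) (XT.lf (nat_lit 0) (nat_lit 440230104318) (nat_lit 76) (nat_lit 97060382701) (nat_lit 76) (nat_lit 82955252525) (nat_lit 1) (nat_lit 4) (nat_lit 2) (nat_lit 5) (nat_lit 2) (nat_lit 4) (nat_lit 318) (nat_lit 237) (nat_lit 165)))) (XT.nd (nat_lit 78) (nat_lit 0) (nat_lit 0) (XT.lf (nat_lit 0) (nat_lit 481314382509) (nat_lit 76) (nat_lit 101188950244) (nat_lit 76) (nat_lit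 87079706303) (nat_lit 1) (nat_lit 4) (nat_lit 2) (nat_lit 5) (nat_lit 2) (nat_lit 4) (nat_lit 319) (nat_lit 237) (nat_lit 164)) (XT.nd (nat_lit 78) (nat_lit 0) (nat_lit 0) (XT.lf (nat_lit 0) (nat_lit 525682145639) (nat_lit 76) (nat_lit 105649193333) (nat_lit 76) (nat_lit 91536140351) (nat_lit 1) (nat_lit 4) (nat_lit 2) (nat_lit 5) (nat_lit 2) (nat_lit 4) (nat_lit 320) (nat_lit 237) (nat_lit 163)) (XT.lf (nat_lit 0) (nat_lit 573596313786) (nat_lit 76) (nat_lit 110467543039) (nat_lit 76) (nat_lit 96350963166) (nat_lit 1) (nat_lit 4) (nat_lit 2) (nat_lit 5) (nat_lit 2) (nat_lit 4) (nat_lit 321) (nat_lit 237) (nat_lit 162))))))))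
noncomputable def xc45 : XT := (XT.nd (nat_lit 32370) (nat_lit 0) (nat_lit 228) (XT.nd (nat_lit 31512) (nat_lit 0) (nat_lit 1444) (XT.nd (nat_lit 390) (nat_lit 0) (nat_lit 0) (XT.nd (nat_lit 156) (nat_lit 0) (nat_lit 0) (XT.nd (nat_lit 78) (nat_lit 0) (nat_lit 0) (XT.lf (nat_lit 0) (nat_lit 625340822762) (nat_lit 76) (nat_lit 115672552545) (nat_lit 76) (nat_lit 101552707032) (nat_lit 1) (nat_lit 4) (nat_lit 2) (nat_lit 5) (nat_lit 2) (nat_lit 4) (nat_lit 322) (nat_lit 237) (nat_lit 161)) (XT.lf (nat_lit 0) (nat_lit 681222306693) (nat_lit 76) (nat_lit 121295066351) (nat_lit 76) (nat_lit 107172197097) (nat_lit 1) (nat_lit 4) (nat_lit 2) (nat_lit 5) (nat_lit 2) (nat_lit 4) (nat_lit 323) (nat_lit 237) (nat_lit 160))) (XT.nd (nat_lit 78) (nat_lit 0) (nat_lit 0) (XT.lf (nat_lit 0) (nat_lit 741571915115) (nat_lit 76) (nat_lit 127368403058) (nat_lit 76) (nat_lit 113242734045) (nat_lit 1)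 (nat_lit 4) (nat_lit 2) (nat_lit 5) (nat_lit 2) (nat_lit 4) (nat_lit 324) (nat_lit 237) (nat_lit 159)) (XT.nd (nat_lit 78) (nat_lit 0) (nat_lit 0) (XT.lf (nat_lit 0) (nat_lit 806747275336) (nat_lit 76) (nat_lit 133928552809) (nat_lit 76) (nat_lit 119800291426) (nat_lit 1) (nat_lit 4) (nat_lit 2) (nat_lit 5) (nat_lit 2) (nat_lit 4) (nat_lit 325) (nat_lit 237) (nat_lit 158)) (XT.lf (nat_lit 0) (nat_lit 877134611713) (nat_lit 76) (nat_lit 141014390566) (nat_lit 76) (nat_lit 126883728840) (nat_lit 1) (nat_lit 4) (nat_lit 2) (nat_lit 5) (nat_lit 2) (nat_lit 4) (nat_lit 326) (nat_lit 237) (nat_lit 157))))) (XT.nd (nat_lit 234) (nat_lit 0) (nat_lit 0) (XT.nd (nat_lit 78) (nat_lit 0) (nat_lit 0) (XT.lf (nat_lit 0) (nat_lit 953151034388) (nat_lit 76) (nat_lit 148667906479) (nat_lit 76) (nat_lit 134535022214) (nat_lit 1) (nat_lit 4) (nat_lit 2) (nat_lit 5) (nat_lit 2) (nat_lit 4) (nat_lit 327)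 (nat_lit 237) (nat_lit 156)) (XT.nd (nat_lit 78) (nat_lit 0) (nat_lit 0) (XT.lf (nat_lit 0) (nat_lit 1035247011051) (nat_lit 76) (nat_lit 156934454715) (nat_lit 76) (nat_lit 142799512543) (nat_lit 1) (nat_lit 4) (nat_lit 2) (nat_lit 5) (nat_lit 2) (nat_lit 4) (nat_lit 328) (nat_lit 237) (nat_lit 155)) (XT.lf (nat_lit 0) (nat_lit 1123909036378) (nat_lit 76) (nat_lit 165863022228) (nat_lit 76) (nat_lit 151726174587) (nat_lit 1) (nat_lit 4) (nat_lit 2) (nat_lit 5) (nat_lit 2) (nat_lit 4) (nat_lit 329) (nat_lit 237) (nat_lit 154)))) (XT.nd (nat_lit 78) (nat_lit 0) (nat_lit 0) (XT.lf (nat_lit 0) (nat_lit 1219662514963) (nat_lit 76) (nat_lit 175506519047) (nat_lit 76) (nat_lit 161367907082) (nat_lit 1) (nat_lit 4) (nat_lit 2) (nat_lit 5) (nat_lit 2) (nat_lit 4) (nat_lit 330) (nat_lit 237) (nat_lit 153)) (XT.nd (nat_lit 30732) (nat_lit 0) (nat_lit 3420) (XT.lf (nat_lit 0) (nat_lit 1323074874828)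 (nat_lit 76) (nat_lit 185922091820) (nat_lit 76) (nat_lit 171781846222) (nat_lit 1) (nat_lit 4) (nat_lit 2) (nat_lit 5) (nat_lit 2) (nat_lit 4) (nat_lit 331) (nat_lit 237) (nat_lit 152)) (XT.lf (nat_lit 0) (nat_lit 2668315857) (nat_lit 76) (nat_lit 308489298) (nat_lit 76) (nat_lit 308489298) (nat_lit 46) (nat_lit 4) (nat_lit 47) (nat_lit 5) (nat_lit 47) (nat_lit 4) (nat_lit 244) (nat_lit 238) (nat_lit 238)))))) (XT.nd (nat_lit 390) (nat_lit 1140) (nat_lit 0) (XT.nd (nat_lit 156) (nat_lit 608) (nat_lit 0) (XT.nd (nat_lit 78) (nat_lit 0) (nat_lit 0) (XT.lf (nat_lit 0) (nat_lit 2003239925) (nat_lit 228) (nat_lit 4582077095) (nat_lit 0) (nat_lit 61728479) (nat_lit 43) (nat_lit 5) (nat_lit 46) (nat_lit 4) (nat_lit 43) (nat_lit 4) (nat_lit 245) (nat_lit 238) (nat_lit 237)) (XT.lf (nat_lit 0) (nat_lit 4617140751) (nat_lit 228) (nat_lit 1251372579) (nat_lit 0) (nat_lit 877933523) (nat_lit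 43) (nat_lit 5) (nat_lit 46) (nat_lit 4) (nat_lit 43) (nat_lit 4) (nat_lit 246) (nat_lit 238) (nat_lit 236))) (XT.nd (nat_lit 78) (nat_lit 304) (nat_lit 0) (XT.lf (nat_lit 0) (nat_lit 388738049) (nat_lit 304) (nat_lit 4595165216) (nat_lit 76) (nat_lit 1885234062) (nat_lit 39) (nat_lit 5) (nat_lit 43) (nat_lit 5) (nat_lit 40) (nat_lit 4) (nat_lit 247) (nat_lit 238) (nat_lit 235)) (XT.nd (nat_lit 78) (nat_lit 304) (nat_lit 0) (XT.lf (nat_lit 0) (nat_lit 2816057009) (nat_lit 304) (nat_lit 1087576161) (nat_lit 76) (nat_lit 3110535877) (nat_lit 39) (nat_lit 5) (nat_lit 43) (nat_lit 5) (nat_lit 40) (nat_lit 4) (nat_lit 248) (nat_lit 238) (nat_lit 234)) (XT.lf (nat_lit 0) (nat_lit 2662527070) (nat_lit 304) (nat_lit 2642554988) (nat_lit 380) (nat_lit 1878893738) (nat_lit 35) (nat_lit 5) (nat_lit 39) (nat_lit 5) (nat_lit 40) (nat_lit 4) (nat_lit 249) (nat_lit 238) (nat_lit 233))))) (XT.nd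 (nat_lit 234) (nat_lit 684) (nat_lit 0) (XT.nd (nat_lit 78) (nat_lit 380) (nat_lit 0) (XT.lf (nat_lit 0) (nat_lit 431996025) (nat_lit 380) (nat_lit 785643067) (nat_lit 76) (nat_lit 6163735371) (nat_lit 34) (nat_lit 5) (nat_lit 39) (nat_lit 5) (nat_lit 35) (nat_lit 5) (nat_lit 250) (nat_lit 238) (nat_lit 232)) (XT.nd (nat_lit 78) (nat_lit 0) (nat_lit 0) (XT.lf (nat_lit 0) (nat_lit 2735592957) (nat_lit 456) (nat_lit 4418193705) (nat_lit 76) (nat_lit 446169996) (nat_lit 29) (nat_lit 5) (nat_lit 35) (nat_lit 5) (nat_lit 30) (nat_lit 4) (nat_lit 251) (nat_lit 238) (nat_lit 231)) (XT.lf (nat_lit 0) (nat_lit 5107910289) (nat_lit 456) (nat_lit 532711877) (nat_lit 76) (nat_lit 2206540719) (nat_lit 29) (nat_lit 5) (nat_lit 35) (nat_lit 5) (nat_lit 30) (nat_lit 4) (nat_lit 252) (nat_lit 238) (nat_lit 230)))) (XT.nd (nat_lit 78) (nat_lit 304) (nat_lit 0) (XT.lf (nat_lit 0) (nat_lit 3683558670)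 (nat_lit 380) (nat_lit 3918346640) (nat_lit 456) (nat_lit 519440833) (nat_lit 24) (nat_lit 5) (nat_lit 29) (nat_lit 5) (nat_lit 30) (nat_lit 4) (nat_lit 253) (nat_lit 238) (nat_lit 229)) (XT.nd (nat_lit 78) (nat_lit 228) (nat_lit 0) (XT.lf (nat_lit 0) (nat_lit 1644604973) (nat_lit 456) (nat_lit 364201688) (nat_lit 76) (nat_lit 6417698828) (nat_lit 23) (nat_lit 5) (nat_lit 29) (nat_lit 5) (nat_lit 24) (nat_lit 5) (nat_lit 254) (nat_lit 238) (nat_lit 228)) (XT.lf (nat_lit 0) (nat_lit 3912464802) (nat_lit 304) (nat_lit 4695759150) (nat_lit 76) (nat_lit 151464709) (nat_lit 20) (nat_lit 5) (nat_lit 24) (nat_lit 5) (nat_lit 21) (nat_lit 4) (nat_lit 255) (nat_lit 238) (nat_lit 227))))))) (XT.nd (nat_lit 858) (nat_lit 380) (nat_lit 0) (XT.nd (nat_lit 390) (nat_lit 456) (nat_lit 0) (XT.nd (nat_lit 156) (nat_lit 228) (nat_lit 0) (XT.nd (nat_lit 78) (nat_lit 152) (nat_lit 0) (XT.lf (nat_lit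 0) (nat_lit 6287716066) (nat_lit 304) (nat_lit 469126250) (nat_lit 76) (nat_lit 2369894869) (nat_lit 20) (nat_lit 5) (nat_lit 24) (nat_lit 5) (nat_lit 21) (nat_lit 4) (nat_lit 256) (nat_lit 238) (nat_lit 226)) (XT.lf (nat_lit 0) (nat_lit 4150498473) (nat_lit 152) (nat_lit 4675983810) (nat_lit 228) (nat_lit 699980043) (nat_lit 18) (nat_lit 5) (nat_lit 20) (nat_lit 5) (nat_lit 21) (nat_lit 4) (nat_lit 257) (nat_lit 238) (nat_lit 225))) (XT.nd (nat_lit 78) (nat_lit 152) (nat_lit 0) (XT.lf (nat_lit 0) (nat_lit 1418068077) (nat_lit 228) (nat_lit 986310985) (nat_lit 76) (nat_lit 7560636109) (nat_lit 17) (nat_lit 5) (nat_lit 20) (nat_lit 5) (nat_lit 18) (nat_lit 5) (nat_lit 258) (nat_lit 238) (nat_lit 224)) (XT.nd (nat_lit 78) (nat_lit 0) (nat_lit 0) (XT.lf (nat_lit 0) (nat_lit 3646480354) (nat_lit 228) (nat_lit 6662856731) (nat_lit 76) (nat_lit 130508166) (nat_lit 15) (nat_lit 5) (nat_lit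 18) (nat_lit 5) (nat_lit 16) (nat_lit 4) (nat_lit 259) (nat_lit 238) (nat_lit 223)) (XT.lf (nat_lit 0) (nat_lit 6032211087) (nat_lit 228) (nat_lit 2186398161) (nat_lit 76) (nat_lit 2736605247) (nat_lit 15) (nat_lit 5) (nat_lit 18) (nat_lit 5) (nat_lit 16) (nat_lit 4) (nat_lit 260) (nat_lit 238) (nat_lit 222))))) (XT.nd (nat_lit 234) (nat_lit 76) (nat_lit 0) (XT.nd (nat_lit 78) (nat_lit 228) (nat_lit 0) (XT.lf (nat_lit 0) (nat_lit 2641241262) (nat_lit 152) (nat_lit 5928234752) (nat_lit 228) (nat_lit 2946294680) (nat_lit 13) (nat_lit 5) (nat_lit 15) (nat_lit 5) (nat_lit 16) (nat_lit 4) (nat_lit 261) (nat_lit 238) (nat_lit 221)) (XT.nd (nat_lit 78) (nat_lit 228) (nat_lit 0) (XT.lf (nat_lit 0) (nat_lit 7843893366) (nat_lit 152) (nat_lit 3427121063) (nat_lit 228) (nat_lit 854004943) (nat_lit 13) (nat_lit 5) (nat_lit 15) (nat_lit 5) (nat_lit 16) (nat_lit 4) (nat_lit 262) (nat_lit 238) (nat_lit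 220)) (XT.lf (nat_lit 0) (nat_lit 541947195) (nat_lit 152) (nat_lit 712215555) (nat_lit 228) (nat_lit 11533279904) (nat_lit 10) (nat_lit 5) (nat_lit 12) (nat_lit 5) (nat_lit 13) (nat_lit 5) (nat_lit 263) (nat_lit 238) (nat_lit 219)))) (XT.nd (nat_lit 78) (nat_lit 76) (nat_lit 0) (XT.lf (nat_lit 0) (nat_lit 3567110615) (nat_lit 228) (nat_lit 7712476267) (nat_lit 76) (nat_lit 2215513603) (nat_lit 10) (nat_lit 5) (nat_lit 13) (nat_lit 5) (nat_lit 11) (nat_lit 4) (nat_lit 264) (nat_lit 238) (nat_lit 218)) (XT.nd (nat_lit 78) (nat_lit 76) (nat_lit 0) (XT.lf (nat_lit 0) (nat_lit 5999133279) (nat_lit 228) (nat_lit 2960044194) (nat_lit 76) (nat_lit 5306022629) (nat_lit 10) (nat_lit 5) (nat_lit 13) (nat_lit 5) (nat_lit 11) (nat_lit 4) (nat_lit 265) (nat_lit 238) (nat_lit 217)) (XT.lf (nat_lit 0) (nat_lit 2165414945) (nat_lit 76) (nat_lit 6434177263) (nat_lit 152) (nat_lit 6499916891) (nat_lit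 9) (nat_lit 5) (nat_lit 10) (nat_lit 5) (nat_lit 11) (nat_lit 4) (nat_lit 266) (nat_lit 238) (nat_lit 216)))))) (XT.nd (nat_lit 390) (nat_lit 152) (nat_lit 0) (XT.nd (nat_lit 156) (nat_lit 228) (nat_lit 0) (XT.nd (nat_lit 78) (nat_lit 0) (nat_lit 0) (XT.lf (nat_lit 0) (nat_lit 7756684634) (nat_lit 76) (nat_lit 3657217892) (nat_lit 152) (nat_lit 4586668605) (nat_lit 9) (nat_lit 5) (nat_lit 10) (nat_lit 5) (nat_lit 11) (nat_lit 4) (nat_lit 267) (nat_lit 238) (nat_lit 215)) (XT.lf (nat_lit 0) (nat_lit 13691027640) (nat_lit 76) (nat_lit 692776158) (nat_lit 152) (nat_lit 2595917051) (nat_lit 9) (nat_lit 5) (nat_lit 10) (nat_lit 5) (nat_lit 11) (nat_lit 4) (nat_lit 268) (nat_lit 238) (nat_lit 214))) (XT.nd (nat_lit 78) (nat_lit 76) (nat_lit 0) (XT.lf (nat_lit 0) (nat_lit 2001403046) (nat_lit 152) (nat_lit 15633191241) (nat_lit 152) (nat_lit 399550429) (nat_lit 7) (nat_lit 4) (nat_lit 9)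 (nat_lit 5) (nat_lit 9) (nat_lit 4) (nat_lit 269) (nat_lit 238) (nat_lit 213)) (XT.nd (nat_lit 78) (nat_lit 0) (nat_lit 0) (XT.lf (nat_lit 0) (nat_lit 1919393445) (nat_lit 228) (nat_lit 11434244675) (nat_lit 76) (nat_lit 5812193927) (nat_lit 6) (nat_lit 5) (nat_lit 9) (nat_lit 5) (nat_lit 7) (nat_lit 4) (nat_lit 270) (nat_lit 238) (nat_lit 212)) (XT.lf (nat_lit 0) (nat_lit 4342353025) (nat_lit 228) (nat_lit 6573138960) (nat_lit 76) (nat_lit 9476847488) (nat_lit 6) (nat_lit 5) (nat_lit 9) (nat_lit 5) (nat_lit 7) (nat_lit 4) (nat_lit 271) (nat_lit 238) (nat_lit 211))))) (XT.nd (nat_lit 234) (nat_lit 76) (nat_lit 0) (XT.nd (nat_lit 78) (nat_lit 76) (nat_lit 0) (XT.lf (nat_lit 0) (nat_lit 6903673720) (nat_lit 228) (nat_lit 1411008776) (nat_lit 76) (nat_lit 13407021428) (nat_lit 6) (nat_lit 5) (nat_lit 9) (nat_lit 5) (nat_lit 7) (nat_lit 4) (nat_lit 272) (nat_lit 238) (nat_lit 210)) (XT.nd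 (nat_lit 78) (nat_lit 0) (nat_lit 0) (XT.lf (nat_lit 0) (nat_lit 4297725935) (nat_lit 76) (nat_lit 5424168205) (nat_lit 152) (nat_lit 13431640141) (nat_lit 5) (nat_lit 5) (nat_lit 6) (nat_lit 5) (nat_lit 7) (nat_lit 4) (nat_lit 273) (nat_lit 238) (nat_lit 209)) (XT.lf (nat_lit 0) (nat_lit 10464108832) (nat_lit 76) (nat_lit 2290574343) (nat_lit 152) (nat_lit 11946354823) (nat_lit 5) (nat_lit 5) (nat_lit 6) (nat_lit 5) (nat_lit 7) (nat_lit 4) (nat_lit 274) (nat_lit 238) (nat_lit 208)))) (XT.nd (nat_lit 78) (nat_lit 76) (nat_lit 0) (XT.lf (nat_lit 0) (nat_lit 16009930638) (nat_lit 152) (nat_lit 9351502455) (nat_lit 0) (nat_lit 1012758959) (nat_lit 5) (nat_lit 5) (nat_lit 7) (nat_lit 4) (nat_lit 5) (nat_lit 4) (nat_lit 275) (nat_lit 238) (nat_lit 207)) (XT.nd (nat_lit 78) (nat_lit 76) (nat_lit 0) (XT.lf (nat_lit 0) (nat_lit 19542067059) (nat_lit 152) (nat_lit 4205717712) (nat_lit 0) (nat_lit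 4432315443) (nat_lit 5) (nat_lit 5) (nat_lit 7) (nat_lit 4) (nat_lit 5) (nat_lit 4) (nat_lit 276) (nat_lit 238) (nat_lit 206)) (XT.lf (nat_lit 0) (nat_lit 1353725817) (nat_lit 76) (nat_lit 21995766571) (nat_lit 76) (nat_lit 6781774272) (nat_lit 4) (nat_lit 4) (nat_lit 5) (nat_lit 5) (nat_lit 5) (nat_lit 4) (nat_lit 277) (nat_lit 238) (nat_lit 205))))))))
noncomputable def xc46 : XT := (XT.nd (nat_lit 1716) (nat_lit 0) (nat_lit 0) (XT.nd (nat_lit 858) (nat_lit 76) (nat_lit 0) (XT.nd (nat_lit 390) (nat_lit 76) (nat_lit 0) (XT.nd (nat_lit 156) (nat_lit 76) (nat_lit 0) (XT.nd (nat_lit 78) (nat_lit 0) (nat_lit 0) (XT.lf (nat_lit 0) (nat_lit 7533048750) (nat_lit 76) (nat_lit 20005026052) (nat_lit 76) (nat_lit 4694514603) (nat_lit 4) (nat_lit 4) (nat_lit 5) (nat_lit 5) (nat_lit 5) (nat_lit 4) (nat_lit 278) (nat_lit 238) (nat_lit 204)) (XT.lf (nat_lit 0) (nat_lit 14147403656) (nat_lit 76)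 (nat_lit 17878758010) (nat_lit 76) (nat_lit 2478876976) (nat_lit 4) (nat_lit 4) (nat_lit 5) (nat_lit 5) (nat_lit 5) (nat_lit 4) (nat_lit 279) (nat_lit 238) (nat_lit 203))) (XT.nd (nat_lit 78) (nat_lit 76) (nat_lit 0) (XT.lf (nat_lit 0) (nat_lit 21235986711) (nat_lit 76) (nat_lit 15604362337) (nat_lit 76) (nat_lit 121731689) (nat_lit 4) (nat_lit 4) (nat_lit 5) (nat_lit 5) (nat_lit 5) (nat_lit 4) (nat_lit 280) (nat_lit 238) (nat_lit 202)) (XT.nd (nat_lit 78) (nat_lit 0) (nat_lit 0) (XT.lf (nat_lit 0) (nat_lit 2271287550) (nat_lit 152) (nat_lit 10834972556) (nat_lit 76) (nat_lit 26507415757) (nat_lit 3) (nat_lit 5) (nat_lit 5) (nat_lit 5) (nat_lit 4) (nat_lit 4) (nat_lit 281) (nat_lit 238) (nat_lit 201)) (XT.lf (nat_lit 0) (nat_lit 4820060441) (nat_lit 152) (nat_lit 5604469400) (nat_lit 76) (nat_lit 32055072675) (nat_lit 3) (nat_lit 5) (nat_lit 5) (nat_lit 5) (nat_lit 4) (nat_lit 4)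 (nat_lit 282) (nat_lit 238) (nat_lit 200))))) (XT.nd (nat_lit 234) (nat_lit 0) (nat_lit 0) (XT.nd (nat_lit 78) (nat_lit 76) (nat_lit 0) (XT.lf (nat_lit 0) (nat_lit 7545780333) (nat_lit 152) (nat_lit 661336) (nat_lit 76) (nat_lit 38030636510) (nat_lit 3) (nat_lit 5) (nat_lit 5) (nat_lit 5) (nat_lit 4) (nat_lit 4) (nat_lit 283) (nat_lit 238) (nat_lit 199)) (XT.nd (nat_lit 78) (nat_lit 0) (nat_lit 0) (XT.lf (nat_lit 0) (nat_lit 6326117402) (nat_lit 76) (nat_lit 4290625515) (nat_lit 152) (nat_lit 38295543881) (nat_lit 2) (nat_lit 5) (nat_lit 3) (nat_lit 5) (nat_lit 4) (nat_lit 4) (nat_lit 284) (nat_lit 238) (nat_lit 198)) (XT.lf (nat_lit 0) (nat_lit 13118342091) (nat_lit 76) (nat_lit 790969425) (nat_lit 152) (nat_lit 38607027857) (nat_lit 2) (nat_lit 5) (nat_lit 3) (nat_lit 5) (nat_lit 4) (nat_lit 4) (nat_lit 285) (nat_lit 238) (nat_lit 197)))) (XT.nd (nat_lit 78) (nat_lit 0) (nat_lit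 0) (XT.lf (nat_lit 0) (nat_lit 17514487573) (nat_lit 152) (nat_lit 36065873133) (nat_lit 0) (nat_lit 2824513352) (nat_lit 2) (nat_lit 5) (nat_lit 4) (nat_lit 4) (nat_lit 2) (nat_lit 4) (nat_lit 286) (nat_lit 238) (nat_lit 196)) (XT.nd (nat_lit 78) (nat_lit 0) (nat_lit 0) (XT.lf (nat_lit 0) (nat_lit 21407626675) (nat_lit 152) (nat_lit 32524042609) (nat_lit 0) (nat_lit 6672945412) (nat_lit 2) (nat_lit 5) (nat_lit 4) (nat_lit 4) (nat_lit 2) (nat_lit 4) (nat_lit 287) (nat_lit 238) (nat_lit 195)) (XT.lf (nat_lit 0) (nat_lit 25592776442) (nat_lit 152) (nat_lit 28732494251) (nat_lit 0) (nat_lit 10816699769) (nat_lit 2) (nat_lit 5) (nat_lit 4) (nat_lit 4) (nat_lit 2) (nat_lit 4) (nat_lit 288) (nat_lit 238) (nat_lit 194)))))) (XT.nd (nat_lit 390) (nat_lit 76) (nat_lit 0) (XT.nd (nat_lit 156) (nat_lit 0) (nat_lit 0) (XT.nd (nat_lit 78) (nat_lit 0) (nat_lit 0) (XT.lf (nat_lit 0) (nat_lit 30094737762)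 (nat_lit 152) (nat_lit 24668759624) (nat_lit 0) (nat_lit 15280332007) (nat_lit 2) (nat_lit 5) (nat_lit 4) (nat_lit 4) (nat_lit 2) (nat_lit 4) (nat_lit 289) (nat_lit 238) (nat_lit 193)) (XT.lf (nat_lit 0) (nat_lit 34940188924) (nat_lit 152) (nat_lit 20308757339) (nat_lit 0) (nat_lit 20090293278) (nat_lit 2) (nat_lit 5) (nat_lit 4) (nat_lit 4) (nat_lit 2) (nat_lit 4) (nat_lit 290) (nat_lit 238) (nat_lit 192))) (XT.nd (nat_lit 78) (nat_lit 0) (nat_lit 0) (XT.lf (nat_lit 0) (nat_lit 40157843713) (nat_lit 152) (nat_lit 15626650345) (nat_lit 0) (nat_lit 25275087056) (nat_lit 2) (nat_lit 5) (nat_lit 4) (nat_lit 4) (nat_lit 2) (nat_lit 4) (nat_lit 291) (nat_lit 238) (nat_lit 191)) (XT.nd (nat_lit 78) (nat_lit 0) (nat_lit 0) (XT.lf (nat_lit 0) (nat_lit 45778621565) (nat_lit 152) (nat_lit 10594692822) (nat_lit 0) (nat_lit 30865438047) (nat_lit 2) (nat_lit 5) (nat_lit 4) (nat_lit 4) (nat_lit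 2) (nat_lit 4) (nat_lit 292) (nat_lit 238) (nat_lit 190)) (XT.lf (nat_lit 0) (nat_lit 51835830793) (nat_lit 152) (nat_lit 5183065763) (nat_lit 0) (nat_lit 36894474255) (nat_lit 2) (nat_lit 5) (nat_lit 4) (nat_lit 4) (nat_lit 2) (nat_lit 4) (nat_lit 293) (nat_lit 238) (nat_lit 189))))) (XT.nd (nat_lit 234) (nat_lit 0) (nat_lit 0) (XT.nd (nat_lit 78) (nat_lit 0) (nat_lit 0) (XT.lf (nat_lit 0) (nat_lit 674016780) (nat_lit 76) (nat_lit 57707559310) (nat_lit 76) (nat_lit 42740116641) (nat_lit 1) (nat_lit 4) (nat_lit 2) (nat_lit 5) (nat_lit 2) (nat_lit 4) (nat_lit 294) (nat_lit 238) (nat_lit 188)) (XT.nd (nat_lit 78) (nat_lit 0) (nat_lit 0) (XT.lf (nat_lit 0) (nat_lit 7273776244) (nat_lit 76) (nat_lit 58307078889) (nat_lit 76) (nat_lit 43315482397) (nat_lit 1) (nat_lit 4) (nat_lit 2) (nat_lit 5) (nat_lit 2) (nat_lit 4) (nat_lit 295) (nat_lit 238) (nat_lit 187)) (XT.lf (nat_lit 0) (nat_lit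 14382391252) (nat_lit 76) (nat_lit 58962722206) (nat_lit 76) (nat_lit 43948761063) (nat_lit 1) (nat_lit 4) (nat_lit 2) (nat_lit 5) (nat_lit 2) (nat_lit 4) (nat_lit 296) (nat_lit 238) (nat_lit 186)))) (XT.nd (nat_lit 78) (nat_lit 0) (nat_lit 0) (XT.lf (nat_lit 0) (nat_lit 22041986933) (nat_lit 76) (nat_lit 59678374557) (nat_lit 76) (nat_lit 44643705403) (nat_lit 1) (nat_lit 4) (nat_lit 2) (nat_lit 5) (nat_lit 2) (nat_lit 4) (nat_lit 297) (nat_lit 238) (nat_lit 185)) (XT.nd (nat_lit 78) (nat_lit 0) (nat_lit 0) (XT.lf (nat_lit 0) (nat_lit 30297953482) (nat_lit 76) (nat_lit 60458276842) (nat_lit 76) (nat_lit 45404433604) (nat_lit 1) (nat_lit 4) (nat_lit 2) (nat_lit 5) (nat_lit 2) (nat_lit 4) (nat_lit 298) (nat_lit 238) (nat_lit 184)) (XT.lf (nat_lit 0) (nat_lit 39199215145) (nat_lit 76) (nat_lit 61307050706) (nat_lit 76) (nat_lit 46235453687) (nat_lit 1) (nat_lit 4) (nat_lit 2) (nat_lit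 5) (nat_lit 2) (nat_lit 4) (nat_lit 299) (nat_lit 238) (nat_lit 183))))))) (XT.nd (nat_lit 858) (nat_lit 0) (nat_lit 0) (XT.nd (nat_lit 390) (nat_lit 0) (nat_lit 0) (XT.nd (nat_lit 156) (nat_lit 0) (nat_lit 0) (XT.nd (nat_lit 78) (nat_lit 0) (nat_lit 0) (XT.lf (nat_lit 0) (nat_lit 48798520141) (nat_lit 76) (nat_lit 62229725920) (nat_lit 76) (nat_lit 47141690214) (nat_lit 1) (nat_lit 4) (nat_lit 2) (nat_lit 5) (nat_lit 2) (nat_lit 4) (nat_lit 300) (nat_lit 238) (nat_lit 182)) (XT.lf (nat_lit 0) (nat_lit 59152753238) (nat_lit 76) (nat_lit 63231770188) (nat_lit 76) (nat_lit 48128513476) (nat_lit 1) (nat_lit 4) (nat_lit 2) (nat_lit 5) (nat_lit 2) (nat_lit 4) (nat_lit 301) (nat_lit 238) (nat_lit 181))) (XT.nd (nat_lit 78) (nat_lit 0) (nat_lit 0) (XT.lf (nat_lit 0) (nat_lit 70323272856) (nat_lit 76) (nat_lit 64319121551) (nat_lit 76) (nat_lit 49201771315) (nat_lit 1) (nat_lit 4) (nat_lit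 2) (nat_lit 5) (nat_lit 2) (nat_lit 4) (nat_lit 302) (nat_lit 238) (nat_lit 180)) (XT.nd (nat_lit 78) (nat_lit 0) (nat_lit 0) (XT.lf (nat_lit 0) (nat_lit 82376274667) (nat_lit 76) (nat_lit 65498223572) (nat_lit 76) (nat_lit 50367823776) (nat_lit 1) (nat_lit 4) (nat_lit 2) (nat_lit 5) (nat_lit 2) (nat_lit 4) (nat_lit 303) (nat_lit 238) (nat_lit 179)) (XT.lf (nat_lit 0) (nat_lit 95383183865) (nat_lit 76) (nat_lit 66776063523) (nat_lit 76) (nat_lit 51633580801) (nat_lit 1) (nat_lit 4) (nat_lit 2) (nat_lit 5) (nat_lit 2) (nat_lit 4) (nat_lit 304) (nat_lit 238) (nat_lit 178))))) (XT.nd (nat_lit 234) (nat_lit 0) (nat_lit 0) (XT.nd (nat_lit 78) (nat_lit 0) (nat_lit 0) (XT.lf (nat_lit 0) (nat_lit 109421078433) (nat_lit 76) (nat_lit 68160213787) (nat_lit 76) (nat_lit 53006543172) (nat_lit 1) (nat_lit 4) (nat_lit 2) (nat_lit 5) (nat_lit 2) (nat_lit 4) (nat_lit 305) (nat_lit 238) (nat_lit 177))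 (XT.nd (nat_lit 78) (nat_lit 0) (nat_lit 0) (XT.lf (nat_lit 0) (nat_lit 124573145892) (nat_lit 76) (nat_lit 69658876739) (nat_lit 76) (nat_lit 54494846963) (nat_lit 1) (nat_lit 4) (nat_lit 2) (nat_lit 5) (nat_lit 2) (nat_lit 4) (nat_lit 306) (nat_lit 238) (nat_lit 176)) (XT.lf (nat_lit 0) (nat_lit 140929176273) (nat_lit 76) (nat_lit 71280933342) (nat_lit 76) (nat_lit 56107311750) (nat_lit 1) (nat_lit 4) (nat_lit 2) (nat_lit 5) (nat_lit 2) (nat_lit 4) (nat_lit 307) (nat_lit 238) (nat_lit 175)))) (XT.nd (nat_lit 78) (nat_lit 0) (nat_lit 0) (XT.lf (nat_lit 0) (nat_lit 158586094200) (nat_lit 76) (nat_lit 73035995784) (nat_lit 76) (nat_lit 57853492881) (nat_lit 1) (nat_lit 4) (nat_lit 2) (nat_lit 5) (nat_lit 2) (nat_lit 4) (nat_lit 308) (nat_lit 238) (nat_lit 174)) (XT.nd (nat_lit 78) (nat_lit 0) (nat_lit 0) (XT.lf (nat_lit 0) (nat_lit 177648533261) (nat_lit 76) (nat_lit 74934464436) (nat_lit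 76) (nat_lit 59743738097) (nat_lit 1) (nat_lit 4) (nat_lit 2) (nat_lit 5) (nat_lit 2) (nat_lit 4) (nat_lit 309) (nat_lit 238) (nat_lit 173)) (XT.lf (nat_lit 0) (nat_lit 198229456057) (nat_lit 76) (nat_lit 76987589481) (nat_lit 76) (nat_lit 61789248850) (nat_lit 1) (nat_lit 4) (nat_lit 2) (nat_lit 5) (nat_lit 2) (nat_lit 4) (nat_lit 310) (nat_lit 238) (nat_lit 172)))))) (XT.nd (nat_lit 390) (nat_lit 0) (nat_lit 0) (XT.nd (nat_lit 156) (nat_lit 0) (nat_lit 0) (XT.nd (nat_lit 78) (nat_lit 0) (nat_lit 0) (XT.lf (nat_lit 0) (nat_lit 220450823613) (nat_lit 76) (nat_lit 79207537587) (nat_lit 76) (nat_lit 64002146685) (nat_lit 1) (nat_lit 4) (nat_lit 2) (nat_lit 5) (nat_lit 2) (nat_lit 4) (nat_lit 311) (nat_lit 238) (nat_lit 171)) (XT.lf (nat_lit 0) (nat_lit 244444318106) (nat_lit 76) (nat_lit 81607464002) (nat_lit 76) (nat_lit 66395545072) (nat_lit 1) (nat_lit 4) (nat_lit 2) (nat_lit 5)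 (nat_lit 2) (nat_lit 4) (nat_lit 312) (nat_lit 238) (nat_lit 170))) (XT.nd (nat_lit 78) (nat_lit 0) (nat_lit 0) (XT.lf (nat_lit 0) (nat_lit 270352123208) (nat_lit 76) (nat_lit 84201590512) (nat_lit 76) (nat_lit 68983627111) (nat_lit 1) (nat_lit 4) (nat_lit 2) (nat_lit 5) (nat_lit 2) (nat_lit 4) (nat_lit 313) (nat_lit 238) (nat_lit 169)) (XT.nd (nat_lit 78) (nat_lit 0) (nat_lit 0) (XT.lf (nat_lit 0) (nat_lit 298327766652) (nat_lit 76) (nat_lit 87005289719) (nat_lit 76) (nat_lit 71781729585) (nat_lit 1) (nat_lit 4) (nat_lit 2) (nat_lit 5) (nat_lit 2) (nat_lit 4) (nat_lit 314) (nat_lit 238) (nat_lit 168)) (XT.lf (nat_lit 0) (nat_lit 328537030030) (nat_lit 76) (nat_lit 90035176136) (nat_lit 76) (nat_lit 74806433842) (nat_lit 1) (nat_lit 4) (nat_lit 2) (nat_lit 5) (nat_lit 2) (nat_lit 4) (nat_lit 315) (nat_lit 238) (nat_lit 167))))) (XT.nd (nat_lit 234) (nat_lit 0) (nat_lit 0) (XT.nd (nat_lit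 78) (nat_lit 0) (nat_lit 0) (XT.lf (nat_lit 0) (nat_lit 361158931198) (nat_lit 76) (nat_lit 93309204646) (nat_lit 76) (nat_lit 78075664056) (nat_lit 1) (nat_lit 4) (nat_lit 2) (nat_lit 5) (nat_lit 2) (nat_lit 4) (nat_lit 316) (nat_lit 238) (nat_lit 166)) (XT.nd (nat_lit 78) (nat_lit 0) (nat_lit 0) (XT.lf (nat_lit 0) (nat_lit 396386785127) (nat_lit 76) (nat_lit 96846776899) (nat_lit 76) (nat_lit 81608793443) (nat_lit 1) (nat_lit 4) (nat_lit 2) (nat_lit 5) (nat_lit 2) (nat_lit 4) (nat_lit 317) (nat_lit 238) (nat_lit 165)) (XT.lf (nat_lit 0) (nat_lit 434429349469) (nat_lit 76) (nat_lit 100668856286) (nat_lit 76) (nat_lit 85426759065) (nat_lit 1) (nat_lit 4) (nat_lit 2) (nat_lit 5) (nat_lit 2) (nat_lit 4) (nat_lit 318) (nat_lit 238) (nat_lit 164)))) (XT.nd (nat_lit 78) (nat_lit 0) (nat_lit 0) (XT.lf (nat_lit 0) (nat_lit 475512061642) (nat_lit 76) (nat_lit 104798092167) (nat_lit 76) (nat_lit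 89552185904) (nat_lit 1) (nat_lit 4) (nat_lit 2) (nat_lit 5) (nat_lit 2) (nat_lit 4) (nat_lit 319) (nat_lit 238) (nat_lit 163)) (XT.nd (nat_lit 78) (nat_lit 0) (nat_lit 0) (XT.lf (nat_lit 0) (nat_lit 519878374756) (nat_lit 76) (nat_lit 109258954088) (nat_lit 76) (nat_lit 94009520934) (nat_lit 1) (nat_lit 4) (nat_lit 2) (nat_lit 5) (nat_lit 2) (nat_lit 4) (nat_lit 320) (nat_lit 238) (nat_lit 162)) (XT.lf (nat_lit 0) (nat_lit 567791200296) (nat_lit 76) (nat_lit 114077876785) (nat_lit 76) (nat_lit 98825177992) (nat_lit 1) (nat_lit 4) (nat_lit 2) (nat_lit 5) (nat_lit 2) (nat_lit 4) (nat_lit 321) (nat_lit 238) (nat_lit 161))))))))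
noncomputable def xc47 : XT := (XT.nd (nat_lit 32214) (nat_lit 0) (nat_lit 304) (XT.nd (nat_lit 31356) (nat_lit 0) (nat_lit 1672) (XT.nd (nat_lit 390) (nat_lit 0) (nat_lit 0) (XT.nd (nat_lit 156) (nat_lit 0) (nat_lit 0) (XT.nd (nat_lit 78) (nat_lit 0) (nat_lit 0) (XT.lf (nat_lit 0) (nat_lit 619534466117) (nat_lit 76) (nat_lit 119283416839) (nat_lit 76) (nat_lit 104027694305) (nat_lit 1) (nat_lit 4) (nat_lit 2) (nat_lit 5) (nat_lit 2) (nat_lit 4) (nat_lit 322) (nat_lit 238) (nat_lit 160)) (XT.lf (nat_lit 0) (nat_lit 675414798979) (nat_lit 76) (nat_lit 124906421893) (nat_lit 76) (nat_lit 109647899600) (nat_lit 1) (nat_lit 4) (nat_lit 2) (nat_lit 5) (nat_lit 2) (nat_lit 4) (nat_lit 323) (nat_lit 238) (nat_lit 159))) (XT.nd (nat_lit 78) (nat_lit 0) (nat_lit 0) (XT.lf (nat_lit 0) (nat_lit 735763341596) (nat_lit 76) (nat_lit 130980213460) (nat_lit 76) (nat_lit 115719098796) (nat_lit 1)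 (nat_lit 4) (nat_lit 2) (nat_lit 5) (nat_lit 2) (nat_lit 4) (nat_lit 324) (nat_lit 238) (nat_lit 158)) (XT.nd (nat_lit 78) (nat_lit 0) (nat_lit 0) (XT.lf (nat_lit 0) (nat_lit 800937714960) (nat_lit 76) (nat_lit 137540784377) (nat_lit 76) (nat_lit 122277269371) (nat_lit 1) (nat_lit 4) (nat_lit 2) (nat_lit 5) (nat_lit 2) (nat_lit 4) (nat_lit 325) (nat_lit 238) (nat_lit 157)) (XT.lf (nat_lit 0) (nat_lit 871324137581) (nat_lit 76) (nat_lit 144627012103) (nat_lit 76) (nat_lit 129361274558) (nat_lit 1) (nat_lit 4) (nat_lit 2) (nat_lit 5) (nat_lit 2) (nat_lit 4) (nat_lit 326) (nat_lit 238) (nat_lit 156))))) (XT.nd (nat_lit 234) (nat_lit 0) (nat_lit 0) (XT.nd (nat_lit 78) (nat_lit 0) (nat_lit 0) (XT.lf (nat_lit 0) (nat_lit 947339714186) (nat_lit 76) (nat_lit 152280889098) (nat_lit 76) (nat_lit 137013093646) (nat_lit 1) (nat_lit 4) (nat_lit 2) (nat_lit 5) (nat_lit 2) (nat_lit 4) (nat_lit 327)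 (nat_lit 238) (nat_lit 155)) (XT.nd (nat_lit 78) (nat_lit 0) (nat_lit 0) (XT.lf (nat_lit 0) (nat_lit 1029434907450) (nat_lit 76) (nat_lit 160547771670) (nat_lit 76) (nat_lit 145278070748) (nat_lit 1) (nat_lit 4) (nat_lit 2) (nat_lit 5) (nat_lit 2) (nat_lit 4) (nat_lit 328) (nat_lit 238) (nat_lit 154)) (XT.lf (nat_lit 0) (nat_lit 1118096207408) (nat_lit 76) (nat_lit 169476648752) (nat_lit 76) (nat_lit 154205183507) (nat_lit 1) (nat_lit 4) (nat_lit 2) (nat_lit 5) (nat_lit 2) (nat_lit 4) (nat_lit 329) (nat_lit 238) (nat_lit 153)))) (XT.nd (nat_lit 78) (nat_lit 0) (nat_lit 0) (XT.lf (nat_lit 0) (nat_lit 1213849014355) (nat_lit 76) (nat_lit 179120432210) (nat_lit 76) (nat_lit 163847333332) (nat_lit 1) (nat_lit 4) (nat_lit 2) (nat_lit 5) (nat_lit 2) (nat_lit 4) (nat_lit 330) (nat_lit 238) (nat_lit 152)) (XT.nd (nat_lit 30576) (nat_lit 0) (nat_lit 3496) (XT.lf (nat_lit 0) (nat_lit 1317260752334)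 (nat_lit 76) (nat_lit 189536270389) (nat_lit 76) (nat_lit 174261658888) (nat_lit 1) (nat_lit 4) (nat_lit 2) (nat_lit 5) (nat_lit 2) (nat_lit 4) (nat_lit 331) (nat_lit 238) (nat_lit 151)) (XT.lf (nat_lit 0) (nat_lit 1392054679) (nat_lit 76) (nat_lit 451214414) (nat_lit 0) (nat_lit 1392054679) (nat_lit 47) (nat_lit 5) (nat_lit 48) (nat_lit 0) (nat_lit 47) (nat_lit 4) (nat_lit 242) (nat_lit 239) (nat_lit 239)))))) (XT.nd (nat_lit 390) (nat_lit 1216) (nat_lit 0) (XT.nd (nat_lit 156) (nat_lit 456) (nat_lit 0) (XT.nd (nat_lit 78) (nat_lit 76) (nat_lit 0) (XT.lf (nat_lit 0) (nat_lit 2110621831) (nat_lit 76) (nat_lit 3333901814) (nat_lit 76) (nat_lit 1069322865) (nat_lit 46) (nat_lit 4) (nat_lit 47) (nat_lit 5) (nat_lit 47) (nat_lit 4) (nat_lit 243) (nat_lit 239) (nat_lit 238)) (XT.lf (nat_lit 0) (nat_lit 1445275049) (nat_lit 152) (nat_lit 1355239208) (nat_lit 76) (nat_lit 3778315510) (nat_lit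 45) (nat_lit 5) (nat_lit 47) (nat_lit 5) (nat_lit 46) (nat_lit 4) (nat_lit 244) (nat_lit 239) (nat_lit 237))) (XT.nd (nat_lit 78) (nat_lit 304) (nat_lit 0) (XT.lf (nat_lit 0) (nat_lit 1843778034) (nat_lit 152) (nat_lit 2072905037) (nat_lit 228) (nat_lit 2748535651) (nat_lit 43) (nat_lit 5) (nat_lit 45) (nat_lit 5) (nat_lit 46) (nat_lit 4) (nat_lit 245) (nat_lit 239) (nat_lit 236)) (XT.nd (nat_lit 78) (nat_lit 304) (nat_lit 0) (XT.lf (nat_lit 0) (nat_lit 5222506031) (nat_lit 152) (nat_lit 1182842319) (nat_lit 228) (nat_lit 370849548) (nat_lit 43) (nat_lit 5) (nat_lit 45) (nat_lit 5) (nat_lit 46) (nat_lit 4) (nat_lit 246) (nat_lit 239) (nat_lit 235)) (XT.lf (nat_lit 0) (nat_lit 1859938485) (nat_lit 228) (nat_lit 62457535) (nat_lit 304) (nat_lit 4985392327) (nat_lit 39) (nat_lit 5) (nat_lit 42) (nat_lit 5) (nat_lit 43) (nat_lit 5) (nat_lit 247) (nat_lit 239) (nat_lit 234))))) (XT.nd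 (nat_lit 234) (nat_lit 836) (nat_lit 0) (XT.nd (nat_lit 78) (nat_lit 380) (nat_lit 0) (XT.lf (nat_lit 0) (nat_lit 4253735343) (nat_lit 304) (nat_lit 1621106459) (nat_lit 76) (nat_lit 1186894202) (nat_lit 39) (nat_lit 5) (nat_lit 43) (nat_lit 5) (nat_lit 40) (nat_lit 4) (nat_lit 248) (nat_lit 239) (nat_lit 233)) (XT.nd (nat_lit 78) (nat_lit 76) (nat_lit 0) (XT.lf (nat_lit 0) (nat_lit 2020639009) (nat_lit 304) (nat_lit 4619204764) (nat_lit 380) (nat_lit 601078206) (nat_lit 35) (nat_lit 5) (nat_lit 39) (nat_lit 5) (nat_lit 40) (nat_lit 4) (nat_lit 249) (nat_lit 239) (nat_lit 232)) (XT.lf (nat_lit 0) (nat_lit 1559945215) (nat_lit 380) (nat_lit 1595034524) (nat_lit 76) (nat_lit 4288740394) (nat_lit 34) (nat_lit 5) (nat_lit 39) (nat_lit 5) (nat_lit 35) (nat_lit 5) (nat_lit 250) (nat_lit 239) (nat_lit 231)))) (XT.nd (nat_lit 78) (nat_lit 456) (nat_lit 0) (XT.lf (nat_lit 0) (nat_lit 2264144641)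 (nat_lit 380) (nat_lit 1486161381) (nat_lit 456) (nat_lit 3921964844) (nat_lit 29) (nat_lit 5) (nat_lit 34) (nat_lit 5) (nat_lit 35) (nat_lit 5) (nat_lit 251) (nat_lit 239) (nat_lit 230)) (XT.nd (nat_lit 78) (nat_lit 456) (nat_lit 0) (XT.lf (nat_lit 0) (nat_lit 6011545862) (nat_lit 456) (nat_lit 1565900426) (nat_lit 76) (nat_lit 351759272) (nat_lit 29) (nat_lit 5) (nat_lit 35) (nat_lit 5) (nat_lit 30) (nat_lit 4) (nat_lit 252) (nat_lit 239) (nat_lit 229)) (XT.lf (nat_lit 0) (nat_lit 185993655) (nat_lit 456) (nat_lit 5697732510) (nat_lit 76) (nat_lit 2327886902) (nat_lit 23) (nat_lit 5) (nat_lit 29) (nat_lit 5) (nat_lit 24) (nat_lit 5) (nat_lit 253) (nat_lit 239) (nat_lit 228))))))) (XT.nd (nat_lit 858) (nat_lit 380) (nat_lit 0) (XT.nd (nat_lit 390) (nat_lit 532) (nat_lit 0) (XT.nd (nat_lit 156) (nat_lit 228) (nat_lit 0) (XT.nd (nat_lit 78) (nat_lit 228) (nat_lit 0) (XT.lf (nat_lit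 0) (nat_lit 2255344304) (nat_lit 456) (nat_lit 1712220800) (nat_lit 76) (nat_lit 4554373373) (nat_lit 23) (nat_lit 5) (nat_lit 29) (nat_lit 5) (nat_lit 24) (nat_lit 5) (nat_lit 254) (nat_lit 239) (nat_lit 227)) (XT.lf (nat_lit 0) (nat_lit 2575399362) (nat_lit 228) (nat_lit 1844450489) (nat_lit 304) (nat_lit 4444159233) (nat_lit 20) (nat_lit 5) (nat_lit 23) (nat_lit 5) (nat_lit 24) (nat_lit 5) (nat_lit 255) (nat_lit 239) (nat_lit 226))) (XT.nd (nat_lit 78) (nat_lit 228) (nat_lit 0) (XT.lf (nat_lit 0) (nat_lit 6690008990) (nat_lit 304) (nat_lit 2091061759) (nat_lit 76) (nat_lit 458967461) (nat_lit 20) (nat_lit 5) (nat_lit 24) (nat_lit 5) (nat_lit 21) (nat_lit 4) (nat_lit 256) (nat_lit 239) (nat_lit 225)) (XT.nd (nat_lit 78) (nat_lit 76) (nat_lit 0) (XT.lf (nat_lit 0) (nat_lit 2371570042) (nat_lit 152) (nat_lit 6758187592) (nat_lit 228) (nat_lit 518457894) (nat_lit 18) (nat_lit 5) (nat_lit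 20) (nat_lit 5) (nat_lit 21) (nat_lit 4) (nat_lit 257) (nat_lit 239) (nat_lit 224)) (XT.lf (nat_lit 0) (nat_lit 1534986159) (nat_lit 228) (nat_lit 2961019158) (nat_lit 76) (nat_lit 5595310745) (nat_lit 17) (nat_lit 5) (nat_lit 20) (nat_lit 5) (nat_lit 18) (nat_lit 5) (nat_lit 258) (nat_lit 239) (nat_lit 223))))) (XT.nd (nat_lit 234) (nat_lit 228) (nat_lit 0) (XT.nd (nat_lit 78) (nat_lit 152) (nat_lit 0) (XT.lf (nat_lit 0) (nat_lit 1633966678) (nat_lit 152) (nat_lit 2023091471) (nat_lit 228) (nat_lit 6918016559) (nat_lit 15) (nat_lit 5) (nat_lit 17) (nat_lit 5) (nat_lit 18) (nat_lit 5) (nat_lit 259) (nat_lit 239) (nat_lit 222)) (XT.nd (nat_lit 78) (nat_lit 152) (nat_lit 0) (XT.lf (nat_lit 0) (nat_lit 5944688205) (nat_lit 228) (nat_lit 4482850512) (nat_lit 76) (nat_lit 671143421) (nat_lit 15) (nat_lit 5) (nat_lit 18) (nat_lit 5) (nat_lit 16) (nat_lit 4) (nat_lit 260) (nat_lit 239) (nat_lit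 221)) (XT.lf (nat_lit 0) (nat_lit 158697917) (nat_lit 152) (nat_lit 8217767321) (nat_lit 228) (nat_lit 3291573364) (nat_lit 13) (nat_lit 5) (nat_lit 15) (nat_lit 5) (nat_lit 16) (nat_lit 4) (nat_lit 261) (nat_lit 239) (nat_lit 220)))) (XT.nd (nat_lit 78) (nat_lit 228) (nat_lit 0) (XT.lf (nat_lit 0) (nat_lit 5301013094) (nat_lit 152) (nat_lit 5733148099) (nat_lit 228) (nat_lit 1246967962) (nat_lit 13) (nat_lit 5) (nat_lit 15) (nat_lit 5) (nat_lit 16) (nat_lit 4) (nat_lit 262) (nat_lit 239) (nat_lit 219)) (XT.nd (nat_lit 78) (nat_lit 152) (nat_lit 0) (XT.lf (nat_lit 0) (nat_lit 825879999) (nat_lit 228) (nat_lit 2233065436) (nat_lit 76) (nat_lit 9890048008) (nat_lit 12) (nat_lit 5) (nat_lit 15) (nat_lit 5) (nat_lit 13) (nat_lit 5) (nat_lit 263) (nat_lit 239) (nat_lit 218)) (XT.lf (nat_lit 0) (nat_lit 2893712975) (nat_lit 152) (nat_lit 92287973) (nat_lit 228) (nat_lit 10683141998) (nat_lit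 10) (nat_lit 5) (nat_lit 12) (nat_lit 5) (nat_lit 13) (nat_lit 5) (nat_lit 264) (nat_lit 239) (nat_lit 217)))))) (XT.nd (nat_lit 390) (nat_lit 304) (nat_lit 0) (XT.nd (nat_lit 156) (nat_lit 76) (nat_lit 0) (XT.nd (nat_lit 78) (nat_lit 0) (nat_lit 0) (XT.lf (nat_lit 0) (nat_lit 5378206089) (nat_lit 228) (nat_lit 6076302565) (nat_lit 76) (nat_lit 2988165160) (nat_lit 10) (nat_lit 5) (nat_lit 13) (nat_lit 5) (nat_lit 11) (nat_lit 4) (nat_lit 265) (nat_lit 239) (nat_lit 216)) (XT.lf (nat_lit 0) (nat_lit 7891773779) (nat_lit 228) (nat_lit 1110577541) (nat_lit 76) (nat_lit 6281810428) (nat_lit 10) (nat_lit 5) (nat_lit 13) (nat_lit 5) (nat_lit 11) (nat_lit 4) (nat_lit 266) (nat_lit 239) (nat_lit 215))) (XT.nd (nat_lit 78) (nat_lit 0) (nat_lit 0) (XT.lf (nat_lit 0) (nat_lit 4372101362) (nat_lit 76) (nat_lit 6272427486) (nat_lit 152) (nat_lit 5545830128) (nat_lit 9) (nat_lit 5) (nat_lit 10)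 (nat_lit 5) (nat_lit 11) (nat_lit 4) (nat_lit 267) (nat_lit 239) (nat_lit 214)) (XT.nd (nat_lit 78) (nat_lit 0) (nat_lit 0) (XT.lf (nat_lit 0) (nat_lit 10260046462) (nat_lit 76) (nat_lit 3323421288) (nat_lit 152) (nat_lit 3588713098) (nat_lit 9) (nat_lit 5) (nat_lit 10) (nat_lit 5) (nat_lit 11) (nat_lit 4) (nat_lit 268) (nat_lit 239) (nat_lit 213)) (XT.lf (nat_lit 0) (nat_lit 16529668237) (nat_lit 76) (nat_lit 168222292) (nat_lit 152) (nat_lit 1539804309) (nat_lit 9) (nat_lit 5) (nat_lit 10) (nat_lit 5) (nat_lit 11) (nat_lit 4) (nat_lit 269) (nat_lit 239) (nat_lit 212))))) (XT.nd (nat_lit 234) (nat_lit 76) (nat_lit 0) (XT.nd (nat_lit 78) (nat_lit 0) (nat_lit 0) (XT.lf (nat_lit 0) (nat_lit 758964939) (nat_lit 228) (nat_lit 15453655049) (nat_lit 76) (nat_lit 3165288137) (nat_lit 6) (nat_lit 5) (nat_lit 9) (nat_lit 5) (nat_lit 7) (nat_lit 4) (nat_lit 270) (nat_lit 239) (nat_lit 211))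 (XT.nd (nat_lit 78) (nat_lit 0) (nat_lit 0) (XT.lf (nat_lit 0) (nat_lit 3155253533) (nat_lit 228) (nat_lit 10634791636) (nat_lit 76) (nat_lit 6816647513) (nat_lit 6) (nat_lit 5) (nat_lit 9) (nat_lit 5) (nat_lit 7) (nat_lit 4) (nat_lit 271) (nat_lit 239) (nat_lit 210)) (XT.lf (nat_lit 0) (nat_lit 5691878871) (nat_lit 228) (nat_lit 5511774695) (nat_lit 76) (nat_lit 10734512020) (nat_lit 6) (nat_lit 5) (nat_lit 9) (nat_lit 5) (nat_lit 7) (nat_lit 4) (nat_lit 272) (nat_lit 239) (nat_lit 209)))) (XT.nd (nat_lit 78) (nat_lit 76) (nat_lit 0) (XT.lf (nat_lit 0) (nat_lit 8383872807) (nat_lit 228) (nat_lit 54245606) (nat_lit 76) (nat_lit 14942098635) (nat_lit 6) (nat_lit 5) (nat_lit 9) (nat_lit 5) (nat_lit 7) (nat_lit 4) (nat_lit 273) (nat_lit 239) (nat_lit 208)) (XT.nd (nat_lit 78) (nat_lit 0) (nat_lit 0) (XT.lf (nat_lit 0) (nat_lit 6073981708) (nat_lit 76) (nat_lit 5319285596) (nat_lit 152)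 (nat_lit 13536438902) (nat_lit 5) (nat_lit 5) (nat_lit 6) (nat_lit 5) (nat_lit 7) (nat_lit 4) (nat_lit 274) (nat_lit 239) (nat_lit 207)) (XT.lf (nat_lit 0) (nat_lit 12627568741) (nat_lit 76) (nat_lit 1974916527) (nat_lit 152) (nat_lit 12004162792) (nat_lit 5) (nat_lit 5) (nat_lit 6) (nat_lit 5) (nat_lit 7) (nat_lit 4) (nat_lit 275) (nat_lit 239) (nat_lit 206))))))))
noncomputable def xc48 : XT := (XT.nd (nat_lit 1638) (nat_lit 0) (nat_lit 0) (XT.nd (nat_lit 780) (nat_lit 76) (nat_lit 0) (XT.nd (nat_lit 390) (nat_lit 152) (nat_lit 0) (XT.nd (nat_lit 156) (nat_lit 76) (nat_lit 0) (XT.nd (nat_lit 78) (nat_lit 0) (nat_lit 0) (XT.lf (nat_lit 0) (nat_lit 18067971464) (nat_lit 152) (nat_lit 8817395306) (nat_lit 0) (nat_lit 1532619099) (nat_lit 5) (nat_lit 5) (nat_lit 7) (nat_lit 4) (nat_lit 5) (nat_lit 4) (nat_lit 276) (nat_lit 239) (nat_lit 205)) (XT.lf (nat_lit 0) (nat_lit 21825104993)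 (nat_lit 152) (nat_lit 3354927586) (nat_lit 0) (nat_lit 5193233477) (nat_lit 5) (nat_lit 5) (nat_lit 7) (nat_lit 4) (nat_lit 5) (nat_lit 4) (nat_lit 277) (nat_lit 239) (nat_lit 204))) (XT.nd (nat_lit 78) (nat_lit 0) (nat_lit 0) (XT.lf (nat_lit 0) (nat_lit 2619214525) (nat_lit 76) (nat_lit 23292431207) (nat_lit 76) (nat_lit 6571190107) (nat_lit 4) (nat_lit 4) (nat_lit 5) (nat_lit 5) (nat_lit 5) (nat_lit 4) (nat_lit 278) (nat_lit 239) (nat_lit 203)) (XT.nd (nat_lit 78) (nat_lit 0) (nat_lit 0) (XT.lf (nat_lit 0) (nat_lit 9207165468) (nat_lit 76) (nat_lit 21176727498) (nat_lit 76) (nat_lit 4372736783) (nat_lit 4) (nat_lit 4) (nat_lit 5) (nat_lit 5) (nat_lit 5) (nat_lit 4) (nat_lit 279) (nat_lit 239) (nat_lit 202)) (XT.lf (nat_lit 0) (nat_lit 16271300409) (nat_lit 76) (nat_lit 18912113615) (nat_lit 76) (nat_lit 2031502887) (nat_lit 4) (nat_lit 4) (nat_lit 5) (nat_lit 5) (nat_lit 5) (nat_lit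 4) (nat_lit 280) (nat_lit 239) (nat_lit 201))))) (XT.nd (nat_lit 156) (nat_lit 76) (nat_lit 0) (XT.nd (nat_lit 78) (nat_lit 0) (nat_lit 0) (XT.lf (nat_lit 0) (nat_lit 443055066) (nat_lit 152) (nat_lit 16030000647) (nat_lit 76) (nat_lit 23398311913) (nat_lit 3) (nat_lit 5) (nat_lit 5) (nat_lit 5) (nat_lit 4) (nat_lit 4) (nat_lit 281) (nat_lit 239) (nat_lit 200)) (XT.lf (nat_lit 0) (nat_lit 2978868904) (nat_lit 152) (nat_lit 10821197176) (nat_lit 76) (nat_lit 28938321890) (nat_lit 3) (nat_lit 5) (nat_lit 5) (nat_lit 5) (nat_lit 4) (nat_lit 4) (nat_lit 282) (nat_lit 239) (nat_lit 199))) (XT.nd (nat_lit 78) (nat_lit 76) (nat_lit 0) (XT.lf (nat_lit 0) (nat_lit 5692589674) (nat_lit 152) (nat_lit 5237481412) (nat_lit 76) (nat_lit 34906805223) (nat_lit 3) (nat_lit 5) (nat_lit 5) (nat_lit 5) (nat_lit 4) (nat_lit 4) (nat_lit 283) (nat_lit 239) (nat_lit 198)) (XT.nd (nat_lit 78) (nat_lit 0)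 (nat_lit 0) (XT.lf (nat_lit 0) (nat_lit 793952027) (nat_lit 76) (nat_lit 7825441222) (nat_lit 152) (nat_lit 40564273240) (nat_lit 2) (nat_lit 5) (nat_lit 3) (nat_lit 5) (nat_lit 4) (nat_lit 4) (nat_lit 284) (nat_lit 239) (nat_lit 197)) (XT.lf (nat_lit 0) (nat_lit 7568043722) (nat_lit 76) (nat_lit 4333194714) (nat_lit 152) (nat_lit 40887383723) (nat_lit 2) (nat_lit 5) (nat_lit 3) (nat_lit 5) (nat_lit 4) (nat_lit 4) (nat_lit 285) (nat_lit 239) (nat_lit 196)))))) (XT.nd (nat_lit 390) (nat_lit 76) (nat_lit 0) (XT.nd (nat_lit 156) (nat_lit 0) (nat_lit 0) (XT.nd (nat_lit 78) (nat_lit 0) (nat_lit 0) (XT.lf (nat_lit 0) (nat_lit 14849139947) (nat_lit 76) (nat_lit 575838792) (nat_lit 152) (nat_lit 41258734837) (nat_lit 2) (nat_lit 5) (nat_lit 3) (nat_lit 5) (nat_lit 4) (nat_lit 4) (nat_lit 286) (nat_lit 239) (nat_lit 195)) (XT.lf (nat_lit 0) (nat_lit 19294922527) (nat_lit 152) (nat_lit 38295061768)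 (nat_lit 0) (nat_lit 3295364312) (nat_lit 2) (nat_lit 5) (nat_lit 4) (nat_lit 4) (nat_lit 2) (nat_lit 4) (nat_lit 287) (nat_lit 239) (nat_lit 194))) (XT.nd (nat_lit 78) (nat_lit 0) (nat_lit 0) (XT.lf (nat_lit 0) (nat_lit 23471418242) (nat_lit 152) (nat_lit 34518483410) (nat_lit 0) (nat_lit 7433530944) (nat_lit 2) (nat_lit 5) (nat_lit 4) (nat_lit 4) (nat_lit 2) (nat_lit 4) (nat_lit 288) (nat_lit 239) (nat_lit 193)) (XT.nd (nat_lit 78) (nat_lit 0) (nat_lit 0) (XT.lf (nat_lit 0) (nat_lit 27965366551) (nat_lit 152) (nat_lit 30468609895) (nat_lit 0) (nat_lit 11891989362) (nat_lit 2) (nat_lit 5) (nat_lit 4) (nat_lit 4) (nat_lit 2) (nat_lit 4) (nat_lit 289) (nat_lit 239) (nat_lit 192)) (XT.lf (nat_lit 0) (nat_lit 32803398259) (nat_lit 152) (nat_lit 26121441972) (nat_lit 0) (nat_lit 16697160059) (nat_lit 2) (nat_lit 5) (nat_lit 4) (nat_lit 4) (nat_lit 2) (nat_lit 4) (nat_lit 290) (nat_lit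 239) (nat_lit 191))))) (XT.nd (nat_lit 234) (nat_lit 76) (nat_lit 0) (XT.nd (nat_lit 78) (nat_lit 0) (nat_lit 0) (XT.lf (nat_lit 0) (nat_lit 38014183182) (nat_lit 152) (nat_lit 21451218647) (nat_lit 0) (nat_lit 21877518121) (nat_lit 2) (nat_lit 5) (nat_lit 4) (nat_lit 4) (nat_lit 2) (nat_lit 4) (nat_lit 291) (nat_lit 239) (nat_lit 190)) (XT.nd (nat_lit 78) (nat_lit 0) (nat_lit 0) (XT.lf (nat_lit 0) (nat_lit 43628600048) (nat_lit 152) (nat_lit 16430264521) (nat_lit 0) (nat_lit 27463761966) (nat_lit 2) (nat_lit 5) (nat_lit 4) (nat_lit 4) (nat_lit 2) (nat_lit 4) (nat_lit 292) (nat_lit 239) (nat_lit 189)) (XT.lf (nat_lit 0) (nat_lit 49679919473) (nat_lit 152) (nat_lit 11028825793) (nat_lit 0) (nat_lit 33488995262) (nat_lit 2) (nat_lit 5) (nat_lit 4) (nat_lit 4) (nat_lit 2) (nat_lit 4) (nat_lit 293) (nat_lit 239) (nat_lit 188)))) (XT.nd (nat_lit 78) (nat_lit 76) (nat_lit 0) (XT.lf (nat_lit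 0) (nat_lit 56204001130) (nat_lit 152) (nat_lit 5214893937) (nat_lit 0) (nat_lit 39988923095) (nat_lit 2) (nat_lit 5) (nat_lit 4) (nat_lit 4) (nat_lit 2) (nat_lit 4) (nat_lit 294) (nat_lit 239) (nat_lit 187)) (XT.nd (nat_lit 78) (nat_lit 0) (nat_lit 0) (XT.lf (nat_lit 0) (nat_lit 1101063639) (nat_lit 76) (nat_lit 62164923209) (nat_lit 76) (nat_lit 45927480523) (nat_lit 1) (nat_lit 4) (nat_lit 2) (nat_lit 5) (nat_lit 2) (nat_lit 4) (nat_lit 295) (nat_lit 239) (nat_lit 186)) (XT.lf (nat_lit 0) (nat_lit 8201164932) (nat_lit 76) (nat_lit 62824199973) (nat_lit 76) (nat_lit 46566049276) (nat_lit 1) (nat_lit 4) (nat_lit 2) (nat_lit 5) (nat_lit 2) (nat_lit 4) (nat_lit 296) (nat_lit 239) (nat_lit 185))))))) (XT.nd (nat_lit 858) (nat_lit 0) (nat_lit 0) (XT.nd (nat_lit 390) (nat_lit 0) (nat_lit 0) (XT.nd (nat_lit 156) (nat_lit 0) (nat_lit 0) (XT.nd (nat_lit 78) (nat_lit 0) (nat_lit 0) (XT.lf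 (nat_lit 0) (nat_lit 15852877542) (nat_lit 76) (nat_lit 63543216625) (nat_lit 76) (nat_lit 47265891844) (nat_lit 1) (nat_lit 4) (nat_lit 2) (nat_lit 5) (nat_lit 2) (nat_lit 4) (nat_lit 297) (nat_lit 239) (nat_lit 184)) (XT.lf (nat_lit 0) (nat_lit 24101544952) (nat_lit 76) (nat_lit 64326234005) (nat_lit 76) (nat_lit 48031155442) (nat_lit 1) (nat_lit 4) (nat_lit 2) (nat_lit 5) (nat_lit 2) (nat_lit 4) (nat_lit 298) (nat_lit 239) (nat_lit 183))) (XT.nd (nat_lit 78) (nat_lit 0) (nat_lit 0) (XT.lf (nat_lit 0) (nat_lit 32996048153) (nat_lit 76) (nat_lit 65177892215) (nat_lit 76) (nat_lit 48866374966) (nat_lit 1) (nat_lit 4) (nat_lit 2) (nat_lit 5) (nat_lit 2) (nat_lit 4) (nat_lit 299) (nat_lit 239) (nat_lit 182)) (XT.nd (nat_lit 78) (nat_lit 0) (nat_lit 0) (XT.lf (nat_lit 0) (nat_lit 42589095313) (nat_lit 76) (nat_lit 66103238120) (nat_lit 76) (nat_lit 49776499864) (nat_lit 1) (nat_lit 4)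 (nat_lit 2) (nat_lit 5) (nat_lit 2) (nat_lit 4) (nat_lit 300) (nat_lit 239) (nat_lit 181)) (XT.lf (nat_lit 0) (nat_lit 52937534119) (nat_lit 76) (nat_lit 67107755250) (nat_lit 76) (nat_lit 50766923470) (nat_lit 1) (nat_lit 4) (nat_lit 2) (nat_lit 5) (nat_lit 2) (nat_lit 4) (nat_lit 301) (nat_lit 239) (nat_lit 180))))) (XT.nd (nat_lit 234) (nat_lit 0) (nat_lit 0) (XT.nd (nat_lit 78) (nat_lit 0) (nat_lit 0) (XT.lf (nat_lit 0) (nat_lit 64102688652) (nat_lit 76) (nat_lit 68197396300) (nat_lit 76) (nat_lit 51843514961) (nat_lit 1) (nat_lit 4) (nat_lit 2) (nat_lit 5) (nat_lit 2) (nat_lit 4) (nat_lit 302) (nat_lit 239) (nat_lit 179)) (XT.nd (nat_lit 78) (nat_lit 0) (nat_lit 0) (XT.lf (nat_lit 0) (nat_lit 76150722791) (nat_lit 76) (nat_lit 69378618401) (nat_lit 76) (nat_lit 53012654137) (nat_lit 1) (nat_lit 4) (nat_lit 2) (nat_lit 5) (nat_lit 2) (nat_lit 4) (nat_lit 303) (nat_lit 239) (nat_lit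 178)) (XT.lf (nat_lit 0) (nat_lit 89153032294) (nat_lit 76) (nat_lit 70658421390) (nat_lit 76) (nat_lit 54281269232) (nat_lit 1) (nat_lit 4) (nat_lit 2) (nat_lit 5) (nat_lit 2) (nat_lit 4) (nat_lit 304) (nat_lit 239) (nat_lit 177)))) (XT.nd (nat_lit 78) (nat_lit 0) (nat_lit 0) (XT.lf (nat_lit 0) (nat_lit 103186667884) (nat_lit 76) (nat_lit 72044389282) (nat_lit 76) (nat_lit 55656877963) (nat_lit 1) (nat_lit 4) (nat_lit 2) (nat_lit 5) (nat_lit 2) (nat_lit 4) (nat_lit 305) (nat_lit 239) (nat_lit 176)) (XT.nd (nat_lit 78) (nat_lit 0) (nat_lit 0) (XT.lf (nat_lit 0) (nat_lit 118334791846) (nat_lit 76) (nat_lit 73544735221) (nat_lit 76) (nat_lit 57147632087) (nat_lit 1) (nat_lit 4) (nat_lit 2) (nat_lit 5) (nat_lit 2) (nat_lit 4) (nat_lit 306) (nat_lit 239) (nat_lit 175)) (XT.lf (nat_lit 0) (nat_lit 134687170840) (nat_lit 76) (nat_lit 75168350147) (nat_lit 76) (nat_lit 58762365702) (nat_lit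 1) (nat_lit 4) (nat_lit 2) (nat_lit 5) (nat_lit 2) (nat_lit 4) (nat_lit 307) (nat_lit 239) (nat_lit 174)))))) (XT.nd (nat_lit 390) (nat_lit 0) (nat_lit 0) (XT.nd (nat_lit 156) (nat_lit 0) (nat_lit 0) (XT.nd (nat_lit 78) (nat_lit 0) (nat_lit 0) (XT.lf (nat_lit 0) (nat_lit 152340707853) (nat_lit 76) (nat_lit 76924855481) (nat_lit 76) (nat_lit 60510647599) (nat_lit 1) (nat_lit 4) (nat_lit 2) (nat_lit 5) (nat_lit 2) (nat_lit 4) (nat_lit 308) (nat_lit 239) (nat_lit 173)) (XT.lf (nat_lit 0) (nat_lit 171400016438) (nat_lit 76) (nat_lit 78824660143) (nat_lit 76) (nat_lit 62402837969) (nat_lit 1) (nat_lit 4) (nat_lit 2) (nat_lit 5) (nat_lit 2) (nat_lit 4) (nat_lit 309) (nat_lit 239) (nat_lit 172))) (XT.nd (nat_lit 78) (nat_lit 0) (nat_lit 0) (XT.lf (nat_lit 0) (nat_lit 191978040646) (nat_lit 76) (nat_lit 80879022235) (nat_lit 76) (nat_lit 64450149790) (nat_lit 1) (nat_lit 4) (nat_lit 2) (nat_lit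 5) (nat_lit 2) (nat_lit 4) (nat_lit 310) (nat_lit 239) (nat_lit 171)) (XT.nd (nat_lit 78) (nat_lit 0) (nat_lit 0) (XT.lf (nat_lit 0) (nat_lit 214196724323) (nat_lit 76) (nat_lit 83100115755) (nat_lit 76) (nat_lit 66664715281) (nat_lit 1) (nat_lit 4) (nat_lit 2) (nat_lit 5) (nat_lit 2) (nat_lit 4) (nat_lit 311) (nat_lit 239) (nat_lit 170)) (XT.lf (nat_lit 0) (nat_lit 238187733744) (nat_lit 76) (nat_lit 85501102738) (nat_lit 76) (nat_lit 69059657793) (nat_lit 1) (nat_lit 4) (nat_lit 2) (nat_lit 5) (nat_lit 2) (nat_lit 4) (nat_lit 312) (nat_lit 239) (nat_lit 169))))) (XT.nd (nat_lit 234) (nat_lit 0) (nat_lit 0) (XT.nd (nat_lit 78) (nat_lit 0) (nat_lit 0) (XT.lf (nat_lit 0) (nat_lit 264093237852) (nat_lit 76) (nat_lit 88096211256) (nat_lit 76) (nat_lit 71649169579) (nat_lit 1) (nat_lit 4) (nat_lit 2) (nat_lit 5) (nat_lit 2) (nat_lit 4) (nat_lit 313) (nat_lit 239) (nat_lit 168)) (XT.nd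 (nat_lit 78) (nat_lit 0) (nat_lit 0) (XT.lf (nat_lit 0) (nat_lit 292066750748) (nat_lit 76) (nat_lit 90900819728) (nat_lit 76) (nat_lit 74448595892) (nat_lit 1) (nat_lit 4) (nat_lit 2) (nat_lit 5) (nat_lit 2) (nat_lit 4) (nat_lit 314) (nat_lit 239) (nat_lit 167)) (XT.lf (nat_lit 0) (nat_lit 322274041395) (nat_lit 76) (nat_lit 93931548059) (nat_lit 76) (nat_lit 77474525926) (nat_lit 1) (nat_lit 4) (nat_lit 2) (nat_lit 5) (nat_lit 2) (nat_lit 4) (nat_lit 315) (nat_lit 239) (nat_lit 166)))) (XT.nd (nat_lit 78) (nat_lit 0) (nat_lit 0) (XT.lf (nat_lit 0) (nat_lit 354894115961) (nat_lit 76) (nat_lit 97206356118) (nat_lit 76) (nat_lit 80744891119) (nat_lit 1) (nat_lit 4) (nat_lit 2) (nat_lit 5) (nat_lit 2) (nat_lit 4) (nat_lit 316) (nat_lit 239) (nat_lit 165)) (XT.nd (nat_lit 78) (nat_lit 0) (nat_lit 0) (XT.lf (nat_lit 0) (nat_lit 390120278591) (nat_lit 76) (nat_lit 100744650175) (nat_lit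 76) (nat_lit 84279071411) (nat_lit 1) (nat_lit 4) (nat_lit 2) (nat_lit 5) (nat_lit 2) (nat_lit 4) (nat_lit 317) (nat_lit 239) (nat_lit 164)) (XT.lf (nat_lit 0) (nat_lit 428161276915) (nat_lit 76) (nat_lit 104567397901) (nat_lit 76) (nat_lit 88098010094) (nat_lit 1) (nat_lit 4) (nat_lit 2) (nat_lit 5) (nat_lit 2) (nat_lit 4) (nat_lit 318) (nat_lit 239) (nat_lit 163))))))))
noncomputable def xc49 : XT := (XT.nd (nat_lit 32058) (nat_lit 0) (nat_lit 608) (XT.nd (nat_lit 858) (nat_lit 0) (nat_lit 0) (XT.nd (nat_lit 390) (nat_lit 0) (nat_lit 0) (XT.nd (nat_lit 156) (nat_lit 0) (nat_lit 0) (XT.nd (nat_lit 78) (nat_lit 0) (nat_lit 0) (XT.lf (nat_lit 0) (nat_lit 469242539073) (nat_lit 76) (nat_lit 108697252613) (nat_lit 76) (nat_lit 92224337916) (nat_lit 1) (nat_lit 4) (nat_lit 2) (nat_lit 5) (nat_lit 2) (nat_lit 4) (nat_lit 319) (nat_lit 239) (nat_lit 162)) (XT.lf (nat_lit 0) (nat_lit 513607509579)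 (nat_lit 76) (nat_lit 113158687526) (nat_lit 76) (nat_lit 96682507189) (nat_lit 1) (nat_lit 4) (nat_lit 2) (nat_lit 5) (nat_lit 2) (nat_lit 4) (nat_lit 320) (nat_lit 239) (nat_lit 161))) (XT.nd (nat_lit 78) (nat_lit 0) (nat_lit 0) (XT.lf (nat_lit 0) (nat_lit 561519091964) (nat_lit 76) (nat_lit 117978140772) (nat_lit 76) (nat_lit 101498936695) (nat_lit 1) (nat_lit 4) (nat_lit 2) (nat_lit 5) (nat_lit 2) (nat_lit 4) (nat_lit 321) (nat_lit 239) (nat_lit 160)) (XT.nd (nat_lit 78) (nat_lit 0) (nat_lit 0) (XT.lf (nat_lit 0) (nat_lit 613261206716) (nat_lit 76) (nat_lit 123184172074) (nat_lit 76) (nat_lit 106702168237) (nat_lit 1) (nat_lit 4) (nat_lit 2) (nat_lit 5) (nat_lit 2) (nat_lit 4) (nat_lit 322) (nat_lit 239) (nat_lit 159)) (XT.lf (nat_lit 0) (nat_lit 669140473773) (nat_lit 76) (nat_lit 128807631987) (nat_lit 76) (nat_lit 112323035781) (nat_lit 1) (nat_lit 4) (nat_lit 2) (nat_lit 5)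 (nat_lit 2) (nat_lit 4) (nat_lit 323) (nat_lit 239) (nat_lit 158))))) (XT.nd (nat_lit 234) (nat_lit 0) (nat_lit 0) (XT.nd (nat_lit 78) (nat_lit 0) (nat_lit 0) (XT.lf (nat_lit 0) (nat_lit 729488029533) (nat_lit 76) (nat_lit 134881844720) (nat_lit 76) (nat_lit 118394848171) (nat_lit 1) (nat_lit 4) (nat_lit 2) (nat_lit 5) (nat_lit 2) (nat_lit 4) (nat_lit 324) (nat_lit 239) (nat_lit 157)) (XT.nd (nat_lit 78) (nat_lit 0) (nat_lit 0) (XT.lf (nat_lit 0) (nat_lit 794661489142) (nat_lit 76) (nat_lit 141442805606) (nat_lit 76) (nat_lit 124953586518) (nat_lit 1) (nat_lit 4) (nat_lit 2) (nat_lit 5) (nat_lit 2) (nat_lit 4) (nat_lit 325) (nat_lit 239) (nat_lit 156)) (XT.lf (nat_lit 0) (nat_lit 865047065693) (nat_lit 76) (nat_lit 148529394414) (nat_lit 76) (nat_lit 132038117419) (nat_lit 1) (nat_lit 4) (nat_lit 2) (nat_lit 5) (nat_lit 2) (nat_lit 4) (nat_lit 326) (nat_lit 239) (nat_lit 155)))) (XT.nd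 (nat_lit 78) (nat_lit 0) (nat_lit 0) (XT.lf (nat_lit 0) (nat_lit 941061858899) (nat_lit 76) (nat_lit 156183605744) (nat_lit 76) (nat_lit 139690423280) (nat_lit 1) (nat_lit 4) (nat_lit 2) (nat_lit 5) (nat_lit 2) (nat_lit 4) (nat_lit 327) (nat_lit 239) (nat_lit 154)) (XT.nd (nat_lit 78) (nat_lit 0) (nat_lit 0) (XT.lf (nat_lit 0) (nat_lit 1023156326794) (nat_lit 76) (nat_lit 164450797886) (nat_lit 76) (nat_lit 147955851098) (nat_lit 1) (nat_lit 4) (nat_lit 2) (nat_lit 5) (nat_lit 2) (nat_lit 4) (nat_lit 328) (nat_lit 239) (nat_lit 153)) (XT.lf (nat_lit 0) (nat_lit 1111816955114) (nat_lit 76) (nat_lit 173379961607) (nat_lit 76) (nat_lit 156883381186) (nat_lit 1) (nat_lit 4) (nat_lit 2) (nat_lit 5) (nat_lit 2) (nat_lit 4) (nat_lit 329) (nat_lit 239) (nat_lit 152)))))) (XT.nd (nat_lit 30732) (nat_lit 0) (nat_lit 2888) (XT.nd (nat_lit 30498) (nat_lit 0) (nat_lit 3496) (XT.nd (nat_lit 78)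 (nat_lit 0) (nat_lit 0) (XT.lf (nat_lit 0) (nat_lit 1207569140174) (nat_lit 76) (nat_lit 183024010471) (nat_lit 76) (nat_lit 166525917427) (nat_lit 1) (nat_lit 4) (nat_lit 2) (nat_lit 5) (nat_lit 2) (nat_lit 4) (nat_lit 330) (nat_lit 239) (nat_lit 151)) (XT.lf (nat_lit 0) (nat_lit 1310980302331) (nat_lit 76) (nat_lit 193440094396) (nat_lit 76) (nat_lit 176940600775) (nat_lit 1) (nat_lit 4) (nat_lit 2) (nat_lit 5) (nat_lit 2) (nat_lit 4) (nat_lit 331) (nat_lit 239) (nat_lit 150))) (XT.nd (nat_lit 78) (nat_lit 76) (nat_lit 0) (XT.lf (nat_lit 0) (nat_lit 1073741823) (nat_lit 0) (nat_lit 0) (nat_lit 0) (nat_lit 0) (nat_lit 48) (nat_lit 0) (nat_lit 1) (nat_lit 0) (nat_lit 1) (nat_lit 0) (nat_lit 240) (nat_lit 240) (nat_lit 240)) (XT.nd (nat_lit 78) (nat_lit 0) (nat_lit 0) (XT.lf (nat_lit 0) (nat_lit 2577879035) (nat_lit 76) (nat_lit 3739810855) (nat_lit 0) (nat_lit 132133770) (nat_lit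 47) (nat_lit 5) (nat_lit 48) (nat_lit 0) (nat_lit 47) (nat_lit 4) (nat_lit 241) (nat_lit 240) (nat_lit 239)) (XT.lf (nat_lit 0) (nat_lit 5107508541) (nat_lit 76) (nat_lit 977863338) (nat_lit 0) (nat_lit 397184325) (nat_lit 47) (nat_lit 5) (nat_lit 48) (nat_lit 0) (nat_lit 47) (nat_lit 4) (nat_lit 242) (nat_lit 240) (nat_lit 238))))) (XT.nd (nat_lit 234) (nat_lit 304) (nat_lit 0) (XT.nd (nat_lit 78) (nat_lit 152) (nat_lit 0) (XT.lf (nat_lit 0) (nat_lit 1058164403) (nat_lit 152) (nat_lit 4606174617) (nat_lit 76) (nat_lit 870593807) (nat_lit 45) (nat_lit 5) (nat_lit 47) (nat_lit 5) (nat_lit 46) (nat_lit 4) (nat_lit 243) (nat_lit 240) (nat_lit 237)) (XT.nd (nat_lit 78) (nat_lit 152) (nat_lit 0) (XT.lf (nat_lit 0) (nat_lit 3408246696) (nat_lit 152) (nat_lit 1659514892) (nat_lit 76) (nat_lit 1540662712) (nat_lit 45) (nat_lit 5) (nat_lit 47) (nat_lit 5) (nat_lit 46) (nat_lit 4) (nat_lit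 244) (nat_lit 240) (nat_lit 236)) (XT.lf (nat_lit 0) (nat_lit 1449785366) (nat_lit 152) (nat_lit 4317594042) (nat_lit 228) (nat_lit 937974850) (nat_lit 43) (nat_lit 5) (nat_lit 45) (nat_lit 5) (nat_lit 46) (nat_lit 4) (nat_lit 245) (nat_lit 240) (nat_lit 235)))) (XT.nd (nat_lit 78) (nat_lit 228) (nat_lit 0) (XT.lf (nat_lit 0) (nat_lit 1266978768) (nat_lit 228) (nat_lit 2097320589) (nat_lit 76) (nat_lit 3458657625) (nat_lit 42) (nat_lit 5) (nat_lit 45) (nat_lit 5) (nat_lit 43) (nat_lit 5) (nat_lit 246) (nat_lit 240) (nat_lit 234)) (XT.nd (nat_lit 78) (nat_lit 0) (nat_lit 0) (XT.lf (nat_lit 0) (nat_lit 1205314797) (nat_lit 228) (nat_lit 2227362303) (nat_lit 304) (nat_lit 3531114049) (nat_lit 39) (nat_lit 5) (nat_lit 42) (nat_lit 5) (nat_lit 43) (nat_lit 5) (nat_lit 247) (nat_lit 240) (nat_lit 233)) (XT.lf (nat_lit 0) (nat_lit 4750883717) (nat_lit 228) (nat_lit 895115036) (nat_lit 304)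 (nat_lit 1482327362) (nat_lit 39) (nat_lit 5) (nat_lit 42) (nat_lit 5) (nat_lit 43) (nat_lit 5) (nat_lit 248) (nat_lit 240) (nat_lit 232))))))) (XT.nd (nat_lit 858) (nat_lit 608) (nat_lit 0) (XT.nd (nat_lit 390) (nat_lit 456) (nat_lit 0) (XT.nd (nat_lit 156) (nat_lit 836) (nat_lit 0) (XT.nd (nat_lit 78) (nat_lit 0) (nat_lit 0) (XT.lf (nat_lit 0) (nat_lit 561230449) (nat_lit 380) (nat_lit 6159795518) (nat_lit 76) (nat_lit 596243818) (nat_lit 34) (nat_lit 5) (nat_lit 39) (nat_lit 5) (nat_lit 35) (nat_lit 5) (nat_lit 249) (nat_lit 240) (nat_lit 231)) (XT.lf (nat_lit 0) (nat_lit 2612606954) (nat_lit 380) (nat_lit 2622915719) (nat_lit 76) (nat_lit 2290664723) (nat_lit 34) (nat_lit 5) (nat_lit 39) (nat_lit 5) (nat_lit 35) (nat_lit 5) (nat_lit 250) (nat_lit 240) (nat_lit 230))) (XT.nd (nat_lit 78) (nat_lit 456) (nat_lit 0) (XT.lf (nat_lit 0) (nat_lit 1110095549) (nat_lit 380) (nat_lit 3591433461)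 (nat_lit 456) (nat_lit 3062166486) (nat_lit 29) (nat_lit 5) (nat_lit 34) (nat_lit 5) (nat_lit 35) (nat_lit 5) (nat_lit 251) (nat_lit 240) (nat_lit 229)) (XT.nd (nat_lit 78) (nat_lit 456) (nat_lit 0) (XT.lf (nat_lit 0) (nat_lit 5152168677) (nat_lit 380) (nat_lit 1731864835) (nat_lit 456) (nat_lit 1143675382) (nat_lit 29) (nat_lit 5) (nat_lit 34) (nat_lit 5) (nat_lit 35) (nat_lit 5) (nat_lit 252) (nat_lit 240) (nat_lit 228)) (XT.lf (nat_lit 0) (nat_lit 776881509) (nat_lit 456) (nat_lit 7229174662) (nat_lit 76) (nat_lit 314789993) (nat_lit 23) (nat_lit 5) (nat_lit 29) (nat_lit 5) (nat_lit 24) (nat_lit 5) (nat_lit 253) (nat_lit 240) (nat_lit 227))))) (XT.nd (nat_lit 234) (nat_lit 228) (nat_lit 0) (XT.nd (nat_lit 78) (nat_lit 228) (nat_lit 0) (XT.lf (nat_lit 0) (nat_lit 2782611210) (nat_lit 456) (nat_lit 3313645832) (nat_lit 76) (nat_lit 2540623298) (nat_lit 23) (nat_lit 5) (nat_lit 29)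 (nat_lit 5) (nat_lit 24) (nat_lit 5) (nat_lit 254) (nat_lit 240) (nat_lit 226)) (XT.nd (nat_lit 78) (nat_lit 0) (nat_lit 0) (XT.lf (nat_lit 0) (nat_lit 821434964) (nat_lit 228) (nat_lit 4024590621) (nat_lit 304) (nat_lit 4141585887) (nat_lit 20) (nat_lit 5) (nat_lit 23) (nat_lit 5) (nat_lit 24) (nat_lit 5) (nat_lit 255) (nat_lit 240) (nat_lit 225)) (XT.lf (nat_lit 0) (nat_lit 5344402555) (nat_lit 228) (nat_lit 1704099070) (nat_lit 304) (nat_lit 2321084394) (nat_lit 20) (nat_lit 5) (nat_lit 23) (nat_lit 5) (nat_lit 24) (nat_lit 5) (nat_lit 256) (nat_lit 240) (nat_lit 224)))) (XT.nd (nat_lit 78) (nat_lit 76) (nat_lit 0) (XT.lf (nat_lit 0) (nat_lit 312460560) (nat_lit 152) (nat_lit 9033215654) (nat_lit 228) (nat_lit 443984501) (nat_lit 18) (nat_lit 5) (nat_lit 20) (nat_lit 5) (nat_lit 21) (nat_lit 4) (nat_lit 257) (nat_lit 240) (nat_lit 223)) (XT.nd (nat_lit 78) (nat_lit 0) (nat_lit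 0) (XT.lf (nat_lit 0) (nat_lit 1554323354) (nat_lit 228) (nat_lit 5227865774) (nat_lit 76) (nat_lit 3454963035) (nat_lit 17) (nat_lit 5) (nat_lit 20) (nat_lit 5) (nat_lit 18) (nat_lit 5) (nat_lit 258) (nat_lit 240) (nat_lit 222)) (XT.lf (nat_lit 0) (nat_lit 3589495874) (nat_lit 228) (nat_lit 774340587) (nat_lit 76) (nat_lit 6364416440) (nat_lit 17) (nat_lit 5) (nat_lit 20) (nat_lit 5) (nat_lit 18) (nat_lit 5) (nat_lit 259) (nat_lit 240) (nat_lit 221)))))) (XT.nd (nat_lit 390) (nat_lit 228) (nat_lit 0) (XT.nd (nat_lit 156) (nat_lit 228) (nat_lit 0) (XT.nd (nat_lit 78) (nat_lit 0) (nat_lit 0) (XT.lf (nat_lit 0) (nat_lit 4126888164) (nat_lit 152) (nat_lit 1668166835) (nat_lit 228) (nat_lit 5463732240) (nat_lit 15) (nat_lit 5) (nat_lit 17) (nat_lit 5) (nat_lit 18) (nat_lit 5) (nat_lit 260) (nat_lit 240) (nat_lit 220)) (XT.lf (nat_lit 0) (nat_lit 8140504536) (nat_lit 228) (nat_lit 2515488535)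 (nat_lit 76) (nat_lit 1179391309) (nat_lit 15) (nat_lit 5) (nat_lit 18) (nat_lit 5) (nat_lit 16) (nat_lit 4) (nat_lit 261) (nat_lit 240) (nat_lit 219))) (XT.nd (nat_lit 78) (nat_lit 76) (nat_lit 0) (XT.lf (nat_lit 0) (nat_lit 2438497946) (nat_lit 152) (nat_lit 8255424417) (nat_lit 228) (nat_lit 1763204518) (nat_lit 13) (nat_lit 5) (nat_lit 15) (nat_lit 5) (nat_lit 16) (nat_lit 4) (nat_lit 262) (nat_lit 240) (nat_lit 218)) (XT.nd (nat_lit 78) (nat_lit 0) (nat_lit 0) (XT.lf (nat_lit 0) (nat_lit 296631120) (nat_lit 228) (nat_lit 5313202581) (nat_lit 76) (nat_lit 7519523151) (nat_lit 12) (nat_lit 5) (nat_lit 15) (nat_lit 5) (nat_lit 13) (nat_lit 5) (nat_lit 263) (nat_lit 240) (nat_lit 217)) (XT.lf (nat_lit 0) (nat_lit 2351198418) (nat_lit 228) (nat_lit 381216239) (nat_lit 76) (nat_lit 11125781839) (nat_lit 12) (nat_lit 5) (nat_lit 15) (nat_lit 5) (nat_lit 13) (nat_lit 5) (nat_lit 264)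 (nat_lit 240) (nat_lit 216))))) (XT.nd (nat_lit 234) (nat_lit 0) (nat_lit 0) (XT.nd (nat_lit 78) (nat_lit 76) (nat_lit 0) (XT.lf (nat_lit 0) (nat_lit 4635193771) (nat_lit 228) (nat_lit 9548797090) (nat_lit 76) (nat_lit 456620925) (nat_lit 10) (nat_lit 5) (nat_lit 13) (nat_lit 5) (nat_lit 11) (nat_lit 4) (nat_lit 265) (nat_lit 240) (nat_lit 215)) (XT.nd (nat_lit 78) (nat_lit 76) (nat_lit 0) (XT.lf (nat_lit 0) (nat_lit 7116527240) (nat_lit 228) (nat_lit 4630675114) (nat_lit 76) (nat_lit 3737686881) (nat_lit 10) (nat_lit 5) (nat_lit 13) (nat_lit 5) (nat_lit 11) (nat_lit 4) (nat_lit 266) (nat_lit 240) (nat_lit 214)) (XT.lf (nat_lit 0) (nat_lit 620243783) (nat_lit 76) (nat_lit 9128959762) (nat_lit 152) (nat_lit 6651684384) (nat_lit 9) (nat_lit 5) (nat_lit 10) (nat_lit 5) (nat_lit 11) (nat_lit 4) (nat_lit 267) (nat_lit 240) (nat_lit 213)))) (XT.nd (nat_lit 78) (nat_lit 0) (nat_lit 0) (XT.lf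 (nat_lit 0) (nat_lit 6465227857) (nat_lit 76) (nat_lit 6194245726) (nat_lit 152) (nat_lit 4725710432) (nat_lit 9) (nat_lit 5) (nat_lit 10) (nat_lit 5) (nat_lit 11) (nat_lit 4) (nat_lit 268) (nat_lit 240) (nat_lit 212)) (XT.nd (nat_lit 78) (nat_lit 0) (nat_lit 0) (XT.lf (nat_lit 0) (nat_lit 12695070906) (nat_lit 76) (nat_lit 3052280214) (nat_lit 152) (nat_lit 2705637826) (nat_lit 9) (nat_lit 5) (nat_lit 10) (nat_lit 5) (nat_lit 11) (nat_lit 4) (nat_lit 269) (nat_lit 240) (nat_lit 211)) (XT.lf (nat_lit 0) (nat_lit 19038723816) (nat_lit 152) (nat_lit 271529061) (nat_lit 0) (nat_lit 299770447) (nat_lit 9) (nat_lit 5) (nat_lit 11) (nat_lit 4) (nat_lit 9) (nat_lit 4) (nat_lit 270) (nat_lit 240) (nat_lit 210))))))))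
noncomputable def xc50 : XT := (XT.nd (nat_lit 1716) (nat_lit 76) (nat_lit 0) (XT.nd (nat_lit 858) (nat_lit 152) (nat_lit 0) (XT.nd (nat_lit 390) (nat_lit 76) (nat_lit 0) (XT.nd (nat_lit 156) (nat_lit 76) (nat_lit 0) (XT.nd (nat_lit 78) (nat_lit 0) (nat_lit 0) (XT.lf (nat_lit 0) (nat_lit 1821819739) (nat_lit 228) (nat_lit 15102732071) (nat_lit 76) (nat_lit 3918027921) (nat_lit 6) (nat_lit 5) (nat_lit 9) (nat_lit 5) (nat_lit 7) (nat_lit 4) (nat_lit 271) (nat_lit 240) (nat_lit 209)) (XT.lf (nat_lit 0) (nat_lit 4335579006) (nat_lit 228) (nat_lit 10015931095) (nat_lit 76) (nat_lit 7824494807) (nat_lit 6) (nat_lit 5) (nat_lit 9) (nat_lit 5) (nat_lit 7) (nat_lit 4) (nat_lit 272) (nat_lit 240) (nat_lit 208))) (XT.nd (nat_lit 78) (nat_lit 76) (nat_lit 0) (XT.lf (nat_lit 0) (nat_lit 7006400653) (nat_lit 228) (nat_lit 4591935307) (nat_lit 76) (nat_lit 12021528068) (nat_lit 6) (nat_lit 5) (nat_lit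 9) (nat_lit 5) (nat_lit 7) (nat_lit 4) (nat_lit 273) (nat_lit 240) (nat_lit 207)) (XT.nd (nat_lit 78) (nat_lit 0) (nat_lit 0) (XT.lf (nat_lit 0) (nat_lit 1264660951) (nat_lit 76) (nat_lit 8615865947) (nat_lit 152) (nat_lit 15299753188) (nat_lit 5) (nat_lit 5) (nat_lit 6) (nat_lit 5) (nat_lit 7) (nat_lit 4) (nat_lit 274) (nat_lit 240) (nat_lit 206)) (XT.lf (nat_lit 0) (nat_lit 7787984691) (nat_lit 76) (nat_lit 5282880514) (nat_lit 152) (nat_lit 13787964739) (nat_lit 5) (nat_lit 5) (nat_lit 6) (nat_lit 5) (nat_lit 7) (nat_lit 4) (nat_lit 275) (nat_lit 240) (nat_lit 205))))) (XT.nd (nat_lit 234) (nat_lit 76) (nat_lit 0) (XT.nd (nat_lit 78) (nat_lit 0) (nat_lit 0) (XT.lf (nat_lit 0) (nat_lit 14774889468) (nat_lit 76) (nat_lit 1705180284) (nat_lit 152) (nat_lit 12194690931) (nat_lit 5) (nat_lit 5) (nat_lit 6) (nat_lit 5) (nat_lit 7) (nat_lit 4) (nat_lit 276) (nat_lit 240) (nat_lit 204))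 (XT.nd (nat_lit 78) (nat_lit 0) (nat_lit 0) (XT.lf (nat_lit 0) (nat_lit 20179772672) (nat_lit 152) (nat_lit 8423483650) (nat_lit 0) (nat_lit 2031462701) (nat_lit 5) (nat_lit 5) (nat_lit 7) (nat_lit 4) (nat_lit 5) (nat_lit 4) (nat_lit 277) (nat_lit 240) (nat_lit 203)) (XT.lf (nat_lit 0) (nat_lit 24188116625) (nat_lit 152) (nat_lit 2605448386) (nat_lit 0) (nat_lit 5957057039) (nat_lit 5) (nat_lit 5) (nat_lit 7) (nat_lit 4) (nat_lit 5) (nat_lit 4) (nat_lit 278) (nat_lit 240) (nat_lit 202)))) (XT.nd (nat_lit 78) (nat_lit 0) (nat_lit 0) (XT.lf (nat_lit 0) (nat_lit 3820856148) (nat_lit 76) (nat_lit 24758880668) (nat_lit 76) (nat_lit 6451201068) (nat_lit 4) (nat_lit 4) (nat_lit 5) (nat_lit 5) (nat_lit 5) (nat_lit 4) (nat_lit 279) (nat_lit 240) (nat_lit 201)) (XT.nd (nat_lit 78) (nat_lit 0) (nat_lit 0) (XT.lf (nat_lit 0) (nat_lit 10862353947) (nat_lit 76) (nat_lit 22503323998) (nat_lit 76)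 (nat_lit 4124699941) (nat_lit 4) (nat_lit 4) (nat_lit 5) (nat_lit 5) (nat_lit 5) (nat_lit 4) (nat_lit 280) (nat_lit 240) (nat_lit 200)) (XT.lf (nat_lit 0) (nat_lit 18423574110) (nat_lit 76) (nat_lit 20084766315) (nat_lit 76) (nat_lit 1640452946) (nat_lit 4) (nat_lit 4) (nat_lit 5) (nat_lit 5) (nat_lit 5) (nat_lit 4) (nat_lit 281) (nat_lit 240) (nat_lit 199)))))) (XT.nd (nat_lit 390) (nat_lit 0) (nat_lit 0) (XT.nd (nat_lit 156) (nat_lit 76) (nat_lit 0) (XT.nd (nat_lit 78) (nat_lit 0) (nat_lit 0) (XT.lf (nat_lit 0) (nat_lit 965423868) (nat_lit 152) (nat_lit 16497055158) (nat_lit 76) (nat_lit 25557503600) (nat_lit 3) (nat_lit 5) (nat_lit 5) (nat_lit 5) (nat_lit 4) (nat_lit 4) (nat_lit 282) (nat_lit 240) (nat_lit 198)) (XT.lf (nat_lit 0) (nat_lit 3668034340) (nat_lit 152) (nat_lit 10931943375) (nat_lit 76) (nat_lit 31519430914) (nat_lit 3) (nat_lit 5) (nat_lit 5) (nat_lit 5) (nat_lit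 4) (nat_lit 4) (nat_lit 283) (nat_lit 240) (nat_lit 197))) (XT.nd (nat_lit 78) (nat_lit 76) (nat_lit 0) (XT.lf (nat_lit 0) (nat_lit 6565456036) (nat_lit 152) (nat_lit 4957452541) (nat_lit 76) (nat_lit 37945686004) (nat_lit 3) (nat_lit 5) (nat_lit 5) (nat_lit 5) (nat_lit 4) (nat_lit 4) (nat_lit 284) (nat_lit 240) (nat_lit 196)) (XT.nd (nat_lit 78) (nat_lit 0) (nat_lit 0) (XT.lf (nat_lit 0) (nat_lit 1538798678) (nat_lit 76) (nat_lit 8173068331) (nat_lit 152) (nat_lit 43372559851) (nat_lit 2) (nat_lit 5) (nat_lit 3) (nat_lit 5) (nat_lit 4) (nat_lit 4) (nat_lit 285) (nat_lit 240) (nat_lit 195)) (XT.lf (nat_lit 0) (nat_lit 8804348783) (nat_lit 76) (nat_lit 4422064932) (nat_lit 152) (nat_lit 43753878821) (nat_lit 2) (nat_lit 5) (nat_lit 3) (nat_lit 5) (nat_lit 4) (nat_lit 4) (nat_lit 286) (nat_lit 240) (nat_lit 194))))) (XT.nd (nat_lit 234) (nat_lit 0) (nat_lit 0) (XT.nd (nat_lit 78) (nat_lit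 0) (nat_lit 0) (XT.lf (nat_lit 0) (nat_lit 16621202220) (nat_lit 76) (nat_lit 383215748) (nat_lit 152) (nat_lit 44184900661) (nat_lit 2) (nat_lit 5) (nat_lit 3) (nat_lit 5) (nat_lit 4) (nat_lit 4) (nat_lit 287) (nat_lit 240) (nat_lit 193)) (XT.nd (nat_lit 78) (nat_lit 0) (nat_lit 0) (XT.lf (nat_lit 0) (nat_lit 21163684324) (nat_lit 152) (nat_lit 40796182814) (nat_lit 0) (nat_lit 3768947068) (nat_lit 2) (nat_lit 5) (nat_lit 4) (nat_lit 4) (nat_lit 2) (nat_lit 4) (nat_lit 288) (nat_lit 240) (nat_lit 192)) (XT.lf (nat_lit 0) (nat_lit 25650213178) (nat_lit 152) (nat_lit 36759143661) (nat_lit 0) (nat_lit 8222614911) (nat_lit 2) (nat_lit 5) (nat_lit 4) (nat_lit 4) (nat_lit 2) (nat_lit 4) (nat_lit 289) (nat_lit 240) (nat_lit 191)))) (XT.nd (nat_lit 78) (nat_lit 0) (nat_lit 0) (XT.lf (nat_lit 0) (nat_lit 30481375019) (nat_lit 152) (nat_lit 32423859407) (nat_lit 0) (nat_lit 13023349891) (nat_lit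 2) (nat_lit 5) (nat_lit 4) (nat_lit 4) (nat_lit 2) (nat_lit 4) (nat_lit 290) (nat_lit 240) (nat_lit 190)) (XT.nd (nat_lit 78) (nat_lit 0) (nat_lit 0) (XT.lf (nat_lit 0) (nat_lit 35685798957) (nat_lit 152) (nat_lit 27764639479) (nat_lit 0) (nat_lit 18199600809) (nat_lit 2) (nat_lit 5) (nat_lit 4) (nat_lit 4) (nat_lit 2) (nat_lit 4) (nat_lit 291) (nat_lit 240) (nat_lit 189)) (XT.lf (nat_lit 0) (nat_lit 41294326020) (nat_lit 152) (nat_lit 22753873684) (nat_lit 0) (nat_lit 23782041742) (nat_lit 2) (nat_lit 5) (nat_lit 4) (nat_lit 4) (nat_lit 2) (nat_lit 4) (nat_lit 292) (nat_lit 240) (nat_lit 188))))))) (XT.nd (nat_lit 858) (nat_lit 0) (nat_lit 0) (XT.nd (nat_lit 390) (nat_lit 0) (nat_lit 0) (XT.nd (nat_lit 156) (nat_lit 76) (nat_lit 0) (XT.nd (nat_lit 78) (nat_lit 0) (nat_lit 0) (XT.lf (nat_lit 0) (nat_lit 47340191925) (nat_lit 152) (nat_lit 17361868595) (nat_lit 0) (nat_lit 29803753823)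 (nat_lit 2) (nat_lit 5) (nat_lit 4) (nat_lit 4) (nat_lit 2) (nat_lit 4) (nat_lit 293) (nat_lit 240) (nat_lit 187)) (XT.lf (nat_lit 0) (nat_lit 53859224025) (nat_lit 152) (nat_lit 11556671590) (nat_lit 0) (nat_lit 36300421272) (nat_lit 2) (nat_lit 5) (nat_lit 4) (nat_lit 4) (nat_lit 2) (nat_lit 4) (nat_lit 294) (nat_lit 240) (nat_lit 186))) (XT.nd (nat_lit 78) (nat_lit 76) (nat_lit 0) (XT.lf (nat_lit 0) (nat_lit 60890053622) (nat_lit 152) (nat_lit 5303881501) (nat_lit 0) (nat_lit 43310542858) (nat_lit 2) (nat_lit 5) (nat_lit 4) (nat_lit 4) (nat_lit 2) (nat_lit 4) (nat_lit 295) (nat_lit 240) (nat_lit 185)) (XT.nd (nat_lit 78) (nat_lit 0) (nat_lit 0) (XT.lf (nat_lit 0) (nat_lit 1509043720) (nat_lit 76) (nat_lit 67001593708) (nat_lit 76) (nat_lit 49402908860) (nat_lit 1) (nat_lit 4) (nat_lit 2) (nat_lit 5) (nat_lit 2) (nat_lit 4) (nat_lit 296) (nat_lit 240) (nat_lit 184)) (XT.lf (nat_lit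 0) (nat_lit 9153457191) (nat_lit 76) (nat_lit 67723725454) (nat_lit 76) (nat_lit 50107286825) (nat_lit 1) (nat_lit 4) (nat_lit 2) (nat_lit 5) (nat_lit 2) (nat_lit 4) (nat_lit 297) (nat_lit 240) (nat_lit 183))))) (XT.nd (nat_lit 234) (nat_lit 0) (nat_lit 0) (XT.nd (nat_lit 78) (nat_lit 0) (nat_lit 0) (XT.lf (nat_lit 0) (nat_lit 17395366139) (nat_lit 76) (nat_lit 68509627180) (nat_lit 76) (nat_lit 50876749864) (nat_lit 1) (nat_lit 4) (nat_lit 2) (nat_lit 5) (nat_lit 2) (nat_lit 4) (nat_lit 298) (nat_lit 240) (nat_lit 182)) (XT.nd (nat_lit 78) (nat_lit 0) (nat_lit 0) (XT.lf (nat_lit 0) (nat_lit 26283611505) (nat_lit 76) (nat_lit 69363956082) (nat_lit 76) (nat_lit 51715857760) (nat_lit 1) (nat_lit 4) (nat_lit 2) (nat_lit 5) (nat_lit 2) (nat_lit 4) (nat_lit 299) (nat_lit 240) (nat_lit 181)) (XT.lf (nat_lit 0) (nat_lit 35870864373) (nat_lit 76) (nat_lit 70291774848) (nat_lit 76) (nat_lit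 52629583002) (nat_lit 1) (nat_lit 4) (nat_lit 2) (nat_lit 5) (nat_lit 2) (nat_lit 4) (nat_lit 300) (nat_lit 240) (nat_lit 180)))) (XT.nd (nat_lit 78) (nat_lit 0) (nat_lit 0) (XT.lf (nat_lit 0) (nat_lit 46213938093) (nat_lit 76) (nat_lit 71298581666) (nat_lit 76) (nat_lit 53623340260) (nat_lit 1) (nat_lit 4) (nat_lit 2) (nat_lit 5) (nat_lit 2) (nat_lit 4) (nat_lit 301) (nat_lit 240) (nat_lit 179)) (XT.nd (nat_lit 78) (nat_lit 0) (nat_lit 0) (XT.lf (nat_lit 0) (nat_lit 57374124955) (nat_lit 76) (nat_lit 72390342796) (nat_lit 76) (nat_lit 54703018466) (nat_lit 1) (nat_lit 4) (nat_lit 2) (nat_lit 5) (nat_lit 2) (nat_lit 4) (nat_lit 302) (nat_lit 240) (nat_lit 178)) (XT.lf (nat_lit 0) (nat_lit 69417559398) (nat_lit 76) (nat_lit 73573527936) (nat_lit 76) (nat_lit 55875015711) (nat_lit 1) (nat_lit 4) (nat_lit 2) (nat_lit 5) (nat_lit 2) (nat_lit 4) (nat_lit 303) (nat_lit 240) (nat_lit 177))))))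 (XT.nd (nat_lit 390) (nat_lit 0) (nat_lit 0) (XT.nd (nat_lit 156) (nat_lit 0) (nat_lit 0) (XT.nd (nat_lit 78) (nat_lit 0) (nat_lit 0) (XT.lf (nat_lit 0) (nat_lit 82415609924) (nat_lit 76) (nat_lit 74855148551) (nat_lit 76) (nat_lit 57146277166) (nat_lit 1) (nat_lit 4) (nat_lit 2) (nat_lit 5) (nat_lit 2) (nat_lit 4) (nat_lit 304) (nat_lit 240) (nat_lit 176)) (XT.lf (nat_lit 0) (nat_lit 96445302016) (nat_lit 76) (nat_lit 76242799432) (nat_lit 76) (nat_lit 58524336231) (nat_lit 1) (nat_lit 4) (nat_lit 2) (nat_lit 5) (nat_lit 2) (nat_lit 4) (nat_lit 305) (nat_lit 240) (nat_lit 175))) (XT.nd (nat_lit 78) (nat_lit 0) (nat_lit 0) (XT.lf (nat_lit 0) (nat_lit 111589774591) (nat_lit 76) (nat_lit 77744703694) (nat_lit 76) (nat_lit 60017359182) (nat_lit 1) (nat_lit 4) (nat_lit 2) (nat_lit 5) (nat_lit 2) (nat_lit 4) (nat_lit 306) (nat_lit 240) (nat_lit 174)) (XT.nd (nat_lit 78) (nat_lit 0) (nat_lit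 0) (XT.lf (nat_lit 0) (nat_lit 127938772671) (nat_lit 76) (nat_lit 79369761511) (nat_lit 76) (nat_lit 61634193563) (nat_lit 1) (nat_lit 4) (nat_lit 2) (nat_lit 5) (nat_lit 2) (nat_lit 4) (nat_lit 307) (nat_lit 240) (nat_lit 173)) (XT.lf (nat_lit 0) (nat_lit 145589179209) (nat_lit 76) (nat_lit 81127602855) (nat_lit 76) (nat_lit 63384420614) (nat_lit 1) (nat_lit 4) (nat_lit 2) (nat_lit 5) (nat_lit 2) (nat_lit 4) (nat_lit 308) (nat_lit 240) (nat_lit 172))))) (XT.nd (nat_lit 234) (nat_lit 0) (nat_lit 0) (XT.nd (nat_lit 78) (nat_lit 0) (nat_lit 0) (XT.lf (nat_lit 0) (nat_lit 164645589205) (nat_lit 76) (nat_lit 83028644564) (nat_lit 76) (nat_lit 65278412052) (nat_lit 1) (nat_lit 4) (nat_lit 2) (nat_lit 5) (nat_lit 2) (nat_lit 4) (nat_lit 309) (nat_lit 240) (nat_lit 171)) (XT.nd (nat_lit 78) (nat_lit 0) (nat_lit 0) (XT.lf (nat_lit 0) (nat_lit 185220929535) (nat_lit 76) (nat_lit 85084152070)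 (nat_lit 76) (nat_lit 67327391529) (nat_lit 1) (nat_lit 4) (nat_lit 2) (nat_lit 5) (nat_lit 2) (nat_lit 4) (nat_lit 310) (nat_lit 240) (nat_lit 170)) (XT.lf (nat_lit 0) (nat_lit 207437128139) (nat_lit 76) (nat_lit 87306306158) (nat_lit 76) (nat_lit 69543501146) (nat_lit 1) (nat_lit 4) (nat_lit 2) (nat_lit 5) (nat_lit 2) (nat_lit 4) (nat_lit 311) (nat_lit 240) (nat_lit 169)))) (XT.nd (nat_lit 78) (nat_lit 0) (nat_lit 0) (XT.lf (nat_lit 0) (nat_lit 231425836567) (nat_lit 76) (nat_lit 89708275148) (nat_lit 76) (nat_lit 71939873405) (nat_lit 1) (nat_lit 4) (nat_lit 2) (nat_lit 5) (nat_lit 2) (nat_lit 4) (nat_lit 312) (nat_lit 240) (nat_lit 168)) (XT.nd (nat_lit 78) (nat_lit 0) (nat_lit 0) (XT.lf (nat_lit 0) (nat_lit 257329210127) (nat_lit 76) (nat_lit 92304292932) (nat_lit 76) (nat_lit 74530709029) (nat_lit 1) (nat_lit 4) (nat_lit 2) (nat_lit 5) (nat_lit 2) (nat_lit 4) (nat_lit 313) (nat_lit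 240) (nat_lit 167)) (XT.lf (nat_lit 0) (nat_lit 285300750291) (nat_lit 76) (nat_lit 95109743318) (nat_lit 76) (nat_lit 77331361119) (nat_lit 1) (nat_lit 4) (nat_lit 2) (nat_lit 5) (nat_lit 2) (nat_lit 4) (nat_lit 314) (nat_lit 240) (nat_lit 166))))))))
noncomputable def xc51 : XT := (XT.nd (nat_lit 32136) (nat_lit 0) (nat_lit 684) (XT.nd (nat_lit 858) (nat_lit 0) (nat_lit 0) (XT.nd (nat_lit 390) (nat_lit 0) (nat_lit 0) (XT.nd (nat_lit 156) (nat_lit 0) (nat_lit 0) (XT.nd (nat_lit 78) (nat_lit 0) (nat_lit 0) (XT.lf (nat_lit 0) (nat_lit 315506214336) (nat_lit 76) (nat_lit 98141251198) (nat_lit 76) (nat_lit 80358426132) (nat_lit 1) (nat_lit 4) (nat_lit 2) (nat_lit 5) (nat_lit 2) (nat_lit 4) (nat_lit 315) (nat_lit 240) (nat_lit 165)) (XT.lf (nat_lit 0) (nat_lit 348124597603) (nat_lit 76) (nat_lit 101416781062) (nat_lit 76) (nat_lit 83629842231) (nat_lit 1) (nat_lit 4) (nat_lit 2) (nat_lit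 5) (nat_lit 2) (nat_lit 4) (nat_lit 316) (nat_lit 240) (nat_lit 164))) (XT.nd (nat_lit 78) (nat_lit 0) (nat_lit 0) (XT.lf (nat_lit 0) (nat_lit 383349194216) (nat_lit 76) (nat_lit 104955743457) (nat_lit 76) (nat_lit 87164995584) (nat_lit 1) (nat_lit 4) (nat_lit 2) (nat_lit 5) (nat_lit 2) (nat_lit 4) (nat_lit 317) (nat_lit 240) (nat_lit 163)) (XT.nd (nat_lit 78) (nat_lit 0) (nat_lit 0) (XT.lf (nat_lit 0) (nat_lit 421388742525) (nat_lit 76) (nat_lit 108779110014) (nat_lit 76) (nat_lit 90984835250) (nat_lit 1) (nat_lit 4) (nat_lit 2) (nat_lit 5) (nat_lit 2) (nat_lit 4) (nat_lit 318) (nat_lit 240) (nat_lit 162)) (XT.lf (nat_lit 0) (nat_lit 462468662075) (nat_lit 76) (nat_lit 112909537718) (nat_lit 76) (nat_lit 95111997315) (nat_lit 1) (nat_lit 4) (nat_lit 2) (nat_lit 5) (nat_lit 2) (nat_lit 4) (nat_lit 319) (nat_lit 240) (nat_lit 161))))) (XT.nd (nat_lit 234) (nat_lit 0) (nat_lit 0) (XT.nd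 (nat_lit 78) (nat_lit 0) (nat_lit 0) (XT.lf (nat_lit 0) (nat_lit 506832389426) (nat_lit 76) (nat_lit 117371503179) (nat_lit 76) (nat_lit 99570939036) (nat_lit 1) (nat_lit 4) (nat_lit 2) (nat_lit 5) (nat_lit 2) (nat_lit 4) (nat_lit 320) (nat_lit 240) (nat_lit 160)) (XT.nd (nat_lit 78) (nat_lit 0) (nat_lit 0) (XT.lf (nat_lit 0) (nat_lit 554742820742) (nat_lit 76) (nat_lit 122191447673) (nat_lit 76) (nat_lit 104388083770) (nat_lit 1) (nat_lit 4) (nat_lit 2) (nat_lit 5) (nat_lit 2) (nat_lit 4) (nat_lit 321) (nat_lit 240) (nat_lit 159)) (XT.lf (nat_lit 0) (nat_lit 606483869688) (nat_lit 76) (nat_lit 127397933835) (nat_lit 76) (nat_lit 109591977562) (nat_lit 1) (nat_lit 4) (nat_lit 2) (nat_lit 5) (nat_lit 2) (nat_lit 4) (nat_lit 322) (nat_lit 240) (nat_lit 158)))) (XT.nd (nat_lit 78) (nat_lit 0) (nat_lit 0) (XT.lf (nat_lit 0) (nat_lit 662362149889) (nat_lit 76) (nat_lit 133021814915) (nat_lit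 76) (nat_lit 115213458299) (nat_lit 1) (nat_lit 4) (nat_lit 2) (nat_lit 5) (nat_lit 2) (nat_lit 4) (nat_lit 323) (nat_lit 240) (nat_lit 157)) (XT.nd (nat_lit 78) (nat_lit 0) (nat_lit 0) (XT.lf (nat_lit 0) (nat_lit 722708791893) (nat_lit 76) (nat_lit 139096417616) (nat_lit 76) (nat_lit 121285838461) (nat_lit 1) (nat_lit 4) (nat_lit 2) (nat_lit 5) (nat_lit 2) (nat_lit 4) (nat_lit 324) (nat_lit 240) (nat_lit 156)) (XT.lf (nat_lit 0) (nat_lit 787881405432) (nat_lit 76) (nat_lit 145657739584) (nat_lit 76) (nat_lit 127845102522) (nat_lit 1) (nat_lit 4) (nat_lit 2) (nat_lit 5) (nat_lit 2) (nat_lit 4) (nat_lit 325) (nat_lit 240) (nat_lit 155)))))) (XT.nd (nat_lit 390) (nat_lit 0) (nat_lit 0) (XT.nd (nat_lit 156) (nat_lit 0) (nat_lit 0) (XT.nd (nat_lit 78) (nat_lit 0) (nat_lit 0) (XT.lf (nat_lit 0) (nat_lit 858266198584) (nat_lit 76) (nat_lit 152744662728) (nat_lit 76) (nat_lit 134930120196)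 (nat_lit 1) (nat_lit 4) (nat_lit 2) (nat_lit 5) (nat_lit 2) (nat_lit 4) (nat_lit 326) (nat_lit 240) (nat_lit 154)) (XT.lf (nat_lit 0) (nat_lit 934280266421) (nat_lit 76) (nat_lit 160399183627) (nat_lit 76) (nat_lit 142582876773) (nat_lit 1) (nat_lit 4) (nat_lit 2) (nat_lit 5) (nat_lit 2) (nat_lit 4) (nat_lit 327) (nat_lit 240) (nat_lit 153))) (XT.nd (nat_lit 78) (nat_lit 0) (nat_lit 0) (XT.lf (nat_lit 0) (nat_lit 1016374062678) (nat_lit 76) (nat_lit 168666662408) (nat_lit 76) (nat_lit 150848721920) (nat_lit 1) (nat_lit 4) (nat_lit 2) (nat_lit 5) (nat_lit 2) (nat_lit 4) (nat_lit 328) (nat_lit 240) (nat_lit 152)) (XT.nd (nat_lit 78) (nat_lit 0) (nat_lit 0) (XT.lf (nat_lit 0) (nat_lit 1105034069111) (nat_lit 76) (nat_lit 177596091535) (nat_lit 76) (nat_lit 159776638425) (nat_lit 1) (nat_lit 4) (nat_lit 2) (nat_lit 5) (nat_lit 2) (nat_lit 4) (nat_lit 329) (nat_lit 240) (nat_lit 151))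 (XT.lf (nat_lit 0) (nat_lit 1200785678350) (nat_lit 76) (nat_lit 187240386145) (nat_lit 76) (nat_lit 169419532458) (nat_lit 1) (nat_lit 4) (nat_lit 2) (nat_lit 5) (nat_lit 2) (nat_lit 4) (nat_lit 330) (nat_lit 240) (nat_lit 150))))) (XT.nd (nat_lit 30654) (nat_lit 0) (nat_lit 3116) (XT.nd (nat_lit 30498) (nat_lit 0) (nat_lit 3268) (XT.lf (nat_lit 0) (nat_lit 1304196307340) (nat_lit 76) (nat_lit 197656697614) (nat_lit 76) (nat_lit 179834547096) (nat_lit 1) (nat_lit 4) (nat_lit 2) (nat_lit 5) (nat_lit 2) (nat_lit 4) (nat_lit 331) (nat_lit 240) (nat_lit 149)) (XT.nd (nat_lit 78) (nat_lit 228) (nat_lit 0) (XT.lf (nat_lit 0) (nat_lit 1256308137) (nat_lit 0) (nat_lit 1256308137) (nat_lit 76) (nat_lit 722263420) (nat_lit 47) (nat_lit 5) (nat_lit 47) (nat_lit 3) (nat_lit 48) (nat_lit 0) (nat_lit 241) (nat_lit 241) (nat_lit 238)) (XT.lf (nat_lit 0) (nat_lit 873335788) (nat_lit 228) (nat_lit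 1279063178) (nat_lit 228) (nat_lit 4359997838) (nat_lit 44) (nat_lit 3) (nat_lit 47) (nat_lit 3) (nat_lit 47) (nat_lit 5) (nat_lit 242) (nat_lit 241) (nat_lit 237)))) (XT.nd (nat_lit 78) (nat_lit 152) (nat_lit 0) (XT.lf (nat_lit 76) (nat_lit 1526044529) (nat_lit 0) (nat_lit 1579082463) (nat_lit 228) (nat_lit 3469295368) (nat_lit 45) (nat_lit 5) (nat_lit 44) (nat_lit 3) (nat_lit 47) (nat_lit 5) (nat_lit 243) (nat_lit 241) (nat_lit 236)) (XT.nd (nat_lit 78) (nat_lit 152) (nat_lit 0) (XT.lf (nat_lit 76) (nat_lit 4505455757) (nat_lit 0) (nat_lit 828912138) (nat_lit 228) (nat_lit 1324772229) (nat_lit 45) (nat_lit 5) (nat_lit 44) (nat_lit 3) (nat_lit 47) (nat_lit 5) (nat_lit 244) (nat_lit 241) (nat_lit 235)) (XT.lf (nat_lit 0) (nat_lit 757053229) (nat_lit 228) (nat_lit 5904637475) (nat_lit 76) (nat_lit 104590988) (nat_lit 42) (nat_lit 5) (nat_lit 45) (nat_lit 5) (nat_lit 43) (nat_lit 5)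 (nat_lit 245) (nat_lit 241) (nat_lit 234))))))) (XT.nd (nat_lit 858) (nat_lit 760) (nat_lit 0) (XT.nd (nat_lit 390) (nat_lit 1064) (nat_lit 0) (XT.nd (nat_lit 156) (nat_lit 380) (nat_lit 0) (XT.nd (nat_lit 78) (nat_lit 228) (nat_lit 0) (XT.lf (nat_lit 0) (nat_lit 2821833422) (nat_lit 228) (nat_lit 2838276589) (nat_lit 76) (nat_lit 1230667478) (nat_lit 42) (nat_lit 5) (nat_lit 45) (nat_lit 5) (nat_lit 43) (nat_lit 5) (nat_lit 246) (nat_lit 241) (nat_lit 233)) (XT.lf (nat_lit 0) (nat_lit 357767435) (nat_lit 228) (nat_lit 4523036224) (nat_lit 304) (nat_lit 2160492139) (nat_lit 39) (nat_lit 5) (nat_lit 42) (nat_lit 5) (nat_lit 43) (nat_lit 5) (nat_lit 247) (nat_lit 241) (nat_lit 232))) (XT.nd (nat_lit 78) (nat_lit 380) (nat_lit 0) (XT.lf (nat_lit 0) (nat_lit 3840767900) (nat_lit 228) (nat_lit 3171903972) (nat_lit 304) (nat_lit 200736182) (nat_lit 39) (nat_lit 5) (nat_lit 42) (nat_lit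 5) (nat_lit 43) (nat_lit 5) (nat_lit 248) (nat_lit 241) (nat_lit 231)) (XT.nd (nat_lit 78) (nat_lit 0) (nat_lit 0) (XT.lf (nat_lit 0) (nat_lit 27445260) (nat_lit 304) (nat_lit 1630289826) (nat_lit 380) (nat_lit 5752738594) (nat_lit 34) (nat_lit 5) (nat_lit 38) (nat_lit 5) (nat_lit 39) (nat_lit 5) (nat_lit 249) (nat_lit 241) (nat_lit 230)) (XT.lf (nat_lit 0) (nat_lit 3596219239) (nat_lit 380) (nat_lit 3875377799) (nat_lit 76) (nat_lit 157667908) (nat_lit 34) (nat_lit 5) (nat_lit 39) (nat_lit 5) (nat_lit 35) (nat_lit 5) (nat_lit 250) (nat_lit 241) (nat_lit 229))))) (XT.nd (nat_lit 234) (nat_lit 608) (nat_lit 0) (XT.nd (nat_lit 78) (nat_lit 456) (nat_lit 0) (XT.lf (nat_lit 0) (nat_lit 5590217690) (nat_lit 380) (nat_lit 261266235) (nat_lit 76) (nat_lit 2023662887) (nat_lit 34) (nat_lit 5) (nat_lit 39) (nat_lit 5) (nat_lit 35) (nat_lit 5) (nat_lit 251) (nat_lit 241) (nat_lit 228)) (XT.nd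 (nat_lit 78) (nat_lit 76) (nat_lit 0) (XT.lf (nat_lit 0) (nat_lit 3705285105) (nat_lit 380) (nat_lit 3996165308) (nat_lit 456) (nat_lit 444133648) (nat_lit 29) (nat_lit 5) (nat_lit 34) (nat_lit 5) (nat_lit 35) (nat_lit 5) (nat_lit 252) (nat_lit 241) (nat_lit 227)) (XT.lf (nat_lit 0) (nat_lit 1344940054) (nat_lit 456) (nat_lit 597420524) (nat_lit 76) (nat_lit 6503353064) (nat_lit 28) (nat_lit 5) (nat_lit 34) (nat_lit 5) (nat_lit 29) (nat_lit 5) (nat_lit 253) (nat_lit 241) (nat_lit 226)))) (XT.nd (nat_lit 78) (nat_lit 228) (nat_lit 0) (XT.lf (nat_lit 0) (nat_lit 3229530236) (nat_lit 456) (nat_lit 5177966709) (nat_lit 76) (nat_lit 364515270) (nat_lit 23) (nat_lit 5) (nat_lit 29) (nat_lit 5) (nat_lit 24) (nat_lit 5) (nat_lit 254) (nat_lit 241) (nat_lit 225)) (XT.nd (nat_lit 78) (nat_lit 228) (nat_lit 0) (XT.lf (nat_lit 0) (nat_lit 5218644373) (nat_lit 456) (nat_lit 1143976456) (nat_lit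 76) (nat_lit 2766597308) (nat_lit 23) (nat_lit 5) (nat_lit 29) (nat_lit 5) (nat_lit 24) (nat_lit 5) (nat_lit 255) (nat_lit 241) (nat_lit 224)) (XT.lf (nat_lit 0) (nat_lit 3260271284) (nat_lit 228) (nat_lit 4079976891) (nat_lit 304) (nat_lit 2177905741) (nat_lit 20) (nat_lit 5) (nat_lit 23) (nat_lit 5) (nat_lit 24) (nat_lit 5) (nat_lit 256) (nat_lit 241) (nat_lit 223)))))) (XT.nd (nat_lit 390) (nat_lit 380) (nat_lit 0) (XT.nd (nat_lit 156) (nat_lit 152) (nat_lit 0) (XT.nd (nat_lit 78) (nat_lit 228) (nat_lit 0) (XT.lf (nat_lit 0) (nat_lit 7969289502) (nat_lit 228) (nat_lit 1593592754) (nat_lit 304) (nat_lit 381764648) (nat_lit 20) (nat_lit 5) (nat_lit 23) (nat_lit 5) (nat_lit 24) (nat_lit 5) (nat_lit 257) (nat_lit 241) (nat_lit 222)) (XT.lf (nat_lit 0) (nat_lit 1476194255) (nat_lit 228) (nat_lit 7800283999) (nat_lit 76) (nat_lit 1126909437) (nat_lit 17) (nat_lit 5) (nat_lit 20) (nat_lit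 5) (nat_lit 18) (nat_lit 5) (nat_lit 258) (nat_lit 241) (nat_lit 221))) (XT.nd (nat_lit 78) (nat_lit 152) (nat_lit 0) (XT.lf (nat_lit 0) (nat_lit 3467290354) (nat_lit 228) (nat_lit 3402057904) (nat_lit 76) (nat_lit 4029027518) (nat_lit 17) (nat_lit 5) (nat_lit 20) (nat_lit 5) (nat_lit 18) (nat_lit 5) (nat_lit 259) (nat_lit 241) (nat_lit 220)) (XT.nd (nat_lit 78) (nat_lit 0) (nat_lit 0) (XT.lf (nat_lit 0) (nat_lit 1306900796) (nat_lit 152) (nat_lit 4257316420) (nat_lit 228) (nat_lit 5873717955) (nat_lit 15) (nat_lit 5) (nat_lit 17) (nat_lit 5) (nat_lit 18) (nat_lit 5) (nat_lit 260) (nat_lit 241) (nat_lit 219)) (XT.lf (nat_lit 0) (nat_lit 6482248538) (nat_lit 152) (nat_lit 1358571525) (nat_lit 228) (nat_lit 4179529684) (nat_lit 15) (nat_lit 5) (nat_lit 17) (nat_lit 5) (nat_lit 18) (nat_lit 5) (nat_lit 261) (nat_lit 241) (nat_lit 218))))) (XT.nd (nat_lit 234) (nat_lit 152) (nat_lit 0)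 (XT.nd (nat_lit 78) (nat_lit 228) (nat_lit 0) (XT.lf (nat_lit 0) (nat_lit 10266574523) (nat_lit 228) (nat_lit 722566080) (nat_lit 76) (nat_lit 1663451473) (nat_lit 15) (nat_lit 5) (nat_lit 18) (nat_lit 5) (nat_lit 16) (nat_lit 4) (nat_lit 262) (nat_lit 241) (nat_lit 217)) (XT.nd (nat_lit 78) (nat_lit 76) (nat_lit 0) (XT.lf (nat_lit 0) (nat_lit 4577254218) (nat_lit 152) (nat_lit 8384510385) (nat_lit 228) (nat_lit 368171445) (nat_lit 13) (nat_lit 5) (nat_lit 15) (nat_lit 5) (nat_lit 16) (nat_lit 4) (nat_lit 263) (nat_lit 241) (nat_lit 216)) (XT.lf (nat_lit 0) (nat_lit 1671517183) (nat_lit 228) (nat_lit 3858171351) (nat_lit 76) (nat_lit 8532686846) (nat_lit 12) (nat_lit 5) (nat_lit 15) (nat_lit 5) (nat_lit 13) (nat_lit 5) (nat_lit 264) (nat_lit 241) (nat_lit 215)))) (XT.nd (nat_lit 78) (nat_lit 0) (nat_lit 0) (XT.lf (nat_lit 0) (nat_lit 1399096641) (nat_lit 152) (nat_lit 2424915933)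 (nat_lit 228) (nat_lit 11031508869) (nat_lit 10) (nat_lit 5) (nat_lit 12) (nat_lit 5) (nat_lit 13) (nat_lit 5) (nat_lit 265) (nat_lit 241) (nat_lit 214)) (XT.nd (nat_lit 78) (nat_lit 0) (nat_lit 0) (XT.lf (nat_lit 0) (nat_lit 6217180258) (nat_lit 228) (nat_lit 8524060435) (nat_lit 76) (nat_lit 965806626) (nat_lit 10) (nat_lit 5) (nat_lit 13) (nat_lit 5) (nat_lit 11) (nat_lit 4) (nat_lit 266) (nat_lit 241) (nat_lit 213)) (XT.lf (nat_lit 0) (nat_lit 8807304036) (nat_lit 228) (nat_lit 3344980584) (nat_lit 76) (nat_lit 4474346300) (nat_lit 10) (nat_lit 5) (nat_lit 13) (nat_lit 5) (nat_lit 11) (nat_lit 4) (nat_lit 267) (nat_lit 241) (nat_lit 212))))))))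
noncomputable def xc52 : XT := (XT.nd (nat_lit 1716) (nat_lit 76) (nat_lit 0) (XT.nd (nat_lit 858) (nat_lit 228) (nat_lit 0) (XT.nd (nat_lit 390) (nat_lit 76) (nat_lit 0) (XT.nd (nat_lit 156) (nat_lit 228) (nat_lit 0) (XT.nd (nat_lit 78) (nat_lit 0) (nat_lit 0) (XT.lf (nat_lit 0) (nat_lit 2284084013) (nat_lit 76) (nat_lit 9322261766) (nat_lit 152) (nat_lit 6013646814) (nat_lit 9) (nat_lit 5) (nat_lit 10) (nat_lit 5) (nat_lit 11) (nat_lit 4) (nat_lit 268) (nat_lit 241) (nat_lit 211)) (XT.lf (nat_lit 0) (nat_lit 8477094908) (nat_lit 76) (nat_lit 6192549480) (nat_lit 152) (nat_lit 4020274377) (nat_lit 9) (nat_lit 5) (nat_lit 10) (nat_lit 5) (nat_lit 11) (nat_lit 4) (nat_lit 269) (nat_lit 241) (nat_lit 210))) (XT.nd (nat_lit 78) (nat_lit 228) (nat_lit 0) (XT.lf (nat_lit 0) (nat_lit 15094610673) (nat_lit 76) (nat_lit 2836059017) (nat_lit 152) (nat_lit 1918854695) (nat_lit 9) (nat_lit 5)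 (nat_lit 10) (nat_lit 5) (nat_lit 11) (nat_lit 4) (nat_lit 270) (nat_lit 241) (nat_lit 209)) (XT.nd (nat_lit 78) (nat_lit 0) (nat_lit 0) (XT.lf (nat_lit 0) (nat_lit 334149812) (nat_lit 228) (nat_lit 20003436949) (nat_lit 76) (nat_lit 763811709) (nat_lit 6) (nat_lit 5) (nat_lit 9) (nat_lit 5) (nat_lit 7) (nat_lit 4) (nat_lit 271) (nat_lit 241) (nat_lit 208)) (XT.lf (nat_lit 0) (nat_lit 2826736790) (nat_lit 228) (nat_lit 14950169274) (nat_lit 76) (nat_lit 4659725241) (nat_lit 6) (nat_lit 5) (nat_lit 9) (nat_lit 5) (nat_lit 7) (nat_lit 4) (nat_lit 272) (nat_lit 241) (nat_lit 207))))) (XT.nd (nat_lit 234) (nat_lit 0) (nat_lit 0) (XT.nd (nat_lit 78) (nat_lit 76) (nat_lit 0) (XT.lf (nat_lit 0) (nat_lit 5477954467) (nat_lit 228) (nat_lit 9557222839) (nat_lit 76) (nat_lit 8846986879) (nat_lit 6) (nat_lit 5) (nat_lit 9) (nat_lit 5) (nat_lit 7) (nat_lit 4) (nat_lit 273) (nat_lit 241) (nat_lit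 206)) (XT.nd (nat_lit 78) (nat_lit 76) (nat_lit 0) (XT.lf (nat_lit 0) (nat_lit 8303513761) (nat_lit 228) (nat_lit 3792639443) (nat_lit 76) (nat_lit 13350410024) (nat_lit 6) (nat_lit 5) (nat_lit 9) (nat_lit 5) (nat_lit 7) (nat_lit 4) (nat_lit 274) (nat_lit 241) (nat_lit 205)) (XT.lf (nat_lit 0) (nat_lit 2502949055) (nat_lit 76) (nat_lit 8877405658) (nat_lit 152) (nat_lit 15753928558) (nat_lit 5) (nat_lit 5) (nat_lit 6) (nat_lit 5) (nat_lit 7) (nat_lit 4) (nat_lit 275) (nat_lit 241) (nat_lit 204)))) (XT.nd (nat_lit 78) (nat_lit 0) (nat_lit 0) (XT.lf (nat_lit 0) (nat_lit 9463907937) (nat_lit 76) (nat_lit 5309465062) (nat_lit 152) (nat_lit 14178219617) (nat_lit 5) (nat_lit 5) (nat_lit 6) (nat_lit 5) (nat_lit 7) (nat_lit 4) (nat_lit 276) (nat_lit 241) (nat_lit 203)) (XT.nd (nat_lit 78) (nat_lit 0) (nat_lit 0) (XT.lf (nat_lit 0) (nat_lit 16931773654) (nat_lit 76) (nat_lit 1474885547) (nat_lit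 152) (nat_lit 12510282593) (nat_lit 5) (nat_lit 5) (nat_lit 6) (nat_lit 5) (nat_lit 7) (nat_lit 4) (nat_lit 277) (nat_lit 241) (nat_lit 202)) (XT.lf (nat_lit 0) (nat_lit 22365453775) (nat_lit 152) (nat_lit 8154886964) (nat_lit 0) (nat_lit 2516539793) (nat_lit 5) (nat_lit 5) (nat_lit 7) (nat_lit 4) (nat_lit 5) (nat_lit 4) (nat_lit 278) (nat_lit 241) (nat_lit 201)))))) (XT.nd (nat_lit 390) (nat_lit 76) (nat_lit 0) (XT.nd (nat_lit 156) (nat_lit 76) (nat_lit 0) (XT.nd (nat_lit 78) (nat_lit 76) (nat_lit 0) (XT.lf (nat_lit 0) (nat_lit 26652146778) (nat_lit 152) (nat_lit 1941221870) (nat_lit 0) (nat_lit 6732288339) (nat_lit 5) (nat_lit 5) (nat_lit 7) (nat_lit 4) (nat_lit 5) (nat_lit 4) (nat_lit 279) (nat_lit 241) (nat_lit 200)) (XT.lf (nat_lit 0) (nat_lit 4977094308) (nat_lit 76) (nat_lit 26399274732) (nat_lit 76) (nat_lit 6413726982) (nat_lit 4) (nat_lit 4) (nat_lit 5) (nat_lit 5) (nat_lit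 5) (nat_lit 4) (nat_lit 280) (nat_lit 241) (nat_lit 199))) (XT.nd (nat_lit 78) (nat_lit 76) (nat_lit 0) (XT.lf (nat_lit 0) (nat_lit 12518906770) (nat_lit 76) (nat_lit 23988482150) (nat_lit 76) (nat_lit 3942110963) (nat_lit 4) (nat_lit 4) (nat_lit 5) (nat_lit 5) (nat_lit 5) (nat_lit 4) (nat_lit 281) (nat_lit 241) (nat_lit 198)) (XT.nd (nat_lit 78) (nat_lit 76) (nat_lit 0) (XT.lf (nat_lit 0) (nat_lit 20626686435) (nat_lit 76) (nat_lit 21399781169) (nat_lit 76) (nat_lit 1297091984) (nat_lit 4) (nat_lit 4) (nat_lit 5) (nat_lit 5) (nat_lit 5) (nat_lit 4) (nat_lit 282) (nat_lit 241) (nat_lit 197)) (XT.lf (nat_lit 0) (nat_lit 1460116967) (nat_lit 152) (nat_lit 17117792187) (nat_lit 76) (nat_lit 27848440251) (nat_lit 3) (nat_lit 5) (nat_lit 5) (nat_lit 5) (nat_lit 4) (nat_lit 4) (nat_lit 283) (nat_lit 241) (nat_lit 196))))) (XT.nd (nat_lit 234) (nat_lit 0) (nat_lit 0) (XT.nd (nat_lit 78)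 (nat_lit 76) (nat_lit 0) (XT.lf (nat_lit 0) (nat_lit 4348013373) (nat_lit 152) (nat_lit 11159251268) (nat_lit 76) (nat_lit 34269074612) (nat_lit 3) (nat_lit 5) (nat_lit 5) (nat_lit 5) (nat_lit 4) (nat_lit 4) (nat_lit 284) (nat_lit 241) (nat_lit 195)) (XT.nd (nat_lit 78) (nat_lit 76) (nat_lit 0) (XT.lf (nat_lit 0) (nat_lit 7448596487) (nat_lit 152) (nat_lit 4754745431) (nat_lit 76) (nat_lit 41192534612) (nat_lit 3) (nat_lit 5) (nat_lit 5) (nat_lit 5) (nat_lit 4) (nat_lit 4) (nat_lit 285) (nat_lit 241) (nat_lit 194)) (XT.lf (nat_lit 0) (nat_lit 2246033649) (nat_lit 76) (nat_lit 8588223650) (nat_lit 152) (nat_lit 46467831676) (nat_lit 2) (nat_lit 5) (nat_lit 3) (nat_lit 5) (nat_lit 4) (nat_lit 4) (nat_lit 286) (nat_lit 241) (nat_lit 193)))) (XT.nd (nat_lit 78) (nat_lit 0) (nat_lit 0) (XT.lf (nat_lit 0) (nat_lit 10049558794) (nat_lit 76) (nat_lit 4554820730) (nat_lit 152) (nat_lit 46907399345)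 (nat_lit 2) (nat_lit 5) (nat_lit 3) (nat_lit 5) (nat_lit 4) (nat_lit 4) (nat_lit 287) (nat_lit 241) (nat_lit 192)) (XT.nd (nat_lit 78) (nat_lit 0) (nat_lit 0) (XT.lf (nat_lit 0) (nat_lit 18451696646) (nat_lit 76) (nat_lit 209234678) (nat_lit 152) (nat_lit 47398591065) (nat_lit 2) (nat_lit 5) (nat_lit 3) (nat_lit 5) (nat_lit 4) (nat_lit 4) (nat_lit 288) (nat_lit 241) (nat_lit 191)) (XT.lf (nat_lit 0) (nat_lit 23135558214) (nat_lit 152) (nat_lit 43577638160) (nat_lit 0) (nat_lit 4250464214) (nat_lit 2) (nat_lit 5) (nat_lit 4) (nat_lit 4) (nat_lit 2) (nat_lit 4) (nat_lit 289) (nat_lit 241) (nat_lit 190))))))) (XT.nd (nat_lit 858) (nat_lit 0) (nat_lit 0) (XT.nd (nat_lit 390) (nat_lit 76) (nat_lit 0) (XT.nd (nat_lit 156) (nat_lit 0) (nat_lit 0) (XT.nd (nat_lit 78) (nat_lit 0) (nat_lit 0) (XT.lf (nat_lit 0) (nat_lit 27960359069) (nat_lit 152) (nat_lit 39253357303) (nat_lit 0) (nat_lit 9047092049)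 (nat_lit 2) (nat_lit 5) (nat_lit 4) (nat_lit 4) (nat_lit 2) (nat_lit 4) (nat_lit 290) (nat_lit 241) (nat_lit 189)) (XT.lf (nat_lit 0) (nat_lit 33158893204) (nat_lit 152) (nat_lit 34604325705) (nat_lit 0) (nat_lit 14219540054) (nat_lit 2) (nat_lit 5) (nat_lit 4) (nat_lit 4) (nat_lit 2) (nat_lit 4) (nat_lit 291) (nat_lit 241) (nat_lit 188))) (XT.nd (nat_lit 78) (nat_lit 0) (nat_lit 0) (XT.lf (nat_lit 0) (nat_lit 38761966746) (nat_lit 152) (nat_lit 29602993550) (nat_lit 0) (nat_lit 19798459773) (nat_lit 2) (nat_lit 5) (nat_lit 4) (nat_lit 4) (nat_lit 2) (nat_lit 4) (nat_lit 292) (nat_lit 241) (nat_lit 187)) (XT.nd (nat_lit 78) (nat_lit 0) (nat_lit 0) (XT.lf (nat_lit 0) (nat_lit 44802783095) (nat_lit 152) (nat_lit 24219723312) (nat_lit 0) (nat_lit 25816911470) (nat_lit 2) (nat_lit 5) (nat_lit 4) (nat_lit 4) (nat_lit 2) (nat_lit 4) (nat_lit 293) (nat_lit 241) (nat_lit 186)) (XT.lf (nat_lit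 0) (nat_lit 51317139680) (nat_lit 152) (nat_lit 18422614132) (nat_lit 0) (nat_lit 32310560044) (nat_lit 2) (nat_lit 5) (nat_lit 4) (nat_lit 4) (nat_lit 2) (nat_lit 4) (nat_lit 294) (nat_lit 241) (nat_lit 185))))) (XT.nd (nat_lit 234) (nat_lit 0) (nat_lit 0) (XT.nd (nat_lit 78) (nat_lit 76) (nat_lit 0) (XT.lf (nat_lit 0) (nat_lit 58343640096) (nat_lit 152) (nat_lit 12177312771) (nat_lit 0) (nat_lit 39317886377) (nat_lit 2) (nat_lit 5) (nat_lit 4) (nat_lit 4) (nat_lit 2) (nat_lit 4) (nat_lit 295) (nat_lit 241) (nat_lit 184)) (XT.nd (nat_lit 78) (nat_lit 76) (nat_lit 0) (XT.lf (nat_lit 0) (nat_lit 65923922865) (nat_lit 152) (nat_lit 5446810034) (nat_lit 0) (nat_lit 46880415364) (nat_lit 2) (nat_lit 5) (nat_lit 4) (nat_lit 4) (nat_lit 2) (nat_lit 4) (nat_lit 296) (nat_lit 241) (nat_lit 183)) (XT.lf (nat_lit 0) (nat_lit 1904025611) (nat_lit 76) (nat_lit 72244674430) (nat_lit 76) (nat_lit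 53184728242) (nat_lit 1) (nat_lit 4) (nat_lit 2) (nat_lit 5) (nat_lit 2) (nat_lit 4) (nat_lit 297) (nat_lit 241) (nat_lit 182)))) (XT.nd (nat_lit 78) (nat_lit 0) (nat_lit 0) (XT.lf (nat_lit 0) (nat_lit 10139676723) (nat_lit 76) (nat_lit 73033246847) (nat_lit 76) (nat_lit 53958079653) (nat_lit 1) (nat_lit 4) (nat_lit 2) (nat_lit 5) (nat_lit 2) (nat_lit 4) (nat_lit 298) (nat_lit 241) (nat_lit 181)) (XT.nd (nat_lit 78) (nat_lit 0) (nat_lit 0) (XT.lf (nat_lit 0) (nat_lit 19022127797) (nat_lit 76) (nat_lit 73890048611) (nat_lit 76) (nat_lit 54800787893) (nat_lit 1) (nat_lit 4) (nat_lit 2) (nat_lit 5) (nat_lit 2) (nat_lit 4) (nat_lit 299) (nat_lit 241) (nat_lit 180)) (XT.lf (nat_lit 0) (nat_lit 28604015580) (nat_lit 76) (nat_lit 74820157065) (nat_lit 76) (nat_lit 55717846787) (nat_lit 1) (nat_lit 4) (nat_lit 2) (nat_lit 5) (nat_lit 2) (nat_lit 4) (nat_lit 300) (nat_lit 241) (nat_lit 179))))))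 (XT.nd (nat_lit 390) (nat_lit 0) (nat_lit 0) (XT.nd (nat_lit 156) (nat_lit 0) (nat_lit 0) (XT.nd (nat_lit 78) (nat_lit 0) (nat_lit 0) (XT.lf (nat_lit 0) (nat_lit 38942121629) (nat_lit 76) (nat_lit 75829083963) (nat_lit 76) (nat_lit 56714690760) (nat_lit 1) (nat_lit 4) (nat_lit 2) (nat_lit 5) (nat_lit 2) (nat_lit 4) (nat_lit 301) (nat_lit 241) (nat_lit 178)) (XT.lf (nat_lit 0) (nat_lit 50097708795) (nat_lit 76) (nat_lit 76922808131) (nat_lit 76) (nat_lit 57797227034) (nat_lit 1) (nat_lit 4) (nat_lit 2) (nat_lit 5) (nat_lit 2) (nat_lit 4) (nat_lit 302) (nat_lit 241) (nat_lit 177))) (XT.nd (nat_lit 78) (nat_lit 0) (nat_lit 0) (XT.lf (nat_lit 0) (nat_lit 62136884261) (nat_lit 76) (nat_lit 78107810898) (nat_lit 76) (nat_lit 58971870640) (nat_lit 1) (nat_lit 4) (nat_lit 2) (nat_lit 5) (nat_lit 2) (nat_lit 4) (nat_lit 303) (nat_lit 241) (nat_lit 176)) (XT.nd (nat_lit 78) (nat_lit 0) (nat_lit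 0) (XT.lf (nat_lit 0) (nat_lit 75130991288) (nat_lit 76) (nat_lit 79391114502) (nat_lit 76) (nat_lit 60245582428) (nat_lit 1) (nat_lit 4) (nat_lit 2) (nat_lit 5) (nat_lit 2) (nat_lit 4) (nat_lit 304) (nat_lit 241) (nat_lit 175)) (XT.lf (nat_lit 0) (nat_lit 89157031994) (nat_lit 76) (nat_lit 80780323705) (nat_lit 76) (nat_lit 61625910321) (nat_lit 1) (nat_lit 4) (nat_lit 2) (nat_lit 5) (nat_lit 2) (nat_lit 4) (nat_lit 305) (nat_lit 241) (nat_lit 174))))) (XT.nd (nat_lit 234) (nat_lit 0) (nat_lit 0) (XT.nd (nat_lit 78) (nat_lit 0) (nat_lit 0) (XT.lf (nat_lit 0) (nat_lit 104298123655) (nat_lit 76) (nat_lit 82283670858) (nat_lit 76) (nat_lit 63121034038) (nat_lit 1) (nat_lit 4) (nat_lit 2) (nat_lit 5) (nat_lit 2) (nat_lit 4) (nat_lit 306) (nat_lit 241) (nat_lit 173)) (XT.nd (nat_lit 78) (nat_lit 0) (nat_lit 0) (XT.lf (nat_lit 0) (nat_lit 120643991260) (nat_lit 76) (nat_lit 83910064686)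 (nat_lit 76) (nat_lit 64739813573) (nat_lit 1) (nat_lit 4) (nat_lit 2) (nat_lit 5) (nat_lit 2) (nat_lit 4) (nat_lit 307) (nat_lit 241) (nat_lit 172)) (XT.lf (nat_lit 0) (nat_lit 138291499209) (nat_lit 76) (nat_lit 85669143076) (nat_lit 76) (nat_lit 66491841693) (nat_lit 1) (nat_lit 4) (nat_lit 2) (nat_lit 5) (nat_lit 2) (nat_lit 4) (nat_lit 308) (nat_lit 241) (nat_lit 171)))) (XT.nd (nat_lit 78) (nat_lit 0) (nat_lit 0) (XT.lf (nat_lit 0) (nat_lit 157345225327) (nat_lit 76) (nat_lit 87571330199) (nat_lit 76) (nat_lit 68387500787) (nat_lit 1) (nat_lit 4) (nat_lit 2) (nat_lit 5) (nat_lit 2) (nat_lit 4) (nat_lit 309) (nat_lit 241) (nat_lit 170)) (XT.nd (nat_lit 78) (nat_lit 0) (nat_lit 0) (XT.lf (nat_lit 0) (nat_lit 177918080584) (nat_lit 76) (nat_lit 89627898273) (nat_lit 76) (nat_lit 70438024390) (nat_lit 1) (nat_lit 4) (nat_lit 2) (nat_lit 5) (nat_lit 2) (nat_lit 4) (nat_lit 310) (nat_lit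 241) (nat_lit 169)) (XT.lf (nat_lit 0) (nat_lit 200131978195) (nat_lit 76) (nat_lit 91851034368) (nat_lit 76) (nat_lit 72655563753) (nat_lit 1) (nat_lit 4) (nat_lit 2) (nat_lit 5) (nat_lit 2) (nat_lit 4) (nat_lit 311) (nat_lit 241) (nat_lit 168))))))))
noncomputable def xc53 : XT := (XT.nd (nat_lit 32214) (nat_lit 0) (nat_lit 836) (XT.nd (nat_lit 858) (nat_lit 0) (nat_lit 0) (XT.nd (nat_lit 390) (nat_lit 0) (nat_lit 0) (XT.nd (nat_lit 156) (nat_lit 0) (nat_lit 0) (XT.nd (nat_lit 78) (nat_lit 0) (nat_lit 0) (XT.lf (nat_lit 0) (nat_lit 224118556074) (nat_lit 76) (nat_lit 94253912625) (nat_lit 76) (nat_lit 75053259851) (nat_lit 1) (nat_lit 4) (nat_lit 2) (nat_lit 5) (nat_lit 2) (nat_lit 4) (nat_lit 312) (nat_lit 241) (nat_lit 167)) (XT.lf (nat_lit 0) (nat_lit 250019956903) (nat_lit 76) (nat_lit 96850772322) (nat_lit 76) (nat_lit 77645321252) (nat_lit 1) (nat_lit 4) (nat_lit 2) (nat_lit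 5) (nat_lit 2) (nat_lit 4) (nat_lit 313) (nat_lit 241) (nat_lit 166))) (XT.nd (nat_lit 78) (nat_lit 0) (nat_lit 0) (XT.lf (nat_lit 0) (nat_lit 277989670465) (nat_lit 76) (nat_lit 99657002258) (nat_lit 76) (nat_lit 80447108320) (nat_lit 1) (nat_lit 4) (nat_lit 2) (nat_lit 5) (nat_lit 2) (nat_lit 4) (nat_lit 314) (nat_lit 241) (nat_lit 165)) (XT.nd (nat_lit 78) (nat_lit 0) (nat_lit 0) (XT.lf (nat_lit 0) (nat_lit 308193443211) (nat_lit 76) (nat_lit 102689231942) (nat_lit 76) (nat_lit 83475224239) (nat_lit 1) (nat_lit 4) (nat_lit 2) (nat_lit 5) (nat_lit 2) (nat_lit 4) (nat_lit 315) (nat_lit 241) (nat_lit 164)) (XT.lf (nat_lit 0) (nat_lit 340810260461) (nat_lit 76) (nat_lit 105965430144) (nat_lit 76) (nat_lit 86747613399) (nat_lit 1) (nat_lit 4) (nat_lit 2) (nat_lit 5) (nat_lit 2) (nat_lit 4) (nat_lit 316) (nat_lit 241) (nat_lit 163))))) (XT.nd (nat_lit 234) (nat_lit 0) (nat_lit 0) (XT.nd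 (nat_lit 78) (nat_lit 0) (nat_lit 0) (XT.lf (nat_lit 0) (nat_lit 376033407058) (nat_lit 76) (nat_lit 109505011371) (nat_lit 76) (nat_lit 90283667735) (nat_lit 1) (nat_lit 4) (nat_lit 2) (nat_lit 5) (nat_lit 2) (nat_lit 4) (nat_lit 317) (nat_lit 241) (nat_lit 162)) (XT.nd (nat_lit 78) (nat_lit 0) (nat_lit 0) (XT.lf (nat_lit 0) (nat_lit 414071612759) (nat_lit 76) (nat_lit 113328950919) (nat_lit 76) (nat_lit 94104341644) (nat_lit 1) (nat_lit 4) (nat_lit 2) (nat_lit 5) (nat_lit 2) (nat_lit 4) (nat_lit 318) (nat_lit 241) (nat_lit 161)) (XT.lf (nat_lit 0) (nat_lit 455150289155) (nat_lit 76) (nat_lit 117459909172) (nat_lit 76) (nat_lit 98232276156) (nat_lit 1) (nat_lit 4) (nat_lit 2) (nat_lit 5) (nat_lit 2) (nat_lit 4) (nat_lit 319) (nat_lit 241) (nat_lit 160)))) (XT.nd (nat_lit 78) (nat_lit 0) (nat_lit 0) (XT.lf (nat_lit 0) (nat_lit 499512865437) (nat_lit 76) (nat_lit 121922365881) (nat_lit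 76) (nat_lit 102691933106) (nat_lit 1) (nat_lit 4) (nat_lit 2) (nat_lit 5) (nat_lit 2) (nat_lit 4) (nat_lit 320) (nat_lit 241) (nat_lit 159)) (XT.nd (nat_lit 78) (nat_lit 0) (nat_lit 0) (XT.lf (nat_lit 0) (nat_lit 547422230947) (nat_lit 76) (nat_lit 126742765235) (nat_lit 76) (nat_lit 107509740090) (nat_lit 1) (nat_lit 4) (nat_lit 2) (nat_lit 5) (nat_lit 2) (nat_lit 4) (nat_lit 321) (nat_lit 241) (nat_lit 158)) (XT.lf (nat_lit 0) (nat_lit 599162293037) (nat_lit 76) (nat_lit 131949672562) (nat_lit 76) (nat_lit 112714247075) (nat_lit 1) (nat_lit 4) (nat_lit 2) (nat_lit 5) (nat_lit 2) (nat_lit 4) (nat_lit 322) (nat_lit 241) (nat_lit 157)))))) (XT.nd (nat_lit 390) (nat_lit 0) (nat_lit 0) (XT.nd (nat_lit 156) (nat_lit 0) (nat_lit 0) (XT.nd (nat_lit 78) (nat_lit 0) (nat_lit 0) (XT.lf (nat_lit 0) (nat_lit 655039659482) (nat_lit 76) (nat_lit 137573943611) (nat_lit 76) (nat_lit 118336295584)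 (nat_lit 1) (nat_lit 4) (nat_lit 2) (nat_lit 5) (nat_lit 2) (nat_lit 4) (nat_lit 323) (nat_lit 241) (nat_lit 156)) (XT.lf (nat_lit 0) (nat_lit 715385455416) (nat_lit 76) (nat_lit 143648907395) (nat_lit 76) (nat_lit 124409201461) (nat_lit 1) (nat_lit 4) (nat_lit 2) (nat_lit 5) (nat_lit 2) (nat_lit 4) (nat_lit 324) (nat_lit 241) (nat_lit 155))) (XT.nd (nat_lit 78) (nat_lit 0) (nat_lit 0) (XT.lf (nat_lit 0) (nat_lit 780557285556) (nat_lit 76) (nat_lit 150210563698) (nat_lit 76) (nat_lit 130968952295) (nat_lit 1) (nat_lit 4) (nat_lit 2) (nat_lit 5) (nat_lit 2) (nat_lit 4) (nat_lit 325) (nat_lit 241) (nat_lit 154)) (XT.nd (nat_lit 78) (nat_lit 0) (nat_lit 0) (XT.lf (nat_lit 0) (nat_lit 850941353339) (nat_lit 76) (nat_lit 157297796411) (nat_lit 76) (nat_lit 138054420685) (nat_lit 1) (nat_lit 4) (nat_lit 2) (nat_lit 5) (nat_lit 2) (nat_lit 4) (nat_lit 326) (nat_lit 241) (nat_lit 153)) (XT.lf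 (nat_lit 0) (nat_lit 926954749538) (nat_lit 76) (nat_lit 164952603950) (nat_lit 76) (nat_lit 145707594590) (nat_lit 1) (nat_lit 4) (nat_lit 2) (nat_lit 5) (nat_lit 2) (nat_lit 4) (nat_lit 327) (nat_lit 241) (nat_lit 152))))) (XT.nd (nat_lit 234) (nat_lit 0) (nat_lit 0) (XT.nd (nat_lit 78) (nat_lit 0) (nat_lit 0) (XT.lf (nat_lit 0) (nat_lit 1009047923908) (nat_lit 76) (nat_lit 173220348136) (nat_lit 76) (nat_lit 153973826154) (nat_lit 1) (nat_lit 4) (nat_lit 2) (nat_lit 5) (nat_lit 2) (nat_lit 4) (nat_lit 328) (nat_lit 241) (nat_lit 151)) (XT.nd (nat_lit 78) (nat_lit 0) (nat_lit 0) (XT.lf (nat_lit 0) (nat_lit 1097707354520) (nat_lit 76) (nat_lit 182150023010) (nat_lit 76) (nat_lit 162902100451) (nat_lit 1) (nat_lit 4) (nat_lit 2) (nat_lit 5) (nat_lit 2) (nat_lit 4) (nat_lit 329) (nat_lit 241) (nat_lit 150)) (XT.lf (nat_lit 0) (nat_lit 1193458430591) (nat_lit 76) (nat_lit 191794545163)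 (nat_lit 76) (nat_lit 172545325773) (nat_lit 1) (nat_lit 4) (nat_lit 2) (nat_lit 5) (nat_lit 2) (nat_lit 4) (nat_lit 330) (nat_lit 241) (nat_lit 149)))) (XT.nd (nat_lit 30576) (nat_lit 0) (nat_lit 3268) (XT.lf (nat_lit 0) (nat_lit 1296868565907) (nat_lit 76) (nat_lit 202211067319) (nat_lit 76) (nat_lit 182960647161) (nat_lit 1) (nat_lit 4) (nat_lit 2) (nat_lit 5) (nat_lit 2) (nat_lit 4) (nat_lit 331) (nat_lit 241) (nat_lit 148)) (XT.nd (nat_lit 78) (nat_lit 0) (nat_lit 0) (XT.lf (nat_lit 0) (nat_lit 1504141774) (nat_lit 228) (nat_lit 888626849) (nat_lit 228) (nat_lit 888626849) (nat_lit 44) (nat_lit 3) (nat_lit 47) (nat_lit 3) (nat_lit 47) (nat_lit 5) (nat_lit 242) (nat_lit 242) (nat_lit 236)) (XT.lf (nat_lit 76) (nat_lit 942559337) (nat_lit 0) (nat_lit 4181025377) (nat_lit 228) (nat_lit 1512109968) (nat_lit 45) (nat_lit 5) (nat_lit 44) (nat_lit 3) (nat_lit 47) (nat_lit 5) (nat_lit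 243) (nat_lit 242) (nat_lit 235))))))) (XT.nd (nat_lit 858) (nat_lit 836) (nat_lit 0) (XT.nd (nat_lit 390) (nat_lit 1140) (nat_lit 0) (XT.nd (nat_lit 156) (nat_lit 228) (nat_lit 0) (XT.nd (nat_lit 78) (nat_lit 0) (nat_lit 0) (XT.lf (nat_lit 0) (nat_lit 500724771) (nat_lit 228) (nat_lit 2874942560) (nat_lit 304) (nat_lit 3352869124) (nat_lit 41) (nat_lit 5) (nat_lit 44) (nat_lit 3) (nat_lit 45) (nat_lit 5) (nat_lit 244) (nat_lit 242) (nat_lit 234)) (XT.lf (nat_lit 76) (nat_lit 11987560) (nat_lit 0) (nat_lit 2388500053) (nat_lit 304) (nat_lit 4443142484) (nat_lit 42) (nat_lit 5) (nat_lit 41) (nat_lit 5) (nat_lit 45) (nat_lit 5) (nat_lit 245) (nat_lit 242) (nat_lit 233))) (XT.nd (nat_lit 78) (nat_lit 228) (nat_lit 0) (XT.lf (nat_lit 76) (nat_lit 3178318861) (nat_lit 0) (nat_lit 1171331450) (nat_lit 304) (nat_lit 2628870876) (nat_lit 42) (nat_lit 5) (nat_lit 41) (nat_lit 5) (nat_lit 45)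 (nat_lit 5) (nat_lit 246) (nat_lit 242) (nat_lit 232)) (XT.nd (nat_lit 78) (nat_lit 304) (nat_lit 0) (XT.lf (nat_lit 0) (nat_lit 6291897017) (nat_lit 228) (nat_lit 653323256) (nat_lit 76) (nat_lit 194218121) (nat_lit 42) (nat_lit 5) (nat_lit 45) (nat_lit 5) (nat_lit 43) (nat_lit 5) (nat_lit 247) (nat_lit 242) (nat_lit 231)) (XT.lf (nat_lit 0) (nat_lit 961295581) (nat_lit 304) (nat_lit 4606885834) (nat_lit 76) (nat_lit 1749761501) (nat_lit 38) (nat_lit 5) (nat_lit 42) (nat_lit 5) (nat_lit 39) (nat_lit 5) (nat_lit 248) (nat_lit 242) (nat_lit 230))))) (XT.nd (nat_lit 234) (nat_lit 836) (nat_lit 0) (XT.nd (nat_lit 78) (nat_lit 304) (nat_lit 0) (XT.lf (nat_lit 0) (nat_lit 2736553965) (nat_lit 304) (nat_lit 1271303995) (nat_lit 76) (nat_lit 3513460332) (nat_lit 38) (nat_lit 5) (nat_lit 42) (nat_lit 5) (nat_lit 39) (nat_lit 5) (nat_lit 249) (nat_lit 242) (nat_lit 229)) (XT.nd (nat_lit 78)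 (nat_lit 0) (nat_lit 0) (XT.lf (nat_lit 0) (nat_lit 2335677276) (nat_lit 304) (nat_lit 2234677657) (nat_lit 380) (nat_lit 3178909156) (nat_lit 34) (nat_lit 5) (nat_lit 38) (nat_lit 5) (nat_lit 39) (nat_lit 5) (nat_lit 250) (nat_lit 242) (nat_lit 228)) (XT.lf (nat_lit 0) (nat_lit 6194072797) (nat_lit 304) (nat_lit 259608098) (nat_lit 380) (nat_lit 1551040968) (nat_lit 34) (nat_lit 5) (nat_lit 38) (nat_lit 5) (nat_lit 39) (nat_lit 5) (nat_lit 251) (nat_lit 242) (nat_lit 227)))) (XT.nd (nat_lit 78) (nat_lit 380) (nat_lit 0) (XT.lf (nat_lit 0) (nat_lit 166714332) (nat_lit 456) (nat_lit 6264764603) (nat_lit 76) (nat_lit 1852425417) (nat_lit 28) (nat_lit 5) (nat_lit 34) (nat_lit 5) (nat_lit 29) (nat_lit 5) (nat_lit 252) (nat_lit 242) (nat_lit 226)) (XT.nd (nat_lit 78) (nat_lit 380) (nat_lit 0) (XT.lf (nat_lit 0) (nat_lit 1876109386) (nat_lit 456) (nat_lit 2489119288) (nat_lit 76) (nat_lit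 4223120883) (nat_lit 28) (nat_lit 5) (nat_lit 34) (nat_lit 5) (nat_lit 29) (nat_lit 5) (nat_lit 253) (nat_lit 242) (nat_lit 225)) (XT.lf (nat_lit 0) (nat_lit 1557579728) (nat_lit 380) (nat_lit 2091469965) (nat_lit 456) (nat_lit 5275061197) (nat_lit 23) (nat_lit 5) (nat_lit 28) (nat_lit 5) (nat_lit 29) (nat_lit 5) (nat_lit 254) (nat_lit 242) (nat_lit 224)))))) (XT.nd (nat_lit 390) (nat_lit 380) (nat_lit 0) (XT.nd (nat_lit 156) (nat_lit 228) (nat_lit 0) (XT.nd (nat_lit 78) (nat_lit 228) (nat_lit 0) (XT.lf (nat_lit 0) (nat_lit 5537359567) (nat_lit 456) (nat_lit 3337795673) (nat_lit 76) (nat_lit 414717367) (nat_lit 23) (nat_lit 5) (nat_lit 29) (nat_lit 5) (nat_lit 24) (nat_lit 5) (nat_lit 255) (nat_lit 242) (nat_lit 223)) (XT.lf (nat_lit 0) (nat_lit 896781215) (nat_lit 228) (nat_lit 6658576866) (nat_lit 304) (nat_lit 2132193780) (nat_lit 20) (nat_lit 5) (nat_lit 23) (nat_lit 5) (nat_lit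 24) (nat_lit 5) (nat_lit 256) (nat_lit 242) (nat_lit 222))) (XT.nd (nat_lit 78) (nat_lit 228) (nat_lit 0) (XT.lf (nat_lit 0) (nat_lit 5555662193) (nat_lit 228) (nat_lit 4177824819) (nat_lit 304) (nat_lit 384539592) (nat_lit 20) (nat_lit 5) (nat_lit 23) (nat_lit 5) (nat_lit 24) (nat_lit 5) (nat_lit 257) (nat_lit 242) (nat_lit 221)) (XT.nd (nat_lit 78) (nat_lit 152) (nat_lit 0) (XT.lf (nat_lit 0) (nat_lit 1339033605) (nat_lit 304) (nat_lit 133814440) (nat_lit 76) (nat_lit 9115047880) (nat_lit 19) (nat_lit 5) (nat_lit 23) (nat_lit 5) (nat_lit 20) (nat_lit 5) (nat_lit 258) (nat_lit 242) (nat_lit 220)) (XT.lf (nat_lit 0) (nat_lit 3250420473) (nat_lit 228) (nat_lit 6346494559) (nat_lit 76) (nat_lit 1492680192) (nat_lit 17) (nat_lit 5) (nat_lit 20) (nat_lit 5) (nat_lit 18) (nat_lit 5) (nat_lit 259) (nat_lit 242) (nat_lit 219))))) (XT.nd (nat_lit 234) (nat_lit 228) (nat_lit 0) (XT.nd (nat_lit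 78) (nat_lit 152) (nat_lit 0) (XT.lf (nat_lit 0) (nat_lit 5278127914) (nat_lit 228) (nat_lit 1750322388) (nat_lit 76) (nat_lit 4606551572) (nat_lit 17) (nat_lit 5) (nat_lit 20) (nat_lit 5) (nat_lit 18) (nat_lit 5) (nat_lit 260) (nat_lit 242) (nat_lit 218)) (XT.nd (nat_lit 78) (nat_lit 0) (nat_lit 0) (XT.lf (nat_lit 0) (nat_lit 3286646675) (nat_lit 152) (nat_lit 4187671496) (nat_lit 228) (nat_lit 4749818044) (nat_lit 15) (nat_lit 5) (nat_lit 17) (nat_lit 5) (nat_lit 18) (nat_lit 5) (nat_lit 261) (nat_lit 242) (nat_lit 217)) (XT.lf (nat_lit 0) (nat_lit 8737118990) (nat_lit 152) (nat_lit 1087414435) (nat_lit 228) (nat_lit 3038153773) (nat_lit 15) (nat_lit 5) (nat_lit 17) (nat_lit 5) (nat_lit 18) (nat_lit 5) (nat_lit 262) (nat_lit 242) (nat_lit 216)))) (XT.nd (nat_lit 78) (nat_lit 76) (nat_lit 0) (XT.lf (nat_lit 0) (nat_lit 978236063) (nat_lit 152) (nat_lit 11397619713) (nat_lit 228)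 (nat_lit 1175930662) (nat_lit 13) (nat_lit 5) (nat_lit 15) (nat_lit 5) (nat_lit 16) (nat_lit 4) (nat_lit 263) (nat_lit 242) (nat_lit 215)) (XT.nd (nat_lit 78) (nat_lit 0) (nat_lit 0) (XT.lf (nat_lit 0) (nat_lit 873335635) (nat_lit 228) (nat_lit 7702511782) (nat_lit 76) (nat_lit 5712609638) (nat_lit 12) (nat_lit 5) (nat_lit 15) (nat_lit 5) (nat_lit 13) (nat_lit 5) (nat_lit 264) (nat_lit 242) (nat_lit 214)) (XT.lf (nat_lit 0) (nat_lit 2963636683) (nat_lit 228) (nat_lit 2554953115) (nat_lit 76) (nat_lit 9568184031) (nat_lit 12) (nat_lit 5) (nat_lit 15) (nat_lit 5) (nat_lit 13) (nat_lit 5) (nat_lit 265) (nat_lit 242) (nat_lit 213))))))))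
noncomputable def xc54 : XT := (XT.nd (nat_lit 1716) (nat_lit 76) (nat_lit 0) (XT.nd (nat_lit 858) (nat_lit 228) (nat_lit 0) (XT.nd (nat_lit 390) (nat_lit 304) (nat_lit 0) (XT.nd (nat_lit 156) (nat_lit 76) (nat_lit 0) (XT.nd (nat_lit 78) (nat_lit 0) (nat_lit 0) (XT.lf (nat_lit 0) (nat_lit 3082089433) (nat_lit 152) (nat_lit 2158219157) (nat_lit 228) (nat_lit 10707491483) (nat_lit 10) (nat_lit 5) (nat_lit 12) (nat_lit 5) (nat_lit 13) (nat_lit 5) (nat_lit 266) (nat_lit 242) (nat_lit 212)) (XT.lf (nat_lit 0) (nat_lit 7752938583) (nat_lit 228) (nat_lit 7672514401) (nat_lit 76) (nat_lit 1448297516) (nat_lit 10) (nat_lit 5) (nat_lit 13) (nat_lit 5) (nat_lit 11) (nat_lit 4) (nat_lit 267) (nat_lit 242) (nat_lit 211))) (XT.nd (nat_lit 78) (nat_lit 76) (nat_lit 0) (XT.lf (nat_lit 0) (nat_lit 10473354937) (nat_lit 228) (nat_lit 2192698596) (nat_lit 76) (nat_lit 5207503597) (nat_lit 10) (nat_lit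 5) (nat_lit 13) (nat_lit 5) (nat_lit 11) (nat_lit 4) (nat_lit 268) (nat_lit 242) (nat_lit 210)) (XT.nd (nat_lit 78) (nat_lit 0) (nat_lit 0) (XT.lf (nat_lit 0) (nat_lit 3850744829) (nat_lit 76) (nat_lit 9607639092) (nat_lit 152) (nat_lit 5491504402) (nat_lit 9) (nat_lit 5) (nat_lit 10) (nat_lit 5) (nat_lit 11) (nat_lit 4) (nat_lit 269) (nat_lit 242) (nat_lit 209)) (XT.lf (nat_lit 0) (nat_lit 10436682958) (nat_lit 76) (nat_lit 6261653795) (nat_lit 152) (nat_lit 3412975812) (nat_lit 9) (nat_lit 5) (nat_lit 10) (nat_lit 5) (nat_lit 11) (nat_lit 4) (nat_lit 270) (nat_lit 242) (nat_lit 208))))) (XT.nd (nat_lit 234) (nat_lit 76) (nat_lit 0) (XT.nd (nat_lit 78) (nat_lit 228) (nat_lit 0) (XT.lf (nat_lit 0) (nat_lit 17488679951) (nat_lit 76) (nat_lit 2668221846) (nat_lit 152) (nat_lit 1212251482) (nat_lit 9) (nat_lit 5) (nat_lit 10) (nat_lit 5) (nat_lit 11) (nat_lit 4) (nat_lit 271) (nat_lit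 242) (nat_lit 207)) (XT.nd (nat_lit 78) (nat_lit 0) (nat_lit 0) (XT.lf (nat_lit 0) (nat_lit 1156410938) (nat_lit 228) (nat_lit 20343729161) (nat_lit 76) (nat_lit 1221449133) (nat_lit 6) (nat_lit 5) (nat_lit 9) (nat_lit 5) (nat_lit 7) (nat_lit 4) (nat_lit 272) (nat_lit 242) (nat_lit 206)) (XT.lf (nat_lit 0) (nat_lit 3789476790) (nat_lit 228) (nat_lit 14979532127) (nat_lit 76) (nat_lit 5399662971) (nat_lit 6) (nat_lit 5) (nat_lit 9) (nat_lit 5) (nat_lit 7) (nat_lit 4) (nat_lit 273) (nat_lit 242) (nat_lit 205)))) (XT.nd (nat_lit 78) (nat_lit 76) (nat_lit 0) (XT.lf (nat_lit 0) (nat_lit 6598228839) (nat_lit 228) (nat_lit 9241568547) (nat_lit 76) (nat_lit 9894708524) (nat_lit 6) (nat_lit 5) (nat_lit 9) (nat_lit 5) (nat_lit 7) (nat_lit 4) (nat_lit 274) (nat_lit 242) (nat_lit 204)) (XT.nd (nat_lit 78) (nat_lit 76) (nat_lit 0) (XT.lf (nat_lit 0) (nat_lit 9599311543) (nat_lit 228) (nat_lit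 3095835674) (nat_lit 76) (nat_lit 14733223099) (nat_lit 6) (nat_lit 5) (nat_lit 9) (nat_lit 5) (nat_lit 7) (nat_lit 4) (nat_lit 275) (nat_lit 242) (nat_lit 203)) (XT.lf (nat_lit 0) (nat_lit 3678078008) (nat_lit 76) (nat_lit 9220888951) (nat_lit 152) (nat_lit 16354259232) (nat_lit 5) (nat_lit 5) (nat_lit 6) (nat_lit 5) (nat_lit 7) (nat_lit 4) (nat_lit 276) (nat_lit 242) (nat_lit 202)))))) (XT.nd (nat_lit 390) (nat_lit 152) (nat_lit 0) (XT.nd (nat_lit 156) (nat_lit 76) (nat_lit 0) (XT.nd (nat_lit 78) (nat_lit 0) (nat_lit 0) (XT.lf (nat_lit 0) (nat_lit 11123699301) (nat_lit 76) (nat_lit 5394676748) (nat_lit 152) (nat_lit 14701381250) (nat_lit 5) (nat_lit 5) (nat_lit 6) (nat_lit 5) (nat_lit 7) (nat_lit 4) (nat_lit 277) (nat_lit 242) (nat_lit 201)) (XT.lf (nat_lit 0) (nat_lit 19122129185) (nat_lit 76) (nat_lit 1278482392) (nat_lit 152) (nat_lit 12945275630) (nat_lit 5) (nat_lit 5) (nat_lit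 6) (nat_lit 5) (nat_lit 7) (nat_lit 4) (nat_lit 278) (nat_lit 242) (nat_lit 200))) (XT.nd (nat_lit 78) (nat_lit 76) (nat_lit 0) (XT.lf (nat_lit 0) (nat_lit 24644487135) (nat_lit 152) (nat_lit 7999257193) (nat_lit 0) (nat_lit 2994406253) (nat_lit 5) (nat_lit 5) (nat_lit 7) (nat_lit 4) (nat_lit 5) (nat_lit 4) (nat_lit 279) (nat_lit 242) (nat_lit 199)) (XT.nd (nat_lit 78) (nat_lit 76) (nat_lit 0) (XT.lf (nat_lit 0) (nat_lit 29237834315) (nat_lit 152) (nat_lit 1348352278) (nat_lit 0) (nat_lit 7526929995) (nat_lit 5) (nat_lit 5) (nat_lit 7) (nat_lit 4) (nat_lit 5) (nat_lit 4) (nat_lit 280) (nat_lit 242) (nat_lit 198)) (XT.lf (nat_lit 0) (nat_lit 6104488248) (nat_lit 76) (nat_lit 28219450260) (nat_lit 76) (nat_lit 6452227943) (nat_lit 4) (nat_lit 4) (nat_lit 5) (nat_lit 5) (nat_lit 5) (nat_lit 4) (nat_lit 281) (nat_lit 242) (nat_lit 197))))) (XT.nd (nat_lit 234) (nat_lit 76) (nat_lit 0)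 (XT.nd (nat_lit 78) (nat_lit 76) (nat_lit 0) (XT.lf (nat_lit 0) (nat_lit 14195628937) (nat_lit 76) (nat_lit 25637406601) (nat_lit 76) (nat_lit 3818037990) (nat_lit 4) (nat_lit 4) (nat_lit 5) (nat_lit 5) (nat_lit 5) (nat_lit 4) (nat_lit 282) (nat_lit 242) (nat_lit 196)) (XT.nd (nat_lit 78) (nat_lit 76) (nat_lit 0) (XT.lf (nat_lit 0) (nat_lit 22902015448) (nat_lit 76) (nat_lit 22861620958) (nat_lit 76) (nat_lit 993968742) (nat_lit 4) (nat_lit 4) (nat_lit 5) (nat_lit 5) (nat_lit 5) (nat_lit 4) (nat_lit 283) (nat_lit 242) (nat_lit 195)) (XT.lf (nat_lit 0) (nat_lit 1934830292) (nat_lit 152) (nat_lit 17887912249) (nat_lit 76) (nat_lit 30287509198) (nat_lit 3) (nat_lit 5) (nat_lit 5) (nat_lit 5) (nat_lit 4) (nat_lit 4) (nat_lit 284) (nat_lit 242) (nat_lit 194)))) (XT.nd (nat_lit 78) (nat_lit 76) (nat_lit 0) (XT.lf (nat_lit 0) (nat_lit 5027247006) (nat_lit 152) (nat_lit 11497080894) (nat_lit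 76) (nat_lit 37206150328) (nat_lit 3) (nat_lit 5) (nat_lit 5) (nat_lit 5) (nat_lit 4) (nat_lit 4) (nat_lit 285) (nat_lit 242) (nat_lit 193)) (XT.nd (nat_lit 78) (nat_lit 76) (nat_lit 0) (XT.lf (nat_lit 0) (nat_lit 8351329172) (nat_lit 152) (nat_lit 4621319070) (nat_lit 76) (nat_lit 44669001961) (nat_lit 3) (nat_lit 5) (nat_lit 5) (nat_lit 5) (nat_lit 4) (nat_lit 4) (nat_lit 286) (nat_lit 242) (nat_lit 192)) (XT.lf (nat_lit 0) (nat_lit 2926514589) (nat_lit 76) (nat_lit 9070643213) (nat_lit 152) (nat_lit 49864156561) (nat_lit 2) (nat_lit 5) (nat_lit 3) (nat_lit 5) (nat_lit 4) (nat_lit 4) (nat_lit 287) (nat_lit 242) (nat_lit 191))))))) (XT.nd (nat_lit 858) (nat_lit 0) (nat_lit 0) (XT.nd (nat_lit 390) (nat_lit 76) (nat_lit 0) (XT.nd (nat_lit 156) (nat_lit 0) (nat_lit 0) (XT.nd (nat_lit 78) (nat_lit 0) (nat_lit 0) (XT.lf (nat_lit 0) (nat_lit 11317225579) (nat_lit 76) (nat_lit 4729726454)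 (nat_lit 152) (nat_lit 50362674951) (nat_lit 2) (nat_lit 5) (nat_lit 3) (nat_lit 5) (nat_lit 4) (nat_lit 4) (nat_lit 288) (nat_lit 242) (nat_lit 190)) (XT.lf (nat_lit 0) (nat_lit 20357186157) (nat_lit 76) (nat_lit 50529068) (nat_lit 152) (nat_lit 50915185441) (nat_lit 2) (nat_lit 5) (nat_lit 3) (nat_lit 5) (nat_lit 4) (nat_lit 4) (nat_lit 289) (nat_lit 242) (nat_lit 189))) (XT.nd (nat_lit 78) (nat_lit 0) (nat_lit 0) (XT.lf (nat_lit 0) (nat_lit 25225411054) (nat_lit 152) (nat_lit 46650406758) (nat_lit 0) (nat_lit 4744823523) (nat_lit 2) (nat_lit 5) (nat_lit 4) (nat_lit 4) (nat_lit 2) (nat_lit 4) (nat_lit 290) (nat_lit 242) (nat_lit 188)) (XT.nd (nat_lit 78) (nat_lit 0) (nat_lit 0) (XT.lf (nat_lit 0) (nat_lit 30418491668) (nat_lit 152) (nat_lit 42010808800) (nat_lit 0) (nat_lit 9913750313) (nat_lit 2) (nat_lit 5) (nat_lit 4) (nat_lit 4) (nat_lit 2) (nat_lit 4) (nat_lit 291) (nat_lit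 242) (nat_lit 187)) (XT.lf (nat_lit 0) (nat_lit 36016515654) (nat_lit 152) (nat_lit 37018211495) (nat_lit 0) (nat_lit 15489409647) (nat_lit 2) (nat_lit 5) (nat_lit 4) (nat_lit 4) (nat_lit 2) (nat_lit 4) (nat_lit 292) (nat_lit 242) (nat_lit 186))))) (XT.nd (nat_lit 234) (nat_lit 76) (nat_lit 0) (XT.nd (nat_lit 78) (nat_lit 0) (nat_lit 0) (XT.lf (nat_lit 0) (nat_lit 42052656487) (nat_lit 152) (nat_lit 31643029083) (nat_lit 0) (nat_lit 21504842470) (nat_lit 2) (nat_lit 5) (nat_lit 4) (nat_lit 4) (nat_lit 2) (nat_lit 4) (nat_lit 293) (nat_lit 242) (nat_lit 185)) (XT.nd (nat_lit 78) (nat_lit 0) (nat_lit 0) (XT.lf (nat_lit 0) (nat_lit 48562683892) (nat_lit 152) (nat_lit 25853408630) (nat_lit 0) (nat_lit 27995695791) (nat_lit 2) (nat_lit 5) (nat_lit 4) (nat_lit 4) (nat_lit 2) (nat_lit 4) (nat_lit 294) (nat_lit 242) (nat_lit 184)) (XT.lf (nat_lit 0) (nat_lit 55585175807) (nat_lit 152) (nat_lit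 19615041275) (nat_lit 0) (nat_lit 35000433925) (nat_lit 2) (nat_lit 5) (nat_lit 4) (nat_lit 4) (nat_lit 2) (nat_lit 4) (nat_lit 295) (nat_lit 242) (nat_lit 183)))) (XT.nd (nat_lit 78) (nat_lit 76) (nat_lit 0) (XT.lf (nat_lit 0) (nat_lit 63161747001) (nat_lit 152) (nat_lit 12890958915) (nat_lit 0) (nat_lit 42560566432) (nat_lit 2) (nat_lit 5) (nat_lit 4) (nat_lit 4) (nat_lit 2) (nat_lit 4) (nat_lit 296) (nat_lit 242) (nat_lit 182)) (XT.nd (nat_lit 78) (nat_lit 76) (nat_lit 0) (XT.lf (nat_lit 0) (nat_lit 71337295673) (nat_lit 152) (nat_lit 5641315135) (nat_lit 0) (nat_lit 50720894098) (nat_lit 2) (nat_lit 5) (nat_lit 4) (nat_lit 4) (nat_lit 2) (nat_lit 4) (nat_lit 297) (nat_lit 242) (nat_lit 181)) (XT.lf (nat_lit 0) (nat_lit 2291480027) (nat_lit 76) (nat_lit 77923899640) (nat_lit 76) (nat_lit 57293404541) (nat_lit 1) (nat_lit 4) (nat_lit 2) (nat_lit 5) (nat_lit 2) (nat_lit 4) (nat_lit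 298) (nat_lit 242) (nat_lit 180)))))) (XT.nd (nat_lit 390) (nat_lit 0) (nat_lit 0) (XT.nd (nat_lit 156) (nat_lit 0) (nat_lit 0) (XT.nd (nat_lit 78) (nat_lit 0) (nat_lit 0) (XT.lf (nat_lit 0) (nat_lit 11168566016) (nat_lit 76) (nat_lit 78782991091) (nat_lit 76) (nat_lit 58139446432) (nat_lit 1) (nat_lit 4) (nat_lit 2) (nat_lit 5) (nat_lit 2) (nat_lit 4) (nat_lit 299) (nat_lit 242) (nat_lit 179)) (XT.lf (nat_lit 0) (nat_lit 20745486127) (nat_lit 76) (nat_lit 79715219626) (nat_lit 76) (nat_lit 59059592042) (nat_lit 1) (nat_lit 4) (nat_lit 2) (nat_lit 5) (nat_lit 2) (nat_lit 4) (nat_lit 300) (nat_lit 242) (nat_lit 178))) (XT.nd (nat_lit 78) (nat_lit 0) (nat_lit 0) (XT.lf (nat_lit 0) (nat_lit 31078992480) (nat_lit 76) (nat_lit 80726109562) (nat_lit 76) (nat_lit 60059294084) (nat_lit 1) (nat_lit 4) (nat_lit 2) (nat_lit 5) (nat_lit 2) (nat_lit 4) (nat_lit 301) (nat_lit 242) (nat_lit 177))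 (XT.nd (nat_lit 78) (nat_lit 0) (nat_lit 0) (XT.lf (nat_lit 0) (nat_lit 42230320669) (nat_lit 76) (nat_lit 81821651357) (nat_lit 76) (nat_lit 61144476718) (nat_lit 1) (nat_lit 4) (nat_lit 2) (nat_lit 5) (nat_lit 2) (nat_lit 4) (nat_lit 302) (nat_lit 242) (nat_lit 176)) (XT.lf (nat_lit 0) (nat_lit 54265552637) (nat_lit 76) (nat_lit 83008337112) (nat_lit 76) (nat_lit 62321570658) (nat_lit 1) (nat_lit 4) (nat_lit 2) (nat_lit 5) (nat_lit 2) (nat_lit 4) (nat_lit 303) (nat_lit 242) (nat_lit 175))))) (XT.nd (nat_lit 234) (nat_lit 0) (nat_lit 0) (XT.nd (nat_lit 78) (nat_lit 0) (nat_lit 0) (XT.lf (nat_lit 0) (nat_lit 67256008278) (nat_lit 76) (nat_lit 84293199039) (nat_lit 76) (nat_lit 63597551273) (nat_lit 1) (nat_lit 4) (nat_lit 2) (nat_lit 5) (nat_lit 2) (nat_lit 4) (nat_lit 304) (nat_lit 242) (nat_lit 174)) (XT.nd (nat_lit 78) (nat_lit 0) (nat_lit 0) (XT.lf (nat_lit 0) (nat_lit 81278668069)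 (nat_lit 76) (nat_lit 85683851134) (nat_lit 76) (nat_lit 64979979932) (nat_lit 1) (nat_lit 4) (nat_lit 2) (nat_lit 5) (nat_lit 2) (nat_lit 4) (nat_lit 305) (nat_lit 242) (nat_lit 173)) (XT.lf (nat_lit 0) (nat_lit 96416629255) (nat_lit 76) (nat_lit 87188534297) (nat_lit 76) (nat_lit 66477048803) (nat_lit 1) (nat_lit 4) (nat_lit 2) (nat_lit 5) (nat_lit 2) (nat_lit 4) (nat_lit 306) (nat_lit 242) (nat_lit 172)))) (XT.nd (nat_lit 78) (nat_lit 0) (nat_lit 0) (XT.lf (nat_lit 0) (nat_lit 112759598271) (nat_lit 76) (nat_lit 88816165172) (nat_lit 76) (nat_lit 68097629407) (nat_lit 1) (nat_lit 4) (nat_lit 2) (nat_lit 5) (nat_lit 2) (nat_lit 4) (nat_lit 307) (nat_lit 242) (nat_lit 171)) (XT.nd (nat_lit 78) (nat_lit 0) (nat_lit 0) (XT.lf (nat_lit 0) (nat_lit 130404422342) (nat_lit 76) (nat_lit 90576388976) (nat_lit 76) (nat_lit 69851325182) (nat_lit 1) (nat_lit 4) (nat_lit 2) (nat_lit 5) (nat_lit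 2) (nat_lit 4) (nat_lit 308) (nat_lit 242) (nat_lit 170)) (XT.lf (nat_lit 0) (nat_lit 149455663388) (nat_lit 76) (nat_lit 92479636666) (nat_lit 76) (nat_lit 71748528402) (nat_lit 1) (nat_lit 4) (nat_lit 2) (nat_lit 5) (nat_lit 2) (nat_lit 4) (nat_lit 309) (nat_lit 242) (nat_lit 169))))))))
noncomputable def xc55 : XT := (XT.nd (nat_lit 32292) (nat_lit 0) (nat_lit 912) (XT.nd (nat_lit 858) (nat_lit 0) (nat_lit 0) (XT.nd (nat_lit 390) (nat_lit 0) (nat_lit 0) (XT.nd (nat_lit 156) (nat_lit 0) (nat_lit 0) (XT.nd (nat_lit 78) (nat_lit 0) (nat_lit 0) (XT.lf (nat_lit 0) (nat_lit 170026217651) (nat_lit 76) (nat_lit 94537186748) (nat_lit 76) (nat_lit 73800481751) (nat_lit 1) (nat_lit 4) (nat_lit 2) (nat_lit 5) (nat_lit 2) (nat_lit 4) (nat_lit 310) (nat_lit 242) (nat_lit 168)) (XT.lf (nat_lit 0) (nat_lit 192237984714) (nat_lit 76) (nat_lit 96761232110) (nat_lit 76) (nat_lit 76019344953) (nat_lit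 1) (nat_lit 4) (nat_lit 2) (nat_lit 5) (nat_lit 2) (nat_lit 4) (nat_lit 311) (nat_lit 242) (nat_lit 167))) (XT.nd (nat_lit 78) (nat_lit 0) (nat_lit 0) (XT.lf (nat_lit 0) (nat_lit 216222589862) (nat_lit 76) (nat_lit 99164952280) (nat_lit 76) (nat_lit 78418266828) (nat_lit 1) (nat_lit 4) (nat_lit 2) (nat_lit 5) (nat_lit 2) (nat_lit 4) (nat_lit 312) (nat_lit 242) (nat_lit 166)) (XT.nd (nat_lit 78) (nat_lit 0) (nat_lit 0) (XT.lf (nat_lit 0) (nat_lit 242122164088) (nat_lit 76) (nat_lit 101762591526) (nat_lit 76) (nat_lit 81011463207) (nat_lit 1) (nat_lit 4) (nat_lit 2) (nat_lit 5) (nat_lit 2) (nat_lit 4) (nat_lit 313) (nat_lit 242) (nat_lit 165)) (XT.lf (nat_lit 0) (nat_lit 270090186352) (nat_lit 76) (nat_lit 104569543267) (nat_lit 76) (nat_lit 83814301182) (nat_lit 1) (nat_lit 4) (nat_lit 2) (nat_lit 5) (nat_lit 2) (nat_lit 4) (nat_lit 314) (nat_lit 242) (nat_lit 164))))) (XT.nd (nat_lit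 234) (nat_lit 0) (nat_lit 0) (XT.nd (nat_lit 78) (nat_lit 0) (nat_lit 0) (XT.lf (nat_lit 0) (nat_lit 300292393081) (nat_lit 76) (nat_lit 107602441289) (nat_lit 76) (nat_lit 86843390162) (nat_lit 1) (nat_lit 4) (nat_lit 2) (nat_lit 5) (nat_lit 2) (nat_lit 4) (nat_lit 315) (nat_lit 242) (nat_lit 163)) (XT.nd (nat_lit 78) (nat_lit 0) (nat_lit 0) (XT.lf (nat_lit 0) (nat_lit 332907760315) (nat_lit 76) (nat_lit 110879258322) (nat_lit 76) (nat_lit 90116680305) (nat_lit 1) (nat_lit 4) (nat_lit 2) (nat_lit 5) (nat_lit 2) (nat_lit 4) (nat_lit 316) (nat_lit 242) (nat_lit 162)) (XT.lf (nat_lit 0) (nat_lit 368129564304) (nat_lit 76) (nat_lit 114419412541) (nat_lit 76) (nat_lit 93653568884) (nat_lit 1) (nat_lit 4) (nat_lit 2) (nat_lit 5) (nat_lit 2) (nat_lit 4) (nat_lit 317) (nat_lit 242) (nat_lit 161)))) (XT.nd (nat_lit 78) (nat_lit 0) (nat_lit 0) (XT.lf (nat_lit 0) (nat_lit 406166526851) (nat_lit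 76) (nat_lit 118243882637) (nat_lit 76) (nat_lit 97475015240) (nat_lit 1) (nat_lit 4) (nat_lit 2) (nat_lit 5) (nat_lit 2) (nat_lit 4) (nat_lit 318) (nat_lit 242) (nat_lit 160)) (XT.nd (nat_lit 78) (nat_lit 0) (nat_lit 0) (XT.lf (nat_lit 0) (nat_lit 447244052176) (nat_lit 76) (nat_lit 122375332138) (nat_lit 76) (nat_lit 101603664982) (nat_lit 1) (nat_lit 4) (nat_lit 2) (nat_lit 5) (nat_lit 2) (nat_lit 4) (nat_lit 319) (nat_lit 242) (nat_lit 159)) (XT.lf (nat_lit 0) (nat_lit 491605562654) (nat_lit 76) (nat_lit 126838243707) (nat_lit 76) (nat_lit 106063984180) (nat_lit 1) (nat_lit 4) (nat_lit 2) (nat_lit 5) (nat_lit 2) (nat_lit 4) (nat_lit 320) (nat_lit 242) (nat_lit 158)))))) (XT.nd (nat_lit 390) (nat_lit 0) (nat_lit 0) (XT.nd (nat_lit 156) (nat_lit 0) (nat_lit 0) (XT.nd (nat_lit 78) (nat_lit 0) (nat_lit 0) (XT.lf (nat_lit 0) (nat_lit 539513941308) (nat_lit 76) (nat_lit 131659064227)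 (nat_lit 76) (nat_lit 110882404358) (nat_lit 1) (nat_lit 4) (nat_lit 2) (nat_lit 5) (nat_lit 2) (nat_lit 4) (nat_lit 321) (nat_lit 242) (nat_lit 157)) (XT.lf (nat_lit 0) (nat_lit 591253089642) (nat_lit 76) (nat_lit 136866361523) (nat_lit 76) (nat_lit 116087479115) (nat_lit 1) (nat_lit 4) (nat_lit 2) (nat_lit 5) (nat_lit 2) (nat_lit 4) (nat_lit 322) (nat_lit 242) (nat_lit 156))) (XT.nd (nat_lit 78) (nat_lit 0) (nat_lit 0) (XT.lf (nat_lit 0) (nat_lit 647129610016) (nat_lit 76) (nat_lit 142490993654) (nat_lit 76) (nat_lit 121710053339) (nat_lit 1) (nat_lit 4) (nat_lit 2) (nat_lit 5) (nat_lit 2) (nat_lit 4) (nat_lit 323) (nat_lit 242) (nat_lit 155)) (XT.nd (nat_lit 78) (nat_lit 0) (nat_lit 0) (XT.lf (nat_lit 0) (nat_lit 707474622551) (nat_lit 76) (nat_lit 148566291773) (nat_lit 76) (nat_lit 127783445988) (nat_lit 1) (nat_lit 4) (nat_lit 2) (nat_lit 5) (nat_lit 2) (nat_lit 4) (nat_lit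 324) (nat_lit 242) (nat_lit 154)) (XT.lf (nat_lit 0) (nat_lit 772645727322) (nat_lit 76) (nat_lit 155128257646) (nat_lit 76) (nat_lit 134343647538) (nat_lit 1) (nat_lit 4) (nat_lit 2) (nat_lit 5) (nat_lit 2) (nat_lit 4) (nat_lit 325) (nat_lit 242) (nat_lit 153))))) (XT.nd (nat_lit 234) (nat_lit 0) (nat_lit 0) (XT.nd (nat_lit 78) (nat_lit 0) (nat_lit 0) (XT.lf (nat_lit 0) (nat_lit 843029123468) (nat_lit 76) (nat_lit 162215776998) (nat_lit 76) (nat_lit 141429533257) (nat_lit 1) (nat_lit 4) (nat_lit 2) (nat_lit 5) (nat_lit 2) (nat_lit 4) (nat_lit 326) (nat_lit 242) (nat_lit 152)) (XT.nd (nat_lit 78) (nat_lit 0) (nat_lit 0) (XT.lf (nat_lit 0) (nat_lit 919041897780) (nat_lit 76) (nat_lit 169870849942) (nat_lit 76) (nat_lit 149083093579) (nat_lit 1) (nat_lit 4) (nat_lit 2) (nat_lit 5) (nat_lit 2) (nat_lit 4) (nat_lit 327) (nat_lit 242) (nat_lit 151)) (XT.lf (nat_lit 0) (nat_lit 1001134496329)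 (nat_lit 76) (nat_lit 178138839875) (nat_lit 76) (nat_lit 157349682934) (nat_lit 1) (nat_lit 4) (nat_lit 2) (nat_lit 5) (nat_lit 2) (nat_lit 4) (nat_lit 328) (nat_lit 242) (nat_lit 150)))) (XT.nd (nat_lit 78) (nat_lit 0) (nat_lit 0) (XT.lf (nat_lit 0) (nat_lit 1089793393773) (nat_lit 76) (nat_lit 187068742292) (nat_lit 76) (nat_lit 166278288521) (nat_lit 1) (nat_lit 4) (nat_lit 2) (nat_lit 5) (nat_lit 2) (nat_lit 4) (nat_lit 329) (nat_lit 242) (nat_lit 149)) (XT.nd (nat_lit 78) (nat_lit 0) (nat_lit 0) (XT.lf (nat_lit 0) (nat_lit 1185543976170) (nat_lit 76) (nat_lit 196713475133) (nat_lit 76) (nat_lit 175921820593) (nat_lit 1) (nat_lit 4) (nat_lit 2) (nat_lit 5) (nat_lit 2) (nat_lit 4) (nat_lit 330) (nat_lit 242) (nat_lit 148)) (XT.lf (nat_lit 0) (nat_lit 1288953654380) (nat_lit 76) (nat_lit 207130192371) (nat_lit 76) (nat_lit 186337426008) (nat_lit 1) (nat_lit 4) (nat_lit 2) (nat_lit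 5) (nat_lit 2) (nat_lit 4) (nat_lit 331) (nat_lit 242) (nat_lit 147))))))) (XT.nd (nat_lit 858) (nat_lit 1140) (nat_lit 0) (XT.nd (nat_lit 390) (nat_lit 684) (nat_lit 0) (XT.nd (nat_lit 156) (nat_lit 304) (nat_lit 0) (XT.nd (nat_lit 78) (nat_lit 0) (nat_lit 0) (XT.lf (nat_lit 0) (nat_lit 91966907) (nat_lit 0) (nat_lit 91966907) (nat_lit 228) (nat_lit 3175959253) (nat_lit 41) (nat_lit 5) (nat_lit 41) (nat_lit 3) (nat_lit 44) (nat_lit 3) (nat_lit 243) (nat_lit 243) (nat_lit 234)) (XT.lf (nat_lit 0) (nat_lit 2207995658) (nat_lit 228) (nat_lit 3806353246) (nat_lit 304) (nat_lit 804372453) (nat_lit 41) (nat_lit 5) (nat_lit 44) (nat_lit 3) (nat_lit 45) (nat_lit 5) (nat_lit 244) (nat_lit 243) (nat_lit 233))) (XT.nd (nat_lit 78) (nat_lit 304) (nat_lit 0) (XT.lf (nat_lit 0) (nat_lit 4021691281) (nat_lit 228) (nat_lit 972570054) (nat_lit 304) (nat_lit 1947584938) (nat_lit 41) (nat_lit 5) (nat_lit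 44) (nat_lit 3) (nat_lit 45) (nat_lit 5) (nat_lit 245) (nat_lit 243) (nat_lit 232)) (XT.nd (nat_lit 78) (nat_lit 304) (nat_lit 0) (XT.lf (nat_lit 76) (nat_lit 2091330478) (nat_lit 0) (nat_lit 3774244780) (nat_lit 304) (nat_lit 1220645416) (nat_lit 42) (nat_lit 5) (nat_lit 41) (nat_lit 5) (nat_lit 45) (nat_lit 5) (nat_lit 246) (nat_lit 243) (nat_lit 231)) (XT.lf (nat_lit 0) (nat_lit 450036571) (nat_lit 304) (nat_lit 1908867636) (nat_lit 380) (nat_lit 4894672550) (nat_lit 37) (nat_lit 5) (nat_lit 41) (nat_lit 5) (nat_lit 42) (nat_lit 5) (nat_lit 247) (nat_lit 243) (nat_lit 230))))) (XT.nd (nat_lit 234) (nat_lit 456) (nat_lit 0) (XT.nd (nat_lit 78) (nat_lit 228) (nat_lit 0) (XT.lf (nat_lit 76) (nat_lit 1359382862) (nat_lit 0) (nat_lit 712371329) (nat_lit 380) (nat_lit 5371116435) (nat_lit 38) (nat_lit 5) (nat_lit 37) (nat_lit 5) (nat_lit 42) (nat_lit 5) (nat_lit 248) (nat_lit 243) (nat_lit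 229)) (XT.nd (nat_lit 78) (nat_lit 304) (nat_lit 0) (XT.lf (nat_lit 0) (nat_lit 3762740037) (nat_lit 304) (nat_lit 2784757585) (nat_lit 76) (nat_lit 1106270060) (nat_lit 38) (nat_lit 5) (nat_lit 42) (nat_lit 5) (nat_lit 39) (nat_lit 5) (nat_lit 249) (nat_lit 243) (nat_lit 228)) (XT.lf (nat_lit 0) (nat_lit 689910384) (nat_lit 304) (nat_lit 4804883231) (nat_lit 380) (nat_lit 2395781765) (nat_lit 34) (nat_lit 5) (nat_lit 38) (nat_lit 5) (nat_lit 39) (nat_lit 5) (nat_lit 250) (nat_lit 243) (nat_lit 227)))) (XT.nd (nat_lit 78) (nat_lit 456) (nat_lit 0) (XT.lf (nat_lit 0) (nat_lit 4499585981) (nat_lit 304) (nat_lit 2819800160) (nat_lit 380) (nat_lit 832014306) (nat_lit 34) (nat_lit 5) (nat_lit 38) (nat_lit 5) (nat_lit 39) (nat_lit 5) (nat_lit 251) (nat_lit 243) (nat_lit 226)) (XT.nd (nat_lit 78) (nat_lit 0) (nat_lit 0) (XT.lf (nat_lit 0) (nat_lit 62251905) (nat_lit 380) (nat_lit 635958845)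 (nat_lit 456) (nat_lit 7743686940) (nat_lit 28) (nat_lit 5) (nat_lit 33) (nat_lit 5) (nat_lit 34) (nat_lit 5) (nat_lit 252) (nat_lit 243) (nat_lit 225)) (XT.lf (nat_lit 0) (nat_lit 2339106084) (nat_lit 456) (nat_lit 4641068323) (nat_lit 76) (nat_lit 1772179236) (nat_lit 28) (nat_lit 5) (nat_lit 34) (nat_lit 5) (nat_lit 29) (nat_lit 5) (nat_lit 253) (nat_lit 243) (nat_lit 224)))))) (XT.nd (nat_lit 390) (nat_lit 456) (nat_lit 0) (XT.nd (nat_lit 156) (nat_lit 304) (nat_lit 0) (XT.nd (nat_lit 78) (nat_lit 380) (nat_lit 0) (XT.lf (nat_lit 0) (nat_lit 4025322771) (nat_lit 456) (nat_lit 720769712) (nat_lit 76) (nat_lit 4349451837) (nat_lit 28) (nat_lit 5) (nat_lit 34) (nat_lit 5) (nat_lit 29) (nat_lit 5) (nat_lit 254) (nat_lit 243) (nat_lit 223)) (XT.lf (nat_lit 0) (nat_lit 3599855628) (nat_lit 380) (nat_lit 2238279367) (nat_lit 456) (nat_lit 3629665906) (nat_lit 23) (nat_lit 5) (nat_lit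 28) (nat_lit 5) (nat_lit 29) (nat_lit 5) (nat_lit 255) (nat_lit 243) (nat_lit 222))) (XT.nd (nat_lit 78) (nat_lit 304) (nat_lit 0) (XT.lf (nat_lit 0) (nat_lit 7737435878) (nat_lit 456) (nat_lit 1672027513) (nat_lit 76) (nat_lit 465933916) (nat_lit 23) (nat_lit 5) (nat_lit 29) (nat_lit 5) (nat_lit 24) (nat_lit 5) (nat_lit 256) (nat_lit 243) (nat_lit 221)) (XT.nd (nat_lit 78) (nat_lit 76) (nat_lit 0) (XT.lf (nat_lit 0) (nat_lit 2852384088) (nat_lit 228) (nat_lit 6979642438) (nat_lit 304) (nat_lit 480918719) (nat_lit 20) (nat_lit 5) (nat_lit 23) (nat_lit 5) (nat_lit 24) (nat_lit 5) (nat_lit 257) (nat_lit 243) (nat_lit 220)) (XT.lf (nat_lit 0) (nat_lit 1207985531) (nat_lit 304) (nat_lit 3075091829) (nat_lit 76) (nat_lit 6503416334) (nat_lit 19) (nat_lit 5) (nat_lit 23) (nat_lit 5) (nat_lit 20) (nat_lit 5) (nat_lit 258) (nat_lit 243) (nat_lit 219))))) (XT.nd (nat_lit 234) (nat_lit 304)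 (nat_lit 0) (XT.nd (nat_lit 78) (nat_lit 0) (nat_lit 0) (XT.lf (nat_lit 0) (nat_lit 1643504112) (nat_lit 152) (nat_lit 1325986982) (nat_lit 228) (nat_lit 8331002104) (nat_lit 17) (nat_lit 5) (nat_lit 19) (nat_lit 5) (nat_lit 20) (nat_lit 5) (nat_lit 259) (nat_lit 243) (nat_lit 218)) (XT.nd (nat_lit 78) (nat_lit 0) (nat_lit 0) (XT.lf (nat_lit 0) (nat_lit 4930319232) (nat_lit 228) (nat_lit 5072825098) (nat_lit 76) (nat_lit 1848392619) (nat_lit 17) (nat_lit 5) (nat_lit 20) (nat_lit 5) (nat_lit 18) (nat_lit 5) (nat_lit 260) (nat_lit 243) (nat_lit 217)) (XT.lf (nat_lit 0) (nat_lit 7015068074) (nat_lit 228) (nat_lit 240913895) (nat_lit 76) (nat_lit 5193870153) (nat_lit 17) (nat_lit 5) (nat_lit 20) (nat_lit 5) (nat_lit 18) (nat_lit 5) (nat_lit 261) (nat_lit 243) (nat_lit 216)))) (XT.nd (nat_lit 78) (nat_lit 152) (nat_lit 0) (XT.lf (nat_lit 0) (nat_lit 5157254862) (nat_lit 152) (nat_lit 4170978908)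 (nat_lit 228) (nat_lit 3763379150) (nat_lit 15) (nat_lit 5) (nat_lit 17) (nat_lit 5) (nat_lit 18) (nat_lit 5) (nat_lit 262) (nat_lit 243) (nat_lit 215)) (XT.nd (nat_lit 78) (nat_lit 152) (nat_lit 0) (XT.lf (nat_lit 0) (nat_lit 10924677819) (nat_lit 152) (nat_lit 848753601) (nat_lit 228) (nat_lit 2015998355) (nat_lit 15) (nat_lit 5) (nat_lit 17) (nat_lit 5) (nat_lit 18) (nat_lit 5) (nat_lit 263) (nat_lit 243) (nat_lit 214)) (XT.lf (nat_lit 0) (nat_lit 2599447970) (nat_lit 152) (nat_lit 11887628128) (nat_lit 228) (nat_lit 50607798) (nat_lit 13) (nat_lit 5) (nat_lit 15) (nat_lit 5) (nat_lit 16) (nat_lit 4) (nat_lit 264) (nat_lit 243) (nat_lit 213))))))))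
noncomputable def xc56 : XT := (XT.nd (nat_lit 1638) (nat_lit 152) (nat_lit 0) (XT.nd (nat_lit 780) (nat_lit 228) (nat_lit 0) (XT.nd (nat_lit 390) (nat_lit 304) (nat_lit 0) (XT.nd (nat_lit 156) (nat_lit 152) (nat_lit 0) (XT.nd (nat_lit 78) (nat_lit 0) (nat_lit 0) (XT.lf (nat_lit 0) (nat_lit 2015793343) (nat_lit 228) (nat_lit 6826238701) (nat_lit 76) (nat_lit 6496361223) (nat_lit 12) (nat_lit 5) (nat_lit 15) (nat_lit 5) (nat_lit 13) (nat_lit 5) (nat_lit 265) (nat_lit 243) (nat_lit 212)) (XT.lf (nat_lit 0) (nat_lit 4193867301) (nat_lit 228) (nat_lit 1377428972) (nat_lit 76) (nat_lit 10636178395) (nat_lit 12) (nat_lit 5) (nat_lit 15) (nat_lit 5) (nat_lit 13) (nat_lit 5) (nat_lit 266) (nat_lit 243) (nat_lit 211))) (XT.nd (nat_lit 78) (nat_lit 0) (nat_lit 0) (XT.lf (nat_lit 0) (nat_lit 4675591653) (nat_lit 152) (nat_lit 1935909225) (nat_lit 228) (nat_lit 10529678855) (nat_lit 10) (nat_lit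 5) (nat_lit 12) (nat_lit 5) (nat_lit 13) (nat_lit 5) (nat_lit 267) (nat_lit 243) (nat_lit 210)) (XT.nd (nat_lit 78) (nat_lit 0) (nat_lit 0) (XT.lf (nat_lit 0) (nat_lit 9263420501) (nat_lit 228) (nat_lit 6971611447) (nat_lit 76) (nat_lit 1911577606) (nat_lit 10) (nat_lit 5) (nat_lit 13) (nat_lit 5) (nat_lit 11) (nat_lit 4) (nat_lit 268) (nat_lit 243) (nat_lit 209)) (XT.lf (nat_lit 0) (nat_lit 12135525953) (nat_lit 228) (nat_lit 1150795867) (nat_lit 76) (nat_lit 5945785634) (nat_lit 10) (nat_lit 5) (nat_lit 13) (nat_lit 5) (nat_lit 11) (nat_lit 4) (nat_lit 269) (nat_lit 243) (nat_lit 208))))) (XT.nd (nat_lit 156) (nat_lit 228) (nat_lit 0) (XT.nd (nat_lit 78) (nat_lit 0) (nat_lit 0) (XT.lf (nat_lit 0) (nat_lit 5345304839) (nat_lit 76) (nat_lit 9981528328) (nat_lit 152) (nat_lit 5070713166) (nat_lit 9) (nat_lit 5) (nat_lit 10) (nat_lit 5) (nat_lit 11) (nat_lit 4) (nat_lit 270) (nat_lit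 243) (nat_lit 207)) (XT.lf (nat_lit 0) (nat_lit 12370229099) (nat_lit 76) (nat_lit 6397102865) (nat_lit 152) (nat_lit 2889614258) (nat_lit 9) (nat_lit 5) (nat_lit 10) (nat_lit 5) (nat_lit 11) (nat_lit 4) (nat_lit 271) (nat_lit 243) (nat_lit 206))) (XT.nd (nat_lit 78) (nat_lit 228) (nat_lit 0) (XT.lf (nat_lit 0) (nat_lit 19905007221) (nat_lit 76) (nat_lit 2543269192) (nat_lit 152) (nat_lit 571824546) (nat_lit 9) (nat_lit 5) (nat_lit 10) (nat_lit 5) (nat_lit 11) (nat_lit 4) (nat_lit 272) (nat_lit 243) (nat_lit 205)) (XT.nd (nat_lit 78) (nat_lit 0) (nat_lit 0) (XT.lf (nat_lit 0) (nat_lit 1930961828) (nat_lit 228) (nat_lit 20890995375) (nat_lit 76) (nat_lit 1659127758) (nat_lit 6) (nat_lit 5) (nat_lit 9) (nat_lit 5) (nat_lit 7) (nat_lit 4) (nat_lit 273) (nat_lit 243) (nat_lit 204)) (XT.lf (nat_lit 0) (nat_lit 4724151613) (nat_lit 228) (nat_lit 15177679772) (nat_lit 76) (nat_lit 6146416282)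 (nat_lit 6) (nat_lit 5) (nat_lit 9) (nat_lit 5) (nat_lit 7) (nat_lit 4) (nat_lit 274) (nat_lit 243) (nat_lit 203)))))) (XT.nd (nat_lit 390) (nat_lit 152) (nat_lit 0) (XT.nd (nat_lit 156) (nat_lit 76) (nat_lit 0) (XT.nd (nat_lit 78) (nat_lit 0) (nat_lit 0) (XT.lf (nat_lit 0) (nat_lit 7710824813) (nat_lit 228) (nat_lit 9054769100) (nat_lit 76) (nat_lit 10977748422) (nat_lit 6) (nat_lit 5) (nat_lit 9) (nat_lit 5) (nat_lit 7) (nat_lit 4) (nat_lit 275) (nat_lit 243) (nat_lit 202)) (XT.lf (nat_lit 0) (nat_lit 10908680232) (nat_lit 228) (nat_lit 2485979444) (nat_lit 76) (nat_lit 16181754295) (nat_lit 6) (nat_lit 5) (nat_lit 9) (nat_lit 5) (nat_lit 7) (nat_lit 4) (nat_lit 276) (nat_lit 243) (nat_lit 201))) (XT.nd (nat_lit 78) (nat_lit 0) (nat_lit 0) (XT.lf (nat_lit 0) (nat_lit 4808137887) (nat_lit 76) (nat_lit 9644166068) (nat_lit 152) (nat_lit 17096770399) (nat_lit 5) (nat_lit 5) (nat_lit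 6) (nat_lit 5) (nat_lit 7) (nat_lit 4) (nat_lit 277) (nat_lit 243) (nat_lit 200)) (XT.nd (nat_lit 78) (nat_lit 0) (nat_lit 0) (XT.lf (nat_lit 0) (nat_lit 12787496763) (nat_lit 76) (nat_lit 5535145333) (nat_lit 152) (nat_lit 15353575481) (nat_lit 5) (nat_lit 5) (nat_lit 6) (nat_lit 5) (nat_lit 7) (nat_lit 4) (nat_lit 278) (nat_lit 243) (nat_lit 199)) (XT.lf (nat_lit 0) (nat_lit 21368474999) (nat_lit 76) (nat_lit 1111218803) (nat_lit 152) (nat_lit 13495790023) (nat_lit 5) (nat_lit 5) (nat_lit 6) (nat_lit 5) (nat_lit 7) (nat_lit 4) (nat_lit 279) (nat_lit 243) (nat_lit 198))))) (XT.nd (nat_lit 234) (nat_lit 76) (nat_lit 0) (XT.nd (nat_lit 78) (nat_lit 76) (nat_lit 0) (XT.lf (nat_lit 0) (nat_lit 27035968138) (nat_lit 152) (nat_lit 7946450230) (nat_lit 0) (nat_lit 3471050039) (nat_lit 5) (nat_lit 5) (nat_lit 7) (nat_lit 4) (nat_lit 5) (nat_lit 4) (nat_lit 280) (nat_lit 243) (nat_lit 197))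 (XT.nd (nat_lit 78) (nat_lit 76) (nat_lit 0) (XT.lf (nat_lit 0) (nat_lit 31965677757) (nat_lit 152) (nat_lit 814787555) (nat_lit 0) (nat_lit 8348613363) (nat_lit 5) (nat_lit 5) (nat_lit 7) (nat_lit 4) (nat_lit 5) (nat_lit 4) (nat_lit 281) (nat_lit 243) (nat_lit 196)) (XT.lf (nat_lit 0) (nat_lit 7218041406) (nat_lit 76) (nat_lit 30226863576) (nat_lit 76) (nat_lit 6561515577) (nat_lit 4) (nat_lit 4) (nat_lit 5) (nat_lit 5) (nat_lit 5) (nat_lit 4) (nat_lit 282) (nat_lit 243) (nat_lit 195)))) (XT.nd (nat_lit 78) (nat_lit 76) (nat_lit 0) (XT.lf (nat_lit 0) (nat_lit 15910162676) (nat_lit 76) (nat_lit 27456785513) (nat_lit 76) (nat_lit 3746730472) (nat_lit 4) (nat_lit 4) (nat_lit 5) (nat_lit 5) (nat_lit 5) (nat_lit 4) (nat_lit 283) (nat_lit 243) (nat_lit 194)) (XT.nd (nat_lit 78) (nat_lit 76) (nat_lit 0) (XT.lf (nat_lit 0) (nat_lit 25270179854) (nat_lit 76) (nat_lit 24476093583) (nat_lit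 76) (nat_lit 724643133) (nat_lit 4) (nat_lit 4) (nat_lit 5) (nat_lit 5) (nat_lit 5) (nat_lit 4) (nat_lit 284) (nat_lit 243) (nat_lit 193)) (XT.lf (nat_lit 0) (nat_lit 2396461682) (nat_lit 152) (nat_lit 18805139234) (nat_lit 76) (nat_lit 32891574515) (nat_lit 3) (nat_lit 5) (nat_lit 5) (nat_lit 5) (nat_lit 4) (nat_lit 4) (nat_lit 285) (nat_lit 243) (nat_lit 192))))))) (XT.nd (nat_lit 858) (nat_lit 76) (nat_lit 0) (XT.nd (nat_lit 390) (nat_lit 0) (nat_lit 0) (XT.nd (nat_lit 156) (nat_lit 76) (nat_lit 0) (XT.nd (nat_lit 78) (nat_lit 0) (nat_lit 0) (XT.lf (nat_lit 0) (nat_lit 5713542475) (nat_lit 152) (nat_lit 11941101074) (nat_lit 76) (nat_lit 40350294744) (nat_lit 3) (nat_lit 5) (nat_lit 5) (nat_lit 5) (nat_lit 4) (nat_lit 4) (nat_lit 286) (nat_lit 243) (nat_lit 191)) (XT.lf (nat_lit 0) (nat_lit 9282505607) (nat_lit 152) (nat_lit 4550518770) (nat_lit 76) (nat_lit 48397755812) (nat_lit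 3) (nat_lit 5) (nat_lit 5) (nat_lit 5) (nat_lit 4) (nat_lit 4) (nat_lit 287) (nat_lit 243) (nat_lit 190))) (XT.nd (nat_lit 78) (nat_lit 0) (nat_lit 0) (XT.lf (nat_lit 0) (nat_lit 3589989536) (nat_lit 76) (nat_lit 9620850286) (nat_lit 152) (nat_lit 53577996176) (nat_lit 2) (nat_lit 5) (nat_lit 3) (nat_lit 5) (nat_lit 4) (nat_lit 4) (nat_lit 288) (nat_lit 243) (nat_lit 189)) (XT.nd (nat_lit 78) (nat_lit 0) (nat_lit 0) (XT.lf (nat_lit 0) (nat_lit 12620153421) (nat_lit 76) (nat_lit 4945656067) (nat_lit 152) (nat_lit 54136788106) (nat_lit 2) (nat_lit 5) (nat_lit 3) (nat_lit 5) (nat_lit 4) (nat_lit 4) (nat_lit 289) (nat_lit 243) (nat_lit 188)) (XT.lf (nat_lit 0) (nat_lit 22260323874) (nat_lit 152) (nat_lit 54658842139) (nat_lit 0) (nat_lit 91049387) (nat_lit 2) (nat_lit 5) (nat_lit 4) (nat_lit 4) (nat_lit 2) (nat_lit 4) (nat_lit 290) (nat_lit 243) (nat_lit 187))))) (XT.nd (nat_lit 234)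 (nat_lit 0) (nat_lit 0) (XT.nd (nat_lit 78) (nat_lit 0) (nat_lit 0) (XT.lf (nat_lit 0) (nat_lit 27448354931) (nat_lit 152) (nat_lit 50027979032) (nat_lit 0) (nat_lit 5256715793) (nat_lit 2) (nat_lit 5) (nat_lit 4) (nat_lit 4) (nat_lit 2) (nat_lit 4) (nat_lit 291) (nat_lit 243) (nat_lit 186)) (XT.nd (nat_lit 78) (nat_lit 0) (nat_lit 0) (XT.lf (nat_lit 0) (nat_lit 33041703402) (nat_lit 152) (nat_lit 45043469553) (nat_lit 0) (nat_lit 10829356253) (nat_lit 2) (nat_lit 5) (nat_lit 4) (nat_lit 4) (nat_lit 2) (nat_lit 4) (nat_lit 292) (nat_lit 243) (nat_lit 185)) (XT.lf (nat_lit 0) (nat_lit 39073515055) (nat_lit 152) (nat_lit 39675775868) (nat_lit 0) (nat_lit 16841993822) (nat_lit 2) (nat_lit 5) (nat_lit 4) (nat_lit 4) (nat_lit 2) (nat_lit 4) (nat_lit 293) (nat_lit 243) (nat_lit 184)))) (XT.nd (nat_lit 78) (nat_lit 0) (nat_lit 0) (XT.lf (nat_lit 0) (nat_lit 45579533959) (nat_lit 152) (nat_lit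 33893089422) (nat_lit 0) (nat_lit 23330258945) (nat_lit 2) (nat_lit 5) (nat_lit 4) (nat_lit 4) (nat_lit 2) (nat_lit 4) (nat_lit 294) (nat_lit 243) (nat_lit 183)) (XT.nd (nat_lit 78) (nat_lit 0) (nat_lit 0) (XT.lf (nat_lit 0) (nat_lit 52598314300) (nat_lit 152) (nat_lit 27661142443) (nat_lit 0) (nat_lit 30332600599) (nat_lit 2) (nat_lit 5) (nat_lit 4) (nat_lit 4) (nat_lit 2) (nat_lit 4) (nat_lit 295) (nat_lit 243) (nat_lit 182)) (XT.lf (nat_lit 0) (nat_lit 60171448851) (nat_lit 152) (nat_lit 20943004876) (nat_lit 0) (nat_lit 37890514144) (nat_lit 2) (nat_lit 5) (nat_lit 4) (nat_lit 4) (nat_lit 2) (nat_lit 4) (nat_lit 296) (nat_lit 243) (nat_lit 181)))))) (XT.nd (nat_lit 390) (nat_lit 0) (nat_lit 0) (XT.nd (nat_lit 156) (nat_lit 76) (nat_lit 0) (XT.nd (nat_lit 78) (nat_lit 0) (nat_lit 0) (XT.lf (nat_lit 0) (nat_lit 68343815446) (nat_lit 152) (nat_lit 13698865534) (nat_lit 0) (nat_lit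 46048787214) (nat_lit 2) (nat_lit 5) (nat_lit 4) (nat_lit 4) (nat_lit 2) (nat_lit 4) (nat_lit 297) (nat_lit 243) (nat_lit 180)) (XT.lf (nat_lit 0) (nat_lit 77163842923) (nat_lit 152) (nat_lit 5885796185) (nat_lit 0) (nat_lit 54855765132) (nat_lit 2) (nat_lit 5) (nat_lit 4) (nat_lit 4) (nat_lit 2) (nat_lit 4) (nat_lit 298) (nat_lit 243) (nat_lit 179))) (XT.nd (nat_lit 78) (nat_lit 0) (nat_lit 0) (XT.lf (nat_lit 0) (nat_lit 2676386535) (nat_lit 76) (nat_lit 84071778738) (nat_lit 76) (nat_lit 61751618022) (nat_lit 1) (nat_lit 4) (nat_lit 2) (nat_lit 5) (nat_lit 2) (nat_lit 4) (nat_lit 299) (nat_lit 243) (nat_lit 178)) (XT.nd (nat_lit 78) (nat_lit 0) (nat_lit 0) (XT.lf (nat_lit 0) (nat_lit 12248706951) (nat_lit 76) (nat_lit 85005970310) (nat_lit 76) (nat_lit 62674621700) (nat_lit 1) (nat_lit 4) (nat_lit 2) (nat_lit 5) (nat_lit 2) (nat_lit 4) (nat_lit 300) (nat_lit 243) (nat_lit 177))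 (XT.lf (nat_lit 0) (nat_lit 22577954327) (nat_lit 76) (nat_lit 86018677874) (nat_lit 76) (nat_lit 63676970102) (nat_lit 1) (nat_lit 4) (nat_lit 2) (nat_lit 5) (nat_lit 2) (nat_lit 4) (nat_lit 301) (nat_lit 243) (nat_lit 176))))) (XT.nd (nat_lit 234) (nat_lit 0) (nat_lit 0) (XT.nd (nat_lit 78) (nat_lit 0) (nat_lit 0) (XT.lf (nat_lit 0) (nat_lit 33725339017) (nat_lit 76) (nat_lit 87115902658) (nat_lit 76) (nat_lit 64764603071) (nat_lit 1) (nat_lit 4) (nat_lit 2) (nat_lit 5) (nat_lit 2) (nat_lit 4) (nat_lit 302) (nat_lit 243) (nat_lit 175)) (XT.nd (nat_lit 78) (nat_lit 0) (nat_lit 0) (XT.lf (nat_lit 0) (nat_lit 45756919598) (nat_lit 76) (nat_lit 88304146735) (nat_lit 76) (nat_lit 65943965838) (nat_lit 1) (nat_lit 4) (nat_lit 2) (nat_lit 5) (nat_lit 2) (nat_lit 4) (nat_lit 303) (nat_lit 243) (nat_lit 174)) (XT.lf (nat_lit 0) (nat_lit 58743994326) (nat_lit 76) (nat_lit 89590451553) (nat_lit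 76) (nat_lit 67222047220) (nat_lit 1) (nat_lit 4) (nat_lit 2) (nat_lit 5) (nat_lit 2) (nat_lit 4) (nat_lit 304) (nat_lit 243) (nat_lit 173)))) (XT.nd (nat_lit 78) (nat_lit 0) (nat_lit 0) (XT.lf (nat_lit 0) (nat_lit 72763523642) (nat_lit 76) (nat_lit 90982439658) (nat_lit 76) (nat_lit 68606421032) (nat_lit 1) (nat_lit 4) (nat_lit 2) (nat_lit 5) (nat_lit 2) (nat_lit 4) (nat_lit 305) (nat_lit 243) (nat_lit 172)) (XT.nd (nat_lit 78) (nat_lit 0) (nat_lit 0) (XT.lf (nat_lit 0) (nat_lit 87898586239) (nat_lit 76) (nat_lit 92488359869) (nat_lit 76) (nat_lit 70105290972) (nat_lit 1) (nat_lit 4) (nat_lit 2) (nat_lit 5) (nat_lit 2) (nat_lit 4) (nat_lit 306) (nat_lit 243) (nat_lit 171)) (XT.lf (nat_lit 0) (nat_lit 104238871377) (nat_lit 76) (nat_lit 94117136157) (nat_lit 76) (nat_lit 71727539231) (nat_lit 1) (nat_lit 4) (nat_lit 2) (nat_lit 5) (nat_lit 2) (nat_lit 4) (nat_lit 307) (nat_lit 243)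 (nat_lit 170))))))))
noncomputable def xc57 : XT := (XT.nd (nat_lit 1716) (nat_lit 0) (nat_lit 0) (XT.nd (nat_lit 858) (nat_lit 0) (nat_lit 0) (XT.nd (nat_lit 390) (nat_lit 0) (nat_lit 0) (XT.nd (nat_lit 156) (nat_lit 0) (nat_lit 0) (XT.nd (nat_lit 78) (nat_lit 0) (nat_lit 0) (XT.lf (nat_lit 0) (nat_lit 121881210375) (nat_lit 76) (nat_lit 95878420529) (nat_lit 76) (nat_lit 73482779132) (nat_lit 1) (nat_lit 4) (nat_lit 2) (nat_lit 5) (nat_lit 2) (nat_lit 4) (nat_lit 308) (nat_lit 243) (nat_lit 169)) (XT.lf (nat_lit 0) (nat_lit 140930150427) (nat_lit 76) (nat_lit 97782650227) (nat_lit 76) (nat_lit 75381412098) (nat_lit 1) (nat_lit 4) (nat_lit 2) (nat_lit 5) (nat_lit 2) (nat_lit 4) (nat_lit 309) (nat_lit 243) (nat_lit 168))) (XT.nd (nat_lit 78) (nat_lit 0) (nat_lit 0) (XT.lf (nat_lit 0) (nat_lit 161498574142) (nat_lit 76) (nat_lit 99841109575) (nat_lit 76) (nat_lit 77434689286) (nat_lit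 1) (nat_lit 4) (nat_lit 2) (nat_lit 5) (nat_lit 2) (nat_lit 4) (nat_lit 310) (nat_lit 243) (nat_lit 167)) (XT.nd (nat_lit 78) (nat_lit 0) (nat_lit 0) (XT.lf (nat_lit 0) (nat_lit 183708368474) (nat_lit 76) (nat_lit 102065996850) (nat_lit 76) (nat_lit 79654778266) (nat_lit 1) (nat_lit 4) (nat_lit 2) (nat_lit 5) (nat_lit 2) (nat_lit 4) (nat_lit 311) (nat_lit 243) (nat_lit 166)) (XT.lf (nat_lit 0) (nat_lit 207691147019) (nat_lit 76) (nat_lit 104470496570) (nat_lit 76) (nat_lit 82054835118) (nat_lit 1) (nat_lit 4) (nat_lit 2) (nat_lit 5) (nat_lit 2) (nat_lit 4) (nat_lit 312) (nat_lit 243) (nat_lit 165))))) (XT.nd (nat_lit 234) (nat_lit 0) (nat_lit 0) (XT.nd (nat_lit 78) (nat_lit 0) (nat_lit 0) (XT.lf (nat_lit 0) (nat_lit 233589029947) (nat_lit 76) (nat_lit 107068857621) (nat_lit 76) (nat_lit 84649082404) (nat_lit 1) (nat_lit 4) (nat_lit 2) (nat_lit 5) (nat_lit 2) (nat_lit 4) (nat_lit 313)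 (nat_lit 243) (nat_lit 164)) (XT.nd (nat_lit 78) (nat_lit 0) (nat_lit 0) (XT.lf (nat_lit 0) (nat_lit 261555486194) (nat_lit 76) (nat_lit 109876477699) (nat_lit 76) (nat_lit 87452893440) (nat_lit 1) (nat_lit 4) (nat_lit 2) (nat_lit 5) (nat_lit 2) (nat_lit 4) (nat_lit 314) (nat_lit 243) (nat_lit 163)) (XT.lf (nat_lit 0) (nat_lit 291756242907) (nat_lit 76) (nat_lit 112909994552) (nat_lit 76) (nat_lit 90482883403) (nat_lit 1) (nat_lit 4) (nat_lit 2) (nat_lit 5) (nat_lit 2) (nat_lit 4) (nat_lit 315) (nat_lit 243) (nat_lit 162)))) (XT.nd (nat_lit 78) (nat_lit 0) (nat_lit 0) (XT.lf (nat_lit 0) (nat_lit 324370267533) (nat_lit 76) (nat_lit 116187384577) (nat_lit 76) (nat_lit 93757007789) (nat_lit 1) (nat_lit 4) (nat_lit 2) (nat_lit 5) (nat_lit 2) (nat_lit 4) (nat_lit 316) (nat_lit 243) (nat_lit 161)) (XT.nd (nat_lit 78) (nat_lit 0) (nat_lit 0) (XT.lf (nat_lit 0) (nat_lit 359590828368) (nat_lit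 76) (nat_lit 119728069344) (nat_lit 76) (nat_lit 97294668815) (nat_lit 1) (nat_lit 4) (nat_lit 2) (nat_lit 5) (nat_lit 2) (nat_lit 4) (nat_lit 317) (nat_lit 243) (nat_lit 160)) (XT.lf (nat_lit 0) (nat_lit 397626639845) (nat_lit 76) (nat_lit 123553030689) (nat_lit 76) (nat_lit 101116830401) (nat_lit 1) (nat_lit 4) (nat_lit 2) (nat_lit 5) (nat_lit 2) (nat_lit 4) (nat_lit 318) (nat_lit 243) (nat_lit 159)))))) (XT.nd (nat_lit 390) (nat_lit 0) (nat_lit 0) (XT.nd (nat_lit 156) (nat_lit 0) (nat_lit 0) (XT.nd (nat_lit 78) (nat_lit 0) (nat_lit 0) (XT.lf (nat_lit 0) (nat_lit 438703099366) (nat_lit 76) (nat_lit 127684935050) (nat_lit 76) (nat_lit 105246142391) (nat_lit 1) (nat_lit 4) (nat_lit 2) (nat_lit 5) (nat_lit 2) (nat_lit 4) (nat_lit 319) (nat_lit 243) (nat_lit 158)) (XT.lf (nat_lit 0) (nat_lit 483063622987) (nat_lit 76) (nat_lit 132148267784) (nat_lit 76) (nat_lit 109707074783) (nat_lit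 1) (nat_lit 4) (nat_lit 2) (nat_lit 5) (nat_lit 2) (nat_lit 4) (nat_lit 320) (nat_lit 243) (nat_lit 157))) (XT.nd (nat_lit 78) (nat_lit 0) (nat_lit 0) (XT.lf (nat_lit 0) (nat_lit 530971087885) (nat_lit 76) (nat_lit 136969478273) (nat_lit 76) (nat_lit 114526062732) (nat_lit 1) (nat_lit 4) (nat_lit 2) (nat_lit 5) (nat_lit 2) (nat_lit 4) (nat_lit 321) (nat_lit 243) (nat_lit 156)) (XT.nd (nat_lit 78) (nat_lit 0) (nat_lit 0) (XT.lf (nat_lit 0) (nat_lit 582709390148) (nat_lit 76) (nat_lit 142177136651) (nat_lit 76) (nat_lit 119731663204) (nat_lit 1) (nat_lit 4) (nat_lit 2) (nat_lit 5) (nat_lit 2) (nat_lit 4) (nat_lit 322) (nat_lit 243) (nat_lit 155)) (XT.lf (nat_lit 0) (nat_lit 638585127124) (nat_lit 76) (nat_lit 147802103118) (nat_lit 76) (nat_lit 125354724201) (nat_lit 1) (nat_lit 4) (nat_lit 2) (nat_lit 5) (nat_lit 2) (nat_lit 4) (nat_lit 323) (nat_lit 243) (nat_lit 154))))) (XT.nd (nat_lit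 234) (nat_lit 0) (nat_lit 0) (XT.nd (nat_lit 78) (nat_lit 0) (nat_lit 0) (XT.lf (nat_lit 0) (nat_lit 698929414290) (nat_lit 76) (nat_lit 153877710806) (nat_lit 76) (nat_lit 131428567566) (nat_lit 1) (nat_lit 4) (nat_lit 2) (nat_lit 5) (nat_lit 2) (nat_lit 4) (nat_lit 324) (nat_lit 243) (nat_lit 153)) (XT.nd (nat_lit 78) (nat_lit 0) (nat_lit 0) (XT.lf (nat_lit 0) (nat_lit 764099847423) (nat_lit 76) (nat_lit 160439963318) (nat_lit 76) (nat_lit 137989186445) (nat_lit 1) (nat_lit 4) (nat_lit 2) (nat_lit 5) (nat_lit 2) (nat_lit 4) (nat_lit 325) (nat_lit 243) (nat_lit 152)) (XT.lf (nat_lit 0) (nat_lit 834482621682) (nat_lit 76) (nat_lit 167527748076) (nat_lit 76) (nat_lit 145075458580) (nat_lit 1) (nat_lit 4) (nat_lit 2) (nat_lit 5) (nat_lit 2) (nat_lit 4) (nat_lit 326) (nat_lit 243) (nat_lit 151)))) (XT.nd (nat_lit 78) (nat_lit 0) (nat_lit 0) (XT.lf (nat_lit 0) (nat_lit 910494820173) (nat_lit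 76) (nat_lit 175183066767) (nat_lit 76) (nat_lit 152729376694) (nat_lit 1) (nat_lit 4) (nat_lit 2) (nat_lit 5) (nat_lit 2) (nat_lit 4) (nat_lit 327) (nat_lit 243) (nat_lit 150)) (XT.nd (nat_lit 78) (nat_lit 0) (nat_lit 0) (XT.lf (nat_lit 0) (nat_lit 992586885554) (nat_lit 76) (nat_lit 183451284243) (nat_lit 76) (nat_lit 160996297340) (nat_lit 1) (nat_lit 4) (nat_lit 2) (nat_lit 5) (nat_lit 2) (nat_lit 4) (nat_lit 328) (nat_lit 243) (nat_lit 149)) (XT.lf (nat_lit 0) (nat_lit 1081245289323) (nat_lit 76) (nat_lit 192381397348) (nat_lit 76) (nat_lit 169925209676) (nat_lit 1) (nat_lit 4) (nat_lit 2) (nat_lit 5) (nat_lit 2) (nat_lit 4) (nat_lit 329) (nat_lit 243) (nat_lit 148))))))) (XT.nd (nat_lit 31512) (nat_lit 0) (nat_lit 1064) (XT.nd (nat_lit 31044) (nat_lit 0) (nat_lit 2432) (XT.nd (nat_lit 30810) (nat_lit 0) (nat_lit 2736) (XT.nd (nat_lit 78) (nat_lit 0) (nat_lit 0) (XT.lf (nat_lit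 0) (nat_lit 1176995414615) (nat_lit 76) (nat_lit 202026325270) (nat_lit 76) (nat_lit 179569025775) (nat_lit 1) (nat_lit 4) (nat_lit 2) (nat_lit 5) (nat_lit 2) (nat_lit 4) (nat_lit 330) (nat_lit 243) (nat_lit 147)) (XT.lf (nat_lit 0) (nat_lit 1280404669579) (nat_lit 76) (nat_lit 212443223139) (nat_lit 76) (nat_lit 189984894178) (nat_lit 1) (nat_lit 4) (nat_lit 2) (nat_lit 5) (nat_lit 2) (nat_lit 4) (nat_lit 331) (nat_lit 243) (nat_lit 146))) (XT.nd (nat_lit 78) (nat_lit 304) (nat_lit 0) (XT.lf (nat_lit 0) (nat_lit 980143250) (nat_lit 0) (nat_lit 980143250) (nat_lit 228) (nat_lit 1504216764) (nat_lit 41) (nat_lit 5) (nat_lit 41) (nat_lit 3) (nat_lit 44) (nat_lit 3) (nat_lit 244) (nat_lit 244) (nat_lit 232)) (XT.nd (nat_lit 78) (nat_lit 304) (nat_lit 0) (XT.lf (nat_lit 0) (nat_lit 4908256247) (nat_lit 0) (nat_lit 716678655) (nat_lit 228) (nat_lit 1437004257) (nat_lit 41) (nat_lit 5)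 (nat_lit 41) (nat_lit 3) (nat_lit 44) (nat_lit 3) (nat_lit 245) (nat_lit 244) (nat_lit 231)) (XT.lf (nat_lit 0) (nat_lit 123904149) (nat_lit 304) (nat_lit 6401400505) (nat_lit 380) (nat_lit 691451060) (nat_lit 37) (nat_lit 5) (nat_lit 41) (nat_lit 5) (nat_lit 42) (nat_lit 5) (nat_lit 246) (nat_lit 244) (nat_lit 230))))) (XT.nd (nat_lit 234) (nat_lit 304) (nat_lit 0) (XT.nd (nat_lit 78) (nat_lit 0) (nat_lit 0) (XT.lf (nat_lit 0) (nat_lit 1661714145) (nat_lit 304) (nat_lit 3393268451) (nat_lit 380) (nat_lit 2333367774) (nat_lit 37) (nat_lit 5) (nat_lit 41) (nat_lit 5) (nat_lit 42) (nat_lit 5) (nat_lit 247) (nat_lit 244) (nat_lit 229)) (XT.nd (nat_lit 78) (nat_lit 0) (nat_lit 0) (XT.lf (nat_lit 0) (nat_lit 3184247495) (nat_lit 304) (nat_lit 237958635) (nat_lit 380) (nat_lit 4164152727) (nat_lit 37) (nat_lit 5) (nat_lit 41) (nat_lit 5) (nat_lit 42) (nat_lit 5) (nat_lit 248) (nat_lit 244)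 (nat_lit 228)) (XT.lf (nat_lit 76) (nat_lit 3245584349) (nat_lit 0) (nat_lit 1532998652) (nat_lit 380) (nat_lit 3027127048) (nat_lit 38) (nat_lit 5) (nat_lit 37) (nat_lit 5) (nat_lit 42) (nat_lit 5) (nat_lit 249) (nat_lit 244) (nat_lit 227)))) (XT.nd (nat_lit 78) (nat_lit 380) (nat_lit 0) (XT.lf (nat_lit 0) (nat_lit 6399613844) (nat_lit 304) (nat_lit 1129383944) (nat_lit 76) (nat_lit 523070396) (nat_lit 38) (nat_lit 5) (nat_lit 42) (nat_lit 5) (nat_lit 39) (nat_lit 5) (nat_lit 250) (nat_lit 244) (nat_lit 226)) (XT.nd (nat_lit 78) (nat_lit 76) (nat_lit 0) (XT.lf (nat_lit 0) (nat_lit 2575709254) (nat_lit 304) (nat_lit 5565522306) (nat_lit 380) (nat_lit 178918766) (nat_lit 34) (nat_lit 5) (nat_lit 38) (nat_lit 5) (nat_lit 39) (nat_lit 5) (nat_lit 251) (nat_lit 244) (nat_lit 225)) (XT.lf (nat_lit 0) (nat_lit 1264931727) (nat_lit 380) (nat_lit 2094245134) (nat_lit 76) (nat_lit 5255041249)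 (nat_lit 33) (nat_lit 5) (nat_lit 38) (nat_lit 5) (nat_lit 34) (nat_lit 5) (nat_lit 252) (nat_lit 244) (nat_lit 224)))))) (XT.nd (nat_lit 390) (nat_lit 608) (nat_lit 0) (XT.nd (nat_lit 156) (nat_lit 380) (nat_lit 0) (XT.nd (nat_lit 78) (nat_lit 0) (nat_lit 0) (XT.lf (nat_lit 0) (nat_lit 1849054678) (nat_lit 380) (nat_lit 909492470) (nat_lit 456) (nat_lit 6178400763) (nat_lit 28) (nat_lit 5) (nat_lit 33) (nat_lit 5) (nat_lit 34) (nat_lit 5) (nat_lit 253) (nat_lit 244) (nat_lit 223)) (XT.lf (nat_lit 0) (nat_lit 4377275899) (nat_lit 456) (nat_lit 3190613863) (nat_lit 76) (nat_lit 1718102912) (nat_lit 28) (nat_lit 5) (nat_lit 34) (nat_lit 5) (nat_lit 29) (nat_lit 5) (nat_lit 254) (nat_lit 244) (nat_lit 222))) (XT.nd (nat_lit 78) (nat_lit 0) (nat_lit 0) (XT.lf (nat_lit 0) (nat_lit 956197825) (nat_lit 380) (nat_lit 5128074503) (nat_lit 456) (nat_lit 3582863533) (nat_lit 23) (nat_lit 5)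 (nat_lit 28) (nat_lit 5) (nat_lit 29) (nat_lit 5) (nat_lit 255) (nat_lit 244) (nat_lit 221)) (XT.nd (nat_lit 78) (nat_lit 0) (nat_lit 0) (XT.lf (nat_lit 0) (nat_lit 5531936603) (nat_lit 380) (nat_lit 2399759244) (nat_lit 456) (nat_lit 2147576742) (nat_lit 23) (nat_lit 5) (nat_lit 28) (nat_lit 5) (nat_lit 29) (nat_lit 5) (nat_lit 256) (nat_lit 244) (nat_lit 220)) (XT.lf (nat_lit 0) (nat_lit 9862850111) (nat_lit 456) (nat_lit 148732260) (nat_lit 76) (nat_lit 518674302) (nat_lit 23) (nat_lit 5) (nat_lit 29) (nat_lit 5) (nat_lit 24) (nat_lit 5) (nat_lit 257) (nat_lit 244) (nat_lit 219))))) (XT.nd (nat_lit 234) (nat_lit 152) (nat_lit 0) (XT.nd (nat_lit 78) (nat_lit 152) (nat_lit 0) (XT.lf (nat_lit 0) (nat_lit 990398371) (nat_lit 304) (nat_lit 6339105679) (nat_lit 76) (nat_lit 3678203829) (nat_lit 19) (nat_lit 5) (nat_lit 23) (nat_lit 5) (nat_lit 20) (nat_lit 5) (nat_lit 258) (nat_lit 244)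 (nat_lit 218)) (XT.nd (nat_lit 78) (nat_lit 152) (nat_lit 0) (XT.lf (nat_lit 0) (nat_lit 2678521121) (nat_lit 304) (nat_lit 1741646420) (nat_lit 76) (nat_lit 7107697226) (nat_lit 19) (nat_lit 5) (nat_lit 23) (nat_lit 5) (nat_lit 20) (nat_lit 5) (nat_lit 259) (nat_lit 244) (nat_lit 217)) (XT.lf (nat_lit 0) (nat_lit 3314451051) (nat_lit 152) (nat_lit 1201750158) (nat_lit 228) (nat_lit 7572824672) (nat_lit 17) (nat_lit 5) (nat_lit 19) (nat_lit 5) (nat_lit 20) (nat_lit 5) (nat_lit 260) (nat_lit 244) (nat_lit 216)))) (XT.nd (nat_lit 78) (nat_lit 152) (nat_lit 0) (XT.lf (nat_lit 0) (nat_lit 6542050259) (nat_lit 228) (nat_lit 3951397140) (nat_lit 76) (nat_lit 2198851487) (nat_lit 17) (nat_lit 5) (nat_lit 20) (nat_lit 5) (nat_lit 18) (nat_lit 5) (nat_lit 261) (nat_lit 244) (nat_lit 215)) (XT.nd (nat_lit 78) (nat_lit 0) (nat_lit 0) (XT.lf (nat_lit 0) (nat_lit 1214701314) (nat_lit 152) (nat_lit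 7517920512) (nat_lit 228) (nat_lit 4611473026) (nat_lit 15) (nat_lit 5) (nat_lit 17) (nat_lit 5) (nat_lit 18) (nat_lit 5) (nat_lit 262) (nat_lit 244) (nat_lit 214)) (XT.lf (nat_lit 0) (nat_lit 6948158685) (nat_lit 152) (nat_lit 4203125749) (nat_lit 228) (nat_lit 2892960852) (nat_lit 15) (nat_lit 5) (nat_lit 17) (nat_lit 5) (nat_lit 18) (nat_lit 5) (nat_lit 263) (nat_lit 244) (nat_lit 213))))))))
noncomputable def xc58 : XT := (XT.nd (nat_lit 1716) (nat_lit 228) (nat_lit 0) (XT.nd (nat_lit 858) (nat_lit 152) (nat_lit 0) (XT.nd (nat_lit 390) (nat_lit 304) (nat_lit 0) (XT.nd (nat_lit 156) (nat_lit 152) (nat_lit 0) (XT.nd (nat_lit 78) (nat_lit 228) (nat_lit 0) (XT.lf (nat_lit 0) (nat_lit 13074877446) (nat_lit 152) (nat_lit 637458082) (nat_lit 228) (nat_lit 1092566529) (nat_lit 15) (nat_lit 5) (nat_lit 17) (nat_lit 5) (nat_lit 18) (nat_lit 5) (nat_lit 264) (nat_lit 244) (nat_lit 212))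 (XT.lf (nat_lit 0) (nat_lit 941217396) (nat_lit 228) (nat_lit 11510059920) (nat_lit 76) (nat_lit 3163285382) (nat_lit 12) (nat_lit 5) (nat_lit 15) (nat_lit 5) (nat_lit 13) (nat_lit 5) (nat_lit 265) (nat_lit 244) (nat_lit 211))) (XT.nd (nat_lit 78) (nat_lit 152) (nat_lit 0) (XT.lf (nat_lit 0) (nat_lit 3096630590) (nat_lit 228) (nat_lit 6092781879) (nat_lit 76) (nat_lit 7296199418) (nat_lit 12) (nat_lit 5) (nat_lit 15) (nat_lit 5) (nat_lit 13) (nat_lit 5) (nat_lit 266) (nat_lit 244) (nat_lit 210)) (XT.nd (nat_lit 78) (nat_lit 152) (nat_lit 0) (XT.lf (nat_lit 0) (nat_lit 5380833888) (nat_lit 228) (nat_lit 302849291) (nat_lit 76) (nat_lit 11746451646) (nat_lit 12) (nat_lit 5) (nat_lit 15) (nat_lit 5) (nat_lit 13) (nat_lit 5) (nat_lit 267) (nat_lit 244) (nat_lit 209)) (XT.lf (nat_lit 0) (nat_lit 6204418705) (nat_lit 152) (nat_lit 1752161023) (nat_lit 228) (nat_lit 10485211645) (nat_lit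 10) (nat_lit 5) (nat_lit 12) (nat_lit 5) (nat_lit 13) (nat_lit 5) (nat_lit 268) (nat_lit 244) (nat_lit 208))))) (XT.nd (nat_lit 234) (nat_lit 228) (nat_lit 0) (XT.nd (nat_lit 78) (nat_lit 76) (nat_lit 0) (XT.lf (nat_lit 0) (nat_lit 10767737309) (nat_lit 228) (nat_lit 6402193495) (nat_lit 76) (nat_lit 2362357286) (nat_lit 10) (nat_lit 5) (nat_lit 13) (nat_lit 5) (nat_lit 11) (nat_lit 4) (nat_lit 269) (nat_lit 244) (nat_lit 207)) (XT.nd (nat_lit 78) (nat_lit 76) (nat_lit 0) (XT.lf (nat_lit 0) (nat_lit 13813074666) (nat_lit 228) (nat_lit 199205030) (nat_lit 76) (nat_lit 6697238736) (nat_lit 10) (nat_lit 5) (nat_lit 13) (nat_lit 5) (nat_lit 11) (nat_lit 4) (nat_lit 270) (nat_lit 244) (nat_lit 206)) (XT.lf (nat_lit 0) (nat_lit 6790162100) (nat_lit 76) (nat_lit 10441640193) (nat_lit 152) (nat_lit 4738963164) (nat_lit 9) (nat_lit 5) (nat_lit 10) (nat_lit 5) (nat_lit 11) (nat_lit 4) (nat_lit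 271) (nat_lit 244) (nat_lit 205)))) (XT.nd (nat_lit 78) (nat_lit 228) (nat_lit 0) (XT.lf (nat_lit 0) (nat_lit 14301729717) (nat_lit 76) (nat_lit 6595528130) (nat_lit 152) (nat_lit 2437999089) (nat_lit 9) (nat_lit 5) (nat_lit 10) (nat_lit 5) (nat_lit 11) (nat_lit 4) (nat_lit 272) (nat_lit 244) (nat_lit 204)) (XT.nd (nat_lit 78) (nat_lit 152) (nat_lit 0) (XT.lf (nat_lit 0) (nat_lit 13904972) (nat_lit 152) (nat_lit 2442313194) (nat_lit 76) (nat_lit 22355235871) (nat_lit 8) (nat_lit 5) (nat_lit 10) (nat_lit 5) (nat_lit 9) (nat_lit 5) (nat_lit 273) (nat_lit 244) (nat_lit 203)) (XT.lf (nat_lit 0) (nat_lit 2670176441) (nat_lit 228) (nat_lit 21636150075) (nat_lit 76) (nat_lit 2083321195) (nat_lit 6) (nat_lit 5) (nat_lit 9) (nat_lit 5) (nat_lit 7) (nat_lit 4) (nat_lit 274) (nat_lit 244) (nat_lit 202)))))) (XT.nd (nat_lit 390) (nat_lit 76) (nat_lit 0) (XT.nd (nat_lit 156) (nat_lit 76) (nat_lit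 0) (XT.nd (nat_lit 78) (nat_lit 0) (nat_lit 0) (XT.lf (nat_lit 0) (nat_lit 5643507508) (nat_lit 228) (nat_lit 15534371070) (nat_lit 76) (nat_lit 6908002932) (nat_lit 6) (nat_lit 5) (nat_lit 9) (nat_lit 5) (nat_lit 7) (nat_lit 4) (nat_lit 275) (nat_lit 244) (nat_lit 201)) (XT.lf (nat_lit 0) (nat_lit 8829009100) (nat_lit 228) (nat_lit 8985147773) (nat_lit 76) (nat_lit 12105851025) (nat_lit 6) (nat_lit 5) (nat_lit 9) (nat_lit 5) (nat_lit 7) (nat_lit 4) (nat_lit 276) (nat_lit 244) (nat_lit 200))) (XT.nd (nat_lit 78) (nat_lit 76) (nat_lit 0) (XT.lf (nat_lit 0) (nat_lit 12245558263) (nat_lit 228) (nat_lit 1949669970) (nat_lit 76) (nat_lit 17707667537) (nat_lit 6) (nat_lit 5) (nat_lit 9) (nat_lit 5) (nat_lit 7) (nat_lit 4) (nat_lit 277) (nat_lit 244) (nat_lit 199)) (XT.nd (nat_lit 78) (nat_lit 0) (nat_lit 0) (XT.lf (nat_lit 0) (nat_lit 5909364398) (nat_lit 76) (nat_lit 10146157173) (nat_lit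 152) (nat_lit 17979404374) (nat_lit 5) (nat_lit 5) (nat_lit 6) (nat_lit 5) (nat_lit 7) (nat_lit 4) (nat_lit 278) (nat_lit 244) (nat_lit 198)) (XT.lf (nat_lit 0) (nat_lit 14473992318) (nat_lit 76) (nat_lit 5728380867) (nat_lit 152) (nat_lit 16132687763) (nat_lit 5) (nat_lit 5) (nat_lit 6) (nat_lit 5) (nat_lit 7) (nat_lit 4) (nat_lit 279) (nat_lit 244) (nat_lit 197))))) (XT.nd (nat_lit 234) (nat_lit 76) (nat_lit 0) (XT.nd (nat_lit 78) (nat_lit 0) (nat_lit 0) (XT.lf (nat_lit 0) (nat_lit 23692300975) (nat_lit 76) (nat_lit 969027333) (nat_lit 152) (nat_lit 14159551599) (nat_lit 5) (nat_lit 5) (nat_lit 6) (nat_lit 5) (nat_lit 7) (nat_lit 4) (nat_lit 280) (nat_lit 244) (nat_lit 196)) (XT.nd (nat_lit 78) (nat_lit 0) (nat_lit 0) (XT.lf (nat_lit 0) (nat_lit 29558861049) (nat_lit 152) (nat_lit 7988246892) (nat_lit 0) (nat_lit 3952001605) (nat_lit 5) (nat_lit 5) (nat_lit 7) (nat_lit 4) (nat_lit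 5) (nat_lit 4) (nat_lit 281) (nat_lit 244) (nat_lit 195)) (XT.lf (nat_lit 0) (nat_lit 34856279625) (nat_lit 152) (nat_lit 330045229) (nat_lit 0) (nat_lit 9204713139) (nat_lit 5) (nat_lit 5) (nat_lit 7) (nat_lit 4) (nat_lit 5) (nat_lit 4) (nat_lit 282) (nat_lit 244) (nat_lit 194)))) (XT.nd (nat_lit 78) (nat_lit 0) (nat_lit 0) (XT.lf (nat_lit 0) (nat_lit 8331487889) (nat_lit 76) (nat_lit 32430555610) (nat_lit 76) (nat_lit 6737593715) (nat_lit 4) (nat_lit 4) (nat_lit 5) (nat_lit 5) (nat_lit 5) (nat_lit 4) (nat_lit 283) (nat_lit 244) (nat_lit 193)) (XT.nd (nat_lit 78) (nat_lit 0) (nat_lit 0) (XT.lf (nat_lit 0) (nat_lit 17679274922) (nat_lit 76) (nat_lit 29454757010) (nat_lit 76) (nat_lit 3723466032) (nat_lit 4) (nat_lit 4) (nat_lit 5) (nat_lit 5) (nat_lit 5) (nat_lit 4) (nat_lit 284) (nat_lit 244) (nat_lit 192)) (XT.lf (nat_lit 0) (nat_lit 27751330568) (nat_lit 76) (nat_lit 26250318714)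 (nat_lit 76) (nat_lit 483537844) (nat_lit 4) (nat_lit 4) (nat_lit 5) (nat_lit 5) (nat_lit 5) (nat_lit 4) (nat_lit 285) (nat_lit 244) (nat_lit 191))))))) (XT.nd (nat_lit 858) (nat_lit 76) (nat_lit 0) (XT.nd (nat_lit 390) (nat_lit 0) (nat_lit 0) (XT.nd (nat_lit 156) (nat_lit 76) (nat_lit 0) (XT.nd (nat_lit 78) (nat_lit 0) (nat_lit 0) (XT.lf (nat_lit 0) (nat_lit 2851248717) (nat_lit 152) (nat_lit 19869044546) (nat_lit 76) (nat_lit 35678134170) (nat_lit 3) (nat_lit 5) (nat_lit 5) (nat_lit 5) (nat_lit 4) (nat_lit 4) (nat_lit 286) (nat_lit 244) (nat_lit 190)) (XT.lf (nat_lit 0) (nat_lit 6414209300) (nat_lit 152) (nat_lit 12488513395) (nat_lit 76) (nat_lit 43722053225) (nat_lit 3) (nat_lit 5) (nat_lit 5) (nat_lit 5) (nat_lit 4) (nat_lit 4) (nat_lit 287) (nat_lit 244) (nat_lit 189))) (XT.nd (nat_lit 78) (nat_lit 76) (nat_lit 0) (XT.lf (nat_lit 0) (nat_lit 10250646266) (nat_lit 152) (nat_lit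 4536897527) (nat_lit 76) (nat_lit 52402664149) (nat_lit 3) (nat_lit 5) (nat_lit 5) (nat_lit 5) (nat_lit 4) (nat_lit 4) (nat_lit 288) (nat_lit 244) (nat_lit 188)) (XT.nd (nat_lit 78) (nat_lit 0) (nat_lit 0) (XT.lf (nat_lit 0) (nat_lit 4245290362) (nat_lit 76) (nat_lit 10240103028) (nat_lit 152) (nat_lit 57628216573) (nat_lit 2) (nat_lit 5) (nat_lit 3) (nat_lit 5) (nat_lit 4) (nat_lit 4) (nat_lit 289) (nat_lit 244) (nat_lit 187)) (XT.lf (nat_lit 0) (nat_lit 13970600568) (nat_lit 76) (nat_lit 5202035144) (nat_lit 152) (nat_lit 58249194768) (nat_lit 2) (nat_lit 5) (nat_lit 3) (nat_lit 5) (nat_lit 4) (nat_lit 4) (nat_lit 290) (nat_lit 244) (nat_lit 186))))) (XT.nd (nat_lit 234) (nat_lit 0) (nat_lit 0) (XT.nd (nat_lit 78) (nat_lit 0) (nat_lit 0) (XT.lf (nat_lit 0) (nat_lit 24230882185) (nat_lit 152) (nat_lit 58703345560) (nat_lit 0) (nat_lit 220839253) (nat_lit 2) (nat_lit 5) (nat_lit 4)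 (nat_lit 4) (nat_lit 2) (nat_lit 4) (nat_lit 291) (nat_lit 244) (nat_lit 185)) (XT.nd (nat_lit 78) (nat_lit 0) (nat_lit 0) (XT.lf (nat_lit 0) (nat_lit 29819901475) (nat_lit 152) (nat_lit 53726324808) (nat_lit 0) (nat_lit 5790684459) (nat_lit 2) (nat_lit 5) (nat_lit 4) (nat_lit 4) (nat_lit 2) (nat_lit 4) (nat_lit 292) (nat_lit 244) (nat_lit 184)) (XT.lf (nat_lit 0) (nat_lit 35847704628) (nat_lit 152) (nat_lit 48365565130) (nat_lit 0) (nat_lit 11800733830) (nat_lit 2) (nat_lit 5) (nat_lit 4) (nat_lit 4) (nat_lit 2) (nat_lit 4) (nat_lit 293) (nat_lit 244) (nat_lit 183)))) (XT.nd (nat_lit 78) (nat_lit 0) (nat_lit 0) (XT.lf (nat_lit 0) (nat_lit 42350011957) (nat_lit 152) (nat_lit 42589299060) (nat_lit 0) (nat_lit 18286602473) (nat_lit 2) (nat_lit 5) (nat_lit 4) (nat_lit 4) (nat_lit 2) (nat_lit 4) (nat_lit 294) (nat_lit 244) (nat_lit 182)) (XT.nd (nat_lit 78) (nat_lit 0) (nat_lit 0) (XT.lf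 (nat_lit 0) (nat_lit 49365355655) (nat_lit 152) (nat_lit 36363296874) (nat_lit 0) (nat_lit 25286725165) (nat_lit 2) (nat_lit 5) (nat_lit 4) (nat_lit 4) (nat_lit 2) (nat_lit 4) (nat_lit 295) (nat_lit 244) (nat_lit 181)) (XT.lf (nat_lit 0) (nat_lit 56935308129) (nat_lit 152) (nat_lit 29650663745) (nat_lit 0) (nat_lit 32842584115) (nat_lit 2) (nat_lit 5) (nat_lit 4) (nat_lit 4) (nat_lit 2) (nat_lit 4) (nat_lit 296) (nat_lit 244) (nat_lit 180)))))) (XT.nd (nat_lit 390) (nat_lit 0) (nat_lit 0) (XT.nd (nat_lit 156) (nat_lit 76) (nat_lit 0) (XT.nd (nat_lit 78) (nat_lit 0) (nat_lit 0) (XT.lf (nat_lit 0) (nat_lit 65104728356) (nat_lit 152) (nat_lit 22411621105) (nat_lit 0) (nat_lit 40998954782) (nat_lit 2) (nat_lit 5) (nat_lit 4) (nat_lit 4) (nat_lit 2) (nat_lit 4) (nat_lit 297) (nat_lit 244) (nat_lit 179)) (XT.lf (nat_lit 0) (nat_lit 73922027715) (nat_lit 152) (nat_lit 14603270924) (nat_lit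 0) (nat_lit 49804171216) (nat_lit 2) (nat_lit 5) (nat_lit 4) (nat_lit 4) (nat_lit 2) (nat_lit 4) (nat_lit 298) (nat_lit 244) (nat_lit 178))) (XT.nd (nat_lit 78) (nat_lit 76) (nat_lit 0) (XT.lf (nat_lit 0) (nat_lit 83439456870) (nat_lit 152) (nat_lit 6179341497) (nat_lit 0) (nat_lit 59310412477) (nat_lit 2) (nat_lit 5) (nat_lit 4) (nat_lit 4) (nat_lit 2) (nat_lit 4) (nat_lit 299) (nat_lit 244) (nat_lit 177)) (XT.nd (nat_lit 78) (nat_lit 0) (nat_lit 0) (XT.lf (nat_lit 0) (nat_lit 3063326767) (nat_lit 76) (nat_lit 90723761715) (nat_lit 76) (nat_lit 66584358161) (nat_lit 1) (nat_lit 4) (nat_lit 2) (nat_lit 5) (nat_lit 2) (nat_lit 4) (nat_lit 300) (nat_lit 244) (nat_lit 176)) (XT.lf (nat_lit 0) (nat_lit 13388630645) (nat_lit 76) (nat_lit 91738152266) (nat_lit 76) (nat_lit 67589156897) (nat_lit 1) (nat_lit 4) (nat_lit 2) (nat_lit 5) (nat_lit 2) (nat_lit 4) (nat_lit 301) (nat_lit 244) (nat_lit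 175))))) (XT.nd (nat_lit 234) (nat_lit 0) (nat_lit 0) (XT.nd (nat_lit 78) (nat_lit 0) (nat_lit 0) (XT.lf (nat_lit 0) (nat_lit 24532363949) (nat_lit 76) (nat_lit 92836935373) (nat_lit 76) (nat_lit 68679058693) (nat_lit 1) (nat_lit 4) (nat_lit 2) (nat_lit 5) (nat_lit 2) (nat_lit 4) (nat_lit 302) (nat_lit 244) (nat_lit 174)) (XT.nd (nat_lit 78) (nat_lit 0) (nat_lit 0) (XT.lf (nat_lit 0) (nat_lit 36560563616) (nat_lit 76) (nat_lit 94026622342) (nat_lit 76) (nat_lit 69860522226) (nat_lit 1) (nat_lit 4) (nat_lit 2) (nat_lit 5) (nat_lit 2) (nat_lit 4) (nat_lit 303) (nat_lit 244) (nat_lit 173)) (XT.lf (nat_lit 0) (nat_lit 49544507868) (nat_lit 76) (nat_lit 95314263170) (nat_lit 76) (nat_lit 71140548761) (nat_lit 1) (nat_lit 4) (nat_lit 2) (nat_lit 5) (nat_lit 2) (nat_lit 4) (nat_lit 304) (nat_lit 244) (nat_lit 172)))) (XT.nd (nat_lit 78) (nat_lit 0) (nat_lit 0) (XT.lf (nat_lit 0) (nat_lit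 63561138595) (nat_lit 76) (nat_lit 96707488322) (nat_lit 76) (nat_lit 72526723642) (nat_lit 1) (nat_lit 4) (nat_lit 2) (nat_lit 5) (nat_lit 2) (nat_lit 4) (nat_lit 305) (nat_lit 244) (nat_lit 171)) (XT.nd (nat_lit 78) (nat_lit 0) (nat_lit 0) (XT.lf (nat_lit 0) (nat_lit 78693517314) (nat_lit 76) (nat_lit 98214553946) (nat_lit 76) (nat_lit 74027261238) (nat_lit 1) (nat_lit 4) (nat_lit 2) (nat_lit 5) (nat_lit 2) (nat_lit 4) (nat_lit 306) (nat_lit 244) (nat_lit 170)) (XT.lf (nat_lit 0) (nat_lit 95031317380) (nat_lit 76) (nat_lit 99844390802) (nat_lit 76) (nat_lit 75651053623) (nat_lit 1) (nat_lit 4) (nat_lit 2) (nat_lit 5) (nat_lit 2) (nat_lit 4) (nat_lit 307) (nat_lit 244) (nat_lit 169))))))))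
noncomputable def xc59 : XT := (XT.nd (nat_lit 1716) (nat_lit 0) (nat_lit 0) (XT.nd (nat_lit 858) (nat_lit 0) (nat_lit 0) (XT.nd (nat_lit 390) (nat_lit 0) (nat_lit 0) (XT.nd (nat_lit 156) (nat_lit 0) (nat_lit 0) (XT.nd (nat_lit 78) (nat_lit 0) (nat_lit 0) (XT.lf (nat_lit 0) (nat_lit 112671355385) (nat_lit 76) (nat_lit 101606657182) (nat_lit 76) (nat_lit 77407723271) (nat_lit 1) (nat_lit 4) (nat_lit 2) (nat_lit 5) (nat_lit 2) (nat_lit 4) (nat_lit 308) (nat_lit 244) (nat_lit 168)) (XT.lf (nat_lit 0) (nat_lit 131718164888) (nat_lit 76) (nat_lit 103511796147) (nat_lit 76) (nat_lit 79307680075) (nat_lit 1) (nat_lit 4) (nat_lit 2) (nat_lit 5) (nat_lit 2) (nat_lit 4) (nat_lit 309) (nat_lit 244) (nat_lit 167))) (XT.nd (nat_lit 78) (nat_lit 0) (nat_lit 0) (XT.lf (nat_lit 0) (nat_lit 152284615872) (nat_lit 76) (nat_lit 105571097408) (nat_lit 76) (nat_lit 81362183040) (nat_lit 1) (nat_lit 4)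 (nat_lit 2) (nat_lit 5) (nat_lit 2) (nat_lit 4) (nat_lit 310) (nat_lit 244) (nat_lit 166)) (XT.nd (nat_lit 78) (nat_lit 0) (nat_lit 0) (XT.lf (nat_lit 0) (nat_lit 174492583602) (nat_lit 76) (nat_lit 107796764232) (nat_lit 76) (nat_lit 83583406998) (nat_lit 1) (nat_lit 4) (nat_lit 2) (nat_lit 5) (nat_lit 2) (nat_lit 4) (nat_lit 311) (nat_lit 244) (nat_lit 165)) (XT.lf (nat_lit 0) (nat_lit 198473670849) (nat_lit 76) (nat_lit 110201985756) (nat_lit 76) (nat_lit 85984514757) (nat_lit 1) (nat_lit 4) (nat_lit 2) (nat_lit 5) (nat_lit 2) (nat_lit 4) (nat_lit 312) (nat_lit 244) (nat_lit 164))))) (XT.nd (nat_lit 234) (nat_lit 0) (nat_lit 0) (XT.nd (nat_lit 78) (nat_lit 0) (nat_lit 0) (XT.lf (nat_lit 0) (nat_lit 224369987759) (nat_lit 76) (nat_lit 112801015145) (nat_lit 76) (nat_lit 88579735104) (nat_lit 1) (nat_lit 4) (nat_lit 2) (nat_lit 5) (nat_lit 2) (nat_lit 4) (nat_lit 313) (nat_lit 244)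 (nat_lit 163)) (XT.nd (nat_lit 78) (nat_lit 0) (nat_lit 0) (XT.lf (nat_lit 0) (nat_lit 252334993990) (nat_lit 76) (nat_lit 115609254055) (nat_lit 76) (nat_lit 91384447123) (nat_lit 1) (nat_lit 4) (nat_lit 2) (nat_lit 5) (nat_lit 2) (nat_lit 4) (nat_lit 314) (nat_lit 244) (nat_lit 162)) (XT.lf (nat_lit 0) (nat_lit 282534408095) (nat_lit 76) (nat_lit 118643343900) (nat_lit 76) (nat_lit 94415271329) (nat_lit 1) (nat_lit 4) (nat_lit 2) (nat_lit 5) (nat_lit 2) (nat_lit 4) (nat_lit 315) (nat_lit 244) (nat_lit 161)))) (XT.nd (nat_lit 78) (nat_lit 0) (nat_lit 0) (XT.lf (nat_lit 0) (nat_lit 315147189567) (nat_lit 76) (nat_lit 121921264473) (nat_lit 76) (nat_lit 97690168162) (nat_lit 1) (nat_lit 4) (nat_lit 2) (nat_lit 5) (nat_lit 2) (nat_lit 4) (nat_lit 316) (nat_lit 244) (nat_lit 160)) (XT.nd (nat_lit 78) (nat_lit 0) (nat_lit 0) (XT.lf (nat_lit 0) (nat_lit 350366599332) (nat_lit 76) (nat_lit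 125462440489) (nat_lit 76) (nat_lit 101228544417) (nat_lit 1) (nat_lit 4) (nat_lit 2) (nat_lit 5) (nat_lit 2) (nat_lit 4) (nat_lit 317) (nat_lit 244) (nat_lit 159)) (XT.lf (nat_lit 0) (nat_lit 388401345004) (nat_lit 76) (nat_lit 129287856693) (nat_lit 76) (nat_lit 105051368252) (nat_lit 1) (nat_lit 4) (nat_lit 2) (nat_lit 5) (nat_lit 2) (nat_lit 4) (nat_lit 318) (nat_lit 244) (nat_lit 158)))))) (XT.nd (nat_lit 390) (nat_lit 0) (nat_lit 0) (XT.nd (nat_lit 156) (nat_lit 0) (nat_lit 0) (XT.nd (nat_lit 78) (nat_lit 0) (nat_lit 0) (XT.lf (nat_lit 0) (nat_lit 429476817668) (nat_lit 76) (nat_lit 133420182220) (nat_lit 76) (nat_lit 109181293436) (nat_lit 1) (nat_lit 4) (nat_lit 2) (nat_lit 5) (nat_lit 2) (nat_lit 4) (nat_lit 319) (nat_lit 244) (nat_lit 157)) (XT.lf (nat_lit 0) (nat_lit 473836427533) (nat_lit 76) (nat_lit 137883904923) (nat_lit 76) (nat_lit 113642793600) (nat_lit 1) (nat_lit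 4) (nat_lit 2) (nat_lit 5) (nat_lit 2) (nat_lit 4) (nat_lit 320) (nat_lit 244) (nat_lit 156))) (XT.nd (nat_lit 78) (nat_lit 0) (nat_lit 0) (XT.lf (nat_lit 0) (nat_lit 521743046361) (nat_lit 76) (nat_lit 142705476494) (nat_lit 76) (nat_lit 118462307264) (nat_lit 1) (nat_lit 4) (nat_lit 2) (nat_lit 5) (nat_lit 2) (nat_lit 4) (nat_lit 321) (nat_lit 244) (nat_lit 155)) (XT.nd (nat_lit 78) (nat_lit 0) (nat_lit 0) (XT.lf (nat_lit 0) (nat_lit 573480565226) (nat_lit 76) (nat_lit 147913469208) (nat_lit 76) (nat_lit 123668394508) (nat_lit 1) (nat_lit 4) (nat_lit 2) (nat_lit 5) (nat_lit 2) (nat_lit 4) (nat_lit 322) (nat_lit 244) (nat_lit 154)) (XT.lf (nat_lit 0) (nat_lit 629355576833) (nat_lit 76) (nat_lit 153538745244) (nat_lit 76) (nat_lit 129291906221) (nat_lit 1) (nat_lit 4) (nat_lit 2) (nat_lit 5) (nat_lit 2) (nat_lit 4) (nat_lit 323) (nat_lit 244) (nat_lit 153))))) (XT.nd (nat_lit 234)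 (nat_lit 0) (nat_lit 0) (XT.nd (nat_lit 78) (nat_lit 0) (nat_lit 0) (XT.lf (nat_lit 0) (nat_lit 689699192361) (nat_lit 76) (nat_lit 159614639571) (nat_lit 76) (nat_lit 135366166915) (nat_lit 1) (nat_lit 4) (nat_lit 2) (nat_lit 5) (nat_lit 2) (nat_lit 4) (nat_lit 324) (nat_lit 244) (nat_lit 152)) (XT.nd (nat_lit 78) (nat_lit 0) (nat_lit 0) (XT.lf (nat_lit 0) (nat_lit 754869003607) (nat_lit 76) (nat_lit 166177157489) (nat_lit 76) (nat_lit 141927172210) (nat_lit 1) (nat_lit 4) (nat_lit 2) (nat_lit 5) (nat_lit 2) (nat_lit 4) (nat_lit 325) (nat_lit 244) (nat_lit 151)) (XT.lf (nat_lit 0) (nat_lit 825251202045) (nat_lit 76) (nat_lit 173265187993) (nat_lit 76) (nat_lit 149013802138) (nat_lit 1) (nat_lit 4) (nat_lit 2) (nat_lit 5) (nat_lit 2) (nat_lit 4) (nat_lit 326) (nat_lit 244) (nat_lit 150)))) (XT.nd (nat_lit 78) (nat_lit 0) (nat_lit 0) (XT.lf (nat_lit 0) (nat_lit 901262867368) (nat_lit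 76) (nat_lit 180920734227) (nat_lit 76) (nat_lit 156668051542) (nat_lit 1) (nat_lit 4) (nat_lit 2) (nat_lit 5) (nat_lit 2) (nat_lit 4) (nat_lit 327) (nat_lit 244) (nat_lit 149)) (XT.nd (nat_lit 78) (nat_lit 0) (nat_lit 0) (XT.lf (nat_lit 0) (nat_lit 983354439075) (nat_lit 76) (nat_lit 189189162391) (nat_lit 76) (nat_lit 164935278936) (nat_lit 1) (nat_lit 4) (nat_lit 2) (nat_lit 5) (nat_lit 2) (nat_lit 4) (nat_lit 328) (nat_lit 244) (nat_lit 148)) (XT.lf (nat_lit 0) (nat_lit 1072012385739) (nat_lit 76) (nat_lit 198119470577) (nat_lit 76) (nat_lit 173864475300) (nat_lit 1) (nat_lit 4) (nat_lit 2) (nat_lit 5) (nat_lit 2) (nat_lit 4) (nat_lit 329) (nat_lit 244) (nat_lit 147))))))) (XT.nd (nat_lit 31590) (nat_lit 0) (nat_lit 1064) (XT.nd (nat_lit 31122) (nat_lit 0) (nat_lit 2432) (XT.nd (nat_lit 30888) (nat_lit 0) (nat_lit 2660) (XT.nd (nat_lit 78) (nat_lit 0) (nat_lit 0) (XT.lf (nat_lit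 0) (nat_lit 1167762087785) (nat_lit 76) (nat_lit 207764579131) (nat_lit 76) (nat_lit 183508554387) (nat_lit 1) (nat_lit 4) (nat_lit 2) (nat_lit 5) (nat_lit 2) (nat_lit 4) (nat_lit 330) (nat_lit 244) (nat_lit 146)) (XT.lf (nat_lit 0) (nat_lit 1271170950855) (nat_lit 76) (nat_lit 218181644251) (nat_lit 76) (nat_lit 193924666298) (nat_lit 1) (nat_lit 4) (nat_lit 2) (nat_lit 5) (nat_lit 2) (nat_lit 4) (nat_lit 331) (nat_lit 244) (nat_lit 145))) (XT.nd (nat_lit 78) (nat_lit 0) (nat_lit 0) (XT.lf (nat_lit 0) (nat_lit 25198567) (nat_lit 380) (nat_lit 1787827484) (nat_lit 380) (nat_lit 1787827484) (nat_lit 36) (nat_lit 3) (nat_lit 41) (nat_lit 3) (nat_lit 41) (nat_lit 5) (nat_lit 245) (nat_lit 245) (nat_lit 230)) (XT.nd (nat_lit 78) (nat_lit 0) (nat_lit 0) (XT.lf (nat_lit 0) (nat_lit 1430274471) (nat_lit 380) (nat_lit 703077265) (nat_lit 380) (nat_lit 5229981064) (nat_lit 36) (nat_lit 3)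 (nat_lit 41) (nat_lit 3) (nat_lit 41) (nat_lit 5) (nat_lit 246) (nat_lit 245) (nat_lit 229)) (XT.lf (nat_lit 76) (nat_lit 2446435907) (nat_lit 0) (nat_lit 395090508) (nat_lit 380) (nat_lit 4704305561) (nat_lit 37) (nat_lit 5) (nat_lit 36) (nat_lit 3) (nat_lit 41) (nat_lit 5) (nat_lit 247) (nat_lit 245) (nat_lit 228))))) (XT.nd (nat_lit 234) (nat_lit 304) (nat_lit 0) (XT.nd (nat_lit 78) (nat_lit 0) (nat_lit 0) (XT.lf (nat_lit 0) (nat_lit 4292992016) (nat_lit 304) (nat_lit 1976194361) (nat_lit 380) (nat_lit 1481061615) (nat_lit 37) (nat_lit 5) (nat_lit 41) (nat_lit 5) (nat_lit 42) (nat_lit 5) (nat_lit 248) (nat_lit 245) (nat_lit 227)) (XT.nd (nat_lit 78) (nat_lit 0) (nat_lit 0) (XT.lf (nat_lit 76) (nat_lit 1375259586) (nat_lit 0) (nat_lit 4410081197) (nat_lit 380) (nat_lit 2193085958) (nat_lit 38) (nat_lit 5) (nat_lit 37) (nat_lit 5) (nat_lit 42) (nat_lit 5) (nat_lit 249) (nat_lit 245)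 (nat_lit 226)) (XT.lf (nat_lit 76) (nat_lit 5029108718) (nat_lit 0) (nat_lit 2310334719) (nat_lit 380) (nat_lit 891314785) (nat_lit 38) (nat_lit 5) (nat_lit 37) (nat_lit 5) (nat_lit 42) (nat_lit 5) (nat_lit 250) (nat_lit 245) (nat_lit 225)))) (XT.nd (nat_lit 78) (nat_lit 0) (nat_lit 0) (XT.lf (nat_lit 0) (nat_lit 391500142) (nat_lit 380) (nat_lit 8110841032) (nat_lit 76) (nat_lit 8837416) (nat_lit 33) (nat_lit 5) (nat_lit 38) (nat_lit 5) (nat_lit 34) (nat_lit 5) (nat_lit 251) (nat_lit 245) (nat_lit 224)) (XT.nd (nat_lit 78) (nat_lit 0) (nat_lit 0) (XT.lf (nat_lit 0) (nat_lit 1778060654) (nat_lit 380) (nat_lit 4506660481) (nat_lit 76) (nat_lit 2524539633) (nat_lit 33) (nat_lit 5) (nat_lit 38) (nat_lit 5) (nat_lit 34) (nat_lit 5) (nat_lit 252) (nat_lit 245) (nat_lit 223)) (XT.lf (nat_lit 0) (nat_lit 3182447247) (nat_lit 380) (nat_lit 694480451) (nat_lit 76) (nat_lit 5262656227) (nat_lit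 33) (nat_lit 5) (nat_lit 38) (nat_lit 5) (nat_lit 34) (nat_lit 5) (nat_lit 253) (nat_lit 245) (nat_lit 222)))))) (XT.nd (nat_lit 390) (nat_lit 304) (nat_lit 0) (XT.nd (nat_lit 156) (nat_lit 684) (nat_lit 0) (XT.nd (nat_lit 78) (nat_lit 0) (nat_lit 0) (XT.lf (nat_lit 0) (nat_lit 3524604756) (nat_lit 380) (nat_lit 1173144287) (nat_lit 456) (nat_lit 4799575145) (nat_lit 28) (nat_lit 5) (nat_lit 33) (nat_lit 5) (nat_lit 34) (nat_lit 5) (nat_lit 254) (nat_lit 245) (nat_lit 221)) (XT.lf (nat_lit 0) (nat_lit 6314427559) (nat_lit 456) (nat_lit 1884014614) (nat_lit 76) (nat_lit 1687640768) (nat_lit 28) (nat_lit 5) (nat_lit 34) (nat_lit 5) (nat_lit 29) (nat_lit 5) (nat_lit 255) (nat_lit 245) (nat_lit 220))) (XT.nd (nat_lit 78) (nat_lit 304) (nat_lit 0) (XT.lf (nat_lit 0) (nat_lit 2555001545) (nat_lit 380) (nat_lit 5522040397) (nat_lit 456) (nat_lit 2228323692) (nat_lit 23) (nat_lit 5) (nat_lit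 28) (nat_lit 5) (nat_lit 29) (nat_lit 5) (nat_lit 256) (nat_lit 245) (nat_lit 219)) (XT.nd (nat_lit 78) (nat_lit 304) (nat_lit 0) (XT.lf (nat_lit 0) (nat_lit 7384035877) (nat_lit 380) (nat_lit 2576665848) (nat_lit 456) (nat_lit 799782026) (nat_lit 23) (nat_lit 5) (nat_lit 28) (nat_lit 5) (nat_lit 29) (nat_lit 5) (nat_lit 257) (nat_lit 245) (nat_lit 218)) (XT.lf (nat_lit 0) (nat_lit 684982720) (nat_lit 304) (nat_lit 9945198294) (nat_lit 76) (nat_lit 622668366) (nat_lit 19) (nat_lit 5) (nat_lit 23) (nat_lit 5) (nat_lit 20) (nat_lit 5) (nat_lit 258) (nat_lit 245) (nat_lit 217))))) (XT.nd (nat_lit 234) (nat_lit 152) (nat_lit 0) (XT.nd (nat_lit 78) (nat_lit 152) (nat_lit 0) (XT.lf (nat_lit 0) (nat_lit 2341756859) (nat_lit 304) (nat_lit 5383777878) (nat_lit 76) (nat_lit 4050244936) (nat_lit 19) (nat_lit 5) (nat_lit 23) (nat_lit 5) (nat_lit 20) (nat_lit 5) (nat_lit 259) (nat_lit 245) (nat_lit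 216)) (XT.nd (nat_lit 78) (nat_lit 152) (nat_lit 0) (XT.lf (nat_lit 0) (nat_lit 4070697828) (nat_lit 304) (nat_lit 526851971) (nat_lit 76) (nat_lit 7748335968) (nat_lit 19) (nat_lit 5) (nat_lit 23) (nat_lit 5) (nat_lit 20) (nat_lit 5) (nat_lit 260) (nat_lit 245) (nat_lit 215)) (XT.lf (nat_lit 0) (nat_lit 4899451622) (nat_lit 152) (nat_lit 1100431508) (nat_lit 228) (nat_lit 6957236379) (nat_lit 17) (nat_lit 5) (nat_lit 19) (nat_lit 5) (nat_lit 20) (nat_lit 5) (nat_lit 261) (nat_lit 245) (nat_lit 214)))) (XT.nd (nat_lit 78) (nat_lit 152) (nat_lit 0) (XT.lf (nat_lit 0) (nat_lit 8109057531) (nat_lit 228) (nat_lit 2958134797) (nat_lit 76) (nat_lit 2548445699) (nat_lit 17) (nat_lit 5) (nat_lit 20) (nat_lit 5) (nat_lit 18) (nat_lit 5) (nat_lit 262) (nat_lit 245) (nat_lit 213)) (XT.nd (nat_lit 78) (nat_lit 0) (nat_lit 0) (XT.lf (nat_lit 0) (nat_lit 2588102821) (nat_lit 152) (nat_lit 7840158346)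 (nat_lit 228) (nat_lit 3895679174) (nat_lit 15) (nat_lit 5) (nat_lit 17) (nat_lit 5) (nat_lit 18) (nat_lit 5) (nat_lit 263) (nat_lit 245) (nat_lit 212)) (XT.lf (nat_lit 0) (nat_lit 8685701567) (nat_lit 152) (nat_lit 4280861173) (nat_lit 228) (nat_lit 2120035041) (nat_lit 15) (nat_lit 5) (nat_lit 17) (nat_lit 5) (nat_lit 18) (nat_lit 5) (nat_lit 264) (nat_lit 245) (nat_lit 211))))))))
noncomputable def xc60 : XT := (XT.nd (nat_lit 1716) (nat_lit 228) (nat_lit 0) (XT.nd (nat_lit 858) (nat_lit 152) (nat_lit 0) (XT.nd (nat_lit 390) (nat_lit 304) (nat_lit 0) (XT.nd (nat_lit 156) (nat_lit 152) (nat_lit 0) (XT.nd (nat_lit 78) (nat_lit 228) (nat_lit 0) (XT.lf (nat_lit 0) (nat_lit 15215025222) (nat_lit 152) (nat_lit 449089325) (nat_lit 228) (nat_lit 250006407) (nat_lit 15) (nat_lit 5) (nat_lit 17) (nat_lit 5) (nat_lit 18) (nat_lit 5) (nat_lit 265) (nat_lit 245) (nat_lit 210)) (XT.lf (nat_lit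 0) (nat_lit 1867971991) (nat_lit 228) (nat_lit 11246090715) (nat_lit 76) (nat_lit 3675727192) (nat_lit 12) (nat_lit 5) (nat_lit 15) (nat_lit 5) (nat_lit 13) (nat_lit 5) (nat_lit 266) (nat_lit 245) (nat_lit 209))) (XT.nd (nat_lit 78) (nat_lit 152) (nat_lit 0) (XT.lf (nat_lit 0) (nat_lit 4132747337) (nat_lit 228) (nat_lit 5483191468) (nat_lit 76) (nat_lit 8120061093) (nat_lit 12) (nat_lit 5) (nat_lit 15) (nat_lit 5) (nat_lit 13) (nat_lit 5) (nat_lit 267) (nat_lit 245) (nat_lit 208)) (XT.nd (nat_lit 78) (nat_lit 0) (nat_lit 0) (XT.lf (nat_lit 0) (nat_lit 724939938) (nat_lit 152) (nat_lit 5833782798) (nat_lit 228) (nat_lit 12201038331) (nat_lit 10) (nat_lit 5) (nat_lit 12) (nat_lit 5) (nat_lit 13) (nat_lit 5) (nat_lit 268) (nat_lit 245) (nat_lit 207)) (XT.lf (nat_lit 0) (nat_lit 7690809685) (nat_lit 152) (nat_lit 1602021027) (nat_lit 228) (nat_lit 10563704916) (nat_lit 10) (nat_lit 5)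 (nat_lit 12) (nat_lit 5) (nat_lit 13) (nat_lit 5) (nat_lit 269) (nat_lit 245) (nat_lit 206))))) (XT.nd (nat_lit 234) (nat_lit 228) (nat_lit 0) (XT.nd (nat_lit 78) (nat_lit 76) (nat_lit 0) (XT.lf (nat_lit 0) (nat_lit 12283514291) (nat_lit 228) (nat_lit 5948022209) (nat_lit 76) (nat_lit 2806707213) (nat_lit 10) (nat_lit 5) (nat_lit 13) (nat_lit 5) (nat_lit 11) (nat_lit 4) (nat_lit 270) (nat_lit 245) (nat_lit 205)) (XT.nd (nat_lit 78) (nat_lit 0) (nat_lit 0) (XT.lf (nat_lit 0) (nat_lit 715411890) (nat_lit 76) (nat_lit 14825801456) (nat_lit 152) (nat_lit 6771257306) (nat_lit 9) (nat_lit 5) (nat_lit 10) (nat_lit 5) (nat_lit 11) (nat_lit 4) (nat_lit 271) (nat_lit 245) (nat_lit 204)) (XT.lf (nat_lit 0) (nat_lit 8205488300) (nat_lit 76) (nat_lit 10986839034) (nat_lit 152) (nat_lit 4485872523) (nat_lit 9) (nat_lit 5) (nat_lit 10) (nat_lit 5) (nat_lit 11) (nat_lit 4) (nat_lit 272) (nat_lit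 245) (nat_lit 203)))) (XT.nd (nat_lit 78) (nat_lit 228) (nat_lit 0) (XT.lf (nat_lit 0) (nat_lit 16253380346) (nat_lit 76) (nat_lit 6854529293) (nat_lit 152) (nat_lit 2047661521) (nat_lit 9) (nat_lit 5) (nat_lit 10) (nat_lit 5) (nat_lit 11) (nat_lit 4) (nat_lit 273) (nat_lit 245) (nat_lit 202)) (XT.nd (nat_lit 78) (nat_lit 152) (nat_lit 0) (XT.lf (nat_lit 0) (nat_lit 529919724) (nat_lit 152) (nat_lit 1859975806) (nat_lit 76) (nat_lit 24362370574) (nat_lit 8) (nat_lit 5) (nat_lit 10) (nat_lit 5) (nat_lit 9) (nat_lit 5) (nat_lit 274) (nat_lit 245) (nat_lit 201)) (XT.lf (nat_lit 0) (nat_lit 3385108858) (nat_lit 228) (nat_lit 22573039225) (nat_lit 76) (nat_lit 2499869620) (nat_lit 6) (nat_lit 5) (nat_lit 9) (nat_lit 5) (nat_lit 7) (nat_lit 4) (nat_lit 275) (nat_lit 245) (nat_lit 200)))))) (XT.nd (nat_lit 390) (nat_lit 76) (nat_lit 0) (XT.nd (nat_lit 156) (nat_lit 76) (nat_lit 0) (XT.nd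 (nat_lit 78) (nat_lit 0) (nat_lit 0) (XT.lf (nat_lit 0) (nat_lit 6559171721) (nat_lit 228) (nat_lit 16041932927) (nat_lit 76) (nat_lit 7692016064) (nat_lit 6) (nat_lit 5) (nat_lit 9) (nat_lit 5) (nat_lit 7) (nat_lit 4) (nat_lit 276) (nat_lit 245) (nat_lit 199)) (XT.lf (nat_lit 0) (nat_lit 9965129469) (nat_lit 228) (nat_lit 9023230123) (nat_lit 76) (nat_lit 13288553272) (nat_lit 6) (nat_lit 5) (nat_lit 9) (nat_lit 5) (nat_lit 7) (nat_lit 4) (nat_lit 277) (nat_lit 245) (nat_lit 198))) (XT.nd (nat_lit 78) (nat_lit 76) (nat_lit 0) (XT.lf (nat_lit 0) (nat_lit 13623165555) (nat_lit 228) (nat_lit 1475338502) (nat_lit 76) (nat_lit 19322645907) (nat_lit 6) (nat_lit 5) (nat_lit 9) (nat_lit 5) (nat_lit 7) (nat_lit 4) (nat_lit 278) (nat_lit 245) (nat_lit 197)) (XT.nd (nat_lit 78) (nat_lit 0) (nat_lit 0) (XT.lf (nat_lit 0) (nat_lit 6996461525) (nat_lit 76) (nat_lit 10726760773) (nat_lit 152) (nat_lit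 19001855098) (nat_lit 5) (nat_lit 5) (nat_lit 6) (nat_lit 5) (nat_lit 7) (nat_lit 4) (nat_lit 279) (nat_lit 245) (nat_lit 196)) (XT.lf (nat_lit 0) (nat_lit 16200752422) (nat_lit 76) (nat_lit 5972680064) (nat_lit 152) (nat_lit 17038208685) (nat_lit 5) (nat_lit 5) (nat_lit 6) (nat_lit 5) (nat_lit 7) (nat_lit 4) (nat_lit 280) (nat_lit 245) (nat_lit 195))))) (XT.nd (nat_lit 234) (nat_lit 0) (nat_lit 0) (XT.nd (nat_lit 78) (nat_lit 76) (nat_lit 0) (XT.lf (nat_lit 0) (nat_lit 26114389421) (nat_lit 76) (nat_lit 848427970) (nat_lit 152) (nat_lit 14935747117) (nat_lit 5) (nat_lit 5) (nat_lit 6) (nat_lit 5) (nat_lit 7) (nat_lit 4) (nat_lit 281) (nat_lit 245) (nat_lit 194)) (XT.nd (nat_lit 78) (nat_lit 76) (nat_lit 0) (XT.lf (nat_lit 0) (nat_lit 32232225163) (nat_lit 152) (nat_lit 8118116522) (nat_lit 0) (nat_lit 4442430906) (nat_lit 5) (nat_lit 5) (nat_lit 7) (nat_lit 4) (nat_lit 5) (nat_lit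 4) (nat_lit 282) (nat_lit 245) (nat_lit 193)) (XT.lf (nat_lit 0) (nat_lit 121080419) (nat_lit 76) (nat_lit 37812405442) (nat_lit 76) (nat_lit 9984282103) (nat_lit 4) (nat_lit 4) (nat_lit 5) (nat_lit 5) (nat_lit 5) (nat_lit 4) (nat_lit 283) (nat_lit 245) (nat_lit 192)))) (XT.nd (nat_lit 78) (nat_lit 0) (nat_lit 0) (XT.lf (nat_lit 0) (nat_lit 9457543246) (nat_lit 76) (nat_lit 34841137703) (nat_lit 76) (nat_lit 6977524473) (nat_lit 4) (nat_lit 4) (nat_lit 5) (nat_lit 5) (nat_lit 5) (nat_lit 4) (nat_lit 284) (nat_lit 245) (nat_lit 191)) (XT.nd (nat_lit 78) (nat_lit 0) (nat_lit 0) (XT.lf (nat_lit 0) (nat_lit 19519113514) (nat_lit 76) (nat_lit 31640894649) (nat_lit 76) (nat_lit 3744420408) (nat_lit 4) (nat_lit 4) (nat_lit 5) (nat_lit 5) (nat_lit 5) (nat_lit 4) (nat_lit 285) (nat_lit 245) (nat_lit 190)) (XT.lf (nat_lit 0) (nat_lit 30365415345) (nat_lit 76) (nat_lit 28192711876) (nat_lit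 76) (nat_lit 265810773) (nat_lit 4) (nat_lit 4) (nat_lit 5) (nat_lit 5) (nat_lit 5) (nat_lit 4) (nat_lit 286) (nat_lit 245) (nat_lit 189))))))) (XT.nd (nat_lit 858) (nat_lit 76) (nat_lit 0) (XT.nd (nat_lit 390) (nat_lit 0) (nat_lit 0) (XT.nd (nat_lit 156) (nat_lit 76) (nat_lit 0) (XT.nd (nat_lit 78) (nat_lit 0) (nat_lit 0) (XT.lf (nat_lit 0) (nat_lit 3304888825) (nat_lit 152) (nat_lit 21080905365) (nat_lit 76) (nat_lit 38665472776) (nat_lit 3) (nat_lit 5) (nat_lit 5) (nat_lit 5) (nat_lit 4) (nat_lit 4) (nat_lit 287) (nat_lit 245) (nat_lit 188)) (XT.lf (nat_lit 0) (nat_lit 7136179572) (nat_lit 152) (nat_lit 13137906740) (nat_lit 76) (nat_lit 47343046995) (nat_lit 3) (nat_lit 5) (nat_lit 5) (nat_lit 5) (nat_lit 4) (nat_lit 4) (nat_lit 288) (nat_lit 245) (nat_lit 187))) (XT.nd (nat_lit 78) (nat_lit 76) (nat_lit 0) (XT.lf (nat_lit 0) (nat_lit 11264062345) (nat_lit 152) (nat_lit 4576064397)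 (nat_lit 76) (nat_lit 56708978681) (nat_lit 3) (nat_lit 5) (nat_lit 5) (nat_lit 5) (nat_lit 4) (nat_lit 4) (nat_lit 289) (nat_lit 245) (nat_lit 186)) (XT.nd (nat_lit 78) (nat_lit 0) (nat_lit 0) (XT.lf (nat_lit 0) (nat_lit 4900501436) (nat_lit 76) (nat_lit 10930354411) (nat_lit 152) (nat_lit 62036125392) (nat_lit 2) (nat_lit 5) (nat_lit 3) (nat_lit 5) (nat_lit 4) (nat_lit 4) (nat_lit 290) (nat_lit 245) (nat_lit 185)) (XT.lf (nat_lit 0) (nat_lit 15380459582) (nat_lit 76) (nat_lit 5498793456) (nat_lit 152) (nat_lit 62721770621) (nat_lit 2) (nat_lit 5) (nat_lit 3) (nat_lit 5) (nat_lit 4) (nat_lit 4) (nat_lit 291) (nat_lit 245) (nat_lit 184))))) (XT.nd (nat_lit 234) (nat_lit 0) (nat_lit 0) (XT.nd (nat_lit 78) (nat_lit 0) (nat_lit 0) (XT.lf (nat_lit 0) (nat_lit 26332017713) (nat_lit 152) (nat_lit 63118231217) (nat_lit 0) (nat_lit 343535470) (nat_lit 2) (nat_lit 5) (nat_lit 4) (nat_lit 4)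 (nat_lit 2) (nat_lit 4) (nat_lit 292) (nat_lit 245) (nat_lit 183)) (XT.nd (nat_lit 78) (nat_lit 0) (nat_lit 0) (XT.lf (nat_lit 0) (nat_lit 32356109291) (nat_lit 152) (nat_lit 57763891915) (nat_lit 0) (nat_lit 6351188361) (nat_lit 2) (nat_lit 5) (nat_lit 4) (nat_lit 4) (nat_lit 2) (nat_lit 4) (nat_lit 293) (nat_lit 245) (nat_lit 182)) (XT.lf (nat_lit 0) (nat_lit 38854979977) (nat_lit 152) (nat_lit 51993570639) (nat_lit 0) (nat_lit 12834838042) (nat_lit 2) (nat_lit 5) (nat_lit 4) (nat_lit 4) (nat_lit 2) (nat_lit 4) (nat_lit 294) (nat_lit 245) (nat_lit 181)))) (XT.nd (nat_lit 78) (nat_lit 0) (nat_lit 0) (XT.lf (nat_lit 0) (nat_lit 45867141598) (nat_lit 152) (nat_lit 45773072891) (nat_lit 0) (nat_lit 19832906138) (nat_lit 2) (nat_lit 5) (nat_lit 4) (nat_lit 4) (nat_lit 2) (nat_lit 4) (nat_lit 295) (nat_lit 245) (nat_lit 180)) (XT.nd (nat_lit 78) (nat_lit 0) (nat_lit 0) (XT.lf (nat_lit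 0) (nat_lit 53434147704) (nat_lit 152) (nat_lit 39065536463) (nat_lit 0) (nat_lit 27386862685) (nat_lit 2) (nat_lit 5) (nat_lit 4) (nat_lit 4) (nat_lit 2) (nat_lit 4) (nat_lit 296) (nat_lit 245) (nat_lit 179)) (XT.lf (nat_lit 0) (nat_lit 61600839813) (nat_lit 152) (nat_lit 31831212992) (nat_lit 0) (nat_lit 35541471869) (nat_lit 2) (nat_lit 5) (nat_lit 4) (nat_lit 4) (nat_lit 2) (nat_lit 4) (nat_lit 297) (nat_lit 245) (nat_lit 178)))))) (XT.nd (nat_lit 390) (nat_lit 0) (nat_lit 0) (XT.nd (nat_lit 156) (nat_lit 76) (nat_lit 0) (XT.nd (nat_lit 78) (nat_lit 0) (nat_lit 0) (XT.lf (nat_lit 0) (nat_lit 70415613137) (nat_lit 152) (nat_lit 24027232411) (nat_lit 0) (nat_lit 44345057299) (nat_lit 2) (nat_lit 5) (nat_lit 4) (nat_lit 4) (nat_lit 2) (nat_lit 4) (nat_lit 298) (nat_lit 245) (nat_lit 177)) (XT.lf (nat_lit 0) (nat_lit 79930703370) (nat_lit 152) (nat_lit 15607348911) (nat_lit 0) (nat_lit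 53849788371) (nat_lit 2) (nat_lit 5) (nat_lit 4) (nat_lit 4) (nat_lit 2) (nat_lit 4) (nat_lit 299) (nat_lit 245) (nat_lit 176))) (XT.nd (nat_lit 78) (nat_lit 76) (nat_lit 0) (XT.lf (nat_lit 0) (nat_lit 90202496232) (nat_lit 152) (nat_lit 6521666885) (nat_lit 0) (nat_lit 64111989418) (nat_lit 2) (nat_lit 5) (nat_lit 4) (nat_lit 4) (nat_lit 2) (nat_lit 4) (nat_lit 300) (nat_lit 245) (nat_lit 175)) (XT.nd (nat_lit 78) (nat_lit 0) (nat_lit 0) (XT.lf (nat_lit 0) (nat_lit 3456566185) (nat_lit 76) (nat_lit 97918425922) (nat_lit 76) (nat_lit 71819037796) (nat_lit 1) (nat_lit 4) (nat_lit 2) (nat_lit 5) (nat_lit 2) (nat_lit 4) (nat_lit 301) (nat_lit 245) (nat_lit 174)) (XT.lf (nat_lit 0) (nat_lit 14596918575) (nat_lit 76) (nat_lit 99018651919) (nat_lit 76) (nat_lit 72911040358) (nat_lit 1) (nat_lit 4) (nat_lit 2) (nat_lit 5) (nat_lit 2) (nat_lit 4) (nat_lit 302) (nat_lit 245) (nat_lit 173)))))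 (XT.nd (nat_lit 234) (nat_lit 0) (nat_lit 0) (XT.nd (nat_lit 78) (nat_lit 0) (nat_lit 0) (XT.lf (nat_lit 0) (nat_lit 26621987767) (nat_lit 76) (nat_lit 100209674899) (nat_lit 76) (nat_lit 74094449045) (nat_lit 1) (nat_lit 4) (nat_lit 2) (nat_lit 5) (nat_lit 2) (nat_lit 4) (nat_lit 303) (nat_lit 245) (nat_lit 172)) (XT.nd (nat_lit 78) (nat_lit 0) (nat_lit 0) (XT.lf (nat_lit 0) (nat_lit 39603033430) (nat_lit 76) (nat_lit 101498552774) (nat_lit 76) (nat_lit 75376276649) (nat_lit 1) (nat_lit 4) (nat_lit 2) (nat_lit 5) (nat_lit 2) (nat_lit 4) (nat_lit 304) (nat_lit 245) (nat_lit 171)) (XT.lf (nat_lit 0) (nat_lit 53616980279) (nat_lit 76) (nat_lit 102892923339) (nat_lit 76) (nat_lit 76764119186) (nat_lit 1) (nat_lit 4) (nat_lit 2) (nat_lit 5) (nat_lit 2) (nat_lit 4) (nat_lit 305) (nat_lit 245) (nat_lit 170)))) (XT.nd (nat_lit 78) (nat_lit 0) (nat_lit 0) (XT.lf (nat_lit 0) (nat_lit 68746873925)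 (nat_lit 76) (nat_lit 104401049532) (nat_lit 76) (nat_lit 78266200907) (nat_lit 1) (nat_lit 4) (nat_lit 2) (nat_lit 5) (nat_lit 2) (nat_lit 4) (nat_lit 306) (nat_lit 245) (nat_lit 169)) (XT.nd (nat_lit 78) (nat_lit 0) (nat_lit 0) (XT.lf (nat_lit 0) (nat_lit 85082372998) (nat_lit 76) (nat_lit 106031868395) (nat_lit 76) (nat_lit 79891423038) (nat_lit 1) (nat_lit 4) (nat_lit 2) (nat_lit 5) (nat_lit 2) (nat_lit 4) (nat_lit 307) (nat_lit 245) (nat_lit 168)) (XT.lf (nat_lit 0) (nat_lit 102720280454) (nat_lit 76) (nat_lit 107795044042) (nat_lit 76) (nat_lit 81649416525) (nat_lit 1) (nat_lit 4) (nat_lit 2) (nat_lit 5) (nat_lit 2) (nat_lit 4) (nat_lit 308) (nat_lit 245) (nat_lit 167))))))))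
noncomputable def xc61 : XT := (XT.nd (nat_lit 1716) (nat_lit 0) (nat_lit 0) (XT.nd (nat_lit 858) (nat_lit 0) (nat_lit 0) (XT.nd (nat_lit 390) (nat_lit 0) (nat_lit 0) (XT.nd (nat_lit 156) (nat_lit 0) (nat_lit 0) (XT.nd (nat_lit 78) (nat_lit 0) (nat_lit 0) (XT.lf (nat_lit 0) (nat_lit 121765117226) (nat_lit 76) (nat_lit 109701024919) (nat_lit 76) (nat_lit 83550599107) (nat_lit 1) (nat_lit 4) (nat_lit 2) (nat_lit 5) (nat_lit 2) (nat_lit 4) (nat_lit 309) (nat_lit 245) (nat_lit 166)) (XT.lf (nat_lit 0) (nat_lit 142329741608) (nat_lit 76) (nat_lit 111761105729) (nat_lit 76) (nat_lit 85606237050) (nat_lit 1) (nat_lit 4) (nat_lit 2) (nat_lit 5) (nat_lit 2) (nat_lit 4) (nat_lit 310) (nat_lit 245) (nat_lit 165))) (XT.nd (nat_lit 78) (nat_lit 0) (nat_lit 0) (XT.lf (nat_lit 0) (nat_lit 164536018039) (nat_lit 76) (nat_lit 113987494358) (nat_lit 76) (nat_lit 87828511914) (nat_lit 1) (nat_lit 4)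 (nat_lit 2) (nat_lit 5) (nat_lit 2) (nat_lit 4) (nat_lit 311) (nat_lit 245) (nat_lit 164)) (XT.nd (nat_lit 78) (nat_lit 0) (nat_lit 0) (XT.lf (nat_lit 0) (nat_lit 188515539268) (nat_lit 76) (nat_lit 116393384221) (nat_lit 76) (nat_lit 90230592734) (nat_lit 1) (nat_lit 4) (nat_lit 2) (nat_lit 5) (nat_lit 2) (nat_lit 4) (nat_lit 312) (nat_lit 245) (nat_lit 163)) (XT.lf (nat_lit 0) (nat_lit 214410406163) (nat_lit 76) (nat_lit 118993032441) (nat_lit 76) (nat_lit 92826714064) (nat_lit 1) (nat_lit 4) (nat_lit 2) (nat_lit 5) (nat_lit 2) (nat_lit 4) (nat_lit 313) (nat_lit 245) (nat_lit 162))))) (XT.nd (nat_lit 234) (nat_lit 0) (nat_lit 0) (XT.nd (nat_lit 78) (nat_lit 0) (nat_lit 0) (XT.lf (nat_lit 0) (nat_lit 242374069786) (nat_lit 76) (nat_lit 121801844342) (nat_lit 76) (nat_lit 95632260326) (nat_lit 1) (nat_lit 4) (nat_lit 2) (nat_lit 5) (nat_lit 2) (nat_lit 4) (nat_lit 314) (nat_lit 245)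 (nat_lit 161)) (XT.nd (nat_lit 78) (nat_lit 0) (nat_lit 0) (XT.lf (nat_lit 0) (nat_lit 272572240737) (nat_lit 76) (nat_lit 124836464736) (nat_lit 76) (nat_lit 98663856979) (nat_lit 1) (nat_lit 4) (nat_lit 2) (nat_lit 5) (nat_lit 2) (nat_lit 4) (nat_lit 315) (nat_lit 245) (nat_lit 160)) (XT.lf (nat_lit 0) (nat_lit 305183871139) (nat_lit 76) (nat_lit 128114876557) (nat_lit 76) (nat_lit 101939469041) (nat_lit 1) (nat_lit 4) (nat_lit 2) (nat_lit 5) (nat_lit 2) (nat_lit 4) (nat_lit 316) (nat_lit 245) (nat_lit 159)))) (XT.nd (nat_lit 78) (nat_lit 0) (nat_lit 0) (XT.lf (nat_lit 0) (nat_lit 340402215099) (nat_lit 76) (nat_lit 131656507432) (nat_lit 76) (nat_lit 105478507546) (nat_lit 1) (nat_lit 4) (nat_lit 2) (nat_lit 5) (nat_lit 2) (nat_lit 4) (nat_lit 317) (nat_lit 245) (nat_lit 158)) (XT.nd (nat_lit 78) (nat_lit 0) (nat_lit 0) (XT.lf (nat_lit 0) (nat_lit 378435973915) (nat_lit 76) (nat_lit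 135482344803) (nat_lit 76) (nat_lit 109301944574) (nat_lit 1) (nat_lit 4) (nat_lit 2) (nat_lit 5) (nat_lit 2) (nat_lit 4) (nat_lit 318) (nat_lit 245) (nat_lit 157)) (XT.lf (nat_lit 0) (nat_lit 419510532823) (nat_lit 76) (nat_lit 139615060298) (nat_lit 76) (nat_lit 113432437530) (nat_lit 1) (nat_lit 4) (nat_lit 2) (nat_lit 5) (nat_lit 2) (nat_lit 4) (nat_lit 319) (nat_lit 245) (nat_lit 156)))))) (XT.nd (nat_lit 390) (nat_lit 0) (nat_lit 0) (XT.nd (nat_lit 156) (nat_lit 0) (nat_lit 0) (XT.nd (nat_lit 78) (nat_lit 0) (nat_lit 0) (XT.lf (nat_lit 0) (nat_lit 463869296618) (nat_lit 76) (nat_lit 144079144084) (nat_lit 76) (nat_lit 117894463409) (nat_lit 1) (nat_lit 4) (nat_lit 2) (nat_lit 5) (nat_lit 2) (nat_lit 4) (nat_lit 320) (nat_lit 245) (nat_lit 155)) (XT.lf (nat_lit 0) (nat_lit 511775132047) (nat_lit 76) (nat_lit 148901049990) (nat_lit 76) (nat_lit 122714463845) (nat_lit 1) (nat_lit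 4) (nat_lit 2) (nat_lit 5) (nat_lit 2) (nat_lit 4) (nat_lit 321) (nat_lit 245) (nat_lit 154))) (XT.nd (nat_lit 78) (nat_lit 0) (nat_lit 0) (XT.lf (nat_lit 0) (nat_lit 563511925543) (nat_lit 76) (nat_lit 154109352273) (nat_lit 76) (nat_lit 127921001805) (nat_lit 1) (nat_lit 4) (nat_lit 2) (nat_lit 5) (nat_lit 2) (nat_lit 4) (nat_lit 322) (nat_lit 245) (nat_lit 153)) (XT.nd (nat_lit 78) (nat_lit 0) (nat_lit 0) (XT.lf (nat_lit 0) (nat_lit 619386265512) (nat_lit 76) (nat_lit 159734914948) (nat_lit 76) (nat_lit 133544930847) (nat_lit 1) (nat_lit 4) (nat_lit 2) (nat_lit 5) (nat_lit 2) (nat_lit 4) (nat_lit 323) (nat_lit 245) (nat_lit 152)) (XT.lf (nat_lit 0) (nat_lit 679729259153) (nat_lit 76) (nat_lit 165811074681) (nat_lit 76) (nat_lit 139619577958) (nat_lit 1) (nat_lit 4) (nat_lit 2) (nat_lit 5) (nat_lit 2) (nat_lit 4) (nat_lit 324) (nat_lit 245) (nat_lit 151))))) (XT.nd (nat_lit 234)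 (nat_lit 0) (nat_lit 0) (XT.nd (nat_lit 78) (nat_lit 0) (nat_lit 0) (XT.lf (nat_lit 0) (nat_lit 744898494578) (nat_lit 76) (nat_lit 172373838346) (nat_lit 76) (nat_lit 146180941045) (nat_lit 1) (nat_lit 4) (nat_lit 2) (nat_lit 5) (nat_lit 2) (nat_lit 4) (nat_lit 325) (nat_lit 245) (nat_lit 150)) (XT.nd (nat_lit 78) (nat_lit 0) (nat_lit 0) (XT.lf (nat_lit 0) (nat_lit 815280159847) (nat_lit 76) (nat_lit 179462096393) (nat_lit 76) (nat_lit 153267902262) (nat_lit 1) (nat_lit 4) (nat_lit 2) (nat_lit 5) (nat_lit 2) (nat_lit 4) (nat_lit 326) (nat_lit 245) (nat_lit 149)) (XT.lf (nat_lit 0) (nat_lit 891291331496) (nat_lit 76) (nat_lit 187117853315) (nat_lit 76) (nat_lit 160922458415) (nat_lit 1) (nat_lit 4) (nat_lit 2) (nat_lit 5) (nat_lit 2) (nat_lit 4) (nat_lit 327) (nat_lit 245) (nat_lit 148)))) (XT.nd (nat_lit 78) (nat_lit 0) (nat_lit 0) (XT.lf (nat_lit 0) (nat_lit 973382446098) (nat_lit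 76) (nat_lit 195386476561) (nat_lit 76) (nat_lit 169189969837) (nat_lit 1) (nat_lit 4) (nat_lit 2) (nat_lit 5) (nat_lit 2) (nat_lit 4) (nat_lit 328) (nat_lit 245) (nat_lit 147)) (XT.nd (nat_lit 78) (nat_lit 0) (nat_lit 0) (XT.lf (nat_lit 0) (nat_lit 1062039969516) (nat_lit 76) (nat_lit 204316965378) (nat_lit 76) (nat_lit 178119429189) (nat_lit 1) (nat_lit 4) (nat_lit 2) (nat_lit 5) (nat_lit 2) (nat_lit 4) (nat_lit 329) (nat_lit 245) (nat_lit 146)) (XT.lf (nat_lit 0) (nat_lit 1157789279668) (nat_lit 76) (nat_lit 213962241182) (nat_lit 76) (nat_lit 187763751784) (nat_lit 1) (nat_lit 4) (nat_lit 2) (nat_lit 5) (nat_lit 2) (nat_lit 4) (nat_lit 330) (nat_lit 245) (nat_lit 145))))))) (XT.nd (nat_lit 31668) (nat_lit 0) (nat_lit 836) (XT.nd (nat_lit 31200) (nat_lit 0) (nat_lit 2052) (XT.nd (nat_lit 30966) (nat_lit 0) (nat_lit 2660) (XT.nd (nat_lit 30888) (nat_lit 0) (nat_lit 2660) (XT.lf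 (nat_lit 0) (nat_lit 1261197779873) (nat_lit 76) (nat_lit 224379461164) (nat_lit 76) (nat_lit 198180089165) (nat_lit 1) (nat_lit 4) (nat_lit 2) (nat_lit 5) (nat_lit 2) (nat_lit 4) (nat_lit 331) (nat_lit 245) (nat_lit 144)) (XT.lf (nat_lit 0) (nat_lit 1371938302) (nat_lit 380) (nat_lit 1196790954) (nat_lit 380) (nat_lit 1196790954) (nat_lit 36) (nat_lit 3) (nat_lit 41) (nat_lit 3) (nat_lit 41) (nat_lit 5) (nat_lit 246) (nat_lit 246) (nat_lit 228))) (XT.nd (nat_lit 78) (nat_lit 0) (nat_lit 0) (XT.lf (nat_lit 76) (nat_lit 631649650) (nat_lit 0) (nat_lit 3418467318) (nat_lit 380) (nat_lit 3672545664) (nat_lit 37) (nat_lit 5) (nat_lit 36) (nat_lit 3) (nat_lit 41) (nat_lit 5) (nat_lit 247) (nat_lit 246) (nat_lit 227)) (XT.nd (nat_lit 78) (nat_lit 0) (nat_lit 76) (XT.lf (nat_lit 76) (nat_lit 3967111636) (nat_lit 0) (nat_lit 1439370150) (nat_lit 380) (nat_lit 2528873542) (nat_lit 37) (nat_lit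 5) (nat_lit 36) (nat_lit 3) (nat_lit 41) (nat_lit 5) (nat_lit 248) (nat_lit 246) (nat_lit 226)) (XT.lf (nat_lit 0) (nat_lit 6778355879) (nat_lit 304) (nat_lit 686642818) (nat_lit 380) (nat_lit 708792446) (nat_lit 37) (nat_lit 5) (nat_lit 41) (nat_lit 5) (nat_lit 42) (nat_lit 5) (nat_lit 249) (nat_lit 246) (nat_lit 225))))) (XT.nd (nat_lit 234) (nat_lit 304) (nat_lit 0) (XT.nd (nat_lit 78) (nat_lit 380) (nat_lit 0) (XT.lf (nat_lit 76) (nat_lit 2896278150) (nat_lit 0) (nat_lit 5369087854) (nat_lit 380) (nat_lit 166697255) (nat_lit 38) (nat_lit 5) (nat_lit 37) (nat_lit 5) (nat_lit 42) (nat_lit 5) (nat_lit 250) (nat_lit 246) (nat_lit 224)) (XT.nd (nat_lit 78) (nat_lit 0) (nat_lit 0) (XT.lf (nat_lit 0) (nat_lit 1022284965) (nat_lit 380) (nat_lit 2006221894) (nat_lit 456) (nat_lit 5687680810) (nat_lit 32) (nat_lit 5) (nat_lit 37) (nat_lit 5) (nat_lit 38) (nat_lit 5) (nat_lit 251) (nat_lit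 246) (nat_lit 223)) (XT.lf (nat_lit 76) (nat_lit 1824871820) (nat_lit 0) (nat_lit 424478022) (nat_lit 456) (nat_lit 6778134706) (nat_lit 33) (nat_lit 5) (nat_lit 32) (nat_lit 5) (nat_lit 38) (nat_lit 5) (nat_lit 252) (nat_lit 246) (nat_lit 222)))) (XT.nd (nat_lit 78) (nat_lit 380) (nat_lit 0) (XT.lf (nat_lit 0) (nat_lit 3602084194) (nat_lit 380) (nat_lit 3415985640) (nat_lit 76) (nat_lit 2344291394) (nat_lit 33) (nat_lit 5) (nat_lit 38) (nat_lit 5) (nat_lit 34) (nat_lit 5) (nat_lit 253) (nat_lit 246) (nat_lit 221)) (XT.nd (nat_lit 78) (nat_lit 0) (nat_lit 0) (XT.lf (nat_lit 0) (nat_lit 624933637) (nat_lit 380) (nat_lit 4384341547) (nat_lit 456) (nat_lit 4719865303) (nat_lit 28) (nat_lit 5) (nat_lit 33) (nat_lit 5) (nat_lit 34) (nat_lit 5) (nat_lit 254) (nat_lit 246) (nat_lit 220)) (XT.lf (nat_lit 0) (nat_lit 5116265955) (nat_lit 380) (nat_lit 1430655311) (nat_lit 456) (nat_lit 3577661802)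 (nat_lit 28) (nat_lit 5) (nat_lit 33) (nat_lit 5) (nat_lit 34) (nat_lit 5) (nat_lit 255) (nat_lit 246) (nat_lit 219)))))) (XT.nd (nat_lit 390) (nat_lit 532) (nat_lit 0) (XT.nd (nat_lit 156) (nat_lit 304) (nat_lit 0) (XT.nd (nat_lit 78) (nat_lit 380) (nat_lit 0) (XT.lf (nat_lit 0) (nat_lit 8180152398) (nat_lit 456) (nat_lit 695702554) (nat_lit 76) (nat_lit 1678695945) (nat_lit 28) (nat_lit 5) (nat_lit 34) (nat_lit 5) (nat_lit 29) (nat_lit 5) (nat_lit 256) (nat_lit 246) (nat_lit 218)) (XT.lf (nat_lit 0) (nat_lit 4064535322) (nat_lit 380) (nat_lit 5949846095) (nat_lit 456) (nat_lit 999551759) (nat_lit 23) (nat_lit 5) (nat_lit 28) (nat_lit 5) (nat_lit 29) (nat_lit 5) (nat_lit 257) (nat_lit 246) (nat_lit 217))) (XT.nd (nat_lit 78) (nat_lit 228) (nat_lit 0) (XT.lf (nat_lit 0) (nat_lit 417085245) (nat_lit 456) (nat_lit 2341386378) (nat_lit 76) (nat_lit 8754726739) (nat_lit 22) (nat_lit 5)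 (nat_lit 28) (nat_lit 5) (nat_lit 23) (nat_lit 5) (nat_lit 258) (nat_lit 246) (nat_lit 216)) (XT.nd (nat_lit 78) (nat_lit 0) (nat_lit 0) (XT.lf (nat_lit 0) (nat_lit 1917676354) (nat_lit 304) (nat_lit 9386687995) (nat_lit 76) (nat_lit 744504799) (nat_lit 19) (nat_lit 5) (nat_lit 23) (nat_lit 5) (nat_lit 20) (nat_lit 5) (nat_lit 259) (nat_lit 246) (nat_lit 215)) (XT.lf (nat_lit 0) (nat_lit 3619740942) (nat_lit 304) (nat_lit 4560659588) (nat_lit 76) (nat_lit 4440952461) (nat_lit 19) (nat_lit 5) (nat_lit 23) (nat_lit 5) (nat_lit 20) (nat_lit 5) (nat_lit 260) (nat_lit 246) (nat_lit 214))))) (XT.nd (nat_lit 234) (nat_lit 380) (nat_lit 0) (XT.nd (nat_lit 78) (nat_lit 0) (nat_lit 0) (XT.lf (nat_lit 0) (nat_lit 623115561) (nat_lit 152) (nat_lit 4798079161) (nat_lit 228) (nat_lit 7821821310) (nat_lit 17) (nat_lit 5) (nat_lit 19) (nat_lit 5) (nat_lit 20) (nat_lit 5) (nat_lit 261) (nat_lit 246)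 (nat_lit 213)) (XT.nd (nat_lit 78) (nat_lit 0) (nat_lit 0) (XT.lf (nat_lit 0) (nat_lit 6422961668) (nat_lit 152) (nat_lit 1019177053) (nat_lit 228) (nat_lit 6466649424) (nat_lit 17) (nat_lit 5) (nat_lit 19) (nat_lit 5) (nat_lit 20) (nat_lit 5) (nat_lit 262) (nat_lit 246) (nat_lit 212)) (XT.lf (nat_lit 0) (nat_lit 9652538007) (nat_lit 228) (nat_lit 2072208323) (nat_lit 76) (nat_lit 2901229184) (nat_lit 17) (nat_lit 5) (nat_lit 20) (nat_lit 5) (nat_lit 18) (nat_lit 5) (nat_lit 263) (nat_lit 246) (nat_lit 211)))) (XT.nd (nat_lit 78) (nat_lit 228) (nat_lit 0) (XT.lf (nat_lit 0) (nat_lit 3889308628) (nat_lit 152) (nat_lit 8228005611) (nat_lit 228) (nat_lit 3277368064) (nat_lit 15) (nat_lit 5) (nat_lit 17) (nat_lit 5) (nat_lit 18) (nat_lit 5) (nat_lit 264) (nat_lit 246) (nat_lit 210)) (XT.nd (nat_lit 78) (nat_lit 228) (nat_lit 0) (XT.lf (nat_lit 0) (nat_lit 10393666564) (nat_lit 152) (nat_lit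 4401695434) (nat_lit 228) (nat_lit 1428558729) (nat_lit 15) (nat_lit 5) (nat_lit 17) (nat_lit 5) (nat_lit 18) (nat_lit 5) (nat_lit 265) (nat_lit 246) (nat_lit 209)) (XT.lf (nat_lit 0) (nat_lit 247172610) (nat_lit 152) (nat_lit 259683344) (nat_lit 228) (nat_lit 16614455653) (nat_lit 12) (nat_lit 5) (nat_lit 14) (nat_lit 5) (nat_lit 15) (nat_lit 5) (nat_lit 266) (nat_lit 246) (nat_lit 208))))))))
noncomputable def xc62 : XT := (XT.nd (nat_lit 1716) (nat_lit 152) (nat_lit 0) (XT.nd (nat_lit 858) (nat_lit 228) (nat_lit 0) (XT.nd (nat_lit 390) (nat_lit 304) (nat_lit 0) (XT.nd (nat_lit 156) (nat_lit 152) (nat_lit 0) (XT.nd (nat_lit 78) (nat_lit 0) (nat_lit 0) (XT.lf (nat_lit 0) (nat_lit 2747397065) (nat_lit 228) (nat_lit 11130025230) (nat_lit 76) (nat_lit 4192161036) (nat_lit 12) (nat_lit 5) (nat_lit 15) (nat_lit 5) (nat_lit 13) (nat_lit 5) (nat_lit 267) (nat_lit 246) (nat_lit 207)) (XT.lf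 (nat_lit 0) (nat_lit 5139281304) (nat_lit 228) (nat_lit 4981334987) (nat_lit 76) (nat_lit 8975569377) (nat_lit 12) (nat_lit 5) (nat_lit 15) (nat_lit 5) (nat_lit 13) (nat_lit 5) (nat_lit 268) (nat_lit 246) (nat_lit 206))) (XT.nd (nat_lit 78) (nat_lit 0) (nat_lit 0) (XT.lf (nat_lit 0) (nat_lit 1699636506) (nat_lit 152) (nat_lit 6031677202) (nat_lit 228) (nat_lit 12473118007) (nat_lit 10) (nat_lit 5) (nat_lit 12) (nat_lit 5) (nat_lit 13) (nat_lit 5) (nat_lit 269) (nat_lit 246) (nat_lit 205)) (XT.nd (nat_lit 78) (nat_lit 0) (nat_lit 0) (XT.lf (nat_lit 0) (nat_lit 9154872027) (nat_lit 152) (nat_lit 1481286210) (nat_lit 228) (nat_lit 10756946319) (nat_lit 10) (nat_lit 5) (nat_lit 12) (nat_lit 5) (nat_lit 13) (nat_lit 5) (nat_lit 270) (nat_lit 246) (nat_lit 204)) (XT.lf (nat_lit 0) (nat_lit 13827201947) (nat_lit 228) (nat_lit 5595377390) (nat_lit 76) (nat_lit 3250174984) (nat_lit 10) (nat_lit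 5) (nat_lit 13) (nat_lit 5) (nat_lit 11) (nat_lit 4) (nat_lit 271) (nat_lit 246) (nat_lit 203))))) (XT.nd (nat_lit 234) (nat_lit 228) (nat_lit 0) (XT.nd (nat_lit 78) (nat_lit 0) (nat_lit 0) (XT.lf (nat_lit 0) (nat_lit 1580157094) (nat_lit 76) (nat_lit 15743224486) (nat_lit 152) (nat_lit 6727580396) (nat_lit 9) (nat_lit 5) (nat_lit 10) (nat_lit 5) (nat_lit 11) (nat_lit 4) (nat_lit 272) (nat_lit 246) (nat_lit 202)) (XT.nd (nat_lit 78) (nat_lit 0) (nat_lit 0) (XT.lf (nat_lit 0) (nat_lit 9609623893) (nat_lit 76) (nat_lit 11617044409) (nat_lit 152) (nat_lit 4302726126) (nat_lit 9) (nat_lit 5) (nat_lit 10) (nat_lit 5) (nat_lit 11) (nat_lit 4) (nat_lit 273) (nat_lit 246) (nat_lit 201)) (XT.lf (nat_lit 0) (nat_lit 18245962375) (nat_lit 76) (nat_lit 7172575204) (nat_lit 152) (nat_lit 1709607592) (nat_lit 9) (nat_lit 5) (nat_lit 10) (nat_lit 5) (nat_lit 11) (nat_lit 4) (nat_lit 274) (nat_lit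 246) (nat_lit 200)))) (XT.nd (nat_lit 78) (nat_lit 152) (nat_lit 0) (XT.lf (nat_lit 0) (nat_lit 1013759078) (nat_lit 152) (nat_lit 1342002228) (nat_lit 76) (nat_lit 26498873795) (nat_lit 8) (nat_lit 5) (nat_lit 10) (nat_lit 5) (nat_lit 9) (nat_lit 5) (nat_lit 275) (nat_lit 246) (nat_lit 199)) (XT.nd (nat_lit 78) (nat_lit 0) (nat_lit 0) (XT.lf (nat_lit 0) (nat_lit 4085717208) (nat_lit 228) (nat_lit 23698152892) (nat_lit 76) (nat_lit 2914093354) (nat_lit 6) (nat_lit 5) (nat_lit 9) (nat_lit 5) (nat_lit 7) (nat_lit 4) (nat_lit 276) (nat_lit 246) (nat_lit 198)) (XT.lf (nat_lit 0) (nat_lit 7481868090) (nat_lit 228) (nat_lit 16694982495) (nat_lit 76) (nat_lit 8505742317) (nat_lit 6) (nat_lit 5) (nat_lit 9) (nat_lit 5) (nat_lit 7) (nat_lit 4) (nat_lit 277) (nat_lit 246) (nat_lit 197)))))) (XT.nd (nat_lit 390) (nat_lit 152) (nat_lit 0) (XT.nd (nat_lit 156) (nat_lit 76) (nat_lit 0) (XT.nd (nat_lit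 78) (nat_lit 0) (nat_lit 0) (XT.lf (nat_lit 0) (nat_lit 11130823744) (nat_lit 228) (nat_lit 9161472731) (nat_lit 76) (nat_lit 14535308799) (nat_lit 6) (nat_lit 5) (nat_lit 9) (nat_lit 5) (nat_lit 7) (nat_lit 4) (nat_lit 278) (nat_lit 246) (nat_lit 196)) (XT.lf (nat_lit 0) (nat_lit 15054207612) (nat_lit 228) (nat_lit 1052980580) (nat_lit 76) (nat_lit 21038523566) (nat_lit 6) (nat_lit 5) (nat_lit 9) (nat_lit 5) (nat_lit 7) (nat_lit 4) (nat_lit 279) (nat_lit 246) (nat_lit 195))) (XT.nd (nat_lit 78) (nat_lit 0) (nat_lit 0) (XT.lf (nat_lit 0) (nat_lit 8082882816) (nat_lit 76) (nat_lit 11386780085) (nat_lit 152) (nat_lit 20165434896) (nat_lit 5) (nat_lit 5) (nat_lit 6) (nat_lit 5) (nat_lit 7) (nat_lit 4) (nat_lit 280) (nat_lit 246) (nat_lit 194)) (XT.nd (nat_lit 78) (nat_lit 0) (nat_lit 0) (XT.lf (nat_lit 0) (nat_lit 17984501846) (nat_lit 76) (nat_lit 6267048590) (nat_lit 152) (nat_lit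 18071109260) (nat_lit 5) (nat_lit 5) (nat_lit 6) (nat_lit 5) (nat_lit 7) (nat_lit 4) (nat_lit 281) (nat_lit 246) (nat_lit 193)) (XT.lf (nat_lit 0) (nat_lit 28655104677) (nat_lit 76) (nat_lit 746444913) (nat_lit 152) (nat_lit 15824906776) (nat_lit 5) (nat_lit 5) (nat_lit 6) (nat_lit 5) (nat_lit 7) (nat_lit 4) (nat_lit 282) (nat_lit 246) (nat_lit 192))))) (XT.nd (nat_lit 234) (nat_lit 76) (nat_lit 0) (XT.nd (nat_lit 78) (nat_lit 76) (nat_lit 0) (XT.lf (nat_lit 0) (nat_lit 35075425286) (nat_lit 152) (nat_lit 8331017386) (nat_lit 0) (nat_lit 4947233106) (nat_lit 5) (nat_lit 5) (nat_lit 7) (nat_lit 4) (nat_lit 5) (nat_lit 4) (nat_lit 283) (nat_lit 246) (nat_lit 191)) (XT.nd (nat_lit 78) (nat_lit 0) (nat_lit 0) (XT.lf (nat_lit 0) (nat_lit 556263451) (nat_lit 76) (nat_lit 40667154955) (nat_lit 76) (nat_lit 10506101765) (nat_lit 4) (nat_lit 4) (nat_lit 5) (nat_lit 5) (nat_lit 5) (nat_lit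 4) (nat_lit 284) (nat_lit 246) (nat_lit 190)) (XT.lf (nat_lit 0) (nat_lit 10608125037) (nat_lit 76) (nat_lit 37470796384) (nat_lit 76) (nat_lit 7279316332) (nat_lit 4) (nat_lit 4) (nat_lit 5) (nat_lit 5) (nat_lit 5) (nat_lit 4) (nat_lit 285) (nat_lit 246) (nat_lit 189)))) (XT.nd (nat_lit 78) (nat_lit 76) (nat_lit 0) (XT.lf (nat_lit 0) (nat_lit 21445437347) (nat_lit 76) (nat_lit 34026210355) (nat_lit 76) (nat_lit 3806557283) (nat_lit 4) (nat_lit 4) (nat_lit 5) (nat_lit 5) (nat_lit 5) (nat_lit 4) (nat_lit 286) (nat_lit 246) (nat_lit 188)) (XT.nd (nat_lit 78) (nat_lit 76) (nat_lit 0) (XT.lf (nat_lit 0) (nat_lit 33132421490) (nat_lit 76) (nat_lit 30312984505) (nat_lit 76) (nat_lit 67245304) (nat_lit 4) (nat_lit 4) (nat_lit 5) (nat_lit 5) (nat_lit 5) (nat_lit 4) (nat_lit 287) (nat_lit 246) (nat_lit 187)) (XT.lf (nat_lit 0) (nat_lit 3762644309) (nat_lit 152) (nat_lit 22443592862) (nat_lit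 76) (nat_lit 41872811997) (nat_lit 3) (nat_lit 5) (nat_lit 5) (nat_lit 5) (nat_lit 4) (nat_lit 4) (nat_lit 288) (nat_lit 246) (nat_lit 186))))))) (XT.nd (nat_lit 858) (nat_lit 76) (nat_lit 0) (XT.nd (nat_lit 390) (nat_lit 0) (nat_lit 0) (XT.nd (nat_lit 156) (nat_lit 76) (nat_lit 0) (XT.nd (nat_lit 78) (nat_lit 0) (nat_lit 0) (XT.lf (nat_lit 0) (nat_lit 7886115029) (nat_lit 152) (nat_lit 13889138416) (nat_lit 76) (nat_lit 51236140198) (nat_lit 3) (nat_lit 5) (nat_lit 5) (nat_lit 5) (nat_lit 4) (nat_lit 4) (nat_lit 289) (nat_lit 246) (nat_lit 185)) (XT.lf (nat_lit 0) (nat_lit 12330966120) (nat_lit 152) (nat_lit 4664556156) (nat_lit 76) (nat_lit 61343520534) (nat_lit 3) (nat_lit 5) (nat_lit 5) (nat_lit 5) (nat_lit 4) (nat_lit 4) (nat_lit 290) (nat_lit 246) (nat_lit 184))) (XT.nd (nat_lit 78) (nat_lit 0) (nat_lit 0) (XT.lf (nat_lit 0) (nat_lit 5563107262) (nat_lit 76) (nat_lit 11694223042)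 (nat_lit 152) (nat_lit 66825534194) (nat_lit 2) (nat_lit 5) (nat_lit 3) (nat_lit 5) (nat_lit 4) (nat_lit 4) (nat_lit 291) (nat_lit 246) (nat_lit 183)) (XT.nd (nat_lit 78) (nat_lit 0) (nat_lit 0) (XT.lf (nat_lit 0) (nat_lit 16861420155) (nat_lit 76) (nat_lit 5836326819) (nat_lit 152) (nat_lit 67578881502) (nat_lit 2) (nat_lit 5) (nat_lit 3) (nat_lit 5) (nat_lit 4) (nat_lit 4) (nat_lit 292) (nat_lit 246) (nat_lit 182)) (XT.lf (nat_lit 0) (nat_lit 28578038109) (nat_lit 152) (nat_lit 67926450013) (nat_lit 0) (nat_lit 461063813) (nat_lit 2) (nat_lit 5) (nat_lit 4) (nat_lit 4) (nat_lit 2) (nat_lit 4) (nat_lit 293) (nat_lit 246) (nat_lit 181))))) (XT.nd (nat_lit 234) (nat_lit 0) (nat_lit 0) (XT.nd (nat_lit 78) (nat_lit 0) (nat_lit 0) (XT.lf (nat_lit 0) (nat_lit 35073726718) (nat_lit 152) (nat_lit 62161633174) (nat_lit 0) (nat_lit 6942658898) (nat_lit 2) (nat_lit 5) (nat_lit 4) (nat_lit 4)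 (nat_lit 2) (nat_lit 4) (nat_lit 294) (nat_lit 246) (nat_lit 180)) (XT.nd (nat_lit 78) (nat_lit 0) (nat_lit 0) (XT.lf (nat_lit 0) (nat_lit 42082941972) (nat_lit 152) (nat_lit 55946232129) (nat_lit 0) (nat_lit 13938824592) (nat_lit 2) (nat_lit 5) (nat_lit 4) (nat_lit 4) (nat_lit 2) (nat_lit 4) (nat_lit 295) (nat_lit 246) (nat_lit 179)) (XT.lf (nat_lit 0) (nat_lit 49647219960) (nat_lit 152) (nat_lit 49243414869) (nat_lit 0) (nat_lit 21491019655) (nat_lit 2) (nat_lit 5) (nat_lit 4) (nat_lit 4) (nat_lit 2) (nat_lit 4) (nat_lit 296) (nat_lit 246) (nat_lit 178)))) (XT.nd (nat_lit 78) (nat_lit 0) (nat_lit 0) (XT.lf (nat_lit 0) (nat_lit 57811386033) (nat_lit 152) (nat_lit 42013460998) (nat_lit 0) (nat_lit 29643997834) (nat_lit 2) (nat_lit 5) (nat_lit 4) (nat_lit 4) (nat_lit 2) (nat_lit 4) (nat_lit 297) (nat_lit 246) (nat_lit 177)) (XT.nd (nat_lit 78) (nat_lit 0) (nat_lit 0) (XT.lf (nat_lit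 0) (nat_lit 66623820436) (nat_lit 152) (nat_lit 34213526344) (nat_lit 0) (nat_lit 38446073076) (nat_lit 2) (nat_lit 5) (nat_lit 4) (nat_lit 4) (nat_lit 2) (nat_lit 4) (nat_lit 298) (nat_lit 246) (nat_lit 176)) (XT.lf (nat_lit 0) (nat_lit 76136745001) (nat_lit 152) (nat_lit 25797389072) (nat_lit 0) (nat_lit 47949405825) (nat_lit 2) (nat_lit 5) (nat_lit 4) (nat_lit 4) (nat_lit 2) (nat_lit 4) (nat_lit 299) (nat_lit 246) (nat_lit 175)))))) (XT.nd (nat_lit 390) (nat_lit 0) (nat_lit 0) (XT.nd (nat_lit 156) (nat_lit 76) (nat_lit 0) (XT.nd (nat_lit 78) (nat_lit 0) (nat_lit 0) (XT.lf (nat_lit 0) (nat_lit 86406532615) (nat_lit 152) (nat_lit 16715175775) (nat_lit 0) (nat_lit 58210312128) (nat_lit 2) (nat_lit 5) (nat_lit 4) (nat_lit 4) (nat_lit 2) (nat_lit 4) (nat_lit 300) (nat_lit 246) (nat_lit 174)) (XT.lf (nat_lit 0) (nat_lit 97494041278) (nat_lit 152) (nat_lit 6913065931) (nat_lit 0) (nat_lit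 69289597355) (nat_lit 2) (nat_lit 5) (nat_lit 4) (nat_lit 4) (nat_lit 2) (nat_lit 4) (nat_lit 301) (nat_lit 246) (nat_lit 173))) (XT.nd (nat_lit 78) (nat_lit 0) (nat_lit 0) (XT.lf (nat_lit 0) (nat_lit 3860126181) (nat_lit 76) (nat_lit 105697684691) (nat_lit 76) (nat_lit 77485626476) (nat_lit 1) (nat_lit 4) (nat_lit 2) (nat_lit 5) (nat_lit 2) (nat_lit 4) (nat_lit 302) (nat_lit 246) (nat_lit 172)) (XT.nd (nat_lit 78) (nat_lit 0) (nat_lit 0) (XT.lf (nat_lit 0) (nat_lit 15882296785) (nat_lit 76) (nat_lit 106889944718) (nat_lit 76) (nat_lit 78670836232) (nat_lit 1) (nat_lit 4) (nat_lit 2) (nat_lit 5) (nat_lit 2) (nat_lit 4) (nat_lit 303) (nat_lit 246) (nat_lit 171)) (XT.lf (nat_lit 0) (nat_lit 28860658569) (nat_lit 76) (nat_lit 108179968006) (nat_lit 76) (nat_lit 79954331492) (nat_lit 1) (nat_lit 4) (nat_lit 2) (nat_lit 5) (nat_lit 2) (nat_lit 4) (nat_lit 304) (nat_lit 246) (nat_lit 170)))))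 (XT.nd (nat_lit 234) (nat_lit 0) (nat_lit 0) (XT.nd (nat_lit 78) (nat_lit 0) (nat_lit 0) (XT.lf (nat_lit 0) (nat_lit 42872120346) (nat_lit 76) (nat_lit 109575399140) (nat_lit 76) (nat_lit 81343718154) (nat_lit 1) (nat_lit 4) (nat_lit 2) (nat_lit 5) (nat_lit 2) (nat_lit 4) (nat_lit 305) (nat_lit 246) (nat_lit 169)) (XT.nd (nat_lit 78) (nat_lit 0) (nat_lit 0) (XT.lf (nat_lit 0) (nat_lit 57999712999) (nat_lit 76) (nat_lit 111084507340) (nat_lit 76) (nat_lit 82847229622) (nat_lit 1) (nat_lit 4) (nat_lit 2) (nat_lit 5) (nat_lit 2) (nat_lit 4) (nat_lit 306) (nat_lit 246) (nat_lit 168)) (XT.lf (nat_lit 0) (nat_lit 74333081523) (nat_lit 76) (nat_lit 112716235469) (nat_lit 76) (nat_lit 84473775592) (nat_lit 1) (nat_lit 4) (nat_lit 2) (nat_lit 5) (nat_lit 2) (nat_lit 4) (nat_lit 307) (nat_lit 246) (nat_lit 167)))) (XT.nd (nat_lit 78) (nat_lit 0) (nat_lit 0) (XT.lf (nat_lit 0) (nat_lit 91969016248)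 (nat_lit 76) (nat_lit 114480253029) (nat_lit 76) (nat_lit 86232994856) (nat_lit 1) (nat_lit 4) (nat_lit 2) (nat_lit 5) (nat_lit 2) (nat_lit 4) (nat_lit 308) (nat_lit 246) (nat_lit 166)) (XT.nd (nat_lit 78) (nat_lit 0) (nat_lit 0) (XT.lf (nat_lit 0) (nat_lit 111012026418) (nat_lit 76) (nat_lit 116387013456) (nat_lit 76) (nat_lit 88135312416) (nat_lit 1) (nat_lit 4) (nat_lit 2) (nat_lit 5) (nat_lit 2) (nat_lit 4) (nat_lit 309) (nat_lit 246) (nat_lit 165)) (XT.lf (nat_lit 0) (nat_lit 131574959501) (nat_lit 76) (nat_lit 118447816071) (nat_lit 76) (nat_lit 90192001266) (nat_lit 1) (nat_lit 4) (nat_lit 2) (nat_lit 5) (nat_lit 2) (nat_lit 4) (nat_lit 310) (nat_lit 246) (nat_lit 164))))))))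
noncomputable def xc63 : XT := (XT.nd (nat_lit 32682) (nat_lit 0) (nat_lit 684) (XT.nd (nat_lit 858) (nat_lit 0) (nat_lit 0) (XT.nd (nat_lit 390) (nat_lit 0) (nat_lit 0) (XT.nd (nat_lit 156) (nat_lit 0) (nat_lit 0) (XT.nd (nat_lit 78) (nat_lit 0) (nat_lit 0) (XT.lf (nat_lit 0) (nat_lit 153779669915) (nat_lit 76) (nat_lit 120674873038) (nat_lit 76) (nat_lit 92415249191) (nat_lit 1) (nat_lit 4) (nat_lit 2) (nat_lit 5) (nat_lit 2) (nat_lit 4) (nat_lit 311) (nat_lit 246) (nat_lit 163)) (XT.lf (nat_lit 0) (nat_lit 177757741128) (nat_lit 76) (nat_lit 123081381731) (nat_lit 76) (nat_lit 94818230994) (nat_lit 1) (nat_lit 4) (nat_lit 2) (nat_lit 5) (nat_lit 2) (nat_lit 4) (nat_lit 312) (nat_lit 246) (nat_lit 162))) (XT.nd (nat_lit 78) (nat_lit 0) (nat_lit 0) (XT.lf (nat_lit 0) (nat_lit 203651265416) (nat_lit 76) (nat_lit 125681602944) (nat_lit 76) (nat_lit 97415186566) (nat_lit 1) (nat_lit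 4) (nat_lit 2) (nat_lit 5) (nat_lit 2) (nat_lit 4) (nat_lit 313) (nat_lit 246) (nat_lit 161)) (XT.nd (nat_lit 78) (nat_lit 0) (nat_lit 0) (XT.lf (nat_lit 0) (nat_lit 231613685884) (nat_lit 76) (nat_lit 128490945393) (nat_lit 76) (nat_lit 100221505275) (nat_lit 1) (nat_lit 4) (nat_lit 2) (nat_lit 5) (nat_lit 2) (nat_lit 4) (nat_lit 314) (nat_lit 246) (nat_lit 160)) (XT.lf (nat_lit 0) (nat_lit 261810705765) (nat_lit 76) (nat_lit 131526057035) (nat_lit 76) (nat_lit 103253817158) (nat_lit 1) (nat_lit 4) (nat_lit 2) (nat_lit 5) (nat_lit 2) (nat_lit 4) (nat_lit 315) (nat_lit 246) (nat_lit 159))))) (XT.nd (nat_lit 234) (nat_lit 0) (nat_lit 0) (XT.nd (nat_lit 78) (nat_lit 0) (nat_lit 0) (XT.lf (nat_lit 0) (nat_lit 294421270363) (nat_lit 76) (nat_lit 134804923716) (nat_lit 76) (nat_lit 106530091469) (nat_lit 1) (nat_lit 4) (nat_lit 2) (nat_lit 5) (nat_lit 2) (nat_lit 4) (nat_lit 316) (nat_lit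 246) (nat_lit 158)) (XT.nd (nat_lit 78) (nat_lit 0) (nat_lit 0) (XT.lf (nat_lit 0) (nat_lit 329638627466) (nat_lit 76) (nat_lit 138346975757) (nat_lit 76) (nat_lit 110069743167) (nat_lit 1) (nat_lit 4) (nat_lit 2) (nat_lit 5) (nat_lit 2) (nat_lit 4) (nat_lit 317) (nat_lit 246) (nat_lit 157)) (XT.lf (nat_lit 0) (nat_lit 367671472526) (nat_lit 76) (nat_lit 142173203097) (nat_lit 76) (nat_lit 113893747967) (nat_lit 1) (nat_lit 4) (nat_lit 2) (nat_lit 5) (nat_lit 2) (nat_lit 4) (nat_lit 318) (nat_lit 246) (nat_lit 156)))) (XT.nd (nat_lit 78) (nat_lit 0) (nat_lit 0) (XT.lf (nat_lit 0) (nat_lit 408745185364) (nat_lit 76) (nat_lit 146306279674) (nat_lit 76) (nat_lit 118024766638) (nat_lit 1) (nat_lit 4) (nat_lit 2) (nat_lit 5) (nat_lit 2) (nat_lit 4) (nat_lit 319) (nat_lit 246) (nat_lit 155)) (XT.nd (nat_lit 78) (nat_lit 0) (nat_lit 0) (XT.lf (nat_lit 0) (nat_lit 453103165760) (nat_lit 76)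 (nat_lit 150770697795) (nat_lit 76) (nat_lit 122487279289) (nat_lit 1) (nat_lit 4) (nat_lit 2) (nat_lit 5) (nat_lit 2) (nat_lit 4) (nat_lit 320) (nat_lit 246) (nat_lit 154)) (XT.lf (nat_lit 0) (nat_lit 501008275820) (nat_lit 76) (nat_lit 155592913271) (nat_lit 76) (nat_lit 127307730442) (nat_lit 1) (nat_lit 4) (nat_lit 2) (nat_lit 5) (nat_lit 2) (nat_lit 4) (nat_lit 321) (nat_lit 246) (nat_lit 153)))))) (XT.nd (nat_lit 390) (nat_lit 0) (nat_lit 0) (XT.nd (nat_lit 156) (nat_lit 0) (nat_lit 0) (XT.nd (nat_lit 78) (nat_lit 0) (nat_lit 0) (XT.lf (nat_lit 0) (nat_lit 552744397678) (nat_lit 76) (nat_lit 160801502193) (nat_lit 76) (nat_lit 132514685731) (nat_lit 1) (nat_lit 4) (nat_lit 2) (nat_lit 5) (nat_lit 2) (nat_lit 4) (nat_lit 322) (nat_lit 246) (nat_lit 152)) (XT.lf (nat_lit 0) (nat_lit 608618115760) (nat_lit 76) (nat_lit 166427330274) (nat_lit 76) (nat_lit 138139001189) (nat_lit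 1) (nat_lit 4) (nat_lit 2) (nat_lit 5) (nat_lit 2) (nat_lit 4) (nat_lit 323) (nat_lit 246) (nat_lit 151))) (XT.nd (nat_lit 78) (nat_lit 0) (nat_lit 0) (XT.lf (nat_lit 0) (nat_lit 668960533580) (nat_lit 76) (nat_lit 172503735754) (nat_lit 76) (nat_lit 144214006092) (nat_lit 1) (nat_lit 4) (nat_lit 2) (nat_lit 5) (nat_lit 2) (nat_lit 4) (nat_lit 324) (nat_lit 246) (nat_lit 150)) (XT.nd (nat_lit 78) (nat_lit 0) (nat_lit 0) (XT.lf (nat_lit 0) (nat_lit 734129235837) (nat_lit 76) (nat_lit 179066726961) (nat_lit 76) (nat_lit 150775700469) (nat_lit 1) (nat_lit 4) (nat_lit 2) (nat_lit 5) (nat_lit 2) (nat_lit 4) (nat_lit 325) (nat_lit 246) (nat_lit 149)) (XT.lf (nat_lit 0) (nat_lit 804510407432) (nat_lit 76) (nat_lit 186155195696) (nat_lit 76) (nat_lit 157862968435) (nat_lit 1) (nat_lit 4) (nat_lit 2) (nat_lit 5) (nat_lit 2) (nat_lit 4) (nat_lit 326) (nat_lit 246) (nat_lit 148))))) (XT.nd (nat_lit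 234) (nat_lit 0) (nat_lit 0) (XT.nd (nat_lit 78) (nat_lit 0) (nat_lit 0) (XT.lf (nat_lit 0) (nat_lit 880521121976) (nat_lit 76) (nat_lit 193811147700) (nat_lit 76) (nat_lit 165517808616) (nat_lit 1) (nat_lit 4) (nat_lit 2) (nat_lit 5) (nat_lit 2) (nat_lit 4) (nat_lit 327) (nat_lit 246) (nat_lit 147)) (XT.nd (nat_lit 78) (nat_lit 0) (nat_lit 0) (XT.lf (nat_lit 0) (nat_lit 962611813332) (nat_lit 76) (nat_lit 202079951576) (nat_lit 76) (nat_lit 173785583026) (nat_lit 1) (nat_lit 4) (nat_lit 2) (nat_lit 5) (nat_lit 2) (nat_lit 4) (nat_lit 328) (nat_lit 246) (nat_lit 146)) (XT.lf (nat_lit 0) (nat_lit 1051268944856) (nat_lit 76) (nat_lit 211010607644) (nat_lit 76) (nat_lit 182715285885) (nat_lit 1) (nat_lit 4) (nat_lit 2) (nat_lit 5) (nat_lit 2) (nat_lit 4) (nat_lit 329) (nat_lit 246) (nat_lit 145)))) (XT.nd (nat_lit 31044) (nat_lit 0) (nat_lit 2660) (XT.lf (nat_lit 0) (nat_lit 1147017892143)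 (nat_lit 76) (nat_lit 220656038310) (nat_lit 76) (nat_lit 192359833951) (nat_lit 1) (nat_lit 4) (nat_lit 2) (nat_lit 5) (nat_lit 2) (nat_lit 4) (nat_lit 330) (nat_lit 246) (nat_lit 144)) (XT.nd (nat_lit 78) (nat_lit 0) (nat_lit 0) (XT.lf (nat_lit 0) (nat_lit 2634577325) (nat_lit 380) (nat_lit 663193756) (nat_lit 380) (nat_lit 663193756) (nat_lit 36) (nat_lit 3) (nat_lit 41) (nat_lit 3) (nat_lit 41) (nat_lit 5) (nat_lit 247) (nat_lit 247) (nat_lit 226)) (XT.lf (nat_lit 76) (nat_lit 1908997230) (nat_lit 0) (nat_lit 4629604334) (nat_lit 380) (nat_lit 1603593331) (nat_lit 37) (nat_lit 5) (nat_lit 36) (nat_lit 3) (nat_lit 41) (nat_lit 5) (nat_lit 248) (nat_lit 247) (nat_lit 225))))))) (XT.nd (nat_lit 858) (nat_lit 912) (nat_lit 0) (XT.nd (nat_lit 390) (nat_lit 760) (nat_lit 0) (XT.nd (nat_lit 156) (nat_lit 0) (nat_lit 0) (XT.nd (nat_lit 78) (nat_lit 304) (nat_lit 0) (XT.lf (nat_lit 76)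 (nat_lit 5420420945) (nat_lit 0) (nat_lit 2422723124) (nat_lit 380) (nat_lit 543446402) (nat_lit 37) (nat_lit 5) (nat_lit 36) (nat_lit 3) (nat_lit 41) (nat_lit 5) (nat_lit 249) (nat_lit 247) (nat_lit 224)) (XT.lf (nat_lit 0) (nat_lit 485808778) (nat_lit 380) (nat_lit 8144679342) (nat_lit 456) (nat_lit 26763560) (nat_lit 32) (nat_lit 5) (nat_lit 37) (nat_lit 5) (nat_lit 38) (nat_lit 5) (nat_lit 250) (nat_lit 247) (nat_lit 223))) (XT.nd (nat_lit 78) (nat_lit 0) (nat_lit 0) (XT.lf (nat_lit 0) (nat_lit 1622260708) (nat_lit 380) (nat_lit 4651717621) (nat_lit 456) (nat_lit 2671067398) (nat_lit 32) (nat_lit 5) (nat_lit 37) (nat_lit 5) (nat_lit 38) (nat_lit 5) (nat_lit 251) (nat_lit 247) (nat_lit 222)) (XT.nd (nat_lit 78) (nat_lit 0) (nat_lit 0) (XT.lf (nat_lit 0) (nat_lit 2764519395) (nat_lit 380) (nat_lit 942089555) (nat_lit 456) (nat_lit 5556939496) (nat_lit 32) (nat_lit 5) (nat_lit 37)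 (nat_lit 5) (nat_lit 38) (nat_lit 5) (nat_lit 252) (nat_lit 247) (nat_lit 221)) (XT.lf (nat_lit 76) (nat_lit 3164488363) (nat_lit 0) (nat_lit 830971435) (nat_lit 456) (nat_lit 5613098976) (nat_lit 33) (nat_lit 5) (nat_lit 32) (nat_lit 5) (nat_lit 38) (nat_lit 5) (nat_lit 253) (nat_lit 247) (nat_lit 220))))) (XT.nd (nat_lit 234) (nat_lit 456) (nat_lit 0) (XT.nd (nat_lit 78) (nat_lit 380) (nat_lit 0) (XT.lf (nat_lit 0) (nat_lit 5332105085) (nat_lit 380) (nat_lit 2445087811) (nat_lit 76) (nat_lit 2204150027) (nat_lit 33) (nat_lit 5) (nat_lit 38) (nat_lit 5) (nat_lit 34) (nat_lit 5) (nat_lit 254) (nat_lit 247) (nat_lit 219)) (XT.nd (nat_lit 78) (nat_lit 0) (nat_lit 0) (XT.lf (nat_lit 0) (nat_lit 1887606864) (nat_lit 380) (nat_lit 4886625428) (nat_lit 456) (nat_lit 3610529199) (nat_lit 28) (nat_lit 5) (nat_lit 33) (nat_lit 5) (nat_lit 34) (nat_lit 5) (nat_lit 255) (nat_lit 247) (nat_lit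 218)) (XT.lf (nat_lit 0) (nat_lit 6648417728) (nat_lit 380) (nat_lit 1685419362) (nat_lit 456) (nat_lit 2487092035) (nat_lit 28) (nat_lit 5) (nat_lit 33) (nat_lit 5) (nat_lit 34) (nat_lit 5) (nat_lit 256) (nat_lit 247) (nat_lit 217)))) (XT.nd (nat_lit 78) (nat_lit 76) (nat_lit 0) (XT.lf (nat_lit 0) (nat_lit 417533107) (nat_lit 380) (nat_lit 9593543187) (nat_lit 456) (nat_lit 1282081055) (nat_lit 23) (nat_lit 5) (nat_lit 28) (nat_lit 5) (nat_lit 29) (nat_lit 5) (nat_lit 257) (nat_lit 247) (nat_lit 216)) (XT.nd (nat_lit 78) (nat_lit 0) (nat_lit 0) (XT.lf (nat_lit 0) (nat_lit 120449590) (nat_lit 456) (nat_lit 6290124552) (nat_lit 76) (nat_lit 5384896999) (nat_lit 22) (nat_lit 5) (nat_lit 28) (nat_lit 5) (nat_lit 23) (nat_lit 5) (nat_lit 258) (nat_lit 247) (nat_lit 215)) (XT.lf (nat_lit 0) (nat_lit 1511529595) (nat_lit 456) (nat_lit 1427528078) (nat_lit 76) (nat_lit 9401072781) (nat_lit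 22) (nat_lit 5) (nat_lit 28) (nat_lit 5) (nat_lit 23) (nat_lit 5) (nat_lit 259) (nat_lit 247) (nat_lit 214)))))) (XT.nd (nat_lit 390) (nat_lit 532) (nat_lit 0) (XT.nd (nat_lit 156) (nat_lit 152) (nat_lit 0) (XT.nd (nat_lit 78) (nat_lit 0) (nat_lit 0) (XT.lf (nat_lit 0) (nat_lit 3080945586) (nat_lit 304) (nat_lit 8976678108) (nat_lit 76) (nat_lit 865813265) (nat_lit 19) (nat_lit 5) (nat_lit 23) (nat_lit 5) (nat_lit 20) (nat_lit 5) (nat_lit 260) (nat_lit 247) (nat_lit 213)) (XT.lf (nat_lit 0) (nat_lit 4844371258) (nat_lit 304) (nat_lit 3850563348) (nat_lit 76) (nat_lit 4853402808) (nat_lit 19) (nat_lit 5) (nat_lit 23) (nat_lit 5) (nat_lit 20) (nat_lit 5) (nat_lit 261) (nat_lit 247) (nat_lit 212))) (XT.nd (nat_lit 78) (nat_lit 0) (nat_lit 0) (XT.lf (nat_lit 0) (nat_lit 1720699913) (nat_lit 152) (nat_lit 5025176441) (nat_lit 228) (nat_lit 7477968991) (nat_lit 17) (nat_lit 5) (nat_lit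 19) (nat_lit 5) (nat_lit 20) (nat_lit 5) (nat_lit 262) (nat_lit 247) (nat_lit 211)) (XT.nd (nat_lit 78) (nat_lit 0) (nat_lit 0) (XT.lf (nat_lit 0) (nat_lit 7906923701) (nat_lit 152) (nat_lit 955573206) (nat_lit 228) (nat_lit 6086205429) (nat_lit 17) (nat_lit 5) (nat_lit 19) (nat_lit 5) (nat_lit 20) (nat_lit 5) (nat_lit 263) (nat_lit 247) (nat_lit 210)) (XT.lf (nat_lit 0) (nat_lit 11191849993) (nat_lit 228) (nat_lit 1275555927) (nat_lit 76) (nat_lit 3260991982) (nat_lit 17) (nat_lit 5) (nat_lit 20) (nat_lit 5) (nat_lit 18) (nat_lit 5) (nat_lit 264) (nat_lit 247) (nat_lit 209))))) (XT.nd (nat_lit 234) (nat_lit 152) (nat_lit 0) (XT.nd (nat_lit 78) (nat_lit 228) (nat_lit 0) (XT.lf (nat_lit 0) (nat_lit 5138517087) (nat_lit 152) (nat_lit 8681028807) (nat_lit 228) (nat_lit 2742262032) (nat_lit 15) (nat_lit 5) (nat_lit 17) (nat_lit 5) (nat_lit 18) (nat_lit 5) (nat_lit 265) (nat_lit 247) (nat_lit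 208)) (XT.nd (nat_lit 78) (nat_lit 228) (nat_lit 0) (XT.lf (nat_lit 0) (nat_lit 12093737453) (nat_lit 152) (nat_lit 4563815094) (nat_lit 228) (nat_lit 804606874) (nat_lit 15) (nat_lit 5) (nat_lit 17) (nat_lit 5) (nat_lit 18) (nat_lit 5) (nat_lit 266) (nat_lit 247) (nat_lit 207)) (XT.lf (nat_lit 0) (nat_lit 1154393759) (nat_lit 152) (nat_lit 63712107) (nat_lit 228) (nat_lit 17214633467) (nat_lit 12) (nat_lit 5) (nat_lit 14) (nat_lit 5) (nat_lit 15) (nat_lit 5) (nat_lit 267) (nat_lit 247) (nat_lit 206)))) (XT.nd (nat_lit 78) (nat_lit 152) (nat_lit 0) (XT.lf (nat_lit 0) (nat_lit 3593035293) (nat_lit 228) (nat_lit 11149582991) (nat_lit 76) (nat_lit 4718185212) (nat_lit 12) (nat_lit 5) (nat_lit 15) (nat_lit 5) (nat_lit 13) (nat_lit 5) (nat_lit 268) (nat_lit 247) (nat_lit 205)) (XT.nd (nat_lit 78) (nat_lit 152) (nat_lit 0) (XT.lf (nat_lit 0) (nat_lit 6129911274) (nat_lit 228) (nat_lit 4573504511)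 (nat_lit 76) (nat_lit 9870143903) (nat_lit 12) (nat_lit 5) (nat_lit 15) (nat_lit 5) (nat_lit 13) (nat_lit 5) (nat_lit 269) (nat_lit 247) (nat_lit 204)) (XT.lf (nat_lit 0) (nat_lit 2621531100) (nat_lit 152) (nat_lit 6283751656) (nat_lit 228) (nat_lit 12867398012) (nat_lit 10) (nat_lit 5) (nat_lit 12) (nat_lit 5) (nat_lit 13) (nat_lit 5) (nat_lit 270) (nat_lit 247) (nat_lit 203))))))))
noncomputable def xc64 : XT := (XT.nd (nat_lit 1638) (nat_lit 152) (nat_lit 0) (XT.nd (nat_lit 780) (nat_lit 228) (nat_lit 0) (XT.nd (nat_lit 390) (nat_lit 228) (nat_lit 0) (XT.nd (nat_lit 156) (nat_lit 76) (nat_lit 0) (XT.nd (nat_lit 78) (nat_lit 0) (nat_lit 0) (XT.lf (nat_lit 0) (nat_lit 10614968895) (nat_lit 152) (nat_lit 1386400475) (nat_lit 228) (nat_lit 11058641435) (nat_lit 10) (nat_lit 5) (nat_lit 12) (nat_lit 5) (nat_lit 13) (nat_lit 5) (nat_lit 271) (nat_lit 247) (nat_lit 202)) (XT.lf (nat_lit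 0) (nat_lit 15414350766) (nat_lit 228) (nat_lit 5332713861) (nat_lit 76) (nat_lit 3697887194) (nat_lit 10) (nat_lit 5) (nat_lit 13) (nat_lit 5) (nat_lit 11) (nat_lit 4) (nat_lit 272) (nat_lit 247) (nat_lit 201))) (XT.nd (nat_lit 78) (nat_lit 0) (nat_lit 0) (XT.lf (nat_lit 0) (nat_lit 2398881262) (nat_lit 76) (nat_lit 16772366012) (nat_lit 152) (nat_lit 6763919977) (nat_lit 9) (nat_lit 5) (nat_lit 10) (nat_lit 5) (nat_lit 11) (nat_lit 4) (nat_lit 273) (nat_lit 247) (nat_lit 200)) (XT.nd (nat_lit 78) (nat_lit 0) (nat_lit 0) (XT.lf (nat_lit 0) (nat_lit 11019423065) (nat_lit 76) (nat_lit 12333152005) (nat_lit 152) (nat_lit 4182252688) (nat_lit 9) (nat_lit 5) (nat_lit 10) (nat_lit 5) (nat_lit 11) (nat_lit 4) (nat_lit 274) (nat_lit 247) (nat_lit 199)) (XT.lf (nat_lit 0) (nat_lit 20299184977) (nat_lit 76) (nat_lit 7548922001) (nat_lit 152) (nat_lit 1416106266) (nat_lit 9) (nat_lit 5) (nat_lit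 10) (nat_lit 5) (nat_lit 11) (nat_lit 4) (nat_lit 275) (nat_lit 247) (nat_lit 198))))) (XT.nd (nat_lit 156) (nat_lit 0) (nat_lit 0) (XT.nd (nat_lit 78) (nat_lit 152) (nat_lit 0) (XT.lf (nat_lit 0) (nat_lit 1473328405) (nat_lit 152) (nat_lit 877713193) (nat_lit 76) (nat_lit 28779546365) (nat_lit 8) (nat_lit 5) (nat_lit 10) (nat_lit 5) (nat_lit 9) (nat_lit 5) (nat_lit 276) (nat_lit 247) (nat_lit 197)) (XT.lf (nat_lit 0) (nat_lit 4781058503) (nat_lit 228) (nat_lit 25010389321) (nat_lit 76) (nat_lit 3330892088) (nat_lit 6) (nat_lit 5) (nat_lit 9) (nat_lit 5) (nat_lit 7) (nat_lit 4) (nat_lit 277) (nat_lit 247) (nat_lit 196))) (XT.nd (nat_lit 78) (nat_lit 0) (nat_lit 0) (XT.lf (nat_lit 0) (nat_lit 8421606350) (nat_lit 228) (nat_lit 17490196093) (nat_lit 76) (nat_lit 9356267689) (nat_lit 6) (nat_lit 5) (nat_lit 9) (nat_lit 5) (nat_lit 7) (nat_lit 4) (nat_lit 278) (nat_lit 247) (nat_lit 195))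 (XT.nd (nat_lit 78) (nat_lit 0) (nat_lit 0) (XT.lf (nat_lit 0) (nat_lit 12337205211) (nat_lit 228) (nat_lit 9394034067) (nat_lit 76) (nat_lit 15855602010) (nat_lit 6) (nat_lit 5) (nat_lit 9) (nat_lit 5) (nat_lit 7) (nat_lit 4) (nat_lit 279) (nat_lit 247) (nat_lit 194)) (XT.lf (nat_lit 0) (nat_lit 16551058635) (nat_lit 228) (nat_lit 673925987) (nat_lit 76) (nat_lit 22867409624) (nat_lit 6) (nat_lit 5) (nat_lit 9) (nat_lit 5) (nat_lit 7) (nat_lit 4) (nat_lit 280) (nat_lit 247) (nat_lit 193)))))) (XT.nd (nat_lit 390) (nat_lit 76) (nat_lit 0) (XT.nd (nat_lit 156) (nat_lit 76) (nat_lit 0) (XT.nd (nat_lit 78) (nat_lit 0) (nat_lit 0) (XT.lf (nat_lit 0) (nat_lit 9181077544) (nat_lit 76) (nat_lit 12127865197) (nat_lit 152) (nat_lit 21472969577) (nat_lit 5) (nat_lit 5) (nat_lit 6) (nat_lit 5) (nat_lit 7) (nat_lit 4) (nat_lit 281) (nat_lit 247) (nat_lit 192)) (XT.lf (nat_lit 0) (nat_lit 19841376903)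 (nat_lit 76) (nat_lit 6611137204) (nat_lit 152) (nat_lit 19233742343) (nat_lit 5) (nat_lit 5) (nat_lit 6) (nat_lit 5) (nat_lit 7) (nat_lit 4) (nat_lit 282) (nat_lit 247) (nat_lit 191))) (XT.nd (nat_lit 78) (nat_lit 76) (nat_lit 0) (XT.lf (nat_lit 0) (nat_lit 31334656486) (nat_lit 76) (nat_lit 660535253) (nat_lit 152) (nat_lit 16828810745) (nat_lit 5) (nat_lit 5) (nat_lit 6) (nat_lit 5) (nat_lit 7) (nat_lit 4) (nat_lit 283) (nat_lit 247) (nat_lit 190)) (XT.nd (nat_lit 78) (nat_lit 76) (nat_lit 0) (XT.lf (nat_lit 0) (nat_lit 38108330117) (nat_lit 152) (nat_lit 8623228838) (nat_lit 0) (nat_lit 5471104799) (nat_lit 5) (nat_lit 5) (nat_lit 7) (nat_lit 4) (nat_lit 5) (nat_lit 4) (nat_lit 284) (nat_lit 247) (nat_lit 189)) (XT.lf (nat_lit 0) (nat_lit 965559278) (nat_lit 76) (nat_lit 43774571486) (nat_lit 76) (nat_lit 11109173148) (nat_lit 4) (nat_lit 4) (nat_lit 5) (nat_lit 5) (nat_lit 5)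 (nat_lit 4) (nat_lit 285) (nat_lit 247) (nat_lit 188))))) (XT.nd (nat_lit 234) (nat_lit 0) (nat_lit 0) (XT.nd (nat_lit 78) (nat_lit 76) (nat_lit 0) (XT.lf (nat_lit 0) (nat_lit 11794547957) (nat_lit 76) (nat_lit 40333315775) (nat_lit 76) (nat_lit 7641831307) (nat_lit 4) (nat_lit 4) (nat_lit 5) (nat_lit 5) (nat_lit 5) (nat_lit 4) (nat_lit 286) (nat_lit 247) (nat_lit 187)) (XT.nd (nat_lit 78) (nat_lit 76) (nat_lit 0) (XT.lf (nat_lit 0) (nat_lit 23473825036) (nat_lit 76) (nat_lit 36623173554) (nat_lit 76) (nat_lit 3907535262) (nat_lit 4) (nat_lit 4) (nat_lit 5) (nat_lit 5) (nat_lit 5) (nat_lit 4) (nat_lit 287) (nat_lit 247) (nat_lit 186)) (XT.lf (nat_lit 0) (nat_lit 110049154) (nat_lit 152) (nat_lit 32509100700) (nat_lit 76) (nat_lit 35959542950) (nat_lit 3) (nat_lit 5) (nat_lit 5) (nat_lit 5) (nat_lit 4) (nat_lit 4) (nat_lit 288) (nat_lit 247) (nat_lit 185)))) (XT.nd (nat_lit 78) (nat_lit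 0) (nat_lit 0) (XT.lf (nat_lit 0) (nat_lit 4229434641) (nat_lit 152) (nat_lit 23961486899) (nat_lit 76) (nat_lit 45320460516) (nat_lit 3) (nat_lit 5) (nat_lit 5) (nat_lit 5) (nat_lit 4) (nat_lit 4) (nat_lit 289) (nat_lit 247) (nat_lit 184)) (XT.nd (nat_lit 78) (nat_lit 0) (nat_lit 0) (XT.lf (nat_lit 0) (nat_lit 8670503108) (nat_lit 152) (nat_lit 14743238571) (nat_lit 76) (nat_lit 55425608783) (nat_lit 3) (nat_lit 5) (nat_lit 5) (nat_lit 5) (nat_lit 4) (nat_lit 4) (nat_lit 290) (nat_lit 247) (nat_lit 183)) (XT.lf (nat_lit 0) (nat_lit 13459572000) (nat_lit 152) (nat_lit 4799729058) (nat_lit 76) (nat_lit 66334870112) (nat_lit 3) (nat_lit 5) (nat_lit 5) (nat_lit 5) (nat_lit 4) (nat_lit 4) (nat_lit 291) (nat_lit 247) (nat_lit 182))))))) (XT.nd (nat_lit 858) (nat_lit 76) (nat_lit 0) (XT.nd (nat_lit 390) (nat_lit 0) (nat_lit 0) (XT.nd (nat_lit 156) (nat_lit 0) (nat_lit 0) (XT.nd (nat_lit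 78) (nat_lit 0) (nat_lit 0) (XT.lf (nat_lit 0) (nat_lit 6240122331) (nat_lit 76) (nat_lit 12534973744) (nat_lit 152) (nat_lit 72022844737) (nat_lit 2) (nat_lit 5) (nat_lit 3) (nat_lit 5) (nat_lit 4) (nat_lit 4) (nat_lit 292) (nat_lit 247) (nat_lit 181)) (XT.lf (nat_lit 0) (nat_lit 18425117552) (nat_lit 76) (nat_lit 6215467093) (nat_lit 152) (nat_lit 72847477029) (nat_lit 2) (nat_lit 5) (nat_lit 3) (nat_lit 5) (nat_lit 4) (nat_lit 4) (nat_lit 293) (nat_lit 247) (nat_lit 180))) (XT.nd (nat_lit 78) (nat_lit 0) (nat_lit 0) (XT.lf (nat_lit 0) (nat_lit 30983844754) (nat_lit 152) (nat_lit 73153741853) (nat_lit 0) (nat_lit 575148425) (nat_lit 2) (nat_lit 5) (nat_lit 4) (nat_lit 4) (nat_lit 2) (nat_lit 4) (nat_lit 294) (nat_lit 247) (nat_lit 179)) (XT.nd (nat_lit 78) (nat_lit 0) (nat_lit 0) (XT.lf (nat_lit 0) (nat_lit 37990331890) (nat_lit 152) (nat_lit 66943059976) (nat_lit 0) (nat_lit 7569552635)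 (nat_lit 2) (nat_lit 5) (nat_lit 4) (nat_lit 4) (nat_lit 2) (nat_lit 4) (nat_lit 295) (nat_lit 247) (nat_lit 178)) (XT.lf (nat_lit 0) (nat_lit 45552083842) (nat_lit 152) (nat_lit 60244612317) (nat_lit 0) (nat_lit 15120116694) (nat_lit 2) (nat_lit 5) (nat_lit 4) (nat_lit 4) (nat_lit 2) (nat_lit 4) (nat_lit 296) (nat_lit 247) (nat_lit 177))))) (XT.nd (nat_lit 234) (nat_lit 0) (nat_lit 0) (XT.nd (nat_lit 78) (nat_lit 0) (nat_lit 0) (XT.lf (nat_lit 0) (nat_lit 53713910994) (nat_lit 152) (nat_lit 53018704372) (nat_lit 0) (nat_lit 23271584685) (nat_lit 2) (nat_lit 5) (nat_lit 4) (nat_lit 4) (nat_lit 2) (nat_lit 4) (nat_lit 297) (nat_lit 247) (nat_lit 176)) (XT.nd (nat_lit 78) (nat_lit 0) (nat_lit 0) (XT.lf (nat_lit 0) (nat_lit 62524179729) (nat_lit 152) (nat_lit 45222515946) (nat_lit 0) (nat_lit 32072261603) (nat_lit 2) (nat_lit 5) (nat_lit 4) (nat_lit 4) (nat_lit 2) (nat_lit 4) (nat_lit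 298) (nat_lit 247) (nat_lit 175)) (XT.lf (nat_lit 0) (nat_lit 72035099045) (nat_lit 152) (nat_lit 36809847403) (nat_lit 0) (nat_lit 41574299609) (nat_lit 2) (nat_lit 5) (nat_lit 4) (nat_lit 4) (nat_lit 2) (nat_lit 4) (nat_lit 299) (nat_lit 247) (nat_lit 174)))) (XT.nd (nat_lit 78) (nat_lit 0) (nat_lit 0) (XT.lf (nat_lit 0) (nat_lit 82303029948) (nat_lit 152) (nat_lit 27730845893) (nat_lit 0) (nat_lit 51834007076) (nat_lit 2) (nat_lit 5) (nat_lit 4) (nat_lit 4) (nat_lit 2) (nat_lit 4) (nat_lit 300) (nat_lit 247) (nat_lit 173)) (XT.nd (nat_lit 78) (nat_lit 0) (nat_lit 0) (XT.lf (nat_lit 0) (nat_lit 93388819434) (nat_lit 152) (nat_lit 17931709926) (nat_lit 0) (nat_lit 62912182269) (nat_lit 2) (nat_lit 5) (nat_lit 4) (nat_lit 4) (nat_lit 2) (nat_lit 4) (nat_lit 301) (nat_lit 247) (nat_lit 172)) (XT.lf (nat_lit 0) (nat_lit 105358161071) (nat_lit 152) (nat_lit 7354370547) (nat_lit 0) (nat_lit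 74874473635) (nat_lit 2) (nat_lit 5) (nat_lit 4) (nat_lit 4) (nat_lit 2) (nat_lit 4) (nat_lit 302) (nat_lit 247) (nat_lit 171)))))) (XT.nd (nat_lit 390) (nat_lit 0) (nat_lit 0) (XT.nd (nat_lit 156) (nat_lit 0) (nat_lit 0) (XT.nd (nat_lit 78) (nat_lit 0) (nat_lit 0) (XT.lf (nat_lit 0) (nat_lit 4277848057) (nat_lit 76) (nat_lit 114107018582) (nat_lit 76) (nat_lit 83616803118) (nat_lit 1) (nat_lit 4) (nat_lit 2) (nat_lit 5) (nat_lit 2) (nat_lit 4) (nat_lit 303) (nat_lit 247) (nat_lit 170)) (XT.lf (nat_lit 0) (nat_lit 17253724769) (nat_lit 76) (nat_lit 115398102439) (nat_lit 76) (nat_lit 84901842504) (nat_lit 1) (nat_lit 4) (nat_lit 2) (nat_lit 5) (nat_lit 2) (nat_lit 4) (nat_lit 304) (nat_lit 247) (nat_lit 169))) (XT.nd (nat_lit 78) (nat_lit 0) (nat_lit 0) (XT.lf (nat_lit 0) (nat_lit 31262885553) (nat_lit 76) (nat_lit 116794515580) (nat_lit 76) (nat_lit 86292658912) (nat_lit 1) (nat_lit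 4) (nat_lit 2) (nat_lit 5) (nat_lit 2) (nat_lit 4) (nat_lit 305) (nat_lit 247) (nat_lit 168)) (XT.nd (nat_lit 78) (nat_lit 0) (nat_lit 0) (XT.lf (nat_lit 0) (nat_lit 46388347657) (nat_lit 76) (nat_lit 118304533046) (nat_lit 76) (nat_lit 87797494219) (nat_lit 1) (nat_lit 4) (nat_lit 2) (nat_lit 5) (nat_lit 2) (nat_lit 4) (nat_lit 306) (nat_lit 247) (nat_lit 167)) (XT.lf (nat_lit 0) (nat_lit 62719743450) (nat_lit 76) (nat_lit 119937103089) (nat_lit 76) (nat_lit 89425265966) (nat_lit 1) (nat_lit 4) (nat_lit 2) (nat_lit 5) (nat_lit 2) (nat_lit 4) (nat_lit 307) (nat_lit 247) (nat_lit 166))))) (XT.nd (nat_lit 234) (nat_lit 0) (nat_lit 0) (XT.nd (nat_lit 78) (nat_lit 0) (nat_lit 0) (XT.lf (nat_lit 0) (nat_lit 80353851573) (nat_lit 76) (nat_lit 121701900198) (nat_lit 76) (nat_lit 91185620208) (nat_lit 1) (nat_lit 4) (nat_lit 2) (nat_lit 5) (nat_lit 2) (nat_lit 4) (nat_lit 308) (nat_lit 247)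 (nat_lit 165)) (XT.nd (nat_lit 78) (nat_lit 0) (nat_lit 0) (XT.lf (nat_lit 0) (nat_lit 99395170444) (nat_lit 76) (nat_lit 123609382430) (nat_lit 76) (nat_lit 93088988675) (nat_lit 1) (nat_lit 4) (nat_lit 2) (nat_lit 5) (nat_lit 2) (nat_lit 4) (nat_lit 309) (nat_lit 247) (nat_lit 164)) (XT.lf (nat_lit 0) (nat_lit 119956537510) (nat_lit 76) (nat_lit 125670853383) (nat_lit 76) (nat_lit 95146650586) (nat_lit 1) (nat_lit 4) (nat_lit 2) (nat_lit 5) (nat_lit 2) (nat_lit 4) (nat_lit 310) (nat_lit 247) (nat_lit 163)))) (XT.nd (nat_lit 78) (nat_lit 0) (nat_lit 0) (XT.lf (nat_lit 0) (nat_lit 142159797908) (nat_lit 76) (nat_lit 127898529181) (nat_lit 76) (nat_lit 97370799493) (nat_lit 1) (nat_lit 4) (nat_lit 2) (nat_lit 5) (nat_lit 2) (nat_lit 4) (nat_lit 311) (nat_lit 247) (nat_lit 162)) (XT.nd (nat_lit 78) (nat_lit 0) (nat_lit 0) (XT.lf (nat_lit 0) (nat_lit 166136526514) (nat_lit 76) (nat_lit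 130305610866) (nat_lit 76) (nat_lit 99774615539) (nat_lit 1) (nat_lit 4) (nat_lit 2) (nat_lit 5) (nat_lit 2) (nat_lit 4) (nat_lit 312) (nat_lit 247) (nat_lit 161)) (XT.lf (nat_lit 0) (nat_lit 192028807647) (nat_lit 76) (nat_lit 132906362627) (nat_lit 76) (nat_lit 102372343559) (nat_lit 1) (nat_lit 4) (nat_lit 2) (nat_lit 5) (nat_lit 2) (nat_lit 4) (nat_lit 313) (nat_lit 247) (nat_lit 160))))))))
noncomputable def xc65 : XT := (XT.nd (nat_lit 32760) (nat_lit 0) (nat_lit 608) (XT.nd (nat_lit 858) (nat_lit 0) (nat_lit 0) (XT.nd (nat_lit 390) (nat_lit 0) (nat_lit 0) (XT.nd (nat_lit 156) (nat_lit 0) (nat_lit 0) (XT.nd (nat_lit 78) (nat_lit 0) (nat_lit 0) (XT.lf (nat_lit 0) (nat_lit 219990077045) (nat_lit 76) (nat_lit 135716196325) (nat_lit 76) (nat_lit 105179377497) (nat_lit 1) (nat_lit 4) (nat_lit 2) (nat_lit 5) (nat_lit 2) (nat_lit 4) (nat_lit 314) (nat_lit 247) (nat_lit 159)) (XT.lf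 (nat_lit 0) (nat_lit 250186031122) (nat_lit 76) (nat_lit 138751762826) (nat_lit 76) (nat_lit 108212351629) (nat_lit 1) (nat_lit 4) (nat_lit 2) (nat_lit 5) (nat_lit 2) (nat_lit 4) (nat_lit 315) (nat_lit 247) (nat_lit 158))) (XT.nd (nat_lit 78) (nat_lit 0) (nat_lit 0) (XT.lf (nat_lit 0) (nat_lit 282795608863) (nat_lit 76) (nat_lit 142031050673) (nat_lit 76) (nat_lit 111489239133) (nat_lit 1) (nat_lit 4) (nat_lit 2) (nat_lit 5) (nat_lit 2) (nat_lit 4) (nat_lit 316) (nat_lit 247) (nat_lit 157)) (XT.nd (nat_lit 78) (nat_lit 0) (nat_lit 0) (XT.lf (nat_lit 0) (nat_lit 318012052210) (nat_lit 76) (nat_lit 145573492683) (nat_lit 76) (nat_lit 115029458604) (nat_lit 1) (nat_lit 4) (nat_lit 2) (nat_lit 5) (nat_lit 2) (nat_lit 4) (nat_lit 317) (nat_lit 247) (nat_lit 156)) (XT.lf (nat_lit 0) (nat_lit 356044051199) (nat_lit 76) (nat_lit 149400081105) (nat_lit 76) (nat_lit 118853989118) (nat_lit 1)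 (nat_lit 4) (nat_lit 2) (nat_lit 5) (nat_lit 2) (nat_lit 4) (nat_lit 318) (nat_lit 247) (nat_lit 155))))) (XT.nd (nat_lit 234) (nat_lit 0) (nat_lit 0) (XT.nd (nat_lit 78) (nat_lit 0) (nat_lit 0) (XT.lf (nat_lit 0) (nat_lit 397116980639) (nat_lit 76) (nat_lit 153533492017) (nat_lit 76) (nat_lit 122985494562) (nat_lit 1) (nat_lit 4) (nat_lit 2) (nat_lit 5) (nat_lit 2) (nat_lit 4) (nat_lit 319) (nat_lit 247) (nat_lit 154)) (XT.nd (nat_lit 78) (nat_lit 0) (nat_lit 0) (XT.lf (nat_lit 0) (nat_lit 441474235666) (nat_lit 76) (nat_lit 157998219708) (nat_lit 76) (nat_lit 127448457929) (nat_lit 1) (nat_lit 4) (nat_lit 2) (nat_lit 5) (nat_lit 2) (nat_lit 4) (nat_lit 320) (nat_lit 247) (nat_lit 153)) (XT.lf (nat_lit 0) (nat_lit 489378674088) (nat_lit 76) (nat_lit 162820721822) (nat_lit 76) (nat_lit 132269326411) (nat_lit 1) (nat_lit 4) (nat_lit 2) (nat_lit 5) (nat_lit 2) (nat_lit 4) (nat_lit 321)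 (nat_lit 247) (nat_lit 152)))) (XT.nd (nat_lit 78) (nat_lit 0) (nat_lit 0) (XT.lf (nat_lit 0) (nat_lit 541114174059) (nat_lit 76) (nat_lit 168029576151) (nat_lit 76) (nat_lit 137476668116) (nat_lit 1) (nat_lit 4) (nat_lit 2) (nat_lit 5) (nat_lit 2) (nat_lit 4) (nat_lit 322) (nat_lit 247) (nat_lit 151)) (XT.nd (nat_lit 78) (nat_lit 0) (nat_lit 0) (XT.lf (nat_lit 0) (nat_lit 596987316320) (nat_lit 76) (nat_lit 173655649978) (nat_lit 76) (nat_lit 143101341366) (nat_lit 1) (nat_lit 4) (nat_lit 2) (nat_lit 5) (nat_lit 2) (nat_lit 4) (nat_lit 323) (nat_lit 247) (nat_lit 150)) (XT.lf (nat_lit 0) (nat_lit 657329200972) (nat_lit 76) (nat_lit 179732283001) (nat_lit 76) (nat_lit 149176677559) (nat_lit 1) (nat_lit 4) (nat_lit 2) (nat_lit 5) (nat_lit 2) (nat_lit 4) (nat_lit 324) (nat_lit 247) (nat_lit 149)))))) (XT.nd (nat_lit 390) (nat_lit 0) (nat_lit 0) (XT.nd (nat_lit 156) (nat_lit 0) (nat_lit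 0) (XT.nd (nat_lit 78) (nat_lit 0) (nat_lit 0) (XT.lf (nat_lit 0) (nat_lit 722497409555) (nat_lit 76) (nat_lit 186295484896) (nat_lit 76) (nat_lit 155738678686) (nat_lit 1) (nat_lit 4) (nat_lit 2) (nat_lit 5) (nat_lit 2) (nat_lit 4) (nat_lit 325) (nat_lit 247) (nat_lit 148)) (XT.lf (nat_lit 0) (nat_lit 792878124045) (nat_lit 76) (nat_lit 193384148713) (nat_lit 76) (nat_lit 162826230679) (nat_lit 1) (nat_lit 4) (nat_lit 2) (nat_lit 5) (nat_lit 2) (nat_lit 4) (nat_lit 326) (nat_lit 247) (nat_lit 147))) (XT.nd (nat_lit 78) (nat_lit 0) (nat_lit 0) (XT.lf (nat_lit 0) (nat_lit 868888415343) (nat_lit 76) (nat_lit 201040281347) (nat_lit 76) (nat_lit 170481333848) (nat_lit 1) (nat_lit 4) (nat_lit 2) (nat_lit 5) (nat_lit 2) (nat_lit 4) (nat_lit 327) (nat_lit 247) (nat_lit 146)) (XT.nd (nat_lit 78) (nat_lit 0) (nat_lit 0) (XT.lf (nat_lit 0) (nat_lit 950978714804) (nat_lit 76) (nat_lit 209309252474)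 (nat_lit 76) (nat_lit 178749351766) (nat_lit 1) (nat_lit 4) (nat_lit 2) (nat_lit 5) (nat_lit 2) (nat_lit 4) (nat_lit 328) (nat_lit 247) (nat_lit 145)) (XT.lf (nat_lit 0) (nat_lit 1039635483463) (nat_lit 76) (nat_lit 218240063404) (nat_lit 76) (nat_lit 187679280095) (nat_lit 1) (nat_lit 4) (nat_lit 2) (nat_lit 5) (nat_lit 2) (nat_lit 4) (nat_lit 329) (nat_lit 247) (nat_lit 144))))) (XT.nd (nat_lit 31278) (nat_lit 0) (nat_lit 2280) (XT.nd (nat_lit 31122) (nat_lit 0) (nat_lit 2280) (XT.lf (nat_lit 0) (nat_lit 1135384094764) (nat_lit 76) (nat_lit 227885637462) (nat_lit 76) (nat_lit 197324036929) (nat_lit 1) (nat_lit 4) (nat_lit 2) (nat_lit 5) (nat_lit 2) (nat_lit 4) (nat_lit 330) (nat_lit 247) (nat_lit 143)) (XT.nd (nat_lit 78) (nat_lit 380) (nat_lit 0) (XT.lf (nat_lit 0) (nat_lit 3833755684) (nat_lit 380) (nat_lit 176691237) (nat_lit 380) (nat_lit 176691237) (nat_lit 36) (nat_lit 3)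 (nat_lit 41) (nat_lit 3) (nat_lit 41) (nat_lit 5) (nat_lit 248) (nat_lit 248) (nat_lit 224)) (XT.lf (nat_lit 0) (nat_lit 279104483) (nat_lit 380) (nat_lit 5517128988) (nat_lit 456) (nat_lit 2826777960) (nat_lit 31) (nat_lit 5) (nat_lit 36) (nat_lit 3) (nat_lit 37) (nat_lit 5) (nat_lit 249) (nat_lit 248) (nat_lit 223)))) (XT.nd (nat_lit 78) (nat_lit 0) (nat_lit 0) (XT.lf (nat_lit 0) (nat_lit 1224243282) (nat_lit 380) (nat_lit 2103169157) (nat_lit 456) (nat_lit 5570224140) (nat_lit 31) (nat_lit 5) (nat_lit 36) (nat_lit 3) (nat_lit 37) (nat_lit 5) (nat_lit 250) (nat_lit 248) (nat_lit 222)) (XT.nd (nat_lit 78) (nat_lit 0) (nat_lit 76) (XT.lf (nat_lit 76) (nat_lit 1613048683) (nat_lit 0) (nat_lit 586173927) (nat_lit 456) (nat_lit 6999547169) (nat_lit 32) (nat_lit 5) (nat_lit 31) (nat_lit 5) (nat_lit 37) (nat_lit 5) (nat_lit 251) (nat_lit 248) (nat_lit 221)) (XT.lf (nat_lit 0) (nat_lit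 3289496780) (nat_lit 380) (nat_lit 3889938281) (nat_lit 456) (nat_lit 2342386328) (nat_lit 32) (nat_lit 5) (nat_lit 37) (nat_lit 5) (nat_lit 38) (nat_lit 5) (nat_lit 252) (nat_lit 248) (nat_lit 220))))))) (XT.nd (nat_lit 858) (nat_lit 608) (nat_lit 0) (XT.nd (nat_lit 390) (nat_lit 836) (nat_lit 0) (XT.nd (nat_lit 156) (nat_lit 304) (nat_lit 0) (XT.nd (nat_lit 78) (nat_lit 0) (nat_lit 0) (XT.lf (nat_lit 76) (nat_lit 34175809) (nat_lit 0) (nat_lit 4375896709) (nat_lit 456) (nat_lit 5465949606) (nat_lit 33) (nat_lit 5) (nat_lit 32) (nat_lit 5) (nat_lit 38) (nat_lit 5) (nat_lit 253) (nat_lit 248) (nat_lit 219)) (XT.lf (nat_lit 76) (nat_lit 4440990022) (nat_lit 0) (nat_lit 1216838014) (nat_lit 456) (nat_lit 4598423896) (nat_lit 33) (nat_lit 5) (nat_lit 32) (nat_lit 5) (nat_lit 38) (nat_lit 5) (nat_lit 254) (nat_lit 248) (nat_lit 218))) (XT.nd (nat_lit 78) (nat_lit 380) (nat_lit 0) (XT.lf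 (nat_lit 0) (nat_lit 6994831034) (nat_lit 380) (nat_lit 1574013870) (nat_lit 76) (nat_lit 2099545233) (nat_lit 33) (nat_lit 5) (nat_lit 38) (nat_lit 5) (nat_lit 34) (nat_lit 5) (nat_lit 255) (nat_lit 248) (nat_lit 217)) (XT.nd (nat_lit 78) (nat_lit 0) (nat_lit 0) (XT.lf (nat_lit 0) (nat_lit 3078291799) (nat_lit 380) (nat_lit 5407473635) (nat_lit 456) (nat_lit 2624572728) (nat_lit 28) (nat_lit 5) (nat_lit 33) (nat_lit 5) (nat_lit 34) (nat_lit 5) (nat_lit 256) (nat_lit 248) (nat_lit 216)) (XT.lf (nat_lit 0) (nat_lit 8142954466) (nat_lit 380) (nat_lit 1940547516) (nat_lit 456) (nat_lit 1505690133) (nat_lit 28) (nat_lit 5) (nat_lit 33) (nat_lit 5) (nat_lit 34) (nat_lit 5) (nat_lit 257) (nat_lit 248) (nat_lit 215))))) (XT.nd (nat_lit 234) (nat_lit 380) (nat_lit 0) (XT.nd (nat_lit 78) (nat_lit 76) (nat_lit 0) (XT.lf (nat_lit 0) (nat_lit 1486992929) (nat_lit 380) (nat_lit 10349946702) (nat_lit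 456) (nat_lit 267695547) (nat_lit 23) (nat_lit 5) (nat_lit 28) (nat_lit 5) (nat_lit 29) (nat_lit 5) (nat_lit 258) (nat_lit 248) (nat_lit 214)) (XT.nd (nat_lit 78) (nat_lit 0) (nat_lit 0) (XT.lf (nat_lit 0) (nat_lit 1112564752) (nat_lit 456) (nat_lit 5773733396) (nat_lit 76) (nat_lit 5765659040) (nat_lit 22) (nat_lit 5) (nat_lit 28) (nat_lit 5) (nat_lit 23) (nat_lit 5) (nat_lit 259) (nat_lit 248) (nat_lit 213)) (XT.lf (nat_lit 0) (nat_lit 2542154921) (nat_lit 456) (nat_lit 597655213) (nat_lit 76) (nat_lit 10106834789) (nat_lit 22) (nat_lit 5) (nat_lit 28) (nat_lit 5) (nat_lit 23) (nat_lit 5) (nat_lit 260) (nat_lit 248) (nat_lit 212)))) (XT.nd (nat_lit 78) (nat_lit 152) (nat_lit 0) (XT.lf (nat_lit 0) (nat_lit 4193209234) (nat_lit 304) (nat_lit 8699489203) (nat_lit 76) (nat_lit 988017355) (nat_lit 19) (nat_lit 5) (nat_lit 23) (nat_lit 5) (nat_lit 20) (nat_lit 5) (nat_lit 261) (nat_lit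 248) (nat_lit 211)) (XT.nd (nat_lit 78) (nat_lit 152) (nat_lit 0) (XT.lf (nat_lit 0) (nat_lit 6033576515) (nat_lit 304) (nat_lit 3237012903) (nat_lit 76) (nat_lit 5290692652) (nat_lit 19) (nat_lit 5) (nat_lit 23) (nat_lit 5) (nat_lit 20) (nat_lit 5) (nat_lit 262) (nat_lit 248) (nat_lit 210)) (XT.lf (nat_lit 0) (nat_lit 2756619887) (nat_lit 152) (nat_lit 5292803509) (nat_lit 228) (nat_lit 7244932484) (nat_lit 17) (nat_lit 5) (nat_lit 19) (nat_lit 5) (nat_lit 20) (nat_lit 5) (nat_lit 263) (nat_lit 248) (nat_lit 209)))))) (XT.nd (nat_lit 390) (nat_lit 228) (nat_lit 0) (XT.nd (nat_lit 156) (nat_lit 380) (nat_lit 0) (XT.nd (nat_lit 78) (nat_lit 0) (nat_lit 0) (XT.lf (nat_lit 0) (nat_lit 9371203505) (nat_lit 152) (nat_lit 907586611) (nat_lit 228) (nat_lit 5803403691) (nat_lit 17) (nat_lit 5) (nat_lit 19) (nat_lit 5) (nat_lit 20) (nat_lit 5) (nat_lit 264) (nat_lit 248) (nat_lit 208)) (XT.lf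 (nat_lit 0) (nat_lit 12744870271) (nat_lit 228) (nat_lit 552472604) (nat_lit 76) (nat_lit 3631323041) (nat_lit 17) (nat_lit 5) (nat_lit 20) (nat_lit 5) (nat_lit 18) (nat_lit 5) (nat_lit 265) (nat_lit 248) (nat_lit 207))) (XT.nd (nat_lit 78) (nat_lit 228) (nat_lit 0) (XT.lf (nat_lit 0) (nat_lit 6353836940) (nat_lit 152) (nat_lit 9199570394) (nat_lit 228) (nat_lit 2278090631) (nat_lit 15) (nat_lit 5) (nat_lit 17) (nat_lit 5) (nat_lit 18) (nat_lit 5) (nat_lit 266) (nat_lit 248) (nat_lit 206)) (XT.nd (nat_lit 78) (nat_lit 228) (nat_lit 0) (XT.lf (nat_lit 0) (nat_lit 13805901713) (nat_lit 152) (nat_lit 4766012230) (nat_lit 228) (nat_lit 236056569) (nat_lit 15) (nat_lit 5) (nat_lit 17) (nat_lit 5) (nat_lit 18) (nat_lit 5) (nat_lit 267) (nat_lit 248) (nat_lit 205)) (XT.lf (nat_lit 0) (nat_lit 1893386941) (nat_lit 228) (nat_lit 17852621085) (nat_lit 76) (nat_lit 111162007) (nat_lit 12) (nat_lit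 5) (nat_lit 15) (nat_lit 5) (nat_lit 13) (nat_lit 5) (nat_lit 268) (nat_lit 248) (nat_lit 204))))) (XT.nd (nat_lit 234) (nat_lit 76) (nat_lit 0) (XT.nd (nat_lit 78) (nat_lit 152) (nat_lit 0) (XT.lf (nat_lit 0) (nat_lit 4417040585) (nat_lit 228) (nat_lit 11294941042) (nat_lit 76) (nat_lit 5259092784) (nat_lit 12) (nat_lit 5) (nat_lit 15) (nat_lit 5) (nat_lit 13) (nat_lit 5) (nat_lit 269) (nat_lit 248) (nat_lit 203)) (XT.nd (nat_lit 78) (nat_lit 152) (nat_lit 0) (XT.lf (nat_lit 0) (nat_lit 7117121277) (nat_lit 228) (nat_lit 4248080623) (nat_lit 76) (nat_lit 10811100558) (nat_lit 12) (nat_lit 5) (nat_lit 15) (nat_lit 5) (nat_lit 13) (nat_lit 5) (nat_lit 270) (nat_lit 248) (nat_lit 202)) (XT.lf (nat_lit 0) (nat_lit 3505056464) (nat_lit 152) (nat_lit 6588869723) (nat_lit 228) (nat_lit 13379326345) (nat_lit 10) (nat_lit 5) (nat_lit 12) (nat_lit 5) (nat_lit 13) (nat_lit 5) (nat_lit 271)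 (nat_lit 248) (nat_lit 201)))) (XT.nd (nat_lit 78) (nat_lit 76) (nat_lit 0) (XT.lf (nat_lit 0) (nat_lit 12088057958) (nat_lit 152) (nat_lit 1314366155) (nat_lit 228) (nat_lit 11464199873) (nat_lit 10) (nat_lit 5) (nat_lit 12) (nat_lit 5) (nat_lit 13) (nat_lit 5) (nat_lit 272) (nat_lit 248) (nat_lit 200)) (XT.nd (nat_lit 78) (nat_lit 76) (nat_lit 0) (XT.lf (nat_lit 0) (nat_lit 17059855362) (nat_lit 228) (nat_lit 5150368589) (nat_lit 76) (nat_lit 4154639132) (nat_lit 10) (nat_lit 5) (nat_lit 13) (nat_lit 5) (nat_lit 11) (nat_lit 4) (nat_lit 273) (nat_lit 248) (nat_lit 199)) (XT.lf (nat_lit 0) (nat_lit 3184337375) (nat_lit 76) (nat_lit 17916696074) (nat_lit 152) (nat_lit 6874763642) (nat_lit 9) (nat_lit 5) (nat_lit 10) (nat_lit 5) (nat_lit 11) (nat_lit 4) (nat_lit 274) (nat_lit 248) (nat_lit 198))))))))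
noncomputable def xc66 : XT := (XT.nd (nat_lit 1716) (nat_lit 76) (nat_lit 0) (XT.nd (nat_lit 858) (nat_lit 228) (nat_lit 0) (XT.nd (nat_lit 390) (nat_lit 76) (nat_lit 0) (XT.nd (nat_lit 156) (nat_lit 228) (nat_lit 0) (XT.nd (nat_lit 78) (nat_lit 0) (nat_lit 0) (XT.lf (nat_lit 0) (nat_lit 12450556180) (nat_lit 76) (nat_lit 13136971556) (nat_lit 152) (nat_lit 4118434816) (nat_lit 9) (nat_lit 5) (nat_lit 10) (nat_lit 5) (nat_lit 11) (nat_lit 4) (nat_lit 275) (nat_lit 248) (nat_lit 197)) (XT.lf (nat_lit 0) (nat_lit 22431989470) (nat_lit 76) (nat_lit 7983546308) (nat_lit 152) (nat_lit 1160507649) (nat_lit 9) (nat_lit 5) (nat_lit 10) (nat_lit 5) (nat_lit 11) (nat_lit 4) (nat_lit 276) (nat_lit 248) (nat_lit 196))) (XT.nd (nat_lit 78) (nat_lit 152) (nat_lit 0) (XT.lf (nat_lit 0) (nat_lit 1915670501) (nat_lit 152) (nat_lit 457833186) (nat_lit 76) (nat_lit 31219738149) (nat_lit 8) (nat_lit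 5) (nat_lit 10) (nat_lit 5) (nat_lit 9) (nat_lit 5) (nat_lit 277) (nat_lit 248) (nat_lit 195)) (XT.nd (nat_lit 78) (nat_lit 0) (nat_lit 0) (XT.lf (nat_lit 0) (nat_lit 5479458750) (nat_lit 228) (nat_lit 26510863984) (nat_lit 76) (nat_lit 3754831962) (nat_lit 6) (nat_lit 5) (nat_lit 9) (nat_lit 5) (nat_lit 7) (nat_lit 4) (nat_lit 278) (nat_lit 248) (nat_lit 194)) (XT.lf (nat_lit 0) (nat_lit 9387849272) (nat_lit 228) (nat_lit 18426118740) (nat_lit 76) (nat_lit 10250573277) (nat_lit 6) (nat_lit 5) (nat_lit 9) (nat_lit 5) (nat_lit 7) (nat_lit 4) (nat_lit 279) (nat_lit 248) (nat_lit 193))))) (XT.nd (nat_lit 234) (nat_lit 0) (nat_lit 0) (XT.nd (nat_lit 78) (nat_lit 76) (nat_lit 0) (XT.lf (nat_lit 0) (nat_lit 13595028308) (nat_lit 228) (nat_lit 9716581755) (nat_lit 76) (nat_lit 17259054034) (nat_lit 6) (nat_lit 5) (nat_lit 9) (nat_lit 5) (nat_lit 7) (nat_lit 4) (nat_lit 280) (nat_lit 248)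 (nat_lit 192)) (XT.nd (nat_lit 78) (nat_lit 76) (nat_lit 0) (XT.lf (nat_lit 0) (nat_lit 18125927289) (nat_lit 228) (nat_lit 330640957) (nat_lit 76) (nat_lit 24821805972) (nat_lit 6) (nat_lit 5) (nat_lit 9) (nat_lit 5) (nat_lit 7) (nat_lit 4) (nat_lit 281) (nat_lit 248) (nat_lit 191)) (XT.lf (nat_lit 0) (nat_lit 10302707182) (nat_lit 76) (nat_lit 12952469160) (nat_lit 152) (nat_lit 22928718570) (nat_lit 5) (nat_lit 5) (nat_lit 6) (nat_lit 5) (nat_lit 7) (nat_lit 4) (nat_lit 282) (nat_lit 248) (nat_lit 190)))) (XT.nd (nat_lit 78) (nat_lit 0) (nat_lit 0) (XT.lf (nat_lit 0) (nat_lit 21787153198) (nat_lit 76) (nat_lit 7005189983) (nat_lit 152) (nat_lit 20529767126) (nat_lit 5) (nat_lit 5) (nat_lit 6) (nat_lit 5) (nat_lit 7) (nat_lit 4) (nat_lit 283) (nat_lit 248) (nat_lit 189)) (XT.nd (nat_lit 78) (nat_lit 0) (nat_lit 0) (XT.lf (nat_lit 0) (nat_lit 34173342101) (nat_lit 76) (nat_lit 588527891)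 (nat_lit 152) (nat_lit 17950416897) (nat_lit 5) (nat_lit 5) (nat_lit 6) (nat_lit 5) (nat_lit 7) (nat_lit 4) (nat_lit 284) (nat_lit 248) (nat_lit 188)) (XT.lf (nat_lit 0) (nat_lit 41351501677) (nat_lit 152) (nat_lit 8992210996) (nat_lit 0) (nat_lit 6018612323) (nat_lit 5) (nat_lit 5) (nat_lit 7) (nat_lit 4) (nat_lit 5) (nat_lit 4) (nat_lit 285) (nat_lit 248) (nat_lit 187)))))) (XT.nd (nat_lit 390) (nat_lit 76) (nat_lit 0) (XT.nd (nat_lit 156) (nat_lit 76) (nat_lit 0) (XT.nd (nat_lit 78) (nat_lit 0) (nat_lit 0) (XT.lf (nat_lit 0) (nat_lit 1355556722) (nat_lit 76) (nat_lit 47151403575) (nat_lit 76) (nat_lit 11794360397) (nat_lit 4) (nat_lit 4) (nat_lit 5) (nat_lit 5) (nat_lit 5) (nat_lit 4) (nat_lit 286) (nat_lit 248) (nat_lit 186)) (XT.lf (nat_lit 0) (nat_lit 13027697629) (nat_lit 76) (nat_lit 43444116565) (nat_lit 76) (nat_lit 8064708735) (nat_lit 4) (nat_lit 4) (nat_lit 5) (nat_lit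 5) (nat_lit 5) (nat_lit 4) (nat_lit 287) (nat_lit 248) (nat_lit 185))) (XT.nd (nat_lit 78) (nat_lit 76) (nat_lit 0) (XT.lf (nat_lit 0) (nat_lit 25619866071) (nat_lit 76) (nat_lit 39445745519) (nat_lit 76) (nat_lit 4045629679) (nat_lit 4) (nat_lit 4) (nat_lit 5) (nat_lit 5) (nat_lit 5) (nat_lit 4) (nat_lit 288) (nat_lit 248) (nat_lit 184)) (XT.nd (nat_lit 78) (nat_lit 0) (nat_lit 0) (XT.lf (nat_lit 0) (nat_lit 272351964) (nat_lit 152) (nat_lit 34852797838) (nat_lit 76) (nat_lit 38926883756) (nat_lit 3) (nat_lit 5) (nat_lit 5) (nat_lit 5) (nat_lit 4) (nat_lit 4) (nat_lit 289) (nat_lit 248) (nat_lit 183)) (XT.lf (nat_lit 0) (nat_lit 4709918002) (nat_lit 152) (nat_lit 25640414260) (nat_lit 76) (nat_lit 49029965292) (nat_lit 3) (nat_lit 5) (nat_lit 5) (nat_lit 5) (nat_lit 4) (nat_lit 4) (nat_lit 290) (nat_lit 248) (nat_lit 182))))) (XT.nd (nat_lit 234) (nat_lit 0) (nat_lit 0) (XT.nd (nat_lit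 78) (nat_lit 76) (nat_lit 0) (XT.lf (nat_lit 0) (nat_lit 9495743903) (nat_lit 152) (nat_lit 15702335072) (nat_lit 76) (nat_lit 59937312981) (nat_lit 3) (nat_lit 5) (nat_lit 5) (nat_lit 5) (nat_lit 4) (nat_lit 4) (nat_lit 291) (nat_lit 248) (nat_lit 181)) (XT.nd (nat_lit 78) (nat_lit 76) (nat_lit 0) (XT.lf (nat_lit 0) (nat_lit 14658190118) (nat_lit 152) (nat_lit 4979667952) (nat_lit 76) (nat_lit 71713562957) (nat_lit 3) (nat_lit 5) (nat_lit 5) (nat_lit 5) (nat_lit 4) (nat_lit 4) (nat_lit 292) (nat_lit 248) (nat_lit 180)) (XT.lf (nat_lit 0) (nat_lit 6938205992) (nat_lit 76) (nat_lit 13456506947) (nat_lit 152) (nat_lit 77657158433) (nat_lit 2) (nat_lit 5) (nat_lit 3) (nat_lit 5) (nat_lit 4) (nat_lit 4) (nat_lit 293) (nat_lit 248) (nat_lit 179)))) (XT.nd (nat_lit 78) (nat_lit 0) (nat_lit 0) (XT.lf (nat_lit 0) (nat_lit 20083269433) (nat_lit 76) (nat_lit 6637459372) (nat_lit 152) (nat_lit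 78557206782) (nat_lit 2) (nat_lit 5) (nat_lit 3) (nat_lit 5) (nat_lit 4) (nat_lit 4) (nat_lit 294) (nat_lit 248) (nat_lit 178)) (XT.nd (nat_lit 78) (nat_lit 0) (nat_lit 0) (XT.lf (nat_lit 0) (nat_lit 33565058848) (nat_lit 152) (nat_lit 78828722819) (nat_lit 0) (nat_lit 687346433) (nat_lit 2) (nat_lit 5) (nat_lit 4) (nat_lit 4) (nat_lit 2) (nat_lit 4) (nat_lit 295) (nat_lit 248) (nat_lit 177)) (XT.lf (nat_lit 0) (nat_lit 41124471879) (nat_lit 152) (nat_lit 72134321087) (nat_lit 0) (nat_lit 8236400303) (nat_lit 2) (nat_lit 5) (nat_lit 4) (nat_lit 4) (nat_lit 2) (nat_lit 4) (nat_lit 296) (nat_lit 248) (nat_lit 176))))))) (XT.nd (nat_lit 858) (nat_lit 0) (nat_lit 0) (XT.nd (nat_lit 390) (nat_lit 76) (nat_lit 0) (XT.nd (nat_lit 156) (nat_lit 0) (nat_lit 0) (XT.nd (nat_lit 78) (nat_lit 0) (nat_lit 0) (XT.lf (nat_lit 0) (nat_lit 49284133362) (nat_lit 152) (nat_lit 64912159370) (nat_lit 0)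 (nat_lit 16386469971) (nat_lit 2) (nat_lit 5) (nat_lit 4) (nat_lit 4) (nat_lit 2) (nat_lit 4) (nat_lit 297) (nat_lit 248) (nat_lit 175)) (XT.lf (nat_lit 0) (nat_lit 58092396849) (nat_lit 152) (nat_lit 57119439673) (nat_lit 0) (nat_lit 25185852147) (nat_lit 2) (nat_lit 5) (nat_lit 4) (nat_lit 4) (nat_lit 2) (nat_lit 4) (nat_lit 298) (nat_lit 248) (nat_lit 174))) (XT.nd (nat_lit 78) (nat_lit 0) (nat_lit 0) (XT.lf (nat_lit 0) (nat_lit 67601459454) (nat_lit 152) (nat_lit 48709982917) (nat_lit 0) (nat_lit 34686691316) (nat_lit 2) (nat_lit 5) (nat_lit 4) (nat_lit 4) (nat_lit 2) (nat_lit 4) (nat_lit 299) (nat_lit 248) (nat_lit 173)) (XT.nd (nat_lit 78) (nat_lit 0) (nat_lit 0) (XT.lf (nat_lit 0) (nat_lit 77867671179) (nat_lit 152) (nat_lit 39633955284) (nat_lit 0) (nat_lit 44945288749) (nat_lit 2) (nat_lit 5) (nat_lit 4) (nat_lit 4) (nat_lit 2) (nat_lit 4) (nat_lit 300) (nat_lit 248) (nat_lit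 172)) (XT.lf (nat_lit 0) (nat_lit 88951868835) (nat_lit 152) (nat_lit 29837572906) (nat_lit 0) (nat_lit 56022436133) (nat_lit 2) (nat_lit 5) (nat_lit 4) (nat_lit 4) (nat_lit 2) (nat_lit 4) (nat_lit 301) (nat_lit 248) (nat_lit 171))))) (XT.nd (nat_lit 234) (nat_lit 0) (nat_lit 0) (XT.nd (nat_lit 78) (nat_lit 76) (nat_lit 0) (XT.lf (nat_lit 0) (nat_lit 100919736554) (nat_lit 152) (nat_lit 19262783147) (nat_lit 0) (nat_lit 67983775824) (nat_lit 2) (nat_lit 5) (nat_lit 4) (nat_lit 4) (nat_lit 2) (nat_lit 4) (nat_lit 302) (nat_lit 248) (nat_lit 170)) (XT.nd (nat_lit 78) (nat_lit 76) (nat_lit 0) (XT.lf (nat_lit 0) (nat_lit 113842195036) (nat_lit 152) (nat_lit 7846920586) (nat_lit 0) (nat_lit 80900189835) (nat_lit 2) (nat_lit 5) (nat_lit 4) (nat_lit 4) (nat_lit 2) (nat_lit 4) (nat_lit 303) (nat_lit 248) (nat_lit 169)) (XT.lf (nat_lit 0) (nat_lit 4713450200) (nat_lit 76) (nat_lit 123195730202)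 (nat_lit 76) (nat_lit 90248128268) (nat_lit 1) (nat_lit 4) (nat_lit 2) (nat_lit 5) (nat_lit 2) (nat_lit 4) (nat_lit 304) (nat_lit 248) (nat_lit 168)))) (XT.nd (nat_lit 78) (nat_lit 0) (nat_lit 0) (XT.lf (nat_lit 0) (nat_lit 18720480434) (nat_lit 76) (nat_lit 124593052609) (nat_lit 76) (nat_lit 91640268516) (nat_lit 1) (nat_lit 4) (nat_lit 2) (nat_lit 5) (nat_lit 2) (nat_lit 4) (nat_lit 305) (nat_lit 248) (nat_lit 167)) (XT.nd (nat_lit 78) (nat_lit 0) (nat_lit 0) (XT.lf (nat_lit 0) (nat_lit 33843969808) (nat_lit 76) (nat_lit 126103911989) (nat_lit 76) (nat_lit 93146329600) (nat_lit 1) (nat_lit 4) (nat_lit 2) (nat_lit 5) (nat_lit 2) (nat_lit 4) (nat_lit 306) (nat_lit 248) (nat_lit 166)) (XT.lf (nat_lit 0) (nat_lit 50173538998) (nat_lit 76) (nat_lit 127737261581) (nat_lit 76) (nat_lit 94775236325) (nat_lit 1) (nat_lit 4) (nat_lit 2) (nat_lit 5) (nat_lit 2) (nat_lit 4) (nat_lit 307) (nat_lit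 248) (nat_lit 165)))))) (XT.nd (nat_lit 390) (nat_lit 0) (nat_lit 0) (XT.nd (nat_lit 156) (nat_lit 0) (nat_lit 0) (XT.nd (nat_lit 78) (nat_lit 0) (nat_lit 0) (XT.lf (nat_lit 0) (nat_lit 67805955822) (nat_lit 76) (nat_lit 129502780494) (nat_lit 76) (nat_lit 96536641474) (nat_lit 1) (nat_lit 4) (nat_lit 2) (nat_lit 5) (nat_lit 2) (nat_lit 4) (nat_lit 308) (nat_lit 248) (nat_lit 164)) (XT.lf (nat_lit 0) (nat_lit 86845708677) (nat_lit 76) (nat_lit 131410931064) (nat_lit 76) (nat_lit 98440983001) (nat_lit 1) (nat_lit 4) (nat_lit 2) (nat_lit 5) (nat_lit 2) (nat_lit 4) (nat_lit 309) (nat_lit 248) (nat_lit 163))) (XT.nd (nat_lit 78) (nat_lit 0) (nat_lit 0) (XT.lf (nat_lit 0) (nat_lit 107405625727) (nat_lit 76) (nat_lit 133473020848) (nat_lit 76) (nat_lit 100499545895) (nat_lit 1) (nat_lit 4) (nat_lit 2) (nat_lit 5) (nat_lit 2) (nat_lit 4) (nat_lit 310) (nat_lit 248) (nat_lit 162)) (XT.nd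 (nat_lit 78) (nat_lit 0) (nat_lit 0) (XT.lf (nat_lit 0) (nat_lit 129607543517) (nat_lit 76) (nat_lit 135701269639) (nat_lit 76) (nat_lit 102724529046) (nat_lit 1) (nat_lit 4) (nat_lit 2) (nat_lit 5) (nat_lit 2) (nat_lit 4) (nat_lit 311) (nat_lit 248) (nat_lit 161)) (XT.lf (nat_lit 0) (nat_lit 153583028968) (nat_lit 76) (nat_lit 138108881872) (nat_lit 76) (nat_lit 105129117539) (nat_lit 1) (nat_lit 4) (nat_lit 2) (nat_lit 5) (nat_lit 2) (nat_lit 4) (nat_lit 312) (nat_lit 248) (nat_lit 160))))) (XT.nd (nat_lit 234) (nat_lit 0) (nat_lit 0) (XT.nd (nat_lit 78) (nat_lit 0) (nat_lit 0) (XT.lf (nat_lit 0) (nat_lit 179474159032) (nat_lit 76) (nat_lit 140710124881) (nat_lit 76) (nat_lit 107727560788) (nat_lit 1) (nat_lit 4) (nat_lit 2) (nat_lit 5) (nat_lit 2) (nat_lit 4) (nat_lit 313) (nat_lit 248) (nat_lit 159)) (XT.nd (nat_lit 78) (nat_lit 0) (nat_lit 0) (XT.lf (nat_lit 0) (nat_lit 207434362625)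 (nat_lit 76) (nat_lit 143520413438) (nat_lit 76) (nat_lit 110535256975) (nat_lit 1) (nat_lit 4) (nat_lit 2) (nat_lit 5) (nat_lit 2) (nat_lit 4) (nat_lit 314) (nat_lit 248) (nat_lit 158)) (XT.lf (nat_lit 0) (nat_lit 237629329845) (nat_lit 76) (nat_lit 146556401106) (nat_lit 76) (nat_lit 113568844300) (nat_lit 1) (nat_lit 4) (nat_lit 2) (nat_lit 5) (nat_lit 2) (nat_lit 4) (nat_lit 315) (nat_lit 248) (nat_lit 157)))) (XT.nd (nat_lit 78) (nat_lit 0) (nat_lit 0) (XT.lf (nat_lit 0) (nat_lit 270237993830) (nat_lit 76) (nat_lit 149836078922) (nat_lit 76) (nat_lit 116846299577) (nat_lit 1) (nat_lit 4) (nat_lit 2) (nat_lit 5) (nat_lit 2) (nat_lit 4) (nat_lit 316) (nat_lit 248) (nat_lit 156)) (XT.nd (nat_lit 78) (nat_lit 0) (nat_lit 0) (XT.lf (nat_lit 0) (nat_lit 305453591107) (nat_lit 76) (nat_lit 153378882014) (nat_lit 76) (nat_lit 120387044762) (nat_lit 1) (nat_lit 4) (nat_lit 2) (nat_lit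 5) (nat_lit 2) (nat_lit 4) (nat_lit 317) (nat_lit 248) (nat_lit 155)) (XT.lf (nat_lit 0) (nat_lit 343484806698) (nat_lit 76) (nat_lit 157205804771) (nat_lit 76) (nat_lit 124212062049) (nat_lit 1) (nat_lit 4) (nat_lit 2) (nat_lit 5) (nat_lit 2) (nat_lit 4) (nat_lit 318) (nat_lit 248) (nat_lit 154))))))))
noncomputable def xc67 : XT := (XT.nd (nat_lit 32838) (nat_lit 0) (nat_lit 380) (XT.nd (nat_lit 858) (nat_lit 0) (nat_lit 0) (XT.nd (nat_lit 390) (nat_lit 0) (nat_lit 0) (XT.nd (nat_lit 156) (nat_lit 0) (nat_lit 0) (XT.nd (nat_lit 78) (nat_lit 0) (nat_lit 0) (XT.lf (nat_lit 0) (nat_lit 384557010768) (nat_lit 76) (nat_lit 161339525253) (nat_lit 76) (nat_lit 128344018208) (nat_lit 1) (nat_lit 4) (nat_lit 2) (nat_lit 5) (nat_lit 2) (nat_lit 4) (nat_lit 319) (nat_lit 248) (nat_lit 153)) (XT.lf (nat_lit 0) (nat_lit 428913594157) (nat_lit 76) (nat_lit 165804539582) (nat_lit 76) (nat_lit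 132807398905) (nat_lit 1) (nat_lit 4) (nat_lit 2) (nat_lit 5) (nat_lit 2) (nat_lit 4) (nat_lit 320) (nat_lit 248) (nat_lit 152))) (XT.nd (nat_lit 78) (nat_lit 0) (nat_lit 0) (XT.lf (nat_lit 0) (nat_lit 476817410693) (nat_lit 76) (nat_lit 170627307103) (nat_lit 76) (nat_lit 137628653803) (nat_lit 1) (nat_lit 4) (nat_lit 2) (nat_lit 5) (nat_lit 2) (nat_lit 4) (nat_lit 321) (nat_lit 248) (nat_lit 151)) (XT.nd (nat_lit 78) (nat_lit 0) (nat_lit 0) (XT.lf (nat_lit 0) (nat_lit 528552334843) (nat_lit 76) (nat_lit 175836407178) (nat_lit 76) (nat_lit 142836353300) (nat_lit 1) (nat_lit 4) (nat_lit 2) (nat_lit 5) (nat_lit 2) (nat_lit 4) (nat_lit 322) (nat_lit 248) (nat_lit 150)) (XT.lf (nat_lit 0) (nat_lit 584424943935) (nat_lit 76) (nat_lit 181462708548) (nat_lit 76) (nat_lit 148461357840) (nat_lit 1) (nat_lit 4) (nat_lit 2) (nat_lit 5) (nat_lit 2) (nat_lit 4) (nat_lit 323) (nat_lit 248) (nat_lit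 149))))) (XT.nd (nat_lit 234) (nat_lit 0) (nat_lit 0) (XT.nd (nat_lit 78) (nat_lit 0) (nat_lit 0) (XT.lf (nat_lit 0) (nat_lit 644766334914) (nat_lit 76) (nat_lit 187539552259) (nat_lit 76) (nat_lit 154537000782) (nat_lit 1) (nat_lit 4) (nat_lit 2) (nat_lit 5) (nat_lit 2) (nat_lit 4) (nat_lit 324) (nat_lit 248) (nat_lit 148)) (XT.nd (nat_lit 78) (nat_lit 0) (nat_lit 0) (XT.lf (nat_lit 0) (nat_lit 709934086391) (nat_lit 76) (nat_lit 194102949236) (nat_lit 76) (nat_lit 161099285936) (nat_lit 1) (nat_lit 4) (nat_lit 2) (nat_lit 5) (nat_lit 2) (nat_lit 4) (nat_lit 325) (nat_lit 248) (nat_lit 147)) (XT.lf (nat_lit 0) (nat_lit 780314377635) (nat_lit 76) (nat_lit 201191793683) (nat_lit 76) (nat_lit 168187100918) (nat_lit 1) (nat_lit 4) (nat_lit 2) (nat_lit 5) (nat_lit 2) (nat_lit 4) (nat_lit 326) (nat_lit 248) (nat_lit 146)))) (XT.nd (nat_lit 78) (nat_lit 0) (nat_lit 0) (XT.lf (nat_lit 0)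 (nat_lit 856324277039) (nat_lit 76) (nat_lit 208848093569) (nat_lit 76) (nat_lit 175842447594) (nat_lit 1) (nat_lit 4) (nat_lit 2) (nat_lit 5) (nat_lit 2) (nat_lit 4) (nat_lit 327) (nat_lit 248) (nat_lit 145)) (XT.nd (nat_lit 78) (nat_lit 0) (nat_lit 0) (XT.lf (nat_lit 0) (nat_lit 938414213635) (nat_lit 76) (nat_lit 217117219558) (nat_lit 76) (nat_lit 184110690982) (nat_lit 1) (nat_lit 4) (nat_lit 2) (nat_lit 5) (nat_lit 2) (nat_lit 4) (nat_lit 328) (nat_lit 248) (nat_lit 144)) (XT.lf (nat_lit 0) (nat_lit 1027070646308) (nat_lit 76) (nat_lit 226048173878) (nat_lit 76) (nat_lit 193040828080) (nat_lit 1) (nat_lit 4) (nat_lit 2) (nat_lit 5) (nat_lit 2) (nat_lit 4) (nat_lit 329) (nat_lit 248) (nat_lit 143)))))) (XT.nd (nat_lit 31512) (nat_lit 0) (nat_lit 2052) (XT.nd (nat_lit 31278) (nat_lit 0) (nat_lit 2280) (XT.nd (nat_lit 31200) (nat_lit 0) (nat_lit 2280) (XT.lf (nat_lit 0) (nat_lit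 1122818946510) (nat_lit 76) (nat_lit 235693880705) (nat_lit 76) (nat_lit 202685778218) (nat_lit 1) (nat_lit 4) (nat_lit 2) (nat_lit 5) (nat_lit 2) (nat_lit 4) (nat_lit 330) (nat_lit 248) (nat_lit 142)) (XT.lf (nat_lit 0) (nat_lit 264877562) (nat_lit 0) (nat_lit 264877562) (nat_lit 380) (nat_lit 3912470100) (nat_lit 31) (nat_lit 5) (nat_lit 31) (nat_lit 3) (nat_lit 36) (nat_lit 3) (nat_lit 249) (nat_lit 249) (nat_lit 222))) (XT.nd (nat_lit 78) (nat_lit 0) (nat_lit 0) (XT.lf (nat_lit 0) (nat_lit 1951252448) (nat_lit 380) (nat_lit 4952778529) (nat_lit 456) (nat_lit 2259737694) (nat_lit 31) (nat_lit 5) (nat_lit 36) (nat_lit 3) (nat_lit 37) (nat_lit 5) (nat_lit 250) (nat_lit 249) (nat_lit 221)) (XT.nd (nat_lit 78) (nat_lit 0) (nat_lit 0) (XT.lf (nat_lit 0) (nat_lit 2849793492) (nat_lit 380) (nat_lit 1340199746) (nat_lit 456) (nat_lit 5281413827) (nat_lit 31) (nat_lit 5) (nat_lit 36) (nat_lit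 3) (nat_lit 37) (nat_lit 5) (nat_lit 251) (nat_lit 249) (nat_lit 220)) (XT.lf (nat_lit 76) (nat_lit 2649740256) (nat_lit 0) (nat_lit 1161703506) (nat_lit 456) (nat_lit 5993666060) (nat_lit 32) (nat_lit 5) (nat_lit 31) (nat_lit 5) (nat_lit 37) (nat_lit 5) (nat_lit 252) (nat_lit 249) (nat_lit 219))))) (XT.nd (nat_lit 234) (nat_lit 304) (nat_lit 0) (XT.nd (nat_lit 78) (nat_lit 0) (nat_lit 0) (XT.lf (nat_lit 0) (nat_lit 4870776564) (nat_lit 380) (nat_lit 3228982494) (nat_lit 456) (nat_lit 2064785411) (nat_lit 32) (nat_lit 5) (nat_lit 37) (nat_lit 5) (nat_lit 38) (nat_lit 5) (nat_lit 253) (nat_lit 249) (nat_lit 218)) (XT.nd (nat_lit 78) (nat_lit 0) (nat_lit 0) (XT.lf (nat_lit 76) (nat_lit 984449309) (nat_lit 0) (nat_lit 5021698876) (nat_lit 456) (nat_lit 4547926502) (nat_lit 33) (nat_lit 5) (nat_lit 32) (nat_lit 5) (nat_lit 38) (nat_lit 5) (nat_lit 254) (nat_lit 249) (nat_lit 217)) (XT.lf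 (nat_lit 76) (nat_lit 5673620552) (nat_lit 0) (nat_lit 1588009528) (nat_lit 456) (nat_lit 3711391258) (nat_lit 33) (nat_lit 5) (nat_lit 32) (nat_lit 5) (nat_lit 38) (nat_lit 5) (nat_lit 255) (nat_lit 249) (nat_lit 216)))) (XT.nd (nat_lit 78) (nat_lit 380) (nat_lit 0) (XT.lf (nat_lit 0) (nat_lit 8614223364) (nat_lit 380) (nat_lit 785427977) (nat_lit 76) (nat_lit 2026650830) (nat_lit 33) (nat_lit 5) (nat_lit 38) (nat_lit 5) (nat_lit 34) (nat_lit 5) (nat_lit 256) (nat_lit 249) (nat_lit 215)) (XT.nd (nat_lit 78) (nat_lit 0) (nat_lit 0) (XT.lf (nat_lit 0) (nat_lit 4215910068) (nat_lit 380) (nat_lit 5951455418) (nat_lit 456) (nat_lit 1741604042) (nat_lit 28) (nat_lit 5) (nat_lit 33) (nat_lit 5) (nat_lit 34) (nat_lit 5) (nat_lit 257) (nat_lit 249) (nat_lit 214)) (XT.lf (nat_lit 0) (nat_lit 9619719459) (nat_lit 380) (nat_lit 2198924551) (nat_lit 456) (nat_lit 614168950) (nat_lit 28) (nat_lit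 5) (nat_lit 33) (nat_lit 5) (nat_lit 34) (nat_lit 5) (nat_lit 258) (nat_lit 249) (nat_lit 213))))))) (XT.nd (nat_lit 858) (nat_lit 456) (nat_lit 0) (XT.nd (nat_lit 390) (nat_lit 532) (nat_lit 0) (XT.nd (nat_lit 156) (nat_lit 228) (nat_lit 0) (XT.nd (nat_lit 78) (nat_lit 0) (nat_lit 0) (XT.lf (nat_lit 0) (nat_lit 635054279) (nat_lit 456) (nat_lit 10516025386) (nat_lit 76) (nat_lit 1841786609) (nat_lit 22) (nat_lit 5) (nat_lit 28) (nat_lit 5) (nat_lit 23) (nat_lit 5) (nat_lit 259) (nat_lit 249) (nat_lit 212)) (XT.lf (nat_lit 0) (nat_lit 2043887486) (nat_lit 456) (nat_lit 5361488446) (nat_lit 76) (nat_lit 6184019342) (nat_lit 22) (nat_lit 5) (nat_lit 28) (nat_lit 5) (nat_lit 23) (nat_lit 5) (nat_lit 260) (nat_lit 249) (nat_lit 211))) (XT.nd (nat_lit 78) (nat_lit 0) (nat_lit 0) (XT.lf (nat_lit 0) (nat_lit 172556592) (nat_lit 228) (nat_lit 3357044374) (nat_lit 304) (nat_lit 10707259765)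 (nat_lit 19) (nat_lit 5) (nat_lit 22) (nat_lit 5) (nat_lit 23) (nat_lit 5) (nat_lit 261) (nat_lit 249) (nat_lit 210)) (XT.nd (nat_lit 78) (nat_lit 0) (nat_lit 0) (XT.lf (nat_lit 0) (nat_lit 5270939636) (nat_lit 304) (nat_lit 8542119161) (nat_lit 76) (nat_lit 1112445428) (nat_lit 19) (nat_lit 5) (nat_lit 23) (nat_lit 5) (nat_lit 20) (nat_lit 5) (nat_lit 262) (nat_lit 249) (nat_lit 209)) (XT.lf (nat_lit 0) (nat_lit 7203553065) (nat_lit 304) (nat_lit 2705854326) (nat_lit 76) (nat_lit 5755972772) (nat_lit 19) (nat_lit 5) (nat_lit 23) (nat_lit 5) (nat_lit 20) (nat_lit 5) (nat_lit 263) (nat_lit 249) (nat_lit 208))))) (XT.nd (nat_lit 234) (nat_lit 228) (nat_lit 0) (XT.nd (nat_lit 78) (nat_lit 152) (nat_lit 0) (XT.lf (nat_lit 0) (nat_lit 3747266060) (nat_lit 152) (nat_lit 5601012558) (nat_lit 228) (nat_lit 7111843590) (nat_lit 17) (nat_lit 5) (nat_lit 19) (nat_lit 5) (nat_lit 20) (nat_lit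 5) (nat_lit 264) (nat_lit 249) (nat_lit 207)) (XT.nd (nat_lit 78) (nat_lit 152) (nat_lit 0) (XT.lf (nat_lit 0) (nat_lit 10833970695) (nat_lit 152) (nat_lit 873512769) (nat_lit 228) (nat_lit 5607783863) (nat_lit 17) (nat_lit 5) (nat_lit 19) (nat_lit 5) (nat_lit 20) (nat_lit 5) (nat_lit 265) (nat_lit 249) (nat_lit 206)) (XT.lf (nat_lit 0) (nat_lit 116575244) (nat_lit 152) (nat_lit 14214536260) (nat_lit 228) (nat_lit 3901894469) (nat_lit 15) (nat_lit 5) (nat_lit 17) (nat_lit 5) (nat_lit 18) (nat_lit 5) (nat_lit 266) (nat_lit 249) (nat_lit 205)))) (XT.nd (nat_lit 78) (nat_lit 228) (nat_lit 0) (XT.lf (nat_lit 0) (nat_lit 7551648769) (nat_lit 152) (nat_lit 9784695218) (nat_lit 228) (nat_lit 1874301905) (nat_lit 15) (nat_lit 5) (nat_lit 17) (nat_lit 5) (nat_lit 18) (nat_lit 5) (nat_lit 267) (nat_lit 249) (nat_lit 204)) (XT.nd (nat_lit 78) (nat_lit 152) (nat_lit 0) (XT.lf (nat_lit 0) (nat_lit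 273293650) (nat_lit 228) (nat_lit 4726859812) (nat_lit 76) (nat_lit 15268038307) (nat_lit 14) (nat_lit 5) (nat_lit 17) (nat_lit 5) (nat_lit 15) (nat_lit 5) (nat_lit 268) (nat_lit 249) (nat_lit 203)) (XT.lf (nat_lit 0) (nat_lit 2541674997) (nat_lit 228) (nat_lit 18589526523) (nat_lit 76) (nat_lit 271400111) (nat_lit 12) (nat_lit 5) (nat_lit 15) (nat_lit 5) (nat_lit 13) (nat_lit 5) (nat_lit 269) (nat_lit 249) (nat_lit 202)))))) (XT.nd (nat_lit 390) (nat_lit 304) (nat_lit 0) (XT.nd (nat_lit 156) (nat_lit 152) (nat_lit 0) (XT.nd (nat_lit 78) (nat_lit 0) (nat_lit 0) (XT.lf (nat_lit 0) (nat_lit 5230419665) (nat_lit 228) (nat_lit 11558439799) (nat_lit 76) (nat_lit 5819954598) (nat_lit 12) (nat_lit 5) (nat_lit 15) (nat_lit 5) (nat_lit 13) (nat_lit 5) (nat_lit 270) (nat_lit 249) (nat_lit 201)) (XT.lf (nat_lit 0) (nat_lit 8112431565) (nat_lit 228) (nat_lit 3995245104) (nat_lit 76) (nat_lit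 11805742669) (nat_lit 12) (nat_lit 5) (nat_lit 15) (nat_lit 5) (nat_lit 13) (nat_lit 5) (nat_lit 271) (nat_lit 249) (nat_lit 200))) (XT.nd (nat_lit 78) (nat_lit 0) (nat_lit 0) (XT.lf (nat_lit 0) (nat_lit 4363138343) (nat_lit 152) (nat_lit 6946584525) (nat_lit 228) (nat_lit 14006030899) (nat_lit 10) (nat_lit 5) (nat_lit 12) (nat_lit 5) (nat_lit 13) (nat_lit 5) (nat_lit 272) (nat_lit 249) (nat_lit 199)) (XT.nd (nat_lit 78) (nat_lit 0) (nat_lit 0) (XT.lf (nat_lit 0) (nat_lit 13589989041) (nat_lit 152) (nat_lit 1262668433) (nat_lit 228) (nat_lit 11970556646) (nat_lit 10) (nat_lit 5) (nat_lit 12) (nat_lit 5) (nat_lit 13) (nat_lit 5) (nat_lit 273) (nat_lit 249) (nat_lit 198)) (XT.lf (nat_lit 0) (nat_lit 18778173056) (nat_lit 228) (nat_lit 5040310987) (nat_lit 76) (nat_lit 4624974051) (nat_lit 10) (nat_lit 5) (nat_lit 13) (nat_lit 5) (nat_lit 11) (nat_lit 4) (nat_lit 274) (nat_lit 249) (nat_lit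 197))))) (XT.nd (nat_lit 234) (nat_lit 228) (nat_lit 0) (XT.nd (nat_lit 78) (nat_lit 0) (nat_lit 0) (XT.lf (nat_lit 0) (nat_lit 3947954060) (nat_lit 76) (nat_lit 19180742306) (nat_lit 152) (nat_lit 7055857615) (nat_lit 9) (nat_lit 5) (nat_lit 10) (nat_lit 5) (nat_lit 11) (nat_lit 4) (nat_lit 275) (nat_lit 249) (nat_lit 196)) (XT.nd (nat_lit 78) (nat_lit 0) (nat_lit 0) (XT.lf (nat_lit 0) (nat_lit 13917776318) (nat_lit 76) (nat_lit 14031179786) (nat_lit 152) (nat_lit 4106347456) (nat_lit 9) (nat_lit 5) (nat_lit 10) (nat_lit 5) (nat_lit 11) (nat_lit 4) (nat_lit 276) (nat_lit 249) (nat_lit 195)) (XT.lf (nat_lit 0) (nat_lit 24662822371) (nat_lit 76) (nat_lit 8477091592) (nat_lit 152) (nat_lit 937087015) (nat_lit 9) (nat_lit 5) (nat_lit 10) (nat_lit 5) (nat_lit 11) (nat_lit 4) (nat_lit 277) (nat_lit 249) (nat_lit 194)))) (XT.nd (nat_lit 78) (nat_lit 152) (nat_lit 0) (XT.lf (nat_lit 0) (nat_lit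 2347109862) (nat_lit 152) (nat_lit 74280604) (nat_lit 76) (nat_lit 33835482561) (nat_lit 8) (nat_lit 5) (nat_lit 10) (nat_lit 5) (nat_lit 9) (nat_lit 5) (nat_lit 278) (nat_lit 249) (nat_lit 193)) (XT.nd (nat_lit 78) (nat_lit 0) (nat_lit 0) (XT.lf (nat_lit 0) (nat_lit 6188662130) (nat_lit 228) (nat_lit 28202758066) (nat_lit 76) (nat_lit 4190222383) (nat_lit 6) (nat_lit 5) (nat_lit 9) (nat_lit 5) (nat_lit 7) (nat_lit 4) (nat_lit 279) (nat_lit 249) (nat_lit 192)) (XT.lf (nat_lit 0) (nat_lit 10389661176) (nat_lit 228) (nat_lit 19503009131) (nat_lit 76) (nat_lit 11195622717) (nat_lit 6) (nat_lit 5) (nat_lit 9) (nat_lit 5) (nat_lit 7) (nat_lit 4) (nat_lit 280) (nat_lit 249) (nat_lit 191))))))))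
noncomputable def xc68 : XT := (XT.nd (nat_lit 1638) (nat_lit 76) (nat_lit 0) (XT.nd (nat_lit 780) (nat_lit 76) (nat_lit 0) (XT.nd (nat_lit 390) (nat_lit 152) (nat_lit 0) (XT.nd (nat_lit 156) (nat_lit 76) (nat_lit 0) (XT.nd (nat_lit 78) (nat_lit 0) (nat_lit 0) (XT.lf (nat_lit 0) (nat_lit 14914837945) (nat_lit 228) (nat_lit 10126131344) (nat_lit 76) (nat_lit 18755522410) (nat_lit 6) (nat_lit 5) (nat_lit 9) (nat_lit 5) (nat_lit 7) (nat_lit 4) (nat_lit 281) (nat_lit 249) (nat_lit 190)) (XT.lf (nat_lit 0) (nat_lit 19791008299) (nat_lit 228) (nat_lit 16558019) (nat_lit 76) (nat_lit 26914720869) (nat_lit 6) (nat_lit 5) (nat_lit 9) (nat_lit 5) (nat_lit 7) (nat_lit 4) (nat_lit 282) (nat_lit 249) (nat_lit 189))) (XT.nd (nat_lit 78) (nat_lit 0) (nat_lit 0) (XT.lf (nat_lit 0) (nat_lit 11458836852) (nat_lit 76) (nat_lit 13863816510) (nat_lit 152) (nat_lit 24538317348) (nat_lit 5) (nat_lit 5)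 (nat_lit 6) (nat_lit 5) (nat_lit 7) (nat_lit 4) (nat_lit 283) (nat_lit 249) (nat_lit 188)) (XT.nd (nat_lit 78) (nat_lit 0) (nat_lit 0) (XT.lf (nat_lit 0) (nat_lit 23837452395) (nat_lit 76) (nat_lit 7450003161) (nat_lit 152) (nat_lit 21964094137) (nat_lit 5) (nat_lit 5) (nat_lit 6) (nat_lit 5) (nat_lit 7) (nat_lit 4) (nat_lit 284) (nat_lit 249) (nat_lit 187)) (XT.lf (nat_lit 0) (nat_lit 37191771451) (nat_lit 76) (nat_lit 528571214) (nat_lit 152) (nat_lit 19193807324) (nat_lit 5) (nat_lit 5) (nat_lit 6) (nat_lit 5) (nat_lit 7) (nat_lit 4) (nat_lit 285) (nat_lit 249) (nat_lit 186))))) (XT.nd (nat_lit 156) (nat_lit 76) (nat_lit 0) (XT.nd (nat_lit 78) (nat_lit 76) (nat_lit 0) (XT.lf (nat_lit 0) (nat_lit 44826378628) (nat_lit 152) (nat_lit 9436488297) (nat_lit 0) (nat_lit 6594253520) (nat_lit 5) (nat_lit 5) (nat_lit 7) (nat_lit 4) (nat_lit 5) (nat_lit 4) (nat_lit 286) (nat_lit 249) (nat_lit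 185)) (XT.lf (nat_lit 0) (nat_lit 1732136292) (nat_lit 76) (nat_lit 50816233942) (nat_lit 76) (nat_lit 12563400824) (nat_lit 4) (nat_lit 4) (nat_lit 5) (nat_lit 5) (nat_lit 5) (nat_lit 4) (nat_lit 287) (nat_lit 249) (nat_lit 184))) (XT.nd (nat_lit 78) (nat_lit 76) (nat_lit 0) (XT.lf (nat_lit 0) (nat_lit 14318186617) (nat_lit 76) (nat_lit 46820310780) (nat_lit 76) (nat_lit 8548303578) (nat_lit 4) (nat_lit 4) (nat_lit 5) (nat_lit 5) (nat_lit 5) (nat_lit 4) (nat_lit 288) (nat_lit 249) (nat_lit 183)) (XT.nd (nat_lit 78) (nat_lit 76) (nat_lit 0) (XT.lf (nat_lit 0) (nat_lit 27899337929) (nat_lit 76) (nat_lit 42509428207) (nat_lit 76) (nat_lit 4219667223) (nat_lit 4) (nat_lit 4) (nat_lit 5) (nat_lit 5) (nat_lit 5) (nat_lit 4) (nat_lit 289) (nat_lit 249) (nat_lit 182)) (XT.lf (nat_lit 0) (nat_lit 425740668) (nat_lit 152) (nat_lit 37420659080) (nat_lit 76) (nat_lit 42118689952) (nat_lit 3)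 (nat_lit 5) (nat_lit 5) (nat_lit 5) (nat_lit 4) (nat_lit 4) (nat_lit 290) (nat_lit 249) (nat_lit 181)))))) (XT.nd (nat_lit 390) (nat_lit 0) (nat_lit 0) (XT.nd (nat_lit 156) (nat_lit 76) (nat_lit 0) (XT.nd (nat_lit 78) (nat_lit 0) (nat_lit 0) (XT.lf (nat_lit 0) (nat_lit 5208563800) (nat_lit 152) (nat_lit 27487607971) (nat_lit 76) (nat_lit 53024265752) (nat_lit 3) (nat_lit 5) (nat_lit 5) (nat_lit 5) (nat_lit 4) (nat_lit 4) (nat_lit 291) (nat_lit 249) (nat_lit 180)) (XT.lf (nat_lit 0) (nat_lit 10368229673) (nat_lit 152) (nat_lit 16769596480) (nat_lit 76) (nat_lit 64798875090) (nat_lit 3) (nat_lit 5) (nat_lit 5) (nat_lit 5) (nat_lit 4) (nat_lit 4) (nat_lit 292) (nat_lit 249) (nat_lit 179))) (XT.nd (nat_lit 78) (nat_lit 76) (nat_lit 0) (XT.lf (nat_lit 0) (nat_lit 15935314084) (nat_lit 152) (nat_lit 5203110465) (nat_lit 76) (nat_lit 77512293429) (nat_lit 3) (nat_lit 5) (nat_lit 5) (nat_lit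 5) (nat_lit 4) (nat_lit 4) (nat_lit 293) (nat_lit 249) (nat_lit 178)) (XT.nd (nat_lit 78) (nat_lit 0) (nat_lit 0) (XT.lf (nat_lit 0) (nat_lit 7663764765) (nat_lit 76) (nat_lit 14463356124) (nat_lit 152) (nat_lit 83760408506) (nat_lit 2) (nat_lit 5) (nat_lit 3) (nat_lit 5) (nat_lit 4) (nat_lit 4) (nat_lit 294) (nat_lit 249) (nat_lit 177)) (XT.lf (nat_lit 0) (nat_lit 21847803481) (nat_lit 76) (nat_lit 7103945586) (nat_lit 152) (nat_lit 84740558693) (nat_lit 2) (nat_lit 5) (nat_lit 3) (nat_lit 5) (nat_lit 4) (nat_lit 4) (nat_lit 295) (nat_lit 249) (nat_lit 176))))) (XT.nd (nat_lit 234) (nat_lit 0) (nat_lit 0) (XT.nd (nat_lit 78) (nat_lit 0) (nat_lit 0) (XT.lf (nat_lit 0) (nat_lit 36338146368) (nat_lit 152) (nat_lit 84982998712) (nat_lit 0) (nat_lit 799078090) (nat_lit 2) (nat_lit 5) (nat_lit 4) (nat_lit 4) (nat_lit 2) (nat_lit 4) (nat_lit 296) (nat_lit 249) (nat_lit 175)) (XT.nd (nat_lit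 78) (nat_lit 0) (nat_lit 0) (XT.lf (nat_lit 0) (nat_lit 44495802604) (nat_lit 152) (nat_lit 77764305725) (nat_lit 0) (nat_lit 8947853015) (nat_lit 2) (nat_lit 5) (nat_lit 4) (nat_lit 4) (nat_lit 2) (nat_lit 4) (nat_lit 297) (nat_lit 249) (nat_lit 174)) (XT.lf (nat_lit 0) (nat_lit 53302209378) (nat_lit 152) (nat_lit 69974797815) (nat_lit 0) (nat_lit 17746036353) (nat_lit 2) (nat_lit 5) (nat_lit 4) (nat_lit 4) (nat_lit 2) (nat_lit 4) (nat_lit 298) (nat_lit 249) (nat_lit 173)))) (XT.nd (nat_lit 78) (nat_lit 0) (nat_lit 0) (XT.lf (nat_lit 0) (nat_lit 62809552807) (nat_lit 152) (nat_lit 61568314935) (nat_lit 0) (nat_lit 27245765489) (nat_lit 2) (nat_lit 5) (nat_lit 4) (nat_lit 4) (nat_lit 2) (nat_lit 4) (nat_lit 299) (nat_lit 249) (nat_lit 172)) (XT.nd (nat_lit 78) (nat_lit 0) (nat_lit 0) (XT.lf (nat_lit 0) (nat_lit 73074172701) (nat_lit 152) (nat_lit 52495040891) (nat_lit 0) (nat_lit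 37503335113) (nat_lit 2) (nat_lit 5) (nat_lit 4) (nat_lit 4) (nat_lit 2) (nat_lit 4) (nat_lit 300) (nat_lit 249) (nat_lit 171)) (XT.lf (nat_lit 0) (nat_lit 84156896439) (nat_lit 152) (nat_lit 42701208133) (nat_lit 0) (nat_lit 48579530822) (nat_lit 2) (nat_lit 5) (nat_lit 4) (nat_lit 4) (nat_lit 2) (nat_lit 4) (nat_lit 301) (nat_lit 249) (nat_lit 170))))))) (XT.nd (nat_lit 858) (nat_lit 0) (nat_lit 0) (XT.nd (nat_lit 390) (nat_lit 0) (nat_lit 0) (XT.nd (nat_lit 156) (nat_lit 76) (nat_lit 0) (XT.nd (nat_lit 78) (nat_lit 0) (nat_lit 0) (XT.lf (nat_lit 0) (nat_lit 96123399421) (nat_lit 152) (nat_lit 32128779134) (nat_lit 0) (nat_lit 60539989333) (nat_lit 2) (nat_lit 5) (nat_lit 4) (nat_lit 4) (nat_lit 2) (nat_lit 4) (nat_lit 302) (nat_lit 249) (nat_lit 169)) (XT.lf (nat_lit 0) (nat_lit 109044594256) (nat_lit 152) (nat_lit 20715102461) (nat_lit 0) (nat_lit 73455587436) (nat_lit 2) (nat_lit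 5) (nat_lit 4) (nat_lit 4) (nat_lit 2) (nat_lit 4) (nat_lit 303) (nat_lit 249) (nat_lit 168))) (XT.nd (nat_lit 78) (nat_lit 76) (nat_lit 0) (XT.lf (nat_lit 0) (nat_lit 122997050988) (nat_lit 152) (nat_lit 8392541513) (nat_lit 0) (nat_lit 87402862008) (nat_lit 2) (nat_lit 5) (nat_lit 4) (nat_lit 4) (nat_lit 2) (nat_lit 4) (nat_lit 304) (nat_lit 249) (nat_lit 167)) (XT.nd (nat_lit 78) (nat_lit 0) (nat_lit 0) (XT.lf (nat_lit 0) (nat_lit 5170579627) (nat_lit 76) (nat_lit 133017223780) (nat_lit 76) (nat_lit 97418236504) (nat_lit 1) (nat_lit 4) (nat_lit 2) (nat_lit 5) (nat_lit 2) (nat_lit 4) (nat_lit 305) (nat_lit 249) (nat_lit 166)) (XT.lf (nat_lit 0) (nat_lit 20292242398) (nat_lit 76) (nat_lit 134528862709) (nat_lit 76) (nat_lit 98925432566) (nat_lit 1) (nat_lit 4) (nat_lit 2) (nat_lit 5) (nat_lit 2) (nat_lit 4) (nat_lit 306) (nat_lit 249) (nat_lit 165))))) (XT.nd (nat_lit 234) (nat_lit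 0) (nat_lit 0) (XT.nd (nat_lit 78) (nat_lit 0) (nat_lit 0) (XT.lf (nat_lit 0) (nat_lit 36620120289) (nat_lit 76) (nat_lit 136162934106) (nat_lit 76) (nat_lit 100555390198) (nat_lit 1) (nat_lit 4) (nat_lit 2) (nat_lit 5) (nat_lit 2) (nat_lit 4) (nat_lit 307) (nat_lit 249) (nat_lit 164)) (XT.nd (nat_lit 78) (nat_lit 0) (nat_lit 0) (XT.lf (nat_lit 0) (nat_lit 54250971096) (nat_lit 76) (nat_lit 137929121357) (nat_lit 76) (nat_lit 102317768408) (nat_lit 1) (nat_lit 4) (nat_lit 2) (nat_lit 5) (nat_lit 2) (nat_lit 4) (nat_lit 308) (nat_lit 249) (nat_lit 163)) (XT.lf (nat_lit 0) (nat_lit 73289273935) (nat_lit 76) (nat_lit 139837890758) (nat_lit 76) (nat_lit 104223010918) (nat_lit 1) (nat_lit 4) (nat_lit 2) (nat_lit 5) (nat_lit 2) (nat_lit 4) (nat_lit 309) (nat_lit 249) (nat_lit 162)))) (XT.nd (nat_lit 78) (nat_lit 0) (nat_lit 0) (XT.lf (nat_lit 0) (nat_lit 93847848377) (nat_lit 76) (nat_lit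 141900553535) (nat_lit 76) (nat_lit 106282408055) (nat_lit 1) (nat_lit 4) (nat_lit 2) (nat_lit 5) (nat_lit 2) (nat_lit 4) (nat_lit 310) (nat_lit 249) (nat_lit 161)) (XT.nd (nat_lit 78) (nat_lit 0) (nat_lit 0) (XT.lf (nat_lit 0) (nat_lit 116048523013) (nat_lit 76) (nat_lit 144129332873) (nat_lit 76) (nat_lit 108508163653) (nat_lit 1) (nat_lit 4) (nat_lit 2) (nat_lit 5) (nat_lit 2) (nat_lit 4) (nat_lit 311) (nat_lit 249) (nat_lit 160)) (XT.lf (nat_lit 0) (nat_lit 140022857395) (nat_lit 76) (nat_lit 146537436355) (nat_lit 76) (nat_lit 110913467375) (nat_lit 1) (nat_lit 4) (nat_lit 2) (nat_lit 5) (nat_lit 2) (nat_lit 4) (nat_lit 312) (nat_lit 249) (nat_lit 159)))))) (XT.nd (nat_lit 390) (nat_lit 0) (nat_lit 0) (XT.nd (nat_lit 156) (nat_lit 0) (nat_lit 0) (XT.nd (nat_lit 78) (nat_lit 0) (nat_lit 0) (XT.lf (nat_lit 0) (nat_lit 165912921653) (nat_lit 76) (nat_lit 149139134223) (nat_lit 76)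 (nat_lit 113512572873) (nat_lit 1) (nat_lit 4) (nat_lit 2) (nat_lit 5) (nat_lit 2) (nat_lit 4) (nat_lit 313) (nat_lit 249) (nat_lit 158)) (XT.lf (nat_lit 0) (nat_lit 193872138390) (nat_lit 76) (nat_lit 151949843947) (nat_lit 76) (nat_lit 116320882254) (nat_lit 1) (nat_lit 4) (nat_lit 2) (nat_lit 5) (nat_lit 2) (nat_lit 4) (nat_lit 314) (nat_lit 249) (nat_lit 157))) (XT.nd (nat_lit 78) (nat_lit 0) (nat_lit 0) (XT.lf (nat_lit 0) (nat_lit 224066191854) (nat_lit 76) (nat_lit 154986221583) (nat_lit 76) (nat_lit 119355037351) (nat_lit 1) (nat_lit 4) (nat_lit 2) (nat_lit 5) (nat_lit 2) (nat_lit 4) (nat_lit 315) (nat_lit 249) (nat_lit 156)) (XT.nd (nat_lit 78) (nat_lit 0) (nat_lit 0) (XT.lf (nat_lit 0) (nat_lit 256674009768) (nat_lit 76) (nat_lit 158266260481) (nat_lit 76) (nat_lit 122633018342) (nat_lit 1) (nat_lit 4) (nat_lit 2) (nat_lit 5) (nat_lit 2) (nat_lit 4) (nat_lit 316) (nat_lit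 249) (nat_lit 155)) (XT.lf (nat_lit 0) (nat_lit 291888823647) (nat_lit 76) (nat_lit 161809397908) (nat_lit 76) (nat_lit 126174250300) (nat_lit 1) (nat_lit 4) (nat_lit 2) (nat_lit 5) (nat_lit 2) (nat_lit 4) (nat_lit 317) (nat_lit 249) (nat_lit 154))))) (XT.nd (nat_lit 234) (nat_lit 0) (nat_lit 0) (XT.nd (nat_lit 78) (nat_lit 0) (nat_lit 0) (XT.lf (nat_lit 0) (nat_lit 329919313869) (nat_lit 76) (nat_lit 165636630235) (nat_lit 76) (nat_lit 129999718303) (nat_lit 1) (nat_lit 4) (nat_lit 2) (nat_lit 5) (nat_lit 2) (nat_lit 4) (nat_lit 318) (nat_lit 249) (nat_lit 153)) (XT.nd (nat_lit 78) (nat_lit 0) (nat_lit 0) (XT.lf (nat_lit 0) (nat_lit 370990846301) (nat_lit 76) (nat_lit 169770637356) (nat_lit 76) (nat_lit 134132091792) (nat_lit 1) (nat_lit 4) (nat_lit 2) (nat_lit 5) (nat_lit 2) (nat_lit 4) (nat_lit 319) (nat_lit 249) (nat_lit 152)) (XT.lf (nat_lit 0) (nat_lit 415346807803) (nat_lit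 76) (nat_lit 174235917091) (nat_lit 76) (nat_lit 138595858904) (nat_lit 1) (nat_lit 4) (nat_lit 2) (nat_lit 5) (nat_lit 2) (nat_lit 4) (nat_lit 320) (nat_lit 249) (nat_lit 151)))) (XT.nd (nat_lit 78) (nat_lit 0) (nat_lit 0) (XT.lf (nat_lit 0) (nat_lit 463250048517) (nat_lit 76) (nat_lit 179058930358) (nat_lit 76) (nat_lit 143417471594) (nat_lit 1) (nat_lit 4) (nat_lit 2) (nat_lit 5) (nat_lit 2) (nat_lit 4) (nat_lit 321) (nat_lit 249) (nat_lit 150)) (XT.nd (nat_lit 78) (nat_lit 0) (nat_lit 0) (XT.lf (nat_lit 0) (nat_lit 514984439500) (nat_lit 76) (nat_lit 184268257976) (nat_lit 76) (nat_lit 148625502382) (nat_lit 1) (nat_lit 4) (nat_lit 2) (nat_lit 5) (nat_lit 2) (nat_lit 4) (nat_lit 322) (nat_lit 249) (nat_lit 149)) (XT.lf (nat_lit 0) (nat_lit 570856554918) (nat_lit 76) (nat_lit 189894770034) (nat_lit 76) (nat_lit 154250813671) (nat_lit 1) (nat_lit 4) (nat_lit 2) (nat_lit 5) (nat_lit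 2) (nat_lit 4) (nat_lit 323) (nat_lit 249) (nat_lit 148))))))))
noncomputable def xc69 : XT := (XT.nd (nat_lit 32916) (nat_lit 0) (nat_lit 304) (XT.nd (nat_lit 32058) (nat_lit 0) (nat_lit 1368) (XT.nd (nat_lit 390) (nat_lit 0) (nat_lit 0) (XT.nd (nat_lit 156) (nat_lit 0) (nat_lit 0) (XT.nd (nat_lit 78) (nat_lit 0) (nat_lit 0) (XT.lf (nat_lit 0) (nat_lit 631197488791) (nat_lit 76) (nat_lit 195971808827) (nat_lit 76) (nat_lit 160326740640) (nat_lit 1) (nat_lit 4) (nat_lit 2) (nat_lit 5) (nat_lit 2) (nat_lit 4) (nat_lit 324) (nat_lit 249) (nat_lit 147)) (XT.lf (nat_lit 0) (nat_lit 696364817023) (nat_lit 76) (nat_lit 202535386435) (nat_lit 76) (nat_lit 166889288782) (nat_lit 1) (nat_lit 4) (nat_lit 2) (nat_lit 5) (nat_lit 2) (nat_lit 4) (nat_lit 325) (nat_lit 249) (nat_lit 146))) (XT.nd (nat_lit 78) (nat_lit 0) (nat_lit 0) (XT.lf (nat_lit 0) (nat_lit 766744716373) (nat_lit 76) (nat_lit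 209624398133) (nat_lit 76) (nat_lit 173977347272) (nat_lit 1) (nat_lit 4) (nat_lit 2) (nat_lit 5) (nat_lit 2) (nat_lit 4) (nat_lit 326) (nat_lit 249) (nat_lit 145)) (XT.nd (nat_lit 78) (nat_lit 0) (nat_lit 0) (XT.lf (nat_lit 0) (nat_lit 842754252911) (nat_lit 76) (nat_lit 217280852880) (nat_lit 76) (nat_lit 181632919418) (nat_lit 1) (nat_lit 4) (nat_lit 2) (nat_lit 5) (nat_lit 2) (nat_lit 4) (nat_lit 327) (nat_lit 249) (nat_lit 144)) (XT.lf (nat_lit 0) (nat_lit 924843853521) (nat_lit 76) (nat_lit 225550122260) (nat_lit 76) (nat_lit 189901371575) (nat_lit 1) (nat_lit 4) (nat_lit 2) (nat_lit 5) (nat_lit 2) (nat_lit 4) (nat_lit 328) (nat_lit 249) (nat_lit 143))))) (XT.nd (nat_lit 31434) (nat_lit 0) (nat_lit 2280) (XT.nd (nat_lit 78) (nat_lit 0) (nat_lit 0) (XT.lf (nat_lit 0) (nat_lit 1013499975096) (nat_lit 76) (nat_lit 234481209350) (nat_lit 76) (nat_lit 198831701976) (nat_lit 1) (nat_lit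 4) (nat_lit 2) (nat_lit 5) (nat_lit 2) (nat_lit 4) (nat_lit 329) (nat_lit 249) (nat_lit 142)) (XT.nd (nat_lit 31278) (nat_lit 0) (nat_lit 2280) (XT.lf (nat_lit 0) (nat_lit 1109247987244) (nat_lit 76) (nat_lit 244127039111) (nat_lit 76) (nat_lit 208476831100) (nat_lit 1) (nat_lit 4) (nat_lit 2) (nat_lit 5) (nat_lit 2) (nat_lit 4) (nat_lit 330) (nat_lit 249) (nat_lit 141)) (XT.lf (nat_lit 0) (nat_lit 672618734) (nat_lit 0) (nat_lit 672618734) (nat_lit 380) (nat_lit 3382601830) (nat_lit 31) (nat_lit 5) (nat_lit 31) (nat_lit 3) (nat_lit 36) (nat_lit 3) (nat_lit 250) (nat_lit 250) (nat_lit 220)))) (XT.nd (nat_lit 78) (nat_lit 0) (nat_lit 0) (XT.lf (nat_lit 0) (nat_lit 3521807040) (nat_lit 380) (nat_lit 4486757345) (nat_lit 456) (nat_lit 1760490557) (nat_lit 31) (nat_lit 5) (nat_lit 36) (nat_lit 3) (nat_lit 37) (nat_lit 5) (nat_lit 251) (nat_lit 250) (nat_lit 219)) (XT.nd (nat_lit 78) (nat_lit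 0) (nat_lit 0) (XT.lf (nat_lit 0) (nat_lit 4387456968) (nat_lit 380) (nat_lit 649042146) (nat_lit 456) (nat_lit 5074273089) (nat_lit 31) (nat_lit 5) (nat_lit 36) (nat_lit 3) (nat_lit 37) (nat_lit 5) (nat_lit 252) (nat_lit 250) (nat_lit 218)) (XT.lf (nat_lit 76) (nat_lit 3639881067) (nat_lit 0) (nat_lit 1707859665) (nat_lit 456) (nat_lit 5130699741) (nat_lit 32) (nat_lit 5) (nat_lit 31) (nat_lit 5) (nat_lit 37) (nat_lit 5) (nat_lit 253) (nat_lit 250) (nat_lit 217)))))) (XT.nd (nat_lit 390) (nat_lit 684) (nat_lit 0) (XT.nd (nat_lit 156) (nat_lit 304) (nat_lit 0) (XT.nd (nat_lit 78) (nat_lit 0) (nat_lit 0) (XT.lf (nat_lit 0) (nat_lit 6390514169) (nat_lit 380) (nat_lit 2653838432) (nat_lit 456) (nat_lit 1831312704) (nat_lit 32) (nat_lit 5) (nat_lit 37) (nat_lit 5) (nat_lit 38) (nat_lit 5) (nat_lit 254) (nat_lit 250) (nat_lit 216)) (XT.lf (nat_lit 76) (nat_lit 1875567595) (nat_lit 0) (nat_lit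 5676975965) (nat_lit 456) (nat_lit 3749810114) (nat_lit 33) (nat_lit 5) (nat_lit 32) (nat_lit 5) (nat_lit 38) (nat_lit 5) (nat_lit 255) (nat_lit 250) (nat_lit 215))) (XT.nd (nat_lit 78) (nat_lit 304) (nat_lit 0) (XT.lf (nat_lit 76) (nat_lit 6879697550) (nat_lit 0) (nat_lit 1949810640) (nat_lit 456) (nat_lit 2932422459) (nat_lit 33) (nat_lit 5) (nat_lit 32) (nat_lit 5) (nat_lit 38) (nat_lit 5) (nat_lit 256) (nat_lit 250) (nat_lit 214)) (XT.nd (nat_lit 78) (nat_lit 380) (nat_lit 0) (XT.lf (nat_lit 0) (nat_lit 10211973929) (nat_lit 380) (nat_lit 64219862) (nat_lit 76) (nat_lit 1982285964) (nat_lit 33) (nat_lit 5) (nat_lit 38) (nat_lit 5) (nat_lit 34) (nat_lit 5) (nat_lit 257) (nat_lit 250) (nat_lit 213)) (XT.lf (nat_lit 0) (nat_lit 5317376055) (nat_lit 380) (nat_lit 6523065587) (nat_lit 456) (nat_lit 943917186) (nat_lit 28) (nat_lit 5) (nat_lit 33) (nat_lit 5) (nat_lit 34) (nat_lit 5)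 (nat_lit 258) (nat_lit 250) (nat_lit 212))))) (XT.nd (nat_lit 234) (nat_lit 228) (nat_lit 0) (XT.nd (nat_lit 78) (nat_lit 380) (nat_lit 0) (XT.lf (nat_lit 0) (nat_lit 194084058) (nat_lit 456) (nat_lit 2263867980) (nat_lit 76) (nat_lit 10897492633) (nat_lit 27) (nat_lit 5) (nat_lit 33) (nat_lit 5) (nat_lit 28) (nat_lit 5) (nat_lit 259) (nat_lit 250) (nat_lit 211)) (XT.nd (nat_lit 78) (nat_lit 0) (nat_lit 0) (XT.lf (nat_lit 0) (nat_lit 1465782283) (nat_lit 456) (nat_lit 10547915175) (nat_lit 76) (nat_lit 1949414333) (nat_lit 22) (nat_lit 5) (nat_lit 28) (nat_lit 5) (nat_lit 23) (nat_lit 5) (nat_lit 260) (nat_lit 250) (nat_lit 210)) (XT.lf (nat_lit 0) (nat_lit 2929550023) (nat_lit 456) (nat_lit 5040970260) (nat_lit 76) (nat_lit 6641967552) (nat_lit 22) (nat_lit 5) (nat_lit 28) (nat_lit 5) (nat_lit 23) (nat_lit 5) (nat_lit 261) (nat_lit 250) (nat_lit 209)))) (XT.nd (nat_lit 78) (nat_lit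 0) (nat_lit 0) (XT.lf (nat_lit 0) (nat_lit 916825285) (nat_lit 228) (nat_lit 3581370270) (nat_lit 304) (nat_lit 10816894675) (nat_lit 19) (nat_lit 5) (nat_lit 22) (nat_lit 5) (nat_lit 23) (nat_lit 5) (nat_lit 262) (nat_lit 250) (nat_lit 208)) (XT.nd (nat_lit 78) (nat_lit 0) (nat_lit 0) (XT.lf (nat_lit 0) (nat_lit 6328994833) (nat_lit 304) (nat_lit 8493896463) (nat_lit 76) (nat_lit 1240352828) (nat_lit 19) (nat_lit 5) (nat_lit 23) (nat_lit 5) (nat_lit 20) (nat_lit 5) (nat_lit 263) (nat_lit 250) (nat_lit 207)) (XT.lf (nat_lit 0) (nat_lit 8369078075) (nat_lit 304) (nat_lit 2244922458) (nat_lit 76) (nat_lit 6252480007) (nat_lit 19) (nat_lit 5) (nat_lit 23) (nat_lit 5) (nat_lit 20) (nat_lit 5) (nat_lit 264) (nat_lit 250) (nat_lit 206))))))) (XT.nd (nat_lit 858) (nat_lit 380) (nat_lit 0) (XT.nd (nat_lit 390) (nat_lit 304) (nat_lit 0) (XT.nd (nat_lit 156) (nat_lit 228) (nat_lit 0) (XT.nd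 (nat_lit 78) (nat_lit 0) (nat_lit 0) (XT.lf (nat_lit 0) (nat_lit 4707298187) (nat_lit 152) (nat_lit 5950315070) (nat_lit 228) (nat_lit 7069779852) (nat_lit 17) (nat_lit 5) (nat_lit 19) (nat_lit 5) (nat_lit 20) (nat_lit 5) (nat_lit 265) (nat_lit 250) (nat_lit 205)) (XT.lf (nat_lit 0) (nat_lit 12312031722) (nat_lit 152) (nat_lit 851932224) (nat_lit 228) (nat_lit 5490655438) (nat_lit 17) (nat_lit 5) (nat_lit 19) (nat_lit 5) (nat_lit 20) (nat_lit 5) (nat_lit 266) (nat_lit 250) (nat_lit 204))) (XT.nd (nat_lit 78) (nat_lit 76) (nat_lit 0) (XT.lf (nat_lit 0) (nat_lit 764331703) (nat_lit 152) (nat_lit 15212031747) (nat_lit 228) (nat_lit 3671420122) (nat_lit 15) (nat_lit 5) (nat_lit 17) (nat_lit 5) (nat_lit 18) (nat_lit 5) (nat_lit 267) (nat_lit 250) (nat_lit 203)) (XT.nd (nat_lit 78) (nat_lit 76) (nat_lit 0) (XT.lf (nat_lit 0) (nat_lit 8746919966) (nat_lit 152) (nat_lit 10438149156) (nat_lit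 228) (nat_lit 1521814664) (nat_lit 15) (nat_lit 5) (nat_lit 17) (nat_lit 5) (nat_lit 18) (nat_lit 5) (nat_lit 268) (nat_lit 250) (nat_lit 202)) (XT.lf (nat_lit 0) (nat_lit 737099494) (nat_lit 228) (nat_lit 4531240462) (nat_lit 76) (nat_lit 16582806732) (nat_lit 14) (nat_lit 5) (nat_lit 17) (nat_lit 5) (nat_lit 15) (nat_lit 5) (nat_lit 269) (nat_lit 250) (nat_lit 201))))) (XT.nd (nat_lit 234) (nat_lit 152) (nat_lit 0) (XT.nd (nat_lit 78) (nat_lit 0) (nat_lit 0) (XT.lf (nat_lit 0) (nat_lit 3170949584) (nat_lit 228) (nat_lit 19484006676) (nat_lit 76) (nat_lit 422866187) (nat_lit 12) (nat_lit 5) (nat_lit 15) (nat_lit 5) (nat_lit 13) (nat_lit 5) (nat_lit 270) (nat_lit 250) (nat_lit 200)) (XT.nd (nat_lit 78) (nat_lit 0) (nat_lit 0) (XT.lf (nat_lit 0) (nat_lit 6043242671) (nat_lit 228) (nat_lit 11934335382) (nat_lit 76) (nat_lit 6405693620) (nat_lit 12) (nat_lit 5) (nat_lit 15) (nat_lit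 5) (nat_lit 13) (nat_lit 5) (nat_lit 271) (nat_lit 250) (nat_lit 199)) (XT.lf (nat_lit 0) (nat_lit 9126601491) (nat_lit 228) (nat_lit 3806735452) (nat_lit 76) (nat_lit 12861445281) (nat_lit 12) (nat_lit 5) (nat_lit 15) (nat_lit 5) (nat_lit 13) (nat_lit 5) (nat_lit 272) (nat_lit 250) (nat_lit 198)))) (XT.nd (nat_lit 78) (nat_lit 0) (nat_lit 0) (XT.lf (nat_lit 0) (nat_lit 5207454639) (nat_lit 152) (nat_lit 7357082570) (nat_lit 228) (nat_lit 14746162245) (nat_lit 10) (nat_lit 5) (nat_lit 12) (nat_lit 5) (nat_lit 13) (nat_lit 5) (nat_lit 273) (nat_lit 250) (nat_lit 197)) (XT.nd (nat_lit 78) (nat_lit 0) (nat_lit 0) (XT.lf (nat_lit 0) (nat_lit 15135767079) (nat_lit 152) (nat_lit 1229210874) (nat_lit 228) (nat_lit 12576024209) (nat_lit 10) (nat_lit 5) (nat_lit 12) (nat_lit 5) (nat_lit 13) (nat_lit 5) (nat_lit 274) (nat_lit 250) (nat_lit 196)) (XT.lf (nat_lit 0) (nat_lit 20583521264) (nat_lit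 228) (nat_lit 4995930337) (nat_lit 76) (nat_lit 5113253687) (nat_lit 10) (nat_lit 5) (nat_lit 13) (nat_lit 5) (nat_lit 11) (nat_lit 4) (nat_lit 275) (nat_lit 250) (nat_lit 195)))))) (XT.nd (nat_lit 390) (nat_lit 76) (nat_lit 0) (XT.nd (nat_lit 156) (nat_lit 228) (nat_lit 0) (XT.nd (nat_lit 78) (nat_lit 0) (nat_lit 0) (XT.lf (nat_lit 0) (nat_lit 4700064128) (nat_lit 76) (nat_lit 20570063270) (nat_lit 152) (nat_lit 7304064979) (nat_lit 9) (nat_lit 5) (nat_lit 10) (nat_lit 5) (nat_lit 11) (nat_lit 4) (nat_lit 276) (nat_lit 250) (nat_lit 194)) (XT.lf (nat_lit 0) (nat_lit 15435155593) (nat_lit 76) (nat_lit 15019286742) (nat_lit 152) (nat_lit 4142020765) (nat_lit 9) (nat_lit 5) (nat_lit 10) (nat_lit 5) (nat_lit 11) (nat_lit 4) (nat_lit 277) (nat_lit 250) (nat_lit 193))) (XT.nd (nat_lit 78) (nat_lit 228) (nat_lit 0) (XT.lf (nat_lit 0) (nat_lit 27009882577) (nat_lit 76) (nat_lit 9030826117)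 (nat_lit 152) (nat_lit 740910933) (nat_lit 9) (nat_lit 5) (nat_lit 10) (nat_lit 5) (nat_lit 11) (nat_lit 4) (nat_lit 278) (nat_lit 250) (nat_lit 192)) (XT.nd (nat_lit 78) (nat_lit 0) (nat_lit 0) (XT.lf (nat_lit 0) (nat_lit 294757903) (nat_lit 152) (nat_lit 2485709099) (nat_lit 228) (nat_lit 36355959947) (nat_lit 6) (nat_lit 5) (nat_lit 8) (nat_lit 5) (nat_lit 9) (nat_lit 5) (nat_lit 279) (nat_lit 250) (nat_lit 191)) (XT.lf (nat_lit 0) (nat_lit 6915962473) (nat_lit 228) (nat_lit 30091201759) (nat_lit 76) (nat_lit 4641184226) (nat_lit 6) (nat_lit 5) (nat_lit 9) (nat_lit 5) (nat_lit 7) (nat_lit 4) (nat_lit 280) (nat_lit 250) (nat_lit 190))))) (XT.nd (nat_lit 234) (nat_lit 0) (nat_lit 0) (XT.nd (nat_lit 78) (nat_lit 76) (nat_lit 0) (XT.lf (nat_lit 0) (nat_lit 11435840897) (nat_lit 228) (nat_lit 20722715647) (nat_lit 76) (nat_lit 12198442954) (nat_lit 6) (nat_lit 5) (nat_lit 9) (nat_lit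 5) (nat_lit 7) (nat_lit 4) (nat_lit 281) (nat_lit 250) (nat_lit 189)) (XT.nd (nat_lit 78) (nat_lit 76) (nat_lit 0) (XT.lf (nat_lit 0) (nat_lit 16307105376) (nat_lit 228) (nat_lit 10620912393) (nat_lit 76) (nat_lit 20355196073) (nat_lit 6) (nat_lit 5) (nat_lit 9) (nat_lit 5) (nat_lit 7) (nat_lit 4) (nat_lit 282) (nat_lit 250) (nat_lit 188)) (XT.lf (nat_lit 0) (nat_lit 288502610) (nat_lit 76) (nat_lit 21277058546) (nat_lit 152) (nat_lit 28878215784) (nat_lit 5) (nat_lit 5) (nat_lit 6) (nat_lit 5) (nat_lit 7) (nat_lit 4) (nat_lit 283) (nat_lit 250) (nat_lit 187)))) (XT.nd (nat_lit 78) (nat_lit 0) (nat_lit 0) (XT.lf (nat_lit 0) (nat_lit 12660105782) (nat_lit 76) (nat_lit 14865882923) (nat_lit 152) (nat_lit 26308739811) (nat_lit 5) (nat_lit 5) (nat_lit 6) (nat_lit 5) (nat_lit 7) (nat_lit 4) (nat_lit 284) (nat_lit 250) (nat_lit 186)) (XT.nd (nat_lit 78) (nat_lit 0) (nat_lit 0) (XT.lf (nat_lit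 0) (nat_lit 26007931903) (nat_lit 76) (nat_lit 7946893314) (nat_lit 152) (nat_lit 23542848589) (nat_lit 5) (nat_lit 5) (nat_lit 6) (nat_lit 5) (nat_lit 7) (nat_lit 4) (nat_lit 285) (nat_lit 250) (nat_lit 185)) (XT.lf (nat_lit 0) (nat_lit 40411079201) (nat_lit 76) (nat_lit 479088299) (nat_lit 152) (nat_lit 20564151652) (nat_lit 5) (nat_lit 5) (nat_lit 6) (nat_lit 5) (nat_lit 7) (nat_lit 4) (nat_lit 286) (nat_lit 250) (nat_lit 184))))))))
noncomputable def xc70 : XT := (XT.nd (nat_lit 1716) (nat_lit 0) (nat_lit 0) (XT.nd (nat_lit 858) (nat_lit 76) (nat_lit 0) (XT.nd (nat_lit 390) (nat_lit 76) (nat_lit 0) (XT.nd (nat_lit 156) (nat_lit 76) (nat_lit 0) (XT.nd (nat_lit 78) (nat_lit 76) (nat_lit 0) (XT.lf (nat_lit 0) (nat_lit 48555456011) (nat_lit 152) (nat_lit 9955553813) (nat_lit 0) (nat_lit 7202514148) (nat_lit 5) (nat_lit 5) (nat_lit 7) (nat_lit 4) (nat_lit 5) (nat_lit 4) (nat_lit 287)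 (nat_lit 250) (nat_lit 183)) (XT.lf (nat_lit 0) (nat_lit 2100589768) (nat_lit 76) (nat_lit 54789555704) (nat_lit 76) (nat_lit 13418860060) (nat_lit 4) (nat_lit 4) (nat_lit 5) (nat_lit 5) (nat_lit 5) (nat_lit 4) (nat_lit 288) (nat_lit 250) (nat_lit 182))) (XT.nd (nat_lit 78) (nat_lit 76) (nat_lit 0) (XT.lf (nat_lit 0) (nat_lit 15676495781) (nat_lit 76) (nat_lit 50480771797) (nat_lit 76) (nat_lit 9093637466) (nat_lit 4) (nat_lit 4) (nat_lit 5) (nat_lit 5) (nat_lit 5) (nat_lit 4) (nat_lit 289) (nat_lit 250) (nat_lit 181)) (XT.nd (nat_lit 78) (nat_lit 76) (nat_lit 0) (XT.lf (nat_lit 0) (nat_lit 30328372217) (nat_lit 76) (nat_lit 45831327051) (nat_lit 76) (nat_lit 4428971714) (nat_lit 4) (nat_lit 4) (nat_lit 5) (nat_lit 5) (nat_lit 5) (nat_lit 4) (nat_lit 290) (nat_lit 250) (nat_lit 180)) (XT.lf (nat_lit 0) (nat_lit 572626178) (nat_lit 152) (nat_lit 40225386409) (nat_lit 76) (nat_lit 45554762218)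 (nat_lit 3) (nat_lit 5) (nat_lit 5) (nat_lit 5) (nat_lit 4) (nat_lit 4) (nat_lit 291) (nat_lit 250) (nat_lit 179))))) (XT.nd (nat_lit 234) (nat_lit 76) (nat_lit 0) (XT.nd (nat_lit 78) (nat_lit 0) (nat_lit 0) (XT.lf (nat_lit 0) (nat_lit 5729717661) (nat_lit 152) (nat_lit 29511685684) (nat_lit 76) (nat_lit 57327852448) (nat_lit 3) (nat_lit 5) (nat_lit 5) (nat_lit 5) (nat_lit 4) (nat_lit 4) (nat_lit 292) (nat_lit 250) (nat_lit 178)) (XT.nd (nat_lit 78) (nat_lit 0) (nat_lit 0) (XT.lf (nat_lit 0) (nat_lit 11294418377) (nat_lit 152) (nat_lit 17949191120) (nat_lit 76) (nat_lit 70039864205) (nat_lit 3) (nat_lit 5) (nat_lit 5) (nat_lit 5) (nat_lit 4) (nat_lit 4) (nat_lit 293) (nat_lit 250) (nat_lit 177)) (XT.lf (nat_lit 0) (nat_lit 17299704331) (nat_lit 152) (nat_lit 5469384230) (nat_lit 76) (nat_lit 83766127929) (nat_lit 3) (nat_lit 5) (nat_lit 5) (nat_lit 5) (nat_lit 4) (nat_lit 4) (nat_lit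 294) (nat_lit 250) (nat_lit 176)))) (XT.nd (nat_lit 78) (nat_lit 0) (nat_lit 0) (XT.lf (nat_lit 0) (nat_lit 8423044181) (nat_lit 76) (nat_lit 15560692636) (nat_lit 152) (nat_lit 90367514676) (nat_lit 2) (nat_lit 5) (nat_lit 3) (nat_lit 5) (nat_lit 4) (nat_lit 4) (nat_lit 295) (nat_lit 250) (nat_lit 175)) (XT.nd (nat_lit 78) (nat_lit 0) (nat_lit 0) (XT.lf (nat_lit 0) (nat_lit 23730977977) (nat_lit 76) (nat_lit 7616953846) (nat_lit 152) (nat_lit 91433019582) (nat_lit 2) (nat_lit 5) (nat_lit 3) (nat_lit 5) (nat_lit 4) (nat_lit 4) (nat_lit 296) (nat_lit 250) (nat_lit 174)) (XT.lf (nat_lit 0) (nat_lit 39320543425) (nat_lit 152) (nat_lit 91651304305) (nat_lit 0) (nat_lit 911653122) (nat_lit 2) (nat_lit 5) (nat_lit 4) (nat_lit 4) (nat_lit 2) (nat_lit 4) (nat_lit 297) (nat_lit 250) (nat_lit 173)))))) (XT.nd (nat_lit 390) (nat_lit 76) (nat_lit 0) (XT.nd (nat_lit 156) (nat_lit 0) (nat_lit 0)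 (XT.nd (nat_lit 78) (nat_lit 0) (nat_lit 0) (XT.lf (nat_lit 0) (nat_lit 48125231022) (nat_lit 152) (nat_lit 83864770271) (nat_lit 0) (nat_lit 9708726427) (nat_lit 2) (nat_lit 5) (nat_lit 4) (nat_lit 4) (nat_lit 2) (nat_lit 4) (nat_lit 298) (nat_lit 250) (nat_lit 172)) (XT.lf (nat_lit 0) (nat_lit 57630982620) (nat_lit 152) (nat_lit 75461040981) (nat_lit 0) (nat_lit 19207427753) (nat_lit 2) (nat_lit 5) (nat_lit 4) (nat_lit 4) (nat_lit 2) (nat_lit 4) (nat_lit 299) (nat_lit 250) (nat_lit 171))) (XT.nd (nat_lit 78) (nat_lit 0) (nat_lit 0) (XT.lf (nat_lit 0) (nat_lit 67894128597) (nat_lit 152) (nat_lit 66390316557) (nat_lit 0) (nat_lit 29464045702) (nat_lit 2) (nat_lit 5) (nat_lit 4) (nat_lit 4) (nat_lit 2) (nat_lit 4) (nat_lit 300) (nat_lit 250) (nat_lit 170)) (XT.nd (nat_lit 78) (nat_lit 0) (nat_lit 0) (XT.lf (nat_lit 0) (nat_lit 78975487597) (nat_lit 152) (nat_lit 56598844558) (nat_lit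 0) (nat_lit 40539360231) (nat_lit 2) (nat_lit 5) (nat_lit 4) (nat_lit 4) (nat_lit 2) (nat_lit 4) (nat_lit 301) (nat_lit 250) (nat_lit 169)) (XT.lf (nat_lit 0) (nat_lit 90940726932) (nat_lit 152) (nat_lit 46028601446) (nat_lit 0) (nat_lit 52499002833) (nat_lit 2) (nat_lit 5) (nat_lit 4) (nat_lit 4) (nat_lit 2) (nat_lit 4) (nat_lit 302) (nat_lit 250) (nat_lit 168))))) (XT.nd (nat_lit 234) (nat_lit 76) (nat_lit 0) (XT.nd (nat_lit 78) (nat_lit 0) (nat_lit 0) (XT.lf (nat_lit 0) (nat_lit 103860751724) (nat_lit 152) (nat_lit 34616948744) (nat_lit 0) (nat_lit 65413845466) (nat_lit 2) (nat_lit 5) (nat_lit 4) (nat_lit 4) (nat_lit 2) (nat_lit 4) (nat_lit 303) (nat_lit 250) (nat_lit 167)) (XT.nd (nat_lit 78) (nat_lit 0) (nat_lit 0) (XT.lf (nat_lit 0) (nat_lit 117812125083) (nat_lit 152) (nat_lit 22296261843) (nat_lit 0) (nat_lit 79360420529) (nat_lit 2) (nat_lit 5) (nat_lit 4) (nat_lit 4) (nat_lit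 2) (nat_lit 4) (nat_lit 304) (nat_lit 250) (nat_lit 166)) (XT.lf (nat_lit 0) (nat_lit 132877521814) (nat_lit 152) (nat_lit 8993529265) (nat_lit 0) (nat_lit 94421374394) (nat_lit 2) (nat_lit 5) (nat_lit 4) (nat_lit 4) (nat_lit 2) (nat_lit 4) (nat_lit 305) (nat_lit 250) (nat_lit 165)))) (XT.nd (nat_lit 78) (nat_lit 0) (nat_lit 0) (XT.lf (nat_lit 0) (nat_lit 5652858893) (nat_lit 76) (nat_lit 143629310841) (nat_lit 76) (nat_lit 105169049655) (nat_lit 1) (nat_lit 4) (nat_lit 2) (nat_lit 5) (nat_lit 2) (nat_lit 4) (nat_lit 306) (nat_lit 250) (nat_lit 164)) (XT.nd (nat_lit 78) (nat_lit 0) (nat_lit 0) (XT.lf (nat_lit 0) (nat_lit 21979170768) (nat_lit 76) (nat_lit 145264050576) (nat_lit 76) (nat_lit 106799980348) (nat_lit 1) (nat_lit 4) (nat_lit 2) (nat_lit 5) (nat_lit 2) (nat_lit 4) (nat_lit 307) (nat_lit 250) (nat_lit 163)) (XT.lf (nat_lit 0) (nat_lit 39608571559) (nat_lit 76) (nat_lit 147030856659)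 (nat_lit 76) (nat_lit 108563259540) (nat_lit 1) (nat_lit 4) (nat_lit 2) (nat_lit 5) (nat_lit 2) (nat_lit 4) (nat_lit 308) (nat_lit 250) (nat_lit 162))))))) (XT.nd (nat_lit 858) (nat_lit 0) (nat_lit 0) (XT.nd (nat_lit 390) (nat_lit 0) (nat_lit 0) (XT.nd (nat_lit 156) (nat_lit 0) (nat_lit 0) (XT.nd (nat_lit 78) (nat_lit 0) (nat_lit 0) (XT.lf (nat_lit 0) (nat_lit 58645531790) (nat_lit 76) (nat_lit 148940199052) (nat_lit 76) (nat_lit 110469336293) (nat_lit 1) (nat_lit 4) (nat_lit 2) (nat_lit 5) (nat_lit 2) (nat_lit 4) (nat_lit 309) (nat_lit 250) (nat_lit 161)) (XT.lf (nat_lit 0) (nat_lit 79202863078) (nat_lit 76) (nat_lit 151003392376) (nat_lit 76) (nat_lit 112529505878) (nat_lit 1) (nat_lit 4) (nat_lit 2) (nat_lit 5) (nat_lit 2) (nat_lit 4) (nat_lit 310) (nat_lit 250) (nat_lit 160))) (XT.nd (nat_lit 78) (nat_lit 0) (nat_lit 0) (XT.lf (nat_lit 0) (nat_lit 101402386644) (nat_lit 76) (nat_lit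 153232662963) (nat_lit 76) (nat_lit 114755976705) (nat_lit 1) (nat_lit 4) (nat_lit 2) (nat_lit 5) (nat_lit 2) (nat_lit 4) (nat_lit 311) (nat_lit 250) (nat_lit 159)) (XT.nd (nat_lit 78) (nat_lit 0) (nat_lit 0) (XT.lf (nat_lit 0) (nat_lit 125375655221) (nat_lit 76) (nat_lit 155641221304) (nat_lit 76) (nat_lit 117161942676) (nat_lit 1) (nat_lit 4) (nat_lit 2) (nat_lit 5) (nat_lit 2) (nat_lit 4) (nat_lit 312) (nat_lit 250) (nat_lit 158)) (XT.lf (nat_lit 0) (nat_lit 151264732622) (nat_lit 76) (nat_lit 158243340339) (nat_lit 76) (nat_lit 119761661368) (nat_lit 1) (nat_lit 4) (nat_lit 2) (nat_lit 5) (nat_lit 2) (nat_lit 4) (nat_lit 313) (nat_lit 250) (nat_lit 157))))) (XT.nd (nat_lit 234) (nat_lit 0) (nat_lit 0) (XT.nd (nat_lit 78) (nat_lit 0) (nat_lit 0) (XT.lf (nat_lit 0) (nat_lit 179223035604) (nat_lit 76) (nat_lit 161054440031) (nat_lit 76) (nat_lit 122570538521) (nat_lit 1) (nat_lit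 4) (nat_lit 2) (nat_lit 5) (nat_lit 2) (nat_lit 4) (nat_lit 314) (nat_lit 250) (nat_lit 156)) (XT.nd (nat_lit 78) (nat_lit 0) (nat_lit 0) (XT.lf (nat_lit 0) (nat_lit 209416242997) (nat_lit 76) (nat_lit 164091178749) (nat_lit 76) (nat_lit 125605219332) (nat_lit 1) (nat_lit 4) (nat_lit 2) (nat_lit 5) (nat_lit 2) (nat_lit 4) (nat_lit 315) (nat_lit 250) (nat_lit 155)) (XT.lf (nat_lit 0) (nat_lit 242023277513) (nat_lit 76) (nat_lit 167371551983) (nat_lit 76) (nat_lit 128883687096) (nat_lit 1) (nat_lit 4) (nat_lit 2) (nat_lit 5) (nat_lit 2) (nat_lit 4) (nat_lit 316) (nat_lit 250) (nat_lit 154)))) (XT.nd (nat_lit 78) (nat_lit 0) (nat_lit 0) (XT.lf (nat_lit 0) (nat_lit 277237366023) (nat_lit 76) (nat_lit 170914998980) (nat_lit 76) (nat_lit 132425369770) (nat_lit 1) (nat_lit 4) (nat_lit 2) (nat_lit 5) (nat_lit 2) (nat_lit 4) (nat_lit 317) (nat_lit 250) (nat_lit 153)) (XT.nd (nat_lit 78) (nat_lit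 0) (nat_lit 0) (XT.lf (nat_lit 0) (nat_lit 315267184606) (nat_lit 76) (nat_lit 174742517945) (nat_lit 76) (nat_lit 136251255102) (nat_lit 1) (nat_lit 4) (nat_lit 2) (nat_lit 5) (nat_lit 2) (nat_lit 4) (nat_lit 318) (nat_lit 250) (nat_lit 152)) (XT.lf (nat_lit 0) (nat_lit 356338095152) (nat_lit 76) (nat_lit 178876790472) (nat_lit 76) (nat_lit 140384015007) (nat_lit 1) (nat_lit 4) (nat_lit 2) (nat_lit 5) (nat_lit 2) (nat_lit 4) (nat_lit 319) (nat_lit 250) (nat_lit 151)))))) (XT.nd (nat_lit 390) (nat_lit 0) (nat_lit 0) (XT.nd (nat_lit 156) (nat_lit 0) (nat_lit 0) (XT.nd (nat_lit 78) (nat_lit 0) (nat_lit 0) (XT.lf (nat_lit 0) (nat_lit 400693480833) (nat_lit 76) (nat_lit 183342315954) (nat_lit 76) (nat_lit 144848139912) (nat_lit 1) (nat_lit 4) (nat_lit 2) (nat_lit 5) (nat_lit 2) (nat_lit 4) (nat_lit 320) (nat_lit 250) (nat_lit 150)) (XT.lf (nat_lit 0) (nat_lit 448596188379) (nat_lit 76)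 (nat_lit 188165556764) (nat_lit 76) (nat_lit 149670083891) (nat_lit 1) (nat_lit 4) (nat_lit 2) (nat_lit 5) (nat_lit 2) (nat_lit 4) (nat_lit 321) (nat_lit 250) (nat_lit 149))) (XT.nd (nat_lit 78) (nat_lit 0) (nat_lit 0) (XT.lf (nat_lit 0) (nat_lit 500330085687) (nat_lit 76) (nat_lit 193375095070) (nat_lit 76) (nat_lit 154878421428) (nat_lit 1) (nat_lit 4) (nat_lit 2) (nat_lit 5) (nat_lit 2) (nat_lit 4) (nat_lit 322) (nat_lit 250) (nat_lit 148)) (XT.nd (nat_lit 78) (nat_lit 0) (nat_lit 0) (XT.lf (nat_lit 0) (nat_lit 556201744001) (nat_lit 76) (nat_lit 199001802209) (nat_lit 76) (nat_lit 160504016745) (nat_lit 1) (nat_lit 4) (nat_lit 2) (nat_lit 5) (nat_lit 2) (nat_lit 4) (nat_lit 323) (nat_lit 250) (nat_lit 147)) (XT.lf (nat_lit 0) (nat_lit 616542254628) (nat_lit 76) (nat_lit 205079021633) (nat_lit 76) (nat_lit 166580206702) (nat_lit 1) (nat_lit 4) (nat_lit 2) (nat_lit 5) (nat_lit 2)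 (nat_lit 4) (nat_lit 324) (nat_lit 250) (nat_lit 146))))) (XT.nd (nat_lit 234) (nat_lit 0) (nat_lit 0) (XT.nd (nat_lit 78) (nat_lit 0) (nat_lit 0) (XT.lf (nat_lit 0) (nat_lit 681709190965) (nat_lit 76) (nat_lit 211642766491) (nat_lit 76) (nat_lit 173142998352) (nat_lit 1) (nat_lit 4) (nat_lit 2) (nat_lit 5) (nat_lit 2) (nat_lit 4) (nat_lit 325) (nat_lit 250) (nat_lit 145)) (XT.nd (nat_lit 78) (nat_lit 0) (nat_lit 0) (XT.lf (nat_lit 0) (nat_lit 752088727450) (nat_lit 76) (nat_lit 218731933052) (nat_lit 76) (nat_lit 180231282312) (nat_lit 1) (nat_lit 4) (nat_lit 2) (nat_lit 5) (nat_lit 2) (nat_lit 4) (nat_lit 326) (nat_lit 250) (nat_lit 144)) (XT.lf (nat_lit 0) (nat_lit 828097928002) (nat_lit 76) (nat_lit 226388531190) (nat_lit 76) (nat_lit 187887063226) (nat_lit 1) (nat_lit 4) (nat_lit 2) (nat_lit 5) (nat_lit 2) (nat_lit 4) (nat_lit 327) (nat_lit 250) (nat_lit 143)))) (XT.nd (nat_lit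 78) (nat_lit 0) (nat_lit 0) (XT.lf (nat_lit 0) (nat_lit 910187217514) (nat_lit 76) (nat_lit 234657933339) (nat_lit 76) (nat_lit 196155708687) (nat_lit 1) (nat_lit 4) (nat_lit 2) (nat_lit 5) (nat_lit 2) (nat_lit 4) (nat_lit 328) (nat_lit 250) (nat_lit 142)) (XT.nd (nat_lit 78) (nat_lit 0) (nat_lit 0) (XT.lf (nat_lit 0) (nat_lit 998843051034) (nat_lit 76) (nat_lit 243589143363) (nat_lit 76) (nat_lit 205086218074) (nat_lit 1) (nat_lit 4) (nat_lit 2) (nat_lit 5) (nat_lit 2) (nat_lit 4) (nat_lit 329) (nat_lit 250) (nat_lit 141)) (XT.lf (nat_lit 0) (nat_lit 1094590796466) (nat_lit 76) (nat_lit 253235086952) (nat_lit 76) (nat_lit 214731512925) (nat_lit 1) (nat_lit 4) (nat_lit 2) (nat_lit 5) (nat_lit 2) (nat_lit 4) (nat_lit 330) (nat_lit 250) (nat_lit 140))))))))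
noncomputable def xc71 : XT := (XT.nd (nat_lit 1716) (nat_lit 684) (nat_lit 0) (XT.nd (nat_lit 858) (nat_lit 760) (nat_lit 0) (XT.nd (nat_lit 390) (nat_lit 684) (nat_lit 0) (XT.nd (nat_lit 156) (nat_lit 0) (nat_lit 0) (XT.nd (nat_lit 78) (nat_lit 0) (nat_lit 0) (XT.lf (nat_lit 0) (nat_lit 1057833383) (nat_lit 0) (nat_lit 1057833383) (nat_lit 380) (nat_lit 2930588339) (nat_lit 31) (nat_lit 5) (nat_lit 31) (nat_lit 3) (nat_lit 36) (nat_lit 3) (nat_lit 251) (nat_lit 251) (nat_lit 218)) (XT.lf (nat_lit 0) (nat_lit 5016218267) (nat_lit 380) (nat_lit 4106463137) (nat_lit 456) (nat_lit 1318316983) (nat_lit 31) (nat_lit 5) (nat_lit 36) (nat_lit 3) (nat_lit 37) (nat_lit 5) (nat_lit 252) (nat_lit 251) (nat_lit 217))) (XT.nd (nat_lit 78) (nat_lit 0) (nat_lit 0) (XT.lf (nat_lit 0) (nat_lit 5861293028) (nat_lit 380) (nat_lit 16488855) (nat_lit 456) (nat_lit 4940388252) (nat_lit 31) (nat_lit 5)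 (nat_lit 36) (nat_lit 3) (nat_lit 37) (nat_lit 5) (nat_lit 253) (nat_lit 251) (nat_lit 216)) (XT.nd (nat_lit 78) (nat_lit 0) (nat_lit 76) (XT.lf (nat_lit 76) (nat_lit 4598219692) (nat_lit 0) (nat_lit 2233051433) (nat_lit 456) (nat_lit 4390212987) (nat_lit 32) (nat_lit 5) (nat_lit 31) (nat_lit 5) (nat_lit 37) (nat_lit 5) (nat_lit 254) (nat_lit 251) (nat_lit 215)) (XT.lf (nat_lit 0) (nat_lit 7870612882) (nat_lit 380) (nat_lit 2151585611) (nat_lit 456) (nat_lit 1636034849) (nat_lit 32) (nat_lit 5) (nat_lit 37) (nat_lit 5) (nat_lit 38) (nat_lit 5) (nat_lit 255) (nat_lit 251) (nat_lit 214))))) (XT.nd (nat_lit 234) (nat_lit 456) (nat_lit 0) (XT.nd (nat_lit 78) (nat_lit 304) (nat_lit 0) (XT.lf (nat_lit 76) (nat_lit 2722082775) (nat_lit 0) (nat_lit 6348504736) (nat_lit 456) (nat_lit 3053609645) (nat_lit 33) (nat_lit 5) (nat_lit 32) (nat_lit 5) (nat_lit 38) (nat_lit 5) (nat_lit 256) (nat_lit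 251) (nat_lit 213)) (XT.nd (nat_lit 78) (nat_lit 304) (nat_lit 0) (XT.lf (nat_lit 76) (nat_lit 8074952772) (nat_lit 0) (nat_lit 2307064653) (nat_lit 456) (nat_lit 2244622479) (nat_lit 33) (nat_lit 5) (nat_lit 32) (nat_lit 5) (nat_lit 38) (nat_lit 5) (nat_lit 257) (nat_lit 251) (nat_lit 212)) (XT.lf (nat_lit 0) (nat_lit 634576586) (nat_lit 380) (nat_lit 11188605776) (nat_lit 456) (nat_lit 1344516001) (nat_lit 28) (nat_lit 5) (nat_lit 33) (nat_lit 5) (nat_lit 34) (nat_lit 5) (nat_lit 258) (nat_lit 251) (nat_lit 211)))) (XT.nd (nat_lit 78) (nat_lit 456) (nat_lit 0) (XT.lf (nat_lit 0) (nat_lit 6397938619) (nat_lit 380) (nat_lit 7126781321) (nat_lit 456) (nat_lit 216091073) (nat_lit 28) (nat_lit 5) (nat_lit 33) (nat_lit 5) (nat_lit 34) (nat_lit 5) (nat_lit 259) (nat_lit 251) (nat_lit 210)) (XT.nd (nat_lit 78) (nat_lit 380) (nat_lit 0) (XT.lf (nat_lit 0) (nat_lit 916234110) (nat_lit 456)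 (nat_lit 1794839763) (nat_lit 76) (nat_lit 11649989568) (nat_lit 27) (nat_lit 5) (nat_lit 33) (nat_lit 5) (nat_lit 28) (nat_lit 5) (nat_lit 260) (nat_lit 251) (nat_lit 209)) (XT.lf (nat_lit 0) (nat_lit 2251703697) (nat_lit 456) (nat_lit 10697824998) (nat_lit 76) (nat_lit 2071318093) (nat_lit 22) (nat_lit 5) (nat_lit 28) (nat_lit 5) (nat_lit 23) (nat_lit 5) (nat_lit 261) (nat_lit 251) (nat_lit 208)))))) (XT.nd (nat_lit 390) (nat_lit 380) (nat_lit 0) (XT.nd (nat_lit 156) (nat_lit 152) (nat_lit 0) (XT.nd (nat_lit 78) (nat_lit 228) (nat_lit 0) (XT.lf (nat_lit 0) (nat_lit 3783042572) (nat_lit 456) (nat_lit 4801726223) (nat_lit 76) (nat_lit 7141797746) (nat_lit 22) (nat_lit 5) (nat_lit 28) (nat_lit 5) (nat_lit 23) (nat_lit 5) (nat_lit 262) (nat_lit 251) (nat_lit 207)) (XT.lf (nat_lit 0) (nat_lit 1616426595) (nat_lit 228) (nat_lit 3829953233) (nat_lit 304) (nat_lit 11041860556) (nat_lit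 19) (nat_lit 5) (nat_lit 22) (nat_lit 5) (nat_lit 23) (nat_lit 5) (nat_lit 263) (nat_lit 251) (nat_lit 206))) (XT.nd (nat_lit 78) (nat_lit 152) (nat_lit 0) (XT.lf (nat_lit 0) (nat_lit 7380907721) (nat_lit 304) (nat_lit 8546185759) (nat_lit 76) (nat_lit 1372941623) (nat_lit 19) (nat_lit 5) (nat_lit 23) (nat_lit 5) (nat_lit 20) (nat_lit 5) (nat_lit 264) (nat_lit 251) (nat_lit 205)) (XT.nd (nat_lit 78) (nat_lit 152) (nat_lit 0) (XT.lf (nat_lit 0) (nat_lit 9543783304) (nat_lit 304) (nat_lit 1843754754) (nat_lit 76) (nat_lit 6783567822) (nat_lit 19) (nat_lit 5) (nat_lit 23) (nat_lit 5) (nat_lit 20) (nat_lit 5) (nat_lit 265) (nat_lit 251) (nat_lit 204)) (XT.lf (nat_lit 0) (nat_lit 5649940719) (nat_lit 152) (nat_lit 6341653641) (nat_lit 228) (nat_lit 7111518597) (nat_lit 17) (nat_lit 5) (nat_lit 19) (nat_lit 5) (nat_lit 20) (nat_lit 5) (nat_lit 266) (nat_lit 251) (nat_lit 203))))) (XT.nd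 (nat_lit 234) (nat_lit 228) (nat_lit 0) (XT.nd (nat_lit 78) (nat_lit 152) (nat_lit 0) (XT.lf (nat_lit 0) (nat_lit 13821122665) (nat_lit 152) (nat_lit 841673251) (nat_lit 228) (nat_lit 5444867462) (nat_lit 17) (nat_lit 5) (nat_lit 19) (nat_lit 5) (nat_lit 20) (nat_lit 5) (nat_lit 267) (nat_lit 251) (nat_lit 202)) (XT.nd (nat_lit 78) (nat_lit 0) (nat_lit 0) (XT.lf (nat_lit 0) (nat_lit 1372829438) (nat_lit 152) (nat_lit 16309251991) (nat_lit 228) (nat_lit 3499919478) (nat_lit 15) (nat_lit 5) (nat_lit 17) (nat_lit 5) (nat_lit 18) (nat_lit 5) (nat_lit 268) (nat_lit 251) (nat_lit 201)) (XT.lf (nat_lit 0) (nat_lit 9953480230) (nat_lit 152) (nat_lit 11162328593) (nat_lit 228) (nat_lit 1212805899) (nat_lit 15) (nat_lit 5) (nat_lit 17) (nat_lit 5) (nat_lit 18) (nat_lit 5) (nat_lit 269) (nat_lit 251) (nat_lit 200)))) (XT.nd (nat_lit 78) (nat_lit 152) (nat_lit 0) (XT.lf (nat_lit 0) (nat_lit 1174961788)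 (nat_lit 228) (nat_lit 4401826003) (nat_lit 76) (nat_lit 17989442725) (nat_lit 14) (nat_lit 5) (nat_lit 17) (nat_lit 5) (nat_lit 15) (nat_lit 5) (nat_lit 270) (nat_lit 251) (nat_lit 199)) (XT.nd (nat_lit 78) (nat_lit 0) (nat_lit 0) (XT.lf (nat_lit 0) (nat_lit 3789800950) (nat_lit 228) (nat_lit 20534597950) (nat_lit 76) (nat_lit 567938680) (nat_lit 12) (nat_lit 5) (nat_lit 15) (nat_lit 5) (nat_lit 13) (nat_lit 5) (nat_lit 271) (nat_lit 251) (nat_lit 198)) (XT.lf (nat_lit 0) (nat_lit 6864827455) (nat_lit 228) (nat_lit 12418592156) (nat_lit 76) (nat_lit 7021152072) (nat_lit 12) (nat_lit 5) (nat_lit 15) (nat_lit 5) (nat_lit 13) (nat_lit 5) (nat_lit 272) (nat_lit 251) (nat_lit 197))))))) (XT.nd (nat_lit 858) (nat_lit 228) (nat_lit 0) (XT.nd (nat_lit 390) (nat_lit 228) (nat_lit 0) (XT.nd (nat_lit 156) (nat_lit 76) (nat_lit 0) (XT.nd (nat_lit 78) (nat_lit 152) (nat_lit 0) (XT.lf (nat_lit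 0) (nat_lit 10169808657) (nat_lit 228) (nat_lit 3675635348) (nat_lit 76) (nat_lit 13985734016) (nat_lit 12) (nat_lit 5) (nat_lit 15) (nat_lit 5) (nat_lit 13) (nat_lit 5) (nat_lit 273) (nat_lit 251) (nat_lit 196)) (XT.lf (nat_lit 0) (nat_lit 6048661116) (nat_lit 152) (nat_lit 7821138958) (nat_lit 228) (nat_lit 15599765439) (nat_lit 10) (nat_lit 5) (nat_lit 12) (nat_lit 5) (nat_lit 13) (nat_lit 5) (nat_lit 274) (nat_lit 251) (nat_lit 195))) (XT.nd (nat_lit 78) (nat_lit 76) (nat_lit 0) (XT.lf (nat_lit 0) (nat_lit 16739785951) (nat_lit 152) (nat_lit 1212260506) (nat_lit 228) (nat_lit 13280171159) (nat_lit 10) (nat_lit 5) (nat_lit 12) (nat_lit 5) (nat_lit 13) (nat_lit 5) (nat_lit 275) (nat_lit 251) (nat_lit 194)) (XT.nd (nat_lit 78) (nat_lit 76) (nat_lit 0) (XT.lf (nat_lit 0) (nat_lit 22490057529) (nat_lit 228) (nat_lit 5011855167) (nat_lit 76) (nat_lit 5623721485) (nat_lit 10) (nat_lit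 5) (nat_lit 13) (nat_lit 5) (nat_lit 11) (nat_lit 4) (nat_lit 276) (nat_lit 251) (nat_lit 193)) (XT.lf (nat_lit 0) (nat_lit 5450103675) (nat_lit 76) (nat_lit 22091235529) (nat_lit 152) (nat_lit 7617247133) (nat_lit 9) (nat_lit 5) (nat_lit 10) (nat_lit 5) (nat_lit 11) (nat_lit 4) (nat_lit 277) (nat_lit 251) (nat_lit 192))))) (XT.nd (nat_lit 234) (nat_lit 0) (nat_lit 0) (XT.nd (nat_lit 78) (nat_lit 228) (nat_lit 0) (XT.lf (nat_lit 0) (nat_lit 17016296204) (nat_lit 76) (nat_lit 16105614124) (nat_lit 152) (nat_lit 4222324053) (nat_lit 9) (nat_lit 5) (nat_lit 10) (nat_lit 5) (nat_lit 11) (nat_lit 4) (nat_lit 278) (nat_lit 251) (nat_lit 191)) (XT.nd (nat_lit 78) (nat_lit 228) (nat_lit 0) (XT.lf (nat_lit 0) (nat_lit 29491347409) (nat_lit 76) (nat_lit 9646611135) (nat_lit 152) (nat_lit 567722350) (nat_lit 9) (nat_lit 5) (nat_lit 10) (nat_lit 5) (nat_lit 11) (nat_lit 4) (nat_lit 279) (nat_lit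 251) (nat_lit 190)) (XT.lf (nat_lit 0) (nat_lit 643446010) (nat_lit 152) (nat_lit 2571752003) (nat_lit 228) (nat_lit 39034003176) (nat_lit 6) (nat_lit 5) (nat_lit 8) (nat_lit 5) (nat_lit 9) (nat_lit 5) (nat_lit 280) (nat_lit 251) (nat_lit 189)))) (XT.nd (nat_lit 78) (nat_lit 0) (nat_lit 0) (XT.lf (nat_lit 0) (nat_lit 7668319866) (nat_lit 228) (nat_lit 32183188441) (nat_lit 76) (nat_lit 5111710834) (nat_lit 6) (nat_lit 5) (nat_lit 9) (nat_lit 5) (nat_lit 7) (nat_lit 4) (nat_lit 281) (nat_lit 251) (nat_lit 188)) (XT.nd (nat_lit 78) (nat_lit 0) (nat_lit 0) (XT.lf (nat_lit 0) (nat_lit 12535041868) (nat_lit 228) (nat_lit 22088579697) (nat_lit 76) (nat_lit 13266199751) (nat_lit 6) (nat_lit 5) (nat_lit 9) (nat_lit 5) (nat_lit 7) (nat_lit 4) (nat_lit 282) (nat_lit 251) (nat_lit 187)) (XT.lf (nat_lit 0) (nat_lit 17782353157) (nat_lit 228) (nat_lit 11200258345) (nat_lit 76) (nat_lit 22068687093)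 (nat_lit 6) (nat_lit 5) (nat_lit 9) (nat_lit 5) (nat_lit 7) (nat_lit 4) (nat_lit 283) (nat_lit 251) (nat_lit 186)))))) (XT.nd (nat_lit 390) (nat_lit 152) (nat_lit 0) (XT.nd (nat_lit 156) (nat_lit 0) (nat_lit 0) (XT.nd (nat_lit 78) (nat_lit 0) (nat_lit 0) (XT.lf (nat_lit 0) (nat_lit 575066135) (nat_lit 76) (nat_lit 22880113130) (nat_lit 152) (nat_lit 31010099968) (nat_lit 5) (nat_lit 5) (nat_lit 6) (nat_lit 5) (nat_lit 7) (nat_lit 4) (nat_lit 284) (nat_lit 251) (nat_lit 185)) (XT.lf (nat_lit 0) (nat_lit 13916880278) (nat_lit 76) (nat_lit 15963384945) (nat_lit 152) (nat_lit 28248278738) (nat_lit 5) (nat_lit 5) (nat_lit 6) (nat_lit 5) (nat_lit 7) (nat_lit 4) (nat_lit 285) (nat_lit 251) (nat_lit 184))) (XT.nd (nat_lit 78) (nat_lit 0) (nat_lit 0) (XT.lf (nat_lit 0) (nat_lit 28314460931) (nat_lit 76) (nat_lit 8497673843) (nat_lit 152) (nat_lit 25273350311) (nat_lit 5) (nat_lit 5) (nat_lit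 6) (nat_lit 5) (nat_lit 7) (nat_lit 4) (nat_lit 286) (nat_lit 251) (nat_lit 183)) (XT.nd (nat_lit 78) (nat_lit 0) (nat_lit 0) (XT.lf (nat_lit 0) (nat_lit 43853127088) (nat_lit 76) (nat_lit 438738570) (nat_lit 152) (nat_lit 22067685483) (nat_lit 5) (nat_lit 5) (nat_lit 6) (nat_lit 5) (nat_lit 7) (nat_lit 4) (nat_lit 287) (nat_lit 251) (nat_lit 182)) (XT.lf (nat_lit 0) (nat_lit 52562463730) (nat_lit 152) (nat_lit 10549791715) (nat_lit 0) (nat_lit 7847919966) (nat_lit 5) (nat_lit 5) (nat_lit 7) (nat_lit 4) (nat_lit 5) (nat_lit 4) (nat_lit 288) (nat_lit 251) (nat_lit 181))))) (XT.nd (nat_lit 234) (nat_lit 76) (nat_lit 0) (XT.nd (nat_lit 78) (nat_lit 0) (nat_lit 0) (XT.lf (nat_lit 0) (nat_lit 2465724203) (nat_lit 76) (nat_lit 59093864748) (nat_lit 76) (nat_lit 14364099978) (nat_lit 4) (nat_lit 4) (nat_lit 5) (nat_lit 5) (nat_lit 5) (nat_lit 4) (nat_lit 289) (nat_lit 251) (nat_lit 180))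 (XT.nd (nat_lit 78) (nat_lit 0) (nat_lit 0) (XT.lf (nat_lit 0) (nat_lit 17113103641) (nat_lit 76) (nat_lit 54446219270) (nat_lit 76) (nat_lit 9702360975) (nat_lit 4) (nat_lit 4) (nat_lit 5) (nat_lit 5) (nat_lit 5) (nat_lit 4) (nat_lit 290) (nat_lit 251) (nat_lit 179)) (XT.lf (nat_lit 0) (nat_lit 32923612548) (nat_lit 76) (nat_lit 49430227409) (nat_lit 76) (nat_lit 4673319555) (nat_lit 4) (nat_lit 4) (nat_lit 5) (nat_lit 5) (nat_lit 5) (nat_lit 4) (nat_lit 291) (nat_lit 251) (nat_lit 178)))) (XT.nd (nat_lit 78) (nat_lit 0) (nat_lit 0) (XT.lf (nat_lit 0) (nat_lit 715166603) (nat_lit 152) (nat_lit 43281444243) (nat_lit 76) (nat_lit 49256222303) (nat_lit 3) (nat_lit 5) (nat_lit 5) (nat_lit 5) (nat_lit 4) (nat_lit 4) (nat_lit 292) (nat_lit 251) (nat_lit 177)) (XT.nd (nat_lit 78) (nat_lit 0) (nat_lit 0) (XT.lf (nat_lit 0) (nat_lit 6277660194) (nat_lit 152) (nat_lit 31722645467) (nat_lit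 76) (nat_lit 61966931669) (nat_lit 3) (nat_lit 5) (nat_lit 5) (nat_lit 5) (nat_lit 4) (nat_lit 4) (nat_lit 293) (nat_lit 251) (nat_lit 176)) (XT.lf (nat_lit 0) (nat_lit 12280902514) (nat_lit 152) (nat_lit 19246260602) (nat_lit 76) (nat_lit 75691989475) (nat_lit 3) (nat_lit 5) (nat_lit 5) (nat_lit 5) (nat_lit 4) (nat_lit 4) (nat_lit 294) (nat_lit 251) (nat_lit 175))))))))
noncomputable def xc72 : XT := (XT.nd (nat_lit 1638) (nat_lit 0) (nat_lit 0) (XT.nd (nat_lit 780) (nat_lit 76) (nat_lit 0) (XT.nd (nat_lit 390) (nat_lit 0) (nat_lit 0) (XT.nd (nat_lit 156) (nat_lit 0) (nat_lit 0) (XT.nd (nat_lit 78) (nat_lit 76) (nat_lit 0) (XT.lf (nat_lit 0) (nat_lit 18760468332) (nat_lit 152) (nat_lit 5778355516) (nat_lit 76) (nat_lit 90512729398) (nat_lit 3) (nat_lit 5) (nat_lit 5) (nat_lit 5) (nat_lit 4) (nat_lit 4) (nat_lit 295) (nat_lit 251) (nat_lit 174)) (XT.lf (nat_lit 0) (nat_lit 9222211991)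 (nat_lit 76) (nat_lit 16754337504) (nat_lit 152) (nat_lit 97516560474) (nat_lit 2) (nat_lit 5) (nat_lit 3) (nat_lit 5) (nat_lit 4) (nat_lit 4) (nat_lit 296) (nat_lit 251) (nat_lit 173))) (XT.nd (nat_lit 78) (nat_lit 0) (nat_lit 0) (XT.lf (nat_lit 0) (nat_lit 25745497211) (nat_lit 76) (nat_lit 8178892984) (nat_lit 152) (nat_lit 98673258023) (nat_lit 2) (nat_lit 5) (nat_lit 3) (nat_lit 5) (nat_lit 4) (nat_lit 4) (nat_lit 297) (nat_lit 251) (nat_lit 172)) (XT.nd (nat_lit 78) (nat_lit 0) (nat_lit 0) (XT.lf (nat_lit 0) (nat_lit 42530783390) (nat_lit 152) (nat_lit 98871667990) (nat_lit 0) (nat_lit 1026293863) (nat_lit 2) (nat_lit 5) (nat_lit 4) (nat_lit 4) (nat_lit 2) (nat_lit 4) (nat_lit 298) (nat_lit 251) (nat_lit 171)) (XT.lf (nat_lit 0) (nat_lit 52035061070) (nat_lit 152) (nat_lit 90470488320) (nat_lit 0) (nat_lit 10524043514) (nat_lit 2) (nat_lit 5) (nat_lit 4) (nat_lit 4) (nat_lit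 2) (nat_lit 4) (nat_lit 299) (nat_lit 251) (nat_lit 170))))) (XT.nd (nat_lit 156) (nat_lit 0) (nat_lit 0) (XT.nd (nat_lit 78) (nat_lit 0) (nat_lit 0) (XT.lf (nat_lit 0) (nat_lit 62296842309) (nat_lit 152) (nat_lit 81402124655) (nat_lit 0) (nat_lit 20779780282) (nat_lit 2) (nat_lit 5) (nat_lit 4) (nat_lit 4) (nat_lit 2) (nat_lit 4) (nat_lit 300) (nat_lit 251) (nat_lit 169)) (XT.lf (nat_lit 0) (nat_lit 73376937662) (nat_lit 152) (nat_lit 71612838544) (nat_lit 0) (nat_lit 31854278903) (nat_lit 2) (nat_lit 5) (nat_lit 4) (nat_lit 4) (nat_lit 2) (nat_lit 4) (nat_lit 301) (nat_lit 251) (nat_lit 168))) (XT.nd (nat_lit 78) (nat_lit 0) (nat_lit 0) (XT.lf (nat_lit 0) (nat_lit 85341006954) (nat_lit 152) (nat_lit 61044619403) (nat_lit 0) (nat_lit 43813166036) (nat_lit 2) (nat_lit 5) (nat_lit 4) (nat_lit 4) (nat_lit 2) (nat_lit 4) (nat_lit 302) (nat_lit 251) (nat_lit 167)) (XT.nd (nat_lit 78)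 (nat_lit 0) (nat_lit 0) (XT.lf (nat_lit 0) (nat_lit 98259948373) (nat_lit 152) (nat_lit 49634840747) (nat_lit 0) (nat_lit 56727309159) (nat_lit 2) (nat_lit 5) (nat_lit 4) (nat_lit 4) (nat_lit 2) (nat_lit 4) (nat_lit 303) (nat_lit 251) (nat_lit 166)) (XT.lf (nat_lit 0) (nat_lit 112210318608) (nat_lit 152) (nat_lit 37315889075) (nat_lit 0) (nat_lit 70673236528) (nat_lit 2) (nat_lit 5) (nat_lit 4) (nat_lit 4) (nat_lit 2) (nat_lit 4) (nat_lit 304) (nat_lit 251) (nat_lit 165)))))) (XT.nd (nat_lit 390) (nat_lit 0) (nat_lit 0) (XT.nd (nat_lit 156) (nat_lit 76) (nat_lit 0) (XT.nd (nat_lit 78) (nat_lit 0) (nat_lit 0) (XT.lf (nat_lit 0) (nat_lit 127274786522) (nat_lit 152) (nat_lit 24014763189) (nat_lit 0) (nat_lit 85733590676) (nat_lit 2) (nat_lit 5) (nat_lit 4) (nat_lit 4) (nat_lit 2) (nat_lit 4) (nat_lit 305) (nat_lit 251) (nat_lit 164)) (XT.lf (nat_lit 0) (nat_lit 143542623033) (nat_lit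 152) (nat_lit 9652641605) (nat_lit 0) (nat_lit 101997618145) (nat_lit 2) (nat_lit 5) (nat_lit 4) (nat_lit 4) (nat_lit 2) (nat_lit 4) (nat_lit 306) (nat_lit 251) (nat_lit 163))) (XT.nd (nat_lit 78) (nat_lit 0) (nat_lit 0) (XT.lf (nat_lit 0) (nat_lit 6163929251) (nat_lit 76) (nat_lit 155094543532) (nat_lit 76) (nat_lit 113546011754) (nat_lit 1) (nat_lit 4) (nat_lit 2) (nat_lit 5) (nat_lit 2) (nat_lit 4) (nat_lit 307) (nat_lit 251) (nat_lit 162)) (XT.nd (nat_lit 78) (nat_lit 0) (nat_lit 0) (XT.lf (nat_lit 0) (nat_lit 23791987435) (nat_lit 76) (nat_lit 156861922607) (nat_lit 76) (nat_lit 115310125189) (nat_lit 1) (nat_lit 4) (nat_lit 2) (nat_lit 5) (nat_lit 2) (nat_lit 4) (nat_lit 308) (nat_lit 251) (nat_lit 161)) (XT.lf (nat_lit 0) (nat_lit 42827704512) (nat_lit 76) (nat_lit 158771795548) (nat_lit 76) (nat_lit 117216974390) (nat_lit 1) (nat_lit 4) (nat_lit 2) (nat_lit 5) (nat_lit 2)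 (nat_lit 4) (nat_lit 309) (nat_lit 251) (nat_lit 160))))) (XT.nd (nat_lit 234) (nat_lit 0) (nat_lit 0) (XT.nd (nat_lit 78) (nat_lit 0) (nat_lit 0) (XT.lf (nat_lit 0) (nat_lit 63383884730) (nat_lit 76) (nat_lit 160835480121) (nat_lit 76) (nat_lit 119277859203) (nat_lit 1) (nat_lit 4) (nat_lit 2) (nat_lit 5) (nat_lit 2) (nat_lit 4) (nat_lit 310) (nat_lit 251) (nat_lit 159)) (XT.nd (nat_lit 78) (nat_lit 0) (nat_lit 0) (XT.lf (nat_lit 0) (nat_lit 85582342491) (nat_lit 76) (nat_lit 163065205567) (nat_lit 76) (nat_lit 121504992279) (nat_lit 1) (nat_lit 4) (nat_lit 2) (nat_lit 5) (nat_lit 2) (nat_lit 4) (nat_lit 311) (nat_lit 251) (nat_lit 158)) (XT.lf (nat_lit 0) (nat_lit 109554624211) (nat_lit 76) (nat_lit 165474185075) (nat_lit 76) (nat_lit 123911571444) (nat_lit 1) (nat_lit 4) (nat_lit 2) (nat_lit 5) (nat_lit 2) (nat_lit 4) (nat_lit 312) (nat_lit 251) (nat_lit 157)))) (XT.nd (nat_lit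 78) (nat_lit 0) (nat_lit 0) (XT.lf (nat_lit 0) (nat_lit 135442787857) (nat_lit 76) (nat_lit 168076694078) (nat_lit 76) (nat_lit 126511857908) (nat_lit 1) (nat_lit 4) (nat_lit 2) (nat_lit 5) (nat_lit 2) (nat_lit 4) (nat_lit 313) (nat_lit 251) (nat_lit 156)) (XT.nd (nat_lit 78) (nat_lit 0) (nat_lit 0) (XT.lf (nat_lit 0) (nat_lit 163400244768) (nat_lit 76) (nat_lit 170888154852) (nat_lit 76) (nat_lit 129321260775) (nat_lit 1) (nat_lit 4) (nat_lit 2) (nat_lit 5) (nat_lit 2) (nat_lit 4) (nat_lit 314) (nat_lit 251) (nat_lit 155)) (XT.lf (nat_lit 0) (nat_lit 193592668763) (nat_lit 76) (nat_lit 173925227906) (nat_lit 76) (nat_lit 132356428360) (nat_lit 1) (nat_lit 4) (nat_lit 2) (nat_lit 5) (nat_lit 2) (nat_lit 4) (nat_lit 315) (nat_lit 251) (nat_lit 154))))))) (XT.nd (nat_lit 858) (nat_lit 0) (nat_lit 0) (XT.nd (nat_lit 390) (nat_lit 0) (nat_lit 0) (XT.nd (nat_lit 156) (nat_lit 0) (nat_lit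 0) (XT.nd (nat_lit 78) (nat_lit 0) (nat_lit 0) (XT.lf (nat_lit 0) (nat_lit 226198977910) (nat_lit 76) (nat_lit 177205910709) (nat_lit 76) (nat_lit 135635346839) (nat_lit 1) (nat_lit 4) (nat_lit 2) (nat_lit 5) (nat_lit 2) (nat_lit 4) (nat_lit 316) (nat_lit 251) (nat_lit 153)) (XT.lf (nat_lit 0) (nat_lit 261412394782) (nat_lit 76) (nat_lit 180749644345) (nat_lit 76) (nat_lit 139177446842) (nat_lit 1) (nat_lit 4) (nat_lit 2) (nat_lit 5) (nat_lit 2) (nat_lit 4) (nat_lit 317) (nat_lit 251) (nat_lit 152))) (XT.nd (nat_lit 78) (nat_lit 0) (nat_lit 0) (XT.lf (nat_lit 0) (nat_lit 299441591478) (nat_lit 76) (nat_lit 184577428716) (nat_lit 76) (nat_lit 143003718591) (nat_lit 1) (nat_lit 4) (nat_lit 2) (nat_lit 5) (nat_lit 2) (nat_lit 4) (nat_lit 318) (nat_lit 251) (nat_lit 151)) (XT.nd (nat_lit 78) (nat_lit 0) (nat_lit 0) (XT.lf (nat_lit 0) (nat_lit 340511926203) (nat_lit 76) (nat_lit 188711946990)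 (nat_lit 76) (nat_lit 147136836287) (nat_lit 1) (nat_lit 4) (nat_lit 2) (nat_lit 5) (nat_lit 2) (nat_lit 4) (nat_lit 319) (nat_lit 251) (nat_lit 150)) (XT.lf (nat_lit 0) (nat_lit 384866778716) (nat_lit 76) (nat_lit 193177700015) (nat_lit 76) (nat_lit 151601292482) (nat_lit 1) (nat_lit 4) (nat_lit 2) (nat_lit 5) (nat_lit 2) (nat_lit 4) (nat_lit 320) (nat_lit 251) (nat_lit 149))))) (XT.nd (nat_lit 234) (nat_lit 0) (nat_lit 0) (XT.nd (nat_lit 78) (nat_lit 0) (nat_lit 0) (XT.lf (nat_lit 0) (nat_lit 432768992588) (nat_lit 76) (nat_lit 198001151513) (nat_lit 76) (nat_lit 156423543211) (nat_lit 1) (nat_lit 4) (nat_lit 2) (nat_lit 5) (nat_lit 2) (nat_lit 4) (nat_lit 321) (nat_lit 251) (nat_lit 148)) (XT.nd (nat_lit 78) (nat_lit 0) (nat_lit 0) (XT.lf (nat_lit 0) (nat_lit 484502432790) (nat_lit 76) (nat_lit 203210884900) (nat_lit 76) (nat_lit 161632164775) (nat_lit 1) (nat_lit 4) (nat_lit 2)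 (nat_lit 5) (nat_lit 2) (nat_lit 4) (nat_lit 322) (nat_lit 251) (nat_lit 147)) (XT.lf (nat_lit 0) (nat_lit 540373667858) (nat_lit 76) (nat_lit 208837772671) (nat_lit 76) (nat_lit 167258023080) (nat_lit 1) (nat_lit 4) (nat_lit 2) (nat_lit 5) (nat_lit 2) (nat_lit 4) (nat_lit 323) (nat_lit 251) (nat_lit 146)))) (XT.nd (nat_lit 78) (nat_lit 0) (nat_lit 0) (XT.lf (nat_lit 0) (nat_lit 600713786591) (nat_lit 76) (nat_lit 214915159345) (nat_lit 76) (nat_lit 173334456545) (nat_lit 1) (nat_lit 4) (nat_lit 2) (nat_lit 5) (nat_lit 2) (nat_lit 4) (nat_lit 324) (nat_lit 251) (nat_lit 145)) (XT.nd (nat_lit 78) (nat_lit 0) (nat_lit 0) (XT.lf (nat_lit 0) (nat_lit 665880360063) (nat_lit 76) (nat_lit 221479059066) (nat_lit 76) (nat_lit 179897473665) (nat_lit 1) (nat_lit 4) (nat_lit 2) (nat_lit 5) (nat_lit 2) (nat_lit 4) (nat_lit 325) (nat_lit 251) (nat_lit 144)) (XT.lf (nat_lit 0) (nat_lit 736259560561)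 (nat_lit 76) (nat_lit 228568369017) (nat_lit 76) (nat_lit 186985966393) (nat_lit 1) (nat_lit 4) (nat_lit 2) (nat_lit 5) (nat_lit 2) (nat_lit 4) (nat_lit 326) (nat_lit 251) (nat_lit 143)))))) (XT.nd (nat_lit 31746) (nat_lit 0) (nat_lit 2280) (XT.nd (nat_lit 156) (nat_lit 0) (nat_lit 0) (XT.nd (nat_lit 78) (nat_lit 0) (nat_lit 0) (XT.lf (nat_lit 0) (nat_lit 812268450015) (nat_lit 76) (nat_lit 236225099924) (nat_lit 76) (nat_lit 194641940612) (nat_lit 1) (nat_lit 4) (nat_lit 2) (nat_lit 5) (nat_lit 2) (nat_lit 4) (nat_lit 327) (nat_lit 251) (nat_lit 142)) (XT.lf (nat_lit 0) (nat_lit 894357451473) (nat_lit 76) (nat_lit 244494625007) (nat_lit 76) (nat_lit 202910765058) (nat_lit 1) (nat_lit 4) (nat_lit 2) (nat_lit 5) (nat_lit 2) (nat_lit 4) (nat_lit 328) (nat_lit 251) (nat_lit 141))) (XT.nd (nat_lit 78) (nat_lit 0) (nat_lit 0) (XT.lf (nat_lit 0) (nat_lit 983013018277) (nat_lit 76) (nat_lit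 253425948859) (nat_lit 76) (nat_lit 211841440172) (nat_lit 1) (nat_lit 4) (nat_lit 2) (nat_lit 5) (nat_lit 2) (nat_lit 4) (nat_lit 329) (nat_lit 251) (nat_lit 140)) (XT.nd (nat_lit 31434) (nat_lit 0) (nat_lit 2280) (XT.lf (nat_lit 0) (nat_lit 1078760516749) (nat_lit 76) (nat_lit 263071997845) (nat_lit 76) (nat_lit 221486888474) (nat_lit 1) (nat_lit 4) (nat_lit 2) (nat_lit 5) (nat_lit 2) (nat_lit 4) (nat_lit 330) (nat_lit 251) (nat_lit 139)) (XT.lf (nat_lit 0) (nat_lit 1426586554) (nat_lit 0) (nat_lit 1426586554) (nat_lit 380) (nat_lit 2545503823) (nat_lit 31) (nat_lit 5) (nat_lit 31) (nat_lit 3) (nat_lit 36) (nat_lit 3) (nat_lit 252) (nat_lit 252) (nat_lit 216))))) (XT.nd (nat_lit 234) (nat_lit 0) (nat_lit 76) (XT.nd (nat_lit 78) (nat_lit 0) (nat_lit 0) (XT.lf (nat_lit 0) (nat_lit 6457181934) (nat_lit 380) (nat_lit 3801205500) (nat_lit 456) (nat_lit 923942820) (nat_lit 31) (nat_lit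 5) (nat_lit 36) (nat_lit 3) (nat_lit 37) (nat_lit 5) (nat_lit 253) (nat_lit 252) (nat_lit 215)) (XT.nd (nat_lit 78) (nat_lit 0) (nat_lit 0) (XT.lf (nat_lit 76) (nat_lit 598984058) (nat_lit 0) (nat_lit 6708271887) (nat_lit 456) (nat_lit 4288226462) (nat_lit 32) (nat_lit 5) (nat_lit 31) (nat_lit 5) (nat_lit 37) (nat_lit 5) (nat_lit 254) (nat_lit 252) (nat_lit 214)) (XT.lf (nat_lit 76) (nat_lit 5538049266) (nat_lit 0) (nat_lit 2744825688) (nat_lit 456) (nat_lit 3754682141) (nat_lit 32) (nat_lit 5) (nat_lit 31) (nat_lit 5) (nat_lit 37) (nat_lit 5) (nat_lit 255) (nat_lit 252) (nat_lit 213)))) (XT.nd (nat_lit 78) (nat_lit 0) (nat_lit 0) (XT.lf (nat_lit 0) (nat_lit 9330901127) (nat_lit 380) (nat_lit 1711092522) (nat_lit 456) (nat_lit 1473893913) (nat_lit 32) (nat_lit 5) (nat_lit 37) (nat_lit 5) (nat_lit 38) (nat_lit 5) (nat_lit 256) (nat_lit 252) (nat_lit 212)) (XT.nd (nat_lit 78) (nat_lit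 0) (nat_lit 0) (XT.lf (nat_lit 76) (nat_lit 3536959969) (nat_lit 0) (nat_lit 7042745450) (nat_lit 456) (nat_lit 2443830105) (nat_lit 33) (nat_lit 5) (nat_lit 32) (nat_lit 5) (nat_lit 38) (nat_lit 5) (nat_lit 257) (nat_lit 252) (nat_lit 211)) (XT.lf (nat_lit 76) (nat_lit 9273829153) (nat_lit 0) (nat_lit 2664185691) (nat_lit 456) (nat_lit 1633388286) (nat_lit 33) (nat_lit 5) (nat_lit 32) (nat_lit 5) (nat_lit 38) (nat_lit 5) (nat_lit 258) (nat_lit 252) (nat_lit 210))))))))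
noncomputable def xc73 : XT := (XT.nd (nat_lit 1716) (nat_lit 532) (nat_lit 0) (XT.nd (nat_lit 858) (nat_lit 456) (nat_lit 0) (XT.nd (nat_lit 390) (nat_lit 532) (nat_lit 0) (XT.nd (nat_lit 156) (nat_lit 380) (nat_lit 0) (XT.nd (nat_lit 78) (nat_lit 76) (nat_lit 0) (XT.lf (nat_lit 0) (nat_lit 1291983898) (nat_lit 380) (nat_lit 12159500244) (nat_lit 456) (nat_lit 708244421) (nat_lit 28) (nat_lit 5) (nat_lit 33) (nat_lit 5) (nat_lit 34) (nat_lit 5) (nat_lit 259) (nat_lit 252) (nat_lit 209)) (XT.lf (nat_lit 0) (nat_lit 432577030) (nat_lit 456) (nat_lit 7322710120) (nat_lit 76) (nat_lit 7027074056) (nat_lit 27) (nat_lit 5) (nat_lit 33) (nat_lit 5) (nat_lit 28) (nat_lit 5) (nat_lit 260) (nat_lit 252) (nat_lit 208))) (XT.nd (nat_lit 78) (nat_lit 380) (nat_lit 0) (XT.lf (nat_lit 0) (nat_lit 1595348448) (nat_lit 456) (nat_lit 1381038694) (nat_lit 76) (nat_lit 12479706089) (nat_lit 27) (nat_lit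 5) (nat_lit 33) (nat_lit 5) (nat_lit 28) (nat_lit 5) (nat_lit 261) (nat_lit 252) (nat_lit 207)) (XT.nd (nat_lit 78) (nat_lit 0) (nat_lit 0) (XT.lf (nat_lit 0) (nat_lit 3005107166) (nat_lit 456) (nat_lit 10958723537) (nat_lit 76) (nat_lit 2207831680) (nat_lit 22) (nat_lit 5) (nat_lit 28) (nat_lit 5) (nat_lit 23) (nat_lit 5) (nat_lit 262) (nat_lit 252) (nat_lit 206)) (XT.lf (nat_lit 0) (nat_lit 4616488917) (nat_lit 456) (nat_lit 4635005560) (nat_lit 76) (nat_lit 7686112065) (nat_lit 22) (nat_lit 5) (nat_lit 28) (nat_lit 5) (nat_lit 23) (nat_lit 5) (nat_lit 263) (nat_lit 252) (nat_lit 205))))) (XT.nd (nat_lit 234) (nat_lit 304) (nat_lit 0) (XT.nd (nat_lit 78) (nat_lit 0) (nat_lit 0) (XT.lf (nat_lit 0) (nat_lit 2282653691) (nat_lit 228) (nat_lit 4103833495) (nat_lit 304) (nat_lit 11376181886) (nat_lit 19) (nat_lit 5) (nat_lit 22) (nat_lit 5) (nat_lit 23) (nat_lit 5) (nat_lit 264) (nat_lit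 252) (nat_lit 204)) (XT.nd (nat_lit 78) (nat_lit 0) (nat_lit 0) (XT.lf (nat_lit 0) (nat_lit 8439138657) (nat_lit 304) (nat_lit 8692138490) (nat_lit 76) (nat_lit 1511378262) (nat_lit 19) (nat_lit 5) (nat_lit 23) (nat_lit 5) (nat_lit 20) (nat_lit 5) (nat_lit 265) (nat_lit 252) (nat_lit 203)) (XT.lf (nat_lit 0) (nat_lit 10740395522) (nat_lit 304) (nat_lit 1493345755) (nat_lit 76) (nat_lit 7352735942) (nat_lit 19) (nat_lit 5) (nat_lit 23) (nat_lit 5) (nat_lit 20) (nat_lit 5) (nat_lit 266) (nat_lit 252) (nat_lit 202)))) (XT.nd (nat_lit 78) (nat_lit 152) (nat_lit 0) (XT.lf (nat_lit 0) (nat_lit 6587240056) (nat_lit 152) (nat_lit 6776380792) (nat_lit 228) (nat_lit 7231328594) (nat_lit 17) (nat_lit 5) (nat_lit 19) (nat_lit 5) (nat_lit 20) (nat_lit 5) (nat_lit 267) (nat_lit 252) (nat_lit 201)) (XT.nd (nat_lit 78) (nat_lit 152) (nat_lit 0) (XT.lf (nat_lit 0) (nat_lit 15376168107) (nat_lit 152)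 (nat_lit 841780129) (nat_lit 228) (nat_lit 5464612886) (nat_lit 17) (nat_lit 5) (nat_lit 19) (nat_lit 5) (nat_lit 20) (nat_lit 5) (nat_lit 268) (nat_lit 252) (nat_lit 200)) (XT.lf (nat_lit 0) (nat_lit 1951921225) (nat_lit 152) (nat_lit 17511332432) (nat_lit 228) (nat_lit 3381066798) (nat_lit 15) (nat_lit 5) (nat_lit 17) (nat_lit 5) (nat_lit 18) (nat_lit 5) (nat_lit 269) (nat_lit 252) (nat_lit 199)))))) (XT.nd (nat_lit 390) (nat_lit 228) (nat_lit 0) (XT.nd (nat_lit 156) (nat_lit 152) (nat_lit 0) (XT.nd (nat_lit 78) (nat_lit 76) (nat_lit 0) (XT.lf (nat_lit 0) (nat_lit 11184263677) (nat_lit 152) (nat_lit 11960259585) (nat_lit 228) (nat_lit 940528298) (nat_lit 15) (nat_lit 5) (nat_lit 17) (nat_lit 5) (nat_lit 18) (nat_lit 5) (nat_lit 270) (nat_lit 252) (nat_lit 198)) (XT.lf (nat_lit 0) (nat_lit 1593799553) (nat_lit 228) (nat_lit 4332235375) (nat_lit 76) (nat_lit 19497195069) (nat_lit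 14) (nat_lit 5) (nat_lit 17) (nat_lit 5) (nat_lit 15) (nat_lit 5) (nat_lit 271) (nat_lit 252) (nat_lit 197))) (XT.nd (nat_lit 78) (nat_lit 0) (nat_lit 0) (XT.lf (nat_lit 0) (nat_lit 4406064073) (nat_lit 228) (nat_lit 21741726845) (nat_lit 76) (nat_lit 708746887) (nat_lit 12) (nat_lit 5) (nat_lit 15) (nat_lit 5) (nat_lit 13) (nat_lit 5) (nat_lit 272) (nat_lit 252) (nat_lit 196)) (XT.nd (nat_lit 78) (nat_lit 0) (nat_lit 0) (XT.lf (nat_lit 0) (nat_lit 7703901658) (nat_lit 228) (nat_lit 13008710140) (nat_lit 76) (nat_lit 7671152675) (nat_lit 12) (nat_lit 5) (nat_lit 15) (nat_lit 5) (nat_lit 13) (nat_lit 5) (nat_lit 273) (nat_lit 252) (nat_lit 195)) (XT.lf (nat_lit 0) (nat_lit 11251808170) (nat_lit 228) (nat_lit 3596196000) (nat_lit 76) (nat_lit 15186359809) (nat_lit 12) (nat_lit 5) (nat_lit 15) (nat_lit 5) (nat_lit 13) (nat_lit 5) (nat_lit 274) (nat_lit 252) (nat_lit 194))))) (XT.nd (nat_lit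 234) (nat_lit 76) (nat_lit 0) (XT.nd (nat_lit 78) (nat_lit 0) (nat_lit 0) (XT.lf (nat_lit 0) (nat_lit 6896588734) (nat_lit 152) (nat_lit 8340082633) (nat_lit 228) (nat_lit 16568177242) (nat_lit 10) (nat_lit 5) (nat_lit 12) (nat_lit 5) (nat_lit 13) (nat_lit 5) (nat_lit 275) (nat_lit 252) (nat_lit 193)) (XT.nd (nat_lit 78) (nat_lit 0) (nat_lit 0) (XT.lf (nat_lit 0) (nat_lit 18416038020) (nat_lit 152) (nat_lit 1210401122) (nat_lit 228) (nat_lit 14083724267) (nat_lit 10) (nat_lit 5) (nat_lit 12) (nat_lit 5) (nat_lit 13) (nat_lit 5) (nat_lit 276) (nat_lit 252) (nat_lit 192)) (XT.lf (nat_lit 0) (nat_lit 24512045536) (nat_lit 228) (nat_lit 5083800155) (nat_lit 76) (nat_lit 6160559793) (nat_lit 10) (nat_lit 5) (nat_lit 13) (nat_lit 5) (nat_lit 11) (nat_lit 4) (nat_lit 277) (nat_lit 252) (nat_lit 191)))) (XT.nd (nat_lit 78) (nat_lit 0) (nat_lit 0) (XT.lf (nat_lit 0) (nat_lit 6206786194) (nat_lit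 76) (nat_lit 23751853300) (nat_lit 152) (nat_lit 7994165447) (nat_lit 9) (nat_lit 5) (nat_lit 10) (nat_lit 5) (nat_lit 11) (nat_lit 4) (nat_lit 278) (nat_lit 252) (nat_lit 190)) (XT.nd (nat_lit 78) (nat_lit 0) (nat_lit 0) (XT.lf (nat_lit 0) (nat_lit 18674520480) (nat_lit 76) (nat_lit 17295284484) (nat_lit 152) (nat_lit 4344867887) (nat_lit 9) (nat_lit 5) (nat_lit 10) (nat_lit 5) (nat_lit 11) (nat_lit 4) (nat_lit 279) (nat_lit 252) (nat_lit 189)) (XT.lf (nat_lit 0) (nat_lit 32125581664) (nat_lit 76) (nat_lit 10326878201) (nat_lit 152) (nat_lit 413841907) (nat_lit 9) (nat_lit 5) (nat_lit 10) (nat_lit 5) (nat_lit 11) (nat_lit 4) (nat_lit 280) (nat_lit 252) (nat_lit 188))))))) (XT.nd (nat_lit 858) (nat_lit 152) (nat_lit 0) (XT.nd (nat_lit 390) (nat_lit 76) (nat_lit 0) (XT.nd (nat_lit 156) (nat_lit 76) (nat_lit 0) (XT.nd (nat_lit 78) (nat_lit 0) (nat_lit 0) (XT.lf (nat_lit 0) (nat_lit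 973648951) (nat_lit 152) (nat_lit 2680772493) (nat_lit 228) (nat_lit 41959163789) (nat_lit 6) (nat_lit 5) (nat_lit 8) (nat_lit 5) (nat_lit 9) (nat_lit 5) (nat_lit 281) (nat_lit 252) (nat_lit 187)) (XT.lf (nat_lit 0) (nat_lit 8452464806) (nat_lit 228) (nat_lit 34487516477) (nat_lit 76) (nat_lit 5605723036) (nat_lit 6) (nat_lit 5) (nat_lit 9) (nat_lit 5) (nat_lit 7) (nat_lit 4) (nat_lit 282) (nat_lit 252) (nat_lit 186))) (XT.nd (nat_lit 78) (nat_lit 76) (nat_lit 0) (XT.lf (nat_lit 0) (nat_lit 13695881654) (nat_lit 228) (nat_lit 23605363259) (nat_lit 76) (nat_lit 14406269189) (nat_lit 6) (nat_lit 5) (nat_lit 9) (nat_lit 5) (nat_lit 7) (nat_lit 4) (nat_lit 283) (nat_lit 252) (nat_lit 185)) (XT.nd (nat_lit 78) (nat_lit 76) (nat_lit 0) (XT.lf (nat_lit 0) (nat_lit 19351271443) (nat_lit 228) (nat_lit 11864517148) (nat_lit 76) (nat_lit 23907120448) (nat_lit 6) (nat_lit 5) (nat_lit 9) (nat_lit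 5) (nat_lit 7) (nat_lit 4) (nat_lit 284) (nat_lit 252) (nat_lit 184)) (XT.lf (nat_lit 0) (nat_lit 846965901) (nat_lit 76) (nat_lit 24625551244) (nat_lit 152) (nat_lit 33337981801) (nat_lit 5) (nat_lit 5) (nat_lit 6) (nat_lit 5) (nat_lit 7) (nat_lit 4) (nat_lit 285) (nat_lit 252) (nat_lit 183))))) (XT.nd (nat_lit 234) (nat_lit 76) (nat_lit 0) (XT.nd (nat_lit 78) (nat_lit 0) (nat_lit 0) (XT.lf (nat_lit 0) (nat_lit 15239392252) (nat_lit 76) (nat_lit 17161778948) (nat_lit 152) (nat_lit 30366542736) (nat_lit 5) (nat_lit 5) (nat_lit 6) (nat_lit 5) (nat_lit 7) (nat_lit 4) (nat_lit 286) (nat_lit 252) (nat_lit 182)) (XT.nd (nat_lit 78) (nat_lit 0) (nat_lit 0) (XT.lf (nat_lit 0) (nat_lit 30773285909) (nat_lit 76) (nat_lit 9104638868) (nat_lit 152) (nat_lit 27164108799) (nat_lit 5) (nat_lit 5) (nat_lit 6) (nat_lit 5) (nat_lit 7) (nat_lit 4) (nat_lit 287) (nat_lit 252) (nat_lit 181)) (XT.lf (nat_lit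 0) (nat_lit 47540699573) (nat_lit 76) (nat_lit 406384987) (nat_lit 152) (nat_lit 23711702602) (nat_lit 5) (nat_lit 5) (nat_lit 6) (nat_lit 5) (nat_lit 7) (nat_lit 4) (nat_lit 288) (nat_lit 252) (nat_lit 180)))) (XT.nd (nat_lit 78) (nat_lit 76) (nat_lit 0) (XT.lf (nat_lit 0) (nat_lit 56872545909) (nat_lit 152) (nat_lit 11220415653) (nat_lit 0) (nat_lit 8535085427) (nat_lit 5) (nat_lit 5) (nat_lit 7) (nat_lit 4) (nat_lit 5) (nat_lit 4) (nat_lit 289) (nat_lit 252) (nat_lit 179)) (XT.nd (nat_lit 78) (nat_lit 0) (nat_lit 0) (XT.lf (nat_lit 0) (nat_lit 2831952692) (nat_lit 76) (nat_lit 63753768121) (nat_lit 76) (nat_lit 15403258080) (nat_lit 4) (nat_lit 4) (nat_lit 5) (nat_lit 5) (nat_lit 5) (nat_lit 4) (nat_lit 290) (nat_lit 252) (nat_lit 178)) (XT.lf (nat_lit 0) (nat_lit 18638606148) (nat_lit 76) (nat_lit 58739318842) (nat_lit 76) (nat_lit 10376725876) (nat_lit 4) (nat_lit 4) (nat_lit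 5) (nat_lit 5) (nat_lit 5) (nat_lit 4) (nat_lit 291) (nat_lit 252) (nat_lit 177)))))) (XT.nd (nat_lit 390) (nat_lit 76) (nat_lit 0) (XT.nd (nat_lit 156) (nat_lit 0) (nat_lit 0) (XT.nd (nat_lit 78) (nat_lit 76) (nat_lit 0) (XT.lf (nat_lit 0) (nat_lit 35702366566) (nat_lit 76) (nat_lit 53326684519) (nat_lit 76) (nat_lit 4952903659) (nat_lit 4) (nat_lit 4) (nat_lit 5) (nat_lit 5) (nat_lit 5) (nat_lit 4) (nat_lit 292) (nat_lit 252) (nat_lit 176)) (XT.lf (nat_lit 0) (nat_lit 855310598) (nat_lit 152) (nat_lit 46605093975) (nat_lit 76) (nat_lit 53245656222) (nat_lit 3) (nat_lit 5) (nat_lit 5) (nat_lit 5) (nat_lit 4) (nat_lit 4) (nat_lit 293) (nat_lit 252) (nat_lit 175))) (XT.nd (nat_lit 78) (nat_lit 0) (nat_lit 0) (XT.lf (nat_lit 0) (nat_lit 6856660665) (nat_lit 152) (nat_lit 34131877653) (nat_lit 76) (nat_lit 66969597438) (nat_lit 3) (nat_lit 5) (nat_lit 5) (nat_lit 5) (nat_lit 4) (nat_lit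 4) (nat_lit 294) (nat_lit 252) (nat_lit 174)) (XT.nd (nat_lit 78) (nat_lit 0) (nat_lit 0) (XT.lf (nat_lit 0) (nat_lit 13334474396) (nat_lit 152) (nat_lit 20666906403) (nat_lit 76) (nat_lit 81789303481) (nat_lit 3) (nat_lit 5) (nat_lit 5) (nat_lit 5) (nat_lit 4) (nat_lit 4) (nat_lit 295) (nat_lit 252) (nat_lit 173)) (XT.lf (nat_lit 0) (nat_lit 20327138836) (nat_lit 152) (nat_lit 6130387803) (nat_lit 76) (nat_lit 97792594832) (nat_lit 3) (nat_lit 5) (nat_lit 5) (nat_lit 5) (nat_lit 4) (nat_lit 4) (nat_lit 296) (nat_lit 252) (nat_lit 172))))) (XT.nd (nat_lit 234) (nat_lit 0) (nat_lit 0) (XT.nd (nat_lit 78) (nat_lit 0) (nat_lit 0) (XT.lf (nat_lit 0) (nat_lit 10067434317) (nat_lit 76) (nat_lit 18050779718) (nat_lit 152) (nat_lit 105248993529) (nat_lit 2) (nat_lit 5) (nat_lit 3) (nat_lit 5) (nat_lit 4) (nat_lit 4) (nat_lit 297) (nat_lit 252) (nat_lit 171)) (XT.nd (nat_lit 78) (nat_lit 0)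 (nat_lit 0) (XT.lf (nat_lit 0) (nat_lit 27904623439) (nat_lit 76) (nat_lit 8792551842) (nat_lit 152) (nat_lit 106503329977) (nat_lit 2) (nat_lit 5) (nat_lit 3) (nat_lit 5) (nat_lit 4) (nat_lit 4) (nat_lit 298) (nat_lit 252) (nat_lit 170)) (XT.lf (nat_lit 0) (nat_lit 45988627140) (nat_lit 152) (nat_lit 106685601825) (nat_lit 0) (nat_lit 1144155681) (nat_lit 2) (nat_lit 5) (nat_lit 4) (nat_lit 4) (nat_lit 2) (nat_lit 4) (nat_lit 299) (nat_lit 252) (nat_lit 169)))) (XT.nd (nat_lit 78) (nat_lit 0) (nat_lit 0) (XT.lf (nat_lit 0) (nat_lit 56249144732) (nat_lit 152) (nat_lit 97619424048) (nat_lit 0) (nat_lit 11399076541) (nat_lit 2) (nat_lit 5) (nat_lit 4) (nat_lit 4) (nat_lit 2) (nat_lit 4) (nat_lit 300) (nat_lit 252) (nat_lit 168)) (XT.nd (nat_lit 78) (nat_lit 0) (nat_lit 0) (XT.lf (nat_lit 0) (nat_lit 67328070043) (nat_lit 152) (nat_lit 87832161908) (nat_lit 0) (nat_lit 22472819691) (nat_lit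 2) (nat_lit 5) (nat_lit 4) (nat_lit 4) (nat_lit 2) (nat_lit 4) (nat_lit 301) (nat_lit 252) (nat_lit 167)) (XT.lf (nat_lit 0) (nat_lit 79291055961) (nat_lit 152) (nat_lit 77265816813) (nat_lit 0) (nat_lit 34431007314) (nat_lit 2) (nat_lit 5) (nat_lit 4) (nat_lit 4) (nat_lit 2) (nat_lit 4) (nat_lit 302) (nat_lit 252) (nat_lit 166))))))))
noncomputable def xc74 : XT := (XT.nd (nat_lit 1716) (nat_lit 0) (nat_lit 0) (XT.nd (nat_lit 858) (nat_lit 0) (nat_lit 0) (XT.nd (nat_lit 390) (nat_lit 76) (nat_lit 0) (XT.nd (nat_lit 156) (nat_lit 0) (nat_lit 0) (XT.nd (nat_lit 78) (nat_lit 0) (nat_lit 0) (XT.lf (nat_lit 0) (nat_lit 92208994257) (nat_lit 152) (nat_lit 65857773386) (nat_lit 0) (nat_lit 47344502743) (nat_lit 2) (nat_lit 5) (nat_lit 4) (nat_lit 4) (nat_lit 2) (nat_lit 4) (nat_lit 303) (nat_lit 252) (nat_lit 165)) (XT.lf (nat_lit 0) (nat_lit 106158435674) (nat_lit 152) (nat_lit 53540428406)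 (nat_lit 0) (nat_lit 61289830395) (nat_lit 2) (nat_lit 5) (nat_lit 4) (nat_lit 4) (nat_lit 2) (nat_lit 4) (nat_lit 304) (nat_lit 252) (nat_lit 164))) (XT.nd (nat_lit 78) (nat_lit 0) (nat_lit 0) (XT.lf (nat_lit 0) (nat_lit 121222043571) (nat_lit 152) (nat_lit 40240790200) (nat_lit 0) (nat_lit 76349629250) (nat_lit 2) (nat_lit 5) (nat_lit 4) (nat_lit 4) (nat_lit 2) (nat_lit 4) (nat_lit 305) (nat_lit 252) (nat_lit 163)) (XT.nd (nat_lit 78) (nat_lit 0) (nat_lit 0) (XT.lf (nat_lit 0) (nat_lit 137489083771) (nat_lit 152) (nat_lit 25880046095) (nat_lit 0) (nat_lit 92613142559) (nat_lit 2) (nat_lit 5) (nat_lit 4) (nat_lit 4) (nat_lit 2) (nat_lit 4) (nat_lit 306) (nat_lit 252) (nat_lit 162)) (XT.lf (nat_lit 0) (nat_lit 155055953550) (nat_lit 152) (nat_lit 10373095388) (nat_lit 0) (nat_lit 110176746699) (nat_lit 2) (nat_lit 5) (nat_lit 4) (nat_lit 4) (nat_lit 2) (nat_lit 4) (nat_lit 307) (nat_lit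 252) (nat_lit 161))))) (XT.nd (nat_lit 234) (nat_lit 0) (nat_lit 0) (XT.nd (nat_lit 78) (nat_lit 0) (nat_lit 0) (XT.lf (nat_lit 0) (nat_lit 6707490820) (nat_lit 76) (nat_lit 167480577372) (nat_lit 76) (nat_lit 122598346780) (nat_lit 1) (nat_lit 4) (nat_lit 2) (nat_lit 5) (nat_lit 2) (nat_lit 4) (nat_lit 308) (nat_lit 252) (nat_lit 160)) (XT.nd (nat_lit 78) (nat_lit 0) (nat_lit 0) (XT.lf (nat_lit 0) (nat_lit 25742056826) (nat_lit 76) (nat_lit 169390941561) (nat_lit 76) (nat_lit 124505911210) (nat_lit 1) (nat_lit 4) (nat_lit 2) (nat_lit 5) (nat_lit 2) (nat_lit 4) (nat_lit 309) (nat_lit 252) (nat_lit 159)) (XT.lf (nat_lit 0) (nat_lit 46297171239) (nat_lit 76) (nat_lit 171455080993) (nat_lit 76) (nat_lit 126567458272) (nat_lit 1) (nat_lit 4) (nat_lit 2) (nat_lit 5) (nat_lit 2) (nat_lit 4) (nat_lit 310) (nat_lit 252) (nat_lit 158)))) (XT.nd (nat_lit 78) (nat_lit 0) (nat_lit 0) (XT.lf (nat_lit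 0) (nat_lit 68494642144) (nat_lit 76) (nat_lit 173685227606) (nat_lit 76) (nat_lit 128795204542) (nat_lit 1) (nat_lit 4) (nat_lit 2) (nat_lit 5) (nat_lit 2) (nat_lit 4) (nat_lit 311) (nat_lit 252) (nat_lit 157)) (XT.nd (nat_lit 78) (nat_lit 0) (nat_lit 0) (XT.lf (nat_lit 0) (nat_lit 92466010108) (nat_lit 76) (nat_lit 176094597082) (nat_lit 76) (nat_lit 131202351479) (nat_lit 1) (nat_lit 4) (nat_lit 2) (nat_lit 5) (nat_lit 2) (nat_lit 4) (nat_lit 312) (nat_lit 252) (nat_lit 156)) (XT.lf (nat_lit 0) (nat_lit 118353327684) (nat_lit 76) (nat_lit 178697467168) (nat_lit 76) (nat_lit 133803163658) (nat_lit 1) (nat_lit 4) (nat_lit 2) (nat_lit 5) (nat_lit 2) (nat_lit 4) (nat_lit 313) (nat_lit 252) (nat_lit 155)))))) (XT.nd (nat_lit 390) (nat_lit 0) (nat_lit 0) (XT.nd (nat_lit 156) (nat_lit 0) (nat_lit 0) (XT.nd (nat_lit 78) (nat_lit 0) (nat_lit 0) (XT.lf (nat_lit 0) (nat_lit 146310001196)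 (nat_lit 76) (nat_lit 181509262277) (nat_lit 76) (nat_lit 136613053298) (nat_lit 1) (nat_lit 4) (nat_lit 2) (nat_lit 5) (nat_lit 2) (nat_lit 4) (nat_lit 314) (nat_lit 252) (nat_lit 154)) (XT.lf (nat_lit 0) (nat_lit 176501699822) (nat_lit 76) (nat_lit 184546644901) (nat_lit 76) (nat_lit 139648671598) (nat_lit 1) (nat_lit 4) (nat_lit 2) (nat_lit 5) (nat_lit 2) (nat_lit 4) (nat_lit 315) (nat_lit 252) (nat_lit 153))) (XT.nd (nat_lit 78) (nat_lit 0) (nat_lit 0) (XT.lf (nat_lit 0) (nat_lit 209107337331) (nat_lit 76) (nat_lit 187827614342) (nat_lit 76) (nat_lit 142928007407) (nat_lit 1) (nat_lit 4) (nat_lit 2) (nat_lit 5) (nat_lit 2) (nat_lit 4) (nat_lit 316) (nat_lit 252) (nat_lit 152)) (XT.nd (nat_lit 78) (nat_lit 0) (nat_lit 0) (XT.lf (nat_lit 0) (nat_lit 244320132316) (nat_lit 76) (nat_lit 191371613384) (nat_lit 76) (nat_lit 146470493826) (nat_lit 1) (nat_lit 4) (nat_lit 2) (nat_lit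 5) (nat_lit 2) (nat_lit 4) (nat_lit 317) (nat_lit 252) (nat_lit 151)) (XT.lf (nat_lit 0) (nat_lit 282348753192) (nat_lit 76) (nat_lit 195199643502) (nat_lit 76) (nat_lit 150297123367) (nat_lit 1) (nat_lit 4) (nat_lit 2) (nat_lit 5) (nat_lit 2) (nat_lit 4) (nat_lit 318) (nat_lit 252) (nat_lit 150))))) (XT.nd (nat_lit 234) (nat_lit 0) (nat_lit 0) (XT.nd (nat_lit 78) (nat_lit 0) (nat_lit 0) (XT.lf (nat_lit 0) (nat_lit 323418554748) (nat_lit 76) (nat_lit 199334389319) (nat_lit 76) (nat_lit 154430572353) (nat_lit 1) (nat_lit 4) (nat_lit 2) (nat_lit 5) (nat_lit 2) (nat_lit 4) (nat_lit 319) (nat_lit 252) (nat_lit 149)) (XT.nd (nat_lit 78) (nat_lit 0) (nat_lit 0) (XT.lf (nat_lit 0) (nat_lit 367772913587) (nat_lit 76) (nat_lit 203800353032) (nat_lit 76) (nat_lit 158895335297) (nat_lit 1) (nat_lit 4) (nat_lit 2) (nat_lit 5) (nat_lit 2) (nat_lit 4) (nat_lit 320) (nat_lit 252) (nat_lit 148))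 (XT.lf (nat_lit 0) (nat_lit 415674670354) (nat_lit 76) (nat_lit 208623999611) (nat_lit 76) (nat_lit 163717870053) (nat_lit 1) (nat_lit 4) (nat_lit 2) (nat_lit 5) (nat_lit 2) (nat_lit 4) (nat_lit 321) (nat_lit 252) (nat_lit 147)))) (XT.nd (nat_lit 78) (nat_lit 0) (nat_lit 0) (XT.lf (nat_lit 0) (nat_lit 467407687311) (nat_lit 76) (nat_lit 213833913629) (nat_lit 76) (nat_lit 168926754606) (nat_lit 1) (nat_lit 4) (nat_lit 2) (nat_lit 5) (nat_lit 2) (nat_lit 4) (nat_lit 322) (nat_lit 252) (nat_lit 146)) (XT.nd (nat_lit 78) (nat_lit 0) (nat_lit 0) (XT.lf (nat_lit 0) (nat_lit 523278530484) (nat_lit 76) (nat_lit 219460968651) (nat_lit 76) (nat_lit 174552856418) (nat_lit 1) (nat_lit 4) (nat_lit 2) (nat_lit 5) (nat_lit 2) (nat_lit 4) (nat_lit 323) (nat_lit 252) (nat_lit 145)) (XT.lf (nat_lit 0) (nat_lit 583618286352) (nat_lit 76) (nat_lit 225538510187) (nat_lit 76) (nat_lit 180629515353) (nat_lit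 1) (nat_lit 4) (nat_lit 2) (nat_lit 5) (nat_lit 2) (nat_lit 4) (nat_lit 324) (nat_lit 252) (nat_lit 144))))))) (XT.nd (nat_lit 32292) (nat_lit 0) (nat_lit 1216) (XT.nd (nat_lit 390) (nat_lit 0) (nat_lit 0) (XT.nd (nat_lit 156) (nat_lit 0) (nat_lit 0) (XT.nd (nat_lit 78) (nat_lit 0) (nat_lit 0) (XT.lf (nat_lit 0) (nat_lit 648784523837) (nat_lit 76) (nat_lit 232102553298) (nat_lit 76) (nat_lit 187192741242) (nat_lit 1) (nat_lit 4) (nat_lit 2) (nat_lit 5) (nat_lit 2) (nat_lit 4) (nat_lit 325) (nat_lit 252) (nat_lit 143)) (XT.lf (nat_lit 0) (nat_lit 719163413238) (nat_lit 76) (nat_lit 239191996019) (nat_lit 76) (nat_lit 194281427274) (nat_lit 1) (nat_lit 4) (nat_lit 2) (nat_lit 5) (nat_lit 2) (nat_lit 4) (nat_lit 326) (nat_lit 252) (nat_lit 142))) (XT.nd (nat_lit 78) (nat_lit 0) (nat_lit 0) (XT.lf (nat_lit 0) (nat_lit 795172014638) (nat_lit 76) (nat_lit 246848849860) (nat_lit 76) (nat_lit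 201937580478) (nat_lit 1) (nat_lit 4) (nat_lit 2) (nat_lit 5) (nat_lit 2) (nat_lit 4) (nat_lit 327) (nat_lit 252) (nat_lit 141)) (XT.nd (nat_lit 78) (nat_lit 0) (nat_lit 0) (XT.lf (nat_lit 0) (nat_lit 877260749379) (nat_lit 76) (nat_lit 255118488771) (nat_lit 76) (nat_lit 210206570651) (nat_lit 1) (nat_lit 4) (nat_lit 2) (nat_lit 5) (nat_lit 2) (nat_lit 4) (nat_lit 328) (nat_lit 252) (nat_lit 140)) (XT.lf (nat_lit 0) (nat_lit 965916069223) (nat_lit 76) (nat_lit 264049918020) (nat_lit 76) (nat_lit 219137399217) (nat_lit 1) (nat_lit 4) (nat_lit 2) (nat_lit 5) (nat_lit 2) (nat_lit 4) (nat_lit 329) (nat_lit 252) (nat_lit 139))))) (XT.nd (nat_lit 31668) (nat_lit 0) (nat_lit 2280) (XT.nd (nat_lit 31512) (nat_lit 0) (nat_lit 2280) (XT.lf (nat_lit 0) (nat_lit 1061663339028) (nat_lit 76) (nat_lit 273696064595) (nat_lit 76) (nat_lit 228782989603) (nat_lit 1) (nat_lit 4) (nat_lit 2) (nat_lit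 5) (nat_lit 2) (nat_lit 4) (nat_lit 330) (nat_lit 252) (nat_lit 138)) (XT.nd (nat_lit 78) (nat_lit 0) (nat_lit 0) (XT.lf (nat_lit 0) (nat_lit 1784306157) (nat_lit 0) (nat_lit 1784306157) (nat_lit 380) (nat_lit 2217995653) (nat_lit 31) (nat_lit 5) (nat_lit 31) (nat_lit 3) (nat_lit 36) (nat_lit 3) (nat_lit 253) (nat_lit 253) (nat_lit 214)) (XT.lf (nat_lit 0) (nat_lit 7865102688) (nat_lit 380) (nat_lit 3561942297) (nat_lit 456) (nat_lit 569326419) (nat_lit 31) (nat_lit 5) (nat_lit 36) (nat_lit 3) (nat_lit 37) (nat_lit 5) (nat_lit 254) (nat_lit 253) (nat_lit 213)))) (XT.nd (nat_lit 78) (nat_lit 0) (nat_lit 0) (XT.lf (nat_lit 76) (nat_lit 1176506486) (nat_lit 0) (nat_lit 7553387472) (nat_lit 456) (nat_lit 3717629130) (nat_lit 32) (nat_lit 5) (nat_lit 31) (nat_lit 5) (nat_lit 37) (nat_lit 5) (nat_lit 255) (nat_lit 253) (nat_lit 212)) (XT.nd (nat_lit 78) (nat_lit 0) (nat_lit 76) (XT.lf (nat_lit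 76) (nat_lit 6471467007) (nat_lit 0) (nat_lit 3250017145) (nat_lit 456) (nat_lit 3209079445) (nat_lit 32) (nat_lit 5) (nat_lit 31) (nat_lit 5) (nat_lit 37) (nat_lit 5) (nat_lit 256) (nat_lit 253) (nat_lit 211)) (XT.lf (nat_lit 0) (nat_lit 10789512461) (nat_lit 380) (nat_lit 1322757069) (nat_lit 456) (nat_lit 1340584813) (nat_lit 32) (nat_lit 5) (nat_lit 37) (nat_lit 5) (nat_lit 38) (nat_lit 5) (nat_lit 257) (nat_lit 253) (nat_lit 210)))))) (XT.nd (nat_lit 390) (nat_lit 760) (nat_lit 0) (XT.nd (nat_lit 156) (nat_lit 380) (nat_lit 0) (XT.nd (nat_lit 78) (nat_lit 0) (nat_lit 0) (XT.lf (nat_lit 76) (nat_lit 4331842840) (nat_lit 0) (nat_lit 7765939036) (nat_lit 456) (nat_lit 1907110595) (nat_lit 33) (nat_lit 5) (nat_lit 32) (nat_lit 5) (nat_lit 38) (nat_lit 5) (nat_lit 258) (nat_lit 253) (nat_lit 209)) (XT.lf (nat_lit 76) (nat_lit 10489741109) (nat_lit 0) (nat_lit 3025259388) (nat_lit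 456) (nat_lit 1086072387) (nat_lit 33) (nat_lit 5) (nat_lit 32) (nat_lit 5) (nat_lit 38) (nat_lit 5) (nat_lit 259) (nat_lit 253) (nat_lit 208))) (XT.nd (nat_lit 78) (nat_lit 76) (nat_lit 0) (XT.lf (nat_lit 0) (nat_lit 1915439648) (nat_lit 380) (nat_lit 13197251695) (nat_lit 456) (nat_lit 127187189) (nat_lit 28) (nat_lit 5) (nat_lit 33) (nat_lit 5) (nat_lit 34) (nat_lit 5) (nat_lit 260) (nat_lit 253) (nat_lit 207)) (XT.nd (nat_lit 78) (nat_lit 0) (nat_lit 0) (XT.lf (nat_lit 0) (nat_lit 1028123572) (nat_lit 456) (nat_lit 7392426697) (nat_lit 76) (nat_lit 7494533829) (nat_lit 27) (nat_lit 5) (nat_lit 33) (nat_lit 5) (nat_lit 28) (nat_lit 5) (nat_lit 261) (nat_lit 253) (nat_lit 206)) (XT.lf (nat_lit 0) (nat_lit 2242365564) (nat_lit 456) (nat_lit 1013651204) (nat_lit 76) (nat_lit 13390391695) (nat_lit 27) (nat_lit 5) (nat_lit 33) (nat_lit 5) (nat_lit 28) (nat_lit 5) (nat_lit 262) (nat_lit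 253) (nat_lit 205))))) (XT.nd (nat_lit 234) (nat_lit 152) (nat_lit 0) (XT.nd (nat_lit 78) (nat_lit 228) (nat_lit 0) (XT.lf (nat_lit 0) (nat_lit 3736999942) (nat_lit 456) (nat_lit 11325367013) (nat_lit 76) (nat_lit 2359430898) (nat_lit 22) (nat_lit 5) (nat_lit 28) (nat_lit 5) (nat_lit 23) (nat_lit 5) (nat_lit 263) (nat_lit 253) (nat_lit 204)) (XT.nd (nat_lit 78) (nat_lit 228) (nat_lit 0) (XT.lf (nat_lit 0) (nat_lit 5440885995) (nat_lit 456) (nat_lit 4533533406) (nat_lit 76) (nat_lit 8277827590) (nat_lit 22) (nat_lit 5) (nat_lit 28) (nat_lit 5) (nat_lit 23) (nat_lit 5) (nat_lit 264) (nat_lit 253) (nat_lit 203)) (XT.lf (nat_lit 0) (nat_lit 2925582318) (nat_lit 228) (nat_lit 4404262949) (nat_lit 304) (nat_lit 11815573835) (nat_lit 19) (nat_lit 5) (nat_lit 22) (nat_lit 5) (nat_lit 23) (nat_lit 5) (nat_lit 265) (nat_lit 253) (nat_lit 202)))) (XT.nd (nat_lit 78) (nat_lit 152) (nat_lit 0)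 (XT.lf (nat_lit 0) (nat_lit 9515297113) (nat_lit 304) (nat_lit 8926482366) (nat_lit 76) (nat_lit 1656809537) (nat_lit 19) (nat_lit 5) (nat_lit 23) (nat_lit 5) (nat_lit 20) (nat_lit 5) (nat_lit 266) (nat_lit 253) (nat_lit 201)) (XT.nd (nat_lit 78) (nat_lit 152) (nat_lit 0) (XT.lf (nat_lit 0) (nat_lit 11970948797) (nat_lit 304) (nat_lit 1185936375) (nat_lit 76) (nat_lit 7963659459) (nat_lit 19) (nat_lit 5) (nat_lit 23) (nat_lit 5) (nat_lit 20) (nat_lit 5) (nat_lit 267) (nat_lit 253) (nat_lit 200)) (XT.lf (nat_lit 0) (nat_lit 7530289287) (nat_lit 152) (nat_lit 7256244050) (nat_lit 228) (nat_lit 7424794165) (nat_lit 17) (nat_lit 5) (nat_lit 19) (nat_lit 5) (nat_lit 20) (nat_lit 5) (nat_lit 268) (nat_lit 253) (nat_lit 199))))))))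
noncomputable def xc75 : XT := (XT.nd (nat_lit 1716) (nat_lit 304) (nat_lit 0) (XT.nd (nat_lit 858) (nat_lit 304) (nat_lit 0) (XT.nd (nat_lit 390) (nat_lit 228) (nat_lit 0) (XT.nd (nat_lit 156) (nat_lit 228) (nat_lit 0) (XT.nd (nat_lit 78) (nat_lit 152) (nat_lit 0) (XT.lf (nat_lit 0) (nat_lit 16991511581) (nat_lit 152) (nat_lit 851486238) (nat_lit 228) (nat_lit 5545262736) (nat_lit 17) (nat_lit 5) (nat_lit 19) (nat_lit 5) (nat_lit 20) (nat_lit 5) (nat_lit 269) (nat_lit 253) (nat_lit 198)) (XT.lf (nat_lit 0) (nat_lit 2510394395) (nat_lit 152) (nat_lit 18824224864) (nat_lit 228) (nat_lit 3309605778) (nat_lit 15) (nat_lit 5) (nat_lit 17) (nat_lit 5) (nat_lit 18) (nat_lit 5) (nat_lit 270) (nat_lit 253) (nat_lit 197))) (XT.nd (nat_lit 78) (nat_lit 228) (nat_lit 0) (XT.lf (nat_lit 0) (nat_lit 12451522801) (nat_lit 152) (nat_lit 12835585757) (nat_lit 228) (nat_lit 699153558) (nat_lit 15)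 (nat_lit 5) (nat_lit 17) (nat_lit 5) (nat_lit 18) (nat_lit 5) (nat_lit 271) (nat_lit 253) (nat_lit 196)) (XT.nd (nat_lit 78) (nat_lit 152) (nat_lit 0) (XT.lf (nat_lit 0) (nat_lit 1999802164) (nat_lit 228) (nat_lit 4317242954) (nat_lit 76) (nat_lit 21115781482) (nat_lit 14) (nat_lit 5) (nat_lit 17) (nat_lit 5) (nat_lit 15) (nat_lit 5) (nat_lit 272) (nat_lit 253) (nat_lit 195)) (XT.lf (nat_lit 0) (nat_lit 5026964020) (nat_lit 228) (nat_lit 23107574818) (nat_lit 76) (nat_lit 847213709) (nat_lit 12) (nat_lit 5) (nat_lit 15) (nat_lit 5) (nat_lit 13) (nat_lit 5) (nat_lit 273) (nat_lit 253) (nat_lit 194))))) (XT.nd (nat_lit 234) (nat_lit 76) (nat_lit 0) (XT.nd (nat_lit 78) (nat_lit 152) (nat_lit 0) (XT.lf (nat_lit 0) (nat_lit 8568746031) (nat_lit 228) (nat_lit 13703582715) (nat_lit 76) (nat_lit 8360555140) (nat_lit 12) (nat_lit 5) (nat_lit 15) (nat_lit 5) (nat_lit 13) (nat_lit 5) (nat_lit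 274) (nat_lit 253) (nat_lit 193)) (XT.nd (nat_lit 78) (nat_lit 152) (nat_lit 0) (XT.lf (nat_lit 0) (nat_lit 12382075269) (nat_lit 228) (nat_lit 3563684054) (nat_lit 76) (nat_lit 16471370679) (nat_lit 12) (nat_lit 5) (nat_lit 15) (nat_lit 5) (nat_lit 13) (nat_lit 5) (nat_lit 275) (nat_lit 253) (nat_lit 192)) (XT.lf (nat_lit 0) (nat_lit 7760416936) (nat_lit 152) (nat_lit 8915770517) (nat_lit 228) (nat_lit 17653945694) (nat_lit 10) (nat_lit 5) (nat_lit 12) (nat_lit 5) (nat_lit 13) (nat_lit 5) (nat_lit 276) (nat_lit 253) (nat_lit 191)))) (XT.nd (nat_lit 78) (nat_lit 76) (nat_lit 0) (XT.lf (nat_lit 0) (nat_lit 20178303565) (nat_lit 152) (nat_lit 1222493650) (nat_lit 228) (nat_lit 14988490979) (nat_lit 10) (nat_lit 5) (nat_lit 12) (nat_lit 5) (nat_lit 13) (nat_lit 5) (nat_lit 277) (nat_lit 253) (nat_lit 190)) (XT.nd (nat_lit 78) (nat_lit 76) (nat_lit 0) (XT.lf (nat_lit 0) (nat_lit 26664010041)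 (nat_lit 228) (nat_lit 5208436758) (nat_lit 76) (nat_lit 6727942119) (nat_lit 10) (nat_lit 5) (nat_lit 13) (nat_lit 5) (nat_lit 11) (nat_lit 4) (nat_lit 278) (nat_lit 253) (nat_lit 189)) (XT.lf (nat_lit 0) (nat_lit 6978255552) (nat_lit 76) (nat_lit 25560539739) (nat_lit 152) (nat_lit 8434400451) (nat_lit 9) (nat_lit 5) (nat_lit 10) (nat_lit 5) (nat_lit 11) (nat_lit 4) (nat_lit 279) (nat_lit 253) (nat_lit 188)))))) (XT.nd (nat_lit 390) (nat_lit 76) (nat_lit 0) (XT.nd (nat_lit 156) (nat_lit 228) (nat_lit 0) (XT.nd (nat_lit 78) (nat_lit 0) (nat_lit 0) (XT.lf (nat_lit 0) (nat_lit 20423043657) (nat_lit 76) (nat_lit 18594220368) (nat_lit 152) (nat_lit 4507921918) (nat_lit 9) (nat_lit 5) (nat_lit 10) (nat_lit 5) (nat_lit 11) (nat_lit 4) (nat_lit 280) (nat_lit 253) (nat_lit 187)) (XT.lf (nat_lit 0) (nat_lit 34931333326) (nat_lit 76) (nat_lit 11074614685) (nat_lit 152) (nat_lit 276083149)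 (nat_lit 9) (nat_lit 5) (nat_lit 10) (nat_lit 5) (nat_lit 11) (nat_lit 4) (nat_lit 281) (nat_lit 253) (nat_lit 186))) (XT.nd (nat_lit 78) (nat_lit 0) (nat_lit 0) (XT.lf (nat_lit 0) (nat_lit 1290504566) (nat_lit 152) (nat_lit 2812312764) (nat_lit 228) (nat_lit 45146521342) (nat_lit 6) (nat_lit 5) (nat_lit 8) (nat_lit 5) (nat_lit 9) (nat_lit 5) (nat_lit 282) (nat_lit 253) (nat_lit 185)) (XT.nd (nat_lit 78) (nat_lit 0) (nat_lit 0) (XT.lf (nat_lit 0) (nat_lit 9274992024) (nat_lit 228) (nat_lit 37014755931) (nat_lit 76) (nat_lit 6127119265) (nat_lit 6) (nat_lit 5) (nat_lit 9) (nat_lit 5) (nat_lit 7) (nat_lit 4) (nat_lit 283) (nat_lit 253) (nat_lit 184)) (XT.lf (nat_lit 0) (nat_lit 14927042958) (nat_lit 228) (nat_lit 25279198000) (nat_lit 76) (nat_lit 15626306267) (nat_lit 6) (nat_lit 5) (nat_lit 9) (nat_lit 5) (nat_lit 7) (nat_lit 4) (nat_lit 284) (nat_lit 253) (nat_lit 183))))) (XT.nd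 (nat_lit 234) (nat_lit 0) (nat_lit 0) (XT.nd (nat_lit 78) (nat_lit 76) (nat_lit 0) (XT.lf (nat_lit 0) (nat_lit 21024827577) (nat_lit 228) (nat_lit 12614980076) (nat_lit 76) (nat_lit 25882222994) (nat_lit 6) (nat_lit 5) (nat_lit 9) (nat_lit 5) (nat_lit 7) (nat_lit 4) (nat_lit 285) (nat_lit 253) (nat_lit 182)) (XT.nd (nat_lit 78) (nat_lit 0) (nat_lit 0) (XT.lf (nat_lit 0) (nat_lit 1108391277) (nat_lit 76) (nat_lit 26522746461) (nat_lit 152) (nat_lit 35873910807) (nat_lit 5) (nat_lit 5) (nat_lit 6) (nat_lit 5) (nat_lit 7) (nat_lit 4) (nat_lit 286) (nat_lit 253) (nat_lit 181)) (XT.lf (nat_lit 0) (nat_lit 16637865951) (nat_lit 76) (nat_lit 18467268595) (nat_lit 152) (nat_lit 32674468435) (nat_lit 5) (nat_lit 5) (nat_lit 6) (nat_lit 5) (nat_lit 7) (nat_lit 4) (nat_lit 287) (nat_lit 253) (nat_lit 180)))) (XT.nd (nat_lit 78) (nat_lit 0) (nat_lit 0) (XT.lf (nat_lit 0) (nat_lit 33401187965)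 (nat_lit 76) (nat_lit 9770553802) (nat_lit 152) (nat_lit 29224832206) (nat_lit 5) (nat_lit 5) (nat_lit 6) (nat_lit 5) (nat_lit 7) (nat_lit 4) (nat_lit 288) (nat_lit 253) (nat_lit 179)) (XT.nd (nat_lit 78) (nat_lit 0) (nat_lit 0) (XT.lf (nat_lit 0) (nat_lit 51497695524) (nat_lit 76) (nat_lit 381065995) (nat_lit 152) (nat_lit 25504559832) (nat_lit 5) (nat_lit 5) (nat_lit 6) (nat_lit 5) (nat_lit 7) (nat_lit 4) (nat_lit 289) (nat_lit 253) (nat_lit 178)) (XT.lf (nat_lit 0) (nat_lit 61512443101) (nat_lit 152) (nat_lit 11969421163) (nat_lit 0) (nat_lit 9268759772) (nat_lit 5) (nat_lit 5) (nat_lit 7) (nat_lit 4) (nat_lit 5) (nat_lit 4) (nat_lit 290) (nat_lit 253) (nat_lit 177))))))) (XT.nd (nat_lit 858) (nat_lit 76) (nat_lit 0) (XT.nd (nat_lit 390) (nat_lit 76) (nat_lit 0) (XT.nd (nat_lit 156) (nat_lit 76) (nat_lit 0) (XT.nd (nat_lit 78) (nat_lit 0) (nat_lit 0) (XT.lf (nat_lit 0) (nat_lit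 3203373922) (nat_lit 76) (nat_lit 68796108488) (nat_lit 76) (nat_lit 16541237265) (nat_lit 4) (nat_lit 4) (nat_lit 5) (nat_lit 5) (nat_lit 5) (nat_lit 4) (nat_lit 291) (nat_lit 253) (nat_lit 176)) (XT.lf (nat_lit 0) (nat_lit 20263828913) (nat_lit 76) (nat_lit 63384796681) (nat_lit 76) (nat_lit 11119566296) (nat_lit 4) (nat_lit 4) (nat_lit 5) (nat_lit 5) (nat_lit 5) (nat_lit 4) (nat_lit 292) (nat_lit 253) (nat_lit 175))) (XT.nd (nat_lit 78) (nat_lit 76) (nat_lit 0) (XT.lf (nat_lit 0) (nat_lit 38682754293) (nat_lit 76) (nat_lit 57543126994) (nat_lit 76) (nat_lit 5268304795) (nat_lit 4) (nat_lit 4) (nat_lit 5) (nat_lit 5) (nat_lit 5) (nat_lit 4) (nat_lit 293) (nat_lit 253) (nat_lit 174)) (XT.nd (nat_lit 78) (nat_lit 0) (nat_lit 0) (XT.lf (nat_lit 0) (nat_lit 994835127) (nat_lit 152) (nat_lit 50214446446) (nat_lit 76) (nat_lit 57547263567) (nat_lit 3) (nat_lit 5) (nat_lit 5) (nat_lit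 5) (nat_lit 4) (nat_lit 4) (nat_lit 294) (nat_lit 253) (nat_lit 173)) (XT.lf (nat_lit 0) (nat_lit 7471026555) (nat_lit 152) (nat_lit 36752191710) (nat_lit 76) (nat_lit 72366012314) (nat_lit 3) (nat_lit 5) (nat_lit 5) (nat_lit 5) (nat_lit 4) (nat_lit 4) (nat_lit 295) (nat_lit 253) (nat_lit 172))))) (XT.nd (nat_lit 234) (nat_lit 0) (nat_lit 0) (XT.nd (nat_lit 78) (nat_lit 76) (nat_lit 0) (XT.lf (nat_lit 0) (nat_lit 14462188864) (nat_lit 152) (nat_lit 22218188401) (nat_lit 76) (nat_lit 88368417279) (nat_lit 3) (nat_lit 5) (nat_lit 5) (nat_lit 5) (nat_lit 4) (nat_lit 4) (nat_lit 296) (nat_lit 253) (nat_lit 171)) (XT.nd (nat_lit 78) (nat_lit 76) (nat_lit 0) (XT.lf (nat_lit 0) (nat_lit 22009751162) (nat_lit 152) (nat_lit 6526309092) (nat_lit 76) (nat_lit 105649307529) (nat_lit 3) (nat_lit 5) (nat_lit 5) (nat_lit 5) (nat_lit 4) (nat_lit 4) (nat_lit 297) (nat_lit 253) (nat_lit 170)) (XT.lf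 (nat_lit 0) (nat_lit 10964946146) (nat_lit 76) (nat_lit 19457200817) (nat_lit 152) (nat_lit 113609849411) (nat_lit 2) (nat_lit 5) (nat_lit 3) (nat_lit 5) (nat_lit 4) (nat_lit 4) (nat_lit 298) (nat_lit 253) (nat_lit 169)))) (XT.nd (nat_lit 78) (nat_lit 0) (nat_lit 0) (XT.lf (nat_lit 0) (nat_lit 30222286910) (nat_lit 76) (nat_lit 9461102954) (nat_lit 152) (nat_lit 114968907856) (nat_lit 2) (nat_lit 5) (nat_lit 3) (nat_lit 5) (nat_lit 4) (nat_lit 4) (nat_lit 299) (nat_lit 253) (nat_lit 168)) (XT.nd (nat_lit 78) (nat_lit 0) (nat_lit 0) (XT.lf (nat_lit 0) (nat_lit 49715197661) (nat_lit 152) (nat_lit 115138317251) (nat_lit 0) (nat_lit 1266345122) (nat_lit 2) (nat_lit 5) (nat_lit 4) (nat_lit 4) (nat_lit 2) (nat_lit 4) (nat_lit 300) (nat_lit 253) (nat_lit 167)) (XT.lf (nat_lit 0) (nat_lit 60793039597) (nat_lit 152) (nat_lit 105352929157) (nat_lit 0) (nat_lit 12339388763) (nat_lit 2) (nat_lit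 5) (nat_lit 4) (nat_lit 4) (nat_lit 2) (nat_lit 4) (nat_lit 301) (nat_lit 253) (nat_lit 166)))))) (XT.nd (nat_lit 390) (nat_lit 76) (nat_lit 0) (XT.nd (nat_lit 156) (nat_lit 0) (nat_lit 0) (XT.nd (nat_lit 78) (nat_lit 0) (nat_lit 0) (XT.lf (nat_lit 0) (nat_lit 72755022393) (nat_lit 152) (nat_lit 94788319291) (nat_lit 0) (nat_lit 24296928691) (nat_lit 2) (nat_lit 5) (nat_lit 4) (nat_lit 4) (nat_lit 2) (nat_lit 4) (nat_lit 302) (nat_lit 253) (nat_lit 165)) (XT.lf (nat_lit 0) (nat_lit 85672031870) (nat_lit 152) (nat_lit 83381882557) (nat_lit 0) (nat_lit 37209824404) (nat_lit 2) (nat_lit 5) (nat_lit 4) (nat_lit 4) (nat_lit 2) (nat_lit 4) (nat_lit 303) (nat_lit 253) (nat_lit 164))) (XT.nd (nat_lit 78) (nat_lit 0) (nat_lit 0) (XT.lf (nat_lit 0) (nat_lit 99620613271) (nat_lit 152) (nat_lit 71066025256) (nat_lit 0) (nat_lit 51154596763) (nat_lit 2) (nat_lit 5) (nat_lit 4) (nat_lit 4) (nat_lit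 2) (nat_lit 4) (nat_lit 304) (nat_lit 253) (nat_lit 163)) (XT.nd (nat_lit 78) (nat_lit 0) (nat_lit 0) (XT.lf (nat_lit 0) (nat_lit 114683424856) (nat_lit 152) (nat_lit 57767764530) (nat_lit 0) (nat_lit 66213881457) (nat_lit 2) (nat_lit 5) (nat_lit 4) (nat_lit 4) (nat_lit 2) (nat_lit 4) (nat_lit 305) (nat_lit 253) (nat_lit 162)) (XT.lf (nat_lit 0) (nat_lit 130949727731) (nat_lit 152) (nat_lit 43408295870) (nat_lit 0) (nat_lit 82476918692) (nat_lit 2) (nat_lit 5) (nat_lit 4) (nat_lit 4) (nat_lit 2) (nat_lit 4) (nat_lit 306) (nat_lit 253) (nat_lit 161))))) (XT.nd (nat_lit 234) (nat_lit 0) (nat_lit 0) (XT.nd (nat_lit 78) (nat_lit 76) (nat_lit 0) (XT.lf (nat_lit 0) (nat_lit 148515914801) (nat_lit 152) (nat_lit 27902526130) (nat_lit 0) (nat_lit 100040082021) (nat_lit 2) (nat_lit 5) (nat_lit 4) (nat_lit 4) (nat_lit 2) (nat_lit 4) (nat_lit 307) (nat_lit 253) (nat_lit 160)) (XT.nd (nat_lit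 78) (nat_lit 76) (nat_lit 0) (XT.lf (nat_lit 0) (nat_lit 167486081989) (nat_lit 152) (nat_lit 11158569266) (nat_lit 0) (nat_lit 119007449450) (nat_lit 2) (nat_lit 5) (nat_lit 4) (nat_lit 4) (nat_lit 2) (nat_lit 4) (nat_lit 308) (nat_lit 253) (nat_lit 159)) (XT.lf (nat_lit 0) (nat_lit 7287340452) (nat_lit 76) (nat_lit 180860565363) (nat_lit 76) (nat_lit 132379340454) (nat_lit 1) (nat_lit 4) (nat_lit 2) (nat_lit 5) (nat_lit 2) (nat_lit 4) (nat_lit 309) (nat_lit 253) (nat_lit 158)))) (XT.nd (nat_lit 78) (nat_lit 0) (nat_lit 0) (XT.lf (nat_lit 0) (nat_lit 27841468009) (nat_lit 76) (nat_lit 182925125961) (nat_lit 76) (nat_lit 134441500710) (nat_lit 1) (nat_lit 4) (nat_lit 2) (nat_lit 5) (nat_lit 2) (nat_lit 4) (nat_lit 310) (nat_lit 253) (nat_lit 157)) (XT.nd (nat_lit 78) (nat_lit 0) (nat_lit 0) (XT.lf (nat_lit 0) (nat_lit 50038025157) (nat_lit 76) (nat_lit 185155662542) (nat_lit 76) (nat_lit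 136669814752) (nat_lit 1) (nat_lit 4) (nat_lit 2) (nat_lit 5) (nat_lit 2) (nat_lit 4) (nat_lit 311) (nat_lit 253) (nat_lit 156)) (XT.lf (nat_lit 0) (nat_lit 74008547051) (nat_lit 76) (nat_lit 187565393101) (nat_lit 76) (nat_lit 139077487403) (nat_lit 1) (nat_lit 4) (nat_lit 2) (nat_lit 5) (nat_lit 2) (nat_lit 4) (nat_lit 312) (nat_lit 253) (nat_lit 155))))))))
noncomputable def xc76 : XT := (XT.nd (nat_lit 33306) (nat_lit 0) (nat_lit 608) (XT.nd (nat_lit 858) (nat_lit 0) (nat_lit 0) (XT.nd (nat_lit 390) (nat_lit 0) (nat_lit 0) (XT.nd (nat_lit 156) (nat_lit 0) (nat_lit 0) (XT.nd (nat_lit 78) (nat_lit 0) (nat_lit 0) (XT.lf (nat_lit 0) (nat_lit 99895081228) (nat_lit 76) (nat_lit 190168597522) (nat_lit 76) (nat_lit 141678786355) (nat_lit 1) (nat_lit 4) (nat_lit 2) (nat_lit 5) (nat_lit 2) (nat_lit 4) (nat_lit 313) (nat_lit 253) (nat_lit 154)) (XT.lf (nat_lit 0) (nat_lit 127851029371) (nat_lit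 76) (nat_lit 192980702201) (nat_lit 76) (nat_lit 144489126711) (nat_lit 1) (nat_lit 4) (nat_lit 2) (nat_lit 5) (nat_lit 2) (nat_lit 4) (nat_lit 314) (nat_lit 253) (nat_lit 153))) (XT.nd (nat_lit 78) (nat_lit 0) (nat_lit 0) (XT.lf (nat_lit 0) (nat_lit 158042056359) (nat_lit 76) (nat_lit 196018371463) (nat_lit 76) (nat_lit 147525162340) (nat_lit 1) (nat_lit 4) (nat_lit 2) (nat_lit 5) (nat_lit 2) (nat_lit 4) (nat_lit 315) (nat_lit 253) (nat_lit 152)) (XT.nd (nat_lit 78) (nat_lit 0) (nat_lit 0) (XT.lf (nat_lit 0) (nat_lit 190647071982) (nat_lit 76) (nat_lit 199299606311) (nat_lit 76) (nat_lit 150804884565) (nat_lit 1) (nat_lit 4) (nat_lit 2) (nat_lit 5) (nat_lit 2) (nat_lit 4) (nat_lit 316) (nat_lit 253) (nat_lit 151)) (XT.lf (nat_lit 0) (nat_lit 225859291145) (nat_lit 76) (nat_lit 202843851099) (nat_lit 76) (nat_lit 154347728776) (nat_lit 1) (nat_lit 4) (nat_lit 2) (nat_lit 5) (nat_lit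 2) (nat_lit 4) (nat_lit 317) (nat_lit 253) (nat_lit 150))))) (XT.nd (nat_lit 234) (nat_lit 0) (nat_lit 0) (XT.nd (nat_lit 78) (nat_lit 0) (nat_lit 0) (XT.lf (nat_lit 0) (nat_lit 263887378853) (nat_lit 76) (nat_lit 206672108760) (nat_lit 76) (nat_lit 158174689607) (nat_lit 1) (nat_lit 4) (nat_lit 2) (nat_lit 5) (nat_lit 2) (nat_lit 4) (nat_lit 318) (nat_lit 253) (nat_lit 149)) (XT.nd (nat_lit 78) (nat_lit 0) (nat_lit 0) (XT.lf (nat_lit 0) (nat_lit 304956686735) (nat_lit 76) (nat_lit 210807065265) (nat_lit 76) (nat_lit 162308445342) (nat_lit 1) (nat_lit 4) (nat_lit 2) (nat_lit 5) (nat_lit 2) (nat_lit 4) (nat_lit 319) (nat_lit 253) (nat_lit 148)) (XT.lf (nat_lit 0) (nat_lit 349310588469) (nat_lit 76) (nat_lit 215273224059) (nat_lit 76) (nat_lit 166773492314) (nat_lit 1) (nat_lit 4) (nat_lit 2) (nat_lit 5) (nat_lit 2) (nat_lit 4) (nat_lit 320) (nat_lit 253) (nat_lit 147)))) (XT.nd (nat_lit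 78) (nat_lit 0) (nat_lit 0) (XT.lf (nat_lit 0) (nat_lit 397211921990) (nat_lit 76) (nat_lit 220097051269) (nat_lit 76) (nat_lit 171596290058) (nat_lit 1) (nat_lit 4) (nat_lit 2) (nat_lit 5) (nat_lit 2) (nat_lit 4) (nat_lit 321) (nat_lit 253) (nat_lit 146)) (XT.nd (nat_lit 78) (nat_lit 0) (nat_lit 0) (XT.lf (nat_lit 0) (nat_lit 448944547052) (nat_lit 76) (nat_lit 225307132539) (nat_lit 76) (nat_lit 176805418118) (nat_lit 1) (nat_lit 4) (nat_lit 2) (nat_lit 5) (nat_lit 2) (nat_lit 4) (nat_lit 322) (nat_lit 253) (nat_lit 145)) (XT.lf (nat_lit 0) (nat_lit 504815027360) (nat_lit 76) (nat_lit 230934342422) (nat_lit 76) (nat_lit 182431745401) (nat_lit 1) (nat_lit 4) (nat_lit 2) (nat_lit 5) (nat_lit 2) (nat_lit 4) (nat_lit 323) (nat_lit 253) (nat_lit 144)))))) (XT.nd (nat_lit 390) (nat_lit 0) (nat_lit 0) (XT.nd (nat_lit 156) (nat_lit 0) (nat_lit 0) (XT.nd (nat_lit 78) (nat_lit 0) (nat_lit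 0) (XT.lf (nat_lit 0) (nat_lit 565154447242) (nat_lit 76) (nat_lit 237012027349) (nat_lit 76) (nat_lit 188508613104) (nat_lit 1) (nat_lit 4) (nat_lit 2) (nat_lit 5) (nat_lit 2) (nat_lit 4) (nat_lit 324) (nat_lit 253) (nat_lit 143)) (XT.lf (nat_lit 0) (nat_lit 630320373630) (nat_lit 76) (nat_lit 243576203229) (nat_lit 76) (nat_lit 195072032297) (nat_lit 1) (nat_lit 4) (nat_lit 2) (nat_lit 5) (nat_lit 2) (nat_lit 4) (nat_lit 325) (nat_lit 253) (nat_lit 142))) (XT.nd (nat_lit 78) (nat_lit 0) (nat_lit 0) (XT.lf (nat_lit 0) (nat_lit 700698974976) (nat_lit 76) (nat_lit 250665768884) (nat_lit 76) (nat_lit 202160897314) (nat_lit 1) (nat_lit 4) (nat_lit 2) (nat_lit 5) (nat_lit 2) (nat_lit 4) (nat_lit 326) (nat_lit 253) (nat_lit 141)) (XT.nd (nat_lit 78) (nat_lit 0) (nat_lit 0) (XT.lf (nat_lit 0) (nat_lit 776707309659) (nat_lit 76) (nat_lit 258322736554) (nat_lit 76) (nat_lit 209817216246)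 (nat_lit 1) (nat_lit 4) (nat_lit 2) (nat_lit 5) (nat_lit 2) (nat_lit 4) (nat_lit 327) (nat_lit 253) (nat_lit 140)) (XT.lf (nat_lit 0) (nat_lit 858795797440) (nat_lit 76) (nat_lit 266592480862) (nat_lit 76) (nat_lit 218086359870) (nat_lit 1) (nat_lit 4) (nat_lit 2) (nat_lit 5) (nat_lit 2) (nat_lit 4) (nat_lit 328) (nat_lit 253) (nat_lit 139))))) (XT.nd (nat_lit 31824) (nat_lit 0) (nat_lit 2280) (XT.nd (nat_lit 31668) (nat_lit 0) (nat_lit 2280) (XT.lf (nat_lit 0) (nat_lit 947450888618) (nat_lit 76) (nat_lit 275524007700) (nat_lit 76) (nat_lit 227017330520) (nat_lit 1) (nat_lit 4) (nat_lit 2) (nat_lit 5) (nat_lit 2) (nat_lit 4) (nat_lit 329) (nat_lit 253) (nat_lit 138)) (XT.nd (nat_lit 78) (nat_lit 0) (nat_lit 0) (XT.lf (nat_lit 0) (nat_lit 2135892109) (nat_lit 0) (nat_lit 2135892109) (nat_lit 380) (nat_lit 1940061098) (nat_lit 31) (nat_lit 5) (nat_lit 31) (nat_lit 3) (nat_lit 36) (nat_lit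 3) (nat_lit 254) (nat_lit 254) (nat_lit 212)) (XT.lf (nat_lit 0) (nat_lit 9258496601) (nat_lit 380) (nat_lit 3381054365) (nat_lit 456) (nat_lit 247475562) (nat_lit 31) (nat_lit 5) (nat_lit 36) (nat_lit 3) (nat_lit 37) (nat_lit 5) (nat_lit 255) (nat_lit 254) (nat_lit 211)))) (XT.nd (nat_lit 78) (nat_lit 0) (nat_lit 0) (XT.lf (nat_lit 76) (nat_lit 1724676818) (nat_lit 0) (nat_lit 8422107915) (nat_lit 456) (nat_lit 3231727175) (nat_lit 32) (nat_lit 5) (nat_lit 31) (nat_lit 5) (nat_lit 37) (nat_lit 5) (nat_lit 256) (nat_lit 254) (nat_lit 210)) (XT.nd (nat_lit 78) (nat_lit 0) (nat_lit 76) (XT.lf (nat_lit 76) (nat_lit 7409600862) (nat_lit 0) (nat_lit 3754879114) (nat_lit 456) (nat_lit 2740516647) (nat_lit 32) (nat_lit 5) (nat_lit 31) (nat_lit 5) (nat_lit 37) (nat_lit 5) (nat_lit 257) (nat_lit 254) (nat_lit 209)) (XT.lf (nat_lit 0) (nat_lit 12263218077) (nat_lit 380) (nat_lit 978283692)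 (nat_lit 456) (nat_lit 1232450414) (nat_lit 32) (nat_lit 5) (nat_lit 37) (nat_lit 5) (nat_lit 38) (nat_lit 5) (nat_lit 258) (nat_lit 254) (nat_lit 208))))))) (XT.nd (nat_lit 858) (nat_lit 608) (nat_lit 0) (XT.nd (nat_lit 390) (nat_lit 760) (nat_lit 0) (XT.nd (nat_lit 156) (nat_lit 380) (nat_lit 0) (XT.nd (nat_lit 78) (nat_lit 0) (nat_lit 0) (XT.lf (nat_lit 76) (nat_lit 5117284364) (nat_lit 0) (nat_lit 8524194568) (nat_lit 456) (nat_lit 1431913738) (nat_lit 33) (nat_lit 5) (nat_lit 32) (nat_lit 5) (nat_lit 38) (nat_lit 5) (nat_lit 259) (nat_lit 254) (nat_lit 207)) (XT.lf (nat_lit 76) (nat_lit 11735303821) (nat_lit 0) (nat_lit 3394113852) (nat_lit 456) (nat_lit 591693637) (nat_lit 33) (nat_lit 5) (nat_lit 32) (nat_lit 5) (nat_lit 38) (nat_lit 5) (nat_lit 260) (nat_lit 254) (nat_lit 206))) (XT.nd (nat_lit 78) (nat_lit 0) (nat_lit 0) (XT.lf (nat_lit 0) (nat_lit 388898487) (nat_lit 456)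 (nat_lit 13909219846) (nat_lit 76) (nat_lit 2115042539) (nat_lit 27) (nat_lit 5) (nat_lit 33) (nat_lit 5) (nat_lit 28) (nat_lit 5) (nat_lit 261) (nat_lit 254) (nat_lit 205)) (XT.nd (nat_lit 78) (nat_lit 0) (nat_lit 0) (XT.lf (nat_lit 0) (nat_lit 1591289421) (nat_lit 456) (nat_lit 7541348069) (nat_lit 76) (nat_lit 8012901274) (nat_lit 27) (nat_lit 5) (nat_lit 33) (nat_lit 5) (nat_lit 28) (nat_lit 5) (nat_lit 262) (nat_lit 254) (nat_lit 204)) (XT.lf (nat_lit 0) (nat_lit 2867047368) (nat_lit 456) (nat_lit 685046297) (nat_lit 76) (nat_lit 14386442233) (nat_lit 27) (nat_lit 5) (nat_lit 33) (nat_lit 5) (nat_lit 28) (nat_lit 5) (nat_lit 263) (nat_lit 254) (nat_lit 203))))) (XT.nd (nat_lit 234) (nat_lit 152) (nat_lit 0) (XT.nd (nat_lit 78) (nat_lit 228) (nat_lit 0) (XT.lf (nat_lit 0) (nat_lit 4457328424) (nat_lit 456) (nat_lit 11794106930) (nat_lit 76) (nat_lit 2526728481) (nat_lit 22) (nat_lit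 5) (nat_lit 28) (nat_lit 5) (nat_lit 23) (nat_lit 5) (nat_lit 264) (nat_lit 254) (nat_lit 202)) (XT.nd (nat_lit 78) (nat_lit 228) (nat_lit 0) (XT.lf (nat_lit 0) (nat_lit 6266312881) (nat_lit 456) (nat_lit 4491318445) (nat_lit 76) (nat_lit 8920186307) (nat_lit 22) (nat_lit 5) (nat_lit 28) (nat_lit 5) (nat_lit 23) (nat_lit 5) (nat_lit 265) (nat_lit 254) (nat_lit 201)) (XT.lf (nat_lit 0) (nat_lit 3554275964) (nat_lit 228) (nat_lit 4732703757) (nat_lit 304) (nat_lit 12357268129) (nat_lit 19) (nat_lit 5) (nat_lit 22) (nat_lit 5) (nat_lit 23) (nat_lit 5) (nat_lit 266) (nat_lit 254) (nat_lit 200)))) (XT.nd (nat_lit 78) (nat_lit 152) (nat_lit 0) (XT.lf (nat_lit 0) (nat_lit 10620337209) (nat_lit 304) (nat_lit 9245344436) (nat_lit 76) (nat_lit 1810377116) (nat_lit 19) (nat_lit 5) (nat_lit 23) (nat_lit 5) (nat_lit 20) (nat_lit 5) (nat_lit 267) (nat_lit 254) (nat_lit 199)) (XT.nd (nat_lit 78)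 (nat_lit 152) (nat_lit 0) (XT.lf (nat_lit 0) (nat_lit 13246973152) (nat_lit 304) (nat_lit 914833027) (nat_lit 76) (nat_lit 8620217787) (nat_lit 19) (nat_lit 5) (nat_lit 23) (nat_lit 5) (nat_lit 20) (nat_lit 5) (nat_lit 268) (nat_lit 254) (nat_lit 198)) (XT.lf (nat_lit 0) (nat_lit 8489425415) (nat_lit 152) (nat_lit 7783376628) (nat_lit 228) (nat_lit 7688667346) (nat_lit 17) (nat_lit 5) (nat_lit 19) (nat_lit 5) (nat_lit 20) (nat_lit 5) (nat_lit 269) (nat_lit 254) (nat_lit 197)))))) (XT.nd (nat_lit 390) (nat_lit 228) (nat_lit 0) (XT.nd (nat_lit 156) (nat_lit 228) (nat_lit 0) (XT.nd (nat_lit 78) (nat_lit 152) (nat_lit 0) (XT.lf (nat_lit 0) (nat_lit 18681122309) (nat_lit 152) (nat_lit 870191299) (nat_lit 228) (nat_lit 5683226021) (nat_lit 17) (nat_lit 5) (nat_lit 19) (nat_lit 5) (nat_lit 20) (nat_lit 5) (nat_lit 270) (nat_lit 254) (nat_lit 196)) (XT.lf (nat_lit 0) (nat_lit 3056150048)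 (nat_lit 152) (nat_lit 20254704896) (nat_lit 228) (nat_lit 3281210348) (nat_lit 15) (nat_lit 5) (nat_lit 17) (nat_lit 5) (nat_lit 18) (nat_lit 5) (nat_lit 271) (nat_lit 254) (nat_lit 195))) (XT.nd (nat_lit 78) (nat_lit 228) (nat_lit 0) (XT.lf (nat_lit 0) (nat_lit 13767018793) (nat_lit 152) (nat_lit 13792564138) (nat_lit 228) (nat_lit 483637794) (nat_lit 15) (nat_lit 5) (nat_lit 17) (nat_lit 5) (nat_lit 18) (nat_lit 5) (nat_lit 272) (nat_lit 254) (nat_lit 194)) (XT.nd (nat_lit 78) (nat_lit 152) (nat_lit 0) (XT.lf (nat_lit 0) (nat_lit 2398554039) (nat_lit 228) (nat_lit 4352633320) (nat_lit 76) (nat_lit 22855464789) (nat_lit 14) (nat_lit 5) (nat_lit 17) (nat_lit 5) (nat_lit 15) (nat_lit 5) (nat_lit 273) (nat_lit 254) (nat_lit 193)) (XT.lf (nat_lit 0) (nat_lit 5659243587) (nat_lit 228) (nat_lit 24635973177) (nat_lit 76) (nat_lit 985092891) (nat_lit 12) (nat_lit 5) (nat_lit 15) (nat_lit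 5) (nat_lit 13) (nat_lit 5) (nat_lit 274) (nat_lit 254) (nat_lit 192))))) (XT.nd (nat_lit 234) (nat_lit 76) (nat_lit 0) (XT.nd (nat_lit 78) (nat_lit 152) (nat_lit 0) (XT.lf (nat_lit 0) (nat_lit 9467322053) (nat_lit 228) (nat_lit 14503380789) (nat_lit 76) (nat_lit 9094308889) (nat_lit 12) (nat_lit 5) (nat_lit 15) (nat_lit 5) (nat_lit 13) (nat_lit 5) (nat_lit 275) (nat_lit 254) (nat_lit 191)) (XT.nd (nat_lit 78) (nat_lit 152) (nat_lit 0) (XT.lf (nat_lit 0) (nat_lit 13569934197) (nat_lit 228) (nat_lit 3574252350) (nat_lit 76) (nat_lit 17849181572) (nat_lit 12) (nat_lit 5) (nat_lit 15) (nat_lit 5) (nat_lit 13) (nat_lit 5) (nat_lit 276) (nat_lit 254) (nat_lit 190)) (XT.lf (nat_lit 0) (nat_lit 8648826684) (nat_lit 152) (nat_lit 9550569601) (nat_lit 228) (nat_lit 18860769471) (nat_lit 10) (nat_lit 5) (nat_lit 12) (nat_lit 5) (nat_lit 13) (nat_lit 5) (nat_lit 277) (nat_lit 254) (nat_lit 189))))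 (XT.nd (nat_lit 78) (nat_lit 76) (nat_lit 0) (XT.lf (nat_lit 0) (nat_lit 22040323769) (nat_lit 152) (nat_lit 1247642626) (nat_lit 228) (nat_lit 15997299999) (nat_lit 10) (nat_lit 5) (nat_lit 12) (nat_lit 5) (nat_lit 13) (nat_lit 5) (nat_lit 278) (nat_lit 254) (nat_lit 188)) (XT.nd (nat_lit 78) (nat_lit 76) (nat_lit 0) (XT.lf (nat_lit 0) (nat_lit 28960883298) (nat_lit 228) (nat_lit 5383284359) (nat_lit 76) (nat_lit 7330081417) (nat_lit 10) (nat_lit 5) (nat_lit 13) (nat_lit 5) (nat_lit 11) (nat_lit 4) (nat_lit 279) (nat_lit 254) (nat_lit 187)) (XT.lf (nat_lit 0) (nat_lit 7772221125) (nat_lit 76) (nat_lit 27526969146) (nat_lit 152) (nat_lit 8938286377) (nat_lit 9) (nat_lit 5) (nat_lit 10) (nat_lit 5) (nat_lit 11) (nat_lit 4) (nat_lit 280) (nat_lit 254) (nat_lit 186))))))))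
noncomputable def xc77 : XT := (XT.nd (nat_lit 1716) (nat_lit 76) (nat_lit 0) (XT.nd (nat_lit 858) (nat_lit 228) (nat_lit 0) (XT.nd (nat_lit 390) (nat_lit 76) (nat_lit 0) (XT.nd (nat_lit 156) (nat_lit 228) (nat_lit 0) (XT.nd (nat_lit 78) (nat_lit 0) (nat_lit 0) (XT.lf (nat_lit 0) (nat_lit 22275132639) (nat_lit 76) (nat_lit 20009152653) (nat_lit 152) (nat_lit 4710346310) (nat_lit 9) (nat_lit 5) (nat_lit 10) (nat_lit 5) (nat_lit 11) (nat_lit 4) (nat_lit 281) (nat_lit 254) (nat_lit 185)) (XT.lf (nat_lit 0) (nat_lit 37927919149) (nat_lit 76) (nat_lit 11893356688) (nat_lit 152) (nat_lit 151679651) (nat_lit 9) (nat_lit 5) (nat_lit 10) (nat_lit 5) (nat_lit 11) (nat_lit 4) (nat_lit 282) (nat_lit 254) (nat_lit 184))) (XT.nd (nat_lit 78) (nat_lit 0) (nat_lit 0) (XT.lf (nat_lit 0) (nat_lit 1598617788) (nat_lit 152) (nat_lit 2966205940) (nat_lit 228) (nat_lit 48613030814) (nat_lit 6) (nat_lit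 5) (nat_lit 8) (nat_lit 5) (nat_lit 9) (nat_lit 5) (nat_lit 283) (nat_lit 254) (nat_lit 183)) (XT.nd (nat_lit 78) (nat_lit 0) (nat_lit 0) (XT.lf (nat_lit 0) (nat_lit 10142445805) (nat_lit 228) (nat_lit 39777237962) (nat_lit 76) (nat_lit 6679821717) (nat_lit 6) (nat_lit 5) (nat_lit 9) (nat_lit 5) (nat_lit 7) (nat_lit 4) (nat_lit 284) (nat_lit 254) (nat_lit 182)) (XT.lf (nat_lit 0) (nat_lit 16237367893) (nat_lit 228) (nat_lit 27117553800) (nat_lit 76) (nat_lit 16934311612) (nat_lit 6) (nat_lit 5) (nat_lit 9) (nat_lit 5) (nat_lit 7) (nat_lit 4) (nat_lit 285) (nat_lit 254) (nat_lit 181))))) (XT.nd (nat_lit 234) (nat_lit 0) (nat_lit 0) (XT.nd (nat_lit 78) (nat_lit 76) (nat_lit 0) (XT.lf (nat_lit 0) (nat_lit 22814370726) (nat_lit 228) (nat_lit 13453826593) (nat_lit 76) (nat_lit 28006412725) (nat_lit 6) (nat_lit 5) (nat_lit 9) (nat_lit 5) (nat_lit 7) (nat_lit 4) (nat_lit 286) (nat_lit 254)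 (nat_lit 180)) (XT.nd (nat_lit 78) (nat_lit 0) (nat_lit 0) (XT.lf (nat_lit 0) (nat_lit 1363101762) (nat_lit 76) (nat_lit 28582110003) (nat_lit 152) (nat_lit 38631418376) (nat_lit 5) (nat_lit 5) (nat_lit 6) (nat_lit 5) (nat_lit 7) (nat_lit 4) (nat_lit 287) (nat_lit 254) (nat_lit 179)) (XT.lf (nat_lit 0) (nat_lit 18122635211) (nat_lit 76) (nat_lit 19886820291) (nat_lit 152) (nat_lit 35184346932) (nat_lit 5) (nat_lit 5) (nat_lit 6) (nat_lit 5) (nat_lit 7) (nat_lit 4) (nat_lit 288) (nat_lit 254) (nat_lit 178)))) (XT.nd (nat_lit 78) (nat_lit 0) (nat_lit 0) (XT.lf (nat_lit 0) (nat_lit 36215634839) (nat_lit 76) (nat_lit 10498652003) (nat_lit 152) (nat_lit 31466449358) (nat_lit 5) (nat_lit 5) (nat_lit 6) (nat_lit 5) (nat_lit 7) (nat_lit 4) (nat_lit 289) (nat_lit 254) (nat_lit 177)) (XT.nd (nat_lit 78) (nat_lit 0) (nat_lit 0) (XT.lf (nat_lit 0) (nat_lit 55749318423) (nat_lit 76) (nat_lit 361971549)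 (nat_lit 152) (nat_lit 27455693670) (nat_lit 5) (nat_lit 5) (nat_lit 6) (nat_lit 5) (nat_lit 7) (nat_lit 4) (nat_lit 290) (nat_lit 254) (nat_lit 176)) (XT.lf (nat_lit 0) (nat_lit 66510679221) (nat_lit 152) (nat_lit 12799550523) (nat_lit 0) (nat_lit 10053871245) (nat_lit 5) (nat_lit 5) (nat_lit 7) (nat_lit 4) (nat_lit 5) (nat_lit 4) (nat_lit 291) (nat_lit 254) (nat_lit 175)))))) (XT.nd (nat_lit 390) (nat_lit 76) (nat_lit 0) (XT.nd (nat_lit 156) (nat_lit 76) (nat_lit 0) (XT.nd (nat_lit 78) (nat_lit 0) (nat_lit 0) (XT.lf (nat_lit 0) (nat_lit 3583842237) (nat_lit 76) (nat_lit 74250104881) (nat_lit 76) (nat_lit 17783705090) (nat_lit 4) (nat_lit 4) (nat_lit 5) (nat_lit 5) (nat_lit 5) (nat_lit 4) (nat_lit 292) (nat_lit 254) (nat_lit 174)) (XT.lf (nat_lit 0) (nat_lit 21999933745) (nat_lit 76) (nat_lit 68409569039) (nat_lit 76) (nat_lit 11934287937) (nat_lit 4) (nat_lit 4) (nat_lit 5) (nat_lit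 5) (nat_lit 5) (nat_lit 4) (nat_lit 293) (nat_lit 254) (nat_lit 173))) (XT.nd (nat_lit 78) (nat_lit 76) (nat_lit 0) (XT.lf (nat_lit 0) (nat_lit 41883854747) (nat_lit 76) (nat_lit 62103974028) (nat_lit 76) (nat_lit 5620469490) (nat_lit 4) (nat_lit 4) (nat_lit 5) (nat_lit 5) (nat_lit 5) (nat_lit 4) (nat_lit 294) (nat_lit 254) (nat_lit 172)) (XT.nd (nat_lit 78) (nat_lit 0) (nat_lit 0) (XT.lf (nat_lit 0) (nat_lit 1135378453) (nat_lit 152) (nat_lit 54129531647) (nat_lit 76) (nat_lit 62187014172) (nat_lit 3) (nat_lit 5) (nat_lit 5) (nat_lit 5) (nat_lit 4) (nat_lit 4) (nat_lit 295) (nat_lit 254) (nat_lit 171)) (XT.lf (nat_lit 0) (nat_lit 8125149898) (nat_lit 152) (nat_lit 39597857312) (nat_lit 76) (nat_lit 78188598410) (nat_lit 3) (nat_lit 5) (nat_lit 5) (nat_lit 5) (nat_lit 4) (nat_lit 4) (nat_lit 296) (nat_lit 254) (nat_lit 170))))) (XT.nd (nat_lit 234) (nat_lit 0) (nat_lit 0) (XT.nd (nat_lit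 78) (nat_lit 76) (nat_lit 0) (XT.lf (nat_lit 0) (nat_lit 15671424361) (nat_lit 152) (nat_lit 23908134459) (nat_lit 76) (nat_lit 95468728727) (nat_lit 3) (nat_lit 5) (nat_lit 5) (nat_lit 5) (nat_lit 4) (nat_lit 4) (nat_lit 297) (nat_lit 254) (nat_lit 169)) (XT.nd (nat_lit 78) (nat_lit 76) (nat_lit 0) (XT.lf (nat_lit 0) (nat_lit 23818920503) (nat_lit 152) (nat_lit 6967386954) (nat_lit 76) (nat_lit 114129805896) (nat_lit 3) (nat_lit 5) (nat_lit 5) (nat_lit 5) (nat_lit 4) (nat_lit 4) (nat_lit 298) (nat_lit 254) (nat_lit 168)) (XT.lf (nat_lit 0) (nat_lit 11921117390) (nat_lit 76) (nat_lit 20981505553) (nat_lit 152) (nat_lit 122647999846) (nat_lit 2) (nat_lit 5) (nat_lit 3) (nat_lit 5) (nat_lit 4) (nat_lit 4) (nat_lit 299) (nat_lit 254) (nat_lit 167)))) (XT.nd (nat_lit 78) (nat_lit 0) (nat_lit 0) (XT.lf (nat_lit 0) (nat_lit 32713195374) (nat_lit 76) (nat_lit 10188110331) (nat_lit 152) (nat_lit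 124119533895) (nat_lit 2) (nat_lit 5) (nat_lit 3) (nat_lit 5) (nat_lit 4) (nat_lit 4) (nat_lit 300) (nat_lit 254) (nat_lit 166)) (XT.nd (nat_lit 78) (nat_lit 0) (nat_lit 0) (XT.lf (nat_lit 0) (nat_lit 53733120220) (nat_lit 152) (nat_lit 124278967062) (nat_lit 0) (nat_lit 1393936156) (nat_lit 2) (nat_lit 5) (nat_lit 4) (nat_lit 4) (nat_lit 2) (nat_lit 4) (nat_lit 301) (nat_lit 254) (nat_lit 165)) (XT.lf (nat_lit 0) (nat_lit 65694174197) (nat_lit 152) (nat_lit 113715963889) (nat_lit 0) (nat_lit 13350876368) (nat_lit 2) (nat_lit 5) (nat_lit 4) (nat_lit 4) (nat_lit 2) (nat_lit 4) (nat_lit 302) (nat_lit 254) (nat_lit 164))))))) (XT.nd (nat_lit 858) (nat_lit 0) (nat_lit 0) (XT.nd (nat_lit 390) (nat_lit 76) (nat_lit 0) (XT.nd (nat_lit 156) (nat_lit 0) (nat_lit 0) (XT.nd (nat_lit 78) (nat_lit 0) (nat_lit 0) (XT.lf (nat_lit 0) (nat_lit 78610323658) (nat_lit 152) (nat_lit 102311014833) (nat_lit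 0) (nat_lit 26263216787) (nat_lit 2) (nat_lit 5) (nat_lit 4) (nat_lit 4) (nat_lit 2) (nat_lit 4) (nat_lit 303) (nat_lit 254) (nat_lit 163)) (XT.lf (nat_lit 0) (nat_lit 92558108748) (nat_lit 152) (nat_lit 89996535013) (nat_lit 0) (nat_lit 40207474986) (nat_lit 2) (nat_lit 5) (nat_lit 4) (nat_lit 4) (nat_lit 2) (nat_lit 4) (nat_lit 304) (nat_lit 254) (nat_lit 162))) (XT.nd (nat_lit 78) (nat_lit 0) (nat_lit 0) (XT.lf (nat_lit 0) (nat_lit 107620183007) (nat_lit 152) (nat_lit 76699549731) (nat_lit 0) (nat_lit 55266283605) (nat_lit 2) (nat_lit 5) (nat_lit 4) (nat_lit 4) (nat_lit 2) (nat_lit 4) (nat_lit 305) (nat_lit 254) (nat_lit 161)) (XT.nd (nat_lit 78) (nat_lit 0) (nat_lit 0) (XT.lf (nat_lit 0) (nat_lit 123885803173) (nat_lit 152) (nat_lit 62341262039) (nat_lit 0) (nat_lit 71528880031) (nat_lit 2) (nat_lit 5) (nat_lit 4) (nat_lit 4) (nat_lit 2) (nat_lit 4) (nat_lit 306) (nat_lit 254)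 (nat_lit 160)) (XT.lf (nat_lit 0) (nat_lit 141451358105) (nat_lit 152) (nat_lit 46836585787) (nat_lit 0) (nat_lit 89091635203) (nat_lit 2) (nat_lit 5) (nat_lit 4) (nat_lit 4) (nat_lit 2) (nat_lit 4) (nat_lit 307) (nat_lit 254) (nat_lit 159))))) (XT.nd (nat_lit 234) (nat_lit 0) (nat_lit 0) (XT.nd (nat_lit 78) (nat_lit 76) (nat_lit 0) (XT.lf (nat_lit 0) (nat_lit 160420939980) (nat_lit 152) (nat_lit 30093641412) (nat_lit 0) (nat_lit 108058624709) (nat_lit 2) (nat_lit 5) (nat_lit 4) (nat_lit 4) (nat_lit 2) (nat_lit 4) (nat_lit 308) (nat_lit 254) (nat_lit 158)) (XT.nd (nat_lit 78) (nat_lit 76) (nat_lit 0) (XT.lf (nat_lit 0) (nat_lit 180906961137) (nat_lit 152) (nat_lit 12013211466) (nat_lit 0) (nat_lit 128542245523) (nat_lit 2) (nat_lit 5) (nat_lit 4) (nat_lit 4) (nat_lit 2) (nat_lit 4) (nat_lit 309) (nat_lit 254) (nat_lit 157)) (XT.lf (nat_lit 0) (nat_lit 7907407907) (nat_lit 76) (nat_lit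 195313585662) (nat_lit 76) (nat_lit 142946647508) (nat_lit 1) (nat_lit 4) (nat_lit 2) (nat_lit 5) (nat_lit 2) (nat_lit 4) (nat_lit 310) (nat_lit 254) (nat_lit 156)))) (XT.nd (nat_lit 78) (nat_lit 0) (nat_lit 0) (XT.lf (nat_lit 0) (nat_lit 30103118985) (nat_lit 76) (nat_lit 197544483325) (nat_lit 76) (nat_lit 145175487265) (nat_lit 1) (nat_lit 4) (nat_lit 2) (nat_lit 5) (nat_lit 2) (nat_lit 4) (nat_lit 311) (nat_lit 254) (nat_lit 155)) (XT.nd (nat_lit 78) (nat_lit 0) (nat_lit 0) (XT.lf (nat_lit 0) (nat_lit 54072857480) (nat_lit 76) (nat_lit 199954548219) (nat_lit 76) (nat_lit 147583646689) (nat_lit 1) (nat_lit 4) (nat_lit 2) (nat_lit 5) (nat_lit 2) (nat_lit 4) (nat_lit 312) (nat_lit 254) (nat_lit 154)) (XT.lf (nat_lit 0) (nat_lit 79958666288) (nat_lit 76) (nat_lit 202558062209) (nat_lit 76) (nat_lit 150185396356) (nat_lit 1) (nat_lit 4) (nat_lit 2) (nat_lit 5) (nat_lit 2) (nat_lit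 4) (nat_lit 313) (nat_lit 254) (nat_lit 153)))))) (XT.nd (nat_lit 390) (nat_lit 0) (nat_lit 0) (XT.nd (nat_lit 156) (nat_lit 0) (nat_lit 0) (XT.nd (nat_lit 78) (nat_lit 0) (nat_lit 0) (XT.lf (nat_lit 0) (nat_lit 107913942794) (nat_lit 76) (nat_lit 205370453527) (nat_lit 76) (nat_lit 152996154041) (nat_lit 1) (nat_lit 4) (nat_lit 2) (nat_lit 5) (nat_lit 2) (nat_lit 4) (nat_lit 314) (nat_lit 254) (nat_lit 152)) (XT.lf (nat_lit 0) (nat_lit 138104347895) (nat_lit 76) (nat_lit 208408388195) (nat_lit 76) (nat_lit 156032576086) (nat_lit 1) (nat_lit 4) (nat_lit 2) (nat_lit 5) (nat_lit 2) (nat_lit 4) (nat_lit 315) (nat_lit 254) (nat_lit 151))) (XT.nd (nat_lit 78) (nat_lit 0) (nat_lit 0) (XT.lf (nat_lit 0) (nat_lit 170708787696) (nat_lit 76) (nat_lit 211689868790) (nat_lit 76) (nat_lit 159312656104) (nat_lit 1) (nat_lit 4) (nat_lit 2) (nat_lit 5) (nat_lit 2) (nat_lit 4) (nat_lit 316) (nat_lit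 254) (nat_lit 150)) (XT.nd (nat_lit 78) (nat_lit 0) (nat_lit 0) (XT.lf (nat_lit 0) (nat_lit 205920473691) (nat_lit 76) (nat_lit 215234341121) (nat_lit 76) (nat_lit 162855831605) (nat_lit 1) (nat_lit 4) (nat_lit 2) (nat_lit 5) (nat_lit 2) (nat_lit 4) (nat_lit 317) (nat_lit 254) (nat_lit 149)) (XT.lf (nat_lit 0) (nat_lit 243948067725) (nat_lit 76) (nat_lit 219062809470) (nat_lit 76) (nat_lit 166683099185) (nat_lit 1) (nat_lit 4) (nat_lit 2) (nat_lit 5) (nat_lit 2) (nat_lit 4) (nat_lit 318) (nat_lit 254) (nat_lit 148))))) (XT.nd (nat_lit 234) (nat_lit 0) (nat_lit 0) (XT.nd (nat_lit 78) (nat_lit 0) (nat_lit 0) (XT.lf (nat_lit 0) (nat_lit 285016918502) (nat_lit 76) (nat_lit 223197961056) (nat_lit 76) (nat_lit 170817138948) (nat_lit 1) (nat_lit 4) (nat_lit 2) (nat_lit 5) (nat_lit 2) (nat_lit 4) (nat_lit 319) (nat_lit 254) (nat_lit 147)) (XT.nd (nat_lit 78) (nat_lit 0) (nat_lit 0) (XT.lf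 (nat_lit 0) (nat_lit 329370396990) (nat_lit 76) (nat_lit 227664300481) (nat_lit 76) (nat_lit 175282448907) (nat_lit 1) (nat_lit 4) (nat_lit 2) (nat_lit 5) (nat_lit 2) (nat_lit 4) (nat_lit 320) (nat_lit 254) (nat_lit 146)) (XT.lf (nat_lit 0) (nat_lit 377271338616) (nat_lit 76) (nat_lit 232488294942) (nat_lit 76) (nat_lit 180105490159) (nat_lit 1) (nat_lit 4) (nat_lit 2) (nat_lit 5) (nat_lit 2) (nat_lit 4) (nat_lit 321) (nat_lit 254) (nat_lit 145)))) (XT.nd (nat_lit 78) (nat_lit 0) (nat_lit 0) (XT.lf (nat_lit 0) (nat_lit 429003600814) (nat_lit 76) (nat_lit 237698531073) (nat_lit 76) (nat_lit 185314843690) (nat_lit 1) (nat_lit 4) (nat_lit 2) (nat_lit 5) (nat_lit 2) (nat_lit 4) (nat_lit 322) (nat_lit 254) (nat_lit 144)) (XT.nd (nat_lit 78) (nat_lit 0) (nat_lit 0) (XT.lf (nat_lit 0) (nat_lit 484873745136) (nat_lit 76) (nat_lit 243325884348) (nat_lit 76) (nat_lit 190941379740) (nat_lit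 1) (nat_lit 4) (nat_lit 2) (nat_lit 5) (nat_lit 2) (nat_lit 4) (nat_lit 323) (nat_lit 254) (nat_lit 143)) (XT.lf (nat_lit 0) (nat_lit 545212853919) (nat_lit 76) (nat_lit 249403702043) (nat_lit 76) (nat_lit 197018440748) (nat_lit 1) (nat_lit 4) (nat_lit 2) (nat_lit 5) (nat_lit 2) (nat_lit 4) (nat_lit 324) (nat_lit 254) (nat_lit 142))))))))
noncomputable def xc78 : XT := (XT.nd (nat_lit 33384) (nat_lit 0) (nat_lit 228) (XT.nd (nat_lit 32526) (nat_lit 0) (nat_lit 1216) (XT.nd (nat_lit 32058) (nat_lit 0) (nat_lit 2280) (XT.nd (nat_lit 156) (nat_lit 0) (nat_lit 0) (XT.nd (nat_lit 78) (nat_lit 0) (nat_lit 0) (XT.lf (nat_lit 0) (nat_lit 610378492253) (nat_lit 76) (nat_lit 255968000859) (nat_lit 76) (nat_lit 203582038926) (nat_lit 1) (nat_lit 4) (nat_lit 2) (nat_lit 5) (nat_lit 2) (nat_lit 4) (nat_lit 325) (nat_lit 254) (nat_lit 141)) (XT.lf (nat_lit 0) (nat_lit 680756826882) (nat_lit 76)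 (nat_lit 263057680341) (nat_lit 76) (nat_lit 210671069671) (nat_lit 1) (nat_lit 4) (nat_lit 2) (nat_lit 5) (nat_lit 2) (nat_lit 4) (nat_lit 326) (nat_lit 254) (nat_lit 140))) (XT.nd (nat_lit 78) (nat_lit 0) (nat_lit 0) (XT.lf (nat_lit 0) (nat_lit 756764914606) (nat_lit 76) (nat_lit 270714753408) (nat_lit 76) (nat_lit 218327542054) (nat_lit 1) (nat_lit 4) (nat_lit 2) (nat_lit 5) (nat_lit 2) (nat_lit 4) (nat_lit 327) (nat_lit 254) (nat_lit 139)) (XT.nd (nat_lit 78) (nat_lit 0) (nat_lit 0) (XT.lf (nat_lit 0) (nat_lit 838853173721) (nat_lit 76) (nat_lit 278984595305) (nat_lit 76) (nat_lit 226596827763) (nat_lit 1) (nat_lit 4) (nat_lit 2) (nat_lit 5) (nat_lit 2) (nat_lit 4) (nat_lit 328) (nat_lit 254) (nat_lit 138)) (XT.lf (nat_lit 0) (nat_lit 927508053170) (nat_lit 76) (nat_lit 287916212503) (nat_lit 76) (nat_lit 235527929972) (nat_lit 1) (nat_lit 4) (nat_lit 2) (nat_lit 5) (nat_lit 2)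 (nat_lit 4) (nat_lit 329) (nat_lit 254) (nat_lit 137))))) (XT.nd (nat_lit 234) (nat_lit 0) (nat_lit 0) (XT.nd (nat_lit 78) (nat_lit 0) (nat_lit 0) (XT.lf (nat_lit 0) (nat_lit 2485811369) (nat_lit 0) (nat_lit 2485811369) (nat_lit 380) (nat_lit 1704855999) (nat_lit 31) (nat_lit 5) (nat_lit 31) (nat_lit 3) (nat_lit 36) (nat_lit 3) (nat_lit 255) (nat_lit 255) (nat_lit 210)) (XT.nd (nat_lit 78) (nat_lit 0) (nat_lit 0) (XT.lf (nat_lit 0) (nat_lit 10605327839) (nat_lit 0) (nat_lit 50222405) (nat_lit 380) (nat_lit 3203138600) (nat_lit 31) (nat_lit 5) (nat_lit 31) (nat_lit 3) (nat_lit 36) (nat_lit 3) (nat_lit 256) (nat_lit 255) (nat_lit 209)) (XT.lf (nat_lit 76) (nat_lit 2251925496) (nat_lit 0) (nat_lit 9322599324) (nat_lit 456) (nat_lit 2818701319) (nat_lit 32) (nat_lit 5) (nat_lit 31) (nat_lit 5) (nat_lit 37) (nat_lit 5) (nat_lit 257) (nat_lit 255) (nat_lit 208)))) (XT.nd (nat_lit 78) (nat_lit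 0) (nat_lit 76) (XT.lf (nat_lit 76) (nat_lit 8362808312) (nat_lit 0) (nat_lit 4265197939) (nat_lit 456) (nat_lit 2337939433) (nat_lit 32) (nat_lit 5) (nat_lit 31) (nat_lit 5) (nat_lit 37) (nat_lit 5) (nat_lit 258) (nat_lit 255) (nat_lit 207)) (XT.nd (nat_lit 78) (nat_lit 0) (nat_lit 0) (XT.lf (nat_lit 0) (nat_lit 13767719127) (nat_lit 380) (nat_lit 670491910) (nat_lit 456) (nat_lit 1146391797) (nat_lit 32) (nat_lit 5) (nat_lit 37) (nat_lit 5) (nat_lit 38) (nat_lit 5) (nat_lit 259) (nat_lit 255) (nat_lit 206)) (XT.lf (nat_lit 76) (nat_lit 5902948059) (nat_lit 0) (nat_lit 9323568756) (nat_lit 456) (nat_lit 1008258928) (nat_lit 33) (nat_lit 5) (nat_lit 32) (nat_lit 5) (nat_lit 38) (nat_lit 5) (nat_lit 260) (nat_lit 255) (nat_lit 205)))))) (XT.nd (nat_lit 390) (nat_lit 380) (nat_lit 0) (XT.nd (nat_lit 156) (nat_lit 380) (nat_lit 0) (XT.nd (nat_lit 78) (nat_lit 380) (nat_lit 0) (XT.lf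 (nat_lit 76) (nat_lit 13022536410) (nat_lit 0) (nat_lit 3774382426) (nat_lit 456) (nat_lit 140688471) (nat_lit 33) (nat_lit 5) (nat_lit 32) (nat_lit 5) (nat_lit 38) (nat_lit 5) (nat_lit 261) (nat_lit 255) (nat_lit 204)) (XT.lf (nat_lit 0) (nat_lit 865302925) (nat_lit 456) (nat_lit 14612260430) (nat_lit 76) (nat_lit 2209065146) (nat_lit 27) (nat_lit 5) (nat_lit 33) (nat_lit 5) (nat_lit 28) (nat_lit 5) (nat_lit 262) (nat_lit 255) (nat_lit 203))) (XT.nd (nat_lit 78) (nat_lit 380) (nat_lit 0) (XT.lf (nat_lit 0) (nat_lit 2130900499) (nat_lit 456) (nat_lit 7765306837) (nat_lit 76) (nat_lit 8584321527) (nat_lit 27) (nat_lit 5) (nat_lit 33) (nat_lit 5) (nat_lit 28) (nat_lit 5) (nat_lit 263) (nat_lit 255) (nat_lit 202)) (XT.nd (nat_lit 78) (nat_lit 380) (nat_lit 0) (XT.lf (nat_lit 0) (nat_lit 3478177754) (nat_lit 456) (nat_lit 388600855) (nat_lit 76) (nat_lit 15472902196) (nat_lit 27) (nat_lit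 5) (nat_lit 33) (nat_lit 5) (nat_lit 28) (nat_lit 5) (nat_lit 264) (nat_lit 255) (nat_lit 201)) (XT.lf (nat_lit 0) (nat_lit 5175170258) (nat_lit 456) (nat_lit 12362730268) (nat_lit 76) (nat_lit 2710470936) (nat_lit 22) (nat_lit 5) (nat_lit 28) (nat_lit 5) (nat_lit 23) (nat_lit 5) (nat_lit 265) (nat_lit 255) (nat_lit 200))))) (XT.nd (nat_lit 234) (nat_lit 152) (nat_lit 0) (XT.nd (nat_lit 78) (nat_lit 228) (nat_lit 0) (XT.lf (nat_lit 0) (nat_lit 7102113801) (nat_lit 456) (nat_lit 4503489461) (nat_lit 76) (nat_lit 9616768042) (nat_lit 22) (nat_lit 5) (nat_lit 28) (nat_lit 5) (nat_lit 23) (nat_lit 5) (nat_lit 266) (nat_lit 255) (nat_lit 199)) (XT.nd (nat_lit 78) (nat_lit 0) (nat_lit 0) (XT.lf (nat_lit 0) (nat_lit 4176964286) (nat_lit 228) (nat_lit 5090829464) (nat_lit 304) (nat_lit 12999869115) (nat_lit 19) (nat_lit 5) (nat_lit 22) (nat_lit 5) (nat_lit 23) (nat_lit 5) (nat_lit 267) (nat_lit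 255) (nat_lit 198)) (XT.lf (nat_lit 0) (nat_lit 11764731270) (nat_lit 304) (nat_lit 9646103234) (nat_lit 76) (nat_lit 1973230962) (nat_lit 19) (nat_lit 5) (nat_lit 23) (nat_lit 5) (nat_lit 20) (nat_lit 5) (nat_lit 268) (nat_lit 255) (nat_lit 197)))) (XT.nd (nat_lit 78) (nat_lit 152) (nat_lit 0) (XT.lf (nat_lit 0) (nat_lit 14579663489) (nat_lit 304) (nat_lit 674252301) (nat_lit 76) (nat_lit 9326523800) (nat_lit 19) (nat_lit 5) (nat_lit 23) (nat_lit 5) (nat_lit 20) (nat_lit 5) (nat_lit 269) (nat_lit 255) (nat_lit 196)) (XT.nd (nat_lit 78) (nat_lit 0) (nat_lit 0) (XT.lf (nat_lit 0) (nat_lit 9474403339) (nat_lit 152) (nat_lit 8360293205) (nat_lit 228) (nat_lit 8020744313) (nat_lit 17) (nat_lit 5) (nat_lit 19) (nat_lit 5) (nat_lit 20) (nat_lit 5) (nat_lit 270) (nat_lit 255) (nat_lit 195)) (XT.lf (nat_lit 0) (nat_lit 20458782362) (nat_lit 152) (nat_lit 897442201) (nat_lit 228) (nat_lit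 5875831861) (nat_lit 17) (nat_lit 5) (nat_lit 19) (nat_lit 5) (nat_lit 20) (nat_lit 5) (nat_lit 271) (nat_lit 255) (nat_lit 194))))))) (XT.nd (nat_lit 858) (nat_lit 380) (nat_lit 0) (XT.nd (nat_lit 390) (nat_lit 228) (nat_lit 0) (XT.nd (nat_lit 156) (nat_lit 228) (nat_lit 0) (XT.nd (nat_lit 78) (nat_lit 0) (nat_lit 0) (XT.lf (nat_lit 0) (nat_lit 3596358873) (nat_lit 152) (nat_lit 21810388251) (nat_lit 228) (nat_lit 3292366390) (nat_lit 15) (nat_lit 5) (nat_lit 17) (nat_lit 5) (nat_lit 18) (nat_lit 5) (nat_lit 272) (nat_lit 255) (nat_lit 193)) (XT.lf (nat_lit 0) (nat_lit 15142192168) (nat_lit 152) (nat_lit 14836068310) (nat_lit 228) (nat_lit 289605868) (nat_lit 15) (nat_lit 5) (nat_lit 17) (nat_lit 5) (nat_lit 18) (nat_lit 5) (nat_lit 273) (nat_lit 255) (nat_lit 192))) (XT.nd (nat_lit 78) (nat_lit 152) (nat_lit 0) (XT.lf (nat_lit 0) (nat_lit 2795143181) (nat_lit 228) (nat_lit 4435078322)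 (nat_lit 76) (nat_lit 24727129672) (nat_lit 14) (nat_lit 5) (nat_lit 17) (nat_lit 5) (nat_lit 15) (nat_lit 5) (nat_lit 274) (nat_lit 255) (nat_lit 191)) (XT.nd (nat_lit 78) (nat_lit 0) (nat_lit 0) (XT.lf (nat_lit 0) (nat_lit 6309275980) (nat_lit 228) (nat_lit 26332324602) (nat_lit 76) (nat_lit 1124001561) (nat_lit 12) (nat_lit 5) (nat_lit 15) (nat_lit 5) (nat_lit 13) (nat_lit 5) (nat_lit 275) (nat_lit 255) (nat_lit 190)) (XT.lf (nat_lit 0) (nat_lit 10407386434) (nat_lit 228) (nat_lit 15409460115) (nat_lit 76) (nat_lit 9877502896) (nat_lit 12) (nat_lit 5) (nat_lit 15) (nat_lit 5) (nat_lit 13) (nat_lit 5) (nat_lit 276) (nat_lit 255) (nat_lit 189))))) (XT.nd (nat_lit 234) (nat_lit 76) (nat_lit 0) (XT.nd (nat_lit 78) (nat_lit 152) (nat_lit 0) (XT.lf (nat_lit 0) (nat_lit 14824675800) (nat_lit 228) (nat_lit 3624830373) (nat_lit 76) (nat_lit 19328643223) (nat_lit 12) (nat_lit 5) (nat_lit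 15) (nat_lit 5) (nat_lit 13) (nat_lit 5) (nat_lit 277) (nat_lit 255) (nat_lit 188)) (XT.nd (nat_lit 78) (nat_lit 0) (nat_lit 0) (XT.lf (nat_lit 0) (nat_lit 9570136447) (nat_lit 152) (nat_lit 10247346173) (nat_lit 228) (nat_lit 20193454864) (nat_lit 10) (nat_lit 5) (nat_lit 12) (nat_lit 5) (nat_lit 13) (nat_lit 5) (nat_lit 278) (nat_lit 255) (nat_lit 187)) (XT.lf (nat_lit 0) (nat_lit 24015960438) (nat_lit 152) (nat_lit 1285167929) (nat_lit 228) (nat_lit 17113957921) (nat_lit 10) (nat_lit 5) (nat_lit 12) (nat_lit 5) (nat_lit 13) (nat_lit 5) (nat_lit 279) (nat_lit 255) (nat_lit 186)))) (XT.nd (nat_lit 78) (nat_lit 76) (nat_lit 0) (XT.lf (nat_lit 0) (nat_lit 31418145297) (nat_lit 228) (nat_lit 5606619141) (nat_lit 76) (nat_lit 7971275249) (nat_lit 10) (nat_lit 5) (nat_lit 13) (nat_lit 5) (nat_lit 11) (nat_lit 4) (nat_lit 280) (nat_lit 255) (nat_lit 185)) (XT.nd (nat_lit 78) (nat_lit 0)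 (nat_lit 0) (XT.lf (nat_lit 0) (nat_lit 8596077972) (nat_lit 76) (nat_lit 29661899507) (nat_lit 152) (nat_lit 9506859137) (nat_lit 9) (nat_lit 5) (nat_lit 10) (nat_lit 5) (nat_lit 11) (nat_lit 4) (nat_lit 281) (nat_lit 255) (nat_lit 184)) (XT.lf (nat_lit 0) (nat_lit 24244253581) (nat_lit 76) (nat_lit 21547637484) (nat_lit 152) (nat_lit 4951534988) (nat_lit 9) (nat_lit 5) (nat_lit 10) (nat_lit 5) (nat_lit 11) (nat_lit 4) (nat_lit 282) (nat_lit 255) (nat_lit 183)))))) (XT.nd (nat_lit 390) (nat_lit 152) (nat_lit 0) (XT.nd (nat_lit 156) (nat_lit 0) (nat_lit 0) (XT.nd (nat_lit 78) (nat_lit 228) (nat_lit 0) (XT.lf (nat_lit 0) (nat_lit 41135402987) (nat_lit 76) (nat_lit 12787188759) (nat_lit 152) (nat_lit 38222331) (nat_lit 9) (nat_lit 5) (nat_lit 10) (nat_lit 5) (nat_lit 11) (nat_lit 4) (nat_lit 283) (nat_lit 255) (nat_lit 182)) (XT.lf (nat_lit 0) (nat_lit 1902152665) (nat_lit 152) (nat_lit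 3142552616) (nat_lit 228) (nat_lit 52377577194) (nat_lit 6) (nat_lit 5) (nat_lit 8) (nat_lit 5) (nat_lit 9) (nat_lit 5) (nat_lit 284) (nat_lit 255) (nat_lit 181))) (XT.nd (nat_lit 78) (nat_lit 0) (nat_lit 0) (XT.lf (nat_lit 0) (nat_lit 11061398412) (nat_lit 228) (nat_lit 42789065110) (nat_lit 76) (nat_lit 7267819346) (nat_lit 6) (nat_lit 5) (nat_lit 9) (nat_lit 5) (nat_lit 7) (nat_lit 4) (nat_lit 285) (nat_lit 255) (nat_lit 180)) (XT.nd (nat_lit 78) (nat_lit 0) (nat_lit 0) (XT.lf (nat_lit 0) (nat_lit 17635947086) (nat_lit 228) (nat_lit 29129224873) (nat_lit 76) (nat_lit 18338697181) (nat_lit 6) (nat_lit 5) (nat_lit 9) (nat_lit 5) (nat_lit 7) (nat_lit 4) (nat_lit 286) (nat_lit 255) (nat_lit 179)) (XT.lf (nat_lit 0) (nat_lit 24731733127) (nat_lit 228) (nat_lit 14384083433) (nat_lit 76) (nat_lit 30292889299) (nat_lit 6) (nat_lit 5) (nat_lit 9) (nat_lit 5) (nat_lit 7) (nat_lit 4) (nat_lit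 287) (nat_lit 255) (nat_lit 178))))) (XT.nd (nat_lit 234) (nat_lit 76) (nat_lit 0) (XT.nd (nat_lit 78) (nat_lit 0) (nat_lit 0) (XT.lf (nat_lit 0) (nat_lit 1614501741) (nat_lit 76) (nat_lit 30815132700) (nat_lit 152) (nat_lit 41625562421) (nat_lit 5) (nat_lit 5) (nat_lit 6) (nat_lit 5) (nat_lit 7) (nat_lit 4) (nat_lit 288) (nat_lit 255) (nat_lit 177)) (XT.nd (nat_lit 78) (nat_lit 0) (nat_lit 0) (XT.lf (nat_lit 0) (nat_lit 19704253285) (nat_lit 76) (nat_lit 21428186189) (nat_lit 152) (nat_lit 37909863738) (nat_lit 5) (nat_lit 5) (nat_lit 6) (nat_lit 5) (nat_lit 7) (nat_lit 4) (nat_lit 289) (nat_lit 255) (nat_lit 176)) (XT.lf (nat_lit 0) (nat_lit 39234929383) (nat_lit 76) (nat_lit 11292637010) (nat_lit 152) (nat_lit 33901144059) (nat_lit 5) (nat_lit 5) (nat_lit 6) (nat_lit 5) (nat_lit 7) (nat_lit 4) (nat_lit 290) (nat_lit 255) (nat_lit 175)))) (XT.nd (nat_lit 78) (nat_lit 76) (nat_lit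 0) (XT.lf (nat_lit 0) (nat_lit 60322267375) (nat_lit 76) (nat_lit 348422650) (nat_lit 152) (nat_lit 29575648008) (nat_lit 5) (nat_lit 5) (nat_lit 6) (nat_lit 5) (nat_lit 7) (nat_lit 4) (nat_lit 291) (nat_lit 255) (nat_lit 174)) (XT.nd (nat_lit 78) (nat_lit 76) (nat_lit 0) (XT.lf (nat_lit 0) (nat_lit 71897754985) (nat_lit 152) (nat_lit 13714268737) (nat_lit 0) (nat_lit 10895570083) (nat_lit 5) (nat_lit 5) (nat_lit 7) (nat_lit 4) (nat_lit 5) (nat_lit 4) (nat_lit 292) (nat_lit 255) (nat_lit 173)) (XT.lf (nat_lit 0) (nat_lit 3977029727) (nat_lit 76) (nat_lit 80147510146) (nat_lit 76) (nat_lit 19137101809) (nat_lit 4) (nat_lit 4) (nat_lit 5) (nat_lit 5) (nat_lit 5) (nat_lit 4) (nat_lit 293) (nat_lit 255) (nat_lit 172))))))))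
noncomputable def xc79 : XT := (XT.nd (nat_lit 1716) (nat_lit 0) (nat_lit 0) (XT.nd (nat_lit 858) (nat_lit 76) (nat_lit 0) (XT.nd (nat_lit 390) (nat_lit 76) (nat_lit 0) (XT.nd (nat_lit 156) (nat_lit 76) (nat_lit 0) (XT.nd (nat_lit 78) (nat_lit 0) (nat_lit 0) (XT.lf (nat_lit 0) (nat_lit 23858521140) (nat_lit 76) (nat_lit 73842887223) (nat_lit 76) (nat_lit 12824864593) (nat_lit 4) (nat_lit 4) (nat_lit 5) (nat_lit 5) (nat_lit 5) (nat_lit 4) (nat_lit 294) (nat_lit 255) (nat_lit 171)) (XT.lf (nat_lit 0) (nat_lit 45325852659) (nat_lit 76) (nat_lit 67035766637) (nat_lit 76) (nat_lit 6010693736) (nat_lit 4) (nat_lit 4) (nat_lit 5) (nat_lit 5) (nat_lit 5) (nat_lit 4) (nat_lit 295) (nat_lit 255) (nat_lit 170))) (XT.nd (nat_lit 78) (nat_lit 0) (nat_lit 0) (XT.lf (nat_lit 0) (nat_lit 1278469117) (nat_lit 152) (nat_lit 58372385165) (nat_lit 76) (nat_lit 67192813371) (nat_lit 3) (nat_lit 5) (nat_lit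 5) (nat_lit 5) (nat_lit 4) (nat_lit 4) (nat_lit 296) (nat_lit 255) (nat_lit 169)) (XT.nd (nat_lit 78) (nat_lit 0) (nat_lit 0) (XT.lf (nat_lit 0) (nat_lit 8823551138) (nat_lit 152) (nat_lit 42684659032) (nat_lit 76) (nat_lit 84472240047) (nat_lit 3) (nat_lit 5) (nat_lit 5) (nat_lit 5) (nat_lit 4) (nat_lit 4) (nat_lit 297) (nat_lit 255) (nat_lit 168)) (XT.lf (nat_lit 0) (nat_lit 16969943168) (nat_lit 152) (nat_lit 25745760341) (nat_lit 76) (nat_lit 103132665696) (nat_lit 3) (nat_lit 5) (nat_lit 5) (nat_lit 5) (nat_lit 4) (nat_lit 4) (nat_lit 298) (nat_lit 255) (nat_lit 167))))) (XT.nd (nat_lit 234) (nat_lit 0) (nat_lit 0) (XT.nd (nat_lit 78) (nat_lit 76) (nat_lit 0) (XT.lf (nat_lit 0) (nat_lit 25765920124) (nat_lit 152) (nat_lit 7455310434) (nat_lit 76) (nat_lit 123284670618) (nat_lit 3) (nat_lit 5) (nat_lit 5) (nat_lit 5) (nat_lit 4) (nat_lit 4) (nat_lit 299) (nat_lit 255) (nat_lit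 166)) (XT.nd (nat_lit 78) (nat_lit 0) (nat_lit 0) (XT.lf (nat_lit 0) (nat_lit 12942515587) (nat_lit 76) (nat_lit 22632358535) (nat_lit 152) (nat_lit 132416426325) (nat_lit 2) (nat_lit 5) (nat_lit 3) (nat_lit 5) (nat_lit 4) (nat_lit 4) (nat_lit 300) (nat_lit 255) (nat_lit 165)) (XT.lf (nat_lit 0) (nat_lit 35392944343) (nat_lit 76) (nat_lit 10977541136) (nat_lit 152) (nat_lit 134008898912) (nat_lit 2) (nat_lit 5) (nat_lit 3) (nat_lit 5) (nat_lit 4) (nat_lit 4) (nat_lit 301) (nat_lit 255) (nat_lit 164)))) (XT.nd (nat_lit 78) (nat_lit 0) (nat_lit 0) (XT.lf (nat_lit 0) (nat_lit 58066669312) (nat_lit 152) (nat_lit 134160914426) (nat_lit 0) (nat_lit 1527984849) (nat_lit 2) (nat_lit 5) (nat_lit 4) (nat_lit 4) (nat_lit 2) (nat_lit 4) (nat_lit 302) (nat_lit 255) (nat_lit 163)) (XT.nd (nat_lit 78) (nat_lit 0) (nat_lit 0) (XT.lf (nat_lit 0) (nat_lit 70982022461) (nat_lit 152) (nat_lit 122757342851)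 (nat_lit 0) (nat_lit 14439811107) (nat_lit 2) (nat_lit 5) (nat_lit 4) (nat_lit 4) (nat_lit 2) (nat_lit 4) (nat_lit 303) (nat_lit 255) (nat_lit 162)) (XT.lf (nat_lit 0) (nat_lit 84929070225) (nat_lit 152) (nat_lit 110444138475) (nat_lit 0) (nat_lit 28383593232) (nat_lit 2) (nat_lit 5) (nat_lit 4) (nat_lit 4) (nat_lit 2) (nat_lit 4) (nat_lit 304) (nat_lit 255) (nat_lit 161)))))) (XT.nd (nat_lit 390) (nat_lit 76) (nat_lit 0) (XT.nd (nat_lit 156) (nat_lit 0) (nat_lit 0) (XT.nd (nat_lit 78) (nat_lit 0) (nat_lit 0) (XT.lf (nat_lit 0) (nat_lit 99990461775) (nat_lit 152) (nat_lit 97148334160) (nat_lit 0) (nat_lit 43441961042) (nat_lit 2) (nat_lit 5) (nat_lit 4) (nat_lit 4) (nat_lit 2) (nat_lit 4) (nat_lit 305) (nat_lit 255) (nat_lit 160)) (XT.lf (nat_lit 0) (nat_lit 116255449803) (nat_lit 152) (nat_lit 82791139956) (nat_lit 0) (nat_lit 59704149310) (nat_lit 2) (nat_lit 5) (nat_lit 4) (nat_lit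 4) (nat_lit 2) (nat_lit 4) (nat_lit 306) (nat_lit 255) (nat_lit 159))) (XT.nd (nat_lit 78) (nat_lit 0) (nat_lit 0) (XT.lf (nat_lit 0) (nat_lit 133820419422) (nat_lit 152) (nat_lit 67287476194) (nat_lit 0) (nat_lit 77266526559) (nat_lit 2) (nat_lit 5) (nat_lit 4) (nat_lit 4) (nat_lit 2) (nat_lit 4) (nat_lit 307) (nat_lit 255) (nat_lit 158)) (XT.nd (nat_lit 78) (nat_lit 0) (nat_lit 0) (XT.lf (nat_lit 0) (nat_lit 152789459342) (nat_lit 152) (nat_lit 50545469309) (nat_lit 0) (nat_lit 96233166136) (nat_lit 2) (nat_lit 5) (nat_lit 4) (nat_lit 4) (nat_lit 2) (nat_lit 4) (nat_lit 308) (nat_lit 255) (nat_lit 157)) (XT.lf (nat_lit 0) (nat_lit 173274978687) (nat_lit 152) (nat_lit 32465907409) (nat_lit 0) (nat_lit 116716462942) (nat_lit 2) (nat_lit 5) (nat_lit 4) (nat_lit 4) (nat_lit 2) (nat_lit 4) (nat_lit 309) (nat_lit 255) (nat_lit 156))))) (XT.nd (nat_lit 234) (nat_lit 0) (nat_lit 0) (XT.nd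 (nat_lit 78) (nat_lit 76) (nat_lit 0) (XT.lf (nat_lit 0) (nat_lit 195398373128) (nat_lit 152) (nat_lit 12941652350) (nat_lit 0) (nat_lit 138837799476) (nat_lit 2) (nat_lit 5) (nat_lit 4) (nat_lit 4) (nat_lit 2) (nat_lit 4) (nat_lit 310) (nat_lit 255) (nat_lit 155)) (XT.nd (nat_lit 78) (nat_lit 0) (nat_lit 0) (XT.lf (nat_lit 0) (nat_lit 8571790850) (nat_lit 76) (nat_lit 210925105187) (nat_lit 76) (nat_lit 154362626066) (nat_lit 1) (nat_lit 4) (nat_lit 2) (nat_lit 5) (nat_lit 2) (nat_lit 4) (nat_lit 311) (nat_lit 255) (nat_lit 154)) (XT.lf (nat_lit 0) (nat_lit 32540803977) (nat_lit 76) (nat_lit 213335479651) (nat_lit 76) (nat_lit 156771236206) (nat_lit 1) (nat_lit 4) (nat_lit 2) (nat_lit 5) (nat_lit 2) (nat_lit 4) (nat_lit 312) (nat_lit 255) (nat_lit 153)))) (XT.nd (nat_lit 78) (nat_lit 0) (nat_lit 0) (XT.lf (nat_lit 0) (nat_lit 58425941147) (nat_lit 76) (nat_lit 215939280280) (nat_lit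 76) (nat_lit 159373403202) (nat_lit 1) (nat_lit 4) (nat_lit 2) (nat_lit 5) (nat_lit 2) (nat_lit 4) (nat_lit 313) (nat_lit 255) (nat_lit 152)) (XT.nd (nat_lit 78) (nat_lit 0) (nat_lit 0) (XT.lf (nat_lit 0) (nat_lit 86380595765) (nat_lit 76) (nat_lit 218751937004) (nat_lit 76) (nat_lit 162184547304) (nat_lit 1) (nat_lit 4) (nat_lit 2) (nat_lit 5) (nat_lit 2) (nat_lit 4) (nat_lit 314) (nat_lit 255) (nat_lit 151)) (XT.lf (nat_lit 0) (nat_lit 116570425045) (nat_lit 76) (nat_lit 221790117419) (nat_lit 76) (nat_lit 165221327141) (nat_lit 1) (nat_lit 4) (nat_lit 2) (nat_lit 5) (nat_lit 2) (nat_lit 4) (nat_lit 315) (nat_lit 255) (nat_lit 150))))))) (XT.nd (nat_lit 858) (nat_lit 0) (nat_lit 0) (XT.nd (nat_lit 390) (nat_lit 0) (nat_lit 0) (XT.nd (nat_lit 156) (nat_lit 0) (nat_lit 0) (XT.nd (nat_lit 78) (nat_lit 0) (nat_lit 0) (XT.lf (nat_lit 0) (nat_lit 149174331678) (nat_lit 76) (nat_lit 225071825556)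 (nat_lit 76) (nat_lit 168501738448) (nat_lit 1) (nat_lit 4) (nat_lit 2) (nat_lit 5) (nat_lit 2) (nat_lit 4) (nat_lit 316) (nat_lit 255) (nat_lit 149)) (XT.lf (nat_lit 0) (nat_lit 184385524000) (nat_lit 76) (nat_lit 228616508575) (nat_lit 76) (nat_lit 172045220699) (nat_lit 1) (nat_lit 4) (nat_lit 2) (nat_lit 5) (nat_lit 2) (nat_lit 4) (nat_lit 317) (nat_lit 255) (nat_lit 148))) (XT.nd (nat_lit 78) (nat_lit 0) (nat_lit 0) (XT.lf (nat_lit 0) (nat_lit 222412660928) (nat_lit 76) (nat_lit 232445172006) (nat_lit 76) (nat_lit 175872772306) (nat_lit 1) (nat_lit 4) (nat_lit 2) (nat_lit 5) (nat_lit 2) (nat_lit 4) (nat_lit 318) (nat_lit 255) (nat_lit 147)) (XT.nd (nat_lit 78) (nat_lit 0) (nat_lit 0) (XT.lf (nat_lit 0) (nat_lit 263481088459) (nat_lit 76) (nat_lit 236580504223) (nat_lit 76) (nat_lit 180007075057) (nat_lit 1) (nat_lit 4) (nat_lit 2) (nat_lit 5) (nat_lit 2) (nat_lit 4) (nat_lit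 319) (nat_lit 255) (nat_lit 146)) (XT.lf (nat_lit 0) (nat_lit 307834175052) (nat_lit 76) (nat_lit 241047010899) (nat_lit 76) (nat_lit 184472628524) (nat_lit 1) (nat_lit 4) (nat_lit 2) (nat_lit 5) (nat_lit 2) (nat_lit 4) (nat_lit 320) (nat_lit 255) (nat_lit 145))))) (XT.nd (nat_lit 234) (nat_lit 0) (nat_lit 0) (XT.nd (nat_lit 78) (nat_lit 0) (nat_lit 0) (XT.lf (nat_lit 0) (nat_lit 355734753814) (nat_lit 76) (nat_lit 245871160222) (nat_lit 76) (nat_lit 189295895246) (nat_lit 1) (nat_lit 4) (nat_lit 2) (nat_lit 5) (nat_lit 2) (nat_lit 4) (nat_lit 321) (nat_lit 255) (nat_lit 144)) (XT.nd (nat_lit 78) (nat_lit 0) (nat_lit 0) (XT.lf (nat_lit 0) (nat_lit 407466680025) (nat_lit 76) (nat_lit 251081539744) (nat_lit 76) (nat_lit 194505457545) (nat_lit 1) (nat_lit 4) (nat_lit 2) (nat_lit 5) (nat_lit 2) (nat_lit 4) (nat_lit 322) (nat_lit 255) (nat_lit 143)) (XT.lf (nat_lit 0) (nat_lit 463336513249)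 (nat_lit 76) (nat_lit 256709025787) (nat_lit 76) (nat_lit 200132186900) (nat_lit 1) (nat_lit 4) (nat_lit 2) (nat_lit 5) (nat_lit 2) (nat_lit 4) (nat_lit 323) (nat_lit 255) (nat_lit 142)))) (XT.nd (nat_lit 78) (nat_lit 0) (nat_lit 0) (XT.lf (nat_lit 0) (nat_lit 523675333978) (nat_lit 76) (nat_lit 262786966417) (nat_lit 76) (nat_lit 206209426893) (nat_lit 1) (nat_lit 4) (nat_lit 2) (nat_lit 5) (nat_lit 2) (nat_lit 4) (nat_lit 324) (nat_lit 255) (nat_lit 141)) (XT.nd (nat_lit 78) (nat_lit 0) (nat_lit 0) (XT.lf (nat_lit 0) (nat_lit 588840705595) (nat_lit 76) (nat_lit 269351379061) (nat_lit 76) (nat_lit 212773190799) (nat_lit 1) (nat_lit 4) (nat_lit 2) (nat_lit 5) (nat_lit 2) (nat_lit 4) (nat_lit 325) (nat_lit 255) (nat_lit 140)) (XT.lf (nat_lit 0) (nat_lit 659218793265) (nat_lit 76) (nat_lit 276441163940) (nat_lit 76) (nat_lit 219862374994) (nat_lit 1) (nat_lit 4) (nat_lit 2) (nat_lit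 5) (nat_lit 2) (nat_lit 4) (nat_lit 326) (nat_lit 255) (nat_lit 139)))))) (XT.nd (nat_lit 32136) (nat_lit 0) (nat_lit 1900) (XT.nd (nat_lit 156) (nat_lit 0) (nat_lit 0) (XT.nd (nat_lit 78) (nat_lit 0) (nat_lit 0) (XT.lf (nat_lit 0) (nat_lit 735226652322) (nat_lit 76) (nat_lit 284098334595) (nat_lit 76) (nat_lit 227518989462) (nat_lit 1) (nat_lit 4) (nat_lit 2) (nat_lit 5) (nat_lit 2) (nat_lit 4) (nat_lit 327) (nat_lit 255) (nat_lit 138)) (XT.lf (nat_lit 0) (nat_lit 817314699708) (nat_lit 76) (nat_lit 292368266853) (nat_lit 76) (nat_lit 235788406730) (nat_lit 1) (nat_lit 4) (nat_lit 2) (nat_lit 5) (nat_lit 2) (nat_lit 4) (nat_lit 328) (nat_lit 255) (nat_lit 137))) (XT.nd (nat_lit 31824) (nat_lit 0) (nat_lit 2280) (XT.lf (nat_lit 0) (nat_lit 905969383113) (nat_lit 76) (nat_lit 301299967719) (nat_lit 76) (nat_lit 244719630754) (nat_lit 1) (nat_lit 4) (nat_lit 2) (nat_lit 5) (nat_lit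 2) (nat_lit 4) (nat_lit 329) (nat_lit 255) (nat_lit 136)) (XT.nd (nat_lit 78) (nat_lit 0) (nat_lit 0) (XT.lf (nat_lit 0) (nat_lit 2838180986) (nat_lit 0) (nat_lit 2838180986) (nat_lit 380) (nat_lit 1506530842) (nat_lit 31) (nat_lit 5) (nat_lit 31) (nat_lit 3) (nat_lit 36) (nat_lit 3) (nat_lit 256) (nat_lit 256) (nat_lit 208)) (XT.lf (nat_lit 0) (nat_lit 11738022043) (nat_lit 0) (nat_lit 338508174) (nat_lit 380) (nat_lit 2839549620) (nat_lit 31) (nat_lit 5) (nat_lit 31) (nat_lit 3) (nat_lit 36) (nat_lit 3) (nat_lit 257) (nat_lit 256) (nat_lit 207))))) (XT.nd (nat_lit 234) (nat_lit 380) (nat_lit 0) (XT.nd (nat_lit 78) (nat_lit 0) (nat_lit 0) (XT.lf (nat_lit 76) (nat_lit 2765819703) (nat_lit 0) (nat_lit 10262785507) (nat_lit 456) (nat_lit 2468439511) (nat_lit 32) (nat_lit 5) (nat_lit 31) (nat_lit 5) (nat_lit 37) (nat_lit 5) (nat_lit 258) (nat_lit 256) (nat_lit 206)) (XT.nd (nat_lit 78)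 (nat_lit 0) (nat_lit 76) (XT.lf (nat_lit 76) (nat_lit 9340851651) (nat_lit 0) (nat_lit 4786393624) (nat_lit 456) (nat_lit 1991865408) (nat_lit 32) (nat_lit 5) (nat_lit 31) (nat_lit 5) (nat_lit 37) (nat_lit 5) (nat_lit 259) (nat_lit 256) (nat_lit 205)) (XT.lf (nat_lit 0) (nat_lit 15317905179) (nat_lit 380) (nat_lit 393151772) (nat_lit 456) (nat_lit 1079791540) (nat_lit 32) (nat_lit 5) (nat_lit 37) (nat_lit 5) (nat_lit 38) (nat_lit 5) (nat_lit 260) (nat_lit 256) (nat_lit 204)))) (XT.nd (nat_lit 78) (nat_lit 456) (nat_lit 0) (XT.lf (nat_lit 76) (nat_lit 6697784167) (nat_lit 0) (nat_lit 10170138947) (nat_lit 456) (nat_lit 627493109) (nat_lit 33) (nat_lit 5) (nat_lit 32) (nat_lit 5) (nat_lit 38) (nat_lit 5) (nat_lit 261) (nat_lit 256) (nat_lit 203)) (XT.nd (nat_lit 78) (nat_lit 0) (nat_lit 76) (XT.lf (nat_lit 0) (nat_lit 261531457) (nat_lit 456) (nat_lit 3900877393) (nat_lit 532) (nat_lit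 14094361079) (nat_lit 26) (nat_lit 5) (nat_lit 32) (nat_lit 5) (nat_lit 33) (nat_lit 5) (nat_lit 262) (nat_lit 256) (nat_lit 202)) (XT.lf (nat_lit 0) (nat_lit 1316293756) (nat_lit 456) (nat_lit 15429992119) (nat_lit 76) (nat_lit 2321334942) (nat_lit 27) (nat_lit 5) (nat_lit 33) (nat_lit 5) (nat_lit 28) (nat_lit 5) (nat_lit 263) (nat_lit 256) (nat_lit 201))))))))
noncomputable def xc80 : XT := (XT.nd (nat_lit 1638) (nat_lit 456) (nat_lit 0) (XT.nd (nat_lit 780) (nat_lit 532) (nat_lit 0) (XT.nd (nat_lit 390) (nat_lit 304) (nat_lit 0) (XT.nd (nat_lit 156) (nat_lit 608) (nat_lit 0) (XT.nd (nat_lit 78) (nat_lit 0) (nat_lit 0) (XT.lf (nat_lit 0) (nat_lit 2654860129) (nat_lit 456) (nat_lit 8061300693) (nat_lit 76) (nat_lit 9211386309) (nat_lit 27) (nat_lit 5) (nat_lit 33) (nat_lit 5) (nat_lit 28) (nat_lit 5) (nat_lit 264) (nat_lit 256) (nat_lit 200)) (XT.lf (nat_lit 0) (nat_lit 4083735299)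 (nat_lit 456) (nat_lit 118549395) (nat_lit 76) (nat_lit 16655474242) (nat_lit 27) (nat_lit 5) (nat_lit 33) (nat_lit 5) (nat_lit 28) (nat_lit 5) (nat_lit 265) (nat_lit 256) (nat_lit 199))) (XT.nd (nat_lit 78) (nat_lit 228) (nat_lit 0) (XT.lf (nat_lit 0) (nat_lit 5898902296) (nat_lit 456) (nat_lit 13030327894) (nat_lit 76) (nat_lit 2911537156) (nat_lit 22) (nat_lit 5) (nat_lit 28) (nat_lit 5) (nat_lit 23) (nat_lit 5) (nat_lit 266) (nat_lit 256) (nat_lit 198)) (XT.nd (nat_lit 78) (nat_lit 228) (nat_lit 0) (XT.lf (nat_lit 0) (nat_lit 7957059216) (nat_lit 456) (nat_lit 4566156770) (nat_lit 76) (nat_lit 10371506287) (nat_lit 22) (nat_lit 5) (nat_lit 28) (nat_lit 5) (nat_lit 23) (nat_lit 5) (nat_lit 267) (nat_lit 256) (nat_lit 197)) (XT.lf (nat_lit 0) (nat_lit 4801198800) (nat_lit 228) (nat_lit 5480528440) (nat_lit 304) (nat_lit 13743236161) (nat_lit 19) (nat_lit 5) (nat_lit 22) (nat_lit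 5) (nat_lit 23) (nat_lit 5) (nat_lit 268) (nat_lit 256) (nat_lit 196))))) (XT.nd (nat_lit 156) (nat_lit 304) (nat_lit 0) (XT.nd (nat_lit 78) (nat_lit 0) (nat_lit 0) (XT.lf (nat_lit 0) (nat_lit 12958625036) (nat_lit 304) (nat_lit 10127266152) (nat_lit 76) (nat_lit 2146541837) (nat_lit 19) (nat_lit 5) (nat_lit 23) (nat_lit 5) (nat_lit 20) (nat_lit 5) (nat_lit 269) (nat_lit 256) (nat_lit 195)) (XT.lf (nat_lit 0) (nat_lit 15980032184) (nat_lit 304) (nat_lit 459187540) (nat_lit 76) (nat_lit 10086953479) (nat_lit 19) (nat_lit 5) (nat_lit 23) (nat_lit 5) (nat_lit 20) (nat_lit 5) (nat_lit 270) (nat_lit 256) (nat_lit 194))) (XT.nd (nat_lit 78) (nat_lit 152) (nat_lit 0) (XT.lf (nat_lit 0) (nat_lit 10494550300) (nat_lit 152) (nat_lit 8989890363) (nat_lit 228) (nat_lit 8419762893) (nat_lit 17) (nat_lit 5) (nat_lit 19) (nat_lit 5) (nat_lit 20) (nat_lit 5) (nat_lit 271) (nat_lit 256) (nat_lit 193))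 (XT.nd (nat_lit 78) (nat_lit 152) (nat_lit 0) (XT.lf (nat_lit 0) (nat_lit 22338257815) (nat_lit 152) (nat_lit 932916931) (nat_lit 228) (nat_lit 6121230850) (nat_lit 17) (nat_lit 5) (nat_lit 19) (nat_lit 5) (nat_lit 20) (nat_lit 5) (nat_lit 272) (nat_lit 256) (nat_lit 192)) (XT.lf (nat_lit 0) (nat_lit 4137597095) (nat_lit 152) (nat_lit 23499755459) (nat_lit 228) (nat_lit 3340271489) (nat_lit 15) (nat_lit 5) (nat_lit 17) (nat_lit 5) (nat_lit 18) (nat_lit 5) (nat_lit 273) (nat_lit 256) (nat_lit 191)))))) (XT.nd (nat_lit 390) (nat_lit 304) (nat_lit 0) (XT.nd (nat_lit 156) (nat_lit 152) (nat_lit 0) (XT.nd (nat_lit 78) (nat_lit 76) (nat_lit 0) (XT.lf (nat_lit 0) (nat_lit 16588317089) (nat_lit 152) (nat_lit 15971598356) (nat_lit 228) (nat_lit 113251919) (nat_lit 15) (nat_lit 5) (nat_lit 17) (nat_lit 5) (nat_lit 18) (nat_lit 5) (nat_lit 274) (nat_lit 256) (nat_lit 190)) (XT.lf (nat_lit 0)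 (nat_lit 3194256024) (nat_lit 228) (nat_lit 4562033367) (nat_lit 76) (nat_lit 26742360830) (nat_lit 14) (nat_lit 5) (nat_lit 17) (nat_lit 5) (nat_lit 15) (nat_lit 5) (nat_lit 275) (nat_lit 256) (nat_lit 189))) (XT.nd (nat_lit 78) (nat_lit 0) (nat_lit 0) (XT.lf (nat_lit 0) (nat_lit 6983164926) (nat_lit 228) (nat_lit 28203548406) (nat_lit 76) (nat_lit 1265448811) (nat_lit 12) (nat_lit 5) (nat_lit 15) (nat_lit 5) (nat_lit 13) (nat_lit 5) (nat_lit 276) (nat_lit 256) (nat_lit 188)) (XT.nd (nat_lit 78) (nat_lit 0) (nat_lit 0) (XT.lf (nat_lit 0) (nat_lit 11396594818) (nat_lit 228) (nat_lit 16424288994) (nat_lit 76) (nat_lit 10715413428) (nat_lit 12) (nat_lit 5) (nat_lit 15) (nat_lit 5) (nat_lit 13) (nat_lit 5) (nat_lit 277) (nat_lit 256) (nat_lit 187)) (XT.lf (nat_lit 0) (nat_lit 16155666040) (nat_lit 228) (nat_lit 3713031683) (nat_lit 76) (nat_lit 20919110885) (nat_lit 12) (nat_lit 5) (nat_lit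 15) (nat_lit 5) (nat_lit 13) (nat_lit 5) (nat_lit 278) (nat_lit 256) (nat_lit 186))))) (XT.nd (nat_lit 234) (nat_lit 152) (nat_lit 0) (XT.nd (nat_lit 78) (nat_lit 0) (nat_lit 0) (XT.lf (nat_lit 0) (nat_lit 10532423999) (nat_lit 152) (nat_lit 11009461546) (nat_lit 228) (nat_lit 21657888588) (nat_lit 10) (nat_lit 5) (nat_lit 12) (nat_lit 5) (nat_lit 13) (nat_lit 5) (nat_lit 279) (nat_lit 256) (nat_lit 185)) (XT.nd (nat_lit 78) (nat_lit 0) (nat_lit 0) (XT.lf (nat_lit 0) (nat_lit 26119345270) (nat_lit 152) (nat_lit 1334581065) (nat_lit 228) (nat_lit 18343220235) (nat_lit 10) (nat_lit 5) (nat_lit 12) (nat_lit 5) (nat_lit 13) (nat_lit 5) (nat_lit 280) (nat_lit 256) (nat_lit 184)) (XT.lf (nat_lit 0) (nat_lit 34051959863) (nat_lit 228) (nat_lit 5877398358) (nat_lit 76) (nat_lit 8655948564) (nat_lit 10) (nat_lit 5) (nat_lit 13) (nat_lit 5) (nat_lit 11) (nat_lit 4) (nat_lit 281) (nat_lit 256)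 (nat_lit 183)))) (XT.nd (nat_lit 78) (nat_lit 76) (nat_lit 0) (XT.lf (nat_lit 0) (nat_lit 9457014516) (nat_lit 76) (nat_lit 31977215003) (nat_lit 152) (nat_lit 10141816176) (nat_lit 9) (nat_lit 5) (nat_lit 10) (nat_lit 5) (nat_lit 11) (nat_lit 4) (nat_lit 282) (nat_lit 256) (nat_lit 182)) (XT.nd (nat_lit 78) (nat_lit 76) (nat_lit 0) (XT.lf (nat_lit 0) (nat_lit 26344210818) (nat_lit 76) (nat_lit 23218081387) (nat_lit 152) (nat_lit 5231369183) (nat_lit 9) (nat_lit 5) (nat_lit 10) (nat_lit 5) (nat_lit 11) (nat_lit 4) (nat_lit 283) (nat_lit 256) (nat_lit 181)) (XT.lf (nat_lit 0) (nat_lit 63073192) (nat_lit 152) (nat_lit 13695952157) (nat_lit 76) (nat_lit 44509971714) (nat_lit 8) (nat_lit 5) (nat_lit 10) (nat_lit 5) (nat_lit 9) (nat_lit 5) (nat_lit 284) (nat_lit 256) (nat_lit 180))))))) (XT.nd (nat_lit 858) (nat_lit 152) (nat_lit 0) (XT.nd (nat_lit 390) (nat_lit 76) (nat_lit 0) (XT.nd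 (nat_lit 156) (nat_lit 76) (nat_lit 0) (XT.nd (nat_lit 78) (nat_lit 0) (nat_lit 0) (XT.lf (nat_lit 0) (nat_lit 2204912543) (nat_lit 152) (nat_lit 3341702197) (nat_lit 228) (nat_lit 56461048042) (nat_lit 6) (nat_lit 5) (nat_lit 8) (nat_lit 5) (nat_lit 9) (nat_lit 5) (nat_lit 285) (nat_lit 256) (nat_lit 179)) (XT.lf (nat_lit 0) (nat_lit 12038523028) (nat_lit 228) (nat_lit 46066141031) (nat_lit 76) (nat_lit 7895208450) (nat_lit 6) (nat_lit 5) (nat_lit 9) (nat_lit 5) (nat_lit 7) (nat_lit 4) (nat_lit 286) (nat_lit 256) (nat_lit 178))) (XT.nd (nat_lit 78) (nat_lit 76) (nat_lit 0) (XT.lf (nat_lit 0) (nat_lit 19132205022) (nat_lit 228) (nat_lit 31324332041) (nat_lit 76) (nat_lit 19848351804) (nat_lit 6) (nat_lit 5) (nat_lit 9) (nat_lit 5) (nat_lit 7) (nat_lit 4) (nat_lit 287) (nat_lit 256) (nat_lit 177)) (XT.nd (nat_lit 78) (nat_lit 76) (nat_lit 0) (XT.lf (nat_lit 0) (nat_lit 26789329341)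 (nat_lit 228) (nat_lit 15409596384) (nat_lit 76) (nat_lit 32755726784) (nat_lit 6) (nat_lit 5) (nat_lit 9) (nat_lit 5) (nat_lit 7) (nat_lit 4) (nat_lit 288) (nat_lit 256) (nat_lit 176)) (XT.lf (nat_lit 0) (nat_lit 1865705637) (nat_lit 76) (nat_lit 33234436163) (nat_lit 152) (nat_lit 44872986167) (nat_lit 5) (nat_lit 5) (nat_lit 6) (nat_lit 5) (nat_lit 7) (nat_lit 4) (nat_lit 289) (nat_lit 256) (nat_lit 175))))) (XT.nd (nat_lit 234) (nat_lit 76) (nat_lit 0) (XT.nd (nat_lit 78) (nat_lit 0) (nat_lit 0) (XT.lf (nat_lit 0) (nat_lit 21393597026) (nat_lit 76) (nat_lit 23099934461) (nat_lit 152) (nat_lit 40866151681) (nat_lit 5) (nat_lit 5) (nat_lit 6) (nat_lit 5) (nat_lit 7) (nat_lit 4) (nat_lit 290) (nat_lit 256) (nat_lit 174)) (XT.nd (nat_lit 78) (nat_lit 0) (nat_lit 0) (XT.lf (nat_lit 0) (nat_lit 42478356584) (nat_lit 76) (nat_lit 12156689987) (nat_lit 152) (nat_lit 36542401180) (nat_lit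 5) (nat_lit 5) (nat_lit 6) (nat_lit 5) (nat_lit 7) (nat_lit 4) (nat_lit 291) (nat_lit 256) (nat_lit 173)) (XT.lf (nat_lit 0) (nat_lit 65244931033) (nat_lit 76) (nat_lit 339853884) (nat_lit 152) (nat_lit 31876112437) (nat_lit 5) (nat_lit 5) (nat_lit 6) (nat_lit 5) (nat_lit 7) (nat_lit 4) (nat_lit 292) (nat_lit 256) (nat_lit 172)))) (XT.nd (nat_lit 78) (nat_lit 76) (nat_lit 0) (XT.lf (nat_lit 0) (nat_lit 77706349583) (nat_lit 152) (nat_lit 14717749547) (nat_lit 0) (nat_lit 11799270850) (nat_lit 5) (nat_lit 5) (nat_lit 7) (nat_lit 4) (nat_lit 5) (nat_lit 4) (nat_lit 293) (nat_lit 256) (nat_lit 171)) (XT.nd (nat_lit 78) (nat_lit 0) (nat_lit 0) (XT.lf (nat_lit 0) (nat_lit 4386481637) (nat_lit 76) (nat_lit 86522785644) (nat_lit 76) (nat_lit 20608656640) (nat_lit 4) (nat_lit 4) (nat_lit 5) (nat_lit 5) (nat_lit 5) (nat_lit 4) (nat_lit 294) (nat_lit 256) (nat_lit 170)) (XT.lf (nat_lit 0) (nat_lit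 25851730176) (nat_lit 76) (nat_lit 79716498466) (nat_lit 76) (nat_lit 13795841434) (nat_lit 4) (nat_lit 4) (nat_lit 5) (nat_lit 5) (nat_lit 5) (nat_lit 4) (nat_lit 295) (nat_lit 256) (nat_lit 169)))))) (XT.nd (nat_lit 390) (nat_lit 76) (nat_lit 0) (XT.nd (nat_lit 156) (nat_lit 0) (nat_lit 0) (XT.nd (nat_lit 78) (nat_lit 76) (nat_lit 0) (XT.lf (nat_lit 0) (nat_lit 49030186931) (nat_lit 76) (nat_lit 72367313398) (nat_lit 76) (nat_lit 6440611895) (nat_lit 4) (nat_lit 4) (nat_lit 5) (nat_lit 5) (nat_lit 5) (nat_lit 4) (nat_lit 296) (nat_lit 256) (nat_lit 168)) (XT.lf (nat_lit 0) (nat_lit 1425551505) (nat_lit 152) (nat_lit 62967151103) (nat_lit 76) (nat_lit 72594677112) (nat_lit 3) (nat_lit 5) (nat_lit 5) (nat_lit 5) (nat_lit 4) (nat_lit 4) (nat_lit 297) (nat_lit 256) (nat_lit 167))) (XT.nd (nat_lit 78) (nat_lit 0) (nat_lit 0) (XT.lf (nat_lit 0) (nat_lit 9570921210) (nat_lit 152) (nat_lit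 46029964277) (nat_lit 76) (nat_lit 91254499502) (nat_lit 3) (nat_lit 5) (nat_lit 5) (nat_lit 5) (nat_lit 4) (nat_lit 4) (nat_lit 298) (nat_lit 256) (nat_lit 166)) (XT.nd (nat_lit 78) (nat_lit 0) (nat_lit 0) (XT.lf (nat_lit 0) (nat_lit 18365951567) (nat_lit 152) (nat_lit 27741099430) (nat_lit 76) (nat_lit 111405945851) (nat_lit 3) (nat_lit 5) (nat_lit 5) (nat_lit 5) (nat_lit 4) (nat_lit 4) (nat_lit 299) (nat_lit 256) (nat_lit 165)) (XT.lf (nat_lit 0) (nat_lit 27862761275) (nat_lit 152) (nat_lit 7992178104) (nat_lit 76) (nat_lit 133168432137) (nat_lit 3) (nat_lit 5) (nat_lit 5) (nat_lit 5) (nat_lit 4) (nat_lit 4) (nat_lit 300) (nat_lit 256) (nat_lit 164))))) (XT.nd (nat_lit 234) (nat_lit 0) (nat_lit 0) (XT.nd (nat_lit 78) (nat_lit 0) (nat_lit 0) (XT.lf (nat_lit 0) (nat_lit 14035966223) (nat_lit 76) (nat_lit 24419226827) (nat_lit 152) (nat_lit 142972520344) (nat_lit 2) (nat_lit 5) (nat_lit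 3) (nat_lit 5) (nat_lit 4) (nat_lit 4) (nat_lit 301) (nat_lit 256) (nat_lit 163)) (XT.nd (nat_lit 78) (nat_lit 0) (nat_lit 0) (XT.lf (nat_lit 0) (nat_lit 38278129324) (nat_lit 76) (nat_lit 11833781103) (nat_lit 152) (nat_lit 144695147782) (nat_lit 2) (nat_lit 5) (nat_lit 3) (nat_lit 5) (nat_lit 4) (nat_lit 4) (nat_lit 302) (nat_lit 256) (nat_lit 162)) (XT.lf (nat_lit 0) (nat_lit 62741923531) (nat_lit 152) (nat_lit 144842030035) (nat_lit 0) (nat_lit 1669542738) (nat_lit 2) (nat_lit 5) (nat_lit 4) (nat_lit 4) (nat_lit 2) (nat_lit 4) (nat_lit 303) (nat_lit 256) (nat_lit 161)))) (XT.nd (nat_lit 78) (nat_lit 0) (nat_lit 0) (XT.lf (nat_lit 0) (nat_lit 76688288586) (nat_lit 152) (nat_lit 132530006626) (nat_lit 0) (nat_lit 15612884053) (nat_lit 2) (nat_lit 5) (nat_lit 4) (nat_lit 4) (nat_lit 2) (nat_lit 4) (nat_lit 304) (nat_lit 256) (nat_lit 160)) (XT.nd (nat_lit 78) (nat_lit 0) (nat_lit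 0) (XT.lf (nat_lit 0) (nat_lit 91749047998) (nat_lit 152) (nat_lit 119235295800) (nat_lit 0) (nat_lit 30670843706) (nat_lit 2) (nat_lit 5) (nat_lit 4) (nat_lit 4) (nat_lit 2) (nat_lit 4) (nat_lit 305) (nat_lit 256) (nat_lit 159)) (XT.lf (nat_lit 0) (nat_lit 108013450713) (nat_lit 152) (nat_lit 104879114085) (nat_lit 0) (nat_lit 46932654051) (nat_lit 2) (nat_lit 5) (nat_lit 4) (nat_lit 4) (nat_lit 2) (nat_lit 4) (nat_lit 306) (nat_lit 256) (nat_lit 158))))))))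
noncomputable def xc81 : XT := (XT.nd (nat_lit 1716) (nat_lit 0) (nat_lit 0) (XT.nd (nat_lit 858) (nat_lit 0) (nat_lit 0) (XT.nd (nat_lit 390) (nat_lit 76) (nat_lit 0) (XT.nd (nat_lit 156) (nat_lit 0) (nat_lit 0) (XT.nd (nat_lit 78) (nat_lit 0) (nat_lit 0) (XT.lf (nat_lit 0) (nat_lit 125577878376) (nat_lit 152) (nat_lit 89376387812) (nat_lit 0) (nat_lit 64494681371) (nat_lit 2) (nat_lit 5) (nat_lit 4) (nat_lit 4) (nat_lit 2) (nat_lit 4) (nat_lit 307) (nat_lit 256) (nat_lit 157)) (XT.lf (nat_lit 0) (nat_lit 144546416484) (nat_lit 152) (nat_lit 72635248973) (nat_lit 0) (nat_lit 83460996940) (nat_lit 2) (nat_lit 5) (nat_lit 4) (nat_lit 4) (nat_lit 2) (nat_lit 4) (nat_lit 308) (nat_lit 256) (nat_lit 156))) (XT.nd (nat_lit 78) (nat_lit 0) (nat_lit 0) (XT.lf (nat_lit 0) (nat_lit 165031471189) (nat_lit 152) (nat_lit 54556490820) (nat_lit 0) (nat_lit 103943993738) (nat_lit 2) (nat_lit 5)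 (nat_lit 4) (nat_lit 4) (nat_lit 2) (nat_lit 4) (nat_lit 309) (nat_lit 256) (nat_lit 155)) (XT.nd (nat_lit 78) (nat_lit 0) (nat_lit 0) (XT.lf (nat_lit 0) (nat_lit 187154435408) (nat_lit 152) (nat_lit 35032979971) (nat_lit 0) (nat_lit 126065052487) (nat_lit 2) (nat_lit 5) (nat_lit 4) (nat_lit 4) (nat_lit 2) (nat_lit 4) (nat_lit 310) (nat_lit 256) (nat_lit 154)) (XT.lf (nat_lit 0) (nat_lit 211046408187) (nat_lit 152) (nat_lit 13949021547) (nat_lit 0) (nat_lit 149955260943) (nat_lit 2) (nat_lit 5) (nat_lit 4) (nat_lit 4) (nat_lit 2) (nat_lit 4) (nat_lit 311) (nat_lit 256) (nat_lit 153))))) (XT.nd (nat_lit 234) (nat_lit 0) (nat_lit 0) (XT.nd (nat_lit 78) (nat_lit 0) (nat_lit 0) (XT.lf (nat_lit 0) (nat_lit 9284789186) (nat_lit 76) (nat_lit 227787481806) (nat_lit 76) (nat_lit 166694700929) (nat_lit 1) (nat_lit 4) (nat_lit 2) (nat_lit 5) (nat_lit 2) (nat_lit 4) (nat_lit 312) (nat_lit 256)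 (nat_lit 152)) (XT.nd (nat_lit 78) (nat_lit 0) (nat_lit 0) (XT.lf (nat_lit 0) (nat_lit 35169304468) (nat_lit 76) (nat_lit 230391547841) (nat_lit 76) (nat_lit 169297254342) (nat_lit 1) (nat_lit 4) (nat_lit 2) (nat_lit 5) (nat_lit 2) (nat_lit 4) (nat_lit 313) (nat_lit 256) (nat_lit 151)) (XT.lf (nat_lit 0) (nat_lit 63123383266) (nat_lit 76) (nat_lit 233204450312) (nat_lit 76) (nat_lit 172108756235) (nat_lit 1) (nat_lit 4) (nat_lit 2) (nat_lit 5) (nat_lit 2) (nat_lit 4) (nat_lit 314) (nat_lit 256) (nat_lit 150)))) (XT.nd (nat_lit 78) (nat_lit 0) (nat_lit 0) (XT.lf (nat_lit 0) (nat_lit 93312679378) (nat_lit 76) (nat_lit 236242858270) (nat_lit 76) (nat_lit 175145867363) (nat_lit 1) (nat_lit 4) (nat_lit 2) (nat_lit 5) (nat_lit 2) (nat_lit 4) (nat_lit 315) (nat_lit 256) (nat_lit 149)) (XT.nd (nat_lit 78) (nat_lit 0) (nat_lit 0) (XT.lf (nat_lit 0) (nat_lit 125916092337) (nat_lit 76) (nat_lit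 239524777095) (nat_lit 76) (nat_lit 178426585419) (nat_lit 1) (nat_lit 4) (nat_lit 2) (nat_lit 5) (nat_lit 2) (nat_lit 4) (nat_lit 316) (nat_lit 256) (nat_lit 148)) (XT.lf (nat_lit 0) (nat_lit 161126827553) (nat_lit 76) (nat_lit 243069655196) (nat_lit 76) (nat_lit 181970351697) (nat_lit 1) (nat_lit 4) (nat_lit 2) (nat_lit 5) (nat_lit 2) (nat_lit 4) (nat_lit 317) (nat_lit 256) (nat_lit 147)))))) (XT.nd (nat_lit 390) (nat_lit 0) (nat_lit 0) (XT.nd (nat_lit 156) (nat_lit 0) (nat_lit 0) (XT.nd (nat_lit 78) (nat_lit 0) (nat_lit 0) (XT.lf (nat_lit 0) (nat_lit 199153541235) (nat_lit 76) (nat_lit 246898499257) (nat_lit 76) (nat_lit 185798166292) (nat_lit 1) (nat_lit 4) (nat_lit 2) (nat_lit 5) (nat_lit 2) (nat_lit 4) (nat_lit 318) (nat_lit 256) (nat_lit 146)) (XT.lf (nat_lit 0) (nat_lit 240221576872) (nat_lit 76) (nat_lit 251033998725) (nat_lit 76) (nat_lit 189932712551) (nat_lit 1) (nat_lit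 4) (nat_lit 2) (nat_lit 5) (nat_lit 2) (nat_lit 4) (nat_lit 319) (nat_lit 256) (nat_lit 145))) (XT.nd (nat_lit 78) (nat_lit 0) (nat_lit 0) (XT.lf (nat_lit 0) (nat_lit 284574300601) (nat_lit 76) (nat_lit 255500660263) (nat_lit 76) (nat_lit 194398491488) (nat_lit 1) (nat_lit 4) (nat_lit 2) (nat_lit 5) (nat_lit 2) (nat_lit 4) (nat_lit 320) (nat_lit 256) (nat_lit 144)) (XT.nd (nat_lit 78) (nat_lit 0) (nat_lit 0) (XT.lf (nat_lit 0) (nat_lit 332474543376) (nat_lit 76) (nat_lit 260324952977) (nat_lit 76) (nat_lit 199221966979) (nat_lit 1) (nat_lit 4) (nat_lit 2) (nat_lit 5) (nat_lit 2) (nat_lit 4) (nat_lit 321) (nat_lit 256) (nat_lit 143)) (XT.lf (nat_lit 0) (nat_lit 384206158489) (nat_lit 76) (nat_lit 265535465268) (nat_lit 76) (nat_lit 204431722582) (nat_lit 1) (nat_lit 4) (nat_lit 2) (nat_lit 5) (nat_lit 2) (nat_lit 4) (nat_lit 322) (nat_lit 256) (nat_lit 142))))) (XT.nd (nat_lit 234)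 (nat_lit 0) (nat_lit 0) (XT.nd (nat_lit 78) (nat_lit 0) (nat_lit 0) (XT.lf (nat_lit 0) (nat_lit 440075703659) (nat_lit 76) (nat_lit 271163074245) (nat_lit 76) (nat_lit 210058630922) (nat_lit 1) (nat_lit 4) (nat_lit 2) (nat_lit 5) (nat_lit 2) (nat_lit 4) (nat_lit 323) (nat_lit 256) (nat_lit 141)) (XT.nd (nat_lit 78) (nat_lit 0) (nat_lit 0) (XT.lf (nat_lit 0) (nat_lit 500414257671) (nat_lit 76) (nat_lit 277241128704) (nat_lit 76) (nat_lit 216136036643) (nat_lit 1) (nat_lit 4) (nat_lit 2) (nat_lit 5) (nat_lit 2) (nat_lit 4) (nat_lit 324) (nat_lit 256) (nat_lit 140)) (XT.lf (nat_lit 0) (nat_lit 565579382328) (nat_lit 76) (nat_lit 283805646743) (nat_lit 76) (nat_lit 222699953999) (nat_lit 1) (nat_lit 4) (nat_lit 2) (nat_lit 5) (nat_lit 2) (nat_lit 4) (nat_lit 325) (nat_lit 256) (nat_lit 139)))) (XT.nd (nat_lit 78) (nat_lit 0) (nat_lit 0) (XT.lf (nat_lit 0) (nat_lit 635957241331) (nat_lit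 76) (nat_lit 290895529212) (nat_lit 76) (nat_lit 229789280279) (nat_lit 1) (nat_lit 4) (nat_lit 2) (nat_lit 5) (nat_lit 2) (nat_lit 4) (nat_lit 326) (nat_lit 256) (nat_lit 138)) (XT.nd (nat_lit 78) (nat_lit 0) (nat_lit 0) (XT.lf (nat_lit 0) (nat_lit 711964888660) (nat_lit 76) (nat_lit 298552790228) (nat_lit 76) (nat_lit 237446026306) (nat_lit 1) (nat_lit 4) (nat_lit 2) (nat_lit 5) (nat_lit 2) (nat_lit 4) (nat_lit 327) (nat_lit 256) (nat_lit 137)) (XT.lf (nat_lit 0) (nat_lit 794052740002) (nat_lit 76) (nat_lit 306822806153) (nat_lit 76) (nat_lit 245715565389) (nat_lit 1) (nat_lit 4) (nat_lit 2) (nat_lit 5) (nat_lit 2) (nat_lit 4) (nat_lit 328) (nat_lit 256) (nat_lit 136))))))) (XT.nd (nat_lit 32682) (nat_lit 0) (nat_lit 836) (XT.nd (nat_lit 32214) (nat_lit 0) (nat_lit 1596) (XT.nd (nat_lit 31980) (nat_lit 0) (nat_lit 2280) (XT.nd (nat_lit 31902) (nat_lit 0) (nat_lit 2280) (XT.lf (nat_lit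 0) (nat_lit 882707241883) (nat_lit 76) (nat_lit 315754584488) (nat_lit 76) (nat_lit 254646902204) (nat_lit 1) (nat_lit 4) (nat_lit 2) (nat_lit 5) (nat_lit 2) (nat_lit 4) (nat_lit 329) (nat_lit 256) (nat_lit 135)) (XT.lf (nat_lit 0) (nat_lit 3196841009) (nat_lit 0) (nat_lit 3196841009) (nat_lit 380) (nat_lit 1340090315) (nat_lit 31) (nat_lit 5) (nat_lit 31) (nat_lit 3) (nat_lit 36) (nat_lit 3) (nat_lit 257) (nat_lit 257) (nat_lit 206))) (XT.nd (nat_lit 78) (nat_lit 0) (nat_lit 0) (XT.lf (nat_lit 0) (nat_lit 12920777778) (nat_lit 0) (nat_lit 609302800) (nat_lit 380) (nat_lit 2535300636) (nat_lit 31) (nat_lit 5) (nat_lit 31) (nat_lit 3) (nat_lit 36) (nat_lit 3) (nat_lit 258) (nat_lit 257) (nat_lit 205)) (XT.nd (nat_lit 78) (nat_lit 0) (nat_lit 0) (XT.lf (nat_lit 76) (nat_lit 3273213681) (nat_lit 0) (nat_lit 11250456356) (nat_lit 456) (nat_lit 2172295062) (nat_lit 32) (nat_lit 5) (nat_lit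 31) (nat_lit 5) (nat_lit 37) (nat_lit 5) (nat_lit 259) (nat_lit 257) (nat_lit 204)) (XT.lf (nat_lit 76) (nat_lit 10353053488) (nat_lit 0) (nat_lit 5323608825) (nat_lit 456) (nat_lit 1694159446) (nat_lit 32) (nat_lit 5) (nat_lit 31) (nat_lit 5) (nat_lit 37) (nat_lit 5) (nat_lit 260) (nat_lit 257) (nat_lit 203))))) (XT.nd (nat_lit 234) (nat_lit 304) (nat_lit 0) (XT.nd (nat_lit 78) (nat_lit 456) (nat_lit 0) (XT.lf (nat_lit 0) (nat_lit 16928084269) (nat_lit 380) (nat_lit 140842348) (nat_lit 456) (nat_lit 1030448183) (nat_lit 32) (nat_lit 5) (nat_lit 37) (nat_lit 5) (nat_lit 38) (nat_lit 5) (nat_lit 261) (nat_lit 257) (nat_lit 202)) (XT.nd (nat_lit 78) (nat_lit 456) (nat_lit 0) (XT.lf (nat_lit 76) (nat_lit 7510184629) (nat_lit 0) (nat_lit 11070070956) (nat_lit 456) (nat_lit 282093677) (nat_lit 33) (nat_lit 5) (nat_lit 32) (nat_lit 5) (nat_lit 38) (nat_lit 5) (nat_lit 262) (nat_lit 257)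 (nat_lit 201)) (XT.lf (nat_lit 0) (nat_lit 630425661) (nat_lit 456) (nat_lit 3935388488) (nat_lit 532) (nat_lit 15120514605) (nat_lit 26) (nat_lit 5) (nat_lit 32) (nat_lit 5) (nat_lit 33) (nat_lit 5) (nat_lit 263) (nat_lit 257) (nat_lit 200)))) (XT.nd (nat_lit 78) (nat_lit 380) (nat_lit 0) (XT.lf (nat_lit 0) (nat_lit 1748900580) (nat_lit 456) (nat_lit 16363251960) (nat_lit 76) (nat_lit 2451781607) (nat_lit 27) (nat_lit 5) (nat_lit 33) (nat_lit 5) (nat_lit 28) (nat_lit 5) (nat_lit 264) (nat_lit 257) (nat_lit 199)) (XT.nd (nat_lit 78) (nat_lit 380) (nat_lit 0) (XT.lf (nat_lit 0) (nat_lit 3170307572) (nat_lit 456) (nat_lit 8427371852) (nat_lit 76) (nat_lit 9897130426) (nat_lit 27) (nat_lit 5) (nat_lit 33) (nat_lit 5) (nat_lit 28) (nat_lit 5) (nat_lit 265) (nat_lit 257) (nat_lit 198)) (XT.lf (nat_lit 0) (nat_lit 136998479) (nat_lit 380) (nat_lit 4557340305) (nat_lit 456) (nat_lit 17806831864)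 (nat_lit 22) (nat_lit 5) (nat_lit 27) (nat_lit 5) (nat_lit 28) (nat_lit 5) (nat_lit 266) (nat_lit 257) (nat_lit 197)))))) (XT.nd (nat_lit 390) (nat_lit 532) (nat_lit 0) (XT.nd (nat_lit 156) (nat_lit 228) (nat_lit 0) (XT.nd (nat_lit 78) (nat_lit 0) (nat_lit 0) (XT.lf (nat_lit 0) (nat_lit 6636348101) (nat_lit 456) (nat_lit 13797187600) (nat_lit 76) (nat_lit 3130938649) (nat_lit 22) (nat_lit 5) (nat_lit 28) (nat_lit 5) (nat_lit 23) (nat_lit 5) (nat_lit 267) (nat_lit 257) (nat_lit 196)) (XT.lf (nat_lit 0) (nat_lit 8839488418) (nat_lit 456) (nat_lit 4676295121) (nat_lit 76) (nat_lit 11188706901) (nat_lit 22) (nat_lit 5) (nat_lit 28) (nat_lit 5) (nat_lit 23) (nat_lit 5) (nat_lit 268) (nat_lit 257) (nat_lit 195))) (XT.nd (nat_lit 78) (nat_lit 0) (nat_lit 0) (XT.lf (nat_lit 0) (nat_lit 5433989294) (nat_lit 228) (nat_lit 5903909517) (nat_lit 304) (nat_lit 14588389085) (nat_lit 19) (nat_lit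 5) (nat_lit 22) (nat_lit 5) (nat_lit 23) (nat_lit 5) (nat_lit 269) (nat_lit 257) (nat_lit 194)) (XT.nd (nat_lit 78) (nat_lit 0) (nat_lit 0) (XT.lf (nat_lit 0) (nat_lit 14211977646) (nat_lit 304) (nat_lit 10688368791) (nat_lit 76) (nat_lit 2331513124) (nat_lit 19) (nat_lit 5) (nat_lit 23) (nat_lit 5) (nat_lit 20) (nat_lit 5) (nat_lit 270) (nat_lit 257) (nat_lit 193)) (XT.lf (nat_lit 0) (nat_lit 17459048283) (nat_lit 304) (nat_lit 265294161) (nat_lit 76) (nat_lit 10906176369) (nat_lit 19) (nat_lit 5) (nat_lit 23) (nat_lit 5) (nat_lit 20) (nat_lit 5) (nat_lit 271) (nat_lit 257) (nat_lit 192))))) (XT.nd (nat_lit 234) (nat_lit 228) (nat_lit 0) (XT.nd (nat_lit 78) (nat_lit 152) (nat_lit 0) (XT.lf (nat_lit 0) (nat_lit 11558904013) (nat_lit 152) (nat_lit 9675451364) (nat_lit 228) (nat_lit 8885318407) (nat_lit 17) (nat_lit 5) (nat_lit 19) (nat_lit 5) (nat_lit 20) (nat_lit 5) (nat_lit 272)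 (nat_lit 257) (nat_lit 191)) (XT.nd (nat_lit 78) (nat_lit 152) (nat_lit 0) (XT.lf (nat_lit 0) (nat_lit 24333457042) (nat_lit 152) (nat_lit 976411185) (nat_lit 228) (nat_lit 6418313098) (nat_lit 17) (nat_lit 5) (nat_lit 19) (nat_lit 5) (nat_lit 20) (nat_lit 5) (nat_lit 273) (nat_lit 257) (nat_lit 190)) (XT.lf (nat_lit 0) (nat_lit 4685965554) (nat_lit 152) (nat_lit 25332184583) (nat_lit 228) (nat_lit 3422750228) (nat_lit 15) (nat_lit 5) (nat_lit 17) (nat_lit 5) (nat_lit 18) (nat_lit 5) (nat_lit 274) (nat_lit 257) (nat_lit 189)))) (XT.nd (nat_lit 78) (nat_lit 152) (nat_lit 0) (XT.lf (nat_lit 0) (nat_lit 46307757) (nat_lit 228) (nat_lit 17157723337) (nat_lit 76) (nat_lit 18069068463) (nat_lit 14) (nat_lit 5) (nat_lit 17) (nat_lit 5) (nat_lit 15) (nat_lit 5) (nat_lit 275) (nat_lit 257) (nat_lit 188)) (XT.nd (nat_lit 78) (nat_lit 152) (nat_lit 0) (XT.lf (nat_lit 0) (nat_lit 3600260660)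 (nat_lit 228) (nat_lit 4731650339) (nat_lit 76) (nat_lit 28913523346) (nat_lit 14) (nat_lit 5) (nat_lit 17) (nat_lit 5) (nat_lit 15) (nat_lit 5) (nat_lit 276) (nat_lit 257) (nat_lit 187)) (XT.lf (nat_lit 0) (nat_lit 7686834296) (nat_lit 228) (nat_lit 30258047158) (nat_lit 76) (nat_lit 1410860920) (nat_lit 12) (nat_lit 5) (nat_lit 15) (nat_lit 5) (nat_lit 13) (nat_lit 5) (nat_lit 277) (nat_lit 257) (nat_lit 186))))))))
noncomputable def xc82 : XT := (XT.nd (nat_lit 1716) (nat_lit 152) (nat_lit 0) (XT.nd (nat_lit 858) (nat_lit 228) (nat_lit 0) (XT.nd (nat_lit 390) (nat_lit 304) (nat_lit 0) (XT.nd (nat_lit 156) (nat_lit 152) (nat_lit 0) (XT.nd (nat_lit 78) (nat_lit 0) (nat_lit 0) (XT.lf (nat_lit 0) (nat_lit 12442596640) (nat_lit 228) (nat_lit 17551394039) (nat_lit 76) (nat_lit 11613550396) (nat_lit 12) (nat_lit 5) (nat_lit 15) (nat_lit 5) (nat_lit 13) (nat_lit 5) (nat_lit 278) (nat_lit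 257) (nat_lit 185)) (XT.lf (nat_lit 0) (nat_lit 17572447320) (nat_lit 228) (nat_lit 3837076001) (nat_lit 76) (nat_lit 22630513731) (nat_lit 12) (nat_lit 5) (nat_lit 15) (nat_lit 5) (nat_lit 13) (nat_lit 5) (nat_lit 279) (nat_lit 257) (nat_lit 184))) (XT.nd (nat_lit 78) (nat_lit 0) (nat_lit 0) (XT.lf (nat_lit 0) (nat_lit 11543636434) (nat_lit 152) (nat_lit 11840773749) (nat_lit 228) (nat_lit 23261024935) (nat_lit 10) (nat_lit 5) (nat_lit 12) (nat_lit 5) (nat_lit 13) (nat_lit 5) (nat_lit 280) (nat_lit 257) (nat_lit 183)) (XT.nd (nat_lit 78) (nat_lit 0) (nat_lit 0) (XT.lf (nat_lit 0) (nat_lit 28365021146) (nat_lit 152) (nat_lit 1395565402) (nat_lit 228) (nat_lit 19690775316) (nat_lit 10) (nat_lit 5) (nat_lit 12) (nat_lit 5) (nat_lit 13) (nat_lit 5) (nat_lit 281) (nat_lit 257) (nat_lit 182)) (XT.lf (nat_lit 0) (nat_lit 36879308474) (nat_lit 228) (nat_lit 6195197983) (nat_lit 76) (nat_lit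 9388694764) (nat_lit 10) (nat_lit 5) (nat_lit 13) (nat_lit 5) (nat_lit 11) (nat_lit 4) (nat_lit 282) (nat_lit 257) (nat_lit 181))))) (XT.nd (nat_lit 234) (nat_lit 152) (nat_lit 0) (XT.nd (nat_lit 78) (nat_lit 76) (nat_lit 0) (XT.lf (nat_lit 0) (nat_lit 10362109890) (nat_lit 76) (nat_lit 34485978226) (nat_lit 152) (nat_lit 10845486837) (nat_lit 9) (nat_lit 5) (nat_lit 10) (nat_lit 5) (nat_lit 11) (nat_lit 4) (nat_lit 283) (nat_lit 257) (nat_lit 180)) (XT.nd (nat_lit 78) (nat_lit 76) (nat_lit 0) (XT.lf (nat_lit 0) (nat_lit 28589279362) (nat_lit 76) (nat_lit 25029774215) (nat_lit 152) (nat_lit 5550179983) (nat_lit 9) (nat_lit 5) (nat_lit 10) (nat_lit 5) (nat_lit 11) (nat_lit 4) (nat_lit 284) (nat_lit 257) (nat_lit 179)) (XT.lf (nat_lit 0) (nat_lit 155814788) (nat_lit 152) (nat_lit 14659170311) (nat_lit 76) (nat_lit 48108020100) (nat_lit 8) (nat_lit 5) (nat_lit 10) (nat_lit 5) (nat_lit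 9) (nat_lit 5) (nat_lit 285) (nat_lit 257) (nat_lit 178)))) (XT.nd (nat_lit 78) (nat_lit 0) (nat_lit 0) (XT.lf (nat_lit 0) (nat_lit 2510410198) (nat_lit 152) (nat_lit 3564238451) (nat_lit 228) (nat_lit 60886423546) (nat_lit 6) (nat_lit 5) (nat_lit 8) (nat_lit 5) (nat_lit 9) (nat_lit 5) (nat_lit 286) (nat_lit 257) (nat_lit 177)) (XT.nd (nat_lit 78) (nat_lit 0) (nat_lit 0) (XT.lf (nat_lit 0) (nat_lit 13080662434) (nat_lit 228) (nat_lit 49626218589) (nat_lit 76) (nat_lit 8566231467) (nat_lit 6) (nat_lit 5) (nat_lit 9) (nat_lit 5) (nat_lit 7) (nat_lit 4) (nat_lit 287) (nat_lit 257) (nat_lit 176)) (XT.lf (nat_lit 0) (nat_lit 20735982872) (nat_lit 228) (nat_lit 33714339971) (nat_lit 76) (nat_lit 21472707301) (nat_lit 6) (nat_lit 5) (nat_lit 9) (nat_lit 5) (nat_lit 7) (nat_lit 4) (nat_lit 288) (nat_lit 257) (nat_lit 175)))))) (XT.nd (nat_lit 390) (nat_lit 152) (nat_lit 0) (XT.nd (nat_lit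 156) (nat_lit 0) (nat_lit 0) (XT.nd (nat_lit 78) (nat_lit 76) (nat_lit 0) (XT.lf (nat_lit 0) (nat_lit 29000254807) (nat_lit 228) (nat_lit 16535013508) (nat_lit 76) (nat_lit 35409969512) (nat_lit 6) (nat_lit 5) (nat_lit 9) (nat_lit 5) (nat_lit 7) (nat_lit 4) (nat_lit 289) (nat_lit 257) (nat_lit 174)) (XT.lf (nat_lit 0) (nat_lit 2119594938) (nat_lit 76) (nat_lit 35853833071) (nat_lit 152) (nat_lit 48391990656) (nat_lit 5) (nat_lit 5) (nat_lit 6) (nat_lit 5) (nat_lit 7) (nat_lit 4) (nat_lit 290) (nat_lit 257) (nat_lit 173))) (XT.nd (nat_lit 78) (nat_lit 0) (nat_lit 0) (XT.lf (nat_lit 0) (nat_lit 23201967057) (nat_lit 76) (nat_lit 24911486640) (nat_lit 152) (nat_lit 44069856405) (nat_lit 5) (nat_lit 5) (nat_lit 6) (nat_lit 5) (nat_lit 7) (nat_lit 4) (nat_lit 291) (nat_lit 257) (nat_lit 172)) (XT.nd (nat_lit 78) (nat_lit 0) (nat_lit 0) (XT.lf (nat_lit 0) (nat_lit 45966330915) (nat_lit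 76) (nat_lit 13095482058) (nat_lit 152) (nat_lit 39405064190) (nat_lit 5) (nat_lit 5) (nat_lit 6) (nat_lit 5) (nat_lit 7) (nat_lit 4) (nat_lit 292) (nat_lit 257) (nat_lit 171)) (XT.lf (nat_lit 0) (nat_lit 70547586446) (nat_lit 76) (nat_lit 335798557) (nat_lit 152) (nat_lit 34369970799) (nat_lit 5) (nat_lit 5) (nat_lit 6) (nat_lit 5) (nat_lit 7) (nat_lit 4) (nat_lit 293) (nat_lit 257) (nat_lit 170))))) (XT.nd (nat_lit 234) (nat_lit 76) (nat_lit 0) (XT.nd (nat_lit 78) (nat_lit 76) (nat_lit 0) (XT.lf (nat_lit 0) (nat_lit 83971532275) (nat_lit 152) (nat_lit 15814870566) (nat_lit 0) (nat_lit 12770694651) (nat_lit 5) (nat_lit 5) (nat_lit 7) (nat_lit 4) (nat_lit 5) (nat_lit 4) (nat_lit 294) (nat_lit 257) (nat_lit 169)) (XT.nd (nat_lit 78) (nat_lit 0) (nat_lit 0) (XT.lf (nat_lit 0) (nat_lit 4815666228) (nat_lit 76) (nat_lit 93413293926) (nat_lit 76) (nat_lit 22206411832) (nat_lit 4) (nat_lit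 4) (nat_lit 5) (nat_lit 5) (nat_lit 5) (nat_lit 4) (nat_lit 295) (nat_lit 257) (nat_lit 168)) (XT.lf (nat_lit 0) (nat_lit 27992337164) (nat_lit 76) (nat_lit 86064823372) (nat_lit 76) (nat_lit 14852344545) (nat_lit 4) (nat_lit 4) (nat_lit 5) (nat_lit 5) (nat_lit 5) (nat_lit 4) (nat_lit 296) (nat_lit 257) (nat_lit 167)))) (XT.nd (nat_lit 78) (nat_lit 76) (nat_lit 0) (XT.lf (nat_lit 0) (nat_lit 53019702418) (nat_lit 76) (nat_lit 78129851274) (nat_lit 76) (nat_lit 6912190288) (nat_lit 4) (nat_lit 4) (nat_lit 5) (nat_lit 5) (nat_lit 5) (nat_lit 4) (nat_lit 297) (nat_lit 257) (nat_lit 166)) (XT.nd (nat_lit 78) (nat_lit 0) (nat_lit 0) (XT.lf (nat_lit 0) (nat_lit 1578008571) (nat_lit 152) (nat_lit 67940201454) (nat_lit 76) (nat_lit 78424918180) (nat_lit 3) (nat_lit 5) (nat_lit 5) (nat_lit 5) (nat_lit 4) (nat_lit 4) (nat_lit 298) (nat_lit 257) (nat_lit 165)) (XT.lf (nat_lit 0) (nat_lit 10372162448)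 (nat_lit 152) (nat_lit 49652804255) (nat_lit 76) (nat_lit 98575847331) (nat_lit 3) (nat_lit 5) (nat_lit 5) (nat_lit 5) (nat_lit 4) (nat_lit 4) (nat_lit 299) (nat_lit 257) (nat_lit 164))))))) (XT.nd (nat_lit 858) (nat_lit 76) (nat_lit 0) (XT.nd (nat_lit 390) (nat_lit 0) (nat_lit 0) (XT.nd (nat_lit 156) (nat_lit 76) (nat_lit 0) (XT.nd (nat_lit 78) (nat_lit 0) (nat_lit 0) (XT.lf (nat_lit 0) (nat_lit 19868160601) (nat_lit 152) (nat_lit 29905241862) (nat_lit 76) (nat_lit 120337854731) (nat_lit 3) (nat_lit 5) (nat_lit 5) (nat_lit 5) (nat_lit 4) (nat_lit 4) (nat_lit 300) (nat_lit 257) (nat_lit 163)) (XT.lf (nat_lit 0) (nat_lit 30122275612) (nat_lit 152) (nat_lit 8580491683) (nat_lit 76) (nat_lit 143839900423) (nat_lit 3) (nat_lit 5) (nat_lit 5) (nat_lit 5) (nat_lit 4) (nat_lit 4) (nat_lit 301) (nat_lit 257) (nat_lit 162))) (XT.nd (nat_lit 78) (nat_lit 0) (nat_lit 0) (XT.lf (nat_lit 0) (nat_lit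 15208611515) (nat_lit 76) (nat_lit 26352428562) (nat_lit 152) (nat_lit 154378411746) (nat_lit 2) (nat_lit 5) (nat_lit 3) (nat_lit 5) (nat_lit 4) (nat_lit 4) (nat_lit 302) (nat_lit 257) (nat_lit 161)) (XT.nd (nat_lit 78) (nat_lit 0) (nat_lit 0) (XT.lf (nat_lit 0) (nat_lit 41386461146) (nat_lit 76) (nat_lit 12761653580) (nat_lit 152) (nat_lit 156241213100) (nat_lit 2) (nat_lit 5) (nat_lit 3) (nat_lit 5) (nat_lit 4) (nat_lit 4) (nat_lit 303) (nat_lit 257) (nat_lit 160)) (XT.lf (nat_lit 0) (nat_lit 67786929569) (nat_lit 152) (nat_lit 156385018684) (nat_lit 0) (nat_lit 1819669173) (nat_lit 2) (nat_lit 5) (nat_lit 4) (nat_lit 4) (nat_lit 2) (nat_lit 4) (nat_lit 304) (nat_lit 257) (nat_lit 159))))) (XT.nd (nat_lit 234) (nat_lit 0) (nat_lit 0) (XT.nd (nat_lit 78) (nat_lit 0) (nat_lit 0) (XT.lf (nat_lit 0) (nat_lit 82847103668) (nat_lit 152) (nat_lit 143091320347) (nat_lit 0) (nat_lit 16877250903)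 (nat_lit 2) (nat_lit 5) (nat_lit 4) (nat_lit 4) (nat_lit 2) (nat_lit 4) (nat_lit 305) (nat_lit 257) (nat_lit 158)) (XT.nd (nat_lit 78) (nat_lit 0) (nat_lit 0) (XT.lf (nat_lit 0) (nat_lit 99110964427) (nat_lit 152) (nat_lit 128736076123) (nat_lit 0) (nat_lit 33138711319) (nat_lit 2) (nat_lit 5) (nat_lit 4) (nat_lit 4) (nat_lit 2) (nat_lit 4) (nat_lit 306) (nat_lit 257) (nat_lit 157)) (XT.lf (nat_lit 0) (nat_lit 116674890278) (nat_lit 152) (nat_lit 113234217896) (nat_lit 0) (nat_lit 50700414631) (nat_lit 2) (nat_lit 5) (nat_lit 4) (nat_lit 4) (nat_lit 2) (nat_lit 4) (nat_lit 307) (nat_lit 257) (nat_lit 156)))) (XT.nd (nat_lit 78) (nat_lit 0) (nat_lit 0) (XT.lf (nat_lit 0) (nat_lit 135642963746) (nat_lit 152) (nat_lit 96493882804) (nat_lit 0) (nat_lit 69666430192) (nat_lit 2) (nat_lit 5) (nat_lit 4) (nat_lit 4) (nat_lit 2) (nat_lit 4) (nat_lit 308) (nat_lit 257) (nat_lit 155)) (XT.nd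 (nat_lit 78) (nat_lit 0) (nat_lit 0) (XT.lf (nat_lit 0) (nat_lit 156127588228) (nat_lit 152) (nat_lit 78415868861) (nat_lit 0) (nat_lit 90149149205) (nat_lit 2) (nat_lit 5) (nat_lit 4) (nat_lit 4) (nat_lit 2) (nat_lit 4) (nat_lit 309) (nat_lit 257) (nat_lit 154)) (XT.lf (nat_lit 0) (nat_lit 178250154093) (nat_lit 152) (nat_lit 58893047095) (nat_lit 0) (nat_lit 112269950746) (nat_lit 2) (nat_lit 5) (nat_lit 4) (nat_lit 4) (nat_lit 2) (nat_lit 4) (nat_lit 310) (nat_lit 257) (nat_lit 153)))))) (XT.nd (nat_lit 390) (nat_lit 0) (nat_lit 0) (XT.nd (nat_lit 156) (nat_lit 76) (nat_lit 0) (XT.nd (nat_lit 78) (nat_lit 0) (nat_lit 0) (XT.lf (nat_lit 0) (nat_lit 202141758026) (nat_lit 152) (nat_lit 37809726710) (nat_lit 0) (nat_lit 136159921047) (nat_lit 2) (nat_lit 5) (nat_lit 4) (nat_lit 4) (nat_lit 2) (nat_lit 4) (nat_lit 311) (nat_lit 257) (nat_lit 152)) (XT.lf (nat_lit 0) (nat_lit 227943979904)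 (nat_lit 152) (nat_lit 15040969513) (nat_lit 0) (nat_lit 161960630301) (nat_lit 2) (nat_lit 5) (nat_lit 4) (nat_lit 4) (nat_lit 2) (nat_lit 4) (nat_lit 312) (nat_lit 257) (nat_lit 151))) (XT.nd (nat_lit 78) (nat_lit 0) (nat_lit 0) (XT.lf (nat_lit 0) (nat_lit 10050939148) (nat_lit 76) (nat_lit 246000507960) (nat_lit 76) (nat_lit 180015757781) (nat_lit 1) (nat_lit 4) (nat_lit 2) (nat_lit 5) (nat_lit 2) (nat_lit 4) (nat_lit 313) (nat_lit 257) (nat_lit 150)) (XT.nd (nat_lit 78) (nat_lit 0) (nat_lit 0) (XT.lf (nat_lit 0) (nat_lit 38004484777) (nat_lit 76) (nat_lit 248813637974) (nat_lit 76) (nat_lit 182827590964) (nat_lit 1) (nat_lit 4) (nat_lit 2) (nat_lit 5) (nat_lit 2) (nat_lit 4) (nat_lit 314) (nat_lit 257) (nat_lit 149)) (XT.lf (nat_lit 0) (nat_lit 68193287215) (nat_lit 76) (nat_lit 251852256619) (nat_lit 76) (nat_lit 185865008841) (nat_lit 1) (nat_lit 4) (nat_lit 2) (nat_lit 5) (nat_lit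 2) (nat_lit 4) (nat_lit 315) (nat_lit 257) (nat_lit 148))))) (XT.nd (nat_lit 234) (nat_lit 0) (nat_lit 0) (XT.nd (nat_lit 78) (nat_lit 0) (nat_lit 0) (XT.lf (nat_lit 0) (nat_lit 100796243069) (nat_lit 76) (nat_lit 255134370526) (nat_lit 76) (nat_lit 189146010924) (nat_lit 1) (nat_lit 4) (nat_lit 2) (nat_lit 5) (nat_lit 2) (nat_lit 4) (nat_lit 316) (nat_lit 257) (nat_lit 147)) (XT.nd (nat_lit 78) (nat_lit 0) (nat_lit 0) (XT.lf (nat_lit 0) (nat_lit 136006555039) (nat_lit 76) (nat_lit 258679429258) (nat_lit 76) (nat_lit 192690040190) (nat_lit 1) (nat_lit 4) (nat_lit 2) (nat_lit 5) (nat_lit 2) (nat_lit 4) (nat_lit 317) (nat_lit 257) (nat_lit 146)) (XT.lf (nat_lit 0) (nat_lit 174032876827) (nat_lit 76) (nat_lit 262508440570) (nat_lit 76) (nat_lit 196518098293) (nat_lit 1) (nat_lit 4) (nat_lit 2) (nat_lit 5) (nat_lit 2) (nat_lit 4) (nat_lit 318) (nat_lit 257) (nat_lit 145)))) (XT.nd (nat_lit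 78) (nat_lit 0) (nat_lit 0) (XT.lf (nat_lit 0) (nat_lit 215100549599) (nat_lit 76) (nat_lit 266644094900) (nat_lit 76) (nat_lit 200652870022) (nat_lit 1) (nat_lit 4) (nat_lit 2) (nat_lit 5) (nat_lit 2) (nat_lit 4) (nat_lit 319) (nat_lit 257) (nat_lit 144)) (XT.nd (nat_lit 78) (nat_lit 0) (nat_lit 0) (XT.lf (nat_lit 0) (nat_lit 259452937341) (nat_lit 76) (nat_lit 271110899829) (nat_lit 76) (nat_lit 205118857728) (nat_lit 1) (nat_lit 4) (nat_lit 2) (nat_lit 5) (nat_lit 2) (nat_lit 4) (nat_lit 320) (nat_lit 257) (nat_lit 143)) (XT.lf (nat_lit 0) (nat_lit 307352869018) (nat_lit 76) (nat_lit 275935325312) (nat_lit 76) (nat_lit 209942526523) (nat_lit 1) (nat_lit 4) (nat_lit 2) (nat_lit 5) (nat_lit 2) (nat_lit 4) (nat_lit 321) (nat_lit 257) (nat_lit 142))))))))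
noncomputable def xc83 : XT := (XT.nd (nat_lit 33618) (nat_lit 0) (nat_lit 304) (XT.nd (nat_lit 32760) (nat_lit 0) (nat_lit 1368) (XT.nd (nat_lit 390) (nat_lit 0) (nat_lit 0) (XT.nd (nat_lit 156) (nat_lit 0) (nat_lit 0) (XT.nd (nat_lit 78) (nat_lit 0) (nat_lit 0) (XT.lf (nat_lit 0) (nat_lit 359084196077) (nat_lit 76) (nat_lit 281145960537) (nat_lit 76) (nat_lit 215152461111) (nat_lit 1) (nat_lit 4) (nat_lit 2) (nat_lit 5) (nat_lit 2) (nat_lit 4) (nat_lit 322) (nat_lit 257) (nat_lit 141)) (XT.lf (nat_lit 0) (nat_lit 414953474530) (nat_lit 76) (nat_lit 286773683343) (nat_lit 76) (nat_lit 220779535179) (nat_lit 1) (nat_lit 4) (nat_lit 2) (nat_lit 5) (nat_lit 2) (nat_lit 4) (nat_lit 323) (nat_lit 257) (nat_lit 140))) (XT.nd (nat_lit 78) (nat_lit 0) (nat_lit 0) (XT.lf (nat_lit 0) (nat_lit 475291781583) (nat_lit 76) (nat_lit 292851843198) (nat_lit 76) (nat_lit 226857094350) (nat_lit 1)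 (nat_lit 4) (nat_lit 2) (nat_lit 5) (nat_lit 2) (nat_lit 4) (nat_lit 324) (nat_lit 257) (nat_lit 139)) (XT.nd (nat_lit 78) (nat_lit 0) (nat_lit 0) (XT.lf (nat_lit 0) (nat_lit 540456677574) (nat_lit 76) (nat_lit 299416458827) (nat_lit 76) (nat_lit 233421153791) (nat_lit 1) (nat_lit 4) (nat_lit 2) (nat_lit 5) (nat_lit 2) (nat_lit 4) (nat_lit 325) (nat_lit 257) (nat_lit 138)) (XT.lf (nat_lit 0) (nat_lit 610834324848) (nat_lit 76) (nat_lit 306506431656) (nat_lit 76) (nat_lit 240510611631) (nat_lit 1) (nat_lit 4) (nat_lit 2) (nat_lit 5) (nat_lit 2) (nat_lit 4) (nat_lit 326) (nat_lit 257) (nat_lit 137))))) (XT.nd (nat_lit 32136) (nat_lit 0) (nat_lit 2280) (XT.nd (nat_lit 78) (nat_lit 0) (nat_lit 0) (XT.lf (nat_lit 0) (nat_lit 686841776132) (nat_lit 76) (nat_lit 314163776339) (nat_lit 76) (nat_lit 248167479472) (nat_lit 1) (nat_lit 4) (nat_lit 2) (nat_lit 5) (nat_lit 2) (nat_lit 4) (nat_lit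 327) (nat_lit 257) (nat_lit 136)) (XT.nd (nat_lit 78) (nat_lit 0) (nat_lit 0) (XT.lf (nat_lit 0) (nat_lit 768929445951) (nat_lit 76) (nat_lit 322433869733) (nat_lit 76) (nat_lit 256437131346) (nat_lit 1) (nat_lit 4) (nat_lit 2) (nat_lit 5) (nat_lit 2) (nat_lit 4) (nat_lit 328) (nat_lit 257) (nat_lit 135)) (XT.lf (nat_lit 0) (nat_lit 857583779756) (nat_lit 76) (nat_lit 331365719799) (nat_lit 76) (nat_lit 265368572597) (nat_lit 1) (nat_lit 4) (nat_lit 2) (nat_lit 5) (nat_lit 2) (nat_lit 4) (nat_lit 329) (nat_lit 257) (nat_lit 134)))) (XT.nd (nat_lit 78) (nat_lit 0) (nat_lit 0) (XT.lf (nat_lit 0) (nat_lit 3565418832) (nat_lit 0) (nat_lit 3565418832) (nat_lit 380) (nat_lit 1201273025) (nat_lit 31) (nat_lit 5) (nat_lit 31) (nat_lit 3) (nat_lit 36) (nat_lit 3) (nat_lit 258) (nat_lit 258) (nat_lit 204)) (XT.nd (nat_lit 78) (nat_lit 0) (nat_lit 0) (XT.lf (nat_lit 0) (nat_lit 14163385449)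 (nat_lit 0) (nat_lit 866992473) (nat_lit 380) (nat_lit 2282523733) (nat_lit 31) (nat_lit 5) (nat_lit 31) (nat_lit 3) (nat_lit 36) (nat_lit 3) (nat_lit 259) (nat_lit 258) (nat_lit 203)) (XT.lf (nat_lit 76) (nat_lit 3780379762) (nat_lit 0) (nat_lit 12293366672) (nat_lit 456) (nat_lit 1922879413) (nat_lit 32) (nat_lit 5) (nat_lit 31) (nat_lit 5) (nat_lit 37) (nat_lit 5) (nat_lit 260) (nat_lit 258) (nat_lit 202)))))) (XT.nd (nat_lit 390) (nat_lit 532) (nat_lit 0) (XT.nd (nat_lit 156) (nat_lit 380) (nat_lit 0) (XT.nd (nat_lit 78) (nat_lit 0) (nat_lit 76) (XT.lf (nat_lit 76) (nat_lit 11408435717) (nat_lit 0) (nat_lit 5881788094) (nat_lit 456) (nat_lit 1437841040) (nat_lit 32) (nat_lit 5) (nat_lit 31) (nat_lit 5) (nat_lit 37) (nat_lit 5) (nat_lit 261) (nat_lit 258) (nat_lit 201)) (XT.lf (nat_lit 76) (nat_lit 95970924) (nat_lit 0) (nat_lit 18518526449) (nat_lit 456) (nat_lit 902857464) (nat_lit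 33) (nat_lit 5) (nat_lit 32) (nat_lit 5) (nat_lit 38) (nat_lit 5) (nat_lit 262) (nat_lit 258) (nat_lit 200))) (XT.nd (nat_lit 78) (nat_lit 0) (nat_lit 0) (XT.lf (nat_lit 0) (nat_lit 32775220) (nat_lit 456) (nat_lit 11996011533) (nat_lit 532) (nat_lit 8314448870) (nat_lit 26) (nat_lit 5) (nat_lit 32) (nat_lit 5) (nat_lit 33) (nat_lit 5) (nat_lit 263) (nat_lit 258) (nat_lit 199)) (XT.nd (nat_lit 78) (nat_lit 0) (nat_lit 76) (XT.lf (nat_lit 0) (nat_lit 979189350) (nat_lit 456) (nat_lit 4012257379) (nat_lit 532) (nat_lit 16243225595) (nat_lit 26) (nat_lit 5) (nat_lit 32) (nat_lit 5) (nat_lit 33) (nat_lit 5) (nat_lit 264) (nat_lit 258) (nat_lit 198)) (XT.lf (nat_lit 0) (nat_lit 2169422472) (nat_lit 456) (nat_lit 17414133509) (nat_lit 76) (nat_lit 2600547481) (nat_lit 27) (nat_lit 5) (nat_lit 33) (nat_lit 5) (nat_lit 28) (nat_lit 5) (nat_lit 265) (nat_lit 258) (nat_lit 197))))) (XT.nd (nat_lit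 234) (nat_lit 228) (nat_lit 0) (XT.nd (nat_lit 78) (nat_lit 380) (nat_lit 0) (XT.lf (nat_lit 0) (nat_lit 3683756109) (nat_lit 456) (nat_lit 8862507334) (nat_lit 76) (nat_lit 10645033588) (nat_lit 27) (nat_lit 5) (nat_lit 33) (nat_lit 5) (nat_lit 28) (nat_lit 5) (nat_lit 266) (nat_lit 258) (nat_lit 196)) (XT.nd (nat_lit 78) (nat_lit 0) (nat_lit 0) (XT.lf (nat_lit 0) (nat_lit 380960617) (nat_lit 380) (nat_lit 4935106694) (nat_lit 456) (nat_lit 18963362017) (nat_lit 22) (nat_lit 5) (nat_lit 27) (nat_lit 5) (nat_lit 28) (nat_lit 5) (nat_lit 267) (nat_lit 258) (nat_lit 195)) (XT.lf (nat_lit 0) (nat_lit 7394908231) (nat_lit 456) (nat_lit 14664708728) (nat_lit 76) (nat_lit 3369821251) (nat_lit 22) (nat_lit 5) (nat_lit 28) (nat_lit 5) (nat_lit 23) (nat_lit 5) (nat_lit 268) (nat_lit 258) (nat_lit 194)))) (XT.nd (nat_lit 78) (nat_lit 228) (nat_lit 0) (XT.lf (nat_lit 0) (nat_lit 9757436642)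 (nat_lit 456) (nat_lit 4831645138) (nat_lit 76) (nat_lit 12073069666) (nat_lit 22) (nat_lit 5) (nat_lit 28) (nat_lit 5) (nat_lit 23) (nat_lit 5) (nat_lit 269) (nat_lit 258) (nat_lit 193)) (XT.nd (nat_lit 78) (nat_lit 0) (nat_lit 0) (XT.lf (nat_lit 0) (nat_lit 6081923965) (nat_lit 228) (nat_lit 6363309729) (nat_lit 304) (nat_lit 15537433832) (nat_lit 19) (nat_lit 5) (nat_lit 22) (nat_lit 5) (nat_lit 23) (nat_lit 5) (nat_lit 270) (nat_lit 258) (nat_lit 192)) (XT.lf (nat_lit 0) (nat_lit 15534689121) (nat_lit 304) (nat_lit 11329893496) (nat_lit 76) (nat_lit 2529392148) (nat_lit 19) (nat_lit 5) (nat_lit 23) (nat_lit 5) (nat_lit 20) (nat_lit 5) (nat_lit 271) (nat_lit 258) (nat_lit 191))))))) (XT.nd (nat_lit 858) (nat_lit 380) (nat_lit 0) (XT.nd (nat_lit 390) (nat_lit 304) (nat_lit 0) (XT.nd (nat_lit 156) (nat_lit 228) (nat_lit 0) (XT.nd (nat_lit 78) (nat_lit 152) (nat_lit 0) (XT.lf (nat_lit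 0) (nat_lit 19027765908) (nat_lit 304) (nat_lit 88791029) (nat_lit 76) (nat_lit 11789187121) (nat_lit 19) (nat_lit 5) (nat_lit 23) (nat_lit 5) (nat_lit 20) (nat_lit 5) (nat_lit 272) (nat_lit 258) (nat_lit 190)) (XT.lf (nat_lit 0) (nat_lit 12676337261) (nat_lit 152) (nat_lit 10420654973) (nat_lit 228) (nat_lit 9417795527) (nat_lit 17) (nat_lit 5) (nat_lit 19) (nat_lit 5) (nat_lit 20) (nat_lit 5) (nat_lit 273) (nat_lit 258) (nat_lit 189))) (XT.nd (nat_lit 78) (nat_lit 228) (nat_lit 0) (XT.lf (nat_lit 0) (nat_lit 26458578908) (nat_lit 152) (nat_lit 1027827320) (nat_lit 228) (nat_lit 6766640783) (nat_lit 17) (nat_lit 5) (nat_lit 19) (nat_lit 5) (nat_lit 20) (nat_lit 5) (nat_lit 274) (nat_lit 258) (nat_lit 188)) (XT.nd (nat_lit 78) (nat_lit 76) (nat_lit 0) (XT.lf (nat_lit 0) (nat_lit 5247194558) (nat_lit 152) (nat_lit 27317991762) (nat_lit 228) (nat_lit 3538182917) (nat_lit 15) (nat_lit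 5) (nat_lit 17) (nat_lit 5) (nat_lit 18) (nat_lit 5) (nat_lit 275) (nat_lit 258) (nat_lit 187)) (XT.lf (nat_lit 0) (nat_lit 189331039) (nat_lit 228) (nat_lit 18349465559) (nat_lit 76) (nat_lit 19544013986) (nat_lit 14) (nat_lit 5) (nat_lit 17) (nat_lit 5) (nat_lit 15) (nat_lit 5) (nat_lit 276) (nat_lit 258) (nat_lit 186))))) (XT.nd (nat_lit 234) (nat_lit 152) (nat_lit 0) (XT.nd (nat_lit 78) (nat_lit 152) (nat_lit 0) (XT.lf (nat_lit 0) (nat_lit 4017280272) (nat_lit 228) (nat_lit 4942704918) (nat_lit 76) (nat_lit 31253845997) (nat_lit 14) (nat_lit 5) (nat_lit 17) (nat_lit 5) (nat_lit 15) (nat_lit 5) (nat_lit 277) (nat_lit 258) (nat_lit 185)) (XT.nd (nat_lit 78) (nat_lit 0) (nat_lit 0) (XT.lf (nat_lit 0) (nat_lit 8426109036) (nat_lit 228) (nat_lit 32505692714) (nat_lit 76) (nat_lit 1561603769) (nat_lit 12) (nat_lit 5) (nat_lit 15) (nat_lit 5) (nat_lit 13) (nat_lit 5) (nat_lit 278) (nat_lit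 258) (nat_lit 184)) (XT.lf (nat_lit 0) (nat_lit 13553122887) (nat_lit 228) (nat_lit 18795322028) (nat_lit 76) (nat_lit 12577702923) (nat_lit 12) (nat_lit 5) (nat_lit 15) (nat_lit 5) (nat_lit 13) (nat_lit 5) (nat_lit 279) (nat_lit 258) (nat_lit 183)))) (XT.nd (nat_lit 78) (nat_lit 152) (nat_lit 0) (XT.lf (nat_lit 0) (nat_lit 19084834324) (nat_lit 228) (nat_lit 3995723993) (nat_lit 76) (nat_lit 24473425659) (nat_lit 12) (nat_lit 5) (nat_lit 15) (nat_lit 5) (nat_lit 13) (nat_lit 5) (nat_lit 280) (nat_lit 258) (nat_lit 182)) (XT.nd (nat_lit 78) (nat_lit 0) (nat_lit 0) (XT.lf (nat_lit 0) (nat_lit 12611690548) (nat_lit 152) (nat_lit 12745644771) (nat_lit 228) (nat_lit 25010886061) (nat_lit 10) (nat_lit 5) (nat_lit 12) (nat_lit 5) (nat_lit 13) (nat_lit 5) (nat_lit 281) (nat_lit 258) (nat_lit 181)) (XT.lf (nat_lit 0) (nat_lit 30768077652) (nat_lit 152) (nat_lit 1467959821) (nat_lit 228) (nat_lit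 21163240241) (nat_lit 10) (nat_lit 5) (nat_lit 12) (nat_lit 5) (nat_lit 13) (nat_lit 5) (nat_lit 282) (nat_lit 258) (nat_lit 180)))))) (XT.nd (nat_lit 390) (nat_lit 76) (nat_lit 0) (XT.nd (nat_lit 156) (nat_lit 228) (nat_lit 0) (XT.nd (nat_lit 78) (nat_lit 76) (nat_lit 0) (XT.lf (nat_lit 0) (nat_lit 39918123508) (nat_lit 228) (nat_lit 6560162034) (nat_lit 76) (nat_lit 10174315649) (nat_lit 10) (nat_lit 5) (nat_lit 13) (nat_lit 5) (nat_lit 11) (nat_lit 4) (nat_lit 283) (nat_lit 258) (nat_lit 179)) (XT.lf (nat_lit 0) (nat_lit 11318422828) (nat_lit 76) (nat_lit 37202491963) (nat_lit 152) (nat_lit 11620812141) (nat_lit 9) (nat_lit 5) (nat_lit 10) (nat_lit 5) (nat_lit 11) (nat_lit 4) (nat_lit 284) (nat_lit 258) (nat_lit 178))) (XT.nd (nat_lit 78) (nat_lit 228) (nat_lit 0) (XT.lf (nat_lit 0) (nat_lit 30994332958) (nat_lit 76) (nat_lit 26992929743) (nat_lit 152) (nat_lit 5908718786) (nat_lit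 9) (nat_lit 5) (nat_lit 10) (nat_lit 5) (nat_lit 11) (nat_lit 4) (nat_lit 285) (nat_lit 258) (nat_lit 177)) (XT.nd (nat_lit 78) (nat_lit 152) (nat_lit 0) (XT.lf (nat_lit 0) (nat_lit 243464934) (nat_lit 152) (nat_lit 15718342534) (nat_lit 76) (nat_lit 51988598136) (nat_lit 8) (nat_lit 5) (nat_lit 10) (nat_lit 5) (nat_lit 9) (nat_lit 5) (nat_lit 286) (nat_lit 258) (nat_lit 176)) (XT.lf (nat_lit 0) (nat_lit 2821929444) (nat_lit 152) (nat_lit 3810968815) (nat_lit 228) (nat_lit 65678883778) (nat_lit 6) (nat_lit 5) (nat_lit 8) (nat_lit 5) (nat_lit 9) (nat_lit 5) (nat_lit 287) (nat_lit 258) (nat_lit 175))))) (XT.nd (nat_lit 234) (nat_lit 76) (nat_lit 0) (XT.nd (nat_lit 78) (nat_lit 0) (nat_lit 0) (XT.lf (nat_lit 0) (nat_lit 14194894547) (nat_lit 228) (nat_lit 53488965490) (nat_lit 76) (nat_lit 9285314570) (nat_lit 6) (nat_lit 5) (nat_lit 9) (nat_lit 5) (nat_lit 7) (nat_lit 4) (nat_lit 288)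 (nat_lit 258) (nat_lit 174)) (XT.nd (nat_lit 78) (nat_lit 0) (nat_lit 0) (XT.lf (nat_lit 0) (nat_lit 22457619945) (nat_lit 228) (nat_lit 36312088477) (nat_lit 76) (nat_lit 23221805909) (nat_lit 6) (nat_lit 5) (nat_lit 9) (nat_lit 5) (nat_lit 7) (nat_lit 4) (nat_lit 289) (nat_lit 258) (nat_lit 173)) (XT.lf (nat_lit 0) (nat_lit 31378384861) (nat_lit 228) (nat_lit 17765778763) (nat_lit 76) (nat_lit 38271731910) (nat_lit 6) (nat_lit 5) (nat_lit 9) (nat_lit 5) (nat_lit 7) (nat_lit 4) (nat_lit 290) (nat_lit 258) (nat_lit 172)))) (XT.nd (nat_lit 78) (nat_lit 0) (nat_lit 0) (XT.lf (nat_lit 0) (nat_lit 2378868337) (nat_lit 76) (nat_lit 38688396589) (nat_lit 152) (nat_lit 52202620825) (nat_lit 5) (nat_lit 5) (nat_lit 6) (nat_lit 5) (nat_lit 7) (nat_lit 4) (nat_lit 291) (nat_lit 258) (nat_lit 171)) (XT.nd (nat_lit 78) (nat_lit 0) (nat_lit 0) (XT.lf (nat_lit 0) (nat_lit 25141185351) (nat_lit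 76) (nat_lit 26873161934) (nat_lit 152) (nat_lit 47539214284) (nat_lit 5) (nat_lit 5) (nat_lit 6) (nat_lit 5) (nat_lit 7) (nat_lit 4) (nat_lit 292) (nat_lit 258) (nat_lit 170)) (XT.lf (nat_lit 0) (nat_lit 49720545656) (nat_lit 76) (nat_lit 14114191329) (nat_lit 152) (nat_lit 42505403924) (nat_lit 5) (nat_lit 5) (nat_lit 6) (nat_lit 5) (nat_lit 7) (nat_lit 4) (nat_lit 293) (nat_lit 258) (nat_lit 169))))))))
noncomputable def xc84 : XT := (XT.nd (nat_lit 1716) (nat_lit 0) (nat_lit 0) (XT.nd (nat_lit 858) (nat_lit 76) (nat_lit 0) (XT.nd (nat_lit 390) (nat_lit 152) (nat_lit 0) (XT.nd (nat_lit 156) (nat_lit 76) (nat_lit 0) (XT.nd (nat_lit 78) (nat_lit 0) (nat_lit 0) (XT.lf (nat_lit 0) (nat_lit 76262604721) (nat_lit 76) (nat_lit 335876059) (nat_lit 152) (nat_lit 37071359758) (nat_lit 5) (nat_lit 5) (nat_lit 6) (nat_lit 5) (nat_lit 7) (nat_lit 4) (nat_lit 294) (nat_lit 258) (nat_lit 168))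 (XT.lf (nat_lit 0) (nat_lit 90730985588) (nat_lit 152) (nat_lit 17011216809) (nat_lit 0) (nat_lit 13815911723) (nat_lit 5) (nat_lit 5) (nat_lit 7) (nat_lit 4) (nat_lit 5) (nat_lit 4) (nat_lit 295) (nat_lit 258) (nat_lit 167))) (XT.nd (nat_lit 78) (nat_lit 0) (nat_lit 0) (XT.lf (nat_lit 0) (nat_lit 5268020058) (nat_lit 76) (nat_lit 100859510244) (nat_lit 76) (nat_lit 23939254220) (nat_lit 4) (nat_lit 4) (nat_lit 5) (nat_lit 5) (nat_lit 5) (nat_lit 4) (nat_lit 296) (nat_lit 258) (nat_lit 166)) (XT.nd (nat_lit 78) (nat_lit 0) (nat_lit 0) (XT.lf (nat_lit 0) (nat_lit 30293854259) (nat_lit 76) (nat_lit 92925150727) (nat_lit 76) (nat_lit 16000096406) (nat_lit 4) (nat_lit 4) (nat_lit 5) (nat_lit 5) (nat_lit 5) (nat_lit 4) (nat_lit 297) (nat_lit 258) (nat_lit 165)) (XT.lf (nat_lit 0) (nat_lit 57318806501) (nat_lit 76) (nat_lit 84357222233) (nat_lit 76) (nat_lit 7427725045) (nat_lit 4) (nat_lit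 4) (nat_lit 5) (nat_lit 5) (nat_lit 5) (nat_lit 4) (nat_lit 298) (nat_lit 258) (nat_lit 164))))) (XT.nd (nat_lit 234) (nat_lit 76) (nat_lit 0) (XT.nd (nat_lit 78) (nat_lit 0) (nat_lit 0) (XT.lf (nat_lit 0) (nat_lit 1737182165) (nat_lit 152) (nat_lit 73320272047) (nat_lit 76) (nat_lit 84718344846) (nat_lit 3) (nat_lit 5) (nat_lit 5) (nat_lit 5) (nat_lit 4) (nat_lit 4) (nat_lit 299) (nat_lit 258) (nat_lit 163)) (XT.nd (nat_lit 78) (nat_lit 0) (nat_lit 0) (XT.lf (nat_lit 0) (nat_lit 11232428878) (nat_lit 152) (nat_lit 53573967926) (nat_lit 76) (nat_lit 106479908833) (nat_lit 3) (nat_lit 5) (nat_lit 5) (nat_lit 5) (nat_lit 4) (nat_lit 4) (nat_lit 300) (nat_lit 258) (nat_lit 162)) (XT.lf (nat_lit 0) (nat_lit 21485848111) (nat_lit 152) (nat_lit 32250382813) (nat_lit 76) (nat_lit 129981543957) (nat_lit 3) (nat_lit 5) (nat_lit 5) (nat_lit 5) (nat_lit 4) (nat_lit 4) (nat_lit 301) (nat_lit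 258) (nat_lit 161)))) (XT.nd (nat_lit 78) (nat_lit 76) (nat_lit 0) (XT.lf (nat_lit 0) (nat_lit 32558200865) (nat_lit 152) (nat_lit 9223154723) (nat_lit 76) (nat_lit 155362519167) (nat_lit 3) (nat_lit 5) (nat_lit 5) (nat_lit 5) (nat_lit 4) (nat_lit 4) (nat_lit 302) (nat_lit 258) (nat_lit 160)) (XT.nd (nat_lit 78) (nat_lit 0) (nat_lit 0) (XT.lf (nat_lit 0) (nat_lit 16467968469) (nat_lit 76) (nat_lit 28443187652) (nat_lit 152) (nat_lit 166701326811) (nat_lit 2) (nat_lit 5) (nat_lit 3) (nat_lit 5) (nat_lit 4) (nat_lit 4) (nat_lit 303) (nat_lit 258) (nat_lit 159)) (XT.lf (nat_lit 0) (nat_lit 44736885476) (nat_lit 76) (nat_lit 13766442168) (nat_lit 152) (nat_lit 168715178782) (nat_lit 2) (nat_lit 5) (nat_lit 3) (nat_lit 5) (nat_lit 4) (nat_lit 4) (nat_lit 304) (nat_lit 258) (nat_lit 158)))))) (XT.nd (nat_lit 390) (nat_lit 76) (nat_lit 0) (XT.nd (nat_lit 156) (nat_lit 0) (nat_lit 0) (XT.nd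 (nat_lit 78) (nat_lit 0) (nat_lit 0) (XT.lf (nat_lit 0) (nat_lit 73231876523) (nat_lit 152) (nat_lit 168857776838) (nat_lit 0) (nat_lit 1979442824) (nat_lit 2) (nat_lit 5) (nat_lit 4) (nat_lit 4) (nat_lit 2) (nat_lit 4) (nat_lit 305) (nat_lit 258) (nat_lit 157)) (XT.lf (nat_lit 0) (nat_lit 89495235470) (nat_lit 152) (nat_lit 154503400660) (nat_lit 0) (nat_lit 18240579231) (nat_lit 2) (nat_lit 5) (nat_lit 4) (nat_lit 4) (nat_lit 2) (nat_lit 4) (nat_lit 306) (nat_lit 258) (nat_lit 156))) (XT.nd (nat_lit 78) (nat_lit 0) (nat_lit 0) (XT.lf (nat_lit 0) (nat_lit 107058696681) (nat_lit 152) (nat_lit 139002346179) (nat_lit 0) (nat_lit 35801982535) (nat_lit 2) (nat_lit 5) (nat_lit 4) (nat_lit 4) (nat_lit 2) (nat_lit 4) (nat_lit 307) (nat_lit 258) (nat_lit 155)) (XT.nd (nat_lit 78) (nat_lit 0) (nat_lit 0) (XT.lf (nat_lit 0) (nat_lit 126026339926) (nat_lit 152) (nat_lit 122262755297) (nat_lit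 0) (nat_lit 54767720312) (nat_lit 2) (nat_lit 5) (nat_lit 4) (nat_lit 4) (nat_lit 2) (nat_lit 4) (nat_lit 308) (nat_lit 258) (nat_lit 154)) (XT.lf (nat_lit 0) (nat_lit 146510566055) (nat_lit 152) (nat_lit 104185430437) (nat_lit 0) (nat_lit 75250182117) (nat_lit 2) (nat_lit 5) (nat_lit 4) (nat_lit 4) (nat_lit 2) (nat_lit 4) (nat_lit 309) (nat_lit 258) (nat_lit 153))))) (XT.nd (nat_lit 234) (nat_lit 76) (nat_lit 0) (XT.nd (nat_lit 78) (nat_lit 0) (nat_lit 0) (XT.lf (nat_lit 0) (nat_lit 168632763073) (nat_lit 152) (nat_lit 84663246711) (nat_lit 0) (nat_lit 97370745502) (nat_lit 2) (nat_lit 5) (nat_lit 4) (nat_lit 4) (nat_lit 2) (nat_lit 4) (nat_lit 310) (nat_lit 258) (nat_lit 152)) (XT.nd (nat_lit 78) (nat_lit 0) (nat_lit 0) (XT.lf (nat_lit 0) (nat_lit 192524025482) (nat_lit 152) (nat_lit 63580517104) (nat_lit 0) (nat_lit 121260495288) (nat_lit 2) (nat_lit 5) (nat_lit 4) (nat_lit 4)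 (nat_lit 2) (nat_lit 4) (nat_lit 311) (nat_lit 258) (nat_lit 151)) (XT.lf (nat_lit 0) (nat_lit 218325931133) (nat_lit 152) (nat_lit 40812306923) (nat_lit 0) (nat_lit 147061000362) (nat_lit 2) (nat_lit 5) (nat_lit 4) (nat_lit 4) (nat_lit 2) (nat_lit 4) (nat_lit 312) (nat_lit 258) (nat_lit 150)))) (XT.nd (nat_lit 78) (nat_lit 76) (nat_lit 0) (XT.lf (nat_lit 0) (nat_lit 246191380207) (nat_lit 152) (nat_lit 16223693441) (nat_lit 0) (nat_lit 174925152606) (nat_lit 2) (nat_lit 5) (nat_lit 4) (nat_lit 4) (nat_lit 2) (nat_lit 4) (nat_lit 313) (nat_lit 258) (nat_lit 149)) (XT.nd (nat_lit 78) (nat_lit 0) (nat_lit 0) (XT.lf (nat_lit 0) (nat_lit 10875047568) (nat_lit 76) (nat_lit 265671998880) (nat_lit 76) (nat_lit 194404570510) (nat_lit 1) (nat_lit 4) (nat_lit 2) (nat_lit 5) (nat_lit 2) (nat_lit 4) (nat_lit 314) (nat_lit 258) (nat_lit 148)) (XT.lf (nat_lit 0) (nat_lit 41063392901) (nat_lit 76)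 (nat_lit 268710812607) (nat_lit 76) (nat_lit 197442272414) (nat_lit 1) (nat_lit 4) (nat_lit 2) (nat_lit 5) (nat_lit 2) (nat_lit 4) (nat_lit 315) (nat_lit 258) (nat_lit 147))))))) (XT.nd (nat_lit 858) (nat_lit 0) (nat_lit 0) (XT.nd (nat_lit 390) (nat_lit 0) (nat_lit 0) (XT.nd (nat_lit 156) (nat_lit 0) (nat_lit 0) (XT.nd (nat_lit 78) (nat_lit 0) (nat_lit 0) (XT.lf (nat_lit 0) (nat_lit 73665925508) (nat_lit 76) (nat_lit 271993107144) (nat_lit 76) (nat_lit 200723537486) (nat_lit 1) (nat_lit 4) (nat_lit 2) (nat_lit 5) (nat_lit 2) (nat_lit 4) (nat_lit 316) (nat_lit 258) (nat_lit 146)) (XT.lf (nat_lit 0) (nat_lit 108875845585) (nat_lit 76) (nat_lit 275538333127) (nat_lit 76) (nat_lit 204267810259) (nat_lit 1) (nat_lit 4) (nat_lit 2) (nat_lit 5) (nat_lit 2) (nat_lit 4) (nat_lit 317) (nat_lit 258) (nat_lit 145))) (XT.nd (nat_lit 78) (nat_lit 0) (nat_lit 0) (XT.lf (nat_lit 0) (nat_lit 146901804508)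 (nat_lit 76) (nat_lit 279367499301) (nat_lit 76) (nat_lit 208096093832) (nat_lit 1) (nat_lit 4) (nat_lit 2) (nat_lit 5) (nat_lit 2) (nat_lit 4) (nat_lit 318) (nat_lit 258) (nat_lit 144)) (XT.nd (nat_lit 78) (nat_lit 0) (nat_lit 0) (XT.lf (nat_lit 0) (nat_lit 187969141293) (nat_lit 76) (nat_lit 283503297022) (nat_lit 76) (nat_lit 212231074330) (nat_lit 1) (nat_lit 4) (nat_lit 2) (nat_lit 5) (nat_lit 2) (nat_lit 4) (nat_lit 319) (nat_lit 258) (nat_lit 143)) (XT.lf (nat_lit 0) (nat_lit 232321217937) (nat_lit 76) (nat_lit 287970234720) (nat_lit 76) (nat_lit 216697255339) (nat_lit 1) (nat_lit 4) (nat_lit 2) (nat_lit 5) (nat_lit 2) (nat_lit 4) (nat_lit 320) (nat_lit 258) (nat_lit 142))))) (XT.nd (nat_lit 234) (nat_lit 0) (nat_lit 0) (XT.nd (nat_lit 78) (nat_lit 0) (nat_lit 0) (XT.lf (nat_lit 0) (nat_lit 280220861560) (nat_lit 76) (nat_lit 292794783137) (nat_lit 76) (nat_lit 221521103120)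 (nat_lit 1) (nat_lit 4) (nat_lit 2) (nat_lit 5) (nat_lit 2) (nat_lit 4) (nat_lit 321) (nat_lit 258) (nat_lit 141)) (XT.nd (nat_lit 78) (nat_lit 0) (nat_lit 0) (XT.lf (nat_lit 0) (nat_lit 331951921902) (nat_lit 76) (nat_lit 298005532190) (nat_lit 76) (nat_lit 226731203435) (nat_lit 1) (nat_lit 4) (nat_lit 2) (nat_lit 5) (nat_lit 2) (nat_lit 4) (nat_lit 322) (nat_lit 258) (nat_lit 140)) (XT.lf (nat_lit 0) (nat_lit 387820953395) (nat_lit 76) (nat_lit 303633360393) (nat_lit 76) (nat_lit 232358430954) (nat_lit 1) (nat_lit 4) (nat_lit 2) (nat_lit 5) (nat_lit 2) (nat_lit 4) (nat_lit 323) (nat_lit 258) (nat_lit 139)))) (XT.nd (nat_lit 78) (nat_lit 0) (nat_lit 0) (XT.lf (nat_lit 0) (nat_lit 448159031782) (nat_lit 76) (nat_lit 309711617837) (nat_lit 76) (nat_lit 238436132210) (nat_lit 1) (nat_lit 4) (nat_lit 2) (nat_lit 5) (nat_lit 2) (nat_lit 4) (nat_lit 324) (nat_lit 258) (nat_lit 138)) (XT.nd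 (nat_lit 78) (nat_lit 0) (nat_lit 0) (XT.lf (nat_lit 0) (nat_lit 513323716044) (nat_lit 76) (nat_lit 316276323826) (nat_lit 76) (nat_lit 245000323210) (nat_lit 1) (nat_lit 4) (nat_lit 2) (nat_lit 5) (nat_lit 2) (nat_lit 4) (nat_lit 325) (nat_lit 258) (nat_lit 137)) (XT.lf (nat_lit 0) (nat_lit 583701167274) (nat_lit 76) (nat_lit 323366380322) (nat_lit 76) (nat_lit 252089902864) (nat_lit 1) (nat_lit 4) (nat_lit 2) (nat_lit 5) (nat_lit 2) (nat_lit 4) (nat_lit 326) (nat_lit 258) (nat_lit 136)))))) (XT.nd (nat_lit 32370) (nat_lit 0) (nat_lit 1900) (XT.nd (nat_lit 156) (nat_lit 0) (nat_lit 0) (XT.nd (nat_lit 78) (nat_lit 0) (nat_lit 0) (XT.lf (nat_lit 0) (nat_lit 659708437035) (nat_lit 76) (nat_lit 331023802475) (nat_lit 76) (nat_lit 259746883497) (nat_lit 1) (nat_lit 4) (nat_lit 2) (nat_lit 5) (nat_lit 2) (nat_lit 4) (nat_lit 327) (nat_lit 258) (nat_lit 135)) (XT.lf (nat_lit 0) (nat_lit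 741795938777) (nat_lit 76) (nat_lit 339293967600) (nat_lit 76) (nat_lit 268016639807) (nat_lit 1) (nat_lit 4) (nat_lit 2) (nat_lit 5) (nat_lit 2) (nat_lit 4) (nat_lit 328) (nat_lit 258) (nat_lit 134))) (XT.nd (nat_lit 32058) (nat_lit 0) (nat_lit 2280) (XT.lf (nat_lit 0) (nat_lit 830450116955) (nat_lit 76) (nat_lit 348225884084) (nat_lit 76) (nat_lit 276948177758) (nat_lit 1) (nat_lit 4) (nat_lit 2) (nat_lit 5) (nat_lit 2) (nat_lit 4) (nat_lit 329) (nat_lit 258) (nat_lit 133)) (XT.nd (nat_lit 78) (nat_lit 0) (nat_lit 0) (XT.lf (nat_lit 0) (nat_lit 3947386343) (nat_lit 0) (nat_lit 3947386343) (nat_lit 380) (nat_lit 1086448499) (nat_lit 31) (nat_lit 5) (nat_lit 31) (nat_lit 3) (nat_lit 36) (nat_lit 3) (nat_lit 259) (nat_lit 259) (nat_lit 202)) (XT.lf (nat_lit 0) (nat_lit 15475593330) (nat_lit 0) (nat_lit 1115488916) (nat_lit 380) (nat_lit 2074521247) (nat_lit 31) (nat_lit 5) (nat_lit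 31) (nat_lit 3) (nat_lit 36) (nat_lit 3) (nat_lit 260) (nat_lit 259) (nat_lit 201))))) (XT.nd (nat_lit 234) (nat_lit 380) (nat_lit 0) (XT.nd (nat_lit 78) (nat_lit 0) (nat_lit 0) (XT.lf (nat_lit 76) (nat_lit 4293123060) (nat_lit 0) (nat_lit 13399327267) (nat_lit 456) (nat_lit 1713884616) (nat_lit 32) (nat_lit 5) (nat_lit 31) (nat_lit 5) (nat_lit 37) (nat_lit 5) (nat_lit 261) (nat_lit 259) (nat_lit 200)) (XT.nd (nat_lit 78) (nat_lit 0) (nat_lit 76) (XT.lf (nat_lit 76) (nat_lit 12515844757) (nat_lit 0) (nat_lit 6465748975) (nat_lit 456) (nat_lit 1216919111) (nat_lit 32) (nat_lit 5) (nat_lit 31) (nat_lit 5) (nat_lit 37) (nat_lit 5) (nat_lit 262) (nat_lit 259) (nat_lit 199)) (XT.lf (nat_lit 76) (nat_lit 323204916) (nat_lit 0) (nat_lit 20068532874) (nat_lit 456) (nat_lit 661046916) (nat_lit 33) (nat_lit 5) (nat_lit 32) (nat_lit 5) (nat_lit 38) (nat_lit 5) (nat_lit 263) (nat_lit 259) (nat_lit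 198)))) (XT.nd (nat_lit 78) (nat_lit 0) (nat_lit 0) (XT.lf (nat_lit 0) (nat_lit 311628381) (nat_lit 456) (nat_lit 12735357096) (nat_lit 532) (nat_lit 8899113874) (nat_lit 26) (nat_lit 5) (nat_lit 32) (nat_lit 5) (nat_lit 33) (nat_lit 5) (nat_lit 264) (nat_lit 259) (nat_lit 197)) (XT.nd (nat_lit 78) (nat_lit 0) (nat_lit 76) (XT.lf (nat_lit 0) (nat_lit 1313294075) (nat_lit 456) (nat_lit 4129223748) (nat_lit 532) (nat_lit 17468155026) (nat_lit 26) (nat_lit 5) (nat_lit 32) (nat_lit 5) (nat_lit 33) (nat_lit 5) (nat_lit 265) (nat_lit 259) (nat_lit 196)) (XT.lf (nat_lit 0) (nat_lit 2583553983) (nat_lit 456) (nat_lit 18585917647) (nat_lit 76) (nat_lit 2767973434) (nat_lit 27) (nat_lit 5) (nat_lit 33) (nat_lit 5) (nat_lit 28) (nat_lit 5) (nat_lit 266) (nat_lit 259) (nat_lit 195))))))))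
noncomputable def xc85 : XT := (XT.nd (nat_lit 1716) (nat_lit 304) (nat_lit 0) (XT.nd (nat_lit 858) (nat_lit 608) (nat_lit 0) (XT.nd (nat_lit 390) (nat_lit 380) (nat_lit 0) (XT.nd (nat_lit 156) (nat_lit 228) (nat_lit 0) (XT.nd (nat_lit 78) (nat_lit 380) (nat_lit 0) (XT.lf (nat_lit 0) (nat_lit 4201213740) (nat_lit 456) (nat_lit 9366557418) (nat_lit 76) (nat_lit 11459027159) (nat_lit 27) (nat_lit 5) (nat_lit 33) (nat_lit 5) (nat_lit 28) (nat_lit 5) (nat_lit 267) (nat_lit 259) (nat_lit 194)) (XT.lf (nat_lit 0) (nat_lit 611199349) (nat_lit 380) (nat_lit 5341214238) (nat_lit 456) (nat_lit 20250650119) (nat_lit 22) (nat_lit 5) (nat_lit 27) (nat_lit 5) (nat_lit 28) (nat_lit 5) (nat_lit 268) (nat_lit 259) (nat_lit 193))) (XT.nd (nat_lit 78) (nat_lit 228) (nat_lit 0) (XT.lf (nat_lit 0) (nat_lit 8181676029) (nat_lit 456) (nat_lit 15635335803) (nat_lit 76) (nat_lit 3629468260) (nat_lit 22) (nat_lit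 5) (nat_lit 28) (nat_lit 5) (nat_lit 23) (nat_lit 5) (nat_lit 269) (nat_lit 259) (nat_lit 192)) (XT.nd (nat_lit 78) (nat_lit 228) (nat_lit 0) (XT.lf (nat_lit 0) (nat_lit 10718749295) (nat_lit 456) (nat_lit 5030630802) (nat_lit 76) (nat_lit 13029712748) (nat_lit 22) (nat_lit 5) (nat_lit 28) (nat_lit 5) (nat_lit 23) (nat_lit 5) (nat_lit 270) (nat_lit 259) (nat_lit 191)) (XT.lf (nat_lit 0) (nat_lit 6751275831) (nat_lit 228) (nat_lit 6861304077) (nat_lit 304) (nat_lit 16593506059) (nat_lit 19) (nat_lit 5) (nat_lit 22) (nat_lit 5) (nat_lit 23) (nat_lit 5) (nat_lit 271) (nat_lit 259) (nat_lit 190))))) (XT.nd (nat_lit 234) (nat_lit 228) (nat_lit 0) (XT.nd (nat_lit 78) (nat_lit 152) (nat_lit 0) (XT.lf (nat_lit 0) (nat_lit 16936717735) (nat_lit 304) (nat_lit 12053204730) (nat_lit 76) (nat_lit 2741481152) (nat_lit 19) (nat_lit 5) (nat_lit 23) (nat_lit 5) (nat_lit 20) (nat_lit 5) (nat_lit 272)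 (nat_lit 259) (nat_lit 189)) (XT.nd (nat_lit 78) (nat_lit 0) (nat_lit 0) (XT.lf (nat_lit 0) (nat_lit 77501366) (nat_lit 152) (nat_lit 20621806654) (nat_lit 228) (nat_lit 12665700960) (nat_lit 17) (nat_lit 5) (nat_lit 19) (nat_lit 5) (nat_lit 20) (nat_lit 5) (nat_lit 273) (nat_lit 259) (nat_lit 188)) (XT.lf (nat_lit 0) (nat_lit 13855671374) (nat_lit 152) (nat_lit 11229588149) (nat_lit 228) (nat_lit 10018314204) (nat_lit 17) (nat_lit 5) (nat_lit 19) (nat_lit 5) (nat_lit 20) (nat_lit 5) (nat_lit 274) (nat_lit 259) (nat_lit 187)))) (XT.nd (nat_lit 78) (nat_lit 228) (nat_lit 0) (XT.lf (nat_lit 0) (nat_lit 28728253306) (nat_lit 152) (nat_lit 1087165338) (nat_lit 228) (nat_lit 7166393373) (nat_lit 17) (nat_lit 5) (nat_lit 19) (nat_lit 5) (nat_lit 20) (nat_lit 5) (nat_lit 275) (nat_lit 259) (nat_lit 186)) (XT.nd (nat_lit 78) (nat_lit 76) (nat_lit 0) (XT.lf (nat_lit 0) (nat_lit 5826736720)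 (nat_lit 152) (nat_lit 29468479469) (nat_lit 228) (nat_lit 3685445944) (nat_lit 15) (nat_lit 5) (nat_lit 17) (nat_lit 5) (nat_lit 18) (nat_lit 5) (nat_lit 276) (nat_lit 259) (nat_lit 185)) (XT.lf (nat_lit 0) (nat_lit 323920818) (nat_lit 228) (nat_lit 19662351091) (nat_lit 76) (nat_lit 21132758052) (nat_lit 14) (nat_lit 5) (nat_lit 17) (nat_lit 5) (nat_lit 15) (nat_lit 5) (nat_lit 277) (nat_lit 259) (nat_lit 184)))))) (XT.nd (nat_lit 390) (nat_lit 304) (nat_lit 0) (XT.nd (nat_lit 156) (nat_lit 152) (nat_lit 0) (XT.nd (nat_lit 78) (nat_lit 152) (nat_lit 0) (XT.lf (nat_lit 0) (nat_lit 4449258339) (nat_lit 228) (nat_lit 5194536392) (nat_lit 76) (nat_lit 33777508258) (nat_lit 14) (nat_lit 5) (nat_lit 17) (nat_lit 5) (nat_lit 15) (nat_lit 5) (nat_lit 278) (nat_lit 259) (nat_lit 183)) (XT.lf (nat_lit 0) (nat_lit 9206788978) (nat_lit 228) (nat_lit 34957830044) (nat_lit 76) (nat_lit 1719002900)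 (nat_lit 12) (nat_lit 5) (nat_lit 15) (nat_lit 5) (nat_lit 13) (nat_lit 5) (nat_lit 279) (nat_lit 259) (nat_lit 182))) (XT.nd (nat_lit 78) (nat_lit 152) (nat_lit 0) (XT.lf (nat_lit 0) (nat_lit 14736068291) (nat_lit 228) (nat_lit 20161616228) (nat_lit 76) (nat_lit 13613984740) (nat_lit 12) (nat_lit 5) (nat_lit 15) (nat_lit 5) (nat_lit 13) (nat_lit 5) (nat_lit 280) (nat_lit 259) (nat_lit 181)) (XT.nd (nat_lit 78) (nat_lit 152) (nat_lit 0) (XT.lf (nat_lit 0) (nat_lit 20703005859) (nat_lit 228) (nat_lit 4188223059) (nat_lit 76) (nat_lit 26459138214) (nat_lit 12) (nat_lit 5) (nat_lit 15) (nat_lit 5) (nat_lit 13) (nat_lit 5) (nat_lit 281) (nat_lit 259) (nat_lit 180)) (XT.lf (nat_lit 0) (nat_lit 13744565435) (nat_lit 152) (nat_lit 13728953007) (nat_lit 228) (nat_lit 26916574446) (nat_lit 10) (nat_lit 5) (nat_lit 12) (nat_lit 5) (nat_lit 13) (nat_lit 5) (nat_lit 282) (nat_lit 259) (nat_lit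 179))))) (XT.nd (nat_lit 234) (nat_lit 228) (nat_lit 0) (XT.nd (nat_lit 78) (nat_lit 76) (nat_lit 0) (XT.lf (nat_lit 0) (nat_lit 33344282793) (nat_lit 152) (nat_lit 1551745361) (nat_lit 228) (nat_lit 22768167516) (nat_lit 10) (nat_lit 5) (nat_lit 12) (nat_lit 5) (nat_lit 13) (nat_lit 5) (nat_lit 283) (nat_lit 259) (nat_lit 178)) (XT.nd (nat_lit 78) (nat_lit 76) (nat_lit 0) (XT.lf (nat_lit 0) (nat_lit 43187422459) (nat_lit 228) (nat_lit 6972962148) (nat_lit 76) (nat_lit 11017860784) (nat_lit 10) (nat_lit 5) (nat_lit 13) (nat_lit 5) (nat_lit 11) (nat_lit 4) (nat_lit 284) (nat_lit 259) (nat_lit 177)) (XT.lf (nat_lit 0) (nat_lit 12333073735) (nat_lit 76) (nat_lit 40142370571) (nat_lit 152) (nat_lit 12471333043) (nat_lit 9) (nat_lit 5) (nat_lit 10) (nat_lit 5) (nat_lit 11) (nat_lit 4) (nat_lit 285) (nat_lit 259) (nat_lit 176)))) (XT.nd (nat_lit 78) (nat_lit 228) (nat_lit 0) (XT.lf (nat_lit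 0) (nat_lit 33574969484) (nat_lit 76) (nat_lit 29118733800) (nat_lit 152) (nat_lit 6308134743) (nat_lit 9) (nat_lit 5) (nat_lit 10) (nat_lit 5) (nat_lit 11) (nat_lit 4) (nat_lit 286) (nat_lit 259) (nat_lit 175)) (XT.nd (nat_lit 78) (nat_lit 152) (nat_lit 0) (XT.lf (nat_lit 0) (nat_lit 327401116) (nat_lit 152) (nat_lit 16878449338) (nat_lit 76) (nat_lit 56175066326) (nat_lit 8) (nat_lit 5) (nat_lit 10) (nat_lit 5) (nat_lit 9) (nat_lit 5) (nat_lit 287) (nat_lit 259) (nat_lit 174)) (XT.lf (nat_lit 0) (nat_lit 3142579572) (nat_lit 152) (nat_lit 4082917040) (nat_lit 228) (nat_lit 70865933119) (nat_lit 6) (nat_lit 5) (nat_lit 8) (nat_lit 5) (nat_lit 9) (nat_lit 5) (nat_lit 288) (nat_lit 259) (nat_lit 173))))))) (XT.nd (nat_lit 858) (nat_lit 152) (nat_lit 0) (XT.nd (nat_lit 390) (nat_lit 76) (nat_lit 0) (XT.nd (nat_lit 156) (nat_lit 76) (nat_lit 0) (XT.nd (nat_lit 78) (nat_lit 0) (nat_lit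 0) (XT.lf (nat_lit 0) (nat_lit 15388595780) (nat_lit 228) (nat_lit 57676046904) (nat_lit 76) (nat_lit 10057104572) (nat_lit 6) (nat_lit 5) (nat_lit 9) (nat_lit 5) (nat_lit 7) (nat_lit 4) (nat_lit 289) (nat_lit 259) (nat_lit 172)) (XT.lf (nat_lit 0) (nat_lit 24308034791) (nat_lit 228) (nat_lit 39131837198) (nat_lit 76) (nat_lit 25106369675) (nat_lit 6) (nat_lit 5) (nat_lit 9) (nat_lit 5) (nat_lit 7) (nat_lit 4) (nat_lit 290) (nat_lit 259) (nat_lit 171))) (XT.nd (nat_lit 78) (nat_lit 76) (nat_lit 0) (XT.lf (nat_lit 0) (nat_lit 33938475325) (nat_lit 228) (nat_lit 19108135178) (nat_lit 76) (nat_lit 41358303142) (nat_lit 6) (nat_lit 5) (nat_lit 9) (nat_lit 5) (nat_lit 7) (nat_lit 4) (nat_lit 291) (nat_lit 259) (nat_lit 170)) (XT.nd (nat_lit 78) (nat_lit 0) (nat_lit 0) (XT.lf (nat_lit 0) (nat_lit 2646086073) (nat_lit 76) (nat_lit 41754539023) (nat_lit 152) (nat_lit 56326765090) (nat_lit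 5) (nat_lit 5) (nat_lit 6) (nat_lit 5) (nat_lit 7) (nat_lit 4) (nat_lit 292) (nat_lit 259) (nat_lit 169)) (XT.lf (nat_lit 0) (nat_lit 27223691539) (nat_lit 76) (nat_lit 28996228506) (nat_lit 152) (nat_lit 51294142721) (nat_lit 5) (nat_lit 5) (nat_lit 6) (nat_lit 5) (nat_lit 7) (nat_lit 4) (nat_lit 293) (nat_lit 259) (nat_lit 168))))) (XT.nd (nat_lit 234) (nat_lit 76) (nat_lit 0) (XT.nd (nat_lit 78) (nat_lit 0) (nat_lit 0) (XT.lf (nat_lit 0) (nat_lit 53764125753) (nat_lit 76) (nat_lit 15218524429) (nat_lit 152) (nat_lit 45861198548) (nat_lit 5) (nat_lit 5) (nat_lit 6) (nat_lit 5) (nat_lit 7) (nat_lit 4) (nat_lit 294) (nat_lit 259) (nat_lit 167)) (XT.nd (nat_lit 78) (nat_lit 0) (nat_lit 0) (XT.lf (nat_lit 0) (nat_lit 82424665362) (nat_lit 76) (nat_lit 339781138) (nat_lit 152) (nat_lit 39995737344) (nat_lit 5) (nat_lit 5) (nat_lit 6) (nat_lit 5) (nat_lit 7) (nat_lit 4) (nat_lit 295)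 (nat_lit 259) (nat_lit 166)) (XT.lf (nat_lit 0) (nat_lit 98025241811) (nat_lit 152) (nat_lit 18313092033) (nat_lit 0) (nat_lit 14941384849) (nat_lit 5) (nat_lit 5) (nat_lit 7) (nat_lit 4) (nat_lit 5) (nat_lit 4) (nat_lit 296) (nat_lit 259) (nat_lit 165)))) (XT.nd (nat_lit 78) (nat_lit 0) (nat_lit 0) (XT.lf (nat_lit 0) (nat_lit 5746989553) (nat_lit 76) (nat_lit 108905253921) (nat_lit 76) (nat_lit 25816954092) (nat_lit 4) (nat_lit 4) (nat_lit 5) (nat_lit 5) (nat_lit 5) (nat_lit 4) (nat_lit 297) (nat_lit 259) (nat_lit 164)) (XT.nd (nat_lit 78) (nat_lit 0) (nat_lit 0) (XT.lf (nat_lit 0) (nat_lit 32770629165) (nat_lit 76) (nat_lit 100337850615) (nat_lit 76) (nat_lit 17245437021) (nat_lit 4) (nat_lit 4) (nat_lit 5) (nat_lit 5) (nat_lit 5) (nat_lit 4) (nat_lit 298) (nat_lit 259) (nat_lit 163)) (XT.lf (nat_lit 0) (nat_lit 61953631915) (nat_lit 76) (nat_lit 91086066521) (nat_lit 76) (nat_lit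 7989843885) (nat_lit 4) (nat_lit 4) (nat_lit 5) (nat_lit 5) (nat_lit 5) (nat_lit 4) (nat_lit 299) (nat_lit 259) (nat_lit 162)))))) (XT.nd (nat_lit 390) (nat_lit 0) (nat_lit 0) (XT.nd (nat_lit 156) (nat_lit 76) (nat_lit 0) (XT.nd (nat_lit 78) (nat_lit 0) (nat_lit 0) (XT.lf (nat_lit 0) (nat_lit 1904391400) (nat_lit 152) (nat_lit 79138615414) (nat_lit 76) (nat_lit 91512473281) (nat_lit 3) (nat_lit 5) (nat_lit 5) (nat_lit 5) (nat_lit 4) (nat_lit 4) (nat_lit 300) (nat_lit 259) (nat_lit 161)) (XT.lf (nat_lit 0) (nat_lit 12157166394) (nat_lit 152) (nat_lit 57816109066) (nat_lit 76) (nat_lit 115013728250) (nat_lit 3) (nat_lit 5) (nat_lit 5) (nat_lit 5) (nat_lit 4) (nat_lit 4) (nat_lit 301) (nat_lit 259) (nat_lit 160))) (XT.nd (nat_lit 78) (nat_lit 76) (nat_lit 0) (XT.lf (nat_lit 0) (nat_lit 23228922631) (nat_lit 152) (nat_lit 34789879833) (nat_lit 76) (nat_lit 140394351464) (nat_lit 3) (nat_lit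 5) (nat_lit 5) (nat_lit 5) (nat_lit 4) (nat_lit 4) (nat_lit 302) (nat_lit 259) (nat_lit 159)) (XT.nd (nat_lit 78) (nat_lit 76) (nat_lit 0) (XT.lf (nat_lit 0) (nat_lit 35185270519) (nat_lit 152) (nat_lit 9923475985) (nat_lit 76) (nat_lit 167804746618) (nat_lit 3) (nat_lit 5) (nat_lit 5) (nat_lit 5) (nat_lit 4) (nat_lit 4) (nat_lit 303) (nat_lit 259) (nat_lit 158)) (XT.lf (nat_lit 0) (nat_lit 17821986908) (nat_lit 76) (nat_lit 30703694795) (nat_lit 152) (nat_lit 180013977988) (nat_lit 2) (nat_lit 5) (nat_lit 3) (nat_lit 5) (nat_lit 4) (nat_lit 4) (nat_lit 304) (nat_lit 259) (nat_lit 157))))) (XT.nd (nat_lit 234) (nat_lit 0) (nat_lit 0) (XT.nd (nat_lit 78) (nat_lit 0) (nat_lit 0) (XT.lf (nat_lit 0) (nat_lit 48349707575) (nat_lit 76) (nat_lit 14853916921) (nat_lit 152) (nat_lit 182190675522) (nat_lit 2) (nat_lit 5) (nat_lit 3) (nat_lit 5) (nat_lit 4) (nat_lit 4) (nat_lit 305) (nat_lit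 259) (nat_lit 156)) (XT.nd (nat_lit 78) (nat_lit 0) (nat_lit 0) (XT.lf (nat_lit 0) (nat_lit 79109281744) (nat_lit 152) (nat_lit 182333782952) (nat_lit 0) (nat_lit 2149972561) (nat_lit 2) (nat_lit 5) (nat_lit 4) (nat_lit 4) (nat_lit 2) (nat_lit 4) (nat_lit 306) (nat_lit 259) (nat_lit 155)) (XT.lf (nat_lit 0) (nat_lit 96672312733) (nat_lit 152) (nat_lit 166833472682) (nat_lit 0) (nat_lit 19711098080) (nat_lit 2) (nat_lit 5) (nat_lit 4) (nat_lit 4) (nat_lit 2) (nat_lit 4) (nat_lit 307) (nat_lit 259) (nat_lit 154)))) (XT.nd (nat_lit 78) (nat_lit 0) (nat_lit 0) (XT.lf (nat_lit 0) (nat_lit 115639557624) (nat_lit 152) (nat_lit 150094570882) (nat_lit 0) (nat_lit 38676578648) (nat_lit 2) (nat_lit 5) (nat_lit 4) (nat_lit 4) (nat_lit 2) (nat_lit 4) (nat_lit 308) (nat_lit 259) (nat_lit 153)) (XT.nd (nat_lit 78) (nat_lit 0) (nat_lit 0) (XT.lf (nat_lit 0) (nat_lit 136123414907) (nat_lit 152) (nat_lit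 132017884062) (nat_lit 0) (nat_lit 59158802297) (nat_lit 2) (nat_lit 5) (nat_lit 4) (nat_lit 4) (nat_lit 2) (nat_lit 4) (nat_lit 309) (nat_lit 259) (nat_lit 152)) (XT.lf (nat_lit 0) (nat_lit 158245270400) (nat_lit 152) (nat_lit 112496291114) (nat_lit 0) (nat_lit 81279145168) (nat_lit 2) (nat_lit 5) (nat_lit 4) (nat_lit 4) (nat_lit 2) (nat_lit 4) (nat_lit 310) (nat_lit 259) (nat_lit 151))))))))
noncomputable def xc86 : XT := (XT.nd (nat_lit 33852) (nat_lit 0) (nat_lit 684) (XT.nd (nat_lit 858) (nat_lit 0) (nat_lit 0) (XT.nd (nat_lit 390) (nat_lit 0) (nat_lit 0) (XT.nd (nat_lit 156) (nat_lit 76) (nat_lit 0) (XT.nd (nat_lit 78) (nat_lit 0) (nat_lit 0) (XT.lf (nat_lit 0) (nat_lit 182136216583) (nat_lit 152) (nat_lit 91414108524) (nat_lit 0) (nat_lit 105168690774) (nat_lit 2) (nat_lit 5) (nat_lit 4) (nat_lit 4) (nat_lit 2) (nat_lit 4) (nat_lit 311) (nat_lit 259) (nat_lit 150)) (XT.lf (nat_lit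 0) (nat_lit 207937829432) (nat_lit 152) (nat_lit 68646404839) (nat_lit 0) (nat_lit 130969006792) (nat_lit 2) (nat_lit 5) (nat_lit 4) (nat_lit 4) (nat_lit 2) (nat_lit 4) (nat_lit 312) (nat_lit 259) (nat_lit 149))) (XT.nd (nat_lit 78) (nat_lit 76) (nat_lit 0) (XT.lf (nat_lit 0) (nat_lit 235803007393) (nat_lit 152) (nat_lit 44058260335) (nat_lit 0) (nat_lit 158832983985) (nat_lit 2) (nat_lit 5) (nat_lit 4) (nat_lit 4) (nat_lit 2) (nat_lit 4) (nat_lit 313) (nat_lit 259) (nat_lit 148)) (XT.nd (nat_lit 78) (nat_lit 76) (nat_lit 0) (XT.lf (nat_lit 0) (nat_lit 265896877448) (nat_lit 152) (nat_lit 17503967488) (nat_lit 0) (nat_lit 188925742216) (nat_lit 2) (nat_lit 5) (nat_lit 4) (nat_lit 4) (nat_lit 2) (nat_lit 4) (nat_lit 314) (nat_lit 259) (nat_lit 147)) (XT.lf (nat_lit 0) (nat_lit 11762226689) (nat_lit 76) (nat_lit 286918428785) (nat_lit 76) (nat_lit 209946264088) (nat_lit 1) (nat_lit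 4) (nat_lit 2) (nat_lit 5) (nat_lit 2) (nat_lit 4) (nat_lit 315) (nat_lit 259) (nat_lit 146))))) (XT.nd (nat_lit 234) (nat_lit 0) (nat_lit 0) (XT.nd (nat_lit 78) (nat_lit 0) (nat_lit 0) (XT.lf (nat_lit 0) (nat_lit 44364367403) (nat_lit 76) (nat_lit 290200890574) (nat_lit 76) (nat_lit 213227772667) (nat_lit 1) (nat_lit 4) (nat_lit 2) (nat_lit 5) (nat_lit 2) (nat_lit 4) (nat_lit 316) (nat_lit 259) (nat_lit 145)) (XT.nd (nat_lit 78) (nat_lit 0) (nat_lit 0) (XT.lf (nat_lit 0) (nat_lit 79573924614) (nat_lit 76) (nat_lit 293746271418) (nat_lit 76) (nat_lit 216772270911) (nat_lit 1) (nat_lit 4) (nat_lit 2) (nat_lit 5) (nat_lit 2) (nat_lit 4) (nat_lit 317) (nat_lit 259) (nat_lit 144)) (XT.lf (nat_lit 0) (nat_lit 117599547551) (nat_lit 76) (nat_lit 297575580983) (nat_lit 76) (nat_lit 220600763253) (nat_lit 1) (nat_lit 4) (nat_lit 2) (nat_lit 5) (nat_lit 2) (nat_lit 4) (nat_lit 318) (nat_lit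 259) (nat_lit 143)))) (XT.nd (nat_lit 78) (nat_lit 0) (nat_lit 0) (XT.lf (nat_lit 0) (nat_lit 158666573238) (nat_lit 76) (nat_lit 301711511473) (nat_lit 76) (nat_lit 224735937054) (nat_lit 1) (nat_lit 4) (nat_lit 2) (nat_lit 5) (nat_lit 2) (nat_lit 4) (nat_lit 319) (nat_lit 259) (nat_lit 142)) (XT.nd (nat_lit 78) (nat_lit 0) (nat_lit 0) (XT.lf (nat_lit 0) (nat_lit 203018361828) (nat_lit 76) (nat_lit 306178572105) (nat_lit 76) (nat_lit 229202297050) (nat_lit 1) (nat_lit 4) (nat_lit 2) (nat_lit 5) (nat_lit 2) (nat_lit 4) (nat_lit 320) (nat_lit 259) (nat_lit 141)) (XT.lf (nat_lit 0) (nat_lit 250917738734) (nat_lit 76) (nat_lit 311003234351) (nat_lit 76) (nat_lit 234026310557) (nat_lit 1) (nat_lit 4) (nat_lit 2) (nat_lit 5) (nat_lit 2) (nat_lit 4) (nat_lit 321) (nat_lit 259) (nat_lit 140)))))) (XT.nd (nat_lit 390) (nat_lit 0) (nat_lit 0) (XT.nd (nat_lit 156) (nat_lit 0) (nat_lit 0) (XT.nd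 (nat_lit 78) (nat_lit 0) (nat_lit 0) (XT.lf (nat_lit 0) (nat_lit 302648552117) (nat_lit 76) (nat_lit 316214088801) (nat_lit 76) (nat_lit 239236564324) (nat_lit 1) (nat_lit 4) (nat_lit 2) (nat_lit 5) (nat_lit 2) (nat_lit 4) (nat_lit 322) (nat_lit 259) (nat_lit 139)) (XT.lf (nat_lit 0) (nat_lit 358517354943) (nat_lit 76) (nat_lit 321842014592) (nat_lit 76) (nat_lit 244863933927) (nat_lit 1) (nat_lit 4) (nat_lit 2) (nat_lit 5) (nat_lit 2) (nat_lit 4) (nat_lit 323) (nat_lit 259) (nat_lit 138))) (XT.nd (nat_lit 78) (nat_lit 0) (nat_lit 0) (XT.lf (nat_lit 0) (nat_lit 418855221601) (nat_lit 76) (nat_lit 327920362397) (nat_lit 76) (nat_lit 250941766742) (nat_lit 1) (nat_lit 4) (nat_lit 2) (nat_lit 5) (nat_lit 2) (nat_lit 4) (nat_lit 324) (nat_lit 259) (nat_lit 137)) (XT.nd (nat_lit 78) (nat_lit 0) (nat_lit 0) (XT.lf (nat_lit 0) (nat_lit 484019709819) (nat_lit 76) (nat_lit 334485152053) (nat_lit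 76) (nat_lit 257506079557) (nat_lit 1) (nat_lit 4) (nat_lit 2) (nat_lit 5) (nat_lit 2) (nat_lit 4) (nat_lit 325) (nat_lit 259) (nat_lit 136)) (XT.lf (nat_lit 0) (nat_lit 554396979526) (nat_lit 76) (nat_lit 341575286019) (nat_lit 76) (nat_lit 264595772002) (nat_lit 1) (nat_lit 4) (nat_lit 2) (nat_lit 5) (nat_lit 2) (nat_lit 4) (nat_lit 326) (nat_lit 259) (nat_lit 135))))) (XT.nd (nat_lit 32370) (nat_lit 0) (nat_lit 2280) (XT.nd (nat_lit 78) (nat_lit 0) (nat_lit 0) (XT.lf (nat_lit 0) (nat_lit 630404081210) (nat_lit 76) (nat_lit 349232779903) (nat_lit 76) (nat_lit 272252857071) (nat_lit 1) (nat_lit 4) (nat_lit 2) (nat_lit 5) (nat_lit 2) (nat_lit 4) (nat_lit 327) (nat_lit 259) (nat_lit 134)) (XT.nd (nat_lit 32214) (nat_lit 0) (nat_lit 2280) (XT.lf (nat_lit 0) (nat_lit 712491427326) (nat_lit 76) (nat_lit 357503011445) (nat_lit 76) (nat_lit 280522710081) (nat_lit 1) (nat_lit 4) (nat_lit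 2) (nat_lit 5) (nat_lit 2) (nat_lit 4) (nat_lit 328) (nat_lit 259) (nat_lit 133)) (XT.lf (nat_lit 0) (nat_lit 4346111068) (nat_lit 0) (nat_lit 4346111068) (nat_lit 380) (nat_lit 992529016) (nat_lit 31) (nat_lit 5) (nat_lit 31) (nat_lit 3) (nat_lit 36) (nat_lit 3) (nat_lit 260) (nat_lit 260) (nat_lit 200)))) (XT.nd (nat_lit 78) (nat_lit 0) (nat_lit 0) (XT.lf (nat_lit 0) (nat_lit 16867221939) (nat_lit 0) (nat_lit 1358309172) (nat_lit 380) (nat_lit 1905602644) (nat_lit 31) (nat_lit 5) (nat_lit 31) (nat_lit 3) (nat_lit 36) (nat_lit 3) (nat_lit 261) (nat_lit 260) (nat_lit 199)) (XT.nd (nat_lit 78) (nat_lit 0) (nat_lit 0) (XT.lf (nat_lit 76) (nat_lit 4816882333) (nat_lit 0) (nat_lit 14576289962) (nat_lit 456) (nat_lit 1539931300) (nat_lit 32) (nat_lit 5) (nat_lit 31) (nat_lit 5) (nat_lit 37) (nat_lit 5) (nat_lit 262) (nat_lit 260) (nat_lit 198)) (XT.lf (nat_lit 76) (nat_lit 13684065512)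 (nat_lit 0) (nat_lit 7080246406) (nat_lit 456) (nat_lit 1026250338) (nat_lit 32) (nat_lit 5) (nat_lit 31) (nat_lit 5) (nat_lit 37) (nat_lit 5) (nat_lit 263) (nat_lit 260) (nat_lit 197))))))) (XT.nd (nat_lit 858) (nat_lit 532) (nat_lit 0) (XT.nd (nat_lit 390) (nat_lit 684) (nat_lit 0) (XT.nd (nat_lit 156) (nat_lit 0) (nat_lit 0) (XT.nd (nat_lit 78) (nat_lit 456) (nat_lit 0) (XT.lf (nat_lit 76) (nat_lit 537295464) (nat_lit 0) (nat_lit 21732764053) (nat_lit 456) (nat_lit 444692719) (nat_lit 33) (nat_lit 5) (nat_lit 32) (nat_lit 5) (nat_lit 38) (nat_lit 5) (nat_lit 264) (nat_lit 260) (nat_lit 196)) (XT.lf (nat_lit 0) (nat_lit 573382335) (nat_lit 456) (nat_lit 13565283607) (nat_lit 532) (nat_lit 9542035006) (nat_lit 26) (nat_lit 5) (nat_lit 32) (nat_lit 5) (nat_lit 33) (nat_lit 5) (nat_lit 265) (nat_lit 260) (nat_lit 195))) (XT.nd (nat_lit 78) (nat_lit 0) (nat_lit 76) (XT.lf (nat_lit 0)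 (nat_lit 1637638790) (nat_lit 456) (nat_lit 4284652336) (nat_lit 532) (nat_lit 18801711152) (nat_lit 26) (nat_lit 5) (nat_lit 32) (nat_lit 5) (nat_lit 33) (nat_lit 5) (nat_lit 266) (nat_lit 260) (nat_lit 194)) (XT.nd (nat_lit 78) (nat_lit 0) (nat_lit 0) (XT.lf (nat_lit 0) (nat_lit 2996494916) (nat_lit 456) (nat_lit 19883022074) (nat_lit 76) (nat_lit 2954588053) (nat_lit 27) (nat_lit 5) (nat_lit 33) (nat_lit 5) (nat_lit 28) (nat_lit 5) (nat_lit 267) (nat_lit 260) (nat_lit 193)) (XT.lf (nat_lit 0) (nat_lit 4728289185) (nat_lit 456) (nat_lit 9940169989) (nat_lit 76) (nat_lit 12343505576) (nat_lit 27) (nat_lit 5) (nat_lit 33) (nat_lit 5) (nat_lit 28) (nat_lit 5) (nat_lit 268) (nat_lit 260) (nat_lit 192))))) (XT.nd (nat_lit 234) (nat_lit 380) (nat_lit 0) (XT.nd (nat_lit 78) (nat_lit 0) (nat_lit 0) (XT.lf (nat_lit 0) (nat_lit 831358914) (nat_lit 380) (nat_lit 5778198456) (nat_lit 456) (nat_lit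 21673702077) (nat_lit 22) (nat_lit 5) (nat_lit 27) (nat_lit 5) (nat_lit 28) (nat_lit 5) (nat_lit 269) (nat_lit 260) (nat_lit 191)) (XT.nd (nat_lit 78) (nat_lit 0) (nat_lit 0) (XT.lf (nat_lit 0) (nat_lit 9003541335) (nat_lit 456) (nat_lit 16712509012) (nat_lit 76) (nat_lit 3911304895) (nat_lit 22) (nat_lit 5) (nat_lit 28) (nat_lit 5) (nat_lit 23) (nat_lit 5) (nat_lit 270) (nat_lit 260) (nat_lit 190)) (XT.lf (nat_lit 0) (nat_lit 11731185556) (nat_lit 456) (nat_lit 5272290845) (nat_lit 76) (nat_lit 14064200114) (nat_lit 22) (nat_lit 5) (nat_lit 28) (nat_lit 5) (nat_lit 23) (nat_lit 5) (nat_lit 271) (nat_lit 260) (nat_lit 189)))) (XT.nd (nat_lit 78) (nat_lit 152) (nat_lit 0) (XT.lf (nat_lit 0) (nat_lit 7448097675) (nat_lit 228) (nat_lit 7400717294) (nat_lit 304) (nat_lit 17760730646) (nat_lit 19) (nat_lit 5) (nat_lit 22) (nat_lit 5) (nat_lit 23) (nat_lit 5) (nat_lit 272) (nat_lit 260)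 (nat_lit 188)) (XT.nd (nat_lit 78) (nat_lit 152) (nat_lit 0) (XT.lf (nat_lit 0) (nat_lit 18428189348) (nat_lit 304) (nat_lit 12860499307) (nat_lit 76) (nat_lit 2969148094) (nat_lit 19) (nat_lit 5) (nat_lit 23) (nat_lit 5) (nat_lit 20) (nat_lit 5) (nat_lit 273) (nat_lit 260) (nat_lit 187)) (XT.lf (nat_lit 0) (nat_lit 236689561) (nat_lit 152) (nat_lit 22248663018) (nat_lit 228) (nat_lit 13537378364) (nat_lit 17) (nat_lit 5) (nat_lit 19) (nat_lit 5) (nat_lit 20) (nat_lit 5) (nat_lit 274) (nat_lit 260) (nat_lit 186)))))) (XT.nd (nat_lit 390) (nat_lit 304) (nat_lit 0) (XT.nd (nat_lit 156) (nat_lit 228) (nat_lit 0) (XT.nd (nat_lit 78) (nat_lit 0) (nat_lit 0) (XT.lf (nat_lit 0) (nat_lit 15105780718) (nat_lit 152) (nat_lit 12106762453) (nat_lit 228) (nat_lit 10688687977) (nat_lit 17) (nat_lit 5) (nat_lit 19) (nat_lit 5) (nat_lit 20) (nat_lit 5) (nat_lit 275) (nat_lit 260) (nat_lit 185)) (XT.lf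 (nat_lit 0) (nat_lit 31157676195) (nat_lit 152) (nat_lit 1154515650) (nat_lit 228) (nat_lit 7618323952) (nat_lit 17) (nat_lit 5) (nat_lit 19) (nat_lit 5) (nat_lit 20) (nat_lit 5) (nat_lit 276) (nat_lit 260) (nat_lit 184))) (XT.nd (nat_lit 78) (nat_lit 76) (nat_lit 0) (XT.lf (nat_lit 0) (nat_lit 6429849764) (nat_lit 152) (nat_lit 31795992433) (nat_lit 228) (nat_lit 3863862205) (nat_lit 15) (nat_lit 5) (nat_lit 17) (nat_lit 5) (nat_lit 18) (nat_lit 5) (nat_lit 277) (nat_lit 260) (nat_lit 183)) (XT.nd (nat_lit 78) (nat_lit 0) (nat_lit 0) (XT.lf (nat_lit 0) (nat_lit 452237858) (nat_lit 228) (nat_lit 21102390180) (nat_lit 76) (nat_lit 22845003308) (nat_lit 14) (nat_lit 5) (nat_lit 17) (nat_lit 5) (nat_lit 15) (nat_lit 5) (nat_lit 278) (nat_lit 260) (nat_lit 182)) (XT.lf (nat_lit 0) (nat_lit 4900016945) (nat_lit 228) (nat_lit 5486998379) (nat_lit 76) (nat_lit 36499731707) (nat_lit 14) (nat_lit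 5) (nat_lit 17) (nat_lit 5) (nat_lit 15) (nat_lit 5) (nat_lit 279) (nat_lit 260) (nat_lit 181))))) (XT.nd (nat_lit 234) (nat_lit 152) (nat_lit 0) (XT.nd (nat_lit 78) (nat_lit 0) (nat_lit 0) (XT.lf (nat_lit 0) (nat_lit 10034716885) (nat_lit 228) (nat_lit 37627297594) (nat_lit 76) (nat_lit 1884361635) (nat_lit 12) (nat_lit 5) (nat_lit 15) (nat_lit 5) (nat_lit 13) (nat_lit 5) (nat_lit 280) (nat_lit 260) (nat_lit 180)) (XT.nd (nat_lit 78) (nat_lit 0) (nat_lit 0) (XT.lf (nat_lit 0) (nat_lit 15999569300) (nat_lit 228) (nat_lit 21656805846) (nat_lit 76) (nat_lit 14728879910) (nat_lit 12) (nat_lit 5) (nat_lit 15) (nat_lit 5) (nat_lit 13) (nat_lit 5) (nat_lit 281) (nat_lit 260) (nat_lit 179)) (XT.lf (nat_lit 0) (nat_lit 22437594055) (nat_lit 228) (nat_lit 4414262682) (nat_lit 76) (nat_lit 28599736300) (nat_lit 12) (nat_lit 5) (nat_lit 15) (nat_lit 5) (nat_lit 13) (nat_lit 5) (nat_lit 282)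 (nat_lit 260) (nat_lit 178)))) (XT.nd (nat_lit 78) (nat_lit 0) (nat_lit 0) (XT.lf (nat_lit 0) (nat_lit 14950388936) (nat_lit 152) (nat_lit 14796110687) (nat_lit 228) (nat_lit 28988296750) (nat_lit 10) (nat_lit 5) (nat_lit 12) (nat_lit 5) (nat_lit 13) (nat_lit 5) (nat_lit 283) (nat_lit 260) (nat_lit 177)) (XT.nd (nat_lit 78) (nat_lit 0) (nat_lit 0) (XT.lf (nat_lit 0) (nat_lit 36110212700) (nat_lit 152) (nat_lit 1647034471) (nat_lit 228) (nat_lit 24514061980) (nat_lit 10) (nat_lit 5) (nat_lit 12) (nat_lit 5) (nat_lit 13) (nat_lit 5) (nat_lit 284) (nat_lit 260) (nat_lit 176)) (XT.lf (nat_lit 0) (nat_lit 46707444608) (nat_lit 228) (nat_lit 7434766156) (nat_lit 76) (nat_lit 11924666776) (nat_lit 10) (nat_lit 5) (nat_lit 13) (nat_lit 5) (nat_lit 11) (nat_lit 4) (nat_lit 285) (nat_lit 260) (nat_lit 175))))))))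
noncomputable def xc87 : XT := (XT.nd (nat_lit 1716) (nat_lit 76) (nat_lit 0) (XT.nd (nat_lit 858) (nat_lit 228) (nat_lit 0) (XT.nd (nat_lit 390) (nat_lit 76) (nat_lit 0) (XT.nd (nat_lit 156) (nat_lit 228) (nat_lit 0) (XT.nd (nat_lit 78) (nat_lit 0) (nat_lit 0) (XT.lf (nat_lit 0) (nat_lit 13413321384) (nat_lit 76) (nat_lit 43322621028) (nat_lit 152) (nat_lit 13401186403) (nat_lit 9) (nat_lit 5) (nat_lit 10) (nat_lit 5) (nat_lit 11) (nat_lit 4) (nat_lit 286) (nat_lit 260) (nat_lit 174)) (XT.lf (nat_lit 0) (nat_lit 36347635330) (nat_lit 76) (nat_lit 31419399922) (nat_lit 152) (nat_lit 6749958408) (nat_lit 9) (nat_lit 5) (nat_lit 10) (nat_lit 5) (nat_lit 11) (nat_lit 4) (nat_lit 287) (nat_lit 260) (nat_lit 173))) (XT.nd (nat_lit 78) (nat_lit 152) (nat_lit 0) (XT.lf (nat_lit 0) (nat_lit 408856398) (nat_lit 152) (nat_lit 18145254265) (nat_lit 76) (nat_lit 60692545860) (nat_lit 8) (nat_lit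 5) (nat_lit 10) (nat_lit 5) (nat_lit 9) (nat_lit 5) (nat_lit 288) (nat_lit 260) (nat_lit 172)) (XT.nd (nat_lit 78) (nat_lit 0) (nat_lit 0) (XT.lf (nat_lit 0) (nat_lit 3475343768) (nat_lit 152) (nat_lit 4381318854) (nat_lit 228) (nat_lit 76477541992) (nat_lit 6) (nat_lit 5) (nat_lit 8) (nat_lit 5) (nat_lit 9) (nat_lit 5) (nat_lit 289) (nat_lit 260) (nat_lit 171)) (XT.lf (nat_lit 0) (nat_lit 16669503119) (nat_lit 228) (nat_lit 62211224770) (nat_lit 76) (nat_lit 10886505617) (nat_lit 6) (nat_lit 5) (nat_lit 9) (nat_lit 5) (nat_lit 7) (nat_lit 4) (nat_lit 290) (nat_lit 260) (nat_lit 170))))) (XT.nd (nat_lit 234) (nat_lit 0) (nat_lit 0) (XT.nd (nat_lit 78) (nat_lit 76) (nat_lit 0) (XT.lf (nat_lit 0) (nat_lit 26298806903) (nat_lit 228) (nat_lit 42189323169) (nat_lit 76) (nat_lit 27137872470) (nat_lit 6) (nat_lit 5) (nat_lit 9) (nat_lit 5) (nat_lit 7) (nat_lit 4) (nat_lit 291) (nat_lit 260)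 (nat_lit 169)) (XT.nd (nat_lit 78) (nat_lit 76) (nat_lit 0) (XT.lf (nat_lit 0) (nat_lit 36696265693) (nat_lit 228) (nat_lit 20569136914) (nat_lit 76) (nat_lit 44688257414) (nat_lit 6) (nat_lit 5) (nat_lit 9) (nat_lit 5) (nat_lit 7) (nat_lit 4) (nat_lit 292) (nat_lit 260) (nat_lit 168)) (XT.lf (nat_lit 0) (nat_lit 2923709403) (nat_lit 76) (nat_lit 45070099939) (nat_lit 152) (nat_lit 60788268607) (nat_lit 5) (nat_lit 5) (nat_lit 6) (nat_lit 5) (nat_lit 7) (nat_lit 4) (nat_lit 293) (nat_lit 260) (nat_lit 167)))) (XT.nd (nat_lit 78) (nat_lit 0) (nat_lit 0) (XT.lf (nat_lit 0) (nat_lit 29462639125) (nat_lit 76) (nat_lit 31292961781) (nat_lit 152) (nat_lit 55356342945) (nat_lit 5) (nat_lit 5) (nat_lit 6) (nat_lit 5) (nat_lit 7) (nat_lit 4) (nat_lit 294) (nat_lit 260) (nat_lit 166)) (XT.nd (nat_lit 78) (nat_lit 0) (nat_lit 0) (XT.lf (nat_lit 0) (nat_lit 58121785687) (nat_lit 76) (nat_lit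 16414742489) (nat_lit 152) (nat_lit 49491824808) (nat_lit 5) (nat_lit 5) (nat_lit 6) (nat_lit 5) (nat_lit 7) (nat_lit 4) (nat_lit 295) (nat_lit 260) (nat_lit 165)) (XT.lf (nat_lit 0) (nat_lit 89070981066) (nat_lit 76) (nat_lit 347274838) (nat_lit 152) (nat_lit 43159961495) (nat_lit 5) (nat_lit 5) (nat_lit 6) (nat_lit 5) (nat_lit 7) (nat_lit 4) (nat_lit 296) (nat_lit 260) (nat_lit 164)))))) (XT.nd (nat_lit 390) (nat_lit 76) (nat_lit 0) (XT.nd (nat_lit 156) (nat_lit 76) (nat_lit 0) (XT.nd (nat_lit 78) (nat_lit 76) (nat_lit 0) (XT.lf (nat_lit 0) (nat_lit 105897934490) (nat_lit 152) (nat_lit 19727537439) (nat_lit 0) (nat_lit 16154014042) (nat_lit 5) (nat_lit 5) (nat_lit 7) (nat_lit 4) (nat_lit 5) (nat_lit 4) (nat_lit 297) (nat_lit 260) (nat_lit 163)) (XT.lf (nat_lit 0) (nat_lit 6256069611) (nat_lit 76) (nat_lit 117597940744) (nat_lit 76) (nat_lit 27850211255) (nat_lit 4) (nat_lit 4) (nat_lit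 5) (nat_lit 5) (nat_lit 5) (nat_lit 4) (nat_lit 298) (nat_lit 260) (nat_lit 162))) (XT.nd (nat_lit 78) (nat_lit 76) (nat_lit 0) (XT.lf (nat_lit 0) (nat_lit 35437946992) (nat_lit 76) (nat_lit 108346606914) (nat_lit 76) (nat_lit 18595350534) (nat_lit 4) (nat_lit 4) (nat_lit 5) (nat_lit 5) (nat_lit 5) (nat_lit 4) (nat_lit 299) (nat_lit 260) (nat_lit 161)) (XT.nd (nat_lit 78) (nat_lit 76) (nat_lit 0) (XT.lf (nat_lit 0) (nat_lit 66952207186) (nat_lit 76) (nat_lit 98356033555) (nat_lit 76) (nat_lit 8601511536) (nat_lit 4) (nat_lit 4) (nat_lit 5) (nat_lit 5) (nat_lit 5) (nat_lit 4) (nat_lit 300) (nat_lit 260) (nat_lit 160)) (XT.lf (nat_lit 0) (nat_lit 2080949383) (nat_lit 152) (nat_lit 85429171041) (nat_lit 76) (nat_lit 98847755135) (nat_lit 3) (nat_lit 5) (nat_lit 5) (nat_lit 5) (nat_lit 4) (nat_lit 4) (nat_lit 301) (nat_lit 260) (nat_lit 159))))) (XT.nd (nat_lit 234) (nat_lit 76) (nat_lit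 0) (XT.nd (nat_lit 78) (nat_lit 0) (nat_lit 0) (XT.lf (nat_lit 0) (nat_lit 13152153290) (nat_lit 152) (nat_lit 62403866675) (nat_lit 76) (nat_lit 124228052428) (nat_lit 3) (nat_lit 5) (nat_lit 5) (nat_lit 5) (nat_lit 4) (nat_lit 4) (nat_lit 302) (nat_lit 260) (nat_lit 158)) (XT.nd (nat_lit 78) (nat_lit 0) (nat_lit 0) (XT.lf (nat_lit 0) (nat_lit 25107989760) (nat_lit 152) (nat_lit 37538319186) (nat_lit 76) (nat_lit 151638145802) (nat_lit 3) (nat_lit 5) (nat_lit 5) (nat_lit 5) (nat_lit 4) (nat_lit 4) (nat_lit 303) (nat_lit 260) (nat_lit 157)) (XT.lf (nat_lit 0) (nat_lit 38019308197) (nat_lit 152) (nat_lit 10685177181) (nat_lit 76) (nat_lit 181240465440) (nat_lit 3) (nat_lit 5) (nat_lit 5) (nat_lit 5) (nat_lit 4) (nat_lit 4) (nat_lit 304) (nat_lit 260) (nat_lit 156)))) (XT.nd (nat_lit 78) (nat_lit 0) (nat_lit 0) (XT.lf (nat_lit 0) (nat_lit 19279108139) (nat_lit 76) (nat_lit 33147174990)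 (nat_lit 152) (nat_lit 194394987372) (nat_lit 2) (nat_lit 5) (nat_lit 3) (nat_lit 5) (nat_lit 4) (nat_lit 4) (nat_lit 305) (nat_lit 260) (nat_lit 155)) (XT.nd (nat_lit 78) (nat_lit 0) (nat_lit 0) (XT.lf (nat_lit 0) (nat_lit 52246723327) (nat_lit 76) (nat_lit 16030364175) (nat_lit 152) (nat_lit 196747310253) (nat_lit 2) (nat_lit 5) (nat_lit 3) (nat_lit 5) (nat_lit 4) (nat_lit 4) (nat_lit 306) (nat_lit 260) (nat_lit 154)) (XT.lf (nat_lit 0) (nat_lit 85454189493) (nat_lit 152) (nat_lit 196892522597) (nat_lit 0) (nat_lit 2332407875) (nat_lit 2) (nat_lit 5) (nat_lit 4) (nat_lit 4) (nat_lit 2) (nat_lit 4) (nat_lit 307) (nat_lit 260) (nat_lit 153))))))) (XT.nd (nat_lit 858) (nat_lit 0) (nat_lit 0) (XT.nd (nat_lit 390) (nat_lit 76) (nat_lit 0) (XT.nd (nat_lit 156) (nat_lit 0) (nat_lit 0) (XT.nd (nat_lit 78) (nat_lit 0) (nat_lit 0) (XT.lf (nat_lit 0) (nat_lit 104421065538) (nat_lit 152) (nat_lit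 180154258838) (nat_lit 0) (nat_lit 21297650287) (nat_lit 2) (nat_lit 5) (nat_lit 4) (nat_lit 4) (nat_lit 2) (nat_lit 4) (nat_lit 308) (nat_lit 260) (nat_lit 152)) (XT.lf (nat_lit 0) (nat_lit 124904581296) (nat_lit 152) (nat_lit 162078162795) (nat_lit 0) (nat_lit 41779653422) (nat_lit 2) (nat_lit 5) (nat_lit 4) (nat_lit 4) (nat_lit 2) (nat_lit 4) (nat_lit 309) (nat_lit 260) (nat_lit 151))) (XT.nd (nat_lit 78) (nat_lit 0) (nat_lit 0) (XT.lf (nat_lit 0) (nat_lit 147026120563) (nat_lit 152) (nat_lit 142557116863) (nat_lit 0) (nat_lit 63899792113) (nat_lit 2) (nat_lit 5) (nat_lit 4) (nat_lit 4) (nat_lit 2) (nat_lit 4) (nat_lit 310) (nat_lit 260) (nat_lit 150)) (XT.nd (nat_lit 78) (nat_lit 0) (nat_lit 0) (XT.lf (nat_lit 0) (nat_lit 170916773944) (nat_lit 152) (nat_lit 121475440769) (nat_lit 0) (nat_lit 87789148663) (nat_lit 2) (nat_lit 5) (nat_lit 4) (nat_lit 4) (nat_lit 2) (nat_lit 4)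 (nat_lit 311) (nat_lit 260) (nat_lit 149)) (XT.lf (nat_lit 0) (nat_lit 196718115679) (nat_lit 152) (nat_lit 98708206063) (nat_lit 0) (nat_lit 113589289629) (nat_lit 2) (nat_lit 5) (nat_lit 4) (nat_lit 4) (nat_lit 2) (nat_lit 4) (nat_lit 312) (nat_lit 260) (nat_lit 148))))) (XT.nd (nat_lit 234) (nat_lit 76) (nat_lit 0) (XT.nd (nat_lit 78) (nat_lit 0) (nat_lit 0) (XT.lf (nat_lit 0) (nat_lit 224583042610) (nat_lit 152) (nat_lit 74120495798) (nat_lit 0) (nat_lit 141453104737) (nat_lit 2) (nat_lit 5) (nat_lit 4) (nat_lit 4) (nat_lit 2) (nat_lit 4) (nat_lit 313) (nat_lit 260) (nat_lit 147)) (XT.nd (nat_lit 78) (nat_lit 0) (nat_lit 0) (XT.lf (nat_lit 0) (nat_lit 254676680229) (nat_lit 152) (nat_lit 47566605025) (nat_lit 0) (nat_lit 171545712890) (nat_lit 2) (nat_lit 5) (nat_lit 4) (nat_lit 4) (nat_lit 2) (nat_lit 4) (nat_lit 314) (nat_lit 260) (nat_lit 146)) (XT.lf (nat_lit 0) (nat_lit 287177361203)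 (nat_lit 152) (nat_lit 18889177353) (nat_lit 0) (nat_lit 204045440655) (nat_lit 2) (nat_lit 5) (nat_lit 4) (nat_lit 4) (nat_lit 2) (nat_lit 4) (nat_lit 315) (nat_lit 260) (nat_lit 145)))) (XT.nd (nat_lit 78) (nat_lit 0) (nat_lit 0) (XT.lf (nat_lit 0) (nat_lit 12717929889) (nat_lit 76) (nat_lit 309865618791) (nat_lit 76) (nat_lit 226732815642) (nat_lit 1) (nat_lit 4) (nat_lit 2) (nat_lit 5) (nat_lit 2) (nat_lit 4) (nat_lit 316) (nat_lit 260) (nat_lit 144)) (XT.nd (nat_lit 78) (nat_lit 0) (nat_lit 0) (XT.lf (nat_lit 0) (nat_lit 47927151114) (nat_lit 76) (nat_lit 313411143026) (nat_lit 76) (nat_lit 230277522654) (nat_lit 1) (nat_lit 4) (nat_lit 2) (nat_lit 5) (nat_lit 2) (nat_lit 4) (nat_lit 317) (nat_lit 260) (nat_lit 143)) (XT.lf (nat_lit 0) (nat_lit 85952462953) (nat_lit 76) (nat_lit 317240585360) (nat_lit 76) (nat_lit 234106208299) (nat_lit 1) (nat_lit 4) (nat_lit 2) (nat_lit 5)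 (nat_lit 2) (nat_lit 4) (nat_lit 318) (nat_lit 260) (nat_lit 142)))))) (XT.nd (nat_lit 390) (nat_lit 0) (nat_lit 0) (XT.nd (nat_lit 156) (nat_lit 0) (nat_lit 0) (XT.nd (nat_lit 78) (nat_lit 0) (nat_lit 0) (XT.lf (nat_lit 0) (nat_lit 127019200586) (nat_lit 76) (nat_lit 321376638784) (nat_lit 76) (nat_lit 238241561086) (nat_lit 1) (nat_lit 4) (nat_lit 2) (nat_lit 5) (nat_lit 2) (nat_lit 4) (nat_lit 319) (nat_lit 260) (nat_lit 141)) (XT.lf (nat_lit 0) (nat_lit 171370722459) (nat_lit 76) (nat_lit 325843813244) (nat_lit 76) (nat_lit 242708086809) (nat_lit 1) (nat_lit 4) (nat_lit 2) (nat_lit 5) (nat_lit 2) (nat_lit 4) (nat_lit 320) (nat_lit 260) (nat_lit 140))) (XT.nd (nat_lit 78) (nat_lit 0) (nat_lit 0) (XT.lf (nat_lit 0) (nat_lit 219269852406) (nat_lit 76) (nat_lit 330668580886) (nat_lit 76) (nat_lit 247532253768) (nat_lit 1) (nat_lit 4) (nat_lit 2) (nat_lit 5) (nat_lit 2) (nat_lit 4)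 (nat_lit 321) (nat_lit 260) (nat_lit 139)) (XT.nd (nat_lit 78) (nat_lit 0) (nat_lit 0) (XT.lf (nat_lit 0) (nat_lit 271000437122) (nat_lit 76) (nat_lit 335879532925) (nat_lit 76) (nat_lit 252742649618) (nat_lit 1) (nat_lit 4) (nat_lit 2) (nat_lit 5) (nat_lit 2) (nat_lit 4) (nat_lit 322) (nat_lit 260) (nat_lit 138)) (XT.lf (nat_lit 0) (nat_lit 326869028220) (nat_lit 76) (nat_lit 341507549077) (nat_lit 76) (nat_lit 258370150781) (nat_lit 1) (nat_lit 4) (nat_lit 2) (nat_lit 5) (nat_lit 2) (nat_lit 4) (nat_lit 323) (nat_lit 260) (nat_lit 137))))) (XT.nd (nat_lit 234) (nat_lit 0) (nat_lit 0) (XT.nd (nat_lit 78) (nat_lit 0) (nat_lit 0) (XT.lf (nat_lit 0) (nat_lit 387206698833) (nat_lit 76) (nat_lit 347585980549) (nat_lit 76) (nat_lit 264448105411) (nat_lit 1) (nat_lit 4) (nat_lit 2) (nat_lit 5) (nat_lit 2) (nat_lit 4) (nat_lit 324) (nat_lit 260) (nat_lit 136)) (XT.nd (nat_lit 78) (nat_lit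 0) (nat_lit 0) (XT.lf (nat_lit 0) (nat_lit 452371005528) (nat_lit 76) (nat_lit 354150847675) (nat_lit 76) (nat_lit 271012531017) (nat_lit 1) (nat_lit 4) (nat_lit 2) (nat_lit 5) (nat_lit 2) (nat_lit 4) (nat_lit 325) (nat_lit 260) (nat_lit 135)) (XT.lf (nat_lit 0) (nat_lit 522748107158) (nat_lit 76) (nat_lit 361241053372) (nat_lit 76) (nat_lit 278102327899) (nat_lit 1) (nat_lit 4) (nat_lit 2) (nat_lit 5) (nat_lit 2) (nat_lit 4) (nat_lit 326) (nat_lit 260) (nat_lit 134)))) (XT.nd (nat_lit 78) (nat_lit 0) (nat_lit 0) (XT.lf (nat_lit 0) (nat_lit 598755053216) (nat_lit 76) (nat_lit 368898613673) (nat_lit 76) (nat_lit 285759509667) (nat_lit 1) (nat_lit 4) (nat_lit 2) (nat_lit 5) (nat_lit 2) (nat_lit 4) (nat_lit 327) (nat_lit 260) (nat_lit 133)) (XT.nd (nat_lit 32292) (nat_lit 0) (nat_lit 2280) (XT.lf (nat_lit 0) (nat_lit 680842255233) (nat_lit 76) (nat_lit 377168906714) (nat_lit 76) (nat_lit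 294029452215) (nat_lit 1) (nat_lit 4) (nat_lit 2) (nat_lit 5) (nat_lit 2) (nat_lit 4) (nat_lit 328) (nat_lit 260) (nat_lit 132)) (XT.lf (nat_lit 0) (nat_lit 4764902334) (nat_lit 0) (nat_lit 4764902334) (nat_lit 380) (nat_lit 916894160) (nat_lit 31) (nat_lit 5) (nat_lit 31) (nat_lit 3) (nat_lit 36) (nat_lit 3) (nat_lit 261) (nat_lit 261) (nat_lit 198))))))))
noncomputable def xc88 : XT := (XT.nd (nat_lit 1638) (nat_lit 684) (nat_lit 0) (XT.nd (nat_lit 780) (nat_lit 760) (nat_lit 0) (XT.nd (nat_lit 390) (nat_lit 304) (nat_lit 0) (XT.nd (nat_lit 156) (nat_lit 380) (nat_lit 0) (XT.nd (nat_lit 78) (nat_lit 0) (nat_lit 0) (XT.lf (nat_lit 0) (nat_lit 18348270770) (nat_lit 0) (nat_lit 1598644981) (nat_lit 380) (nat_lit 1770944973) (nat_lit 31) (nat_lit 5) (nat_lit 31) (nat_lit 3) (nat_lit 36) (nat_lit 3) (nat_lit 262) (nat_lit 261) (nat_lit 197)) (XT.lf (nat_lit 76) (nat_lit 5356819192) (nat_lit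 0) (nat_lit 15832427892) (nat_lit 456) (nat_lit 1396438487) (nat_lit 32) (nat_lit 5) (nat_lit 31) (nat_lit 5) (nat_lit 37) (nat_lit 5) (nat_lit 263) (nat_lit 261) (nat_lit 196))) (XT.nd (nat_lit 78) (nat_lit 380) (nat_lit 0) (XT.lf (nat_lit 76) (nat_lit 14921926191) (nat_lit 0) (nat_lit 7730031613) (nat_lit 456) (nat_lit 861417665) (nat_lit 32) (nat_lit 5) (nat_lit 31) (nat_lit 5) (nat_lit 37) (nat_lit 5) (nat_lit 264) (nat_lit 261) (nat_lit 195)) (XT.nd (nat_lit 78) (nat_lit 456) (nat_lit 0) (XT.lf (nat_lit 76) (nat_lit 741659549) (nat_lit 0) (nat_lit 23521752590) (nat_lit 456) (nat_lit 249439989) (nat_lit 33) (nat_lit 5) (nat_lit 32) (nat_lit 5) (nat_lit 38) (nat_lit 5) (nat_lit 265) (nat_lit 261) (nat_lit 194)) (XT.lf (nat_lit 0) (nat_lit 822291059) (nat_lit 456) (nat_lit 14488553229) (nat_lit 532) (nat_lit 10246234588) (nat_lit 26) (nat_lit 5) (nat_lit 32) (nat_lit 5) (nat_lit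 33) (nat_lit 5) (nat_lit 266) (nat_lit 261) (nat_lit 193))))) (XT.nd (nat_lit 156) (nat_lit 304) (nat_lit 0) (XT.nd (nat_lit 78) (nat_lit 0) (nat_lit 76) (XT.lf (nat_lit 0) (nat_lit 1956648168) (nat_lit 456) (nat_lit 4477467979) (nat_lit 532) (nat_lit 20251067286) (nat_lit 26) (nat_lit 5) (nat_lit 32) (nat_lit 5) (nat_lit 33) (nat_lit 5) (nat_lit 267) (nat_lit 261) (nat_lit 192)) (XT.lf (nat_lit 0) (nat_lit 3413046310) (nat_lit 456) (nat_lit 21310967523) (nat_lit 76) (nat_lit 3161099768) (nat_lit 27) (nat_lit 5) (nat_lit 33) (nat_lit 5) (nat_lit 28) (nat_lit 5) (nat_lit 268) (nat_lit 261) (nat_lit 191))) (XT.nd (nat_lit 78) (nat_lit 380) (nat_lit 0) (XT.lf (nat_lit 0) (nat_lit 5270285470) (nat_lit 456) (nat_lit 10584738850) (nat_lit 76) (nat_lit 13303342199) (nat_lit 27) (nat_lit 5) (nat_lit 33) (nat_lit 5) (nat_lit 28) (nat_lit 5) (nat_lit 269) (nat_lit 261) (nat_lit 190)) (XT.nd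 (nat_lit 78) (nat_lit 0) (nat_lit 0) (XT.lf (nat_lit 0) (nat_lit 1044698574) (nat_lit 380) (nat_lit 6248759441) (nat_lit 456) (nat_lit 23238702451) (nat_lit 22) (nat_lit 5) (nat_lit 27) (nat_lit 5) (nat_lit 28) (nat_lit 5) (nat_lit 270) (nat_lit 261) (nat_lit 189)) (XT.lf (nat_lit 0) (nat_lit 9867284195) (nat_lit 456) (nat_lit 17900629714) (nat_lit 76) (nat_lit 4216904052) (nat_lit 22) (nat_lit 5) (nat_lit 28) (nat_lit 5) (nat_lit 23) (nat_lit 5) (nat_lit 271) (nat_lit 261) (nat_lit 188)))))) (XT.nd (nat_lit 390) (nat_lit 380) (nat_lit 0) (XT.nd (nat_lit 156) (nat_lit 152) (nat_lit 0) (XT.nd (nat_lit 78) (nat_lit 228) (nat_lit 0) (XT.lf (nat_lit 0) (nat_lit 12802513321) (nat_lit 456) (nat_lit 5556222243) (nat_lit 76) (nat_lit 15182572017) (nat_lit 22) (nat_lit 5) (nat_lit 28) (nat_lit 5) (nat_lit 23) (nat_lit 5) (nat_lit 272) (nat_lit 261) (nat_lit 187)) (XT.lf (nat_lit 0) (nat_lit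 8178307438) (nat_lit 228) (nat_lit 7984637581) (nat_lit 304) (nat_lit 19044195495) (nat_lit 19) (nat_lit 5) (nat_lit 22) (nat_lit 5) (nat_lit 23) (nat_lit 5) (nat_lit 273) (nat_lit 261) (nat_lit 186))) (XT.nd (nat_lit 78) (nat_lit 152) (nat_lit 0) (XT.lf (nat_lit 0) (nat_lit 20019500560) (nat_lit 304) (nat_lit 13754769805) (nat_lit 76) (nat_lit 3213837391) (nat_lit 19) (nat_lit 5) (nat_lit 23) (nat_lit 5) (nat_lit 20) (nat_lit 5) (nat_lit 274) (nat_lit 261) (nat_lit 185)) (XT.nd (nat_lit 78) (nat_lit 0) (nat_lit 0) (XT.lf (nat_lit 0) (nat_lit 386787350) (nat_lit 152) (nat_lit 24008933144) (nat_lit 228) (nat_lit 14498987742) (nat_lit 17) (nat_lit 5) (nat_lit 19) (nat_lit 5) (nat_lit 20) (nat_lit 5) (nat_lit 275) (nat_lit 261) (nat_lit 184)) (XT.lf (nat_lit 0) (nat_lit 16435690050) (nat_lit 152) (nat_lit 13057134083) (nat_lit 228) (nat_lit 11431393300) (nat_lit 17) (nat_lit 5) (nat_lit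 19) (nat_lit 5) (nat_lit 20) (nat_lit 5) (nat_lit 276) (nat_lit 261) (nat_lit 183))))) (XT.nd (nat_lit 234) (nat_lit 152) (nat_lit 0) (XT.nd (nat_lit 78) (nat_lit 228) (nat_lit 0) (XT.lf (nat_lit 0) (nat_lit 33762741100) (nat_lit 152) (nat_lit 1230053415) (nat_lit 228) (nat_lit 8123725317) (nat_lit 17) (nat_lit 5) (nat_lit 19) (nat_lit 5) (nat_lit 20) (nat_lit 5) (nat_lit 277) (nat_lit 261) (nat_lit 182)) (XT.nd (nat_lit 78) (nat_lit 76) (nat_lit 0) (XT.lf (nat_lit 0) (nat_lit 7061670964) (nat_lit 152) (nat_lit 34313981333) (nat_lit 228) (nat_lit 4073160297) (nat_lit 15) (nat_lit 5) (nat_lit 17) (nat_lit 5) (nat_lit 18) (nat_lit 5) (nat_lit 278) (nat_lit 261) (nat_lit 181)) (XT.lf (nat_lit 0) (nat_lit 576211275) (nat_lit 228) (nat_lit 22676599057) (nat_lit 76) (nat_lit 24691143192) (nat_lit 14) (nat_lit 5) (nat_lit 17) (nat_lit 5) (nat_lit 15) (nat_lit 5) (nat_lit 279) (nat_lit 261)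 (nat_lit 180)))) (XT.nd (nat_lit 78) (nat_lit 152) (nat_lit 0) (XT.lf (nat_lit 0) (nat_lit 5373309401) (nat_lit 228) (nat_lit 5820419048) (nat_lit 76) (nat_lit 39436876558) (nat_lit 14) (nat_lit 5) (nat_lit 17) (nat_lit 5) (nat_lit 15) (nat_lit 5) (nat_lit 280) (nat_lit 261) (nat_lit 179)) (XT.nd (nat_lit 78) (nat_lit 0) (nat_lit 0) (XT.lf (nat_lit 0) (nat_lit 10915841963) (nat_lit 228) (nat_lit 40528463179) (nat_lit 76) (nat_lit 2058977594) (nat_lit 12) (nat_lit 5) (nat_lit 15) (nat_lit 5) (nat_lit 13) (nat_lit 5) (nat_lit 281) (nat_lit 261) (nat_lit 178)) (XT.lf (nat_lit 0) (nat_lit 17352079036) (nat_lit 228) (nat_lit 23288407516) (nat_lit 76) (nat_lit 15929289403) (nat_lit 12) (nat_lit 5) (nat_lit 15) (nat_lit 5) (nat_lit 13) (nat_lit 5) (nat_lit 282) (nat_lit 261) (nat_lit 177))))))) (XT.nd (nat_lit 858) (nat_lit 228) (nat_lit 0) (XT.nd (nat_lit 390) (nat_lit 228) (nat_lit 0)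 (XT.nd (nat_lit 156) (nat_lit 76) (nat_lit 0) (XT.nd (nat_lit 78) (nat_lit 152) (nat_lit 0) (XT.lf (nat_lit 0) (nat_lit 24299772128) (nat_lit 228) (nat_lit 4673938143) (nat_lit 76) (nat_lit 30908177335) (nat_lit 12) (nat_lit 5) (nat_lit 15) (nat_lit 5) (nat_lit 13) (nat_lit 5) (nat_lit 283) (nat_lit 261) (nat_lit 176)) (XT.lf (nat_lit 0) (nat_lit 16237519389) (nat_lit 152) (nat_lit 15953086098) (nat_lit 228) (nat_lit 31237398511) (nat_lit 10) (nat_lit 5) (nat_lit 12) (nat_lit 5) (nat_lit 13) (nat_lit 5) (nat_lit 284) (nat_lit 261) (nat_lit 175))) (XT.nd (nat_lit 78) (nat_lit 76) (nat_lit 0) (XT.lf (nat_lit 0) (nat_lit 39083380954) (nat_lit 152) (nat_lit 1754062558) (nat_lit 228) (nat_lit 26410407329) (nat_lit 10) (nat_lit 5) (nat_lit 12) (nat_lit 5) (nat_lit 13) (nat_lit 5) (nat_lit 285) (nat_lit 261) (nat_lit 174)) (XT.nd (nat_lit 78) (nat_lit 76) (nat_lit 0) (XT.lf (nat_lit 0) (nat_lit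 50499791507) (nat_lit 228) (nat_lit 7947214660) (nat_lit 76) (nat_lit 12900396917) (nat_lit 10) (nat_lit 5) (nat_lit 13) (nat_lit 5) (nat_lit 11) (nat_lit 4) (nat_lit 286) (nat_lit 261) (nat_lit 173)) (XT.lf (nat_lit 0) (nat_lit 14566635508) (nat_lit 76) (nat_lit 46761733876) (nat_lit 152) (nat_lit 14415108061) (nat_lit 9) (nat_lit 5) (nat_lit 10) (nat_lit 5) (nat_lit 11) (nat_lit 4) (nat_lit 287) (nat_lit 261) (nat_lit 172))))) (XT.nd (nat_lit 234) (nat_lit 0) (nat_lit 0) (XT.nd (nat_lit 78) (nat_lit 228) (nat_lit 0) (XT.lf (nat_lit 0) (nat_lit 39329750243) (nat_lit 76) (nat_lit 33908232625) (nat_lit 152) (nat_lit 7236090957) (nat_lit 9) (nat_lit 5) (nat_lit 10) (nat_lit 5) (nat_lit 11) (nat_lit 4) (nat_lit 288) (nat_lit 261) (nat_lit 171)) (XT.nd (nat_lit 78) (nat_lit 152) (nat_lit 0) (XT.lf (nat_lit 0) (nat_lit 488944189) (nat_lit 152) (nat_lit 19525311660) (nat_lit 76) (nat_lit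 65568074895) (nat_lit 8) (nat_lit 5) (nat_lit 10) (nat_lit 5) (nat_lit 9) (nat_lit 5) (nat_lit 289) (nat_lit 261) (nat_lit 170)) (XT.lf (nat_lit 0) (nat_lit 3823122496) (nat_lit 152) (nat_lit 4707620359) (nat_lit 228) (nat_lit 82546306243) (nat_lit 6) (nat_lit 5) (nat_lit 8) (nat_lit 5) (nat_lit 9) (nat_lit 5) (nat_lit 290) (nat_lit 261) (nat_lit 169)))) (XT.nd (nat_lit 78) (nat_lit 0) (nat_lit 0) (XT.lf (nat_lit 0) (nat_lit 18045775710) (nat_lit 228) (nat_lit 67120473673) (nat_lit 76) (nat_lit 11778716087) (nat_lit 6) (nat_lit 5) (nat_lit 9) (nat_lit 5) (nat_lit 7) (nat_lit 4) (nat_lit 291) (nat_lit 261) (nat_lit 168)) (XT.nd (nat_lit 78) (nat_lit 0) (nat_lit 0) (XT.lf (nat_lit 0) (nat_lit 28442259920) (nat_lit 228) (nat_lit 45501830986) (nat_lit 76) (nat_lit 29328615249) (nat_lit 6) (nat_lit 5) (nat_lit 9) (nat_lit 5) (nat_lit 7) (nat_lit 4) (nat_lit 292) (nat_lit 261) (nat_lit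 167)) (XT.lf (nat_lit 0) (nat_lit 39668585898) (nat_lit 228) (nat_lit 22156669685) (nat_lit 76) (nat_lit 48281570767) (nat_lit 6) (nat_lit 5) (nat_lit 9) (nat_lit 5) (nat_lit 7) (nat_lit 4) (nat_lit 293) (nat_lit 261) (nat_lit 166)))))) (XT.nd (nat_lit 390) (nat_lit 152) (nat_lit 0) (XT.nd (nat_lit 156) (nat_lit 0) (nat_lit 0) (XT.nd (nat_lit 78) (nat_lit 0) (nat_lit 0) (XT.lf (nat_lit 0) (nat_lit 3214136028) (nat_lit 76) (nat_lit 48654444039) (nat_lit 152) (nat_lit 65613060471) (nat_lit 5) (nat_lit 5) (nat_lit 6) (nat_lit 5) (nat_lit 7) (nat_lit 4) (nat_lit 294) (nat_lit 261) (nat_lit 165)) (XT.lf (nat_lit 0) (nat_lit 31871992731) (nat_lit 76) (nat_lit 33776709932) (nat_lit 152) (nat_lit 59749415543) (nat_lit 5) (nat_lit 5) (nat_lit 6) (nat_lit 5) (nat_lit 7) (nat_lit 4) (nat_lit 295) (nat_lit 261) (nat_lit 164))) (XT.nd (nat_lit 78) (nat_lit 0) (nat_lit 0) (XT.lf (nat_lit 0) (nat_lit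 62819993796) (nat_lit 76) (nat_lit 17709691526) (nat_lit 152) (nat_lit 53418360758) (nat_lit 5) (nat_lit 5) (nat_lit 6) (nat_lit 5) (nat_lit 7) (nat_lit 4) (nat_lit 296) (nat_lit 261) (nat_lit 163)) (XT.nd (nat_lit 78) (nat_lit 0) (nat_lit 0) (XT.lf (nat_lit 0) (nat_lit 96241534788) (nat_lit 76) (nat_lit 358176860) (nat_lit 152) (nat_lit 46582378753) (nat_lit 5) (nat_lit 5) (nat_lit 6) (nat_lit 5) (nat_lit 7) (nat_lit 4) (nat_lit 297) (nat_lit 261) (nat_lit 162)) (XT.lf (nat_lit 0) (nat_lit 114396066688) (nat_lit 152) (nat_lit 21262357413) (nat_lit 0) (nat_lit 17461182907) (nat_lit 5) (nat_lit 5) (nat_lit 7) (nat_lit 4) (nat_lit 5) (nat_lit 4) (nat_lit 298) (nat_lit 261) (nat_lit 161))))) (XT.nd (nat_lit 234) (nat_lit 76) (nat_lit 0) (XT.nd (nat_lit 78) (nat_lit 0) (nat_lit 0) (XT.lf (nat_lit 0) (nat_lit 6798839897) (nat_lit 76) (nat_lit 126988857716) (nat_lit 76) (nat_lit 30050708295)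 (nat_lit 4) (nat_lit 4) (nat_lit 5) (nat_lit 5) (nat_lit 5) (nat_lit 4) (nat_lit 299) (nat_lit 261) (nat_lit 160)) (XT.nd (nat_lit 78) (nat_lit 0) (nat_lit 0) (XT.lf (nat_lit 0) (nat_lit 38312135267) (nat_lit 76) (nat_lit 116998670386) (nat_lit 76) (nat_lit 20057497226) (nat_lit 4) (nat_lit 4) (nat_lit 5) (nat_lit 5) (nat_lit 5) (nat_lit 4) (nat_lit 300) (nat_lit 261) (nat_lit 159)) (XT.lf (nat_lit 0) (nat_lit 72344636090) (nat_lit 76) (nat_lit 106210011535) (nat_lit 76) (nat_lit 9266038614) (nat_lit 4) (nat_lit 4) (nat_lit 5) (nat_lit 5) (nat_lit 5) (nat_lit 4) (nat_lit 301) (nat_lit 261) (nat_lit 158)))) (XT.nd (nat_lit 78) (nat_lit 0) (nat_lit 0) (XT.lf (nat_lit 0) (nat_lit 2268178653) (nat_lit 152) (nat_lit 92228753691) (nat_lit 76) (nat_lit 106767821766) (nat_lit 3) (nat_lit 5) (nat_lit 5) (nat_lit 5) (nat_lit 4) (nat_lit 4) (nat_lit 302) (nat_lit 261) (nat_lit 157)) (XT.nd (nat_lit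 78) (nat_lit 0) (nat_lit 0) (XT.lf (nat_lit 0) (nat_lit 14223541589) (nat_lit 152) (nat_lit 67363999127) (nat_lit 76) (nat_lit 134177635715) (nat_lit 3) (nat_lit 5) (nat_lit 5) (nat_lit 5) (nat_lit 4) (nat_lit 4) (nat_lit 303) (nat_lit 261) (nat_lit 156)) (XT.lf (nat_lit 0) (nat_lit 27134421567) (nat_lit 152) (nat_lit 40511591311) (nat_lit 76) (nat_lit 163779696626) (nat_lit 3) (nat_lit 5) (nat_lit 5) (nat_lit 5) (nat_lit 4) (nat_lit 4) (nat_lit 304) (nat_lit 261) (nat_lit 155))))))))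
noncomputable def xc89 : XT := (XT.nd (nat_lit 1716) (nat_lit 0) (nat_lit 0) (XT.nd (nat_lit 858) (nat_lit 76) (nat_lit 0) (XT.nd (nat_lit 390) (nat_lit 0) (nat_lit 0) (XT.nd (nat_lit 156) (nat_lit 0) (nat_lit 0) (XT.nd (nat_lit 78) (nat_lit 76) (nat_lit 0) (XT.lf (nat_lit 0) (nat_lit 41077327506) (nat_lit 152) (nat_lit 11512404865) (nat_lit 76) (nat_lit 195749424120) (nat_lit 3) (nat_lit 5) (nat_lit 5) (nat_lit 5) (nat_lit 4) (nat_lit 4) (nat_lit 305) (nat_lit 261) (nat_lit 154)) (XT.lf (nat_lit 0) (nat_lit 20848324889) (nat_lit 76) (nat_lit 35787961859) (nat_lit 152) (nat_lit 209929346260) (nat_lit 2) (nat_lit 5) (nat_lit 3) (nat_lit 5) (nat_lit 4) (nat_lit 4) (nat_lit 306) (nat_lit 261) (nat_lit 153))) (XT.nd (nat_lit 78) (nat_lit 0) (nat_lit 0) (XT.lf (nat_lit 0) (nat_lit 56451357581) (nat_lit 76) (nat_lit 17302620040) (nat_lit 152) (nat_lit 212471132016) (nat_lit 2) (nat_lit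 5) (nat_lit 3) (nat_lit 5) (nat_lit 4) (nat_lit 4) (nat_lit 307) (nat_lit 261) (nat_lit 152)) (XT.nd (nat_lit 78) (nat_lit 0) (nat_lit 0) (XT.lf (nat_lit 0) (nat_lit 92304383714) (nat_lit 152) (nat_lit 212619950647) (nat_lit 0) (nat_lit 2527948987) (nat_lit 2) (nat_lit 5) (nat_lit 4) (nat_lit 4) (nat_lit 2) (nat_lit 4) (nat_lit 308) (nat_lit 261) (nat_lit 151)) (XT.lf (nat_lit 0) (nat_lit 112787583245) (nat_lit 152) (nat_lit 194544401620) (nat_lit 0) (nat_lit 23009747942) (nat_lit 2) (nat_lit 5) (nat_lit 4) (nat_lit 4) (nat_lit 2) (nat_lit 4) (nat_lit 309) (nat_lit 261) (nat_lit 150))))) (XT.nd (nat_lit 234) (nat_lit 0) (nat_lit 0) (XT.nd (nat_lit 78) (nat_lit 0) (nat_lit 0) (XT.lf (nat_lit 0) (nat_lit 134908829711) (nat_lit 152) (nat_lit 175023862185) (nat_lit 0) (nat_lit 45129697577) (nat_lit 2) (nat_lit 5) (nat_lit 4) (nat_lit 4) (nat_lit 2) (nat_lit 4) (nat_lit 310) (nat_lit 261)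 (nat_lit 149)) (XT.nd (nat_lit 78) (nat_lit 0) (nat_lit 0) (XT.lf (nat_lit 0) (nat_lit 158799211978) (nat_lit 152) (nat_lit 153942655070) (nat_lit 0) (nat_lit 69018879075) (nat_lit 2) (nat_lit 5) (nat_lit 4) (nat_lit 4) (nat_lit 2) (nat_lit 4) (nat_lit 311) (nat_lit 261) (nat_lit 148)) (XT.lf (nat_lit 0) (nat_lit 184600302683) (nat_lit 152) (nat_lit 131175854603) (nat_lit 0) (nat_lit 94818857957) (nat_lit 2) (nat_lit 5) (nat_lit 4) (nat_lit 4) (nat_lit 2) (nat_lit 4) (nat_lit 312) (nat_lit 261) (nat_lit 147)))) (XT.nd (nat_lit 78) (nat_lit 0) (nat_lit 0) (XT.lf (nat_lit 0) (nat_lit 212464997178) (nat_lit 152) (nat_lit 106588546412) (nat_lit 0) (nat_lit 122682522986) (nat_lit 2) (nat_lit 5) (nat_lit 4) (nat_lit 4) (nat_lit 2) (nat_lit 4) (nat_lit 313) (nat_lit 261) (nat_lit 146)) (XT.nd (nat_lit 78) (nat_lit 0) (nat_lit 0) (XT.lf (nat_lit 0) (nat_lit 242558419579) (nat_lit 152) (nat_lit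 80035027928) (nat_lit 0) (nat_lit 152774992178) (nat_lit 2) (nat_lit 5) (nat_lit 4) (nat_lit 4) (nat_lit 2) (nat_lit 4) (nat_lit 314) (nat_lit 261) (nat_lit 145)) (XT.lf (nat_lit 0) (nat_lit 275058901277) (nat_lit 152) (nat_lit 51357944969) (nat_lit 0) (nat_lit 185274591275) (nat_lit 2) (nat_lit 5) (nat_lit 4) (nat_lit 4) (nat_lit 2) (nat_lit 4) (nat_lit 315) (nat_lit 261) (nat_lit 144)))))) (XT.nd (nat_lit 390) (nat_lit 0) (nat_lit 0) (XT.nd (nat_lit 156) (nat_lit 0) (nat_lit 0) (XT.nd (nat_lit 78) (nat_lit 76) (nat_lit 0) (XT.lf (nat_lit 0) (nat_lit 310159037719) (nat_lit 152) (nat_lit 20387359266) (nat_lit 0) (nat_lit 220373910494) (nat_lit 2) (nat_lit 5) (nat_lit 4) (nat_lit 4) (nat_lit 2) (nat_lit 4) (nat_lit 316) (nat_lit 261) (nat_lit 143)) (XT.lf (nat_lit 0) (nat_lit 13747988650) (nat_lit 76) (nat_lit 334649480522) (nat_lit 76) (nat_lit 244863596609) (nat_lit 1) (nat_lit 4)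 (nat_lit 2) (nat_lit 5) (nat_lit 2) (nat_lit 4) (nat_lit 317) (nat_lit 261) (nat_lit 142))) (XT.nd (nat_lit 78) (nat_lit 0) (nat_lit 0) (XT.lf (nat_lit 0) (nat_lit 51773012435) (nat_lit 76) (nat_lit 338479045790) (nat_lit 76) (nat_lit 248692461240) (nat_lit 1) (nat_lit 4) (nat_lit 2) (nat_lit 5) (nat_lit 2) (nat_lit 4) (nat_lit 318) (nat_lit 261) (nat_lit 141)) (XT.nd (nat_lit 78) (nat_lit 0) (nat_lit 0) (XT.lf (nat_lit 0) (nat_lit 92839483351) (nat_lit 76) (nat_lit 342615213042) (nat_lit 76) (nat_lit 252827979754) (nat_lit 1) (nat_lit 4) (nat_lit 2) (nat_lit 5) (nat_lit 2) (nat_lit 4) (nat_lit 319) (nat_lit 261) (nat_lit 140)) (XT.lf (nat_lit 0) (nat_lit 137190758265) (nat_lit 76) (nat_lit 347082492899) (nat_lit 76) (nat_lit 257294658927) (nat_lit 1) (nat_lit 4) (nat_lit 2) (nat_lit 5) (nat_lit 2) (nat_lit 4) (nat_lit 320) (nat_lit 261) (nat_lit 139))))) (XT.nd (nat_lit 234) (nat_lit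 0) (nat_lit 0) (XT.nd (nat_lit 78) (nat_lit 0) (nat_lit 0) (XT.lf (nat_lit 0) (nat_lit 185089659545) (nat_lit 76) (nat_lit 351907358130) (nat_lit 76) (nat_lit 262118967970) (nat_lit 1) (nat_lit 4) (nat_lit 2) (nat_lit 5) (nat_lit 2) (nat_lit 4) (nat_lit 321) (nat_lit 261) (nat_lit 138)) (XT.nd (nat_lit 78) (nat_lit 0) (nat_lit 0) (XT.lf (nat_lit 0) (nat_lit 236820032532) (nat_lit 76) (nat_lit 357118400530) (nat_lit 76) (nat_lit 267329495381) (nat_lit 1) (nat_lit 4) (nat_lit 2) (nat_lit 5) (nat_lit 2) (nat_lit 4) (nat_lit 322) (nat_lit 261) (nat_lit 137)) (XT.lf (nat_lit 0) (nat_lit 292688427586) (nat_lit 76) (nat_lit 362746500349) (nat_lit 76) (nat_lit 272957118358) (nat_lit 1) (nat_lit 4) (nat_lit 2) (nat_lit 5) (nat_lit 2) (nat_lit 4) (nat_lit 323) (nat_lit 261) (nat_lit 136)))) (XT.nd (nat_lit 78) (nat_lit 0) (nat_lit 0) (XT.lf (nat_lit 0) (nat_lit 353025916676) (nat_lit 76) (nat_lit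 368825009290) (nat_lit 76) (nat_lit 279035185779) (nat_lit 1) (nat_lit 4) (nat_lit 2) (nat_lit 5) (nat_lit 2) (nat_lit 4) (nat_lit 324) (nat_lit 261) (nat_lit 135)) (XT.nd (nat_lit 78) (nat_lit 0) (nat_lit 0) (XT.lf (nat_lit 0) (nat_lit 418190055294) (nat_lit 76) (nat_lit 375389948147) (nat_lit 76) (nat_lit 285599715821) (nat_lit 1) (nat_lit 4) (nat_lit 2) (nat_lit 5) (nat_lit 2) (nat_lit 4) (nat_lit 325) (nat_lit 261) (nat_lit 134)) (XT.lf (nat_lit 0) (nat_lit 488567001298) (nat_lit 76) (nat_lit 382480220262) (nat_lit 76) (nat_lit 292689609403) (nat_lit 1) (nat_lit 4) (nat_lit 2) (nat_lit 5) (nat_lit 2) (nat_lit 4) (nat_lit 326) (nat_lit 261) (nat_lit 133))))))) (XT.nd (nat_lit 33150) (nat_lit 0) (nat_lit 988) (XT.nd (nat_lit 32682) (nat_lit 0) (nat_lit 1900) (XT.nd (nat_lit 32448) (nat_lit 0) (nat_lit 2280) (XT.nd (nat_lit 78) (nat_lit 0) (nat_lit 0) (XT.lf (nat_lit 0) (nat_lit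 564573803257) (nat_lit 76) (nat_lit 390137842061) (nat_lit 76) (nat_lit 300346880709) (nat_lit 1) (nat_lit 4) (nat_lit 2) (nat_lit 5) (nat_lit 2) (nat_lit 4) (nat_lit 327) (nat_lit 261) (nat_lit 132)) (XT.lf (nat_lit 0) (nat_lit 646660871849) (nat_lit 76) (nat_lit 398408192044) (nat_lit 76) (nat_lit 308616906162) (nat_lit 1) (nat_lit 4) (nat_lit 2) (nat_lit 5) (nat_lit 2) (nat_lit 4) (nat_lit 328) (nat_lit 261) (nat_lit 131))) (XT.nd (nat_lit 78) (nat_lit 0) (nat_lit 0) (XT.lf (nat_lit 0) (nat_lit 5207053352) (nat_lit 0) (nat_lit 5207053352) (nat_lit 380) (nat_lit 857326302) (nat_lit 31) (nat_lit 5) (nat_lit 31) (nat_lit 3) (nat_lit 36) (nat_lit 3) (nat_lit 262) (nat_lit 262) (nat_lit 196)) (XT.nd (nat_lit 78) (nat_lit 0) (nat_lit 0) (XT.lf (nat_lit 0) (nat_lit 19929019156) (nat_lit 0) (nat_lit 1839423304) (nat_lit 380) (nat_lit 1666473551) (nat_lit 31) (nat_lit 5) (nat_lit 31) (nat_lit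 3) (nat_lit 36) (nat_lit 3) (nat_lit 263) (nat_lit 262) (nat_lit 195)) (XT.lf (nat_lit 76) (nat_lit 5917897540) (nat_lit 0) (nat_lit 17176212396) (nat_lit 456) (nat_lit 1279512177) (nat_lit 32) (nat_lit 5) (nat_lit 31) (nat_lit 5) (nat_lit 37) (nat_lit 5) (nat_lit 264) (nat_lit 262) (nat_lit 194))))) (XT.nd (nat_lit 234) (nat_lit 0) (nat_lit 0) (XT.nd (nat_lit 78) (nat_lit 380) (nat_lit 0) (XT.lf (nat_lit 76) (nat_lit 16238395853) (nat_lit 0) (nat_lit 8419906616) (nat_lit 456) (nat_lit 718626089) (nat_lit 32) (nat_lit 5) (nat_lit 31) (nat_lit 5) (nat_lit 37) (nat_lit 5) (nat_lit 265) (nat_lit 262) (nat_lit 193)) (XT.nd (nat_lit 78) (nat_lit 456) (nat_lit 0) (XT.lf (nat_lit 76) (nat_lit 939350037) (nat_lit 0) (nat_lit 25446674735) (nat_lit 456) (nat_lit 71497257) (nat_lit 33) (nat_lit 5) (nat_lit 32) (nat_lit 5) (nat_lit 38) (nat_lit 5) (nat_lit 266) (nat_lit 262) (nat_lit 192)) (XT.lf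 (nat_lit 0) (nat_lit 1062146821) (nat_lit 456) (nat_lit 15508788836) (nat_lit 532) (nat_lit 11015210431) (nat_lit 26) (nat_lit 5) (nat_lit 32) (nat_lit 5) (nat_lit 33) (nat_lit 5) (nat_lit 267) (nat_lit 262) (nat_lit 191)))) (XT.nd (nat_lit 78) (nat_lit 0) (nat_lit 76) (XT.lf (nat_lit 0) (nat_lit 2274358241) (nat_lit 456) (nat_lit 4707101852) (nat_lit 532) (nat_lit 21824186999) (nat_lit 26) (nat_lit 5) (nat_lit 32) (nat_lit 5) (nat_lit 33) (nat_lit 5) (nat_lit 268) (nat_lit 262) (nat_lit 190)) (XT.nd (nat_lit 78) (nat_lit 0) (nat_lit 0) (XT.lf (nat_lit 0) (nat_lit 3837694783) (nat_lit 456) (nat_lit 22876359056) (nat_lit 76) (nat_lit 3388391617) (nat_lit 27) (nat_lit 5) (nat_lit 33) (nat_lit 5) (nat_lit 28) (nat_lit 5) (nat_lit 269) (nat_lit 262) (nat_lit 189)) (XT.lf (nat_lit 0) (nat_lit 5832283093) (nat_lit 456) (nat_lit 11302364376) (nat_lit 76) (nat_lit 14343909453) (nat_lit 27)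 (nat_lit 5) (nat_lit 33) (nat_lit 5) (nat_lit 28) (nat_lit 5) (nat_lit 270) (nat_lit 262) (nat_lit 188)))))) (XT.nd (nat_lit 390) (nat_lit 380) (nat_lit 0) (XT.nd (nat_lit 156) (nat_lit 228) (nat_lit 0) (XT.nd (nat_lit 78) (nat_lit 0) (nat_lit 0) (XT.lf (nat_lit 0) (nat_lit 1254158331) (nat_lit 380) (nat_lit 6755780489) (nat_lit 456) (nat_lit 24952997728) (nat_lit 22) (nat_lit 5) (nat_lit 27) (nat_lit 5) (nat_lit 28) (nat_lit 5) (nat_lit 271) (nat_lit 262) (nat_lit 187)) (XT.lf (nat_lit 0) (nat_lit 10779660375) (nat_lit 456) (nat_lit 19205039471) (nat_lit 76) (nat_lit 4547993315) (nat_lit 22) (nat_lit 5) (nat_lit 28) (nat_lit 5) (nat_lit 23) (nat_lit 5) (nat_lit 272) (nat_lit 262) (nat_lit 186))) (XT.nd (nat_lit 78) (nat_lit 228) (nat_lit 0) (XT.lf (nat_lit 0) (nat_lit 13940597205) (nat_lit 456) (nat_lit 5882534263) (nat_lit 76) (nat_lit 16391378647) (nat_lit 22) (nat_lit 5) (nat_lit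 28) (nat_lit 5) (nat_lit 23) (nat_lit 5) (nat_lit 273) (nat_lit 262) (nat_lit 185)) (XT.nd (nat_lit 78) (nat_lit 0) (nat_lit 0) (XT.lf (nat_lit 0) (nat_lit 8947765748) (nat_lit 228) (nat_lit 8616432339) (nat_lit 304) (nat_lit 20449938266) (nat_lit 19) (nat_lit 5) (nat_lit 22) (nat_lit 5) (nat_lit 23) (nat_lit 5) (nat_lit 274) (nat_lit 262) (nat_lit 184)) (XT.lf (nat_lit 0) (nat_lit 21721417313) (nat_lit 304) (nat_lit 14739779780) (nat_lit 76) (nat_lit 3477080742) (nat_lit 19) (nat_lit 5) (nat_lit 23) (nat_lit 5) (nat_lit 20) (nat_lit 5) (nat_lit 275) (nat_lit 262) (nat_lit 183))))) (XT.nd (nat_lit 234) (nat_lit 228) (nat_lit 0) (XT.nd (nat_lit 78) (nat_lit 0) (nat_lit 0) (XT.lf (nat_lit 0) (nat_lit 530181148) (nat_lit 152) (nat_lit 25912824309) (nat_lit 228) (nat_lit 15554842211) (nat_lit 17) (nat_lit 5) (nat_lit 19) (nat_lit 5) (nat_lit 20) (nat_lit 5) (nat_lit 276) (nat_lit 262)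 (nat_lit 182)) (XT.nd (nat_lit 78) (nat_lit 0) (nat_lit 0) (XT.lf (nat_lit 0) (nat_lit 17854666374) (nat_lit 152) (nat_lit 14086127507) (nat_lit 228) (nat_lit 12249548699) (nat_lit 17) (nat_lit 5) (nat_lit 19) (nat_lit 5) (nat_lit 20) (nat_lit 5) (nat_lit 277) (nat_lit 262) (nat_lit 181)) (XT.lf (nat_lit 0) (nat_lit 36560168833) (nat_lit 152) (nat_lit 1314034260) (nat_lit 228) (nat_lit 8684404764) (nat_lit 17) (nat_lit 5) (nat_lit 19) (nat_lit 5) (nat_lit 20) (nat_lit 5) (nat_lit 278) (nat_lit 262) (nat_lit 180)))) (XT.nd (nat_lit 78) (nat_lit 76) (nat_lit 0) (XT.lf (nat_lit 0) (nat_lit 7727284699) (nat_lit 152) (nat_lit 37037074381) (nat_lit 228) (nat_lit 4313441375) (nat_lit 15) (nat_lit 5) (nat_lit 17) (nat_lit 5) (nat_lit 18) (nat_lit 5) (nat_lit 279) (nat_lit 262) (nat_lit 179)) (XT.nd (nat_lit 78) (nat_lit 0) (nat_lit 0) (XT.lf (nat_lit 0) (nat_lit 697577714) (nat_lit 228) (nat_lit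 24393005498) (nat_lit 76) (nat_lit 26682329383) (nat_lit 14) (nat_lit 5) (nat_lit 17) (nat_lit 5) (nat_lit 15) (nat_lit 5) (nat_lit 280) (nat_lit 262) (nat_lit 178)) (XT.lf (nat_lit 0) (nat_lit 5872868169) (nat_lit 228) (nat_lit 6195569717) (nat_lit 76) (nat_lit 42606544030) (nat_lit 14) (nat_lit 5) (nat_lit 17) (nat_lit 5) (nat_lit 15) (nat_lit 5) (nat_lit 281) (nat_lit 262) (nat_lit 177))))))))
noncomputable def xc90 : XT := (XT.nd (nat_lit 1716) (nat_lit 152) (nat_lit 0) (XT.nd (nat_lit 858) (nat_lit 228) (nat_lit 0) (XT.nd (nat_lit 390) (nat_lit 304) (nat_lit 0) (XT.nd (nat_lit 156) (nat_lit 152) (nat_lit 0) (XT.nd (nat_lit 78) (nat_lit 0) (nat_lit 0) (XT.lf (nat_lit 0) (nat_lit 11856279869) (nat_lit 228) (nat_lit 43677274680) (nat_lit 76) (nat_lit 2244157932) (nat_lit 12) (nat_lit 5) (nat_lit 15) (nat_lit 5) (nat_lit 13) (nat_lit 5) (nat_lit 282) (nat_lit 262) (nat_lit 176))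 (XT.lf (nat_lit 0) (nat_lit 18802440311) (nat_lit 228) (nat_lit 25064937938) (nat_lit 76) (nat_lit 17222578973) (nat_lit 12) (nat_lit 5) (nat_lit 15) (nat_lit 5) (nat_lit 13) (nat_lit 5) (nat_lit 283) (nat_lit 262) (nat_lit 175))) (XT.nd (nat_lit 78) (nat_lit 152) (nat_lit 0) (XT.lf (nat_lit 0) (nat_lit 26301341817) (nat_lit 228) (nat_lit 4967721546) (nat_lit 76) (nat_lit 33398374500) (nat_lit 12) (nat_lit 5) (nat_lit 15) (nat_lit 5) (nat_lit 13) (nat_lit 5) (nat_lit 284) (nat_lit 262) (nat_lit 174)) (XT.nd (nat_lit 78) (nat_lit 0) (nat_lit 0) (XT.lf (nat_lit 0) (nat_lit 17614623938) (nat_lit 152) (nat_lit 17206430513) (nat_lit 228) (nat_lit 33676409271) (nat_lit 10) (nat_lit 5) (nat_lit 12) (nat_lit 5) (nat_lit 13) (nat_lit 5) (nat_lit 285) (nat_lit 262) (nat_lit 173)) (XT.lf (nat_lit 0) (nat_lit 42282369022) (nat_lit 152) (nat_lit 1873181570) (nat_lit 228) (nat_lit 28467701840)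 (nat_lit 10) (nat_lit 5) (nat_lit 12) (nat_lit 5) (nat_lit 13) (nat_lit 5) (nat_lit 286) (nat_lit 262) (nat_lit 172))))) (XT.nd (nat_lit 234) (nat_lit 228) (nat_lit 0) (XT.nd (nat_lit 78) (nat_lit 76) (nat_lit 0) (XT.lf (nat_lit 0) (nat_lit 54587572608) (nat_lit 228) (nat_lit 8512404738) (nat_lit 76) (nat_lit 13951081618) (nat_lit 10) (nat_lit 5) (nat_lit 13) (nat_lit 5) (nat_lit 11) (nat_lit 4) (nat_lit 287) (nat_lit 262) (nat_lit 171)) (XT.nd (nat_lit 78) (nat_lit 0) (nat_lit 0) (XT.lf (nat_lit 0) (nat_lit 15800766429) (nat_lit 76) (nat_lit 50479784353) (nat_lit 152) (nat_lit 15518442517) (nat_lit 9) (nat_lit 5) (nat_lit 10) (nat_lit 5) (nat_lit 11) (nat_lit 4) (nat_lit 288) (nat_lit 262) (nat_lit 170)) (XT.lf (nat_lit 0) (nat_lit 42539834040) (nat_lit 76) (nat_lit 36599698427) (nat_lit 152) (nat_lit 7768798429) (nat_lit 9) (nat_lit 5) (nat_lit 10) (nat_lit 5) (nat_lit 11) (nat_lit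 4) (nat_lit 289) (nat_lit 262) (nat_lit 169)))) (XT.nd (nat_lit 78) (nat_lit 152) (nat_lit 0) (XT.lf (nat_lit 0) (nat_lit 568679821) (nat_lit 152) (nat_lit 21025982901) (nat_lit 76) (nat_lit 70830775145) (nat_lit 8) (nat_lit 5) (nat_lit 10) (nat_lit 5) (nat_lit 9) (nat_lit 5) (nat_lit 290) (nat_lit 262) (nat_lit 168)) (XT.nd (nat_lit 78) (nat_lit 0) (nat_lit 0) (XT.lf (nat_lit 0) (nat_lit 4188772729) (nat_lit 152) (nat_lit 5063478955) (nat_lit 228) (nat_lit 89107624675) (nat_lit 6) (nat_lit 5) (nat_lit 8) (nat_lit 5) (nat_lit 9) (nat_lit 5) (nat_lit 291) (nat_lit 262) (nat_lit 167)) (XT.lf (nat_lit 0) (nat_lit 19526056716) (nat_lit 228) (nat_lit 72432113385) (nat_lit 76) (nat_lit 12739266134) (nat_lit 6) (nat_lit 5) (nat_lit 9) (nat_lit 5) (nat_lit 7) (nat_lit 4) (nat_lit 292) (nat_lit 262) (nat_lit 166)))))) (XT.nd (nat_lit 390) (nat_lit 152) (nat_lit 0) (XT.nd (nat_lit 156) (nat_lit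 76) (nat_lit 0) (XT.nd (nat_lit 78) (nat_lit 0) (nat_lit 0) (XT.lf (nat_lit 0) (nat_lit 30751547148) (nat_lit 228) (nat_lit 49088275445) (nat_lit 76) (nat_lit 31691805173) (nat_lit 6) (nat_lit 5) (nat_lit 9) (nat_lit 5) (nat_lit 7) (nat_lit 4) (nat_lit 293) (nat_lit 262) (nat_lit 165)) (XT.lf (nat_lit 0) (nat_lit 42873467616) (nat_lit 228) (nat_lit 23879479167) (nat_lit 76) (nat_lit 52159745229) (nat_lit 6) (nat_lit 5) (nat_lit 9) (nat_lit 5) (nat_lit 7) (nat_lit 4) (nat_lit 294) (nat_lit 262) (nat_lit 164))) (XT.nd (nat_lit 78) (nat_lit 0) (nat_lit 0) (XT.lf (nat_lit 0) (nat_lit 3519732165) (nat_lit 76) (nat_lit 52528569200) (nat_lit 152) (nat_lit 70829295275) (nat_lit 5) (nat_lit 5) (nat_lit 6) (nat_lit 5) (nat_lit 7) (nat_lit 4) (nat_lit 295) (nat_lit 262) (nat_lit 163)) (XT.nd (nat_lit 78) (nat_lit 0) (nat_lit 0) (XT.lf (nat_lit 0) (nat_lit 34466627385) (nat_lit 76) (nat_lit 36461966762)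 (nat_lit 152) (nat_lit 64498989125) (nat_lit 5) (nat_lit 5) (nat_lit 6) (nat_lit 5) (nat_lit 7) (nat_lit 4) (nat_lit 296) (nat_lit 262) (nat_lit 162)) (XT.lf (nat_lit 0) (nat_lit 67887144445) (nat_lit 76) (nat_lit 19110837251) (nat_lit 152) (nat_lit 57663700302) (nat_lit 5) (nat_lit 5) (nat_lit 6) (nat_lit 5) (nat_lit 7) (nat_lit 4) (nat_lit 297) (nat_lit 262) (nat_lit 161))))) (XT.nd (nat_lit 234) (nat_lit 76) (nat_lit 0) (XT.nd (nat_lit 78) (nat_lit 76) (nat_lit 0) (XT.lf (nat_lit 0) (nat_lit 103979330853) (nat_lit 76) (nat_lit 372359160) (nat_lit 152) (nat_lit 50282923390) (nat_lit 5) (nat_lit 5) (nat_lit 6) (nat_lit 5) (nat_lit 7) (nat_lit 4) (nat_lit 298) (nat_lit 262) (nat_lit 160)) (XT.nd (nat_lit 78) (nat_lit 76) (nat_lit 0) (XT.lf (nat_lit 0) (nat_lit 123570297839) (nat_lit 152) (nat_lit 22926152058) (nat_lit 0) (nat_lit 18870807085) (nat_lit 5) (nat_lit 5) (nat_lit 7) (nat_lit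 4) (nat_lit 5) (nat_lit 4) (nat_lit 299) (nat_lit 262) (nat_lit 159)) (XT.lf (nat_lit 0) (nat_lit 7378999418) (nat_lit 76) (nat_lit 137133461629) (nat_lit 76) (nat_lit 32431171115) (nat_lit 4) (nat_lit 4) (nat_lit 5) (nat_lit 5) (nat_lit 5) (nat_lit 4) (nat_lit 300) (nat_lit 262) (nat_lit 158)))) (XT.nd (nat_lit 78) (nat_lit 76) (nat_lit 0) (XT.lf (nat_lit 0) (nat_lit 41410673060) (nat_lit 76) (nat_lit 126345133735) (nat_lit 76) (nat_lit 21640250852) (nat_lit 4) (nat_lit 4) (nat_lit 5) (nat_lit 5) (nat_lit 5) (nat_lit 4) (nat_lit 301) (nat_lit 262) (nat_lit 157)) (XT.nd (nat_lit 78) (nat_lit 76) (nat_lit 0) (XT.lf (nat_lit 0) (nat_lit 78163287506) (nat_lit 76) (nat_lit 114694377011) (nat_lit 76) (nat_lit 9987093785) (nat_lit 4) (nat_lit 4) (nat_lit 5) (nat_lit 5) (nat_lit 5) (nat_lit 4) (nat_lit 302) (nat_lit 262) (nat_lit 156)) (XT.lf (nat_lit 0) (nat_lit 2467425571) (nat_lit 152)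 (nat_lit 99577260576) (nat_lit 76) (nat_lit 115319746667) (nat_lit 3) (nat_lit 5) (nat_lit 5) (nat_lit 5) (nat_lit 4) (nat_lit 4) (nat_lit 303) (nat_lit 262) (nat_lit 155))))))) (XT.nd (nat_lit 858) (nat_lit 76) (nat_lit 0) (XT.nd (nat_lit 390) (nat_lit 0) (nat_lit 0) (XT.nd (nat_lit 156) (nat_lit 76) (nat_lit 0) (XT.nd (nat_lit 78) (nat_lit 0) (nat_lit 0) (XT.lf (nat_lit 0) (nat_lit 15377899570) (nat_lit 152) (nat_lit 72725532566) (nat_lit 76) (nat_lit 144921568016) (nat_lit 3) (nat_lit 5) (nat_lit 5) (nat_lit 5) (nat_lit 4) (nat_lit 4) (nat_lit 304) (nat_lit 262) (nat_lit 154)) (XT.lf (nat_lit 0) (nat_lit 29320429602) (nat_lit 152) (nat_lit 43726975569) (nat_lit 76) (nat_lit 176891073693) (nat_lit 3) (nat_lit 5) (nat_lit 5) (nat_lit 5) (nat_lit 4) (nat_lit 4) (nat_lit 305) (nat_lit 262) (nat_lit 153))) (XT.nd (nat_lit 78) (nat_lit 76) (nat_lit 0) (XT.lf (nat_lit 0) (nat_lit 44377638067)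 (nat_lit 152) (nat_lit 12409746285) (nat_lit 76) (nat_lit 211417712621) (nat_lit 3) (nat_lit 5) (nat_lit 5) (nat_lit 5) (nat_lit 4) (nat_lit 4) (nat_lit 306) (nat_lit 262) (nat_lit 152)) (XT.nd (nat_lit 78) (nat_lit 0) (nat_lit 0) (XT.lf (nat_lit 0) (nat_lit 22539243091) (nat_lit 76) (nat_lit 38641579115) (nat_lit 152) (nat_lit 226708913352) (nat_lit 2) (nat_lit 5) (nat_lit 3) (nat_lit 5) (nat_lit 4) (nat_lit 4) (nat_lit 307) (nat_lit 262) (nat_lit 151)) (XT.lf (nat_lit 0) (nat_lit 60988810827) (nat_lit 76) (nat_lit 18678107705) (nat_lit 152) (nat_lit 229455136829) (nat_lit 2) (nat_lit 5) (nat_lit 3) (nat_lit 5) (nat_lit 4) (nat_lit 4) (nat_lit 308) (nat_lit 262) (nat_lit 150))))) (XT.nd (nat_lit 234) (nat_lit 0) (nat_lit 0) (XT.nd (nat_lit 78) (nat_lit 0) (nat_lit 0) (XT.lf (nat_lit 0) (nat_lit 99700616322) (nat_lit 152) (nat_lit 229608993065) (nat_lit 0) (nat_lit 2737856787) (nat_lit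 2) (nat_lit 5) (nat_lit 4) (nat_lit 4) (nat_lit 2) (nat_lit 4) (nat_lit 309) (nat_lit 262) (nat_lit 149)) (XT.nd (nat_lit 78) (nat_lit 0) (nat_lit 0) (XT.lf (nat_lit 0) (nat_lit 121821591675) (nat_lit 152) (nat_lit 210088922608) (nat_lit 0) (nat_lit 24857631371) (nat_lit 2) (nat_lit 5) (nat_lit 4) (nat_lit 4) (nat_lit 2) (nat_lit 4) (nat_lit 310) (nat_lit 262) (nat_lit 148)) (XT.lf (nat_lit 0) (nat_lit 145711722911) (nat_lit 152) (nat_lit 189008149732) (nat_lit 0) (nat_lit 48746650784) (nat_lit 2) (nat_lit 5) (nat_lit 4) (nat_lit 4) (nat_lit 2) (nat_lit 4) (nat_lit 311) (nat_lit 262) (nat_lit 147)))) (XT.nd (nat_lit 78) (nat_lit 0) (nat_lit 0) (XT.lf (nat_lit 0) (nat_lit 171512581181) (nat_lit 152) (nat_lit 166241751339) (nat_lit 0) (nat_lit 74546479588) (nat_lit 2) (nat_lit 5) (nat_lit 4) (nat_lit 4) (nat_lit 2) (nat_lit 4) (nat_lit 312) (nat_lit 262) (nat_lit 146)) (XT.nd (nat_lit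 78) (nat_lit 0) (nat_lit 0) (XT.lf (nat_lit 0) (nat_lit 199377060457) (nat_lit 152) (nat_lit 141654815437) (nat_lit 0) (nat_lit 102410005655) (nat_lit 2) (nat_lit 5) (nat_lit 4) (nat_lit 4) (nat_lit 2) (nat_lit 4) (nat_lit 313) (nat_lit 262) (nat_lit 145)) (XT.lf (nat_lit 0) (nat_lit 229470283582) (nat_lit 152) (nat_lit 115101641667) (nat_lit 0) (nat_lit 132502346179) (nat_lit 2) (nat_lit 5) (nat_lit 4) (nat_lit 4) (nat_lit 2) (nat_lit 4) (nat_lit 314) (nat_lit 262) (nat_lit 144)))))) (XT.nd (nat_lit 390) (nat_lit 0) (nat_lit 0) (XT.nd (nat_lit 156) (nat_lit 76) (nat_lit 0) (XT.nd (nat_lit 78) (nat_lit 0) (nat_lit 0) (XT.lf (nat_lit 0) (nat_lit 261970580765) (nat_lit 152) (nat_lit 86424877887) (nat_lit 0) (nat_lit 165001826138) (nat_lit 2) (nat_lit 5) (nat_lit 4) (nat_lit 4) (nat_lit 2) (nat_lit 4) (nat_lit 315) (nat_lit 262) (nat_lit 143)) (XT.lf (nat_lit 0) (nat_lit 297070546360)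 (nat_lit 152) (nat_lit 55454587719) (nat_lit 0) (nat_lit 200101035046) (nat_lit 2) (nat_lit 5) (nat_lit 4) (nat_lit 4) (nat_lit 2) (nat_lit 4) (nat_lit 316) (nat_lit 262) (nat_lit 142))) (XT.nd (nat_lit 78) (nat_lit 76) (nat_lit 0) (XT.lf (nat_lit 0) (nat_lit 334978180164) (nat_lit 152) (nat_lit 22007243518) (nat_lit 0) (nat_lit 238007968212) (nat_lit 2) (nat_lit 5) (nat_lit 4) (nat_lit 4) (nat_lit 2) (nat_lit 4) (nat_lit 317) (nat_lit 262) (nat_lit 141)) (XT.nd (nat_lit 78) (nat_lit 0) (nat_lit 0) (XT.lf (nat_lit 0) (nat_lit 14858651105) (nat_lit 76) (nat_lit 361416819817) (nat_lit 76) (nat_lit 264445959128) (nat_lit 1) (nat_lit 4) (nat_lit 2) (nat_lit 5) (nat_lit 2) (nat_lit 4) (nat_lit 318) (nat_lit 262) (nat_lit 140)) (XT.lf (nat_lit 0) (nat_lit 55924875062) (nat_lit 76) (nat_lit 365553092466) (nat_lit 76) (nat_lit 268581631093) (nat_lit 1) (nat_lit 4) (nat_lit 2) (nat_lit 5)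 (nat_lit 2) (nat_lit 4) (nat_lit 319) (nat_lit 262) (nat_lit 139))))) (XT.nd (nat_lit 234) (nat_lit 0) (nat_lit 0) (XT.nd (nat_lit 78) (nat_lit 0) (nat_lit 0) (XT.lf (nat_lit 0) (nat_lit 100275921308) (nat_lit 76) (nat_lit 370020469912) (nat_lit 76) (nat_lit 273048452351) (nat_lit 1) (nat_lit 4) (nat_lit 2) (nat_lit 5) (nat_lit 2) (nat_lit 4) (nat_lit 320) (nat_lit 262) (nat_lit 138)) (XT.nd (nat_lit 78) (nat_lit 0) (nat_lit 0) (XT.lf (nat_lit 0) (nat_lit 148174610860) (nat_lit 76) (nat_lit 374845425504) (nat_lit 76) (nat_lit 277872892954) (nat_lit 1) (nat_lit 4) (nat_lit 2) (nat_lit 5) (nat_lit 2) (nat_lit 4) (nat_lit 321) (nat_lit 262) (nat_lit 137)) (XT.lf (nat_lit 0) (nat_lit 199904787803) (nat_lit 76) (nat_lit 380056551570) (nat_lit 76) (nat_lit 283083542178) (nat_lit 1) (nat_lit 4) (nat_lit 2) (nat_lit 5) (nat_lit 2) (nat_lit 4) (nat_lit 322) (nat_lit 262) (nat_lit 136)))) (XT.nd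 (nat_lit 78) (nat_lit 0) (nat_lit 0) (XT.lf (nat_lit 0) (nat_lit 255773001334) (nat_lit 76) (nat_lit 385684728859) (nat_lit 76) (nat_lit 288711277947) (nat_lit 1) (nat_lit 4) (nat_lit 2) (nat_lit 5) (nat_lit 2) (nat_lit 4) (nat_lit 323) (nat_lit 262) (nat_lit 135)) (XT.nd (nat_lit 78) (nat_lit 0) (nat_lit 0) (XT.lf (nat_lit 0) (nat_lit 316110322347) (nat_lit 76) (nat_lit 391763309531) (nat_lit 76) (nat_lit 294789449804) (nat_lit 1) (nat_lit 4) (nat_lit 2) (nat_lit 5) (nat_lit 2) (nat_lit 4) (nat_lit 324) (nat_lit 262) (nat_lit 134)) (XT.lf (nat_lit 0) (nat_lit 381274305338) (nat_lit 76) (nat_lit 398328314806) (nat_lit 76) (nat_lit 301354076546) (nat_lit 1) (nat_lit 4) (nat_lit 2) (nat_lit 5) (nat_lit 2) (nat_lit 4) (nat_lit 325) (nat_lit 262) (nat_lit 133))))))))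
noncomputable def xc91 : XT := (XT.nd (nat_lit 34086) (nat_lit 0) (nat_lit 228) (XT.nd (nat_lit 33228) (nat_lit 0) (nat_lit 988) (XT.nd (nat_lit 32760) (nat_lit 0) (nat_lit 1900) (XT.nd (nat_lit 156) (nat_lit 0) (nat_lit 0) (XT.nd (nat_lit 78) (nat_lit 0) (nat_lit 0) (XT.lf (nat_lit 0) (nat_lit 451651107243) (nat_lit 76) (nat_lit 405418648418) (nat_lit 76) (nat_lit 308444059665) (nat_lit 1) (nat_lit 4) (nat_lit 2) (nat_lit 5) (nat_lit 2) (nat_lit 4) (nat_lit 326) (nat_lit 262) (nat_lit 132)) (XT.lf (nat_lit 0) (nat_lit 527657775778) (nat_lit 76) (nat_lit 413076327160) (nat_lit 76) (nat_lit 316101413876) (nat_lit 1) (nat_lit 4) (nat_lit 2) (nat_lit 5) (nat_lit 2) (nat_lit 4) (nat_lit 327) (nat_lit 262) (nat_lit 131))) (XT.nd (nat_lit 32448) (nat_lit 0) (nat_lit 2280) (XT.lf (nat_lit 0) (nat_lit 609744720828) (nat_lit 76) (nat_lit 421346729867) (nat_lit 76) (nat_lit 324371516092) (nat_lit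 1) (nat_lit 4) (nat_lit 2) (nat_lit 5) (nat_lit 2) (nat_lit 4) (nat_lit 328) (nat_lit 262) (nat_lit 130)) (XT.nd (nat_lit 78) (nat_lit 0) (nat_lit 0) (XT.lf (nat_lit 0) (nat_lit 5675879993) (nat_lit 0) (nat_lit 5675879993) (nat_lit 380) (nat_lit 811955453) (nat_lit 31) (nat_lit 5) (nat_lit 31) (nat_lit 3) (nat_lit 36) (nat_lit 3) (nat_lit 263) (nat_lit 263) (nat_lit 194)) (XT.lf (nat_lit 0) (nat_lit 21620122860) (nat_lit 0) (nat_lit 2083359340) (nat_lit 380) (nat_lit 1588760040) (nat_lit 31) (nat_lit 5) (nat_lit 31) (nat_lit 3) (nat_lit 36) (nat_lit 3) (nat_lit 264) (nat_lit 263) (nat_lit 193))))) (XT.nd (nat_lit 234) (nat_lit 0) (nat_lit 0) (XT.nd (nat_lit 78) (nat_lit 380) (nat_lit 0) (XT.lf (nat_lit 76) (nat_lit 6504954869) (nat_lit 0) (nat_lit 18616487605) (nat_lit 456) (nat_lit 1185850013) (nat_lit 32) (nat_lit 5) (nat_lit 31) (nat_lit 5) (nat_lit 37) (nat_lit 5) (nat_lit 265)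 (nat_lit 263) (nat_lit 192)) (XT.nd (nat_lit 78) (nat_lit 380) (nat_lit 0) (XT.lf (nat_lit 76) (nat_lit 17642676341) (nat_lit 0) (nat_lit 9154775272) (nat_lit 456) (nat_lit 594613270) (nat_lit 32) (nat_lit 5) (nat_lit 31) (nat_lit 5) (nat_lit 37) (nat_lit 5) (nat_lit 266) (nat_lit 263) (nat_lit 191)) (XT.lf (nat_lit 0) (nat_lit 87823890) (nat_lit 456) (nat_lit 27429205114) (nat_lit 532) (nat_lit 1042892336) (nat_lit 26) (nat_lit 5) (nat_lit 32) (nat_lit 5) (nat_lit 33) (nat_lit 5) (nat_lit 267) (nat_lit 263) (nat_lit 190)))) (XT.nd (nat_lit 78) (nat_lit 0) (nat_lit 0) (XT.lf (nat_lit 0) (nat_lit 1296357659) (nat_lit 456) (nat_lit 16630451604) (nat_lit 532) (nat_lit 11852940533) (nat_lit 26) (nat_lit 5) (nat_lit 32) (nat_lit 5) (nat_lit 33) (nat_lit 5) (nat_lit 268) (nat_lit 263) (nat_lit 189)) (XT.nd (nat_lit 78) (nat_lit 0) (nat_lit 76) (XT.lf (nat_lit 0) (nat_lit 2594491245) (nat_lit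 456) (nat_lit 4973447464) (nat_lit 532) (nat_lit 23529856466) (nat_lit 26) (nat_lit 5) (nat_lit 32) (nat_lit 5) (nat_lit 33) (nat_lit 5) (nat_lit 269) (nat_lit 263) (nat_lit 188)) (XT.lf (nat_lit 0) (nat_lit 4274687019) (nat_lit 456) (nat_lit 24586881131) (nat_lit 76) (nat_lit 3637518389) (nat_lit 27) (nat_lit 5) (nat_lit 33) (nat_lit 5) (nat_lit 28) (nat_lit 5) (nat_lit 270) (nat_lit 263) (nat_lit 187)))))) (XT.nd (nat_lit 390) (nat_lit 380) (nat_lit 0) (XT.nd (nat_lit 156) (nat_lit 228) (nat_lit 0) (XT.nd (nat_lit 78) (nat_lit 380) (nat_lit 0) (XT.lf (nat_lit 0) (nat_lit 6419214493) (nat_lit 456) (nat_lit 12095825146) (nat_lit 76) (nat_lit 15471103174) (nat_lit 27) (nat_lit 5) (nat_lit 33) (nat_lit 5) (nat_lit 28) (nat_lit 5) (nat_lit 271) (nat_lit 263) (nat_lit 186)) (XT.lf (nat_lit 0) (nat_lit 1462416127) (nat_lit 380) (nat_lit 7302347431) (nat_lit 456) (nat_lit 26825094098) (nat_lit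 22) (nat_lit 5) (nat_lit 27) (nat_lit 5) (nat_lit 28) (nat_lit 5) (nat_lit 272) (nat_lit 263) (nat_lit 185))) (XT.nd (nat_lit 78) (nat_lit 228) (nat_lit 0) (XT.lf (nat_lit 0) (nat_lit 11747480260) (nat_lit 456) (nat_lit 20632011370) (nat_lit 76) (nat_lit 4906463214) (nat_lit 22) (nat_lit 5) (nat_lit 28) (nat_lit 5) (nat_lit 23) (nat_lit 5) (nat_lit 273) (nat_lit 263) (nat_lit 184)) (XT.nd (nat_lit 78) (nat_lit 228) (nat_lit 0) (XT.lf (nat_lit 0) (nat_lit 15153481144) (nat_lit 456) (nat_lit 6251811765) (nat_lit 76) (nat_lit 17697717119) (nat_lit 22) (nat_lit 5) (nat_lit 28) (nat_lit 5) (nat_lit 23) (nat_lit 5) (nat_lit 274) (nat_lit 263) (nat_lit 183)) (XT.lf (nat_lit 0) (nat_lit 9762347051) (nat_lit 228) (nat_lit 9299765917) (nat_lit 304) (nat_lit 21984944928) (nat_lit 19) (nat_lit 5) (nat_lit 22) (nat_lit 5) (nat_lit 23) (nat_lit 5) (nat_lit 275) (nat_lit 263) (nat_lit 182))))) (XT.nd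 (nat_lit 234) (nat_lit 228) (nat_lit 0) (XT.nd (nat_lit 78) (nat_lit 152) (nat_lit 0) (XT.lf (nat_lit 0) (nat_lit 23545170401) (nat_lit 304) (nat_lit 15820049602) (nat_lit 76) (nat_lit 3760508141) (nat_lit 19) (nat_lit 5) (nat_lit 23) (nat_lit 5) (nat_lit 20) (nat_lit 5) (nat_lit 276) (nat_lit 263) (nat_lit 181)) (XT.nd (nat_lit 78) (nat_lit 0) (nat_lit 0) (XT.lf (nat_lit 0) (nat_lit 669004084) (nat_lit 152) (nat_lit 27971426825) (nat_lit 228) (nat_lit 16710011009) (nat_lit 17) (nat_lit 5) (nat_lit 19) (nat_lit 5) (nat_lit 20) (nat_lit 5) (nat_lit 277) (nat_lit 263) (nat_lit 180)) (XT.lf (nat_lit 0) (nat_lit 19372306763) (nat_lit 152) (nat_lit 15199662681) (nat_lit 228) (nat_lit 13146902800) (nat_lit 17) (nat_lit 5) (nat_lit 19) (nat_lit 5) (nat_lit 20) (nat_lit 5) (nat_lit 278) (nat_lit 263) (nat_lit 179)))) (XT.nd (nat_lit 78) (nat_lit 228) (nat_lit 0) (XT.lf (nat_lit 0) (nat_lit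 39567637042) (nat_lit 152) (nat_lit 1406791235) (nat_lit 228) (nat_lit 9302666593) (nat_lit 17) (nat_lit 5) (nat_lit 19) (nat_lit 5) (nat_lit 20) (nat_lit 5) (nat_lit 279) (nat_lit 263) (nat_lit 178)) (XT.nd (nat_lit 78) (nat_lit 76) (nat_lit 0) (XT.lf (nat_lit 0) (nat_lit 8431784396) (nat_lit 152) (nat_lit 39981157051) (nat_lit 228) (nat_lit 4585152706) (nat_lit 15) (nat_lit 5) (nat_lit 17) (nat_lit 5) (nat_lit 18) (nat_lit 5) (nat_lit 280) (nat_lit 263) (nat_lit 177)) (XT.lf (nat_lit 0) (nat_lit 817915427) (nat_lit 228) (nat_lit 26260665517) (nat_lit 76) (nat_lit 28830542907) (nat_lit 14) (nat_lit 5) (nat_lit 17) (nat_lit 5) (nat_lit 15) (nat_lit 5) (nat_lit 281) (nat_lit 263) (nat_lit 176))))))) (XT.nd (nat_lit 858) (nat_lit 152) (nat_lit 0) (XT.nd (nat_lit 390) (nat_lit 304) (nat_lit 0) (XT.nd (nat_lit 156) (nat_lit 152) (nat_lit 0) (XT.nd (nat_lit 78) (nat_lit 152) (nat_lit 0)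 (XT.lf (nat_lit 0) (nat_lit 6402449008) (nat_lit 228) (nat_lit 6613640830) (nat_lit 76) (nat_lit 46027685306) (nat_lit 14) (nat_lit 5) (nat_lit 17) (nat_lit 5) (nat_lit 15) (nat_lit 5) (nat_lit 282) (nat_lit 263) (nat_lit 175)) (XT.lf (nat_lit 0) (nat_lit 12862370177) (nat_lit 228) (nat_lit 47091325007) (nat_lit 76) (nat_lit 2441233545) (nat_lit 12) (nat_lit 5) (nat_lit 15) (nat_lit 5) (nat_lit 13) (nat_lit 5) (nat_lit 283) (nat_lit 263) (nat_lit 174))) (XT.nd (nat_lit 78) (nat_lit 152) (nat_lit 0) (XT.lf (nat_lit 0) (nat_lit 20359957683) (nat_lit 228) (nat_lit 26995937003) (nat_lit 76) (nat_lit 18616628789) (nat_lit 12) (nat_lit 5) (nat_lit 15) (nat_lit 5) (nat_lit 13) (nat_lit 5) (nat_lit 284) (nat_lit 263) (nat_lit 173)) (XT.nd (nat_lit 78) (nat_lit 152) (nat_lit 0) (XT.lf (nat_lit 0) (nat_lit 28454821521) (nat_lit 228) (nat_lit 5296439298) (nat_lit 76) (nat_lit 36085284737) (nat_lit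 12) (nat_lit 5) (nat_lit 15) (nat_lit 5) (nat_lit 13) (nat_lit 5) (nat_lit 285) (nat_lit 263) (nat_lit 172)) (XT.lf (nat_lit 0) (nat_lit 19090754585) (nat_lit 152) (nat_lit 18563309776) (nat_lit 228) (nat_lit 36319097870) (nat_lit 10) (nat_lit 5) (nat_lit 12) (nat_lit 5) (nat_lit 13) (nat_lit 5) (nat_lit 286) (nat_lit 263) (nat_lit 171))))) (XT.nd (nat_lit 234) (nat_lit 228) (nat_lit 0) (XT.nd (nat_lit 78) (nat_lit 76) (nat_lit 0) (XT.lf (nat_lit 0) (nat_lit 45726959222) (nat_lit 152) (nat_lit 2004855374) (nat_lit 228) (nat_lit 30697503040) (nat_lit 10) (nat_lit 5) (nat_lit 12) (nat_lit 5) (nat_lit 13) (nat_lit 5) (nat_lit 287) (nat_lit 263) (nat_lit 170)) (XT.nd (nat_lit 78) (nat_lit 76) (nat_lit 0) (XT.lf (nat_lit 0) (nat_lit 58995557309) (nat_lit 228) (nat_lit 9132880060) (nat_lit 76) (nat_lit 15083160043) (nat_lit 10) (nat_lit 5) (nat_lit 13) (nat_lit 5) (nat_lit 11) (nat_lit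 4) (nat_lit 288) (nat_lit 263) (nat_lit 169)) (XT.lf (nat_lit 0) (nat_lit 17123812723) (nat_lit 76) (nat_lit 54498544131) (nat_lit 152) (nat_lit 16717158840) (nat_lit 9) (nat_lit 5) (nat_lit 10) (nat_lit 5) (nat_lit 11) (nat_lit 4) (nat_lit 289) (nat_lit 263) (nat_lit 168)))) (XT.nd (nat_lit 78) (nat_lit 228) (nat_lit 0) (XT.lf (nat_lit 0) (nat_lit 45997636485) (nat_lit 76) (nat_lit 39509504884) (nat_lit 152) (nat_lit 8350710564) (nat_lit 9) (nat_lit 5) (nat_lit 10) (nat_lit 5) (nat_lit 11) (nat_lit 4) (nat_lit 290) (nat_lit 263) (nat_lit 167)) (XT.nd (nat_lit 78) (nat_lit 152) (nat_lit 0) (XT.lf (nat_lit 0) (nat_lit 648999392) (nat_lit 152) (nat_lit 22655460631) (nat_lit 76) (nat_lit 76512029902) (nat_lit 8) (nat_lit 5) (nat_lit 10) (nat_lit 5) (nat_lit 9) (nat_lit 5) (nat_lit 291) (nat_lit 263) (nat_lit 166)) (XT.lf (nat_lit 0) (nat_lit 4575143781) (nat_lit 152) (nat_lit 5450766606)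 (nat_lit 228) (nat_lit 96199895429) (nat_lit 6) (nat_lit 5) (nat_lit 8) (nat_lit 5) (nat_lit 9) (nat_lit 5) (nat_lit 292) (nat_lit 263) (nat_lit 165)))))) (XT.nd (nat_lit 390) (nat_lit 76) (nat_lit 0) (XT.nd (nat_lit 156) (nat_lit 76) (nat_lit 0) (XT.nd (nat_lit 78) (nat_lit 0) (nat_lit 0) (XT.lf (nat_lit 0) (nat_lit 21119536099) (nat_lit 228) (nat_lit 78176958363) (nat_lit 76) (nat_lit 13774056225) (nat_lit 6) (nat_lit 5) (nat_lit 9) (nat_lit 5) (nat_lit 7) (nat_lit 4) (nat_lit 293) (nat_lit 263) (nat_lit 164)) (XT.lf (nat_lit 0) (nat_lit 33240740222) (nat_lit 228) (nat_lit 52969296655) (nat_lit 76) (nat_lit 34241639217) (nat_lit 6) (nat_lit 5) (nat_lit 9) (nat_lit 5) (nat_lit 7) (nat_lit 4) (nat_lit 294) (nat_lit 263) (nat_lit 163))) (XT.nd (nat_lit 78) (nat_lit 76) (nat_lit 0) (XT.lf (nat_lit 0) (nat_lit 46330261046) (nat_lit 228) (nat_lit 25747207106) (nat_lit 76) (nat_lit 56345941171)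 (nat_lit 6) (nat_lit 5) (nat_lit 9) (nat_lit 5) (nat_lit 7) (nat_lit 4) (nat_lit 295) (nat_lit 263) (nat_lit 162)) (XT.nd (nat_lit 78) (nat_lit 0) (nat_lit 0) (XT.lf (nat_lit 0) (nat_lit 3842861883) (nat_lit 76) (nat_lit 56715225139) (nat_lit 152) (nat_lit 76467509580) (nat_lit 5) (nat_lit 5) (nat_lit 6) (nat_lit 5) (nat_lit 7) (nat_lit 4) (nat_lit 296) (nat_lit 263) (nat_lit 161)) (XT.lf (nat_lit 0) (nat_lit 37262430858) (nat_lit 76) (nat_lit 39364452254) (nat_lit 152) (nat_lit 69632862592) (nat_lit 5) (nat_lit 5) (nat_lit 6) (nat_lit 5) (nat_lit 7) (nat_lit 4) (nat_lit 297) (nat_lit 263) (nat_lit 160))))) (XT.nd (nat_lit 234) (nat_lit 76) (nat_lit 0) (XT.nd (nat_lit 78) (nat_lit 0) (nat_lit 0) (XT.lf (nat_lit 0) (nat_lit 73353739409) (nat_lit 76) (nat_lit 20626304371) (nat_lit 152) (nat_lit 62252679971) (nat_lit 5) (nat_lit 5) (nat_lit 6) (nat_lit 5) (nat_lit 7) (nat_lit 4) (nat_lit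 298) (nat_lit 263) (nat_lit 159)) (XT.nd (nat_lit 78) (nat_lit 0) (nat_lit 0) (XT.lf (nat_lit 0) (nat_lit 112330661959) (nat_lit 76) (nat_lit 389740615) (nat_lit 152) (nat_lit 54283227303) (nat_lit 5) (nat_lit 5) (nat_lit 6) (nat_lit 5) (nat_lit 7) (nat_lit 4) (nat_lit 299) (nat_lit 263) (nat_lit 158)) (XT.lf (nat_lit 0) (nat_lit 133475251069) (nat_lit 152) (nat_lit 24728356407) (nat_lit 0) (nat_lit 20391385185) (nat_lit 5) (nat_lit 5) (nat_lit 7) (nat_lit 4) (nat_lit 5) (nat_lit 4) (nat_lit 300) (nat_lit 263) (nat_lit 157)))) (XT.nd (nat_lit 78) (nat_lit 0) (nat_lit 0) (XT.lf (nat_lit 0) (nat_lit 8000399901) (nat_lit 76) (nat_lit 148091703113) (nat_lit 76) (nat_lit 35005436886) (nat_lit 4) (nat_lit 4) (nat_lit 5) (nat_lit 5) (nat_lit 5) (nat_lit 4) (nat_lit 301) (nat_lit 263) (nat_lit 156)) (XT.nd (nat_lit 78) (nat_lit 0) (nat_lit 0) (XT.lf (nat_lit 0) (nat_lit 44752305173) (nat_lit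 76) (nat_lit 136441230132) (nat_lit 76) (nat_lit 23352741366) (nat_lit 4) (nat_lit 4) (nat_lit 5) (nat_lit 5) (nat_lit 5) (nat_lit 4) (nat_lit 302) (nat_lit 263) (nat_lit 155)) (XT.lf (nat_lit 0) (nat_lit 84442997051) (nat_lit 76) (nat_lit 123859265782) (nat_lit 76) (nat_lit 10768719108) (nat_lit 4) (nat_lit 4) (nat_lit 5) (nat_lit 5) (nat_lit 5) (nat_lit 4) (nat_lit 303) (nat_lit 263) (nat_lit 154))))))))
noncomputable def xc92 : XT := (XT.nd (nat_lit 1716) (nat_lit 0) (nat_lit 0) (XT.nd (nat_lit 858) (nat_lit 76) (nat_lit 0) (XT.nd (nat_lit 390) (nat_lit 0) (nat_lit 0) (XT.nd (nat_lit 156) (nat_lit 76) (nat_lit 0) (XT.nd (nat_lit 78) (nat_lit 0) (nat_lit 0) (XT.lf (nat_lit 0) (nat_lit 2680073926) (nat_lit 152) (nat_lit 107517898375) (nat_lit 76) (nat_lit 124554327738) (nat_lit 3) (nat_lit 5) (nat_lit 5) (nat_lit 5) (nat_lit 4) (nat_lit 4) (nat_lit 304) (nat_lit 263) (nat_lit 153))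 (XT.lf (nat_lit 0) (nat_lit 16622255896) (nat_lit 152) (nat_lit 78519924202) (nat_lit 76) (nat_lit 156523628029) (nat_lit 3) (nat_lit 5) (nat_lit 5) (nat_lit 5) (nat_lit 4) (nat_lit 4) (nat_lit 305) (nat_lit 263) (nat_lit 152))) (XT.nd (nat_lit 78) (nat_lit 76) (nat_lit 0) (XT.lf (nat_lit 0) (nat_lit 31679142081) (nat_lit 152) (nat_lit 47203234569) (nat_lit 76) (nat_lit 191050076785) (nat_lit 3) (nat_lit 5) (nat_lit 5) (nat_lit 5) (nat_lit 4) (nat_lit 4) (nat_lit 306) (nat_lit 263) (nat_lit 151)) (XT.nd (nat_lit 78) (nat_lit 76) (nat_lit 0) (XT.lf (nat_lit 0) (nat_lit 47939958475) (nat_lit 152) (nat_lit 13382249093) (nat_lit 76) (nat_lit 228338275183) (nat_lit 3) (nat_lit 5) (nat_lit 5) (nat_lit 5) (nat_lit 4) (nat_lit 4) (nat_lit 307) (nat_lit 263) (nat_lit 150)) (XT.lf (nat_lit 0) (nat_lit 24362146094) (nat_lit 76) (nat_lit 41724829575) (nat_lit 152) (nat_lit 244832954431) (nat_lit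 2) (nat_lit 5) (nat_lit 3) (nat_lit 5) (nat_lit 4) (nat_lit 4) (nat_lit 308) (nat_lit 263) (nat_lit 149))))) (XT.nd (nat_lit 234) (nat_lit 0) (nat_lit 0) (XT.nd (nat_lit 78) (nat_lit 0) (nat_lit 0) (XT.lf (nat_lit 0) (nat_lit 65886215282) (nat_lit 76) (nat_lit 20164878665) (nat_lit 152) (nat_lit 247799814452) (nat_lit 2) (nat_lit 5) (nat_lit 3) (nat_lit 5) (nat_lit 4) (nat_lit 4) (nat_lit 309) (nat_lit 263) (nat_lit 148)) (XT.nd (nat_lit 78) (nat_lit 0) (nat_lit 0) (XT.lf (nat_lit 0) (nat_lit 107686852452) (nat_lit 152) (nat_lit 247960091083) (nat_lit 0) (nat_lit 2963462732) (nat_lit 2) (nat_lit 5) (nat_lit 4) (nat_lit 4) (nat_lit 2) (nat_lit 4) (nat_lit 310) (nat_lit 263) (nat_lit 147)) (XT.lf (nat_lit 0) (nat_lit 131576751253) (nat_lit 152) (nat_lit 226879720280) (nat_lit 0) (nat_lit 26852332067) (nat_lit 2) (nat_lit 5) (nat_lit 4) (nat_lit 4) (nat_lit 2) (nat_lit 4) (nat_lit 311)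 (nat_lit 263) (nat_lit 146)))) (XT.nd (nat_lit 78) (nat_lit 0) (nat_lit 0) (XT.lf (nat_lit 0) (nat_lit 157377394304) (nat_lit 152) (nat_lit 204113694177) (nat_lit 0) (nat_lit 52652021909) (nat_lit 2) (nat_lit 5) (nat_lit 4) (nat_lit 4) (nat_lit 2) (nat_lit 4) (nat_lit 312) (nat_lit 263) (nat_lit 145)) (XT.nd (nat_lit 78) (nat_lit 0) (nat_lit 0) (XT.lf (nat_lit 0) (nat_lit 185241674304) (nat_lit 152) (nat_lit 179527102988) (nat_lit 0) (nat_lit 80515419308) (nat_lit 2) (nat_lit 5) (nat_lit 4) (nat_lit 4) (nat_lit 2) (nat_lit 4) (nat_lit 313) (nat_lit 263) (nat_lit 144)) (XT.lf (nat_lit 0) (nat_lit 215334712914) (nat_lit 152) (nat_lit 152974248397) (nat_lit 0) (nat_lit 110607640694) (nat_lit 2) (nat_lit 5) (nat_lit 4) (nat_lit 4) (nat_lit 2) (nat_lit 4) (nat_lit 314) (nat_lit 263) (nat_lit 143)))))) (XT.nd (nat_lit 390) (nat_lit 0) (nat_lit 0) (XT.nd (nat_lit 156) (nat_lit 76) (nat_lit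 0) (XT.nd (nat_lit 78) (nat_lit 0) (nat_lit 0) (XT.lf (nat_lit 0) (nat_lit 247834839249) (nat_lit 152) (nat_lit 124297780153) (nat_lit 0) (nat_lit 143107010342) (nat_lit 2) (nat_lit 5) (nat_lit 4) (nat_lit 4) (nat_lit 2) (nat_lit 4) (nat_lit 315) (nat_lit 263) (nat_lit 142)) (XT.lf (nat_lit 0) (nat_lit 282934646653) (nat_lit 152) (nat_lit 93327763629) (nat_lit 0) (nat_lit 178206117108) (nat_lit 2) (nat_lit 5) (nat_lit 4) (nat_lit 4) (nat_lit 2) (nat_lit 4) (nat_lit 316) (nat_lit 263) (nat_lit 141))) (XT.nd (nat_lit 78) (nat_lit 76) (nat_lit 0) (XT.lf (nat_lit 0) (nat_lit 320842133983) (nat_lit 152) (nat_lit 59880672803) (nat_lit 0) (nat_lit 216112955700) (nat_lit 2) (nat_lit 5) (nat_lit 4) (nat_lit 4) (nat_lit 2) (nat_lit 4) (nat_lit 317) (nat_lit 263) (nat_lit 140)) (XT.nd (nat_lit 78) (nat_lit 76) (nat_lit 0) (XT.lf (nat_lit 0) (nat_lit 361781938201) (nat_lit 152) (nat_lit 23758302691)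 (nat_lit 0) (nat_lit 257052159235) (nat_lit 2) (nat_lit 5) (nat_lit 4) (nat_lit 4) (nat_lit 2) (nat_lit 4) (nat_lit 318) (nat_lit 263) (nat_lit 139)) (XT.lf (nat_lit 0) (nat_lit 16056622482) (nat_lit 76) (nat_lit 390326205229) (nat_lit 76) (nat_lit 285595870075) (nat_lit 1) (nat_lit 4) (nat_lit 2) (nat_lit 5) (nat_lit 2) (nat_lit 4) (nat_lit 319) (nat_lit 263) (nat_lit 138))))) (XT.nd (nat_lit 234) (nat_lit 0) (nat_lit 0) (XT.nd (nat_lit 78) (nat_lit 0) (nat_lit 0) (XT.lf (nat_lit 0) (nat_lit 60407457000) (nat_lit 76) (nat_lit 394793673036) (nat_lit 76) (nat_lit 290062822892) (nat_lit 1) (nat_lit 4) (nat_lit 2) (nat_lit 5) (nat_lit 2) (nat_lit 4) (nat_lit 320) (nat_lit 263) (nat_lit 137)) (XT.nd (nat_lit 78) (nat_lit 0) (nat_lit 0) (XT.lf (nat_lit 0) (nat_lit 108305950507) (nat_lit 76) (nat_lit 399618712295) (nat_lit 76) (nat_lit 294887385309) (nat_lit 1) (nat_lit 4) (nat_lit 2) (nat_lit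 5) (nat_lit 2) (nat_lit 4) (nat_lit 321) (nat_lit 263) (nat_lit 136)) (XT.lf (nat_lit 0) (nat_lit 160035945927) (nat_lit 76) (nat_lit 404829915831) (nat_lit 76) (nat_lit 300098147325) (nat_lit 1) (nat_lit 4) (nat_lit 2) (nat_lit 5) (nat_lit 2) (nat_lit 4) (nat_lit 322) (nat_lit 263) (nat_lit 135)))) (XT.nd (nat_lit 78) (nat_lit 0) (nat_lit 0) (XT.lf (nat_lit 0) (nat_lit 215903991381) (nat_lit 76) (nat_lit 410458164850) (nat_lit 76) (nat_lit 305725987530) (nat_lit 1) (nat_lit 4) (nat_lit 2) (nat_lit 5) (nat_lit 2) (nat_lit 4) (nat_lit 323) (nat_lit 263) (nat_lit 134)) (XT.nd (nat_lit 78) (nat_lit 0) (nat_lit 0) (XT.lf (nat_lit 0) (nat_lit 276241156768) (nat_lit 76) (nat_lit 416536811940) (nat_lit 76) (nat_lit 311804256087) (nat_lit 1) (nat_lit 4) (nat_lit 2) (nat_lit 5) (nat_lit 2) (nat_lit 4) (nat_lit 324) (nat_lit 263) (nat_lit 133)) (XT.lf (nat_lit 0) (nat_lit 341404995661) (nat_lit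 76) (nat_lit 423101878713) (nat_lit 76) (nat_lit 318368972367) (nat_lit 1) (nat_lit 4) (nat_lit 2) (nat_lit 5) (nat_lit 2) (nat_lit 4) (nat_lit 325) (nat_lit 263) (nat_lit 132))))))) (XT.nd (nat_lit 33306) (nat_lit 0) (nat_lit 988) (XT.nd (nat_lit 32838) (nat_lit 0) (nat_lit 1900) (XT.nd (nat_lit 156) (nat_lit 0) (nat_lit 0) (XT.nd (nat_lit 78) (nat_lit 0) (nat_lit 0) (XT.lf (nat_lit 0) (nat_lit 411781664141) (nat_lit 76) (nat_lit 430192269267) (nat_lit 76) (nat_lit 325459038391) (nat_lit 1) (nat_lit 4) (nat_lit 2) (nat_lit 5) (nat_lit 2) (nat_lit 4) (nat_lit 326) (nat_lit 263) (nat_lit 131)) (XT.lf (nat_lit 0) (nat_lit 487788209134) (nat_lit 76) (nat_lit 437850000733) (nat_lit 76) (nat_lit 333116469365) (nat_lit 1) (nat_lit 4) (nat_lit 2) (nat_lit 5) (nat_lit 2) (nat_lit 4) (nat_lit 327) (nat_lit 263) (nat_lit 130))) (XT.nd (nat_lit 32526) (nat_lit 0) (nat_lit 2280) (XT.lf (nat_lit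 0) (nat_lit 569875039794) (nat_lit 76) (nat_lit 446120452260) (nat_lit 76) (nat_lit 341386642659) (nat_lit 1) (nat_lit 4) (nat_lit 2) (nat_lit 5) (nat_lit 2) (nat_lit 4) (nat_lit 328) (nat_lit 263) (nat_lit 129)) (XT.nd (nat_lit 78) (nat_lit 0) (nat_lit 0) (XT.lf (nat_lit 0) (nat_lit 6174756953) (nat_lit 0) (nat_lit 6174756953) (nat_lit 380) (nat_lit 779212169) (nat_lit 31) (nat_lit 5) (nat_lit 31) (nat_lit 3) (nat_lit 36) (nat_lit 3) (nat_lit 264) (nat_lit 264) (nat_lit 192)) (XT.lf (nat_lit 0) (nat_lit 23432707802) (nat_lit 0) (nat_lit 2333003200) (nat_lit 380) (nat_lit 1534935436) (nat_lit 31) (nat_lit 5) (nat_lit 31) (nat_lit 3) (nat_lit 36) (nat_lit 3) (nat_lit 265) (nat_lit 264) (nat_lit 191))))) (XT.nd (nat_lit 234) (nat_lit 0) (nat_lit 0) (XT.nd (nat_lit 78) (nat_lit 380) (nat_lit 0) (XT.lf (nat_lit 76) (nat_lit 7122766832) (nat_lit 0) (nat_lit 20162543768) (nat_lit 456) (nat_lit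 1112659767) (nat_lit 32) (nat_lit 5) (nat_lit 31) (nat_lit 5) (nat_lit 37) (nat_lit 5) (nat_lit 266) (nat_lit 264) (nat_lit 190)) (XT.nd (nat_lit 78) (nat_lit 380) (nat_lit 0) (XT.lf (nat_lit 76) (nat_lit 19144290053) (nat_lit 0) (nat_lit 9939691696) (nat_lit 456) (nat_lit 486572844) (nat_lit 32) (nat_lit 5) (nat_lit 31) (nat_lit 5) (nat_lit 37) (nat_lit 5) (nat_lit 267) (nat_lit 264) (nat_lit 189)) (XT.lf (nat_lit 0) (nat_lit 233034145) (nat_lit 456) (nat_lit 29513318988) (nat_lit 532) (nat_lit 1086058230) (nat_lit 26) (nat_lit 5) (nat_lit 32) (nat_lit 5) (nat_lit 33) (nat_lit 5) (nat_lit 268) (nat_lit 264) (nat_lit 188)))) (XT.nd (nat_lit 78) (nat_lit 0) (nat_lit 0) (XT.lf (nat_lit 0) (nat_lit 1528014738) (nat_lit 456) (nat_lit 17858829828) (nat_lit 532) (nat_lit 12763892913) (nat_lit 26) (nat_lit 5) (nat_lit 32) (nat_lit 5) (nat_lit 33) (nat_lit 5) (nat_lit 269) (nat_lit 264) (nat_lit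 187)) (XT.nd (nat_lit 78) (nat_lit 0) (nat_lit 76) (XT.lf (nat_lit 0) (nat_lit 2920521347) (nat_lit 456) (nat_lit 5276825202) (nat_lit 532) (nat_lit 25377723814) (nat_lit 26) (nat_lit 5) (nat_lit 32) (nat_lit 5) (nat_lit 33) (nat_lit 5) (nat_lit 270) (nat_lit 264) (nat_lit 186)) (XT.lf (nat_lit 0) (nat_lit 4728096011) (nat_lit 456) (nat_lit 26451305344) (nat_lit 76) (nat_lit 3909705939) (nat_lit 27) (nat_lit 5) (nat_lit 33) (nat_lit 5) (nat_lit 28) (nat_lit 5) (nat_lit 271) (nat_lit 264) (nat_lit 185)))))) (XT.nd (nat_lit 390) (nat_lit 380) (nat_lit 0) (XT.nd (nat_lit 156) (nat_lit 228) (nat_lit 0) (XT.nd (nat_lit 78) (nat_lit 380) (nat_lit 0) (XT.lf (nat_lit 0) (nat_lit 7035931311) (nat_lit 456) (nat_lit 12968559420) (nat_lit 76) (nat_lit 16691371130) (nat_lit 27) (nat_lit 5) (nat_lit 33) (nat_lit 5) (nat_lit 28) (nat_lit 5) (nat_lit 272) (nat_lit 264) (nat_lit 184)) (XT.lf (nat_lit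 0) (nat_lit 1671937821) (nat_lit 380) (nat_lit 7891768853) (nat_lit 456) (nat_lit 28864668627) (nat_lit 22) (nat_lit 5) (nat_lit 27) (nat_lit 5) (nat_lit 28) (nat_lit 5) (nat_lit 273) (nat_lit 264) (nat_lit 183))) (XT.nd (nat_lit 78) (nat_lit 228) (nat_lit 0) (XT.lf (nat_lit 0) (nat_lit 12777682534) (nat_lit 456) (nat_lit 22188752613) (nat_lit 76) (nat_lit 5294376734) (nat_lit 22) (nat_lit 5) (nat_lit 28) (nat_lit 5) (nat_lit 23) (nat_lit 5) (nat_lit 274) (nat_lit 264) (nat_lit 182)) (XT.nd (nat_lit 78) (nat_lit 228) (nat_lit 0) (XT.lf (nat_lit 0) (nat_lit 16449466907) (nat_lit 456) (nat_lit 6665086645) (nat_lit 76) (nat_lit 19109271954) (nat_lit 22) (nat_lit 5) (nat_lit 28) (nat_lit 5) (nat_lit 23) (nat_lit 5) (nat_lit 275) (nat_lit 264) (nat_lit 181)) (XT.lf (nat_lit 0) (nat_lit 10628005635) (nat_lit 228) (nat_lit 10038619440) (nat_lit 304) (nat_lit 23657159247) (nat_lit 19) (nat_lit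 5) (nat_lit 22) (nat_lit 5) (nat_lit 23) (nat_lit 5) (nat_lit 276) (nat_lit 264) (nat_lit 180))))) (XT.nd (nat_lit 234) (nat_lit 228) (nat_lit 0) (XT.nd (nat_lit 78) (nat_lit 152) (nat_lit 0) (XT.lf (nat_lit 0) (nat_lit 25502549209) (nat_lit 304) (nat_lit 17000851993) (nat_lit 76) (nat_lit 4065859200) (nat_lit 19) (nat_lit 5) (nat_lit 23) (nat_lit 5) (nat_lit 20) (nat_lit 5) (nat_lit 277) (nat_lit 264) (nat_lit 179)) (XT.nd (nat_lit 78) (nat_lit 0) (nat_lit 0) (XT.lf (nat_lit 0) (nat_lit 805179113) (nat_lit 152) (nat_lit 30196775206) (nat_lit 228) (nat_lit 17970321338) (nat_lit 17) (nat_lit 5) (nat_lit 19) (nat_lit 5) (nat_lit 20) (nat_lit 5) (nat_lit 278) (nat_lit 264) (nat_lit 178)) (XT.lf (nat_lit 0) (nat_lit 20998623435) (nat_lit 152) (nat_lit 16404185913) (nat_lit 228) (nat_lit 14127830439) (nat_lit 17) (nat_lit 5) (nat_lit 19) (nat_lit 5) (nat_lit 20) (nat_lit 5) (nat_lit 279)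 (nat_lit 264) (nat_lit 177)))) (XT.nd (nat_lit 78) (nat_lit 228) (nat_lit 0) (XT.lf (nat_lit 0) (nat_lit 42803911090) (nat_lit 152) (nat_lit 1508732884) (nat_lit 228) (nat_lit 9981301602) (nat_lit 17) (nat_lit 5) (nat_lit 19) (nat_lit 5) (nat_lit 20) (nat_lit 5) (nat_lit 280) (nat_lit 264) (nat_lit 176)) (XT.nd (nat_lit 78) (nat_lit 76) (nat_lit 0) (XT.lf (nat_lit 0) (nat_lit 9180329995) (nat_lit 152) (nat_lit 43163460245) (nat_lit 228) (nat_lit 4889067135) (nat_lit 15) (nat_lit 5) (nat_lit 17) (nat_lit 5) (nat_lit 18) (nat_lit 5) (nat_lit 281) (nat_lit 264) (nat_lit 175)) (XT.lf (nat_lit 0) (nat_lit 938674019) (nat_lit 228) (nat_lit 28289690551) (nat_lit 76) (nat_lit 31148669444) (nat_lit 14) (nat_lit 5) (nat_lit 17) (nat_lit 5) (nat_lit 15) (nat_lit 5) (nat_lit 282) (nat_lit 264) (nat_lit 174))))))))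
noncomputable def xc93 : XT := (XT.nd (nat_lit 1716) (nat_lit 228) (nat_lit 0) (XT.nd (nat_lit 858) (nat_lit 152) (nat_lit 0) (XT.nd (nat_lit 390) (nat_lit 304) (nat_lit 0) (XT.nd (nat_lit 156) (nat_lit 152) (nat_lit 0) (XT.nd (nat_lit 78) (nat_lit 152) (nat_lit 0) (XT.lf (nat_lit 0) (nat_lit 6965872111) (nat_lit 228) (nat_lit 7076224497) (nat_lit 76) (nat_lit 49720717820) (nat_lit 14) (nat_lit 5) (nat_lit 17) (nat_lit 5) (nat_lit 15) (nat_lit 5) (nat_lit 283) (nat_lit 264) (nat_lit 173)) (XT.lf (nat_lit 0) (nat_lit 13940732149) (nat_lit 228) (nat_lit 50789931035) (nat_lit 76) (nat_lit 2651572506) (nat_lit 12) (nat_lit 5) (nat_lit 15) (nat_lit 5) (nat_lit 13) (nat_lit 5) (nat_lit 284) (nat_lit 264) (nat_lit 172))) (XT.nd (nat_lit 78) (nat_lit 152) (nat_lit 0) (XT.lf (nat_lit 0) (nat_lit 22034469444) (nat_lit 228) (nat_lit 29092000878) (nat_lit 76) (nat_lit 20119885275) (nat_lit 12)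 (nat_lit 5) (nat_lit 15) (nat_lit 5) (nat_lit 13) (nat_lit 5) (nat_lit 285) (nat_lit 264) (nat_lit 171)) (XT.nd (nat_lit 78) (nat_lit 152) (nat_lit 0) (XT.lf (nat_lit 0) (nat_lit 30773536082) (nat_lit 228) (nat_lit 5661255289) (nat_lit 76) (nat_lit 38985002129) (nat_lit 12) (nat_lit 5) (nat_lit 15) (nat_lit 5) (nat_lit 13) (nat_lit 5) (nat_lit 286) (nat_lit 264) (nat_lit 170)) (XT.lf (nat_lit 0) (nat_lit 20675422988) (nat_lit 152) (nat_lit 20031540557) (nat_lit 228) (nat_lit 39180537785) (nat_lit 10) (nat_lit 5) (nat_lit 12) (nat_lit 5) (nat_lit 13) (nat_lit 5) (nat_lit 287) (nat_lit 264) (nat_lit 169))))) (XT.nd (nat_lit 234) (nat_lit 228) (nat_lit 0) (XT.nd (nat_lit 78) (nat_lit 76) (nat_lit 0) (XT.lf (nat_lit 0) (nat_lit 49438271548) (nat_lit 152) (nat_lit 2149656767) (nat_lit 228) (nat_lit 33112481141) (nat_lit 10) (nat_lit 5) (nat_lit 12) (nat_lit 5) (nat_lit 13) (nat_lit 5)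 (nat_lit 288) (nat_lit 264) (nat_lit 168)) (XT.nd (nat_lit 78) (nat_lit 76) (nat_lit 0) (XT.lf (nat_lit 0) (nat_lit 63750334689) (nat_lit 228) (nat_lit 9811626843) (nat_lit 76) (nat_lit 16303523320) (nat_lit 10) (nat_lit 5) (nat_lit 13) (nat_lit 5) (nat_lit 11) (nat_lit 4) (nat_lit 289) (nat_lit 264) (nat_lit 167)) (XT.lf (nat_lit 0) (nat_lit 18544287854) (nat_lit 76) (nat_lit 58841604128) (nat_lit 152) (nat_lit 18017872529) (nat_lit 9) (nat_lit 5) (nat_lit 10) (nat_lit 5) (nat_lit 11) (nat_lit 4) (nat_lit 290) (nat_lit 264) (nat_lit 166)))) (XT.nd (nat_lit 78) (nat_lit 228) (nat_lit 0) (XT.lf (nat_lit 0) (nat_lit 49724271583) (nat_lit 76) (nat_lit 42654687928) (nat_lit 152) (nat_lit 8984823874) (nat_lit 9) (nat_lit 5) (nat_lit 10) (nat_lit 5) (nat_lit 11) (nat_lit 4) (nat_lit 291) (nat_lit 264) (nat_lit 165)) (XT.nd (nat_lit 78) (nat_lit 152) (nat_lit 0) (XT.lf (nat_lit 0) (nat_lit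 730776326) (nat_lit 152) (nat_lit 24422800687) (nat_lit 76) (nat_lit 82645674689) (nat_lit 8) (nat_lit 5) (nat_lit 10) (nat_lit 5) (nat_lit 9) (nat_lit 5) (nat_lit 292) (nat_lit 264) (nat_lit 164)) (XT.lf (nat_lit 0) (nat_lit 4985110388) (nat_lit 152) (nat_lit 5871575307) (nat_lit 228) (nat_lit 103864732038) (nat_lit 6) (nat_lit 5) (nat_lit 8) (nat_lit 5) (nat_lit 9) (nat_lit 5) (nat_lit 293) (nat_lit 264) (nat_lit 163)))))) (XT.nd (nat_lit 390) (nat_lit 76) (nat_lit 0) (XT.nd (nat_lit 156) (nat_lit 76) (nat_lit 0) (XT.nd (nat_lit 78) (nat_lit 0) (nat_lit 0) (XT.lf (nat_lit 0) (nat_lit 22836015008) (nat_lit 228) (nat_lit 84388484637) (nat_lit 76) (nat_lit 14889397047) (nat_lit 6) (nat_lit 5) (nat_lit 9) (nat_lit 5) (nat_lit 7) (nat_lit 4) (nat_lit 294) (nat_lit 264) (nat_lit 162)) (XT.lf (nat_lit 0) (nat_lit 35924921681) (nat_lit 228) (nat_lit 57167367799) (nat_lit 76) (nat_lit 36993392877)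 (nat_lit 6) (nat_lit 5) (nat_lit 9) (nat_lit 5) (nat_lit 7) (nat_lit 4) (nat_lit 295) (nat_lit 264) (nat_lit 161))) (XT.nd (nat_lit 78) (nat_lit 76) (nat_lit 0) (XT.lf (nat_lit 0) (nat_lit 50059758079) (nat_lit 228) (nat_lit 27770434982) (nat_lit 76) (nat_lit 60865118800) (nat_lit 6) (nat_lit 5) (nat_lit 9) (nat_lit 5) (nat_lit 7) (nat_lit 4) (nat_lit 296) (nat_lit 264) (nat_lit 160)) (XT.nd (nat_lit 78) (nat_lit 0) (nat_lit 0) (XT.lf (nat_lit 0) (nat_lit 4185914243) (nat_lit 76) (nat_lit 61239043290) (nat_lit 152) (nat_lit 82560793992) (nat_lit 5) (nat_lit 5) (nat_lit 6) (nat_lit 5) (nat_lit 7) (nat_lit 4) (nat_lit 297) (nat_lit 264) (nat_lit 159)) (XT.lf (nat_lit 0) (nat_lit 40276409964) (nat_lit 76) (nat_lit 42501201156) (nat_lit 152) (nat_lit 75181161641) (nat_lit 5) (nat_lit 5) (nat_lit 6) (nat_lit 5) (nat_lit 7) (nat_lit 4) (nat_lit 298) (nat_lit 264) (nat_lit 158))))) (XT.nd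 (nat_lit 234) (nat_lit 76) (nat_lit 0) (XT.nd (nat_lit 78) (nat_lit 0) (nat_lit 0) (XT.lf (nat_lit 0) (nat_lit 79252579894) (nat_lit 76) (nat_lit 22264920500) (nat_lit 152) (nat_lit 67212218482) (nat_lit 5) (nat_lit 5) (nat_lit 6) (nat_lit 5) (nat_lit 7) (nat_lit 4) (nat_lit 299) (nat_lit 264) (nat_lit 157)) (XT.nd (nat_lit 78) (nat_lit 0) (nat_lit 0) (XT.lf (nat_lit 0) (nat_lit 121345393926) (nat_lit 76) (nat_lit 410282623) (nat_lit 152) (nat_lit 58606741147) (nat_lit 5) (nat_lit 5) (nat_lit 6) (nat_lit 5) (nat_lit 7) (nat_lit 4) (nat_lit 300) (nat_lit 264) (nat_lit 156)) (XT.lf (nat_lit 0) (nat_lit 144169843002) (nat_lit 152) (nat_lit 26679286257) (nat_lit 0) (nat_lit 22032052595) (nat_lit 5) (nat_lit 5) (nat_lit 7) (nat_lit 4) (nat_lit 5) (nat_lit 4) (nat_lit 301) (nat_lit 264) (nat_lit 155)))) (XT.nd (nat_lit 78) (nat_lit 0) (nat_lit 0) (XT.lf (nat_lit 0) (nat_lit 8667078437)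 (nat_lit 76) (nat_lit 159928377971) (nat_lit 76) (nat_lit 37788529657) (nat_lit 4) (nat_lit 4) (nat_lit 5) (nat_lit 5) (nat_lit 5) (nat_lit 4) (nat_lit 302) (nat_lit 264) (nat_lit 154)) (XT.nd (nat_lit 78) (nat_lit 0) (nat_lit 0) (XT.lf (nat_lit 0) (nat_lit 48357162313) (nat_lit 76) (nat_lit 147346656884) (nat_lit 76) (nat_lit 25204903101) (nat_lit 4) (nat_lit 4) (nat_lit 5) (nat_lit 5) (nat_lit 5) (nat_lit 4) (nat_lit 303) (nat_lit 264) (nat_lit 153)) (XT.lf (nat_lit 0) (nat_lit 91221281932) (nat_lit 76) (nat_lit 133758866620) (nat_lit 76) (nat_lit 11615348513) (nat_lit 4) (nat_lit 4) (nat_lit 5) (nat_lit 5) (nat_lit 5) (nat_lit 4) (nat_lit 304) (nat_lit 264) (nat_lit 152))))))) (XT.nd (nat_lit 858) (nat_lit 76) (nat_lit 0) (XT.nd (nat_lit 390) (nat_lit 0) (nat_lit 0) (XT.nd (nat_lit 156) (nat_lit 76) (nat_lit 0) (XT.nd (nat_lit 78) (nat_lit 0) (nat_lit 0) (XT.lf (nat_lit 0) (nat_lit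 2907557951) (nat_lit 152) (nat_lit 116097431200) (nat_lit 76) (nat_lit 134526391153) (nat_lit 3) (nat_lit 5) (nat_lit 5) (nat_lit 5) (nat_lit 4) (nat_lit 4) (nat_lit 305) (nat_lit 264) (nat_lit 151)) (XT.lf (nat_lit 0) (nat_lit 17964145730) (nat_lit 152) (nat_lit 84781241244) (nat_lit 76) (nat_lit 169052663823) (nat_lit 3) (nat_lit 5) (nat_lit 5) (nat_lit 5) (nat_lit 4) (nat_lit 4) (nat_lit 306) (nat_lit 264) (nat_lit 150))) (XT.nd (nat_lit 78) (nat_lit 76) (nat_lit 0) (XT.lf (nat_lit 0) (nat_lit 34224685820) (nat_lit 152) (nat_lit 50960718432) (nat_lit 76) (nat_lit 206340699179) (nat_lit 3) (nat_lit 5) (nat_lit 5) (nat_lit 5) (nat_lit 4) (nat_lit 4) (nat_lit 307) (nat_lit 264) (nat_lit 149)) (XT.nd (nat_lit 78) (nat_lit 76) (nat_lit 0) (XT.lf (nat_lit 0) (nat_lit 51785536979) (nat_lit 152) (nat_lit 14435444852) (nat_lit 76) (nat_lit 246611463357) (nat_lit 3) (nat_lit 5) (nat_lit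 5) (nat_lit 5) (nat_lit 4) (nat_lit 4) (nat_lit 308) (nat_lit 264) (nat_lit 148)) (XT.lf (nat_lit 0) (nat_lit 26328061844) (nat_lit 76) (nat_lit 45055892185) (nat_lit 152) (nat_lit 264408726597) (nat_lit 2) (nat_lit 5) (nat_lit 3) (nat_lit 5) (nat_lit 4) (nat_lit 4) (nat_lit 309) (nat_lit 264) (nat_lit 147))))) (XT.nd (nat_lit 234) (nat_lit 0) (nat_lit 0) (XT.nd (nat_lit 78) (nat_lit 0) (nat_lit 0) (XT.lf (nat_lit 0) (nat_lit 71172801452) (nat_lit 76) (nat_lit 21771658073) (nat_lit 152) (nat_lit 267613740174) (nat_lit 2) (nat_lit 5) (nat_lit 3) (nat_lit 5) (nat_lit 4) (nat_lit 4) (nat_lit 310) (nat_lit 264) (nat_lit 146)) (XT.nd (nat_lit 78) (nat_lit 0) (nat_lit 0) (XT.lf (nat_lit 0) (nat_lit 116310534208) (nat_lit 152) (nat_lit 267781790835) (nat_lit 0) (nat_lit 3206178812) (nat_lit 2) (nat_lit 5) (nat_lit 4) (nat_lit 4) (nat_lit 2) (nat_lit 4) (nat_lit 311) (nat_lit 264) (nat_lit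 145)) (XT.lf (nat_lit 0) (nat_lit 142110977982) (nat_lit 152) (nat_lit 245016109445) (nat_lit 0) (nat_lit 29005739986) (nat_lit 2) (nat_lit 5) (nat_lit 4) (nat_lit 4) (nat_lit 2) (nat_lit 4) (nat_lit 312) (nat_lit 264) (nat_lit 144)))) (XT.nd (nat_lit 78) (nat_lit 0) (nat_lit 0) (XT.lf (nat_lit 0) (nat_lit 169975073468) (nat_lit 152) (nat_lit 220429837435) (nat_lit 0) (nat_lit 56869018248) (nat_lit 2) (nat_lit 5) (nat_lit 4) (nat_lit 4) (nat_lit 2) (nat_lit 4) (nat_lit 313) (nat_lit 264) (nat_lit 143)) (XT.nd (nat_lit 78) (nat_lit 0) (nat_lit 0) (XT.lf (nat_lit 0) (nat_lit 200067941230) (nat_lit 152) (nat_lit 193877278380) (nat_lit 0) (nat_lit 86961129322) (nat_lit 2) (nat_lit 5) (nat_lit 4) (nat_lit 4) (nat_lit 2) (nat_lit 4) (nat_lit 314) (nat_lit 264) (nat_lit 142)) (XT.lf (nat_lit 0) (nat_lit 232567909374) (nat_lit 152) (nat_lit 165201083780) (nat_lit 0) (nat_lit 119460396828)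 (nat_lit 2) (nat_lit 5) (nat_lit 4) (nat_lit 4) (nat_lit 2) (nat_lit 4) (nat_lit 315) (nat_lit 264) (nat_lit 141)))))) (XT.nd (nat_lit 390) (nat_lit 0) (nat_lit 0) (XT.nd (nat_lit 156) (nat_lit 76) (nat_lit 0) (XT.nd (nat_lit 78) (nat_lit 0) (nat_lit 0) (XT.lf (nat_lit 0) (nat_lit 267667570303) (nat_lit 152) (nat_lit 134231320631) (nat_lit 0) (nat_lit 154559409020) (nat_lit 2) (nat_lit 5) (nat_lit 4) (nat_lit 4) (nat_lit 2) (nat_lit 4) (nat_lit 316) (nat_lit 264) (nat_lit 140)) (XT.lf (nat_lit 0) (nat_lit 305574922009) (nat_lit 152) (nat_lit 100784464411) (nat_lit 0) (nat_lit 192466160042) (nat_lit 2) (nat_lit 5) (nat_lit 4) (nat_lit 4) (nat_lit 2) (nat_lit 4) (nat_lit 317) (nat_lit 264) (nat_lit 139))) (XT.nd (nat_lit 78) (nat_lit 76) (nat_lit 0) (XT.lf (nat_lit 0) (nat_lit 346514600649) (nat_lit 152) (nat_lit 64662311526) (nat_lit 0) (nat_lit 233405282494) (nat_lit 2) (nat_lit 5)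 (nat_lit 4) (nat_lit 4) (nat_lit 2) (nat_lit 4) (nat_lit 318) (nat_lit 264) (nat_lit 138)) (XT.nd (nat_lit 78) (nat_lit 76) (nat_lit 0) (XT.lf (nat_lit 0) (nat_lit 390729211727) (nat_lit 152) (nat_lit 25650804776) (nat_lit 0) (nat_lit 277619378583) (nat_lit 2) (nat_lit 5) (nat_lit 4) (nat_lit 4) (nat_lit 2) (nat_lit 4) (nat_lit 319) (nat_lit 264) (nat_lit 137)) (XT.lf (nat_lit 0) (nat_lit 17349107775) (nat_lit 76) (nat_lit 421548906437) (nat_lit 76) (nat_lit 308438596451) (nat_lit 1) (nat_lit 4) (nat_lit 2) (nat_lit 5) (nat_lit 2) (nat_lit 4) (nat_lit 320) (nat_lit 264) (nat_lit 136))))) (XT.nd (nat_lit 234) (nat_lit 0) (nat_lit 0) (XT.nd (nat_lit 78) (nat_lit 0) (nat_lit 0) (XT.lf (nat_lit 0) (nat_lit 65247419759) (nat_lit 76) (nat_lit 426374023165) (nat_lit 76) (nat_lit 313263271659) (nat_lit 1) (nat_lit 4) (nat_lit 2) (nat_lit 5) (nat_lit 2) (nat_lit 4) (nat_lit 321) (nat_lit 264)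 (nat_lit 135)) (XT.nd (nat_lit 78) (nat_lit 0) (nat_lit 0) (XT.lf (nat_lit 0) (nat_lit 116977247102) (nat_lit 76) (nat_lit 431585298432) (nat_lit 76) (nat_lit 318474138111) (nat_lit 1) (nat_lit 4) (nat_lit 2) (nat_lit 5) (nat_lit 2) (nat_lit 4) (nat_lit 322) (nat_lit 264) (nat_lit 134)) (XT.lf (nat_lit 0) (nat_lit 172845136930) (nat_lit 76) (nat_lit 437213613870) (nat_lit 76) (nat_lit 324102075016) (nat_lit 1) (nat_lit 4) (nat_lit 2) (nat_lit 5) (nat_lit 2) (nat_lit 4) (nat_lit 323) (nat_lit 264) (nat_lit 133)))) (XT.nd (nat_lit 78) (nat_lit 0) (nat_lit 0) (XT.lf (nat_lit 0) (nat_lit 233182158218) (nat_lit 76) (nat_lit 443292322457) (nat_lit 76) (nat_lit 330180433111) (nat_lit 1) (nat_lit 4) (nat_lit 2) (nat_lit 5) (nat_lit 2) (nat_lit 4) (nat_lit 324) (nat_lit 264) (nat_lit 132)) (XT.nd (nat_lit 78) (nat_lit 0) (nat_lit 0) (XT.lf (nat_lit 0) (nat_lit 298345863686) (nat_lit 76) (nat_lit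 449857446172) (nat_lit 76) (nat_lit 336745232295) (nat_lit 1) (nat_lit 4) (nat_lit 2) (nat_lit 5) (nat_lit 2) (nat_lit 4) (nat_lit 325) (nat_lit 264) (nat_lit 131)) (XT.lf (nat_lit 0) (nat_lit 368722408625) (nat_lit 76) (nat_lit 456947889451) (nat_lit 76) (nat_lit 343835375083) (nat_lit 1) (nat_lit 4) (nat_lit 2) (nat_lit 5) (nat_lit 2) (nat_lit 4) (nat_lit 326) (nat_lit 264) (nat_lit 130))))))))
noncomputable def xc94 : XT := (XT.nd (nat_lit 34320) (nat_lit 0) (nat_lit 152) (XT.nd (nat_lit 33462) (nat_lit 0) (nat_lit 836) (XT.nd (nat_lit 32994) (nat_lit 0) (nat_lit 1596) (XT.nd (nat_lit 32760) (nat_lit 0) (nat_lit 2280) (XT.nd (nat_lit 32682) (nat_lit 0) (nat_lit 2280) (XT.lf (nat_lit 0) (nat_lit 444728839227) (nat_lit 76) (nat_lit 464605669736) (nat_lit 76) (nat_lit 351492877135) (nat_lit 1) (nat_lit 4) (nat_lit 2) (nat_lit 5) (nat_lit 2) (nat_lit 4) (nat_lit 327) (nat_lit 264)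 (nat_lit 129)) (XT.lf (nat_lit 0) (nat_lit 6707151913) (nat_lit 0) (nat_lit 6707151913) (nat_lit 380) (nat_lit 757787380) (nat_lit 31) (nat_lit 5) (nat_lit 31) (nat_lit 3) (nat_lit 36) (nat_lit 3) (nat_lit 265) (nat_lit 265) (nat_lit 190))) (XT.nd (nat_lit 78) (nat_lit 0) (nat_lit 0) (XT.lf (nat_lit 0) (nat_lit 25378462211) (nat_lit 0) (nat_lit 2590781241) (nat_lit 380) (nat_lit 1502615895) (nat_lit 31) (nat_lit 5) (nat_lit 31) (nat_lit 3) (nat_lit 36) (nat_lit 3) (nat_lit 266) (nat_lit 265) (nat_lit 189)) (XT.nd (nat_lit 78) (nat_lit 0) (nat_lit 0) (XT.lf (nat_lit 76) (nat_lit 7776106331) (nat_lit 0) (nat_lit 21824190235) (nat_lit 456) (nat_lit 1057589690) (nat_lit 32) (nat_lit 5) (nat_lit 31) (nat_lit 5) (nat_lit 37) (nat_lit 5) (nat_lit 267) (nat_lit 265) (nat_lit 188)) (XT.lf (nat_lit 76) (nat_lit 20753164881) (nat_lit 0) (nat_lit 10779906815) (nat_lit 456) (nat_lit 392088617)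 (nat_lit 32) (nat_lit 5) (nat_lit 31) (nat_lit 5) (nat_lit 37) (nat_lit 5) (nat_lit 268) (nat_lit 265) (nat_lit 187))))) (XT.nd (nat_lit 234) (nat_lit 304) (nat_lit 0) (XT.nd (nat_lit 78) (nat_lit 0) (nat_lit 0) (XT.lf (nat_lit 0) (nat_lit 370147680) (nat_lit 456) (nat_lit 31779886448) (nat_lit 532) (nat_lit 1138421719) (nat_lit 26) (nat_lit 5) (nat_lit 32) (nat_lit 5) (nat_lit 33) (nat_lit 5) (nat_lit 269) (nat_lit 265) (nat_lit 186)) (XT.nd (nat_lit 78) (nat_lit 0) (nat_lit 0) (XT.lf (nat_lit 0) (nat_lit 1759951105) (nat_lit 456) (nat_lit 19200038012) (nat_lit 532) (nat_lit 13753040300) (nat_lit 26) (nat_lit 5) (nat_lit 32) (nat_lit 5) (nat_lit 33) (nat_lit 5) (nat_lit 270) (nat_lit 265) (nat_lit 185)) (XT.lf (nat_lit 0) (nat_lit 3255732673) (nat_lit 456) (nat_lit 5617954364) (nat_lit 532) (nat_lit 27378345380) (nat_lit 26) (nat_lit 5) (nat_lit 32) (nat_lit 5) (nat_lit 33) (nat_lit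 5) (nat_lit 271) (nat_lit 265) (nat_lit 184)))) (XT.nd (nat_lit 78) (nat_lit 380) (nat_lit 0) (XT.lf (nat_lit 0) (nat_lit 5201880413) (nat_lit 456) (nat_lit 28479510014) (nat_lit 76) (nat_lit 4206352508) (nat_lit 27) (nat_lit 5) (nat_lit 33) (nat_lit 5) (nat_lit 28) (nat_lit 5) (nat_lit 272) (nat_lit 265) (nat_lit 183)) (XT.nd (nat_lit 78) (nat_lit 380) (nat_lit 0) (XT.lf (nat_lit 0) (nat_lit 7687265742) (nat_lit 456) (nat_lit 13924655509) (nat_lit 76) (nat_lit 18011745723) (nat_lit 27) (nat_lit 5) (nat_lit 33) (nat_lit 5) (nat_lit 28) (nat_lit 5) (nat_lit 273) (nat_lit 265) (nat_lit 182)) (XT.lf (nat_lit 0) (nat_lit 1885021039) (nat_lit 380) (nat_lit 8527597353) (nat_lit 456) (nat_lit 31082592977) (nat_lit 22) (nat_lit 5) (nat_lit 27) (nat_lit 5) (nat_lit 28) (nat_lit 5) (nat_lit 274) (nat_lit 265) (nat_lit 181)))))) (XT.nd (nat_lit 390) (nat_lit 380) (nat_lit 0) (XT.nd (nat_lit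 156) (nat_lit 380) (nat_lit 0) (XT.nd (nat_lit 78) (nat_lit 0) (nat_lit 0) (XT.lf (nat_lit 0) (nat_lit 13877403870) (nat_lit 456) (nat_lit 23883417580) (nat_lit 76) (nat_lit 5713980082) (nat_lit 22) (nat_lit 5) (nat_lit 28) (nat_lit 5) (nat_lit 23) (nat_lit 5) (nat_lit 275) (nat_lit 265) (nat_lit 180)) (XT.lf (nat_lit 0) (nat_lit 17837189753) (nat_lit 456) (nat_lit 7123816500) (nat_lit 76) (nat_lit 20634359274) (nat_lit 22) (nat_lit 5) (nat_lit 28) (nat_lit 5) (nat_lit 23) (nat_lit 5) (nat_lit 276) (nat_lit 265) (nat_lit 179))) (XT.nd (nat_lit 78) (nat_lit 152) (nat_lit 0) (XT.lf (nat_lit 0) (nat_lit 11550837666) (nat_lit 228) (nat_lit 10837312775) (nat_lit 304) (nat_lit 25475502498) (nat_lit 19) (nat_lit 5) (nat_lit 22) (nat_lit 5) (nat_lit 23) (nat_lit 5) (nat_lit 277) (nat_lit 265) (nat_lit 178)) (XT.nd (nat_lit 78) (nat_lit 152) (nat_lit 0) (XT.lf (nat_lit 0) (nat_lit 27605994896)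 (nat_lit 304) (nat_lit 18288216468) (nat_lit 76) (nat_lit 4394994884) (nat_lit 19) (nat_lit 5) (nat_lit 23) (nat_lit 5) (nat_lit 20) (nat_lit 5) (nat_lit 278) (nat_lit 265) (nat_lit 177)) (XT.lf (nat_lit 0) (nat_lit 940456527) (nat_lit 152) (nat_lit 32601915572) (nat_lit 228) (nat_lit 19342368726) (nat_lit 17) (nat_lit 5) (nat_lit 19) (nat_lit 5) (nat_lit 20) (nat_lit 5) (nat_lit 279) (nat_lit 265) (nat_lit 176))))) (XT.nd (nat_lit 234) (nat_lit 228) (nat_lit 0) (XT.nd (nat_lit 78) (nat_lit 152) (nat_lit 0) (XT.lf (nat_lit 0) (nat_lit 22744127278) (nat_lit 152) (nat_lit 17706704444) (nat_lit 228) (nat_lit 15197336209) (nat_lit 17) (nat_lit 5) (nat_lit 19) (nat_lit 5) (nat_lit 20) (nat_lit 5) (nat_lit 280) (nat_lit 265) (nat_lit 175)) (XT.nd (nat_lit 78) (nat_lit 152) (nat_lit 0) (XT.lf (nat_lit 0) (nat_lit 46288977651) (nat_lit 152) (nat_lit 1620342308) (nat_lit 228) (nat_lit 10723582892)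 (nat_lit 17) (nat_lit 5) (nat_lit 19) (nat_lit 5) (nat_lit 20) (nat_lit 5) (nat_lit 281) (nat_lit 265) (nat_lit 174)) (XT.lf (nat_lit 0) (nat_lit 9978201909) (nat_lit 152) (nat_lit 46602657290) (nat_lit 228) (nat_lit 5226267791) (nat_lit 15) (nat_lit 5) (nat_lit 17) (nat_lit 5) (nat_lit 18) (nat_lit 5) (nat_lit 282) (nat_lit 265) (nat_lit 173)))) (XT.nd (nat_lit 78) (nat_lit 152) (nat_lit 0) (XT.lf (nat_lit 0) (nat_lit 1061200516) (nat_lit 228) (nat_lit 30491284685) (nat_lit 76) (nat_lit 33650579379) (nat_lit 14) (nat_lit 5) (nat_lit 17) (nat_lit 5) (nat_lit 15) (nat_lit 5) (nat_lit 283) (nat_lit 265) (nat_lit 172)) (XT.nd (nat_lit 78) (nat_lit 152) (nat_lit 0) (XT.lf (nat_lit 0) (nat_lit 7567060932) (nat_lit 228) (nat_lit 7585302910) (nat_lit 76) (nat_lit 53707649671) (nat_lit 14) (nat_lit 5) (nat_lit 17) (nat_lit 5) (nat_lit 15) (nat_lit 5) (nat_lit 284) (nat_lit 265) (nat_lit 171))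 (XT.lf (nat_lit 0) (nat_lit 15098319561) (nat_lit 228) (nat_lit 54794226365) (nat_lit 76) (nat_lit 2876592919) (nat_lit 12) (nat_lit 5) (nat_lit 15) (nat_lit 5) (nat_lit 13) (nat_lit 5) (nat_lit 285) (nat_lit 265) (nat_lit 170))))))) (XT.nd (nat_lit 858) (nat_lit 228) (nat_lit 0) (XT.nd (nat_lit 390) (nat_lit 304) (nat_lit 0) (XT.nd (nat_lit 156) (nat_lit 152) (nat_lit 0) (XT.nd (nat_lit 78) (nat_lit 0) (nat_lit 0) (XT.lf (nat_lit 0) (nat_lit 23836420369) (nat_lit 228) (nat_lit 31364824695) (nat_lit 76) (nat_lit 21741415553) (nat_lit 12) (nat_lit 5) (nat_lit 15) (nat_lit 5) (nat_lit 13) (nat_lit 5) (nat_lit 286) (nat_lit 265) (nat_lit 169)) (XT.lf (nat_lit 0) (nat_lit 33271709125) (nat_lit 228) (nat_lit 6063659181) (nat_lit 76) (nat_lit 42114857351) (nat_lit 12) (nat_lit 5) (nat_lit 15) (nat_lit 5) (nat_lit 13) (nat_lit 5) (nat_lit 287) (nat_lit 265) (nat_lit 168))) (XT.nd (nat_lit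 78) (nat_lit 0) (nat_lit 0) (XT.lf (nat_lit 0) (nat_lit 22378674964) (nat_lit 152) (nat_lit 21619631359) (nat_lit 228) (nat_lit 42277182528) (nat_lit 10) (nat_lit 5) (nat_lit 12) (nat_lit 5) (nat_lit 13) (nat_lit 5) (nat_lit 288) (nat_lit 265) (nat_lit 167)) (XT.nd (nat_lit 78) (nat_lit 0) (nat_lit 0) (XT.lf (nat_lit 0) (nat_lit 53438905621) (nat_lit 152) (nat_lit 2308265935) (nat_lit 228) (nat_lit 35726481224) (nat_lit 10) (nat_lit 5) (nat_lit 12) (nat_lit 5) (nat_lit 13) (nat_lit 5) (nat_lit 289) (nat_lit 265) (nat_lit 166)) (XT.lf (nat_lit 0) (nat_lit 68880482174) (nat_lit 228) (nat_lit 10552075147) (nat_lit 76) (nat_lit 17619559706) (nat_lit 10) (nat_lit 5) (nat_lit 13) (nat_lit 5) (nat_lit 11) (nat_lit 4) (nat_lit 290) (nat_lit 265) (nat_lit 165))))) (XT.nd (nat_lit 234) (nat_lit 152) (nat_lit 0) (XT.nd (nat_lit 78) (nat_lit 76) (nat_lit 0) (XT.lf (nat_lit 0) (nat_lit 20071186603)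 (nat_lit 76) (nat_lit 63534508989) (nat_lit 152) (nat_lit 19427873133) (nat_lit 9) (nat_lit 5) (nat_lit 10) (nat_lit 5) (nat_lit 11) (nat_lit 4) (nat_lit 291) (nat_lit 265) (nat_lit 164)) (XT.nd (nat_lit 78) (nat_lit 76) (nat_lit 0) (XT.lf (nat_lit 0) (nat_lit 53742357496) (nat_lit 76) (nat_lit 46053707898) (nat_lit 152) (nat_lit 9674508674) (nat_lit 9) (nat_lit 5) (nat_lit 10) (nat_lit 5) (nat_lit 11) (nat_lit 4) (nat_lit 292) (nat_lit 265) (nat_lit 163)) (XT.lf (nat_lit 0) (nat_lit 814835983) (nat_lit 152) (nat_lit 26337961508) (nat_lit 76) (nat_lit 89268201774) (nat_lit 8) (nat_lit 5) (nat_lit 10) (nat_lit 5) (nat_lit 9) (nat_lit 5) (nat_lit 293) (nat_lit 265) (nat_lit 162)))) (XT.nd (nat_lit 78) (nat_lit 0) (nat_lit 0) (XT.lf (nat_lit 0) (nat_lit 5421603636) (nat_lit 152) (nat_lit 6328224662) (nat_lit 228) (nat_lit 112147200189) (nat_lit 6) (nat_lit 5) (nat_lit 8) (nat_lit 5)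 (nat_lit 9) (nat_lit 5) (nat_lit 294) (nat_lit 265) (nat_lit 161)) (XT.nd (nat_lit 78) (nat_lit 0) (nat_lit 0) (XT.lf (nat_lit 0) (nat_lit 24685972358) (nat_lit 228) (nat_lit 91103014716) (nat_lit 76) (nat_lit 16092051146) (nat_lit 6) (nat_lit 5) (nat_lit 9) (nat_lit 5) (nat_lit 7) (nat_lit 4) (nat_lit 295) (nat_lit 265) (nat_lit 160)) (XT.lf (nat_lit 0) (nat_lit 38820282220) (nat_lit 228) (nat_lit 61706915841) (nat_lit 76) (nat_lit 39963514617) (nat_lit 6) (nat_lit 5) (nat_lit 9) (nat_lit 5) (nat_lit 7) (nat_lit 4) (nat_lit 296) (nat_lit 265) (nat_lit 159)))))) (XT.nd (nat_lit 390) (nat_lit 152) (nat_lit 0) (XT.nd (nat_lit 156) (nat_lit 0) (nat_lit 0) (XT.nd (nat_lit 78) (nat_lit 76) (nat_lit 0) (XT.lf (nat_lit 0) (nat_lit 54084322804) (nat_lit 228) (nat_lit 29960735168) (nat_lit 76) (nat_lit 65744189703) (nat_lit 6) (nat_lit 5) (nat_lit 9) (nat_lit 5) (nat_lit 7) (nat_lit 4) (nat_lit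 297) (nat_lit 265) (nat_lit 158)) (XT.lf (nat_lit 0) (nat_lit 4551328714) (nat_lit 76) (nat_lit 66126678533) (nat_lit 152) (nat_lit 89144981624) (nat_lit 5) (nat_lit 5) (nat_lit 6) (nat_lit 5) (nat_lit 7) (nat_lit 4) (nat_lit 298) (nat_lit 265) (nat_lit 157))) (XT.nd (nat_lit 78) (nat_lit 0) (nat_lit 0) (XT.lf (nat_lit 0) (nat_lit 43526801772) (nat_lit 76) (nat_lit 45890660007) (nat_lit 152) (nat_lit 81176510232) (nat_lit 5) (nat_lit 5) (nat_lit 6) (nat_lit 5) (nat_lit 7) (nat_lit 4) (nat_lit 299) (nat_lit 265) (nat_lit 156)) (XT.nd (nat_lit 78) (nat_lit 0) (nat_lit 0) (XT.lf (nat_lit 0) (nat_lit 85618970554) (nat_lit 76) (nat_lit 24036264843) (nat_lit 152) (nat_lit 72571469720) (nat_lit 5) (nat_lit 5) (nat_lit 6) (nat_lit 5) (nat_lit 7) (nat_lit 4) (nat_lit 300) (nat_lit 265) (nat_lit 155)) (XT.lf (nat_lit 0) (nat_lit 131077270134) (nat_lit 76) (nat_lit 433985513) (nat_lit 152) (nat_lit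 63278867253) (nat_lit 5) (nat_lit 5) (nat_lit 6) (nat_lit 5) (nat_lit 7) (nat_lit 4) (nat_lit 301) (nat_lit 265) (nat_lit 154))))) (XT.nd (nat_lit 234) (nat_lit 76) (nat_lit 0) (XT.nd (nat_lit 78) (nat_lit 76) (nat_lit 0) (XT.lf (nat_lit 0) (nat_lit 155717638131) (nat_lit 152) (nat_lit 28790190661) (nat_lit 0) (nat_lit 23802638576) (nat_lit 5) (nat_lit 5) (nat_lit 7) (nat_lit 4) (nat_lit 5) (nat_lit 4) (nat_lit 302) (nat_lit 265) (nat_lit 153)) (XT.nd (nat_lit 78) (nat_lit 0) (nat_lit 0) (XT.lf (nat_lit 0) (nat_lit 9383289829) (nat_lit 76) (nat_lit 172713507784) (nat_lit 76) (nat_lit 40796743905) (nat_lit 4) (nat_lit 4) (nat_lit 5) (nat_lit 5) (nat_lit 5) (nat_lit 4) (nat_lit 303) (nat_lit 265) (nat_lit 152)) (XT.lf (nat_lit 0) (nat_lit 52246888184) (nat_lit 76) (nat_lit 159125926079) (nat_lit 76) (nat_lit 27207528568) (nat_lit 4) (nat_lit 4) (nat_lit 5) (nat_lit 5) (nat_lit 5) (nat_lit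 4) (nat_lit 304) (nat_lit 265) (nat_lit 151)))) (XT.nd (nat_lit 78) (nat_lit 76) (nat_lit 0) (XT.lf (nat_lit 0) (nat_lit 98538570492) (nat_lit 76) (nat_lit 144451739509) (nat_lit 76) (nat_lit 12531829374) (nat_lit 4) (nat_lit 4) (nat_lit 5) (nat_lit 5) (nat_lit 5) (nat_lit 4) (nat_lit 305) (nat_lit 265) (nat_lit 150)) (XT.nd (nat_lit 78) (nat_lit 0) (nat_lit 0) (XT.lf (nat_lit 0) (nat_lit 3151374960) (nat_lit 152) (nat_lit 125366450794) (nat_lit 76) (nat_lit 145295118697) (nat_lit 3) (nat_lit 5) (nat_lit 5) (nat_lit 5) (nat_lit 4) (nat_lit 4) (nat_lit 306) (nat_lit 265) (nat_lit 149)) (XT.lf (nat_lit 0) (nat_lit 19411659214) (nat_lit 152) (nat_lit 91546356375) (nat_lit 76) (nat_lit 182583003088) (nat_lit 3) (nat_lit 5) (nat_lit 5) (nat_lit 5) (nat_lit 4) (nat_lit 4) (nat_lit 307) (nat_lit 265) (nat_lit 148))))))))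
noncomputable def xc95 : XT := (XT.nd (nat_lit 34398) (nat_lit 0) (nat_lit 684) (XT.nd (nat_lit 858) (nat_lit 76) (nat_lit 0) (XT.nd (nat_lit 390) (nat_lit 0) (nat_lit 0) (XT.nd (nat_lit 156) (nat_lit 76) (nat_lit 0) (XT.nd (nat_lit 78) (nat_lit 0) (nat_lit 0) (XT.lf (nat_lit 0) (nat_lit 36972273488) (nat_lit 152) (nat_lit 55021479454) (nat_lit 76) (nat_lit 222853627483) (nat_lit 3) (nat_lit 5) (nat_lit 5) (nat_lit 5) (nat_lit 4) (nat_lit 4) (nat_lit 308) (nat_lit 265) (nat_lit 147)) (XT.lf (nat_lit 0) (nat_lit 55937280680) (nat_lit 152) (nat_lit 15575376317) (nat_lit 76) (nat_lit 266345632619) (nat_lit 3) (nat_lit 5) (nat_lit 5) (nat_lit 5) (nat_lit 4) (nat_lit 4) (nat_lit 309) (nat_lit 265) (nat_lit 146))) (XT.nd (nat_lit 78) (nat_lit 0) (nat_lit 0) (XT.lf (nat_lit 0) (nat_lit 28448833595) (nat_lit 76) (nat_lit 48654427556) (nat_lit 152) (nat_lit 285552110434) (nat_lit 2) (nat_lit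 5) (nat_lit 3) (nat_lit 5) (nat_lit 4) (nat_lit 4) (nat_lit 310) (nat_lit 265) (nat_lit 145)) (XT.nd (nat_lit 78) (nat_lit 0) (nat_lit 0) (XT.lf (nat_lit 0) (nat_lit 76880076311) (nat_lit 76) (nat_lit 23507894419) (nat_lit 152) (nat_lit 289014215045) (nat_lit 2) (nat_lit 5) (nat_lit 3) (nat_lit 5) (nat_lit 4) (nat_lit 4) (nat_lit 311) (nat_lit 265) (nat_lit 144)) (XT.lf (nat_lit 0) (nat_lit 125622864564) (nat_lit 152) (nat_lit 289191381826) (nat_lit 0) (nat_lit 3467507703) (nat_lit 2) (nat_lit 5) (nat_lit 4) (nat_lit 4) (nat_lit 2) (nat_lit 4) (nat_lit 312) (nat_lit 265) (nat_lit 143))))) (XT.nd (nat_lit 234) (nat_lit 0) (nat_lit 0) (XT.nd (nat_lit 78) (nat_lit 0) (nat_lit 0) (XT.lf (nat_lit 0) (nat_lit 153486789202) (nat_lit 152) (nat_lit 264605405353) (nat_lit 0) (nat_lit 31330675653) (nat_lit 2) (nat_lit 5) (nat_lit 4) (nat_lit 4) (nat_lit 2) (nat_lit 4) (nat_lit 313) (nat_lit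 265) (nat_lit 142)) (XT.nd (nat_lit 78) (nat_lit 0) (nat_lit 0) (XT.lf (nat_lit 0) (nat_lit 183579498772) (nat_lit 152) (nat_lit 238053119942) (nat_lit 0) (nat_lit 61422684586) (nat_lit 2) (nat_lit 5) (nat_lit 4) (nat_lit 4) (nat_lit 2) (nat_lit 4) (nat_lit 314) (nat_lit 265) (nat_lit 141)) (XT.lf (nat_lit 0) (nat_lit 216079320442) (nat_lit 152) (nat_lit 209377178716) (nat_lit 0) (nat_lit 93921857518) (nat_lit 2) (nat_lit 5) (nat_lit 4) (nat_lit 4) (nat_lit 2) (nat_lit 4) (nat_lit 315) (nat_lit 265) (nat_lit 140)))) (XT.nd (nat_lit 78) (nat_lit 0) (nat_lit 0) (XT.lf (nat_lit 0) (nat_lit 251178845748) (nat_lit 152) (nat_lit 178407650173) (nat_lit 0) (nat_lit 129020782140) (nat_lit 2) (nat_lit 5) (nat_lit 4) (nat_lit 4) (nat_lit 2) (nat_lit 4) (nat_lit 316) (nat_lit 265) (nat_lit 139)) (XT.nd (nat_lit 78) (nat_lit 0) (nat_lit 0) (XT.lf (nat_lit 0) (nat_lit 289086071875) (nat_lit 152)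 (nat_lit 144961011181) (nat_lit 0) (nat_lit 166927452080) (nat_lit 2) (nat_lit 5) (nat_lit 4) (nat_lit 4) (nat_lit 2) (nat_lit 4) (nat_lit 317) (nat_lit 265) (nat_lit 138)) (XT.lf (nat_lit 0) (nat_lit 330025634240) (nat_lit 152) (nat_lit 108839059433) (nat_lit 0) (nat_lit 207866499455) (nat_lit 2) (nat_lit 5) (nat_lit 4) (nat_lit 4) (nat_lit 2) (nat_lit 4) (nat_lit 318) (nat_lit 265) (nat_lit 137)))))) (XT.nd (nat_lit 390) (nat_lit 0) (nat_lit 0) (XT.nd (nat_lit 156) (nat_lit 76) (nat_lit 0) (XT.nd (nat_lit 78) (nat_lit 0) (nat_lit 0) (XT.lf (nat_lit 0) (nat_lit 374240137655) (nat_lit 152) (nat_lit 69827738920) (nat_lit 0) (nat_lit 252080526029) (nat_lit 2) (nat_lit 5) (nat_lit 4) (nat_lit 4) (nat_lit 2) (nat_lit 4) (nat_lit 319) (nat_lit 265) (nat_lit 136)) (XT.lf (nat_lit 0) (nat_lit 421991593993) (nat_lit 152) (nat_lit 27695871446) (nat_lit 0) (nat_lit 299831540846) (nat_lit 2)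 (nat_lit 5) (nat_lit 4) (nat_lit 4) (nat_lit 2) (nat_lit 4) (nat_lit 320) (nat_lit 265) (nat_lit 135))) (XT.nd (nat_lit 78) (nat_lit 0) (nat_lit 0) (XT.lf (nat_lit 0) (nat_lit 18743856951) (nat_lit 76) (nat_lit 455269908106) (nat_lit 76) (nat_lit 333109446144) (nat_lit 1) (nat_lit 4) (nat_lit 2) (nat_lit 5) (nat_lit 2) (nat_lit 4) (nat_lit 321) (nat_lit 265) (nat_lit 134)) (XT.nd (nat_lit 78) (nat_lit 0) (nat_lit 0) (XT.lf (nat_lit 0) (nat_lit 70473528668) (nat_lit 76) (nat_lit 460481249791) (nat_lit 76) (nat_lit 338320409296) (nat_lit 1) (nat_lit 4) (nat_lit 2) (nat_lit 5) (nat_lit 2) (nat_lit 4) (nat_lit 322) (nat_lit 265) (nat_lit 133)) (XT.lf (nat_lit 0) (nat_lit 126341274396) (nat_lit 76) (nat_lit 466109626726) (nat_lit 76) (nat_lit 343948435739) (nat_lit 1) (nat_lit 4) (nat_lit 2) (nat_lit 5) (nat_lit 2) (nat_lit 4) (nat_lit 323) (nat_lit 265) (nat_lit 132))))) (XT.nd (nat_lit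 234) (nat_lit 0) (nat_lit 0) (XT.nd (nat_lit 78) (nat_lit 0) (nat_lit 0) (XT.lf (nat_lit 0) (nat_lit 186678162260) (nat_lit 76) (nat_lit 472188392256) (nat_lit 76) (nat_lit 350026876738) (nat_lit 1) (nat_lit 4) (nat_lit 2) (nat_lit 5) (nat_lit 2) (nat_lit 4) (nat_lit 324) (nat_lit 265) (nat_lit 131)) (XT.nd (nat_lit 78) (nat_lit 0) (nat_lit 0) (XT.lf (nat_lit 0) (nat_lit 251841744186) (nat_lit 76) (nat_lit 478753568696) (nat_lit 76) (nat_lit 356591752686) (nat_lit 1) (nat_lit 4) (nat_lit 2) (nat_lit 5) (nat_lit 2) (nat_lit 4) (nat_lit 325) (nat_lit 265) (nat_lit 130)) (XT.lf (nat_lit 0) (nat_lit 322218174735) (nat_lit 76) (nat_lit 485844060794) (nat_lit 76) (nat_lit 363681966552) (nat_lit 1) (nat_lit 4) (nat_lit 2) (nat_lit 5) (nat_lit 2) (nat_lit 4) (nat_lit 326) (nat_lit 265) (nat_lit 129)))) (XT.nd (nat_lit 32760) (nat_lit 0) (nat_lit 2280) (XT.lf (nat_lit 0) (nat_lit 398224499421)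 (nat_lit 76) (nat_lit 493501886281) (nat_lit 76) (nat_lit 371339534416) (nat_lit 1) (nat_lit 4) (nat_lit 2) (nat_lit 5) (nat_lit 2) (nat_lit 4) (nat_lit 327) (nat_lit 265) (nat_lit 128)) (XT.nd (nat_lit 78) (nat_lit 0) (nat_lit 0) (XT.lf (nat_lit 0) (nat_lit 7276658226) (nat_lit 0) (nat_lit 7276658226) (nat_lit 380) (nat_lit 746598160) (nat_lit 31) (nat_lit 5) (nat_lit 31) (nat_lit 3) (nat_lit 36) (nat_lit 3) (nat_lit 266) (nat_lit 266) (nat_lit 188)) (XT.lf (nat_lit 0) (nat_lit 27469728373) (nat_lit 0) (nat_lit 2859032925) (nat_lit 380) (nat_lit 1489839591) (nat_lit 31) (nat_lit 5) (nat_lit 31) (nat_lit 3) (nat_lit 36) (nat_lit 3) (nat_lit 267) (nat_lit 266) (nat_lit 187))))))) (XT.nd (nat_lit 858) (nat_lit 684) (nat_lit 0) (XT.nd (nat_lit 390) (nat_lit 532) (nat_lit 0) (XT.nd (nat_lit 156) (nat_lit 380) (nat_lit 0) (XT.nd (nat_lit 78) (nat_lit 0) (nat_lit 0) (XT.lf (nat_lit 76)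 (nat_lit 8469798193) (nat_lit 0) (nat_lit 23611828956) (nat_lit 456) (nat_lit 1018669037) (nat_lit 32) (nat_lit 5) (nat_lit 31) (nat_lit 5) (nat_lit 37) (nat_lit 5) (nat_lit 268) (nat_lit 266) (nat_lit 186)) (XT.lf (nat_lit 76) (nat_lit 22479717474) (nat_lit 0) (nat_lit 11680913714) (nat_lit 456) (nat_lit 309078087) (nat_lit 32) (nat_lit 5) (nat_lit 31) (nat_lit 5) (nat_lit 37) (nat_lit 5) (nat_lit 269) (nat_lit 266) (nat_lit 185))) (XT.nd (nat_lit 78) (nat_lit 0) (nat_lit 0) (XT.lf (nat_lit 0) (nat_lit 501329113) (nat_lit 456) (nat_lit 34241260509) (nat_lit 532) (nat_lit 1199899117) (nat_lit 26) (nat_lit 5) (nat_lit 32) (nat_lit 5) (nat_lit 33) (nat_lit 5) (nat_lit 270) (nat_lit 266) (nat_lit 184)) (XT.nd (nat_lit 78) (nat_lit 0) (nat_lit 0) (XT.lf (nat_lit 0) (nat_lit 1994793137) (nat_lit 456) (nat_lit 20661025447) (nat_lit 532) (nat_lit 14825879506) (nat_lit 26) (nat_lit 5) (nat_lit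 32) (nat_lit 5) (nat_lit 33) (nat_lit 5) (nat_lit 271) (nat_lit 266) (nat_lit 183)) (XT.lf (nat_lit 0) (nat_lit 3603270864) (nat_lit 456) (nat_lit 5997931819) (nat_lit 532) (nat_lit 29543238920) (nat_lit 26) (nat_lit 5) (nat_lit 32) (nat_lit 5) (nat_lit 33) (nat_lit 5) (nat_lit 272) (nat_lit 266) (nat_lit 182))))) (XT.nd (nat_lit 234) (nat_lit 228) (nat_lit 0) (XT.nd (nat_lit 78) (nat_lit 380) (nat_lit 0) (XT.lf (nat_lit 0) (nat_lit 5699938185) (nat_lit 456) (nat_lit 30682510941) (nat_lit 76) (nat_lit 4529031915) (nat_lit 27) (nat_lit 5) (nat_lit 33) (nat_lit 5) (nat_lit 28) (nat_lit 5) (nat_lit 273) (nat_lit 266) (nat_lit 181)) (XT.nd (nat_lit 78) (nat_lit 380) (nat_lit 0) (XT.lf (nat_lit 0) (nat_lit 8378087130) (nat_lit 456) (nat_lit 14968850288) (nat_lit 76) (nat_lit 19439880942) (nat_lit 27) (nat_lit 5) (nat_lit 33) (nat_lit 5) (nat_lit 28) (nat_lit 5) (nat_lit 274) (nat_lit 266)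 (nat_lit 180)) (XT.lf (nat_lit 0) (nat_lit 2103833860) (nat_lit 380) (nat_lit 9213652014) (nat_lit 456) (nat_lit 33490968984) (nat_lit 22) (nat_lit 5) (nat_lit 27) (nat_lit 5) (nat_lit 28) (nat_lit 5) (nat_lit 275) (nat_lit 266) (nat_lit 179)))) (XT.nd (nat_lit 78) (nat_lit 228) (nat_lit 0) (XT.lf (nat_lit 0) (nat_lit 15054045710) (nat_lit 456) (nat_lit 25725130731) (nat_lit 76) (nat_lit 6167714751) (nat_lit 22) (nat_lit 5) (nat_lit 28) (nat_lit 5) (nat_lit 23) (nat_lit 5) (nat_lit 276) (nat_lit 266) (nat_lit 178)) (XT.nd (nat_lit 78) (nat_lit 228) (nat_lit 0) (XT.lf (nat_lit 0) (nat_lit 19325692277) (nat_lit 456) (nat_lit 7629869732) (nat_lit 76) (nat_lit 22281974926) (nat_lit 22) (nat_lit 5) (nat_lit 28) (nat_lit 5) (nat_lit 23) (nat_lit 5) (nat_lit 277) (nat_lit 266) (nat_lit 177)) (XT.lf (nat_lit 0) (nat_lit 12537140259) (nat_lit 228) (nat_lit 11700528747) (nat_lit 304) (nat_lit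 27449902876) (nat_lit 19) (nat_lit 5) (nat_lit 22) (nat_lit 5) (nat_lit 23) (nat_lit 5) (nat_lit 278) (nat_lit 266) (nat_lit 176)))))) (XT.nd (nat_lit 390) (nat_lit 380) (nat_lit 0) (XT.nd (nat_lit 156) (nat_lit 152) (nat_lit 0) (XT.nd (nat_lit 78) (nat_lit 152) (nat_lit 0) (XT.lf (nat_lit 0) (nat_lit 29868694094) (nat_lit 304) (nat_lit 19688942094) (nat_lit 76) (nat_lit 4749909759) (nat_lit 19) (nat_lit 5) (nat_lit 23) (nat_lit 5) (nat_lit 20) (nat_lit 5) (nat_lit 279) (nat_lit 266) (nat_lit 175)) (XT.lf (nat_lit 0) (nat_lit 1076446723) (nat_lit 152) (nat_lit 35200979611) (nat_lit 228) (nat_lit 20833535386) (nat_lit 17) (nat_lit 5) (nat_lit 19) (nat_lit 5) (nat_lit 20) (nat_lit 5) (nat_lit 280) (nat_lit 266) (nat_lit 174))) (XT.nd (nat_lit 78) (nat_lit 152) (nat_lit 0) (XT.lf (nat_lit 0) (nat_lit 24619910861) (nat_lit 152) (nat_lit 19114824867) (nat_lit 228) (nat_lit 16361064922)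 (nat_lit 17) (nat_lit 5) (nat_lit 19) (nat_lit 5) (nat_lit 20) (nat_lit 5) (nat_lit 281) (nat_lit 266) (nat_lit 173)) (XT.nd (nat_lit 78) (nat_lit 152) (nat_lit 0) (XT.lf (nat_lit 0) (nat_lit 50044182346) (nat_lit 152) (nat_lit 1742177163) (nat_lit 228) (nat_lit 11533267501) (nat_lit 17) (nat_lit 5) (nat_lit 19) (nat_lit 5) (nat_lit 20) (nat_lit 5) (nat_lit 282) (nat_lit 266) (nat_lit 172)) (XT.lf (nat_lit 0) (nat_lit 10830852364) (nat_lit 152) (nat_lit 50318970203) (nat_lit 228) (nat_lit 5598137463) (nat_lit 15) (nat_lit 5) (nat_lit 17) (nat_lit 5) (nat_lit 18) (nat_lit 5) (nat_lit 283) (nat_lit 266) (nat_lit 171))))) (XT.nd (nat_lit 234) (nat_lit 152) (nat_lit 0) (XT.nd (nat_lit 78) (nat_lit 152) (nat_lit 0) (XT.lf (nat_lit 0) (nat_lit 1186762347) (nat_lit 228) (nat_lit 32877791583) (nat_lit 76) (nat_lit 36351213161) (nat_lit 14) (nat_lit 5) (nat_lit 17) (nat_lit 5) (nat_lit 15)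 (nat_lit 5) (nat_lit 284) (nat_lit 266) (nat_lit 170)) (XT.nd (nat_lit 78) (nat_lit 152) (nat_lit 0) (XT.lf (nat_lit 0) (nat_lit 8210079315) (nat_lit 228) (nat_lit 8143242072) (nat_lit 76) (nat_lit 58012212970) (nat_lit 14) (nat_lit 5) (nat_lit 17) (nat_lit 5) (nat_lit 15) (nat_lit 5) (nat_lit 285) (nat_lit 266) (nat_lit 169)) (XT.lf (nat_lit 0) (nat_lit 16342475283) (nat_lit 228) (nat_lit 59127267943) (nat_lit 76) (nat_lit 3117775405) (nat_lit 12) (nat_lit 5) (nat_lit 15) (nat_lit 5) (nat_lit 13) (nat_lit 5) (nat_lit 286) (nat_lit 266) (nat_lit 168)))) (XT.nd (nat_lit 78) (nat_lit 152) (nat_lit 0) (XT.lf (nat_lit 0) (nat_lit 25776935996) (nat_lit 228) (nat_lit 33827254624) (nat_lit 76) (nat_lit 23490964957) (nat_lit 12) (nat_lit 5) (nat_lit 15) (nat_lit 5) (nat_lit 13) (nat_lit 5) (nat_lit 287) (nat_lit 266) (nat_lit 167)) (XT.nd (nat_lit 78) (nat_lit 152) (nat_lit 0) (XT.lf (nat_lit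 0) (nat_lit 35964558816) (nat_lit 228) (nat_lit 6505459280) (nat_lit 76) (nat_lit 45493523865) (nat_lit 12) (nat_lit 5) (nat_lit 15) (nat_lit 5) (nat_lit 13) (nat_lit 5) (nat_lit 288) (nat_lit 266) (nat_lit 166)) (XT.lf (nat_lit 0) (nat_lit 24211165581) (nat_lit 152) (nat_lit 23336828374) (nat_lit 228) (nat_lit 45626951197) (nat_lit 10) (nat_lit 5) (nat_lit 12) (nat_lit 5) (nat_lit 13) (nat_lit 5) (nat_lit 289) (nat_lit 266) (nat_lit 165))))))))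
noncomputable def xc96 : XT := (XT.nd (nat_lit 1638) (nat_lit 152) (nat_lit 0) (XT.nd (nat_lit 780) (nat_lit 152) (nat_lit 0) (XT.nd (nat_lit 390) (nat_lit 228) (nat_lit 0) (XT.nd (nat_lit 156) (nat_lit 152) (nat_lit 0) (XT.nd (nat_lit 78) (nat_lit 0) (nat_lit 0) (XT.lf (nat_lit 0) (nat_lit 57753089015) (nat_lit 152) (nat_lit 2481470272) (nat_lit 228) (nat_lit 38554594229) (nat_lit 10) (nat_lit 5) (nat_lit 12) (nat_lit 5) (nat_lit 13) (nat_lit 5) (nat_lit 290) (nat_lit 266) (nat_lit 164)) (XT.lf (nat_lit 0) (nat_lit 74416744401) (nat_lit 228) (nat_lit 11358105147) (nat_lit 76) (nat_lit 19039202090) (nat_lit 10) (nat_lit 5) (nat_lit 13) (nat_lit 5) (nat_lit 11) (nat_lit 4) (nat_lit 291) (nat_lit 266) (nat_lit 163))) (XT.nd (nat_lit 78) (nat_lit 76) (nat_lit 0) (XT.lf (nat_lit 0) (nat_lit 21714052074) (nat_lit 76) (nat_lit 68604903908) (nat_lit 152) (nat_lit 20955157511) (nat_lit 9)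 (nat_lit 5) (nat_lit 10) (nat_lit 5) (nat_lit 11) (nat_lit 4) (nat_lit 292) (nat_lit 266) (nat_lit 162)) (XT.nd (nat_lit 78) (nat_lit 76) (nat_lit 0) (XT.lf (nat_lit 0) (nat_lit 58076163264) (nat_lit 76) (nat_lit 49726554715) (nat_lit 152) (nat_lit 10423519857) (nat_lit 9) (nat_lit 5) (nat_lit 10) (nat_lit 5) (nat_lit 11) (nat_lit 4) (nat_lit 293) (nat_lit 266) (nat_lit 161)) (XT.lf (nat_lit 0) (nat_lit 901968636) (nat_lit 152) (nat_lit 28411850938) (nat_lit 76) (nat_lit 96418979855) (nat_lit 8) (nat_lit 5) (nat_lit 10) (nat_lit 5) (nat_lit 9) (nat_lit 5) (nat_lit 294) (nat_lit 266) (nat_lit 160))))) (XT.nd (nat_lit 156) (nat_lit 76) (nat_lit 0) (XT.nd (nat_lit 78) (nat_lit 0) (nat_lit 0) (XT.lf (nat_lit 0) (nat_lit 5887640241) (nat_lit 152) (nat_lit 6823271498) (nat_lit 228) (nat_lit 121096076331) (nat_lit 6) (nat_lit 5) (nat_lit 8) (nat_lit 5) (nat_lit 9) (nat_lit 5) (nat_lit 295)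 (nat_lit 266) (nat_lit 159)) (XT.lf (nat_lit 0) (nat_lit 26680634225) (nat_lit 228) (nat_lit 98359921280) (nat_lit 76) (nat_lit 17389276636) (nat_lit 6) (nat_lit 5) (nat_lit 9) (nat_lit 5) (nat_lit 7) (nat_lit 4) (nat_lit 296) (nat_lit 266) (nat_lit 158))) (XT.nd (nat_lit 78) (nat_lit 76) (nat_lit 0) (XT.lf (nat_lit 0) (nat_lit 41944223389) (nat_lit 228) (nat_lit 66614455578) (nat_lit 76) (nat_lit 43169726711) (nat_lit 6) (nat_lit 5) (nat_lit 9) (nat_lit 5) (nat_lit 7) (nat_lit 4) (nat_lit 297) (nat_lit 266) (nat_lit 157)) (XT.nd (nat_lit 78) (nat_lit 76) (nat_lit 0) (XT.lf (nat_lit 0) (nat_lit 58428030287) (nat_lit 228) (nat_lit 32330729601) (nat_lit 76) (nat_lit 71012179439) (nat_lit 6) (nat_lit 5) (nat_lit 9) (nat_lit 5) (nat_lit 7) (nat_lit 4) (nat_lit 298) (nat_lit 266) (nat_lit 156)) (XT.lf (nat_lit 0) (nat_lit 4941619280) (nat_lit 76) (nat_lit 71406963518) (nat_lit 152) (nat_lit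 96258853913) (nat_lit 5) (nat_lit 5) (nat_lit 6) (nat_lit 5) (nat_lit 7) (nat_lit 4) (nat_lit 299) (nat_lit 266) (nat_lit 155)))))) (XT.nd (nat_lit 390) (nat_lit 76) (nat_lit 0) (XT.nd (nat_lit 156) (nat_lit 76) (nat_lit 0) (XT.nd (nat_lit 78) (nat_lit 0) (nat_lit 0) (XT.lf (nat_lit 0) (nat_lit 47033190608) (nat_lit 76) (nat_lit 49552793088) (nat_lit 152) (nat_lit 87654217865) (nat_lit 5) (nat_lit 5) (nat_lit 6) (nat_lit 5) (nat_lit 7) (nat_lit 4) (nat_lit 300) (nat_lit 266) (nat_lit 154)) (XT.lf (nat_lit 0) (nat_lit 92490936989) (nat_lit 76) (nat_lit 25950721845) (nat_lit 152) (nat_lit 78361989903) (nat_lit 5) (nat_lit 5) (nat_lit 6) (nat_lit 5) (nat_lit 7) (nat_lit 4) (nat_lit 301) (nat_lit 266) (nat_lit 153))) (XT.nd (nat_lit 78) (nat_lit 76) (nat_lit 0) (XT.lf (nat_lit 0) (nat_lit 141584237662) (nat_lit 76) (nat_lit 460885664) (nat_lit 152) (nat_lit 68327104972) (nat_lit 5) (nat_lit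 5) (nat_lit 6) (nat_lit 5) (nat_lit 7) (nat_lit 4) (nat_lit 302) (nat_lit 266) (nat_lit 152)) (XT.nd (nat_lit 78) (nat_lit 76) (nat_lit 0) (XT.lf (nat_lit 0) (nat_lit 168187229984) (nat_lit 152) (nat_lit 31073311181) (nat_lit 0) (nat_lit 25713727039) (nat_lit 5) (nat_lit 5) (nat_lit 7) (nat_lit 4) (nat_lit 5) (nat_lit 4) (nat_lit 303) (nat_lit 266) (nat_lit 151)) (XT.lf (nat_lit 0) (nat_lit 10153539021) (nat_lit 76) (nat_lit 186522751966) (nat_lit 76) (nat_lit 44047736398) (nat_lit 4) (nat_lit 4) (nat_lit 5) (nat_lit 5) (nat_lit 5) (nat_lit 4) (nat_lit 304) (nat_lit 266) (nat_lit 150))))) (XT.nd (nat_lit 234) (nat_lit 0) (nat_lit 0) (XT.nd (nat_lit 78) (nat_lit 76) (nat_lit 0) (XT.lf (nat_lit 0) (nat_lit 56444774429) (nat_lit 76) (nat_lit 171848744202) (nat_lit 76) (nat_lit 29372328057) (nat_lit 4) (nat_lit 4) (nat_lit 5) (nat_lit 5) (nat_lit 5) (nat_lit 4) (nat_lit 305) (nat_lit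 266) (nat_lit 149)) (XT.nd (nat_lit 78) (nat_lit 76) (nat_lit 0) (XT.lf (nat_lit 0) (nat_lit 106438447974) (nat_lit 76) (nat_lit 156001160185) (nat_lit 76) (nat_lit 13523447209) (nat_lit 4) (nat_lit 4) (nat_lit 5) (nat_lit 5) (nat_lit 5) (nat_lit 4) (nat_lit 306) (nat_lit 266) (nat_lit 148)) (XT.lf (nat_lit 0) (nat_lit 3413097759) (nat_lit 152) (nat_lit 135379670405) (nat_lit 76) (nat_lit 156924400562) (nat_lit 3) (nat_lit 5) (nat_lit 5) (nat_lit 5) (nat_lit 4) (nat_lit 4) (nat_lit 307) (nat_lit 266) (nat_lit 147)))) (XT.nd (nat_lit 78) (nat_lit 0) (nat_lit 0) (XT.lf (nat_lit 0) (nat_lit 20973492694) (nat_lit 152) (nat_lit 98855160762) (nat_lit 76) (nat_lit 197194895529) (nat_lit 3) (nat_lit 5) (nat_lit 5) (nat_lit 5) (nat_lit 4) (nat_lit 4) (nat_lit 308) (nat_lit 266) (nat_lit 146)) (XT.nd (nat_lit 78) (nat_lit 0) (nat_lit 0) (XT.lf (nat_lit 0) (nat_lit 39938296796) (nat_lit 152)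 (nat_lit 59409397697) (nat_lit 76) (nat_lit 240686780824) (nat_lit 3) (nat_lit 5) (nat_lit 5) (nat_lit 5) (nat_lit 4) (nat_lit 4) (nat_lit 309) (nat_lit 266) (nat_lit 145)) (XT.lf (nat_lit 0) (nat_lit 60419894087) (nat_lit 152) (nat_lit 16808628540) (nat_lit 76) (nat_lit 287657786138) (nat_lit 3) (nat_lit 5) (nat_lit 5) (nat_lit 5) (nat_lit 4) (nat_lit 4) (nat_lit 310) (nat_lit 266) (nat_lit 144))))))) (XT.nd (nat_lit 858) (nat_lit 76) (nat_lit 0) (XT.nd (nat_lit 390) (nat_lit 0) (nat_lit 0) (XT.nd (nat_lit 156) (nat_lit 0) (nat_lit 0) (XT.nd (nat_lit 78) (nat_lit 0) (nat_lit 0) (XT.lf (nat_lit 0) (nat_lit 30737194675) (nat_lit 76) (nat_lit 52541692593) (nat_lit 152) (nat_lit 308388293766) (nat_lit 2) (nat_lit 5) (nat_lit 3) (nat_lit 5) (nat_lit 4) (nat_lit 4) (nat_lit 311) (nat_lit 266) (nat_lit 143)) (XT.lf (nat_lit 0) (nat_lit 83042014261) (nat_lit 76) (nat_lit 25383813780) (nat_lit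 152) (nat_lit 312127958264) (nat_lit 2) (nat_lit 5) (nat_lit 3) (nat_lit 5) (nat_lit 4) (nat_lit 4) (nat_lit 312) (nat_lit 266) (nat_lit 142))) (XT.nd (nat_lit 78) (nat_lit 0) (nat_lit 0) (XT.lf (nat_lit 0) (nat_lit 135679113156) (nat_lit 152) (nat_lit 312315587884) (nat_lit 0) (nat_lit 3749053198) (nat_lit 2) (nat_lit 5) (nat_lit 4) (nat_lit 4) (nat_lit 2) (nat_lit 4) (nat_lit 313) (nat_lit 266) (nat_lit 141)) (XT.nd (nat_lit 78) (nat_lit 0) (nat_lit 0) (XT.lf (nat_lit 0) (nat_lit 165771676252) (nat_lit 152) (nat_lit 285763555847) (nat_lit 0) (nat_lit 33840967556) (nat_lit 2) (nat_lit 5) (nat_lit 4) (nat_lit 4) (nat_lit 2) (nat_lit 4) (nat_lit 314) (nat_lit 266) (nat_lit 140)) (XT.lf (nat_lit 0) (nat_lit 198271362298) (nat_lit 152) (nat_lit 257087849228) (nat_lit 0) (nat_lit 66340052919) (nat_lit 2) (nat_lit 5) (nat_lit 4) (nat_lit 4) (nat_lit 2) (nat_lit 4) (nat_lit 315) (nat_lit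 266) (nat_lit 139))))) (XT.nd (nat_lit 234) (nat_lit 0) (nat_lit 0) (XT.nd (nat_lit 78) (nat_lit 0) (nat_lit 0) (XT.lf (nat_lit 0) (nat_lit 233370762026) (nat_lit 152) (nat_lit 226118537912) (nat_lit 0) (nat_lit 101438896458) (nat_lit 2) (nat_lit 5) (nat_lit 4) (nat_lit 4) (nat_lit 2) (nat_lit 4) (nat_lit 316) (nat_lit 266) (nat_lit 138)) (XT.nd (nat_lit 78) (nat_lit 0) (nat_lit 0) (XT.lf (nat_lit 0) (nat_lit 271277871878) (nat_lit 152) (nat_lit 192672100057) (nat_lit 0) (nat_lit 139345491321) (nat_lit 2) (nat_lit 5) (nat_lit 4) (nat_lit 4) (nat_lit 2) (nat_lit 4) (nat_lit 317) (nat_lit 266) (nat_lit 137)) (XT.lf (nat_lit 0) (nat_lit 312217326580) (nat_lit 152) (nat_lit 156550334547) (nat_lit 0) (nat_lit 180284469181) (nat_lit 2) (nat_lit 5) (nat_lit 4) (nat_lit 4) (nat_lit 2) (nat_lit 4) (nat_lit 318) (nat_lit 266) (nat_lit 136)))) (XT.nd (nat_lit 78) (nat_lit 0) (nat_lit 0) (XT.lf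 (nat_lit 0) (nat_lit 356431730307) (nat_lit 152) (nat_lit 117539186476) (nat_lit 0) (nat_lit 224498431388) (nat_lit 2) (nat_lit 5) (nat_lit 4) (nat_lit 4) (nat_lit 2) (nat_lit 4) (nat_lit 319) (nat_lit 266) (nat_lit 135)) (XT.nd (nat_lit 78) (nat_lit 0) (nat_lit 0) (XT.lf (nat_lit 0) (nat_lit 404183094342) (nat_lit 152) (nat_lit 75407478671) (nat_lit 0) (nat_lit 272249386608) (nat_lit 2) (nat_lit 5) (nat_lit 4) (nat_lit 4) (nat_lit 2) (nat_lit 4) (nat_lit 320) (nat_lit 266) (nat_lit 134)) (XT.lf (nat_lit 0) (nat_lit 455754389730) (nat_lit 152) (nat_lit 29905541752) (nat_lit 0) (nat_lit 323820303463) (nat_lit 2) (nat_lit 5) (nat_lit 4) (nat_lit 4) (nat_lit 2) (nat_lit 4) (nat_lit 321) (nat_lit 266) (nat_lit 133)))))) (XT.nd (nat_lit 390) (nat_lit 0) (nat_lit 0) (XT.nd (nat_lit 156) (nat_lit 0) (nat_lit 0) (XT.nd (nat_lit 78) (nat_lit 0) (nat_lit 0) (XT.lf (nat_lit 0) (nat_lit 20249213033)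 (nat_lit 76) (nat_lit 491689005174) (nat_lit 76) (nat_lit 359754568414) (nat_lit 1) (nat_lit 4) (nat_lit 2) (nat_lit 5) (nat_lit 2) (nat_lit 4) (nat_lit 322) (nat_lit 266) (nat_lit 132)) (XT.lf (nat_lit 0) (nat_lit 76116825337) (nat_lit 76) (nat_lit 497317439051) (nat_lit 76) (nat_lit 365382677761) (nat_lit 1) (nat_lit 4) (nat_lit 2) (nat_lit 5) (nat_lit 2) (nat_lit 4) (nat_lit 323) (nat_lit 266) (nat_lit 131))) (XT.nd (nat_lit 78) (nat_lit 0) (nat_lit 0) (XT.lf (nat_lit 0) (nat_lit 136453589659) (nat_lit 76) (nat_lit 503396257306) (nat_lit 76) (nat_lit 371461195524) (nat_lit 1) (nat_lit 4) (nat_lit 2) (nat_lit 5) (nat_lit 2) (nat_lit 4) (nat_lit 324) (nat_lit 266) (nat_lit 130)) (XT.nd (nat_lit 78) (nat_lit 0) (nat_lit 0) (XT.lf (nat_lit 0) (nat_lit 201617057195) (nat_lit 76) (nat_lit 509961482564) (nat_lit 76) (nat_lit 378026142550) (nat_lit 1) (nat_lit 4) (nat_lit 2) (nat_lit 5)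 (nat_lit 2) (nat_lit 4) (nat_lit 325) (nat_lit 266) (nat_lit 129)) (XT.lf (nat_lit 0) (nat_lit 271993381827) (nat_lit 76) (nat_lit 517052019865) (nat_lit 76) (nat_lit 385116422228) (nat_lit 1) (nat_lit 4) (nat_lit 2) (nat_lit 5) (nat_lit 2) (nat_lit 4) (nat_lit 326) (nat_lit 266) (nat_lit 128))))) (XT.nd (nat_lit 32994) (nat_lit 0) (nat_lit 1900) (XT.nd (nat_lit 32838) (nat_lit 0) (nat_lit 2280) (XT.lf (nat_lit 0) (nat_lit 347999608442) (nat_lit 76) (nat_lit 524709887207) (nat_lit 76) (nat_lit 392774051030) (nat_lit 1) (nat_lit 4) (nat_lit 2) (nat_lit 5) (nat_lit 2) (nat_lit 4) (nat_lit 327) (nat_lit 266) (nat_lit 127)) (XT.nd (nat_lit 78) (nat_lit 0) (nat_lit 0) (XT.lf (nat_lit 0) (nat_lit 7887026618) (nat_lit 0) (nat_lit 7887026618) (nat_lit 380) (nat_lit 744758617) (nat_lit 31) (nat_lit 5) (nat_lit 31) (nat_lit 3) (nat_lit 36) (nat_lit 3) (nat_lit 267) (nat_lit 267) (nat_lit 186))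 (XT.lf (nat_lit 0) (nat_lit 29719595038) (nat_lit 0) (nat_lit 3140043955) (nat_lit 380) (nat_lit 1495013062) (nat_lit 31) (nat_lit 5) (nat_lit 31) (nat_lit 3) (nat_lit 36) (nat_lit 3) (nat_lit 268) (nat_lit 267) (nat_lit 185)))) (XT.nd (nat_lit 78) (nat_lit 380) (nat_lit 0) (XT.lf (nat_lit 76) (nat_lit 9208770384) (nat_lit 0) (nat_lit 25536529304) (nat_lit 456) (nat_lit 994257357) (nat_lit 32) (nat_lit 5) (nat_lit 31) (nat_lit 5) (nat_lit 37) (nat_lit 5) (nat_lit 269) (nat_lit 267) (nat_lit 184)) (XT.nd (nat_lit 78) (nat_lit 380) (nat_lit 0) (XT.lf (nat_lit 76) (nat_lit 24334935923) (nat_lit 0) (nat_lit 12648492396) (nat_lit 456) (nat_lit 235743962) (nat_lit 32) (nat_lit 5) (nat_lit 31) (nat_lit 5) (nat_lit 37) (nat_lit 5) (nat_lit 270) (nat_lit 267) (nat_lit 183)) (XT.lf (nat_lit 0) (nat_lit 628515019) (nat_lit 456) (nat_lit 36911102455) (nat_lit 532) (nat_lit 1270516956) (nat_lit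 26) (nat_lit 5) (nat_lit 32) (nat_lit 5) (nat_lit 33) (nat_lit 5) (nat_lit 271) (nat_lit 267) (nat_lit 182))))))))
noncomputable def xc97 : XT := (XT.nd (nat_lit 1716) (nat_lit 532) (nat_lit 0) (XT.nd (nat_lit 858) (nat_lit 608) (nat_lit 0) (XT.nd (nat_lit 390) (nat_lit 380) (nat_lit 0) (XT.nd (nat_lit 156) (nat_lit 304) (nat_lit 0) (XT.nd (nat_lit 78) (nat_lit 0) (nat_lit 0) (XT.lf (nat_lit 0) (nat_lit 2235005826) (nat_lit 456) (nat_lit 22249593692) (nat_lit 532) (nat_lit 15988455338) (nat_lit 26) (nat_lit 5) (nat_lit 32) (nat_lit 5) (nat_lit 33) (nat_lit 5) (nat_lit 272) (nat_lit 267) (nat_lit 181)) (XT.lf (nat_lit 0) (nat_lit 3966189235) (nat_lit 456) (nat_lit 6418216558) (nat_lit 532) (nat_lit 31884943841) (nat_lit 26) (nat_lit 5) (nat_lit 32) (nat_lit 5) (nat_lit 33) (nat_lit 5) (nat_lit 273) (nat_lit 267) (nat_lit 180))) (XT.nd (nat_lit 78) (nat_lit 380) (nat_lit 0) (XT.lf (nat_lit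 0) (nat_lit 6226155581) (nat_lit 456) (nat_lit 33072502870) (nat_lit 76) (nat_lit 4879498507) (nat_lit 27) (nat_lit 5) (nat_lit 33) (nat_lit 5) (nat_lit 28) (nat_lit 5) (nat_lit 274) (nat_lit 267) (nat_lit 179)) (XT.nd (nat_lit 78) (nat_lit 380) (nat_lit 0) (XT.lf (nat_lit 0) (nat_lit 9113354787) (nat_lit 456) (nat_lit 16106535213) (nat_lit 76) (nat_lit 20984093675) (nat_lit 27) (nat_lit 5) (nat_lit 33) (nat_lit 5) (nat_lit 28) (nat_lit 5) (nat_lit 275) (nat_lit 267) (nat_lit 178)) (XT.lf (nat_lit 0) (nat_lit 2330449159) (nat_lit 380) (nat_lit 9954042248) (nat_lit 456) (nat_lit 36103175660) (nat_lit 22) (nat_lit 5) (nat_lit 27) (nat_lit 5) (nat_lit 28) (nat_lit 5) (nat_lit 276) (nat_lit 267) (nat_lit 177))))) (XT.nd (nat_lit 234) (nat_lit 152) (nat_lit 0) (XT.nd (nat_lit 78) (nat_lit 228) (nat_lit 0) (XT.lf (nat_lit 0) (nat_lit 16315339130) (nat_lit 456) (nat_lit 27724018886) (nat_lit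 76) (nat_lit 6658230922) (nat_lit 22) (nat_lit 5) (nat_lit 28) (nat_lit 5) (nat_lit 23) (nat_lit 5) (nat_lit 277) (nat_lit 267) (nat_lit 176)) (XT.nd (nat_lit 78) (nat_lit 228) (nat_lit 0) (XT.lf (nat_lit 0) (nat_lit 20924497439) (nat_lit 456) (nat_lit 8185516436) (nat_lit 76) (nat_lit 24061846800) (nat_lit 22) (nat_lit 5) (nat_lit 28) (nat_lit 5) (nat_lit 23) (nat_lit 5) (nat_lit 278) (nat_lit 267) (nat_lit 175)) (XT.lf (nat_lit 0) (nat_lit 13593468459) (nat_lit 228) (nat_lit 12633339694) (nat_lit 304) (nat_lit 29591334216) (nat_lit 19) (nat_lit 5) (nat_lit 22) (nat_lit 5) (nat_lit 23) (nat_lit 5) (nat_lit 279) (nat_lit 267) (nat_lit 174)))) (XT.nd (nat_lit 78) (nat_lit 152) (nat_lit 0) (XT.lf (nat_lit 0) (nat_lit 32304674196) (nat_lit 304) (nat_lit 21210618083) (nat_lit 76) (nat_lit 5132744861) (nat_lit 19) (nat_lit 5) (nat_lit 23) (nat_lit 5) (nat_lit 20) (nat_lit 5) (nat_lit 280)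 (nat_lit 267) (nat_lit 173)) (XT.nd (nat_lit 78) (nat_lit 0) (nat_lit 0) (XT.lf (nat_lit 0) (nat_lit 1214648944) (nat_lit 152) (nat_lit 38009265451) (nat_lit 228) (nat_lit 22452016195) (nat_lit 17) (nat_lit 5) (nat_lit 19) (nat_lit 5) (nat_lit 20) (nat_lit 5) (nat_lit 281) (nat_lit 267) (nat_lit 172)) (XT.lf (nat_lit 0) (nat_lit 26637731955) (nat_lit 152) (nat_lit 20636795551) (nat_lit 228) (nat_lit 17625318614) (nat_lit 17) (nat_lit 5) (nat_lit 19) (nat_lit 5) (nat_lit 20) (nat_lit 5) (nat_lit 282) (nat_lit 267) (nat_lit 171)))))) (XT.nd (nat_lit 390) (nat_lit 228) (nat_lit 0) (XT.nd (nat_lit 156) (nat_lit 228) (nat_lit 0) (XT.nd (nat_lit 78) (nat_lit 152) (nat_lit 0) (XT.lf (nat_lit 0) (nat_lit 54092372697) (nat_lit 152) (nat_lit 1874870498) (nat_lit 228) (nat_lit 12414603436) (nat_lit 17) (nat_lit 5) (nat_lit 19) (nat_lit 5) (nat_lit 20) (nat_lit 5) (nat_lit 283) (nat_lit 267)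 (nat_lit 170)) (XT.lf (nat_lit 0) (nat_lit 11743954900) (nat_lit 152) (nat_lit 54334285770) (nat_lit 228) (nat_lit 6006352184) (nat_lit 15) (nat_lit 5) (nat_lit 17) (nat_lit 5) (nat_lit 18) (nat_lit 5) (nat_lit 284) (nat_lit 267) (nat_lit 169))) (XT.nd (nat_lit 78) (nat_lit 152) (nat_lit 0) (XT.lf (nat_lit 0) (nat_lit 1316567694) (nat_lit 228) (nat_lit 35462750955) (nat_lit 76) (nat_lit 39266672551) (nat_lit 14) (nat_lit 5) (nat_lit 17) (nat_lit 5) (nat_lit 15) (nat_lit 5) (nat_lit 285) (nat_lit 267) (nat_lit 168)) (XT.nd (nat_lit 78) (nat_lit 152) (nat_lit 0) (XT.lf (nat_lit 0) (nat_lit 8899167475) (nat_lit 228) (nat_lit 8752790369) (nat_lit 76) (nat_lit 62660006987) (nat_lit 14) (nat_lit 5) (nat_lit 17) (nat_lit 5) (nat_lit 15) (nat_lit 5) (nat_lit 286) (nat_lit 267) (nat_lit 167)) (XT.lf (nat_lit 0) (nat_lit 17680986266) (nat_lit 228) (nat_lit 63814156743) (nat_lit 76) (nat_lit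 3376675363) (nat_lit 12) (nat_lit 5) (nat_lit 15) (nat_lit 5) (nat_lit 13) (nat_lit 5) (nat_lit 287) (nat_lit 267) (nat_lit 166))))) (XT.nd (nat_lit 234) (nat_lit 76) (nat_lit 0) (XT.nd (nat_lit 78) (nat_lit 152) (nat_lit 0) (XT.lf (nat_lit 0) (nat_lit 27867899172) (nat_lit 228) (nat_lit 36493349220) (nat_lit 76) (nat_lit 25379018010) (nat_lit 12) (nat_lit 5) (nat_lit 15) (nat_lit 5) (nat_lit 13) (nat_lit 5) (nat_lit 288) (nat_lit 267) (nat_lit 165)) (XT.nd (nat_lit 78) (nat_lit 152) (nat_lit 0) (XT.lf (nat_lit 0) (nat_lit 38868397870) (nat_lit 228) (nat_lit 6988779565) (nat_lit 76) (nat_lit 49141131568) (nat_lit 12) (nat_lit 5) (nat_lit 15) (nat_lit 5) (nat_lit 13) (nat_lit 5) (nat_lit 289) (nat_lit 267) (nat_lit 164)) (XT.lf (nat_lit 0) (nat_lit 26184235628) (nat_lit 152) (nat_lit 25193166368) (nat_lit 228) (nat_lit 49249324428) (nat_lit 10) (nat_lit 5) (nat_lit 12) (nat_lit 5)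 (nat_lit 13) (nat_lit 5) (nat_lit 290) (nat_lit 267) (nat_lit 163)))) (XT.nd (nat_lit 78) (nat_lit 76) (nat_lit 0) (XT.lf (nat_lit 0) (nat_lit 62406833173) (nat_lit 152) (nat_lit 2670165416) (nat_lit 228) (nat_lit 41613236893) (nat_lit 10) (nat_lit 5) (nat_lit 12) (nat_lit 5) (nat_lit 13) (nat_lit 5) (nat_lit 291) (nat_lit 267) (nat_lit 162)) (XT.nd (nat_lit 78) (nat_lit 76) (nat_lit 0) (XT.lf (nat_lit 0) (nat_lit 80392223574) (nat_lit 228) (nat_lit 12234058076) (nat_lit 76) (nat_lit 20570978181) (nat_lit 10) (nat_lit 5) (nat_lit 13) (nat_lit 5) (nat_lit 11) (nat_lit 4) (nat_lit 292) (nat_lit 267) (nat_lit 161)) (XT.lf (nat_lit 0) (nat_lit 23483043989) (nat_lit 76) (nat_lit 74082694540) (nat_lit 152) (nat_lit 22608468712) (nat_lit 9) (nat_lit 5) (nat_lit 10) (nat_lit 5) (nat_lit 11) (nat_lit 4) (nat_lit 293) (nat_lit 267) (nat_lit 160))))))) (XT.nd (nat_lit 858) (nat_lit 228) (nat_lit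 0) (XT.nd (nat_lit 390) (nat_lit 76) (nat_lit 0) (XT.nd (nat_lit 156) (nat_lit 152) (nat_lit 0) (XT.nd (nat_lit 78) (nat_lit 76) (nat_lit 0) (XT.lf (nat_lit 0) (nat_lit 62751763501) (nat_lit 76) (nat_lit 53694862722) (nat_lit 152) (nat_lit 11236011261) (nat_lit 9) (nat_lit 5) (nat_lit 10) (nat_lit 5) (nat_lit 11) (nat_lit 4) (nat_lit 294) (nat_lit 267) (nat_lit 159)) (XT.lf (nat_lit 0) (nat_lit 992941090) (nat_lit 152) (nat_lit 30656380383) (nat_lit 76) (nat_lit 104140490303) (nat_lit 8) (nat_lit 5) (nat_lit 10) (nat_lit 5) (nat_lit 9) (nat_lit 5) (nat_lit 295) (nat_lit 267) (nat_lit 158))) (XT.nd (nat_lit 78) (nat_lit 0) (nat_lit 0) (XT.lf (nat_lit 0) (nat_lit 6386350632) (nat_lit 152) (nat_lit 7359521475) (nat_lit 228) (nat_lit 130764129488) (nat_lit 6) (nat_lit 5) (nat_lit 8) (nat_lit 5) (nat_lit 9) (nat_lit 5) (nat_lit 296) (nat_lit 267) (nat_lit 157)) (XT.nd (nat_lit 78) (nat_lit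 0) (nat_lit 0) (XT.lf (nat_lit 0) (nat_lit 28832046622) (nat_lit 228) (nat_lit 106201850603) (nat_lit 76) (nat_lit 18788873327) (nat_lit 6) (nat_lit 5) (nat_lit 9) (nat_lit 5) (nat_lit 7) (nat_lit 4) (nat_lit 297) (nat_lit 267) (nat_lit 156)) (XT.lf (nat_lit 0) (nat_lit 45315466500) (nat_lit 228) (nat_lit 71918737598) (nat_lit 76) (nat_lit 46631133144) (nat_lit 6) (nat_lit 5) (nat_lit 9) (nat_lit 5) (nat_lit 7) (nat_lit 4) (nat_lit 298) (nat_lit 267) (nat_lit 155))))) (XT.nd (nat_lit 234) (nat_lit 0) (nat_lit 0) (XT.nd (nat_lit 78) (nat_lit 76) (nat_lit 0) (XT.lf (nat_lit 0) (nat_lit 63116814598) (nat_lit 228) (nat_lit 34894156093) (nat_lit 76) (nat_lit 76700402216) (nat_lit 6) (nat_lit 5) (nat_lit 9) (nat_lit 5) (nat_lit 7) (nat_lit 4) (nat_lit 299) (nat_lit 267) (nat_lit 154)) (XT.nd (nat_lit 78) (nat_lit 0) (nat_lit 0) (XT.lf (nat_lit 0) (nat_lit 5359397613) (nat_lit 76) (nat_lit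 77111076415) (nat_lit 152) (nat_lit 103944364832) (nat_lit 5) (nat_lit 5) (nat_lit 6) (nat_lit 5) (nat_lit 7) (nat_lit 4) (nat_lit 300) (nat_lit 267) (nat_lit 153)) (XT.lf (nat_lit 0) (nat_lit 50816631774) (nat_lit 76) (nat_lit 53509197845) (nat_lit 152) (nat_lit 94652483633) (nat_lit 5) (nat_lit 5) (nat_lit 6) (nat_lit 5) (nat_lit 7) (nat_lit 4) (nat_lit 301) (nat_lit 267) (nat_lit 152)))) (XT.nd (nat_lit 78) (nat_lit 0) (nat_lit 0) (XT.lf (nat_lit 0) (nat_lit 99909458168) (nat_lit 76) (nat_lit 28019540065) (nat_lit 152) (nat_lit 84617919779) (nat_lit 5) (nat_lit 5) (nat_lit 6) (nat_lit 5) (nat_lit 7) (nat_lit 4) (nat_lit 302) (nat_lit 267) (nat_lit 151)) (XT.nd (nat_lit 78) (nat_lit 0) (nat_lit 0) (XT.lf (nat_lit 0) (nat_lit 152928797249) (nat_lit 76) (nat_lit 491053251) (nat_lit 152) (nat_lit 73781209188) (nat_lit 5) (nat_lit 5) (nat_lit 6) (nat_lit 5) (nat_lit 7) (nat_lit 4) (nat_lit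 303) (nat_lit 267) (nat_lit 150)) (XT.lf (nat_lit 0) (nat_lit 181652651458) (nat_lit 152) (nat_lit 33541948081) (nat_lit 0) (nat_lit 27776721444) (nat_lit 5) (nat_lit 5) (nat_lit 7) (nat_lit 4) (nat_lit 5) (nat_lit 4) (nat_lit 304) (nat_lit 267) (nat_lit 149)))))) (XT.nd (nat_lit 390) (nat_lit 76) (nat_lit 0) (XT.nd (nat_lit 156) (nat_lit 76) (nat_lit 0) (XT.nd (nat_lit 78) (nat_lit 0) (nat_lit 0) (XT.lf (nat_lit 0) (nat_lit 10982613986) (nat_lit 76) (nat_lit 201437853639) (nat_lit 76) (nat_lit 47560626795) (nat_lit 4) (nat_lit 4) (nat_lit 5) (nat_lit 5) (nat_lit 5) (nat_lit 4) (nat_lit 305) (nat_lit 267) (nat_lit 148)) (XT.lf (nat_lit 0) (nat_lit 60975904386) (nat_lit 76) (nat_lit 185590422919) (nat_lit 76) (nat_lit 31711995306) (nat_lit 4) (nat_lit 4) (nat_lit 5) (nat_lit 5) (nat_lit 5) (nat_lit 4) (nat_lit 306) (nat_lit 267) (nat_lit 147))) (XT.nd (nat_lit 78) (nat_lit 76) (nat_lit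 0) (XT.lf (nat_lit 0) (nat_lit 114967920111) (nat_lit 76) (nat_lit 168475492982) (nat_lit 76) (nat_lit 14595953546) (nat_lit 4) (nat_lit 4) (nat_lit 5) (nat_lit 5) (nat_lit 5) (nat_lit 4) (nat_lit 307) (nat_lit 267) (nat_lit 146)) (XT.nd (nat_lit 78) (nat_lit 0) (nat_lit 0) (XT.lf (nat_lit 0) (nat_lit 3694387008) (nat_lit 152) (nat_lit 146196243924) (nat_lit 76) (nat_lit 169483215750) (nat_lit 3) (nat_lit 5) (nat_lit 5) (nat_lit 5) (nat_lit 4) (nat_lit 4) (nat_lit 308) (nat_lit 267) (nat_lit 145)) (XT.lf (nat_lit 0) (nat_lit 22659003062) (nat_lit 152) (nat_lit 106750795740) (nat_lit 76) (nat_lit 212974990081) (nat_lit 3) (nat_lit 5) (nat_lit 5) (nat_lit 5) (nat_lit 4) (nat_lit 4) (nat_lit 309) (nat_lit 267) (nat_lit 144))))) (XT.nd (nat_lit 234) (nat_lit 0) (nat_lit 0) (XT.nd (nat_lit 78) (nat_lit 76) (nat_lit 0) (XT.lf (nat_lit 0) (nat_lit 43140426236) (nat_lit 152) (nat_lit 64150318140)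 (nat_lit 76) (nat_lit 259945892651) (nat_lit 3) (nat_lit 5) (nat_lit 5) (nat_lit 5) (nat_lit 4) (nat_lit 4) (nat_lit 310) (nat_lit 267) (nat_lit 143)) (XT.nd (nat_lit 78) (nat_lit 76) (nat_lit 0) (XT.lf (nat_lit 0) (nat_lit 65260027926) (nat_lit 152) (nat_lit 18142363848) (nat_lit 76) (nat_lit 310674269549) (nat_lit 3) (nat_lit 5) (nat_lit 5) (nat_lit 5) (nat_lit 4) (nat_lit 4) (nat_lit 311) (nat_lit 267) (nat_lit 142)) (XT.lf (nat_lit 0) (nat_lit 33206847883) (nat_lit 76) (nat_lit 56740664860) (nat_lit 152) (nat_lit 333052510985) (nat_lit 2) (nat_lit 5) (nat_lit 3) (nat_lit 5) (nat_lit 4) (nat_lit 4) (nat_lit 312) (nat_lit 267) (nat_lit 141)))) (XT.nd (nat_lit 78) (nat_lit 0) (nat_lit 0) (XT.lf (nat_lit 0) (nat_lit 89695262100) (nat_lit 76) (nat_lit 27410478938) (nat_lit 152) (nat_lit 337091855776) (nat_lit 2) (nat_lit 5) (nat_lit 3) (nat_lit 5) (nat_lit 4) (nat_lit 4) (nat_lit 313)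 (nat_lit 267) (nat_lit 140)) (XT.nd (nat_lit 78) (nat_lit 0) (nat_lit 0) (XT.lf (nat_lit 0) (nat_lit 146538945833) (nat_lit 152) (nat_lit 337291314605) (nat_lit 0) (nat_lit 4052531020) (nat_lit 2) (nat_lit 5) (nat_lit 4) (nat_lit 4) (nat_lit 2) (nat_lit 4) (nat_lit 314) (nat_lit 267) (nat_lit 139)) (XT.lf (nat_lit 0) (nat_lit 179038506301) (nat_lit 152) (nat_lit 308615825214) (nat_lit 0) (nat_lit 36551535299) (nat_lit 2) (nat_lit 5) (nat_lit 4) (nat_lit 4) (nat_lit 2) (nat_lit 4) (nat_lit 315) (nat_lit 267) (nat_lit 138))))))))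
noncomputable def xc98 : XT := (XT.nd (nat_lit 34554) (nat_lit 0) (nat_lit 380) (XT.nd (nat_lit 858) (nat_lit 0) (nat_lit 0) (XT.nd (nat_lit 390) (nat_lit 76) (nat_lit 0) (XT.nd (nat_lit 156) (nat_lit 0) (nat_lit 0) (XT.nd (nat_lit 78) (nat_lit 0) (nat_lit 0) (XT.lf (nat_lit 0) (nat_lit 214137789752) (nat_lit 152) (nat_lit 277646715035) (nat_lit 0) (nat_lit 71650303762) (nat_lit 2) (nat_lit 5) (nat_lit 4) (nat_lit 4) (nat_lit 2) (nat_lit 4) (nat_lit 316) (nat_lit 267) (nat_lit 137)) (XT.lf (nat_lit 0) (nat_lit 252044791942) (nat_lit 152) (nat_lit 244200463417) (nat_lit 0) (nat_lit 109556829109) (nat_lit 2) (nat_lit 5) (nat_lit 4) (nat_lit 4) (nat_lit 2) (nat_lit 4) (nat_lit 317) (nat_lit 267) (nat_lit 136))) (XT.nd (nat_lit 78) (nat_lit 0) (nat_lit 0) (XT.lf (nat_lit 0) (nat_lit 292984146956) (nat_lit 152) (nat_lit 208078870350) (nat_lit 0) (nat_lit 150495742603) (nat_lit 2) (nat_lit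 5) (nat_lit 4) (nat_lit 4) (nat_lit 2) (nat_lit 4) (nat_lit 318) (nat_lit 267) (nat_lit 135)) (XT.nd (nat_lit 78) (nat_lit 0) (nat_lit 0) (XT.lf (nat_lit 0) (nat_lit 337198458380) (nat_lit 152) (nat_lit 169067881948) (nat_lit 0) (nat_lit 194709645212) (nat_lit 2) (nat_lit 5) (nat_lit 4) (nat_lit 4) (nat_lit 2) (nat_lit 4) (nat_lit 319) (nat_lit 267) (nat_lit 134)) (XT.lf (nat_lit 0) (nat_lit 384949736948) (nat_lit 152) (nat_lit 126936321985) (nat_lit 0) (nat_lit 242460545248) (nat_lit 2) (nat_lit 5) (nat_lit 4) (nat_lit 4) (nat_lit 2) (nat_lit 4) (nat_lit 320) (nat_lit 267) (nat_lit 133))))) (XT.nd (nat_lit 234) (nat_lit 0) (nat_lit 0) (XT.nd (nat_lit 78) (nat_lit 76) (nat_lit 0) (XT.lf (nat_lit 0) (nat_lit 436520953201) (nat_lit 152) (nat_lit 81434521956) (nat_lit 0) (nat_lit 294031411008) (nat_lit 2) (nat_lit 5) (nat_lit 4) (nat_lit 4) (nat_lit 2) (nat_lit 4) (nat_lit 321) (nat_lit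 267) (nat_lit 132)) (XT.nd (nat_lit 78) (nat_lit 76) (nat_lit 0) (XT.lf (nat_lit 0) (nat_lit 492217714345) (nat_lit 152) (nat_lit 32292841566) (nat_lit 0) (nat_lit 349727847621) (nat_lit 2) (nat_lit 5) (nat_lit 4) (nat_lit 4) (nat_lit 2) (nat_lit 4) (nat_lit 322) (nat_lit 267) (nat_lit 131)) (XT.lf (nat_lit 0) (nat_lit 21874163387) (nat_lit 76) (nat_lit 531021986029) (nat_lit 76) (nat_lit 388531818814) (nat_lit 1) (nat_lit 4) (nat_lit 2) (nat_lit 5) (nat_lit 2) (nat_lit 4) (nat_lit 323) (nat_lit 267) (nat_lit 130)))) (XT.nd (nat_lit 78) (nat_lit 0) (nat_lit 0) (XT.lf (nat_lit 0) (nat_lit 82210813319) (nat_lit 76) (nat_lit 537100853103) (nat_lit 76) (nat_lit 394610407655) (nat_lit 1) (nat_lit 4) (nat_lit 2) (nat_lit 5) (nat_lit 2) (nat_lit 4) (nat_lit 324) (nat_lit 267) (nat_lit 129)) (XT.nd (nat_lit 78) (nat_lit 0) (nat_lit 0) (XT.lf (nat_lit 0) (nat_lit 147374174938) (nat_lit 76)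 (nat_lit 543666123564) (nat_lit 76) (nat_lit 401175420493) (nat_lit 1) (nat_lit 4) (nat_lit 2) (nat_lit 5) (nat_lit 2) (nat_lit 4) (nat_lit 325) (nat_lit 267) (nat_lit 128)) (XT.lf (nat_lit 0) (nat_lit 217750401499) (nat_lit 76) (nat_lit 550756702719) (nat_lit 76) (nat_lit 408265761109) (nat_lit 1) (nat_lit 4) (nat_lit 2) (nat_lit 5) (nat_lit 2) (nat_lit 4) (nat_lit 326) (nat_lit 267) (nat_lit 127)))))) (XT.nd (nat_lit 33228) (nat_lit 0) (nat_lit 1596) (XT.nd (nat_lit 32994) (nat_lit 0) (nat_lit 2280) (XT.nd (nat_lit 32916) (nat_lit 0) (nat_lit 2280) (XT.lf (nat_lit 0) (nat_lit 293756537307) (nat_lit 76) (nat_lit 558414608815) (nat_lit 76) (nat_lit 415923446334) (nat_lit 1) (nat_lit 4) (nat_lit 2) (nat_lit 5) (nat_lit 2) (nat_lit 4) (nat_lit 327) (nat_lit 267) (nat_lit 126)) (XT.lf (nat_lit 0) (nat_lit 8542196338) (nat_lit 0) (nat_lit 8542196338) (nat_lit 380) (nat_lit 751555187)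 (nat_lit 31) (nat_lit 5) (nat_lit 31) (nat_lit 3) (nat_lit 36) (nat_lit 3) (nat_lit 268) (nat_lit 268) (nat_lit 184))) (XT.nd (nat_lit 78) (nat_lit 0) (nat_lit 0) (XT.lf (nat_lit 0) (nat_lit 32141991513) (nat_lit 0) (nat_lit 3436076343) (nat_lit 380) (nat_lit 1516865739) (nat_lit 31) (nat_lit 5) (nat_lit 31) (nat_lit 3) (nat_lit 36) (nat_lit 3) (nat_lit 269) (nat_lit 268) (nat_lit 183)) (XT.nd (nat_lit 78) (nat_lit 0) (nat_lit 0) (XT.lf (nat_lit 76) (nat_lit 9998102618) (nat_lit 0) (nat_lit 27610104967) (nat_lit 456) (nat_lit 983001305) (nat_lit 32) (nat_lit 5) (nat_lit 31) (nat_lit 5) (nat_lit 37) (nat_lit 5) (nat_lit 270) (nat_lit 268) (nat_lit 182)) (XT.lf (nat_lit 76) (nat_lit 26330462837) (nat_lit 0) (nat_lit 13688754490) (nat_lit 456) (nat_lit 170532514) (nat_lit 32) (nat_lit 5) (nat_lit 31) (nat_lit 5) (nat_lit 37) (nat_lit 5) (nat_lit 271) (nat_lit 268) (nat_lit 181))))) (XT.nd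 (nat_lit 234) (nat_lit 304) (nat_lit 0) (XT.nd (nat_lit 78) (nat_lit 0) (nat_lit 0) (XT.lf (nat_lit 0) (nat_lit 753452922) (nat_lit 456) (nat_lit 39804440845) (nat_lit 532) (nat_lit 1350404120) (nat_lit 26) (nat_lit 5) (nat_lit 32) (nat_lit 5) (nat_lit 33) (nat_lit 5) (nat_lit 272) (nat_lit 268) (nat_lit 180)) (XT.nd (nat_lit 78) (nat_lit 0) (nat_lit 0) (XT.lf (nat_lit 0) (nat_lit 2482932867) (nat_lit 456) (nat_lit 23974422477) (nat_lit 532) (nat_lit 17247388994) (nat_lit 26) (nat_lit 5) (nat_lit 32) (nat_lit 5) (nat_lit 33) (nat_lit 5) (nat_lit 273) (nat_lit 268) (nat_lit 179)) (XT.lf (nat_lit 0) (nat_lit 4347490462) (nat_lit 456) (nat_lit 6880619522) (nat_lit 532) (nat_lit 34417088634) (nat_lit 26) (nat_lit 5) (nat_lit 32) (nat_lit 5) (nat_lit 33) (nat_lit 5) (nat_lit 274) (nat_lit 268) (nat_lit 178)))) (XT.nd (nat_lit 78) (nat_lit 380) (nat_lit 0) (XT.lf (nat_lit 0) (nat_lit 6784452367)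 (nat_lit 456) (nat_lit 35662911342) (nat_lit 76) (nat_lit 5259693811) (nat_lit 27) (nat_lit 5) (nat_lit 33) (nat_lit 5) (nat_lit 28) (nat_lit 5) (nat_lit 275) (nat_lit 268) (nat_lit 177)) (XT.nd (nat_lit 78) (nat_lit 380) (nat_lit 0) (XT.lf (nat_lit 0) (nat_lit 9898167928) (nat_lit 456) (nat_lit 17343769365) (nat_lit 76) (nat_lit 22653409525) (nat_lit 27) (nat_lit 5) (nat_lit 33) (nat_lit 5) (nat_lit 28) (nat_lit 5) (nat_lit 276) (nat_lit 268) (nat_lit 176)) (XT.lf (nat_lit 0) (nat_lit 2566875308) (nat_lit 380) (nat_lit 10753193194) (nat_lit 456) (nat_lit 38933927276) (nat_lit 22) (nat_lit 5) (nat_lit 27) (nat_lit 5) (nat_lit 28) (nat_lit 5) (nat_lit 277) (nat_lit 268) (nat_lit 175))))))) (XT.nd (nat_lit 858) (nat_lit 456) (nat_lit 0) (XT.nd (nat_lit 390) (nat_lit 380) (nat_lit 0) (XT.nd (nat_lit 156) (nat_lit 380) (nat_lit 0) (XT.nd (nat_lit 78) (nat_lit 0) (nat_lit 0) (XT.lf (nat_lit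 0) (nat_lit 17669408649) (nat_lit 456) (nat_lit 29891252550) (nat_lit 76) (nat_lit 7188402248) (nat_lit 22) (nat_lit 5) (nat_lit 28) (nat_lit 5) (nat_lit 23) (nat_lit 5) (nat_lit 278) (nat_lit 268) (nat_lit 174)) (XT.lf (nat_lit 0) (nat_lit 22643681668) (nat_lit 456) (nat_lit 8793424560) (nat_lit 76) (nat_lit 25984491630) (nat_lit 22) (nat_lit 5) (nat_lit 28) (nat_lit 5) (nat_lit 23) (nat_lit 5) (nat_lit 279) (nat_lit 268) (nat_lit 173))) (XT.nd (nat_lit 78) (nat_lit 152) (nat_lit 0) (XT.lf (nat_lit 0) (nat_lit 14726690945) (nat_lit 228) (nat_lit 13641236505) (nat_lit 304) (nat_lit 31911863785) (nat_lit 19) (nat_lit 5) (nat_lit 22) (nat_lit 5) (nat_lit 23) (nat_lit 5) (nat_lit 280) (nat_lit 268) (nat_lit 172)) (XT.nd (nat_lit 78) (nat_lit 152) (nat_lit 0) (XT.lf (nat_lit 0) (nat_lit 34928901161) (nat_lit 304) (nat_lit 22861651876) (nat_lit 76) (nat_lit 5545801283) (nat_lit 19) (nat_lit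 5) (nat_lit 23) (nat_lit 5) (nat_lit 20) (nat_lit 5) (nat_lit 281) (nat_lit 268) (nat_lit 171)) (XT.lf (nat_lit 0) (nat_lit 1356476623) (nat_lit 152) (nat_lit 41043325849) (nat_lit 228) (nat_lit 24206852025) (nat_lit 17) (nat_lit 5) (nat_lit 19) (nat_lit 5) (nat_lit 20) (nat_lit 5) (nat_lit 282) (nat_lit 268) (nat_lit 170))))) (XT.nd (nat_lit 234) (nat_lit 228) (nat_lit 0) (XT.nd (nat_lit 78) (nat_lit 152) (nat_lit 0) (XT.lf (nat_lit 0) (nat_lit 28810098441) (nat_lit 152) (nat_lit 22281553234) (nat_lit 228) (nat_lit 18997079783) (nat_lit 17) (nat_lit 5) (nat_lit 19) (nat_lit 5) (nat_lit 20) (nat_lit 5) (nat_lit 283) (nat_lit 268) (nat_lit 169)) (XT.nd (nat_lit 78) (nat_lit 152) (nat_lit 0) (XT.lf (nat_lit 0) (nat_lit 58458047633) (nat_lit 152) (nat_lit 2019132396) (nat_lit 228) (nat_lit 13372341786) (nat_lit 17) (nat_lit 5) (nat_lit 19) (nat_lit 5) (nat_lit 20) (nat_lit 5) (nat_lit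 284) (nat_lit 268) (nat_lit 168)) (XT.lf (nat_lit 0) (nat_lit 12723452728) (nat_lit 152) (nat_lit 58672282019) (nat_lit 228) (nat_lit 6452878642) (nat_lit 15) (nat_lit 5) (nat_lit 17) (nat_lit 5) (nat_lit 18) (nat_lit 5) (nat_lit 285) (nat_lit 268) (nat_lit 167)))) (XT.nd (nat_lit 78) (nat_lit 152) (nat_lit 0) (XT.lf (nat_lit 0) (nat_lit 1451783678) (nat_lit 228) (nat_lit 38260964486) (nat_lit 76) (nat_lit 42414318374) (nat_lit 14) (nat_lit 5) (nat_lit 17) (nat_lit 5) (nat_lit 15) (nat_lit 5) (nat_lit 286) (nat_lit 268) (nat_lit 166)) (XT.nd (nat_lit 78) (nat_lit 152) (nat_lit 0) (XT.lf (nat_lit 0) (nat_lit 9638777325) (nat_lit 228) (nat_lit 9417081612) (nat_lit 76) (nat_lit 67678652007) (nat_lit 14) (nat_lit 5) (nat_lit 17) (nat_lit 5) (nat_lit 15) (nat_lit 5) (nat_lit 287) (nat_lit 268) (nat_lit 165)) (XT.lf (nat_lit 0) (nat_lit 19122139516) (nat_lit 228) (nat_lit 68882172825) (nat_lit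 76) (nat_lit 3654935185) (nat_lit 12) (nat_lit 5) (nat_lit 15) (nat_lit 5) (nat_lit 13) (nat_lit 5) (nat_lit 288) (nat_lit 268) (nat_lit 164)))))) (XT.nd (nat_lit 390) (nat_lit 304) (nat_lit 0) (XT.nd (nat_lit 156) (nat_lit 152) (nat_lit 0) (XT.nd (nat_lit 78) (nat_lit 0) (nat_lit 0) (XT.lf (nat_lit 0) (nat_lit 30122029577) (nat_lit 228) (nat_lit 39378450068) (nat_lit 76) (nat_lit 27416863334) (nat_lit 12) (nat_lit 5) (nat_lit 15) (nat_lit 5) (nat_lit 13) (nat_lit 5) (nat_lit 289) (nat_lit 268) (nat_lit 163)) (XT.lf (nat_lit 0) (nat_lit 42000738655) (nat_lit 228) (nat_lit 7516060551) (nat_lit 76) (nat_lit 53079388651) (nat_lit 12) (nat_lit 5) (nat_lit 15) (nat_lit 5) (nat_lit 13) (nat_lit 5) (nat_lit 290) (nat_lit 268) (nat_lit 162))) (XT.nd (nat_lit 78) (nat_lit 0) (nat_lit 0) (XT.lf (nat_lit 0) (nat_lit 28309990253) (nat_lit 152) (nat_lit 27199524791) (nat_lit 228) (nat_lit 53165451054)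 (nat_lit 10) (nat_lit 5) (nat_lit 12) (nat_lit 5) (nat_lit 13) (nat_lit 5) (nat_lit 291) (nat_lit 268) (nat_lit 161)) (XT.nd (nat_lit 78) (nat_lit 0) (nat_lit 0) (XT.lf (nat_lit 0) (nat_lit 67428098138) (nat_lit 152) (nat_lit 2875357457) (nat_lit 228) (nat_lit 44920240911) (nat_lit 10) (nat_lit 5) (nat_lit 12) (nat_lit 5) (nat_lit 13) (nat_lit 5) (nat_lit 292) (nat_lit 268) (nat_lit 160)) (XT.lf (nat_lit 0) (nat_lit 86842582616) (nat_lit 228) (nat_lit 13184751615) (nat_lit 76) (nat_lit 22224063778) (nat_lit 10) (nat_lit 5) (nat_lit 13) (nat_lit 5) (nat_lit 11) (nat_lit 4) (nat_lit 293) (nat_lit 268) (nat_lit 159))))) (XT.nd (nat_lit 234) (nat_lit 152) (nat_lit 0) (XT.nd (nat_lit 78) (nat_lit 76) (nat_lit 0) (XT.lf (nat_lit 0) (nat_lit 25389008967) (nat_lit 76) (nat_lit 80000220871) (nat_lit 152) (nat_lit 24397340483) (nat_lit 9) (nat_lit 5) (nat_lit 10) (nat_lit 5) (nat_lit 11) (nat_lit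 4) (nat_lit 294) (nat_lit 268) (nat_lit 158)) (XT.nd (nat_lit 78) (nat_lit 76) (nat_lit 0) (XT.lf (nat_lit 0) (nat_lit 67797202227) (nat_lit 76) (nat_lit 57982035784) (nat_lit 152) (nat_lit 12116553526) (nat_lit 9) (nat_lit 5) (nat_lit 10) (nat_lit 5) (nat_lit 11) (nat_lit 4) (nat_lit 295) (nat_lit 268) (nat_lit 157)) (XT.lf (nat_lit 0) (nat_lit 1088507177) (nat_lit 152) (nat_lit 33084526419) (nat_lit 76) (nat_lit 112478581431) (nat_lit 8) (nat_lit 5) (nat_lit 10) (nat_lit 5) (nat_lit 9) (nat_lit 5) (nat_lit 296) (nat_lit 268) (nat_lit 156)))) (XT.nd (nat_lit 78) (nat_lit 0) (nat_lit 0) (XT.lf (nat_lit 0) (nat_lit 6921006257) (nat_lit 152) (nat_lit 7940042672) (nat_lit 228) (nat_lit 141208427756) (nat_lit 6) (nat_lit 5) (nat_lit 8) (nat_lit 5) (nat_lit 9) (nat_lit 5) (nat_lit 297) (nat_lit 268) (nat_lit 155)) (XT.nd (nat_lit 78) (nat_lit 0) (nat_lit 0) (XT.lf (nat_lit 0) (nat_lit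 31153152240) (nat_lit 228) (nat_lit 114674966775) (nat_lit 76) (nat_lit 20299231615) (nat_lit 6) (nat_lit 5) (nat_lit 9) (nat_lit 5) (nat_lit 7) (nat_lit 4) (nat_lit 298) (nat_lit 268) (nat_lit 154)) (XT.lf (nat_lit 0) (nat_lit 48954168532) (nat_lit 228) (nat_lit 77650910795) (nat_lit 76) (nat_lit 50368335298) (nat_lit 6) (nat_lit 5) (nat_lit 9) (nat_lit 5) (nat_lit 7) (nat_lit 4) (nat_lit 299) (nat_lit 268) (nat_lit 153))))))))
noncomputable def xc99 : XT := (XT.nd (nat_lit 1716) (nat_lit 76) (nat_lit 0) (XT.nd (nat_lit 858) (nat_lit 76) (nat_lit 0) (XT.nd (nat_lit 390) (nat_lit 152) (nat_lit 0) (XT.nd (nat_lit 156) (nat_lit 0) (nat_lit 0) (XT.nd (nat_lit 78) (nat_lit 76) (nat_lit 0) (XT.lf (nat_lit 0) (nat_lit 68178627092) (nat_lit 228) (nat_lit 37665942460) (nat_lit 76) (nat_lit 82842648747) (nat_lit 6) (nat_lit 5) (nat_lit 9) (nat_lit 5) (nat_lit 7) (nat_lit 4) (nat_lit 300) (nat_lit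 268) (nat_lit 152)) (XT.lf (nat_lit 0) (nat_lit 5807395642) (nat_lit 76) (nat_lit 83272723000) (nat_lit 152) (nat_lit 112246884702) (nat_lit 5) (nat_lit 5) (nat_lit 6) (nat_lit 5) (nat_lit 7) (nat_lit 4) (nat_lit 301) (nat_lit 268) (nat_lit 151))) (XT.nd (nat_lit 78) (nat_lit 0) (nat_lit 0) (XT.lf (nat_lit 0) (nat_lit 54899782889) (nat_lit 76) (nat_lit 57783230407) (nat_lit 152) (nat_lit 102212618142) (nat_lit 5) (nat_lit 5) (nat_lit 6) (nat_lit 5) (nat_lit 7) (nat_lit 4) (nat_lit 302) (nat_lit 268) (nat_lit 150)) (XT.nd (nat_lit 78) (nat_lit 0) (nat_lit 0) (XT.lf (nat_lit 0) (nat_lit 107918715353) (nat_lit 76) (nat_lit 30254896543) (nat_lit 152) (nat_lit 91376182823) (nat_lit 5) (nat_lit 5) (nat_lit 6) (nat_lit 5) (nat_lit 7) (nat_lit 4) (nat_lit 303) (nat_lit 268) (nat_lit 149)) (XT.lf (nat_lit 0) (nat_lit 165178379298) (nat_lit 76) (nat_lit 524590540) (nat_lit 152) (nat_lit 79673362832)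 (nat_lit 5) (nat_lit 5) (nat_lit 6) (nat_lit 5) (nat_lit 7) (nat_lit 4) (nat_lit 304) (nat_lit 268) (nat_lit 148))))) (XT.nd (nat_lit 234) (nat_lit 76) (nat_lit 0) (XT.nd (nat_lit 78) (nat_lit 76) (nat_lit 0) (XT.lf (nat_lit 0) (nat_lit 196193816828) (nat_lit 152) (nat_lit 36210533699) (nat_lit 0) (nat_lit 30003914238) (nat_lit 5) (nat_lit 5) (nat_lit 7) (nat_lit 4) (nat_lit 5) (nat_lit 4) (nat_lit 305) (nat_lit 268) (nat_lit 147)) (XT.nd (nat_lit 78) (nat_lit 0) (nat_lit 0) (XT.lf (nat_lit 0) (nat_lit 11875619403) (nat_lit 76) (nat_lit 217547121912) (nat_lit 76) (nat_lit 51356107499) (nat_lit 4) (nat_lit 4) (nat_lit 5) (nat_lit 5) (nat_lit 5) (nat_lit 4) (nat_lit 306) (nat_lit 268) (nat_lit 146)) (XT.lf (nat_lit 0) (nat_lit 65867306643) (nat_lit 76) (nat_lit 200432323403) (nat_lit 76) (nat_lit 34240279523) (nat_lit 4) (nat_lit 4) (nat_lit 5) (nat_lit 5) (nat_lit 5) (nat_lit 4) (nat_lit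 307) (nat_lit 268) (nat_lit 145)))) (XT.nd (nat_lit 78) (nat_lit 76) (nat_lit 0) (XT.lf (nat_lit 0) (nat_lit 124177696226) (nat_lit 76) (nat_lit 181948594134) (nat_lit 76) (nat_lit 15755597045) (nat_lit 4) (nat_lit 4) (nat_lit 5) (nat_lit 5) (nat_lit 5) (nat_lit 4) (nat_lit 308) (nat_lit 268) (nat_lit 144)) (XT.nd (nat_lit 78) (nat_lit 0) (nat_lit 0) (XT.lf (nat_lit 0) (nat_lit 3997003665) (nat_lit 152) (nat_lit 157880112064) (nat_lit 76) (nat_lit 183046042371) (nat_lit 3) (nat_lit 5) (nat_lit 5) (nat_lit 5) (nat_lit 4) (nat_lit 4) (nat_lit 309) (nat_lit 268) (nat_lit 143)) (XT.lf (nat_lit 0) (nat_lit 24478265619) (nat_lit 152) (nat_lit 115279904424) (nat_lit 76) (nat_lit 230016849807) (nat_lit 3) (nat_lit 5) (nat_lit 5) (nat_lit 5) (nat_lit 4) (nat_lit 4) (nat_lit 310) (nat_lit 268) (nat_lit 142)))))) (XT.nd (nat_lit 390) (nat_lit 0) (nat_lit 0) (XT.nd (nat_lit 156) (nat_lit 76)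 (nat_lit 0) (XT.nd (nat_lit 78) (nat_lit 0) (nat_lit 0) (XT.lf (nat_lit 0) (nat_lit 46597718031) (nat_lit 152) (nat_lit 69272200096) (nat_lit 76) (nat_lit 280745138618) (nat_lit 3) (nat_lit 5) (nat_lit 5) (nat_lit 5) (nat_lit 4) (nat_lit 4) (nat_lit 311) (nat_lit 268) (nat_lit 141)) (XT.lf (nat_lit 0) (nat_lit 70486439137) (nat_lit 152) (nat_lit 19584360831) (nat_lit 76) (nat_lit 335531520886) (nat_lit 3) (nat_lit 5) (nat_lit 5) (nat_lit 5) (nat_lit 4) (nat_lit 4) (nat_lit 312) (nat_lit 268) (nat_lit 140))) (XT.nd (nat_lit 78) (nat_lit 0) (nat_lit 0) (XT.lf (nat_lit 0) (nat_lit 35872550063) (nat_lit 76) (nat_lit 61276177359) (nat_lit 152) (nat_lit 359690842281) (nat_lit 2) (nat_lit 5) (nat_lit 3) (nat_lit 5) (nat_lit 4) (nat_lit 4) (nat_lit 313) (nat_lit 268) (nat_lit 139)) (XT.nd (nat_lit 78) (nat_lit 0) (nat_lit 0) (XT.lf (nat_lit 0) (nat_lit 96879359318) (nat_lit 76) (nat_lit 29599853651)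 (nat_lit 152) (nat_lit 364053769439) (nat_lit 2) (nat_lit 5) (nat_lit 3) (nat_lit 5) (nat_lit 4) (nat_lit 4) (nat_lit 314) (nat_lit 268) (nat_lit 138)) (XT.lf (nat_lit 0) (nat_lit 158266779970) (nat_lit 152) (nat_lit 364266457643) (nat_lit 0) (nat_lit 4379780111) (nat_lit 2) (nat_lit 5) (nat_lit 4) (nat_lit 4) (nat_lit 2) (nat_lit 4) (nat_lit 315) (nat_lit 268) (nat_lit 137))))) (XT.nd (nat_lit 234) (nat_lit 0) (nat_lit 0) (XT.nd (nat_lit 78) (nat_lit 0) (nat_lit 0) (XT.lf (nat_lit 0) (nat_lit 193365955759) (nat_lit 152) (nat_lit 333297533703) (nat_lit 0) (nat_lit 39478479058) (nat_lit 2) (nat_lit 5) (nat_lit 4) (nat_lit 4) (nat_lit 2) (nat_lit 4) (nat_lit 316) (nat_lit 268) (nat_lit 136)) (XT.nd (nat_lit 78) (nat_lit 0) (nat_lit 0) (XT.lf (nat_lit 0) (nat_lit 231272858261) (nat_lit 152) (nat_lit 299851454527) (nat_lit 0) (nat_lit 77384940039) (nat_lit 2) (nat_lit 5) (nat_lit 4) (nat_lit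 4) (nat_lit 2) (nat_lit 4) (nat_lit 317) (nat_lit 268) (nat_lit 135)) (XT.lf (nat_lit 0) (nat_lit 272212120971) (nat_lit 152) (nat_lit 263730021128) (nat_lit 0) (nat_lit 118323793935) (nat_lit 2) (nat_lit 5) (nat_lit 4) (nat_lit 4) (nat_lit 2) (nat_lit 4) (nat_lit 318) (nat_lit 268) (nat_lit 134)))) (XT.nd (nat_lit 78) (nat_lit 0) (nat_lit 0) (XT.lf (nat_lit 0) (nat_lit 316426346929) (nat_lit 152) (nat_lit 224719180568) (nat_lit 0) (nat_lit 162537641361) (nat_lit 2) (nat_lit 5) (nat_lit 4) (nat_lit 4) (nat_lit 2) (nat_lit 4) (nat_lit 319) (nat_lit 268) (nat_lit 133)) (XT.nd (nat_lit 78) (nat_lit 0) (nat_lit 0) (XT.lf (nat_lit 0) (nat_lit 364177546362) (nat_lit 152) (nat_lit 182587757495) (nat_lit 0) (nat_lit 210288490301) (nat_lit 2) (nat_lit 5) (nat_lit 4) (nat_lit 4) (nat_lit 2) (nat_lit 4) (nat_lit 320) (nat_lit 268) (nat_lit 132)) (XT.lf (nat_lit 0) (nat_lit 415748689341) (nat_lit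 152) (nat_lit 137086084217) (nat_lit 0) (nat_lit 261859308749) (nat_lit 2) (nat_lit 5) (nat_lit 4) (nat_lit 4) (nat_lit 2) (nat_lit 4) (nat_lit 321) (nat_lit 268) (nat_lit 131))))))) (XT.nd (nat_lit 33774) (nat_lit 0) (nat_lit 1216) (XT.nd (nat_lit 390) (nat_lit 0) (nat_lit 0) (XT.nd (nat_lit 156) (nat_lit 76) (nat_lit 0) (XT.nd (nat_lit 78) (nat_lit 0) (nat_lit 0) (XT.lf (nat_lit 0) (nat_lit 471445382639) (nat_lit 152) (nat_lit 87944521188) (nat_lit 0) (nat_lit 317555701556) (nat_lit 2) (nat_lit 5) (nat_lit 4) (nat_lit 4) (nat_lit 2) (nat_lit 4) (nat_lit 322) (nat_lit 268) (nat_lit 130)) (XT.lf (nat_lit 0) (nat_lit 531597680735) (nat_lit 152) (nat_lit 34871859146) (nat_lit 0) (nat_lit 377707721419) (nat_lit 2) (nat_lit 5) (nat_lit 4) (nat_lit 4) (nat_lit 2) (nat_lit 4) (nat_lit 323) (nat_lit 268) (nat_lit 129))) (XT.nd (nat_lit 78) (nat_lit 0) (nat_lit 0) (XT.lf (nat_lit 0) (nat_lit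 23628394564) (nat_lit 76) (nat_lit 573501910585) (nat_lit 76) (nat_lit 419611693646) (nat_lit 1) (nat_lit 4) (nat_lit 2) (nat_lit 5) (nat_lit 2) (nat_lit 4) (nat_lit 324) (nat_lit 268) (nat_lit 128)) (XT.nd (nat_lit 78) (nat_lit 0) (nat_lit 0) (XT.lf (nat_lit 0) (nat_lit 88791658112) (nat_lit 76) (nat_lit 580067222900) (nat_lit 76) (nat_lit 426176767422) (nat_lit 1) (nat_lit 4) (nat_lit 2) (nat_lit 5) (nat_lit 2) (nat_lit 4) (nat_lit 325) (nat_lit 268) (nat_lit 127)) (XT.lf (nat_lit 0) (nat_lit 159167793866) (nat_lit 76) (nat_lit 587157840809) (nat_lit 76) (nat_lit 433267164461) (nat_lit 1) (nat_lit 4) (nat_lit 2) (nat_lit 5) (nat_lit 2) (nat_lit 4) (nat_lit 326) (nat_lit 268) (nat_lit 126))))) (XT.nd (nat_lit 33150) (nat_lit 0) (nat_lit 1900) (XT.nd (nat_lit 32994) (nat_lit 0) (nat_lit 2280) (XT.lf (nat_lit 0) (nat_lit 235173845594) (nat_lit 76) (nat_lit 594815782789) (nat_lit 76)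 (nat_lit 440924901931) (nat_lit 1) (nat_lit 4) (nat_lit 2) (nat_lit 5) (nat_lit 2) (nat_lit 4) (nat_lit 327) (nat_lit 268) (nat_lit 125)) (XT.nd (nat_lit 78) (nat_lit 0) (nat_lit 0) (XT.lf (nat_lit 0) (nat_lit 9246326153) (nat_lit 0) (nat_lit 9246326153) (nat_lit 380) (nat_lit 766425728) (nat_lit 31) (nat_lit 5) (nat_lit 31) (nat_lit 3) (nat_lit 36) (nat_lit 3) (nat_lit 269) (nat_lit 269) (nat_lit 182)) (XT.lf (nat_lit 0) (nat_lit 34751784366) (nat_lit 0) (nat_lit 3749395983) (nat_lit 380) (nat_lit 1554411528) (nat_lit 31) (nat_lit 5) (nat_lit 31) (nat_lit 3) (nat_lit 36) (nat_lit 3) (nat_lit 270) (nat_lit 269) (nat_lit 181)))) (XT.nd (nat_lit 78) (nat_lit 380) (nat_lit 0) (XT.lf (nat_lit 76) (nat_lit 10843073087) (nat_lit 0) (nat_lit 29845193645) (nat_lit 456) (nat_lit 983797924) (nat_lit 32) (nat_lit 5) (nat_lit 31) (nat_lit 5) (nat_lit 37) (nat_lit 5) (nat_lit 271) (nat_lit 269)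 (nat_lit 180)) (XT.nd (nat_lit 78) (nat_lit 380) (nat_lit 0) (XT.lf (nat_lit 76) (nat_lit 28478679734) (nat_lit 0) (nat_lit 14808188443) (nat_lit 456) (nat_lit 112097814) (nat_lit 32) (nat_lit 5) (nat_lit 31) (nat_lit 5) (nat_lit 37) (nat_lit 5) (nat_lit 272) (nat_lit 269) (nat_lit 179)) (XT.lf (nat_lit 0) (nat_lit 877735244) (nat_lit 456) (nat_lit 42937741752) (nat_lit 532) (nat_lit 1439785736) (nat_lit 26) (nat_lit 5) (nat_lit 32) (nat_lit 5) (nat_lit 33) (nat_lit 5) (nat_lit 273) (nat_lit 269) (nat_lit 178)))))) (XT.nd (nat_lit 390) (nat_lit 380) (nat_lit 0) (XT.nd (nat_lit 156) (nat_lit 304) (nat_lit 0) (XT.nd (nat_lit 78) (nat_lit 0) (nat_lit 0) (XT.lf (nat_lit 0) (nat_lit 2740832394) (nat_lit 456) (nat_lit 25845103719) (nat_lit 532) (nat_lit 18609910935) (nat_lit 26) (nat_lit 5) (nat_lit 32) (nat_lit 5) (nat_lit 33) (nat_lit 5) (nat_lit 274) (nat_lit 269) (nat_lit 177)) (XT.lf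 (nat_lit 0) (nat_lit 4750164604) (nat_lit 456) (nat_lit 7387298198) (nat_lit 532) (nat_lit 37154465744) (nat_lit 26) (nat_lit 5) (nat_lit 32) (nat_lit 5) (nat_lit 33) (nat_lit 5) (nat_lit 275) (nat_lit 269) (nat_lit 176))) (XT.nd (nat_lit 78) (nat_lit 380) (nat_lit 0) (XT.lf (nat_lit 0) (nat_lit 7378824073) (nat_lit 456) (nat_lit 38468454745) (nat_lit 76) (nat_lit 5671754830) (nat_lit 27) (nat_lit 5) (nat_lit 33) (nat_lit 5) (nat_lit 28) (nat_lit 5) (nat_lit 276) (nat_lit 269) (nat_lit 175)) (XT.nd (nat_lit 78) (nat_lit 380) (nat_lit 0) (XT.lf (nat_lit 0) (nat_lit 10737813508) (nat_lit 456) (nat_lit 18687299152) (nat_lit 76) (nat_lit 24457613318) (nat_lit 27) (nat_lit 5) (nat_lit 33) (nat_lit 5) (nat_lit 28) (nat_lit 5) (nat_lit 277) (nat_lit 269) (nat_lit 174)) (XT.lf (nat_lit 0) (nat_lit 2815083887) (nat_lit 380) (nat_lit 11615872831) (nat_lit 456) (nat_lit 41999342386) (nat_lit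 22) (nat_lit 5) (nat_lit 27) (nat_lit 5) (nat_lit 28) (nat_lit 5) (nat_lit 278) (nat_lit 269) (nat_lit 173))))) (XT.nd (nat_lit 234) (nat_lit 152) (nat_lit 0) (XT.nd (nat_lit 78) (nat_lit 228) (nat_lit 0) (XT.lf (nat_lit 0) (nat_lit 19124835817) (nat_lit 456) (nat_lit 32239096095) (nat_lit 76) (nat_lit 7761342099) (nat_lit 22) (nat_lit 5) (nat_lit 28) (nat_lit 5) (nat_lit 23) (nat_lit 5) (nat_lit 279) (nat_lit 269) (nat_lit 172)) (XT.nd (nat_lit 78) (nat_lit 228) (nat_lit 0) (XT.lf (nat_lit 0) (nat_lit 24493948865) (nat_lit 456) (nat_lit 9456660878) (nat_lit 76) (nat_lit 28061276582) (nat_lit 22) (nat_lit 5) (nat_lit 28) (nat_lit 5) (nat_lit 23) (nat_lit 5) (nat_lit 280) (nat_lit 269) (nat_lit 171)) (XT.lf (nat_lit 0) (nat_lit 15944045192) (nat_lit 228) (nat_lit 14730160284) (nat_lit 304) (nat_lit 34424709005) (nat_lit 19) (nat_lit 5) (nat_lit 22) (nat_lit 5) (nat_lit 23) (nat_lit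 5) (nat_lit 281) (nat_lit 269) (nat_lit 170)))) (XT.nd (nat_lit 78) (nat_lit 152) (nat_lit 0) (XT.lf (nat_lit 0) (nat_lit 37757380804) (nat_lit 304) (nat_lit 24651304488) (nat_lit 76) (nat_lit 5991554577) (nat_lit 19) (nat_lit 5) (nat_lit 23) (nat_lit 5) (nat_lit 20) (nat_lit 5) (nat_lit 282) (nat_lit 269) (nat_lit 169)) (XT.nd (nat_lit 78) (nat_lit 0) (nat_lit 0) (XT.lf (nat_lit 0) (nat_lit 1503279873) (nat_lit 152) (nat_lit 44321064175) (nat_lit 228) (nat_lit 26107970262) (nat_lit 17) (nat_lit 5) (nat_lit 19) (nat_lit 5) (nat_lit 20) (nat_lit 5) (nat_lit 283) (nat_lit 269) (nat_lit 168)) (XT.lf (nat_lit 0) (nat_lit 31150355501) (nat_lit 152) (nat_lit 24058774028) (nat_lit 228) (nat_lit 20484040680) (nat_lit 17) (nat_lit 5) (nat_lit 19) (nat_lit 5) (nat_lit 20) (nat_lit 5) (nat_lit 284) (nat_lit 269) (nat_lit 167))))))))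
noncomputable def xc100 : XT := (XT.nd (nat_lit 1716) (nat_lit 304) (nat_lit 0) (XT.nd (nat_lit 858) (nat_lit 304) (nat_lit 0) (XT.nd (nat_lit 390) (nat_lit 228) (nat_lit 0) (XT.nd (nat_lit 156) (nat_lit 228) (nat_lit 0) (XT.nd (nat_lit 78) (nat_lit 152) (nat_lit 0) (XT.lf (nat_lit 0) (nat_lit 63167514763) (nat_lit 152) (nat_lit 2175752373) (nat_lit 228) (nat_lit 14411753678) (nat_lit 17) (nat_lit 5) (nat_lit 19) (nat_lit 5) (nat_lit 20) (nat_lit 5) (nat_lit 285) (nat_lit 269) (nat_lit 166)) (XT.lf (nat_lit 0) (nat_lit 13775606583) (nat_lit 152) (nat_lit 63358565770) (nat_lit 228) (nat_lit 6939975087) (nat_lit 15) (nat_lit 5) (nat_lit 17) (nat_lit 5) (nat_lit 18) (nat_lit 5) (nat_lit 286) (nat_lit 269) (nat_lit 165))) (XT.nd (nat_lit 78) (nat_lit 152) (nat_lit 0) (XT.lf (nat_lit 0) (nat_lit 1593552718) (nat_lit 228) (nat_lit 41288571287) (nat_lit 76) (nat_lit 45812875382) (nat_lit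 14) (nat_lit 5) (nat_lit 17) (nat_lit 5) (nat_lit 15) (nat_lit 5) (nat_lit 287) (nat_lit 269) (nat_lit 164)) (XT.nd (nat_lit 78) (nat_lit 152) (nat_lit 0) (XT.lf (nat_lit 0) (nat_lit 10433607609) (nat_lit 228) (nat_lit 10139642254) (nat_lit 76) (nat_lit 73097954851) (nat_lit 14) (nat_lit 5) (nat_lit 17) (nat_lit 5) (nat_lit 15) (nat_lit 5) (nat_lit 288) (nat_lit 269) (nat_lit 163)) (XT.lf (nat_lit 0) (nat_lit 20674779632) (nat_lit 228) (nat_lit 74360925272) (nat_lit 76) (nat_lit 3954296558) (nat_lit 12) (nat_lit 5) (nat_lit 15) (nat_lit 5) (nat_lit 13) (nat_lit 5) (nat_lit 289) (nat_lit 269) (nat_lit 162))))) (XT.nd (nat_lit 234) (nat_lit 76) (nat_lit 0) (XT.nd (nat_lit 78) (nat_lit 152) (nat_lit 0) (XT.lf (nat_lit 0) (nat_lit 32552966902) (nat_lit 228) (nat_lit 42499261833) (nat_lit 76) (nat_lit 29616662918) (nat_lit 12) (nat_lit 5) (nat_lit 15) (nat_lit 5) (nat_lit 13) (nat_lit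 5) (nat_lit 290) (nat_lit 269) (nat_lit 161)) (XT.nd (nat_lit 78) (nat_lit 152) (nat_lit 0) (XT.lf (nat_lit 0) (nat_lit 45380404190) (nat_lit 228) (nat_lit 8090063691) (nat_lit 76) (nat_lit 57331712444) (nat_lit 12) (nat_lit 5) (nat_lit 15) (nat_lit 5) (nat_lit 13) (nat_lit 5) (nat_lit 291) (nat_lit 269) (nat_lit 160)) (XT.lf (nat_lit 0) (nat_lit 30601380501) (nat_lit 152) (nat_lit 29367689375) (nat_lit 228) (nat_lit 57398265904) (nat_lit 10) (nat_lit 5) (nat_lit 12) (nat_lit 5) (nat_lit 13) (nat_lit 5) (nat_lit 292) (nat_lit 269) (nat_lit 159)))) (XT.nd (nat_lit 78) (nat_lit 76) (nat_lit 0) (XT.lf (nat_lit 0) (nat_lit 72846967311) (nat_lit 152) (nat_lit 3098166240) (nat_lit 228) (nat_lit 48494951633) (nat_lit 10) (nat_lit 5) (nat_lit 12) (nat_lit 5) (nat_lit 13) (nat_lit 5) (nat_lit 293) (nat_lit 269) (nat_lit 158)) (XT.nd (nat_lit 78) (nat_lit 76) (nat_lit 0) (XT.lf (nat_lit 0)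 (nat_lit 93806262507) (nat_lit 228) (nat_lit 14215499589) (nat_lit 76) (nat_lit 24008339482) (nat_lit 10) (nat_lit 5) (nat_lit 13) (nat_lit 5) (nat_lit 11) (nat_lit 4) (nat_lit 294) (nat_lit 269) (nat_lit 157)) (XT.lf (nat_lit 0) (nat_lit 27443553431) (nat_lit 76) (nat_lit 86392445989) (nat_lit 152) (nat_lit 26332147503) (nat_lit 9) (nat_lit 5) (nat_lit 10) (nat_lit 5) (nat_lit 11) (nat_lit 4) (nat_lit 295) (nat_lit 269) (nat_lit 156)))))) (XT.nd (nat_lit 390) (nat_lit 76) (nat_lit 0) (XT.nd (nat_lit 156) (nat_lit 152) (nat_lit 0) (XT.nd (nat_lit 78) (nat_lit 76) (nat_lit 0) (XT.lf (nat_lit 0) (nat_lit 73242667060) (nat_lit 76) (nat_lit 62613383321) (nat_lit 152) (nat_lit 13070155383) (nat_lit 9) (nat_lit 5) (nat_lit 10) (nat_lit 5) (nat_lit 11) (nat_lit 4) (nat_lit 296) (nat_lit 269) (nat_lit 155)) (XT.lf (nat_lit 0) (nat_lit 1189417311) (nat_lit 152) (nat_lit 35710399990) (nat_lit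 76) (nat_lit 121482742348) (nat_lit 8) (nat_lit 5) (nat_lit 10) (nat_lit 5) (nat_lit 9) (nat_lit 5) (nat_lit 297) (nat_lit 269) (nat_lit 154))) (XT.nd (nat_lit 78) (nat_lit 0) (nat_lit 0) (XT.lf (nat_lit 0) (nat_lit 7495046476) (nat_lit 152) (nat_lit 8568181168) (nat_lit 228) (nat_lit 152490671172) (nat_lit 6) (nat_lit 5) (nat_lit 8) (nat_lit 5) (nat_lit 9) (nat_lit 5) (nat_lit 298) (nat_lit 269) (nat_lit 153)) (XT.nd (nat_lit 78) (nat_lit 0) (nat_lit 0) (XT.lf (nat_lit 0) (nat_lit 33657871745) (nat_lit 228) (nat_lit 123829217996) (nat_lit 76) (nat_lit 21929384498) (nat_lit 6) (nat_lit 5) (nat_lit 9) (nat_lit 5) (nat_lit 7) (nat_lit 4) (nat_lit 299) (nat_lit 269) (nat_lit 152)) (XT.lf (nat_lit 0) (nat_lit 52882045834) (nat_lit 228) (nat_lit 83844700213) (nat_lit 76) (nat_lit 54403556153) (nat_lit 6) (nat_lit 5) (nat_lit 9) (nat_lit 5) (nat_lit 7) (nat_lit 4) (nat_lit 300) (nat_lit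 269) (nat_lit 151))))) (XT.nd (nat_lit 234) (nat_lit 0) (nat_lit 0) (XT.nd (nat_lit 78) (nat_lit 76) (nat_lit 0) (XT.lf (nat_lit 0) (nat_lit 73643605981) (nat_lit 228) (nat_lit 40662288740) (nat_lit 76) (nat_lit 89475388454) (nat_lit 6) (nat_lit 5) (nat_lit 9) (nat_lit 5) (nat_lit 7) (nat_lit 4) (nat_lit 301) (nat_lit 269) (nat_lit 150)) (XT.nd (nat_lit 78) (nat_lit 0) (nat_lit 0) (XT.lf (nat_lit 0) (nat_lit 6288487824) (nat_lit 76) (nat_lit 89928334112) (nat_lit 152) (nat_lit 121215464940) (nat_lit 5) (nat_lit 5) (nat_lit 6) (nat_lit 5) (nat_lit 7) (nat_lit 4) (nat_lit 302) (nat_lit 269) (nat_lit 149)) (XT.lf (nat_lit 0) (nat_lit 59307043790) (nat_lit 76) (nat_lit 62400141869) (nat_lit 152) (nat_lit 110379284502) (nat_lit 5) (nat_lit 5) (nat_lit 6) (nat_lit 5) (nat_lit 7) (nat_lit 4) (nat_lit 303) (nat_lit 269) (nat_lit 148)))) (XT.nd (nat_lit 78) (nat_lit 0) (nat_lit 0) (XT.lf (nat_lit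 0) (nat_lit 116566359127) (nat_lit 76) (nat_lit 32669966997) (nat_lit 152) (nat_lit 98676700512) (nat_lit 5) (nat_lit 5) (nat_lit 6) (nat_lit 5) (nat_lit 7) (nat_lit 4) (nat_lit 304) (nat_lit 269) (nat_lit 147)) (XT.nd (nat_lit 78) (nat_lit 0) (nat_lit 0) (XT.lf (nat_lit 0) (nat_lit 178405748296) (nat_lit 76) (nat_lit 561630683) (nat_lit 152) (nat_lit 86038364325) (nat_lit 5) (nat_lit 5) (nat_lit 6) (nat_lit 5) (nat_lit 7) (nat_lit 4) (nat_lit 305) (nat_lit 269) (nat_lit 146)) (XT.lf (nat_lit 0) (nat_lit 211896998147) (nat_lit 152) (nat_lit 39094713305) (nat_lit 0) (nat_lit 32408561291) (nat_lit 5) (nat_lit 5) (nat_lit 7) (nat_lit 4) (nat_lit 5) (nat_lit 4) (nat_lit 306) (nat_lit 269) (nat_lit 145))))))) (XT.nd (nat_lit 858) (nat_lit 76) (nat_lit 0) (XT.nd (nat_lit 390) (nat_lit 76) (nat_lit 0) (XT.nd (nat_lit 156) (nat_lit 76) (nat_lit 0) (XT.nd (nat_lit 78) (nat_lit 0) (nat_lit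 0) (XT.lf (nat_lit 0) (nat_lit 12838011461) (nat_lit 76) (nat_lit 234945953379) (nat_lit 76) (nat_lit 55456563314) (nat_lit 4) (nat_lit 4) (nat_lit 5) (nat_lit 5) (nat_lit 5) (nat_lit 4) (nat_lit 307) (nat_lit 269) (nat_lit 144)) (XT.lf (nat_lit 0) (nat_lit 71148119421) (nat_lit 76) (nat_lit 216462336788) (nat_lit 76) (nat_lit 36972064122) (nat_lit 4) (nat_lit 4) (nat_lit 5) (nat_lit 5) (nat_lit 5) (nat_lit 4) (nat_lit 308) (nat_lit 269) (nat_lit 143))) (XT.nd (nat_lit 78) (nat_lit 76) (nat_lit 0) (XT.lf (nat_lit 0) (nat_lit 134122493633) (nat_lit 76) (nat_lit 196500247879) (nat_lit 76) (nat_lit 17009157990) (nat_lit 4) (nat_lit 4) (nat_lit 5) (nat_lit 5) (nat_lit 5) (nat_lit 4) (nat_lit 309) (nat_lit 269) (nat_lit 142)) (XT.nd (nat_lit 78) (nat_lit 0) (nat_lit 0) (XT.lf (nat_lit 0) (nat_lit 4322821654) (nat_lit 152) (nat_lit 170500377534) (nat_lit 76) (nat_lit 197693300315) (nat_lit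 3) (nat_lit 5) (nat_lit 5) (nat_lit 5) (nat_lit 4) (nat_lit 4) (nat_lit 310) (nat_lit 269) (nat_lit 141)) (XT.lf (nat_lit 0) (nat_lit 26442135846) (nat_lit 152) (nat_lit 124492904653) (nat_lit 76) (nat_lit 248421507565) (nat_lit 3) (nat_lit 5) (nat_lit 5) (nat_lit 5) (nat_lit 4) (nat_lit 4) (nat_lit 311) (nat_lit 269) (nat_lit 140))))) (XT.nd (nat_lit 234) (nat_lit 0) (nat_lit 0) (XT.nd (nat_lit 78) (nat_lit 76) (nat_lit 0) (XT.lf (nat_lit 0) (nat_lit 50330728971) (nat_lit 152) (nat_lit 74805279691) (nat_lit 76) (nat_lit 303207814312) (nat_lit 3) (nat_lit 5) (nat_lit 5) (nat_lit 5) (nat_lit 4) (nat_lit 4) (nat_lit 312) (nat_lit 269) (nat_lit 139)) (XT.nd (nat_lit 78) (nat_lit 76) (nat_lit 0) (XT.lf (nat_lit 0) (nat_lit 76130163063) (nat_lit 152) (nat_lit 21143057463) (nat_lit 76) (nat_lit 362376880154) (nat_lit 3) (nat_lit 5) (nat_lit 5) (nat_lit 5) (nat_lit 4) (nat_lit 4) (nat_lit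 313) (nat_lit 269) (nat_lit 138)) (XT.lf (nat_lit 0) (nat_lit 38750202448) (nat_lit 76) (nat_lit 66175064509) (nat_lit 152) (nat_lit 388461077442) (nat_lit 2) (nat_lit 5) (nat_lit 3) (nat_lit 5) (nat_lit 4) (nat_lit 4) (nat_lit 314) (nat_lit 269) (nat_lit 137)))) (XT.nd (nat_lit 78) (nat_lit 0) (nat_lit 0) (XT.lf (nat_lit 0) (nat_lit 104636975082) (nat_lit 76) (nat_lit 31964872463) (nat_lit 152) (nat_lit 393173411530) (nat_lit 2) (nat_lit 5) (nat_lit 3) (nat_lit 5) (nat_lit 4) (nat_lit 4) (nat_lit 315) (nat_lit 269) (nat_lit 136)) (XT.nd (nat_lit 78) (nat_lit 0) (nat_lit 0) (XT.lf (nat_lit 0) (nat_lit 170932167695) (nat_lit 152) (nat_lit 393400776543) (nat_lit 0) (nat_lit 4732774496) (nat_lit 2) (nat_lit 5) (nat_lit 4) (nat_lit 4) (nat_lit 2) (nat_lit 4) (nat_lit 316) (nat_lit 269) (nat_lit 135)) (XT.lf (nat_lit 0) (nat_lit 208838977894) (nat_lit 152) (nat_lit 359954857036) (nat_lit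 0) (nat_lit 42639175879) (nat_lit 2) (nat_lit 5) (nat_lit 4) (nat_lit 4) (nat_lit 2) (nat_lit 4) (nat_lit 317) (nat_lit 269) (nat_lit 134)))))) (XT.nd (nat_lit 390) (nat_lit 76) (nat_lit 0) (XT.nd (nat_lit 156) (nat_lit 0) (nat_lit 0) (XT.nd (nat_lit 78) (nat_lit 0) (nat_lit 0) (XT.lf (nat_lit 0) (nat_lit 249778155138) (nat_lit 152) (nat_lit 323833571479) (nat_lit 0) (nat_lit 83577974591) (nat_lit 2) (nat_lit 5) (nat_lit 4) (nat_lit 4) (nat_lit 2) (nat_lit 4) (nat_lit 318) (nat_lit 269) (nat_lit 133)) (XT.lf (nat_lit 0) (nat_lit 293992301961) (nat_lit 152) (nat_lit 284822867809) (nat_lit 0) (nat_lit 127791770921) (nat_lit 2) (nat_lit 5) (nat_lit 4) (nat_lit 4) (nat_lit 2) (nat_lit 4) (nat_lit 319) (nat_lit 269) (nat_lit 132))) (XT.nd (nat_lit 78) (nat_lit 0) (nat_lit 0) (XT.lf (nat_lit 0) (nat_lit 341743428120) (nat_lit 152) (nat_lit 242691571487) (nat_lit 0) (nat_lit 175542572550)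 (nat_lit 2) (nat_lit 5) (nat_lit 4) (nat_lit 4) (nat_lit 2) (nat_lit 4) (nat_lit 320) (nat_lit 269) (nat_lit 131)) (XT.nd (nat_lit 78) (nat_lit 0) (nat_lit 0) (XT.lf (nat_lit 0) (nat_lit 393314503253) (nat_lit 152) (nat_lit 197190015570) (nat_lit 0) (nat_lit 227113347192) (nat_lit 2) (nat_lit 5) (nat_lit 4) (nat_lit 4) (nat_lit 2) (nat_lit 4) (nat_lit 321) (nat_lit 269) (nat_lit 130)) (XT.lf (nat_lit 0) (nat_lit 449011133731) (nat_lit 152) (nat_lit 148048561209) (nat_lit 0) (nat_lit 282809699437) (nat_lit 2) (nat_lit 5) (nat_lit 4) (nat_lit 4) (nat_lit 2) (nat_lit 4) (nat_lit 322) (nat_lit 269) (nat_lit 129))))) (XT.nd (nat_lit 234) (nat_lit 0) (nat_lit 0) (XT.nd (nat_lit 78) (nat_lit 76) (nat_lit 0) (XT.lf (nat_lit 0) (nat_lit 509163373660) (nat_lit 152) (nat_lit 94975999785) (nat_lit 0) (nat_lit 342961681744) (nat_lit 2) (nat_lit 5) (nat_lit 4) (nat_lit 4) (nat_lit 2) (nat_lit 4)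 (nat_lit 323) (nat_lit 269) (nat_lit 128)) (XT.nd (nat_lit 78) (nat_lit 76) (nat_lit 0) (XT.lf (nat_lit 0) (nat_lit 574127680759) (nat_lit 152) (nat_lit 37657827232) (nat_lit 0) (nat_lit 407925750302) (nat_lit 2) (nat_lit 5) (nat_lit 4) (nat_lit 4) (nat_lit 2) (nat_lit 4) (nat_lit 324) (nat_lit 269) (nat_lit 127)) (XT.lf (nat_lit 0) (nat_lit 25522351062) (nat_lit 76) (nat_lit 619380490792) (nat_lit 76) (nat_lit 453178339466) (nat_lit 1) (nat_lit 4) (nat_lit 2) (nat_lit 5) (nat_lit 2) (nat_lit 4) (nat_lit 325) (nat_lit 269) (nat_lit 126)))) (XT.nd (nat_lit 33150) (nat_lit 0) (nat_lit 2280) (XT.lf (nat_lit 0) (nat_lit 95898402736) (nat_lit 76) (nat_lit 626471144585) (nat_lit 76) (nat_lit 460268788749) (nat_lit 1) (nat_lit 4) (nat_lit 2) (nat_lit 5) (nat_lit 2) (nat_lit 4) (nat_lit 326) (nat_lit 269) (nat_lit 125)) (XT.nd (nat_lit 78) (nat_lit 0) (nat_lit 0) (XT.lf (nat_lit 0) (nat_lit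 10003825547) (nat_lit 0) (nat_lit 10003825547) (nat_lit 380) (nat_lit 788941884) (nat_lit 31) (nat_lit 5) (nat_lit 31) (nat_lit 3) (nat_lit 36) (nat_lit 3) (nat_lit 270) (nat_lit 270) (nat_lit 180)) (XT.lf (nat_lit 0) (nat_lit 37564877674) (nat_lit 0) (nat_lit 4082298220) (nat_lit 380) (nat_lit 1606916482) (nat_lit 31) (nat_lit 5) (nat_lit 31) (nat_lit 3) (nat_lit 36) (nat_lit 3) (nat_lit 271) (nat_lit 270) (nat_lit 179))))))))
noncomputable def xc101 : XT := (XT.nd (nat_lit 1716) (nat_lit 608) (nat_lit 0) (XT.nd (nat_lit 858) (nat_lit 684) (nat_lit 0) (XT.nd (nat_lit 390) (nat_lit 532) (nat_lit 0) (XT.nd (nat_lit 156) (nat_lit 380) (nat_lit 0) (XT.nd (nat_lit 78) (nat_lit 0) (nat_lit 0) (XT.lf (nat_lit 76) (nat_lit 11749203998) (nat_lit 0) (nat_lit 32255340241) (nat_lit 456) (nat_lit 995763516) (nat_lit 32) (nat_lit 5) (nat_lit 31) (nat_lit 5) (nat_lit 37) (nat_lit 5) (nat_lit 272)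 (nat_lit 270) (nat_lit 178)) (XT.lf (nat_lit 76) (nat_lit 30792793617) (nat_lit 0) (nat_lit 16013705652) (nat_lit 456) (nat_lit 59270971) (nat_lit 32) (nat_lit 5) (nat_lit 31) (nat_lit 5) (nat_lit 37) (nat_lit 5) (nat_lit 273) (nat_lit 270) (nat_lit 177))) (XT.nd (nat_lit 78) (nat_lit 0) (nat_lit 0) (XT.lf (nat_lit 0) (nat_lit 1002828968) (nat_lit 456) (nat_lit 46328990207) (nat_lit 532) (nat_lit 1538978614) (nat_lit 26) (nat_lit 5) (nat_lit 32) (nat_lit 5) (nat_lit 33) (nat_lit 5) (nat_lit 274) (nat_lit 270) (nat_lit 176)) (XT.nd (nat_lit 78) (nat_lit 0) (nat_lit 0) (XT.lf (nat_lit 0) (nat_lit 3010909082) (nat_lit 456) (nat_lit 27872183419) (nat_lit 532) (nat_lit 20083898271) (nat_lit 26) (nat_lit 5) (nat_lit 32) (nat_lit 5) (nat_lit 33) (nat_lit 5) (nat_lit 275) (nat_lit 270) (nat_lit 175)) (XT.lf (nat_lit 0) (nat_lit 5177224158) (nat_lit 456) (nat_lit 7940755574) (nat_lit 532)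 (nat_lit 40113114172) (nat_lit 26) (nat_lit 5) (nat_lit 32) (nat_lit 5) (nat_lit 33) (nat_lit 5) (nat_lit 276) (nat_lit 270) (nat_lit 174))))) (XT.nd (nat_lit 234) (nat_lit 228) (nat_lit 0) (XT.nd (nat_lit 78) (nat_lit 380) (nat_lit 0) (XT.lf (nat_lit 0) (nat_lit 8013381986) (nat_lit 456) (nat_lit 41505216530) (nat_lit 76) (nat_lit 6118023949) (nat_lit 27) (nat_lit 5) (nat_lit 33) (nat_lit 5) (nat_lit 28) (nat_lit 5) (nat_lit 277) (nat_lit 270) (nat_lit 173)) (XT.nd (nat_lit 78) (nat_lit 380) (nat_lit 0) (XT.lf (nat_lit 0) (nat_lit 11637812650) (nat_lit 456) (nat_lit 20144584384) (nat_lit 76) (nat_lit 26407304544) (nat_lit 27) (nat_lit 5) (nat_lit 33) (nat_lit 5) (nat_lit 28) (nat_lit 5) (nat_lit 278) (nat_lit 270) (nat_lit 172)) (XT.lf (nat_lit 0) (nat_lit 3077034900) (nat_lit 380) (nat_lit 12547221003) (nat_lit 456) (nat_lit 45317023769) (nat_lit 22) (nat_lit 5) (nat_lit 27) (nat_lit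 5) (nat_lit 28) (nat_lit 5) (nat_lit 279) (nat_lit 270) (nat_lit 171)))) (XT.nd (nat_lit 78) (nat_lit 228) (nat_lit 0) (XT.lf (nat_lit 0) (nat_lit 20690723297) (nat_lit 456) (nat_lit 34780966703) (nat_lit 76) (nat_lit 8380421340) (nat_lit 22) (nat_lit 5) (nat_lit 28) (nat_lit 5) (nat_lit 23) (nat_lit 5) (nat_lit 280) (nat_lit 270) (nat_lit 170)) (XT.nd (nat_lit 78) (nat_lit 228) (nat_lit 0) (XT.lf (nat_lit 0) (nat_lit 26486706084) (nat_lit 456) (nat_lit 10178696452) (nat_lit 76) (nat_lit 30304485998) (nat_lit 22) (nat_lit 5) (nat_lit 28) (nat_lit 5) (nat_lit 23) (nat_lit 5) (nat_lit 281) (nat_lit 270) (nat_lit 169)) (XT.lf (nat_lit 0) (nat_lit 17253192755) (nat_lit 228) (nat_lit 15906536806) (nat_lit 304) (nat_lit 37144303110) (nat_lit 19) (nat_lit 5) (nat_lit 22) (nat_lit 5) (nat_lit 23) (nat_lit 5) (nat_lit 282) (nat_lit 270) (nat_lit 168)))))) (XT.nd (nat_lit 390) (nat_lit 380)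 (nat_lit 0) (XT.nd (nat_lit 156) (nat_lit 152) (nat_lit 0) (XT.nd (nat_lit 78) (nat_lit 152) (nat_lit 0) (XT.lf (nat_lit 0) (nat_lit 40807264435) (nat_lit 304) (nat_lit 26589732974) (nat_lit 76) (nat_lit 6472670088) (nat_lit 19) (nat_lit 5) (nat_lit 23) (nat_lit 5) (nat_lit 20) (nat_lit 5) (nat_lit 283) (nat_lit 270) (nat_lit 167)) (XT.lf (nat_lit 0) (nat_lit 1656365582) (nat_lit 152) (nat_lit 47861838694) (nat_lit 228) (nat_lit 28166232433) (nat_lit 17) (nat_lit 5) (nat_lit 19) (nat_lit 5) (nat_lit 20) (nat_lit 5) (nat_lit 284) (nat_lit 270) (nat_lit 166))) (XT.nd (nat_lit 78) (nat_lit 152) (nat_lit 0) (XT.lf (nat_lit 0) (nat_lit 33672775904) (nat_lit 152) (nat_lit 25978929085) (nat_lit 228) (nat_lit 22094638517) (nat_lit 17) (nat_lit 5) (nat_lit 19) (nat_lit 5) (nat_lit 20) (nat_lit 5) (nat_lit 285) (nat_lit 270) (nat_lit 165)) (XT.nd (nat_lit 78) (nat_lit 152) (nat_lit 0) (XT.lf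 (nat_lit 0) (nat_lit 68249056650) (nat_lit 152) (nat_lit 2345602501) (nat_lit 228) (nat_lit 15538651920) (nat_lit 17) (nat_lit 5) (nat_lit 19) (nat_lit 5) (nat_lit 20) (nat_lit 5) (nat_lit 286) (nat_lit 270) (nat_lit 164)) (XT.lf (nat_lit 0) (nat_lit 14907042659) (nat_lit 152) (nat_lit 68420822010) (nat_lit 228) (nat_lit 7470195518) (nat_lit 15) (nat_lit 5) (nat_lit 17) (nat_lit 5) (nat_lit 18) (nat_lit 5) (nat_lit 287) (nat_lit 270) (nat_lit 163))))) (XT.nd (nat_lit 234) (nat_lit 152) (nat_lit 0) (XT.nd (nat_lit 78) (nat_lit 152) (nat_lit 0) (XT.lf (nat_lit 0) (nat_lit 1743007396) (nat_lit 228) (nat_lit 44563133021) (nat_lit 76) (nat_lit 49482544934) (nat_lit 14) (nat_lit 5) (nat_lit 17) (nat_lit 5) (nat_lit 15) (nat_lit 5) (nat_lit 288) (nat_lit 270) (nat_lit 162)) (XT.nd (nat_lit 78) (nat_lit 152) (nat_lit 0) (XT.lf (nat_lit 0) (nat_lit 11288639236) (nat_lit 228) (nat_lit 10924402552)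 (nat_lit 76) (nat_lit 78950087093) (nat_lit 14) (nat_lit 5) (nat_lit 17) (nat_lit 5) (nat_lit 15) (nat_lit 5) (nat_lit 289) (nat_lit 270) (nat_lit 161)) (XT.lf (nat_lit 0) (nat_lit 22348368446) (nat_lit 228) (nat_lit 80282517589) (nat_lit 76) (nat_lit 4276612984) (nat_lit 12) (nat_lit 5) (nat_lit 15) (nat_lit 5) (nat_lit 13) (nat_lit 5) (nat_lit 290) (nat_lit 270) (nat_lit 160)))) (XT.nd (nat_lit 78) (nat_lit 152) (nat_lit 0) (XT.lf (nat_lit 0) (nat_lit 35175358368) (nat_lit 228) (nat_lit 45873941942) (nat_lit 76) (nat_lit 31991526230) (nat_lit 12) (nat_lit 5) (nat_lit 15) (nat_lit 5) (nat_lit 13) (nat_lit 5) (nat_lit 291) (nat_lit 270) (nat_lit 159)) (XT.nd (nat_lit 78) (nat_lit 152) (nat_lit 0) (XT.lf (nat_lit 0) (nat_lit 49027645890) (nat_lit 228) (nat_lit 8713879122) (nat_lit 76) (nat_lit 61923370068) (nat_lit 12) (nat_lit 5) (nat_lit 15) (nat_lit 5) (nat_lit 13) (nat_lit 5) (nat_lit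 292) (nat_lit 270) (nat_lit 158)) (XT.lf (nat_lit 0) (nat_lit 33072288462) (nat_lit 152) (nat_lit 31710419511) (nat_lit 228) (nat_lit 61972619259) (nat_lit 10) (nat_lit 5) (nat_lit 12) (nat_lit 5) (nat_lit 13) (nat_lit 5) (nat_lit 293) (nat_lit 270) (nat_lit 157))))))) (XT.nd (nat_lit 858) (nat_lit 228) (nat_lit 0) (XT.nd (nat_lit 390) (nat_lit 228) (nat_lit 0) (XT.nd (nat_lit 156) (nat_lit 152) (nat_lit 0) (XT.nd (nat_lit 78) (nat_lit 0) (nat_lit 0) (XT.lf (nat_lit 0) (nat_lit 78695833511) (nat_lit 152) (nat_lit 3339829712) (nat_lit 228) (nat_lit 52358336729) (nat_lit 10) (nat_lit 5) (nat_lit 12) (nat_lit 5) (nat_lit 13) (nat_lit 5) (nat_lit 294) (nat_lit 270) (nat_lit 156)) (XT.lf (nat_lit 0) (nat_lit 101324715224) (nat_lit 228) (nat_lit 15332135856) (nat_lit 76) (nat_lit 25934451258) (nat_lit 10) (nat_lit 5) (nat_lit 13) (nat_lit 5) (nat_lit 11) (nat_lit 4) (nat_lit 295) (nat_lit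 270) (nat_lit 155))) (XT.nd (nat_lit 78) (nat_lit 76) (nat_lit 0) (XT.lf (nat_lit 0) (nat_lit 29659119793) (nat_lit 76) (nat_lit 93297160812) (nat_lit 152) (nat_lit 28424161503) (nat_lit 9) (nat_lit 5) (nat_lit 10) (nat_lit 5) (nat_lit 11) (nat_lit 4) (nat_lit 296) (nat_lit 270) (nat_lit 154)) (XT.nd (nat_lit 78) (nat_lit 76) (nat_lit 0) (XT.lf (nat_lit 0) (nat_lit 79120674951) (nat_lit 76) (nat_lit 67616268008) (nat_lit 152) (nat_lit 14102288369) (nat_lit 9) (nat_lit 5) (nat_lit 10) (nat_lit 5) (nat_lit 11) (nat_lit 4) (nat_lit 297) (nat_lit 270) (nat_lit 153)) (XT.lf (nat_lit 0) (nat_lit 1296427315) (nat_lit 152) (nat_lit 38549323432) (nat_lit 76) (nat_lit 131206398089) (nat_lit 8) (nat_lit 5) (nat_lit 10) (nat_lit 5) (nat_lit 9) (nat_lit 5) (nat_lit 298) (nat_lit 270) (nat_lit 152))))) (XT.nd (nat_lit 234) (nat_lit 76) (nat_lit 0) (XT.nd (nat_lit 78) (nat_lit 0) (nat_lit 0) (XT.lf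 (nat_lit 0) (nat_lit 8112105370) (nat_lit 152) (nat_lit 9247578633) (nat_lit 228) (nat_lit 164677552777) (nat_lit 6) (nat_lit 5) (nat_lit 8) (nat_lit 5) (nat_lit 9) (nat_lit 5) (nat_lit 299) (nat_lit 270) (nat_lit 151)) (XT.nd (nat_lit 78) (nat_lit 0) (nat_lit 0) (XT.lf (nat_lit 0) (nat_lit 36361190206) (nat_lit 228) (nat_lit 133718626319) (nat_lit 76) (nat_lit 23689063065) (nat_lit 6) (nat_lit 5) (nat_lit 9) (nat_lit 5) (nat_lit 7) (nat_lit 4) (nat_lit 300) (nat_lit 270) (nat_lit 150)) (XT.lf (nat_lit 0) (nat_lit 57122506466) (nat_lit 228) (nat_lit 90536601122) (nat_lit 76) (nat_lit 58760773800) (nat_lit 6) (nat_lit 5) (nat_lit 9) (nat_lit 5) (nat_lit 7) (nat_lit 4) (nat_lit 301) (nat_lit 270) (nat_lit 149)))) (XT.nd (nat_lit 78) (nat_lit 76) (nat_lit 0) (XT.lf (nat_lit 0) (nat_lit 79544258316) (nat_lit 228) (nat_lit 43900757851) (nat_lit 76) (nat_lit 96637987266) (nat_lit 6) (nat_lit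 5) (nat_lit 9) (nat_lit 5) (nat_lit 7) (nat_lit 4) (nat_lit 302) (nat_lit 270) (nat_lit 148)) (XT.nd (nat_lit 78) (nat_lit 0) (nat_lit 0) (XT.lf (nat_lit 0) (nat_lit 6805713396) (nat_lit 76) (nat_lit 97117279572) (nat_lit 152) (nat_lit 130903125199) (nat_lit 5) (nat_lit 5) (nat_lit 6) (nat_lit 5) (nat_lit 7) (nat_lit 4) (nat_lit 303) (nat_lit 270) (nat_lit 147)) (XT.lf (nat_lit 0) (nat_lit 64064705947) (nat_lit 76) (nat_lit 67387226118) (nat_lit 152) (nat_lit 119200759729) (nat_lit 5) (nat_lit 5) (nat_lit 6) (nat_lit 5) (nat_lit 7) (nat_lit 4) (nat_lit 304) (nat_lit 270) (nat_lit 146)))))) (XT.nd (nat_lit 390) (nat_lit 152) (nat_lit 0) (XT.nd (nat_lit 156) (nat_lit 76) (nat_lit 0) (XT.nd (nat_lit 78) (nat_lit 0) (nat_lit 0) (XT.lf (nat_lit 0) (nat_lit 125903796240) (nat_lit 76) (nat_lit 35279002226) (nat_lit 152) (nat_lit 106562625874) (nat_lit 5) (nat_lit 5) (nat_lit 6) (nat_lit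 5) (nat_lit 7) (nat_lit 4) (nat_lit 305) (nat_lit 270) (nat_lit 145)) (XT.lf (nat_lit 0) (nat_lit 192689438144) (nat_lit 76) (nat_lit 602336943) (nat_lit 152) (nat_lit 92913830990) (nat_lit 5) (nat_lit 5) (nat_lit 6) (nat_lit 5) (nat_lit 7) (nat_lit 4) (nat_lit 306) (nat_lit 270) (nat_lit 144))) (XT.nd (nat_lit 78) (nat_lit 76) (nat_lit 0) (XT.lf (nat_lit 0) (nat_lit 228855338907) (nat_lit 152) (nat_lit 42211433810) (nat_lit 0) (nat_lit 35004961827) (nat_lit 5) (nat_lit 5) (nat_lit 7) (nat_lit 4) (nat_lit 5) (nat_lit 4) (nat_lit 307) (nat_lit 270) (nat_lit 143)) (XT.nd (nat_lit 78) (nat_lit 0) (nat_lit 0) (XT.lf (nat_lit 0) (nat_lit 13875634088) (nat_lit 76) (nat_lit 253737395864) (nat_lit 76) (nat_lit 59886201561) (nat_lit 4) (nat_lit 4) (nat_lit 5) (nat_lit 5) (nat_lit 5) (nat_lit 4) (nat_lit 308) (nat_lit 270) (nat_lit 142)) (XT.lf (nat_lit 0) (nat_lit 76849766854) (nat_lit 76)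 (nat_lit 233775403559) (nat_lit 76) (nat_lit 39923452568) (nat_lit 4) (nat_lit 4) (nat_lit 5) (nat_lit 5) (nat_lit 5) (nat_lit 4) (nat_lit 309) (nat_lit 270) (nat_lit 141))))) (XT.nd (nat_lit 234) (nat_lit 76) (nat_lit 0) (XT.nd (nat_lit 78) (nat_lit 76) (nat_lit 0) (XT.lf (nat_lit 0) (nat_lit 144861365234) (nat_lit 76) (nat_lit 212216637922) (nat_lit 76) (nat_lit 18363986293) (nat_lit 4) (nat_lit 4) (nat_lit 5) (nat_lit 5) (nat_lit 5) (nat_lit 4) (nat_lit 310) (nat_lit 270) (nat_lit 140)) (XT.nd (nat_lit 78) (nat_lit 0) (nat_lit 0) (XT.lf (nat_lit 0) (nat_lit 4673840885) (nat_lit 152) (nat_lit 184131711325) (nat_lit 76) (nat_lit 213511828945) (nat_lit 3) (nat_lit 5) (nat_lit 5) (nat_lit 5) (nat_lit 4) (nat_lit 4) (nat_lit 311) (nat_lit 270) (nat_lit 139)) (XT.lf (nat_lit 0) (nat_lit 28562315508) (nat_lit 152) (nat_lit 134444284791) (nat_lit 76) (nat_lit 268298065767) (nat_lit 3)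 (nat_lit 5) (nat_lit 5) (nat_lit 5) (nat_lit 4) (nat_lit 4) (nat_lit 312) (nat_lit 270) (nat_lit 138)))) (XT.nd (nat_lit 78) (nat_lit 76) (nat_lit 0) (XT.lf (nat_lit 0) (nat_lit 54361639876) (nat_lit 152) (nat_lit 80782246294) (nat_lit 76) (nat_lit 327467066862) (nat_lit 3) (nat_lit 5) (nat_lit 5) (nat_lit 5) (nat_lit 4) (nat_lit 4) (nat_lit 313) (nat_lit 270) (nat_lit 137)) (XT.nd (nat_lit 78) (nat_lit 76) (nat_lit 0) (XT.lf (nat_lit 0) (nat_lit 82224698874) (nat_lit 152) (nat_lit 22827598568) (nat_lit 76) (nat_lit 391369463348) (nat_lit 3) (nat_lit 5) (nat_lit 5) (nat_lit 5) (nat_lit 4) (nat_lit 4) (nat_lit 314) (nat_lit 270) (nat_lit 136)) (XT.lf (nat_lit 0) (nat_lit 41856947364) (nat_lit 76) (nat_lit 71466320151) (nat_lit 152) (nat_lit 419533649319) (nat_lit 2) (nat_lit 5) (nat_lit 3) (nat_lit 5) (nat_lit 4) (nat_lit 4) (nat_lit 315) (nat_lit 270) (nat_lit 135))))))))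
noncomputable def xc102 : XT := (XT.nd (nat_lit 34866) (nat_lit 0) (nat_lit 380) (XT.nd (nat_lit 34008) (nat_lit 0) (nat_lit 1596) (XT.nd (nat_lit 390) (nat_lit 76) (nat_lit 0) (XT.nd (nat_lit 156) (nat_lit 0) (nat_lit 0) (XT.nd (nat_lit 78) (nat_lit 0) (nat_lit 0) (XT.lf (nat_lit 0) (nat_lit 113014163385) (nat_lit 76) (nat_lit 34519516410) (nat_lit 152) (nat_lit 424623289712) (nat_lit 2) (nat_lit 5) (nat_lit 3) (nat_lit 5) (nat_lit 4) (nat_lit 4) (nat_lit 316) (nat_lit 270) (nat_lit 134)) (XT.lf (nat_lit 0) (nat_lit 184610209328) (nat_lit 152) (nat_lit 424866839257) (nat_lit 0) (nat_lit 5113635805) (nat_lit 2) (nat_lit 5) (nat_lit 4) (nat_lit 4) (nat_lit 2) (nat_lit 4) (nat_lit 317) (nat_lit 270) (nat_lit 133))) (XT.nd (nat_lit 78) (nat_lit 0) (nat_lit 0) (XT.lf (nat_lit 0) (nat_lit 225549307437) (nat_lit 152) (nat_lit 388745690590) (nat_lit 0) (nat_lit 46052383421) (nat_lit 2) (nat_lit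 5) (nat_lit 4) (nat_lit 4) (nat_lit 2) (nat_lit 4) (nat_lit 318) (nat_lit 270) (nat_lit 132)) (XT.nd (nat_lit 78) (nat_lit 0) (nat_lit 0) (XT.lf (nat_lit 0) (nat_lit 269763380986) (nat_lit 152) (nat_lit 349735113671) (nat_lit 0) (nat_lit 90266132440) (nat_lit 2) (nat_lit 5) (nat_lit 4) (nat_lit 4) (nat_lit 2) (nat_lit 4) (nat_lit 319) (nat_lit 270) (nat_lit 131)) (XT.lf (nat_lit 0) (nat_lit 317514439300) (nat_lit 152) (nat_lit 307603934709) (nat_lit 0) (nat_lit 138016890262) (nat_lit 2) (nat_lit 5) (nat_lit 4) (nat_lit 4) (nat_lit 2) (nat_lit 4) (nat_lit 320) (nat_lit 270) (nat_lit 130))))) (XT.nd (nat_lit 234) (nat_lit 76) (nat_lit 0) (XT.nd (nat_lit 78) (nat_lit 0) (nat_lit 0) (XT.lf (nat_lit 0) (nat_lit 369085451613) (nat_lit 152) (nat_lit 262102487460) (nat_lit 0) (nat_lit 189587624343) (nat_lit 2) (nat_lit 5) (nat_lit 4) (nat_lit 4) (nat_lit 2) (nat_lit 4) (nat_lit 321) (nat_lit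 270) (nat_lit 129)) (XT.nd (nat_lit 78) (nat_lit 0) (nat_lit 0) (XT.lf (nat_lit 0) (nat_lit 424782023924) (nat_lit 152) (nat_lit 212961133718) (nat_lit 0) (nat_lit 245283939031) (nat_lit 2) (nat_lit 5) (nat_lit 4) (nat_lit 4) (nat_lit 2) (nat_lit 4) (nat_lit 322) (nat_lit 270) (nat_lit 128)) (XT.lf (nat_lit 0) (nat_lit 484934209995) (nat_lit 152) (nat_lit 159888665460) (nat_lit 0) (nat_lit 305435886562) (nat_lit 2) (nat_lit 5) (nat_lit 4) (nat_lit 4) (nat_lit 2) (nat_lit 4) (nat_lit 323) (nat_lit 270) (nat_lit 127)))) (XT.nd (nat_lit 78) (nat_lit 76) (nat_lit 0) (XT.lf (nat_lit 0) (nat_lit 549898467224) (nat_lit 152) (nat_lit 102570579170) (nat_lit 0) (nat_lit 370399922922) (nat_lit 2) (nat_lit 5) (nat_lit 4) (nat_lit 4) (nat_lit 2) (nat_lit 4) (nat_lit 324) (nat_lit 270) (nat_lit 126)) (XT.nd (nat_lit 78) (nat_lit 76) (nat_lit 0) (XT.lf (nat_lit 0) (nat_lit 620059768989) (nat_lit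 152) (nat_lit 40667212116) (nat_lit 0) (nat_lit 440561020177) (nat_lit 2) (nat_lit 5) (nat_lit 4) (nat_lit 4) (nat_lit 2) (nat_lit 4) (nat_lit 325) (nat_lit 270) (nat_lit 125)) (XT.lf (nat_lit 0) (nat_lit 27567298383) (nat_lit 76) (nat_lit 668929581771) (nat_lit 76) (nat_lit 489430643598) (nat_lit 1) (nat_lit 4) (nat_lit 2) (nat_lit 5) (nat_lit 2) (nat_lit 4) (nat_lit 326) (nat_lit 270) (nat_lit 124)))))) (XT.nd (nat_lit 390) (nat_lit 304) (nat_lit 0) (XT.nd (nat_lit 156) (nat_lit 380) (nat_lit 0) (XT.nd (nat_lit 78) (nat_lit 0) (nat_lit 0) (XT.lf (nat_lit 0) (nat_lit 10819386479) (nat_lit 0) (nat_lit 10819386479) (nat_lit 380) (nat_lit 818794286) (nat_lit 31) (nat_lit 5) (nat_lit 31) (nat_lit 3) (nat_lit 36) (nat_lit 3) (nat_lit 271) (nat_lit 271) (nat_lit 178)) (XT.lf (nat_lit 0) (nat_lit 40598317681) (nat_lit 0) (nat_lit 4437131871) (nat_lit 380) (nat_lit 1673871748) (nat_lit 31)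 (nat_lit 5) (nat_lit 31) (nat_lit 3) (nat_lit 36) (nat_lit 3) (nat_lit 272) (nat_lit 271) (nat_lit 177))) (XT.nd (nat_lit 78) (nat_lit 380) (nat_lit 0) (XT.lf (nat_lit 76) (nat_lit 12722306526) (nat_lit 0) (nat_lit 34855084252) (nat_lit 456) (nat_lit 1018207311) (nat_lit 32) (nat_lit 5) (nat_lit 31) (nat_lit 5) (nat_lit 37) (nat_lit 5) (nat_lit 273) (nat_lit 271) (nat_lit 176)) (XT.nd (nat_lit 78) (nat_lit 380) (nat_lit 0) (XT.lf (nat_lit 76) (nat_lit 33286926558) (nat_lit 0) (nat_lit 17312688022) (nat_lit 456) (nat_lit 11033680) (nat_lit 32) (nat_lit 5) (nat_lit 31) (nat_lit 5) (nat_lit 37) (nat_lit 5) (nat_lit 274) (nat_lit 271) (nat_lit 175)) (XT.lf (nat_lit 0) (nat_lit 1130101672) (nat_lit 456) (nat_lit 49997782944) (nat_lit 532) (nat_lit 1648388071) (nat_lit 26) (nat_lit 5) (nat_lit 32) (nat_lit 5) (nat_lit 33) (nat_lit 5) (nat_lit 275) (nat_lit 271) (nat_lit 174))))) (XT.nd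 (nat_lit 234) (nat_lit 304) (nat_lit 0) (XT.nd (nat_lit 78) (nat_lit 0) (nat_lit 0) (XT.lf (nat_lit 0) (nat_lit 3295343277) (nat_lit 456) (nat_lit 30067211352) (nat_lit 532) (nat_lit 21677916771) (nat_lit 26) (nat_lit 5) (nat_lit 32) (nat_lit 5) (nat_lit 33) (nat_lit 5) (nat_lit 276) (nat_lit 271) (nat_lit 173)) (XT.nd (nat_lit 78) (nat_lit 0) (nat_lit 76) (XT.lf (nat_lit 0) (nat_lit 5631736784) (nat_lit 456) (nat_lit 8543843113) (nat_lit 532) (nat_lit 43310410192) (nat_lit 26) (nat_lit 5) (nat_lit 32) (nat_lit 5) (nat_lit 33) (nat_lit 5) (nat_lit 277) (nat_lit 271) (nat_lit 172)) (XT.lf (nat_lit 0) (nat_lit 8692391491) (nat_lit 456) (nat_lit 44790727649) (nat_lit 76) (nat_lit 6601060458) (nat_lit 27) (nat_lit 5) (nat_lit 33) (nat_lit 5) (nat_lit 28) (nat_lit 5) (nat_lit 278) (nat_lit 271) (nat_lit 171)))) (XT.nd (nat_lit 78) (nat_lit 380) (nat_lit 0) (XT.lf (nat_lit 0) (nat_lit 12603966316)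 (nat_lit 456) (nat_lit 21723830577) (nat_lit 76) (nat_lit 28513957975) (nat_lit 27) (nat_lit 5) (nat_lit 33) (nat_lit 5) (nat_lit 28) (nat_lit 5) (nat_lit 279) (nat_lit 271) (nat_lit 170)) (XT.nd (nat_lit 78) (nat_lit 0) (nat_lit 0) (XT.lf (nat_lit 0) (nat_lit 3354700009) (nat_lit 380) (nat_lit 13552780530) (nat_lit 456) (nat_lit 48906149381) (nat_lit 22) (nat_lit 5) (nat_lit 27) (nat_lit 5) (nat_lit 28) (nat_lit 5) (nat_lit 280) (nat_lit 271) (nat_lit 169)) (XT.lf (nat_lit 0) (nat_lit 22376760151) (nat_lit 456) (nat_lit 37531502098) (nat_lit 76) (nat_lit 9049287722) (nat_lit 22) (nat_lit 5) (nat_lit 28) (nat_lit 5) (nat_lit 23) (nat_lit 5) (nat_lit 281) (nat_lit 271) (nat_lit 168))))))) (XT.nd (nat_lit 858) (nat_lit 456) (nat_lit 0) (XT.nd (nat_lit 390) (nat_lit 380) (nat_lit 0) (XT.nd (nat_lit 156) (nat_lit 152) (nat_lit 0) (XT.nd (nat_lit 78) (nat_lit 228) (nat_lit 0) (XT.lf (nat_lit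 0) (nat_lit 28634141635) (nat_lit 456) (nat_lit 10963416296) (nat_lit 76) (nat_lit 32727393651) (nat_lit 22) (nat_lit 5) (nat_lit 28) (nat_lit 5) (nat_lit 23) (nat_lit 5) (nat_lit 282) (nat_lit 271) (nat_lit 167)) (XT.lf (nat_lit 0) (nat_lit 18662275291) (nat_lit 228) (nat_lit 17177313952) (nat_lit 304) (nat_lit 40086369807) (nat_lit 19) (nat_lit 5) (nat_lit 22) (nat_lit 5) (nat_lit 23) (nat_lit 5) (nat_lit 283) (nat_lit 271) (nat_lit 166))) (XT.nd (nat_lit 78) (nat_lit 152) (nat_lit 0) (XT.lf (nat_lit 0) (nat_lit 44096959758) (nat_lit 304) (nat_lit 28688039978) (nat_lit 76) (nat_lit 6992019313) (nat_lit 19) (nat_lit 5) (nat_lit 23) (nat_lit 5) (nat_lit 20) (nat_lit 5) (nat_lit 284) (nat_lit 271) (nat_lit 165)) (XT.nd (nat_lit 78) (nat_lit 0) (nat_lit 0) (XT.lf (nat_lit 0) (nat_lit 1817015535) (nat_lit 152) (nat_lit 51686575728) (nat_lit 228) (nat_lit 30393488975) (nat_lit 17) (nat_lit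 5) (nat_lit 19) (nat_lit 5) (nat_lit 20) (nat_lit 5) (nat_lit 285) (nat_lit 271) (nat_lit 164)) (XT.lf (nat_lit 0) (nat_lit 36392654186) (nat_lit 152) (nat_lit 28053345207) (nat_lit 228) (nat_lit 23838096587) (nat_lit 17) (nat_lit 5) (nat_lit 19) (nat_lit 5) (nat_lit 20) (nat_lit 5) (nat_lit 286) (nat_lit 271) (nat_lit 163))))) (XT.nd (nat_lit 234) (nat_lit 152) (nat_lit 0) (XT.nd (nat_lit 78) (nat_lit 228) (nat_lit 0) (XT.lf (nat_lit 0) (nat_lit 73733107302) (nat_lit 152) (nat_lit 2529641252) (nat_lit 228) (nat_lit 16759417211) (nat_lit 17) (nat_lit 5) (nat_lit 19) (nat_lit 5) (nat_lit 20) (nat_lit 5) (nat_lit 287) (nat_lit 271) (nat_lit 162)) (XT.nd (nat_lit 78) (nat_lit 76) (nat_lit 0) (XT.lf (nat_lit 0) (nat_lit 16124801158) (nat_lit 152) (nat_lit 73888975922) (nat_lit 228) (nat_lit 8046396913) (nat_lit 15) (nat_lit 5) (nat_lit 17) (nat_lit 5) (nat_lit 18) (nat_lit 5) (nat_lit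 288) (nat_lit 271) (nat_lit 161)) (XT.lf (nat_lit 0) (nat_lit 1901284116) (nat_lit 228) (nat_lit 48103728956) (nat_lit 76) (nat_lit 53445126171) (nat_lit 14) (nat_lit 5) (nat_lit 17) (nat_lit 5) (nat_lit 15) (nat_lit 5) (nat_lit 289) (nat_lit 271) (nat_lit 160)))) (XT.nd (nat_lit 78) (nat_lit 152) (nat_lit 0) (XT.lf (nat_lit 0) (nat_lit 12209171235) (nat_lit 228) (nat_lit 11775711510) (nat_lit 76) (nat_lit 85269777062) (nat_lit 14) (nat_lit 5) (nat_lit 17) (nat_lit 5) (nat_lit 15) (nat_lit 5) (nat_lit 290) (nat_lit 271) (nat_lit 159)) (XT.nd (nat_lit 78) (nat_lit 0) (nat_lit 0) (XT.lf (nat_lit 0) (nat_lit 24153047286) (nat_lit 228) (nat_lit 86681729332) (nat_lit 76) (nat_lit 4623862651) (nat_lit 12) (nat_lit 5) (nat_lit 15) (nat_lit 5) (nat_lit 13) (nat_lit 5) (nat_lit 291) (nat_lit 271) (nat_lit 158)) (XT.lf (nat_lit 0) (nat_lit 38004951264) (nat_lit 228) (nat_lit 49522200201) (nat_lit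 76) (nat_lit 34555589651) (nat_lit 12) (nat_lit 5) (nat_lit 15) (nat_lit 5) (nat_lit 13) (nat_lit 5) (nat_lit 292) (nat_lit 271) (nat_lit 157)))))) (XT.nd (nat_lit 390) (nat_lit 228) (nat_lit 0) (XT.nd (nat_lit 156) (nat_lit 76) (nat_lit 0) (XT.nd (nat_lit 78) (nat_lit 152) (nat_lit 0) (XT.lf (nat_lit 0) (nat_lit 52964268881) (nat_lit 228) (nat_lit 9390936585) (nat_lit 76) (nat_lit 66881629787) (nat_lit 12) (nat_lit 5) (nat_lit 15) (nat_lit 5) (nat_lit 13) (nat_lit 5) (nat_lit 293) (nat_lit 271) (nat_lit 156)) (XT.lf (nat_lit 0) (nat_lit 35737616739) (nat_lit 152) (nat_lit 34241521751) (nat_lit 228) (nat_lit 66915418582) (nat_lit 10) (nat_lit 5) (nat_lit 12) (nat_lit 5) (nat_lit 13) (nat_lit 5) (nat_lit 294) (nat_lit 271) (nat_lit 155))) (XT.nd (nat_lit 78) (nat_lit 76) (nat_lit 0) (XT.lf (nat_lit 0) (nat_lit 85009597599) (nat_lit 152) (nat_lit 3601709309) (nat_lit 228) (nat_lit 56533105318)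 (nat_lit 10) (nat_lit 5) (nat_lit 12) (nat_lit 5) (nat_lit 13) (nat_lit 5) (nat_lit 295) (nat_lit 271) (nat_lit 154)) (XT.nd (nat_lit 78) (nat_lit 76) (nat_lit 0) (XT.lf (nat_lit 0) (nat_lit 109442653790) (nat_lit 228) (nat_lit 16541042372) (nat_lit 76) (nat_lit 28013875241) (nat_lit 10) (nat_lit 5) (nat_lit 13) (nat_lit 5) (nat_lit 11) (nat_lit 4) (nat_lit 296) (nat_lit 271) (nat_lit 153)) (XT.lf (nat_lit 0) (nat_lit 32049066530) (nat_lit 76) (nat_lit 100755205919) (nat_lit 152) (nat_lit 30685613456) (nat_lit 9) (nat_lit 5) (nat_lit 10) (nat_lit 5) (nat_lit 11) (nat_lit 4) (nat_lit 297) (nat_lit 271) (nat_lit 152))))) (XT.nd (nat_lit 234) (nat_lit 0) (nat_lit 0) (XT.nd (nat_lit 78) (nat_lit 228) (nat_lit 0) (XT.lf (nat_lit 0) (nat_lit 85466270755) (nat_lit 76) (nat_lit 73020265969) (nat_lit 152) (nat_lit 15218914988) (nat_lit 9) (nat_lit 5) (nat_lit 10) (nat_lit 5) (nat_lit 11) (nat_lit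 4) (nat_lit 298) (nat_lit 271) (nat_lit 151)) (XT.nd (nat_lit 78) (nat_lit 152) (nat_lit 0) (XT.lf (nat_lit 0) (nat_lit 1410306640) (nat_lit 152) (nat_lit 41617915604) (nat_lit 76) (nat_lit 141707227798) (nat_lit 8) (nat_lit 5) (nat_lit 10) (nat_lit 5) (nat_lit 9) (nat_lit 5) (nat_lit 299) (nat_lit 271) (nat_lit 150)) (XT.lf (nat_lit 0) (nat_lit 8776038801) (nat_lit 152) (nat_lit 9982191998) (nat_lit 228) (nat_lit 177841149928) (nat_lit 6) (nat_lit 5) (nat_lit 8) (nat_lit 5) (nat_lit 9) (nat_lit 5) (nat_lit 300) (nat_lit 271) (nat_lit 149)))) (XT.nd (nat_lit 78) (nat_lit 0) (nat_lit 0) (XT.lf (nat_lit 0) (nat_lit 39279249279) (nat_lit 228) (nat_lit 144401602436) (nat_lit 76) (nat_lit 25588755846) (nat_lit 6) (nat_lit 5) (nat_lit 9) (nat_lit 5) (nat_lit 7) (nat_lit 4) (nat_lit 301) (nat_lit 271) (nat_lit 148)) (XT.nd (nat_lit 78) (nat_lit 0) (nat_lit 0) (XT.lf (nat_lit 0) (nat_lit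 61700792035) (nat_lit 228) (nat_lit 97766090334) (nat_lit 76) (nat_lit 63465865089) (nat_lit 6) (nat_lit 5) (nat_lit 9) (nat_lit 5) (nat_lit 7) (nat_lit 4) (nat_lit 302) (nat_lit 271) (nat_lit 147)) (XT.lf (nat_lit 0) (nat_lit 85915655511) (nat_lit 228) (nat_lit 47400375073) (nat_lit 76) (nat_lit 104372942344) (nat_lit 6) (nat_lit 5) (nat_lit 9) (nat_lit 5) (nat_lit 7) (nat_lit 4) (nat_lit 303) (nat_lit 271) (nat_lit 146))))))))
noncomputable def xc103 : XT := (XT.nd (nat_lit 1716) (nat_lit 0) (nat_lit 0) (XT.nd (nat_lit 858) (nat_lit 76) (nat_lit 0) (XT.nd (nat_lit 390) (nat_lit 152) (nat_lit 0) (XT.nd (nat_lit 156) (nat_lit 0) (nat_lit 0) (XT.nd (nat_lit 78) (nat_lit 0) (nat_lit 0) (XT.lf (nat_lit 0) (nat_lit 7362298851) (nat_lit 76) (nat_lit 104882099808) (nat_lit 152) (nat_lit 141367164536) (nat_lit 5) (nat_lit 5) (nat_lit 6) (nat_lit 5) (nat_lit 7) (nat_lit 4) (nat_lit 304) (nat_lit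 271) (nat_lit 145)) (XT.lf (nat_lit 0) (nat_lit 69201112407) (nat_lit 76) (nat_lit 72773980012) (nat_lit 152) (nat_lit 128729218026) (nat_lit 5) (nat_lit 5) (nat_lit 6) (nat_lit 5) (nat_lit 7) (nat_lit 4) (nat_lit 305) (nat_lit 271) (nat_lit 144))) (XT.nd (nat_lit 78) (nat_lit 0) (nat_lit 0) (XT.lf (nat_lit 0) (nat_lit 135986498073) (nat_lit 76) (nat_lit 38097411113) (nat_lit 152) (nat_lit 115080596610) (nat_lit 5) (nat_lit 5) (nat_lit 6) (nat_lit 5) (nat_lit 7) (nat_lit 4) (nat_lit 306) (nat_lit 271) (nat_lit 143)) (XT.nd (nat_lit 78) (nat_lit 0) (nat_lit 0) (XT.lf (nat_lit 0) (nat_lit 208114221097) (nat_lit 76) (nat_lit 646902332) (nat_lit 152) (nat_lit 100340419567) (nat_lit 5) (nat_lit 5) (nat_lit 6) (nat_lit 5) (nat_lit 7) (nat_lit 4) (nat_lit 307) (nat_lit 271) (nat_lit 142)) (XT.lf (nat_lit 0) (nat_lit 247169408088) (nat_lit 152) (nat_lit 45579040766) (nat_lit 0) (nat_lit 37808544329)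 (nat_lit 5) (nat_lit 5) (nat_lit 7) (nat_lit 4) (nat_lit 5) (nat_lit 4) (nat_lit 308) (nat_lit 271) (nat_lit 141))))) (XT.nd (nat_lit 234) (nat_lit 76) (nat_lit 0) (XT.nd (nat_lit 78) (nat_lit 0) (nat_lit 0) (XT.lf (nat_lit 0) (nat_lit 14994756925) (nat_lit 76) (nat_lit 274032757745) (nat_lit 76) (nat_lit 64671193349) (nat_lit 4) (nat_lit 4) (nat_lit 5) (nat_lit 5) (nat_lit 5) (nat_lit 4) (nat_lit 309) (nat_lit 271) (nat_lit 140)) (XT.nd (nat_lit 78) (nat_lit 0) (nat_lit 0) (XT.lf (nat_lit 0) (nat_lit 83006148304) (nat_lit 76) (nat_lit 252474074929) (nat_lit 76) (nat_lit 43111861795) (nat_lit 4) (nat_lit 4) (nat_lit 5) (nat_lit 5) (nat_lit 5) (nat_lit 4) (nat_lit 310) (nat_lit 271) (nat_lit 139)) (XT.lf (nat_lit 0) (nat_lit 156458052325) (nat_lit 76) (nat_lit 229190856997) (nat_lit 76) (nat_lit 19828043180) (nat_lit 4) (nat_lit 4) (nat_lit 5) (nat_lit 5) (nat_lit 5) (nat_lit 4) (nat_lit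 311) (nat_lit 271) (nat_lit 138)))) (XT.nd (nat_lit 78) (nat_lit 0) (nat_lit 0) (XT.lf (nat_lit 0) (nat_lit 5052200743) (nat_lit 152) (nat_lit 198854792459) (nat_lit 76) (nat_lit 230595402666) (nat_lit 3) (nat_lit 5) (nat_lit 5) (nat_lit 5) (nat_lit 4) (nat_lit 4) (nat_lit 312) (nat_lit 271) (nat_lit 137)) (XT.nd (nat_lit 78) (nat_lit 0) (nat_lit 0) (XT.lf (nat_lit 0) (nat_lit 30851423515) (nat_lit 152) (nat_lit 145192924082) (nat_lit 76) (nat_lit 289764343810) (nat_lit 3) (nat_lit 5) (nat_lit 5) (nat_lit 5) (nat_lit 4) (nat_lit 4) (nat_lit 313) (nat_lit 271) (nat_lit 136)) (XT.lf (nat_lit 0) (nat_lit 58714388442) (nat_lit 152) (nat_lit 87238433875) (nat_lit 76) (nat_lit 353666684787) (nat_lit 3) (nat_lit 5) (nat_lit 5) (nat_lit 5) (nat_lit 4) (nat_lit 4) (nat_lit 314) (nat_lit 271) (nat_lit 135)))))) (XT.nd (nat_lit 390) (nat_lit 0) (nat_lit 0) (XT.nd (nat_lit 156) (nat_lit 0) (nat_lit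 0) (XT.nd (nat_lit 78) (nat_lit 76) (nat_lit 0) (XT.lf (nat_lit 0) (nat_lit 88806209391) (nat_lit 152) (nat_lit 24647887821) (nat_lit 76) (nat_lit 422681106134) (nat_lit 3) (nat_lit 5) (nat_lit 5) (nat_lit 5) (nat_lit 4) (nat_lit 4) (nat_lit 315) (nat_lit 271) (nat_lit 134)) (XT.lf (nat_lit 0) (nat_lit 45211271947) (nat_lit 76) (nat_lit 77181268494) (nat_lit 152) (nat_lit 453092642432) (nat_lit 2) (nat_lit 5) (nat_lit 3) (nat_lit 5) (nat_lit 4) (nat_lit 4) (nat_lit 316) (nat_lit 271) (nat_lit 133))) (XT.nd (nat_lit 78) (nat_lit 0) (nat_lit 0) (XT.lf (nat_lit 0) (nat_lit 122060637931) (nat_lit 76) (nat_lit 37278895066) (nat_lit 152) (nat_lit 458589728044) (nat_lit 2) (nat_lit 5) (nat_lit 3) (nat_lit 5) (nat_lit 4) (nat_lit 4) (nat_lit 317) (nat_lit 271) (nat_lit 132)) (XT.nd (nat_lit 78) (nat_lit 0) (nat_lit 0) (XT.lf (nat_lit 0) (nat_lit 199381999511) (nat_lit 152) (nat_lit 458851042871)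 (nat_lit 0) (nat_lit 5524646550) (nat_lit 2) (nat_lit 5) (nat_lit 4) (nat_lit 4) (nat_lit 2) (nat_lit 4) (nat_lit 318) (nat_lit 271) (nat_lit 131)) (XT.lf (nat_lit 0) (nat_lit 243596005214) (nat_lit 152) (nat_lit 419840583313) (nat_lit 0) (nat_lit 49738351762) (nat_lit 2) (nat_lit 5) (nat_lit 4) (nat_lit 4) (nat_lit 2) (nat_lit 4) (nat_lit 319) (nat_lit 271) (nat_lit 130))))) (XT.nd (nat_lit 234) (nat_lit 0) (nat_lit 0) (XT.nd (nat_lit 78) (nat_lit 0) (nat_lit 0) (XT.lf (nat_lit 0) (nat_lit 291347000708) (nat_lit 152) (nat_lit 377709513019) (nat_lit 0) (nat_lit 97489069023) (nat_lit 2) (nat_lit 5) (nat_lit 4) (nat_lit 4) (nat_lit 2) (nat_lit 4) (nat_lit 320) (nat_lit 271) (nat_lit 129)) (XT.nd (nat_lit 78) (nat_lit 0) (nat_lit 0) (XT.lf (nat_lit 0) (nat_lit 342917954854) (nat_lit 152) (nat_lit 332208166389) (nat_lit 0) (nat_lit 149059765547) (nat_lit 2) (nat_lit 5) (nat_lit 4) (nat_lit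 4) (nat_lit 2) (nat_lit 4) (nat_lit 321) (nat_lit 271) (nat_lit 128)) (XT.lf (nat_lit 0) (nat_lit 398614473307) (nat_lit 152) (nat_lit 283066905812) (nat_lit 0) (nat_lit 204756045460) (nat_lit 2) (nat_lit 5) (nat_lit 4) (nat_lit 4) (nat_lit 2) (nat_lit 4) (nat_lit 322) (nat_lit 271) (nat_lit 127)))) (XT.nd (nat_lit 78) (nat_lit 0) (nat_lit 0) (XT.lf (nat_lit 0) (nat_lit 458766609509) (nat_lit 152) (nat_lit 229994523817) (nat_lit 0) (nat_lit 264907960792) (nat_lit 2) (nat_lit 5) (nat_lit 4) (nat_lit 4) (nat_lit 2) (nat_lit 4) (nat_lit 323) (nat_lit 271) (nat_lit 126)) (XT.nd (nat_lit 78) (nat_lit 0) (nat_lit 0) (XT.lf (nat_lit 0) (nat_lit 523730820564) (nat_lit 152) (nat_lit 172676517402) (nat_lit 0) (nat_lit 329871967338) (nat_lit 2) (nat_lit 5) (nat_lit 4) (nat_lit 4) (nat_lit 2) (nat_lit 4) (nat_lit 324) (nat_lit 271) (nat_lit 125)) (XT.lf (nat_lit 0) (nat_lit 593892079574) (nat_lit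 152) (nat_lit 110773224305) (nat_lit 0) (nat_lit 400033036987) (nat_lit 2) (nat_lit 5) (nat_lit 4) (nat_lit 4) (nat_lit 2) (nat_lit 4) (nat_lit 325) (nat_lit 271) (nat_lit 124))))))) (XT.nd (nat_lit 34086) (nat_lit 0) (nat_lit 760) (XT.nd (nat_lit 33618) (nat_lit 0) (nat_lit 1520) (XT.nd (nat_lit 33384) (nat_lit 0) (nat_lit 1748) (XT.nd (nat_lit 33306) (nat_lit 0) (nat_lit 2204) (XT.lf (nat_lit 0) (nat_lit 669666156963) (nat_lit 152) (nat_lit 43917810198) (nat_lit 0) (nat_lit 475806939043) (nat_lit 2) (nat_lit 5) (nat_lit 4) (nat_lit 4) (nat_lit 2) (nat_lit 4) (nat_lit 326) (nat_lit 271) (nat_lit 123)) (XT.lf (nat_lit 0) (nat_lit 11698016005) (nat_lit 0) (nat_lit 11698016005) (nat_lit 380) (nat_lit 855780212) (nat_lit 31) (nat_lit 5) (nat_lit 31) (nat_lit 3) (nat_lit 36) (nat_lit 3) (nat_lit 272) (nat_lit 272) (nat_lit 176))) (XT.nd (nat_lit 78) (nat_lit 456) (nat_lit 0) (XT.lf (nat_lit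 0) (nat_lit 43870402740) (nat_lit 0) (nat_lit 4816322065) (nat_lit 380) (nat_lit 1754971086) (nat_lit 31) (nat_lit 5) (nat_lit 31) (nat_lit 3) (nat_lit 36) (nat_lit 3) (nat_lit 273) (nat_lit 272) (nat_lit 175)) (XT.nd (nat_lit 78) (nat_lit 456) (nat_lit 0) (XT.lf (nat_lit 76) (nat_lit 13768525725) (nat_lit 0) (nat_lit 37660052026) (nat_lit 456) (nat_lit 1050609296) (nat_lit 32) (nat_lit 5) (nat_lit 31) (nat_lit 5) (nat_lit 37) (nat_lit 5) (nat_lit 274) (nat_lit 272) (nat_lit 174)) (XT.lf (nat_lit 0) (nat_lit 31828517) (nat_lit 456) (nat_lit 18680338589) (nat_lit 532) (nat_lit 35943510322) (nat_lit 25) (nat_lit 5) (nat_lit 31) (nat_lit 5) (nat_lit 32) (nat_lit 5) (nat_lit 275) (nat_lit 272) (nat_lit 173))))) (XT.nd (nat_lit 234) (nat_lit 304) (nat_lit 0) (XT.nd (nat_lit 78) (nat_lit 0) (nat_lit 0) (XT.lf (nat_lit 0) (nat_lit 1260844498) (nat_lit 456) (nat_lit 53965432672) (nat_lit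 532) (nat_lit 1768506004) (nat_lit 26) (nat_lit 5) (nat_lit 32) (nat_lit 5) (nat_lit 33) (nat_lit 5) (nat_lit 276) (nat_lit 272) (nat_lit 172)) (XT.nd (nat_lit 78) (nat_lit 0) (nat_lit 0) (XT.lf (nat_lit 0) (nat_lit 3596317677) (nat_lit 456) (nat_lit 32442798531) (nat_lit 532) (nat_lit 23401267600) (nat_lit 26) (nat_lit 5) (nat_lit 32) (nat_lit 5) (nat_lit 33) (nat_lit 5) (nat_lit 277) (nat_lit 272) (nat_lit 171)) (XT.lf (nat_lit 0) (nat_lit 6116856225) (nat_lit 456) (nat_lit 9199767479) (nat_lit 532) (nat_lit 46765166607) (nat_lit 26) (nat_lit 5) (nat_lit 32) (nat_lit 5) (nat_lit 33) (nat_lit 5) (nat_lit 278) (nat_lit 272) (nat_lit 170)))) (XT.nd (nat_lit 78) (nat_lit 380) (nat_lit 0) (XT.lf (nat_lit 0) (nat_lit 9420309341) (nat_lit 456) (nat_lit 48344059418) (nat_lit 76) (nat_lit 7123653690) (nat_lit 27) (nat_lit 5) (nat_lit 33) (nat_lit 5) (nat_lit 28) (nat_lit 5) (nat_lit 279)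 (nat_lit 272) (nat_lit 169)) (XT.nd (nat_lit 78) (nat_lit 380) (nat_lit 0) (XT.lf (nat_lit 0) (nat_lit 13642400780) (nat_lit 456) (nat_lit 23434027353) (nat_lit 76) (nat_lit 30789989794) (nat_lit 27) (nat_lit 5) (nat_lit 33) (nat_lit 5) (nat_lit 28) (nat_lit 5) (nat_lit 280) (nat_lit 272) (nat_lit 168)) (XT.lf (nat_lit 0) (nat_lit 3650084168) (nat_lit 380) (nat_lit 14638530618) (nat_lit 456) (nat_lit 52787574554) (nat_lit 22) (nat_lit 5) (nat_lit 27) (nat_lit 5) (nat_lit 28) (nat_lit 5) (nat_lit 281) (nat_lit 272) (nat_lit 167)))))) (XT.nd (nat_lit 390) (nat_lit 380) (nat_lit 0) (XT.nd (nat_lit 156) (nat_lit 380) (nat_lit 0) (XT.nd (nat_lit 78) (nat_lit 0) (nat_lit 0) (XT.lf (nat_lit 0) (nat_lit 24193288986) (nat_lit 456) (nat_lit 40506637199) (nat_lit 76) (nat_lit 9771887011) (nat_lit 22) (nat_lit 5) (nat_lit 28) (nat_lit 5) (nat_lit 23) (nat_lit 5) (nat_lit 282) (nat_lit 272) (nat_lit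 166)) (XT.lf (nat_lit 0) (nat_lit 30949306321) (nat_lit 456) (nat_lit 11815133057) (nat_lit 76) (nat_lit 35344340950) (nat_lit 22) (nat_lit 5) (nat_lit 28) (nat_lit 5) (nat_lit 23) (nat_lit 5) (nat_lit 283) (nat_lit 272) (nat_lit 165))) (XT.nd (nat_lit 78) (nat_lit 152) (nat_lit 0) (XT.lf (nat_lit 0) (nat_lit 20179971919) (nat_lit 228) (nat_lit 18550002326) (nat_lit 304) (nat_lit 43268007143) (nat_lit 19) (nat_lit 5) (nat_lit 22) (nat_lit 5) (nat_lit 23) (nat_lit 5) (nat_lit 284) (nat_lit 272) (nat_lit 164)) (XT.nd (nat_lit 78) (nat_lit 152) (nat_lit 0) (XT.lf (nat_lit 0) (nat_lit 47646247891) (nat_lit 304) (nat_lit 30958330404) (nat_lit 76) (nat_lit 7552697403) (nat_lit 19) (nat_lit 5) (nat_lit 23) (nat_lit 5) (nat_lit 20) (nat_lit 5) (nat_lit 285) (nat_lit 272) (nat_lit 163)) (XT.lf (nat_lit 0) (nat_lit 1986502897) (nat_lit 152) (nat_lit 55817892337) (nat_lit 228) (nat_lit 32802641230)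 (nat_lit 17) (nat_lit 5) (nat_lit 19) (nat_lit 5) (nat_lit 20) (nat_lit 5) (nat_lit 286) (nat_lit 272) (nat_lit 162))))) (XT.nd (nat_lit 234) (nat_lit 228) (nat_lit 0) (XT.nd (nat_lit 78) (nat_lit 152) (nat_lit 0) (XT.lf (nat_lit 0) (nat_lit 39326405520) (nat_lit 152) (nat_lit 30294270741) (nat_lit 228) (nat_lit 25724471293) (nat_lit 17) (nat_lit 5) (nat_lit 19) (nat_lit 5) (nat_lit 20) (nat_lit 5) (nat_lit 287) (nat_lit 272) (nat_lit 161)) (XT.nd (nat_lit 78) (nat_lit 152) (nat_lit 0) (XT.lf (nat_lit 0) (nat_lit 79652440145) (nat_lit 152) (nat_lit 2728918032) (nat_lit 228) (nat_lit 18081028902) (nat_lit 17) (nat_lit 5) (nat_lit 19) (nat_lit 5) (nat_lit 20) (nat_lit 5) (nat_lit 288) (nat_lit 272) (nat_lit 160)) (XT.lf (nat_lit 0) (nat_lit 17436385977) (nat_lit 152) (nat_lit 79795368473) (nat_lit 228) (nat_lit 8671749401) (nat_lit 15) (nat_lit 5) (nat_lit 17) (nat_lit 5) (nat_lit 18)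 (nat_lit 5) (nat_lit 289) (nat_lit 272) (nat_lit 159)))) (XT.nd (nat_lit 78) (nat_lit 152) (nat_lit 0) (XT.lf (nat_lit 0) (nat_lit 2069535790) (nat_lit 228) (nat_lit 51931061304) (nat_lit 76) (nat_lit 57724146452) (nat_lit 14) (nat_lit 5) (nat_lit 17) (nat_lit 5) (nat_lit 15) (nat_lit 5) (nat_lit 290) (nat_lit 272) (nat_lit 158)) (XT.nd (nat_lit 78) (nat_lit 152) (nat_lit 0) (XT.lf (nat_lit 0) (nat_lit 13200857660) (nat_lit 228) (nat_lit 12698355496) (nat_lit 76) (nat_lit 92094516807) (nat_lit 14) (nat_lit 5) (nat_lit 17) (nat_lit 5) (nat_lit 15) (nat_lit 5) (nat_lit 291) (nat_lit 272) (nat_lit 157)) (XT.lf (nat_lit 0) (nat_lit 26099702390) (nat_lit 228) (nat_lit 93596214812) (nat_lit 76) (nat_lit 4998161776) (nat_lit 12) (nat_lit 5) (nat_lit 15) (nat_lit 5) (nat_lit 13) (nat_lit 5) (nat_lit 292) (nat_lit 272) (nat_lit 156))))))))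
noncomputable def xc104 : XT := (XT.nd (nat_lit 1638) (nat_lit 76) (nat_lit 0) (XT.nd (nat_lit 780) (nat_lit 228) (nat_lit 0) (XT.nd (nat_lit 390) (nat_lit 304) (nat_lit 0) (XT.nd (nat_lit 156) (nat_lit 152) (nat_lit 0) (XT.nd (nat_lit 78) (nat_lit 0) (nat_lit 0) (XT.lf (nat_lit 0) (nat_lit 41058691180) (nat_lit 228) (nat_lit 53465408748) (nat_lit 76) (nat_lit 37324101742) (nat_lit 12) (nat_lit 5) (nat_lit 15) (nat_lit 5) (nat_lit 13) (nat_lit 5) (nat_lit 293) (nat_lit 272) (nat_lit 155)) (XT.lf (nat_lit 0) (nat_lit 57213765777) (nat_lit 228) (nat_lit 10125019410) (nat_lit 76) (nat_lit 72235923985) (nat_lit 12) (nat_lit 5) (nat_lit 15) (nat_lit 5) (nat_lit 13) (nat_lit 5) (nat_lit 294) (nat_lit 272) (nat_lit 154))) (XT.nd (nat_lit 78) (nat_lit 0) (nat_lit 0) (XT.lf (nat_lit 0) (nat_lit 38613382936) (nat_lit 152) (nat_lit 36975929806) (nat_lit 228) (nat_lit 72255783227) (nat_lit 10)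 (nat_lit 5) (nat_lit 12) (nat_lit 5) (nat_lit 13) (nat_lit 5) (nat_lit 295) (nat_lit 272) (nat_lit 153)) (XT.nd (nat_lit 78) (nat_lit 0) (nat_lit 0) (XT.lf (nat_lit 0) (nat_lit 91825881017) (nat_lit 152) (nat_lit 3885296346) (nat_lit 228) (nat_lit 61043838149) (nat_lit 10) (nat_lit 5) (nat_lit 12) (nat_lit 5) (nat_lit 13) (nat_lit 5) (nat_lit 296) (nat_lit 272) (nat_lit 152)) (XT.lf (nat_lit 0) (nat_lit 118208321022) (nat_lit 228) (nat_lit 17849181427) (nat_lit 76) (nat_lit 30258987217) (nat_lit 10) (nat_lit 5) (nat_lit 13) (nat_lit 5) (nat_lit 11) (nat_lit 4) (nat_lit 297) (nat_lit 272) (nat_lit 151))))) (XT.nd (nat_lit 156) (nat_lit 228) (nat_lit 0) (XT.nd (nat_lit 78) (nat_lit 0) (nat_lit 0) (XT.lf (nat_lit 0) (nat_lit 34627752786) (nat_lit 76) (nat_lit 108810711763) (nat_lit 152) (nat_lit 33129762115) (nat_lit 9) (nat_lit 5) (nat_lit 10) (nat_lit 5) (nat_lit 11) (nat_lit 4) (nat_lit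 298) (nat_lit 272) (nat_lit 150)) (XT.lf (nat_lit 0) (nat_lit 92317239947) (nat_lit 76) (nat_lit 78857340368) (nat_lit 152) (nat_lit 16426520392) (nat_lit 9) (nat_lit 5) (nat_lit 10) (nat_lit 5) (nat_lit 11) (nat_lit 4) (nat_lit 299) (nat_lit 272) (nat_lit 149))) (XT.nd (nat_lit 78) (nat_lit 152) (nat_lit 0) (XT.lf (nat_lit 0) (nat_lit 1531846140) (nat_lit 152) (nat_lit 44934185528) (nat_lit 76) (nat_lit 153047507892) (nat_lit 8) (nat_lit 5) (nat_lit 10) (nat_lit 5) (nat_lit 9) (nat_lit 5) (nat_lit 300) (nat_lit 272) (nat_lit 148)) (XT.nd (nat_lit 78) (nat_lit 0) (nat_lit 0) (XT.lf (nat_lit 0) (nat_lit 9490951981) (nat_lit 152) (nat_lit 10776315262) (nat_lit 228) (nat_lit 192059348067) (nat_lit 6) (nat_lit 5) (nat_lit 8) (nat_lit 5) (nat_lit 9) (nat_lit 5) (nat_lit 301) (nat_lit 272) (nat_lit 147)) (XT.lf (nat_lit 0) (nat_lit 42429445751) (nat_lit 228) (nat_lit 155941287225) (nat_lit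 76) (nat_lit 27639772411) (nat_lit 6) (nat_lit 5) (nat_lit 9) (nat_lit 5) (nat_lit 7) (nat_lit 4) (nat_lit 302) (nat_lit 272) (nat_lit 146)))))) (XT.nd (nat_lit 390) (nat_lit 152) (nat_lit 0) (XT.nd (nat_lit 156) (nat_lit 76) (nat_lit 0) (XT.nd (nat_lit 78) (nat_lit 0) (nat_lit 0) (XT.lf (nat_lit 0) (nat_lit 66644129963) (nat_lit 228) (nat_lit 105575855889) (nat_lit 76) (nat_lit 68546760312) (nat_lit 6) (nat_lit 5) (nat_lit 9) (nat_lit 5) (nat_lit 7) (nat_lit 4) (nat_lit 303) (nat_lit 272) (nat_lit 145)) (XT.lf (nat_lit 0) (nat_lit 92795643660) (nat_lit 228) (nat_lit 51181736864) (nat_lit 76) (nat_lit 112726135154) (nat_lit 6) (nat_lit 5) (nat_lit 9) (nat_lit 5) (nat_lit 7) (nat_lit 4) (nat_lit 304) (nat_lit 272) (nat_lit 144))) (XT.nd (nat_lit 78) (nat_lit 0) (nat_lit 0) (XT.lf (nat_lit 0) (nat_lit 7961680892) (nat_lit 76) (nat_lit 113268756501) (nat_lit 152) (nat_lit 152669498364)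 (nat_lit 5) (nat_lit 5) (nat_lit 6) (nat_lit 5) (nat_lit 7) (nat_lit 4) (nat_lit 305) (nat_lit 272) (nat_lit 143)) (XT.nd (nat_lit 78) (nat_lit 0) (nat_lit 0) (XT.lf (nat_lit 0) (nat_lit 74746829301) (nat_lit 76) (nat_lit 78592276847) (nat_lit 152) (nat_lit 139021037567) (nat_lit 5) (nat_lit 5) (nat_lit 6) (nat_lit 5) (nat_lit 7) (nat_lit 4) (nat_lit 306) (nat_lit 272) (nat_lit 142)) (XT.lf (nat_lit 0) (nat_lit 146874332642) (nat_lit 76) (nat_lit 41141850700) (nat_lit 152) (nat_lit 124281009245) (nat_lit 5) (nat_lit 5) (nat_lit 6) (nat_lit 5) (nat_lit 7) (nat_lit 4) (nat_lit 307) (nat_lit 272) (nat_lit 141))))) (XT.nd (nat_lit 234) (nat_lit 76) (nat_lit 0) (XT.nd (nat_lit 78) (nat_lit 76) (nat_lit 0) (XT.lf (nat_lit 0) (nat_lit 224771613158) (nat_lit 76) (nat_lit 695549609) (nat_lit 152) (nat_lit 108362065082) (nat_lit 5) (nat_lit 5) (nat_lit 6) (nat_lit 5) (nat_lit 7) (nat_lit 4)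 (nat_lit 308) (nat_lit 272) (nat_lit 140)) (XT.nd (nat_lit 78) (nat_lit 76) (nat_lit 0) (XT.lf (nat_lit 0) (nat_lit 266947797900) (nat_lit 152) (nat_lit 49217384132) (nat_lit 0) (nat_lit 40835958977) (nat_lit 5) (nat_lit 5) (nat_lit 7) (nat_lit 4) (nat_lit 5) (nat_lit 4) (nat_lit 309) (nat_lit 272) (nat_lit 139)) (XT.lf (nat_lit 0) (nat_lit 16202115351) (nat_lit 76) (nat_lit 295952266406) (nat_lit 76) (nat_lit 69839826800) (nat_lit 4) (nat_lit 4) (nat_lit 5) (nat_lit 5) (nat_lit 5) (nat_lit 4) (nat_lit 310) (nat_lit 272) (nat_lit 138)))) (XT.nd (nat_lit 78) (nat_lit 76) (nat_lit 0) (XT.lf (nat_lit 0) (nat_lit 89653841902) (nat_lit 76) (nat_lit 272669119481) (nat_lit 76) (nat_lit 46556123686) (nat_lit 4) (nat_lit 4) (nat_lit 5) (nat_lit 5) (nat_lit 5) (nat_lit 4) (nat_lit 311) (nat_lit 272) (nat_lit 137)) (XT.nd (nat_lit 78) (nat_lit 76) (nat_lit 0) (XT.lf (nat_lit 0) (nat_lit 168981364783)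 (nat_lit 76) (nat_lit 247523457554) (nat_lit 76) (nat_lit 21409946770) (nat_lit 4) (nat_lit 4) (nat_lit 5) (nat_lit 5) (nat_lit 5) (nat_lit 4) (nat_lit 312) (nat_lit 272) (nat_lit 136)) (XT.lf (nat_lit 0) (nat_lit 5460194178) (nat_lit 152) (nat_lit 214756783733) (nat_lit 76) (nat_lit 249045287455) (nat_lit 3) (nat_lit 5) (nat_lit 5) (nat_lit 5) (nat_lit 4) (nat_lit 4) (nat_lit 313) (nat_lit 272) (nat_lit 135))))))) (XT.nd (nat_lit 858) (nat_lit 0) (nat_lit 0) (XT.nd (nat_lit 390) (nat_lit 0) (nat_lit 0) (XT.nd (nat_lit 156) (nat_lit 76) (nat_lit 0) (XT.nd (nat_lit 78) (nat_lit 0) (nat_lit 0) (XT.lf (nat_lit 0) (nat_lit 33323072004) (nat_lit 152) (nat_lit 156802439377) (nat_lit 76) (nat_lit 312947577034) (nat_lit 3) (nat_lit 5) (nat_lit 5) (nat_lit 5) (nat_lit 4) (nat_lit 4) (nat_lit 314) (nat_lit 272) (nat_lit 134)) (XT.lf (nat_lit 0) (nat_lit 63414812302) (nat_lit 152) (nat_lit 94212028370)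 (nat_lit 76) (nat_lit 381961950791) (nat_lit 3) (nat_lit 5) (nat_lit 5) (nat_lit 5) (nat_lit 4) (nat_lit 4) (nat_lit 315) (nat_lit 272) (nat_lit 133))) (XT.nd (nat_lit 78) (nat_lit 76) (nat_lit 0) (XT.lf (nat_lit 0) (nat_lit 95913736499) (nat_lit 152) (nat_lit 26614644574) (nat_lit 76) (nat_lit 456497382793) (nat_lit 3) (nat_lit 5) (nat_lit 5) (nat_lit 5) (nat_lit 4) (nat_lit 4) (nat_lit 316) (nat_lit 272) (nat_lit 132)) (XT.nd (nat_lit 78) (nat_lit 0) (nat_lit 0) (XT.lf (nat_lit 0) (nat_lit 48833119513) (nat_lit 76) (nat_lit 83353748995) (nat_lit 152) (nat_lit 489336882673) (nat_lit 2) (nat_lit 5) (nat_lit 3) (nat_lit 5) (nat_lit 4) (nat_lit 4) (nat_lit 317) (nat_lit 272) (nat_lit 131)) (XT.lf (nat_lit 0) (nat_lit 131830068420) (nat_lit 76) (nat_lit 40259335395) (nat_lit 152) (nat_lit 495273970035) (nat_lit 2) (nat_lit 5) (nat_lit 3) (nat_lit 5) (nat_lit 4) (nat_lit 4) (nat_lit 318)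 (nat_lit 272) (nat_lit 130))))) (XT.nd (nat_lit 234) (nat_lit 0) (nat_lit 0) (XT.nd (nat_lit 78) (nat_lit 0) (nat_lit 0) (XT.lf (nat_lit 0) (nat_lit 215335108714) (nat_lit 152) (nat_lit 495554716556) (nat_lit 0) (nat_lit 5968264262) (nat_lit 2) (nat_lit 5) (nat_lit 4) (nat_lit 4) (nat_lit 2) (nat_lit 4) (nat_lit 319) (nat_lit 272) (nat_lit 129)) (XT.nd (nat_lit 78) (nat_lit 0) (nat_lit 0) (XT.lf (nat_lit 0) (nat_lit 263086046041) (nat_lit 152) (nat_lit 453423746881) (nat_lit 0) (nat_lit 53718943966) (nat_lit 2) (nat_lit 5) (nat_lit 4) (nat_lit 4) (nat_lit 2) (nat_lit 4) (nat_lit 320) (nat_lit 272) (nat_lit 128)) (XT.lf (nat_lit 0) (nat_lit 314656946329) (nat_lit 152) (nat_lit 407922493415) (nat_lit 0) (nat_lit 105289605715) (nat_lit 2) (nat_lit 5) (nat_lit 4) (nat_lit 4) (nat_lit 2) (nat_lit 4) (nat_lit 321) (nat_lit 272) (nat_lit 127)))) (XT.nd (nat_lit 78) (nat_lit 0) (nat_lit 0)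 (XT.lf (nat_lit 0) (nat_lit 370353414913) (nat_lit 152) (nat_lit 358781319102) (nat_lit 0) (nat_lit 160985853429) (nat_lit 2) (nat_lit 5) (nat_lit 4) (nat_lit 4) (nat_lit 2) (nat_lit 4) (nat_lit 322) (nat_lit 272) (nat_lit 126)) (XT.nd (nat_lit 78) (nat_lit 0) (nat_lit 0) (XT.lf (nat_lit 0) (nat_lit 430505504941) (nat_lit 152) (nat_lit 305709016982) (nat_lit 0) (nat_lit 221137738947) (nat_lit 2) (nat_lit 5) (nat_lit 4) (nat_lit 4) (nat_lit 2) (nat_lit 4) (nat_lit 323) (nat_lit 272) (nat_lit 125)) (XT.lf (nat_lit 0) (nat_lit 495469673241) (nat_lit 152) (nat_lit 248391084524) (nat_lit 0) (nat_lit 286101717887) (nat_lit 2) (nat_lit 5) (nat_lit 4) (nat_lit 4) (nat_lit 2) (nat_lit 4) (nat_lit 324) (nat_lit 272) (nat_lit 124)))))) (XT.nd (nat_lit 33696) (nat_lit 0) (nat_lit 1748) (XT.nd (nat_lit 33462) (nat_lit 0) (nat_lit 2204) (XT.nd (nat_lit 78) (nat_lit 0) (nat_lit 0) (XT.lf (nat_lit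 0) (nat_lit 565630892664) (nat_lit 152) (nat_lit 186487859907) (nat_lit 0) (nat_lit 356262761976) (nat_lit 2) (nat_lit 5) (nat_lit 4) (nat_lit 4) (nat_lit 2) (nat_lit 4) (nat_lit 325) (nat_lit 272) (nat_lit 123)) (XT.lf (nat_lit 0) (nat_lit 641404933399) (nat_lit 152) (nat_lit 119632509206) (nat_lit 0) (nat_lit 432036640365) (nat_lit 2) (nat_lit 5) (nat_lit 4) (nat_lit 4) (nat_lit 2) (nat_lit 4) (nat_lit 326) (nat_lit 272) (nat_lit 122))) (XT.nd (nat_lit 78) (nat_lit 0) (nat_lit 0) (XT.lf (nat_lit 0) (nat_lit 12645070084) (nat_lit 0) (nat_lit 12645070084) (nat_lit 380) (nat_lit 899793369) (nat_lit 31) (nat_lit 5) (nat_lit 31) (nat_lit 3) (nat_lit 36) (nat_lit 3) (nat_lit 273) (nat_lit 273) (nat_lit 174)) (XT.nd (nat_lit 78) (nat_lit 0) (nat_lit 0) (XT.lf (nat_lit 0) (nat_lit 47400799401) (nat_lit 0) (nat_lit 5222392272) (nat_lit 380) (nat_lit 1850092365) (nat_lit 31) (nat_lit 5) (nat_lit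 31) (nat_lit 3) (nat_lit 36) (nat_lit 3) (nat_lit 274) (nat_lit 273) (nat_lit 173)) (XT.lf (nat_lit 76) (nat_lit 14894385936) (nat_lit 0) (nat_lit 40687054606) (nat_lit 456) (nat_lit 1092601627) (nat_lit 32) (nat_lit 5) (nat_lit 31) (nat_lit 5) (nat_lit 37) (nat_lit 5) (nat_lit 275) (nat_lit 273) (nat_lit 172))))) (XT.nd (nat_lit 234) (nat_lit 0) (nat_lit 76) (XT.nd (nat_lit 78) (nat_lit 0) (nat_lit 76) (XT.lf (nat_lit 0) (nat_lit 71367929) (nat_lit 456) (nat_lit 20149907771) (nat_lit 532) (nat_lit 38803558923) (nat_lit 25) (nat_lit 5) (nat_lit 31) (nat_lit 5) (nat_lit 32) (nat_lit 5) (nat_lit 276) (nat_lit 273) (nat_lit 171)) (XT.nd (nat_lit 78) (nat_lit 0) (nat_lit 0) (XT.lf (nat_lit 0) (nat_lit 1396292556) (nat_lit 456) (nat_lit 58255084203) (nat_lit 532) (nat_lit 1899910084) (nat_lit 26) (nat_lit 5) (nat_lit 32) (nat_lit 5) (nat_lit 33) (nat_lit 5) (nat_lit 277) (nat_lit 273)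 (nat_lit 170)) (XT.lf (nat_lit 0) (nat_lit 3916042071) (nat_lit 456) (nat_lit 35012682522) (nat_lit 532) (nat_lit 25264039007) (nat_lit 26) (nat_lit 5) (nat_lit 32) (nat_lit 5) (nat_lit 33) (nat_lit 5) (nat_lit 278) (nat_lit 273) (nat_lit 169)))) (XT.nd (nat_lit 78) (nat_lit 0) (nat_lit 76) (XT.lf (nat_lit 0) (nat_lit 6635851926) (nat_lit 456) (nat_lit 9912100830) (nat_lit 532) (nat_lit 50497741047) (nat_lit 26) (nat_lit 5) (nat_lit 32) (nat_lit 5) (nat_lit 33) (nat_lit 5) (nat_lit 279) (nat_lit 273) (nat_lit 168)) (XT.nd (nat_lit 78) (nat_lit 0) (nat_lit 0) (XT.lf (nat_lit 0) (nat_lit 10201820347) (nat_lit 456) (nat_lit 52185927070) (nat_lit 76) (nat_lit 7688837820) (nat_lit 27) (nat_lit 5) (nat_lit 33) (nat_lit 5) (nat_lit 28) (nat_lit 5) (nat_lit 280) (nat_lit 273) (nat_lit 167)) (XT.lf (nat_lit 0) (nat_lit 14759613452) (nat_lit 456) (nat_lit 25284992966) (nat_lit 76) (nat_lit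 33248829565) (nat_lit 27) (nat_lit 5) (nat_lit 33) (nat_lit 5) (nat_lit 28) (nat_lit 5) (nat_lit 281) (nat_lit 273) (nat_lit 166))))))))
noncomputable def xc105 : XT := (XT.nd (nat_lit 1716) (nat_lit 304) (nat_lit 0) (XT.nd (nat_lit 858) (nat_lit 608) (nat_lit 0) (XT.nd (nat_lit 390) (nat_lit 380) (nat_lit 0) (XT.nd (nat_lit 156) (nat_lit 228) (nat_lit 0) (XT.nd (nat_lit 78) (nat_lit 0) (nat_lit 0) (XT.lf (nat_lit 0) (nat_lit 3965246045) (nat_lit 380) (nat_lit 15810922778) (nat_lit 456) (nat_lit 56983945764) (nat_lit 22) (nat_lit 5) (nat_lit 27) (nat_lit 5) (nat_lit 28) (nat_lit 5) (nat_lit 282) (nat_lit 273) (nat_lit 165)) (XT.lf (nat_lit 0) (nat_lit 26151375581) (nat_lit 456) (nat_lit 43723689895) (nat_lit 76) (nat_lit 10552485941) (nat_lit 22) (nat_lit 5) (nat_lit 28) (nat_lit 5) (nat_lit 23) (nat_lit 5) (nat_lit 283) (nat_lit 273) (nat_lit 164))) (XT.nd (nat_lit 78) (nat_lit 228)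 (nat_lit 0) (XT.lf (nat_lit 0) (nat_lit 33446198490) (nat_lit 456) (nat_lit 12738604553) (nat_lit 76) (nat_lit 38170821530) (nat_lit 22) (nat_lit 5) (nat_lit 28) (nat_lit 5) (nat_lit 23) (nat_lit 5) (nat_lit 284) (nat_lit 273) (nat_lit 163)) (XT.nd (nat_lit 78) (nat_lit 0) (nat_lit 0) (XT.lf (nat_lit 0) (nat_lit 21815558463) (nat_lit 228) (nat_lit 20032719297) (nat_lit 304) (nat_lit 46707780834) (nat_lit 19) (nat_lit 5) (nat_lit 22) (nat_lit 5) (nat_lit 23) (nat_lit 5) (nat_lit 285) (nat_lit 273) (nat_lit 162)) (XT.lf (nat_lit 0) (nat_lit 51476407386) (nat_lit 304) (nat_lit 33413775324) (nat_lit 76) (nat_lit 8158041921) (nat_lit 19) (nat_lit 5) (nat_lit 23) (nat_lit 5) (nat_lit 20) (nat_lit 5) (nat_lit 286) (nat_lit 273) (nat_lit 161))))) (XT.nd (nat_lit 234) (nat_lit 228) (nat_lit 0) (XT.nd (nat_lit 78) (nat_lit 0) (nat_lit 0) (XT.lf (nat_lit 0) (nat_lit 2166107388) (nat_lit 152)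 (nat_lit 60280229203) (nat_lit 228) (nat_lit 35407710842) (nat_lit 17) (nat_lit 5) (nat_lit 19) (nat_lit 5) (nat_lit 20) (nat_lit 5) (nat_lit 287) (nat_lit 273) (nat_lit 160)) (XT.nd (nat_lit 78) (nat_lit 0) (nat_lit 0) (XT.lf (nat_lit 0) (nat_lit 42491670053) (nat_lit 152) (nat_lit 32714947103) (nat_lit 228) (nat_lit 27764705213) (nat_lit 17) (nat_lit 5) (nat_lit 19) (nat_lit 5) (nat_lit 20) (nat_lit 5) (nat_lit 288) (nat_lit 273) (nat_lit 159)) (XT.lf (nat_lit 0) (nat_lit 86042368774) (nat_lit 152) (nat_lit 2944578422) (nat_lit 228) (nat_lit 19511100303) (nat_lit 17) (nat_lit 5) (nat_lit 19) (nat_lit 5) (nat_lit 20) (nat_lit 5) (nat_lit 289) (nat_lit 273) (nat_lit 158)))) (XT.nd (nat_lit 78) (nat_lit 76) (nat_lit 0) (XT.lf (nat_lit 0) (nat_lit 18849815996) (nat_lit 152) (nat_lit 86174946577) (nat_lit 228) (nat_lit 9349749243) (nat_lit 15) (nat_lit 5) (nat_lit 17) (nat_lit 5) (nat_lit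 18) (nat_lit 5) (nat_lit 290) (nat_lit 273) (nat_lit 157)) (XT.nd (nat_lit 78) (nat_lit 0) (nat_lit 0) (XT.lf (nat_lit 0) (nat_lit 2248943770) (nat_lit 228) (nat_lit 56067571269) (nat_lit 76) (nat_lit 62345001853) (nat_lit 14) (nat_lit 5) (nat_lit 17) (nat_lit 5) (nat_lit 15) (nat_lit 5) (nat_lit 291) (nat_lit 273) (nat_lit 156)) (XT.lf (nat_lit 0) (nat_lit 14269745826) (nat_lit 228) (nat_lit 13697580474) (nat_lit 76) (nat_lit 99464785268) (nat_lit 14) (nat_lit 5) (nat_lit 17) (nat_lit 5) (nat_lit 15) (nat_lit 5) (nat_lit 292) (nat_lit 273) (nat_lit 155)))))) (XT.nd (nat_lit 390) (nat_lit 304) (nat_lit 0) (XT.nd (nat_lit 156) (nat_lit 152) (nat_lit 0) (XT.nd (nat_lit 78) (nat_lit 0) (nat_lit 0) (XT.lf (nat_lit 0) (nat_lit 28200033965) (nat_lit 228) (nat_lit 101066719896) (nat_lit 76) (nat_lit 5401778533) (nat_lit 12) (nat_lit 5) (nat_lit 15) (nat_lit 5) (nat_lit 13) (nat_lit 5) (nat_lit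 293) (nat_lit 273) (nat_lit 154)) (XT.lf (nat_lit 0) (nat_lit 44354826646) (nat_lit 228) (nat_lit 57726722835) (nat_lit 76) (nat_lit 40313514895) (nat_lit 12) (nat_lit 5) (nat_lit 15) (nat_lit 5) (nat_lit 13) (nat_lit 5) (nat_lit 294) (nat_lit 273) (nat_lit 153))) (XT.nd (nat_lit 78) (nat_lit 152) (nat_lit 0) (XT.lf (nat_lit 0) (nat_lit 61801459790) (nat_lit 228) (nat_lit 10920281507) (nat_lit 76) (nat_lit 78018024768) (nat_lit 12) (nat_lit 5) (nat_lit 15) (nat_lit 5) (nat_lit 13) (nat_lit 5) (nat_lit 295) (nat_lit 273) (nat_lit 152)) (XT.nd (nat_lit 78) (nat_lit 0) (nat_lit 0) (XT.lf (nat_lit 0) (nat_lit 41716819876) (nat_lit 152) (nat_lit 39929791498) (nat_lit 228) (nat_lit 78025212928) (nat_lit 10) (nat_lit 5) (nat_lit 12) (nat_lit 5) (nat_lit 13) (nat_lit 5) (nat_lit 296) (nat_lit 273) (nat_lit 151)) (XT.lf (nat_lit 0) (nat_lit 99185253632) (nat_lit 152) (nat_lit 4192219413) (nat_lit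 228) (nat_lit 65917129499) (nat_lit 10) (nat_lit 5) (nat_lit 12) (nat_lit 5) (nat_lit 13) (nat_lit 5) (nat_lit 297) (nat_lit 273) (nat_lit 150))))) (XT.nd (nat_lit 234) (nat_lit 228) (nat_lit 0) (XT.nd (nat_lit 78) (nat_lit 76) (nat_lit 0) (XT.lf (nat_lit 0) (nat_lit 127673778652) (nat_lit 228) (nat_lit 19264132115) (nat_lit 76) (nat_lit 32683137227) (nat_lit 10) (nat_lit 5) (nat_lit 13) (nat_lit 5) (nat_lit 11) (nat_lit 4) (nat_lit 298) (nat_lit 273) (nat_lit 149)) (XT.nd (nat_lit 78) (nat_lit 0) (nat_lit 0) (XT.lf (nat_lit 0) (nat_lit 37410628131) (nat_lit 76) (nat_lit 117511358631) (nat_lit 152) (nat_lit 35770969200) (nat_lit 9) (nat_lit 5) (nat_lit 10) (nat_lit 5) (nat_lit 11) (nat_lit 4) (nat_lit 299) (nat_lit 273) (nat_lit 148)) (XT.lf (nat_lit 0) (nat_lit 99714336848) (nat_lit 76) (nat_lit 85162029382) (nat_lit 152) (nat_lit 17732147687) (nat_lit 9) (nat_lit 5) (nat_lit 10)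 (nat_lit 5) (nat_lit 11) (nat_lit 4) (nat_lit 300) (nat_lit 273) (nat_lit 147)))) (XT.nd (nat_lit 78) (nat_lit 152) (nat_lit 0) (XT.lf (nat_lit 0) (nat_lit 1661865512) (nat_lit 152) (nat_lit 48517634941) (nat_lit 76) (nat_lit 165294482281) (nat_lit 8) (nat_lit 5) (nat_lit 10) (nat_lit 5) (nat_lit 9) (nat_lit 5) (nat_lit 301) (nat_lit 273) (nat_lit 146)) (XT.nd (nat_lit 78) (nat_lit 0) (nat_lit 0) (XT.lf (nat_lit 0) (nat_lit 10261227861) (nat_lit 152) (nat_lit 11634603527) (nat_lit 228) (nat_lit 207416299398) (nat_lit 6) (nat_lit 5) (nat_lit 8) (nat_lit 5) (nat_lit 9) (nat_lit 5) (nat_lit 302) (nat_lit 273) (nat_lit 145)) (XT.lf (nat_lit 0) (nat_lit 45830537120) (nat_lit 228) (nat_lit 168405921988) (nat_lit 76) (nat_lit 29854311626) (nat_lit 6) (nat_lit 5) (nat_lit 9) (nat_lit 5) (nat_lit 7) (nat_lit 4) (nat_lit 303) (nat_lit 273) (nat_lit 144))))))) (XT.nd (nat_lit 858) (nat_lit 76)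 (nat_lit 0) (XT.nd (nat_lit 390) (nat_lit 152) (nat_lit 0) (XT.nd (nat_lit 156) (nat_lit 76) (nat_lit 0) (XT.nd (nat_lit 78) (nat_lit 0) (nat_lit 0) (XT.lf (nat_lit 0) (nat_lit 71981897126) (nat_lit 228) (nat_lit 114012046383) (nat_lit 76) (nat_lit 74033609861) (nat_lit 6) (nat_lit 5) (nat_lit 9) (nat_lit 5) (nat_lit 7) (nat_lit 4) (nat_lit 304) (nat_lit 273) (nat_lit 143)) (XT.lf (nat_lit 0) (nat_lit 100225069937) (nat_lit 228) (nat_lit 55267129538) (nat_lit 76) (nat_lit 121747104414) (nat_lit 6) (nat_lit 5) (nat_lit 9) (nat_lit 5) (nat_lit 7) (nat_lit 4) (nat_lit 305) (nat_lit 273) (nat_lit 142))) (XT.nd (nat_lit 78) (nat_lit 0) (nat_lit 0) (XT.lf (nat_lit 0) (nat_lit 8607530087) (nat_lit 76) (nat_lit 122326903719) (nat_lit 152) (nat_lit 164877023139) (nat_lit 5) (nat_lit 5) (nat_lit 6) (nat_lit 5) (nat_lit 7) (nat_lit 4) (nat_lit 306) (nat_lit 273) (nat_lit 141)) (XT.nd (nat_lit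 78) (nat_lit 0) (nat_lit 0) (XT.lf (nat_lit 0) (nat_lit 80734830018) (nat_lit 76) (nat_lit 84876554086) (nat_lit 152) (nat_lit 150137132522) (nat_lit 5) (nat_lit 5) (nat_lit 6) (nat_lit 5) (nat_lit 7) (nat_lit 4) (nat_lit 307) (nat_lit 273) (nat_lit 140)) (XT.lf (nat_lit 0) (nat_lit 158631922192) (nat_lit 76) (nat_lit 44430323840) (nat_lit 152) (nat_lit 134218315863) (nat_lit 5) (nat_lit 5) (nat_lit 6) (nat_lit 5) (nat_lit 7) (nat_lit 4) (nat_lit 308) (nat_lit 273) (nat_lit 139))))) (XT.nd (nat_lit 234) (nat_lit 76) (nat_lit 0) (XT.nd (nat_lit 78) (nat_lit 76) (nat_lit 0) (XT.lf (nat_lit 0) (nat_lit 242760419006) (nat_lit 76) (nat_lit 748531619) (nat_lit 152) (nat_lit 117026239436) (nat_lit 5) (nat_lit 5) (nat_lit 6) (nat_lit 5) (nat_lit 7) (nat_lit 4) (nat_lit 309) (nat_lit 273) (nat_lit 138)) (XT.nd (nat_lit 78) (nat_lit 76) (nat_lit 0) (XT.lf (nat_lit 0) (nat_lit 288307768820)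 (nat_lit 152) (nat_lit 53147933389) (nat_lit 0) (nat_lit 44105177174) (nat_lit 5) (nat_lit 5) (nat_lit 7) (nat_lit 4) (nat_lit 5) (nat_lit 4) (nat_lit 310) (nat_lit 273) (nat_lit 137)) (XT.lf (nat_lit 0) (nat_lit 17504952851) (nat_lit 76) (nat_lit 319625779716) (nat_lit 76) (nat_lit 75422673080) (nat_lit 4) (nat_lit 4) (nat_lit 5) (nat_lit 5) (nat_lit 5) (nat_lit 4) (nat_lit 311) (nat_lit 273) (nat_lit 136)))) (XT.nd (nat_lit 78) (nat_lit 76) (nat_lit 0) (XT.lf (nat_lit 0) (nat_lit 96832323580) (nat_lit 76) (nat_lit 294480178666) (nat_lit 76) (nat_lit 50276595189) (nat_lit 4) (nat_lit 4) (nat_lit 5) (nat_lit 5) (nat_lit 5) (nat_lit 4) (nat_lit 312) (nat_lit 273) (nat_lit 135)) (XT.nd (nat_lit 78) (nat_lit 76) (nat_lit 0) (XT.lf (nat_lit 0) (nat_lit 182505590934) (nat_lit 76) (nat_lit 267323046776) (nat_lit 76) (nat_lit 23119021779) (nat_lit 4) (nat_lit 4) (nat_lit 5) (nat_lit 5) (nat_lit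 5) (nat_lit 4) (nat_lit 313) (nat_lit 273) (nat_lit 134)) (XT.lf (nat_lit 0) (nat_lit 5900282497) (nat_lit 152) (nat_lit 231931846216) (nat_lit 76) (nat_lit 268970841672) (nat_lit 3) (nat_lit 5) (nat_lit 5) (nat_lit 5) (nat_lit 4) (nat_lit 4) (nat_lit 314) (nat_lit 273) (nat_lit 133)))))) (XT.nd (nat_lit 390) (nat_lit 0) (nat_lit 0) (XT.nd (nat_lit 156) (nat_lit 76) (nat_lit 0) (XT.nd (nat_lit 78) (nat_lit 0) (nat_lit 0) (XT.lf (nat_lit 0) (nat_lit 35991948120) (nat_lit 152) (nat_lit 169341560254) (nat_lit 76) (nat_lit 337985171364) (nat_lit 3) (nat_lit 5) (nat_lit 5) (nat_lit 5) (nat_lit 4) (nat_lit 4) (nat_lit 315) (nat_lit 273) (nat_lit 132)) (XT.lf (nat_lit 0) (nat_lit 68490803172) (nat_lit 152) (nat_lit 101744292239) (nat_lit 76) (nat_lit 412520562565) (nat_lit 3) (nat_lit 5) (nat_lit 5) (nat_lit 5) (nat_lit 4) (nat_lit 4) (nat_lit 316) (nat_lit 273) (nat_lit 131))) (XT.nd (nat_lit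 78) (nat_lit 76) (nat_lit 0) (XT.lf (nat_lit 0) (nat_lit 103589433461) (nat_lit 152) (nat_lit 28739465769) (nat_lit 76) (nat_lit 493018706481) (nat_lit 3) (nat_lit 5) (nat_lit 5) (nat_lit 5) (nat_lit 4) (nat_lit 4) (nat_lit 317) (nat_lit 273) (nat_lit 130)) (XT.nd (nat_lit 78) (nat_lit 0) (nat_lit 0) (XT.lf (nat_lit 0) (nat_lit 52744009310) (nat_lit 76) (nat_lit 90020316252) (nat_lit 152) (nat_lit 528481114534) (nat_lit 2) (nat_lit 5) (nat_lit 3) (nat_lit 5) (nat_lit 4) (nat_lit 4) (nat_lit 318) (nat_lit 273) (nat_lit 129)) (XT.lf (nat_lit 0) (nat_lit 142380400038) (nat_lit 76) (nat_lit 43478477909) (nat_lit 152) (nat_lit 534893370274) (nat_lit 2) (nat_lit 5) (nat_lit 3) (nat_lit 5) (nat_lit 4) (nat_lit 4) (nat_lit 319) (nat_lit 273) (nat_lit 128))))) (XT.nd (nat_lit 234) (nat_lit 0) (nat_lit 0) (XT.nd (nat_lit 78) (nat_lit 0) (nat_lit 0) (XT.lf (nat_lit 0) (nat_lit 232564102976)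 (nat_lit 152) (nat_lit 535195313234) (nat_lit 0) (nat_lit 6447136573) (nat_lit 2) (nat_lit 5) (nat_lit 4) (nat_lit 4) (nat_lit 2) (nat_lit 4) (nat_lit 320) (nat_lit 273) (nat_lit 127)) (XT.nd (nat_lit 78) (nat_lit 0) (nat_lit 0) (XT.lf (nat_lit 0) (nat_lit 284134953395) (nat_lit 152) (nat_lit 489694146033) (nat_lit 0) (nat_lit 58017766122) (nat_lit 2) (nat_lit 5) (nat_lit 4) (nat_lit 4) (nat_lit 2) (nat_lit 4) (nat_lit 321) (nat_lit 273) (nat_lit 126)) (XT.lf (nat_lit 0) (nat_lit 339831375805) (nat_lit 152) (nat_lit 440553051594) (nat_lit 0) (nat_lit 113713984023) (nat_lit 2) (nat_lit 5) (nat_lit 4) (nat_lit 4) (nat_lit 2) (nat_lit 4) (nat_lit 322) (nat_lit 273) (nat_lit 125)))) (XT.nd (nat_lit 78) (nat_lit 0) (nat_lit 0) (XT.lf (nat_lit 0) (nat_lit 399983423078) (nat_lit 152) (nat_lit 387480823432) (nat_lit 0) (nat_lit 173865841935) (nat_lit 2) (nat_lit 5) (nat_lit 4) (nat_lit 4)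 (nat_lit 2) (nat_lit 4) (nat_lit 323) (nat_lit 273) (nat_lit 124)) (XT.nd (nat_lit 78) (nat_lit 0) (nat_lit 0) (XT.lf (nat_lit 0) (nat_lit 464947551791) (nat_lit 152) (nat_lit 330162959453) (nat_lit 0) (nat_lit 238829795315) (nat_lit 2) (nat_lit 5) (nat_lit 4) (nat_lit 4) (nat_lit 2) (nat_lit 4) (nat_lit 324) (nat_lit 273) (nat_lit 123)) (XT.lf (nat_lit 0) (nat_lit 535108734559) (nat_lit 152) (nat_lit 268259798242) (nat_lit 0) (nat_lit 308990815737) (nat_lit 2) (nat_lit 5) (nat_lit 4) (nat_lit 4) (nat_lit 2) (nat_lit 4) (nat_lit 325) (nat_lit 273) (nat_lit 122))))))))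
noncomputable def xc106 : XT := (XT.nd (nat_lit 35100) (nat_lit 0) (nat_lit 76) (XT.nd (nat_lit 34242) (nat_lit 0) (nat_lit 760) (XT.nd (nat_lit 33774) (nat_lit 0) (nat_lit 1520) (XT.nd (nat_lit 33540) (nat_lit 0) (nat_lit 1748) (XT.nd (nat_lit 33462) (nat_lit 0) (nat_lit 2204) (XT.lf (nat_lit 0) (nat_lit 610882741354) (nat_lit 152) (nat_lit 201404506251) (nat_lit 0) (nat_lit 384764672211) (nat_lit 2) (nat_lit 5) (nat_lit 4) (nat_lit 4) (nat_lit 2) (nat_lit 4) (nat_lit 326) (nat_lit 273) (nat_lit 121)) (XT.lf (nat_lit 0) (nat_lit 13666288858) (nat_lit 0) (nat_lit 13666288858) (nat_lit 380) (nat_lit 950815538) (nat_lit 31) (nat_lit 5) (nat_lit 31) (nat_lit 3) (nat_lit 36) (nat_lit 3) (nat_lit 274) (nat_lit 274) (nat_lit 172))) (XT.nd (nat_lit 78) (nat_lit 456) (nat_lit 0) (XT.lf (nat_lit 0) (nat_lit 51210665515) (nat_lit 0) (nat_lit 5657985815) (nat_lit 380) (nat_lit 1959282532) (nat_lit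 31) (nat_lit 5) (nat_lit 31) (nat_lit 3) (nat_lit 36) (nat_lit 3) (nat_lit 275) (nat_lit 274) (nat_lit 171)) (XT.nd (nat_lit 78) (nat_lit 456) (nat_lit 0) (XT.lf (nat_lit 76) (nat_lit 16106837148) (nat_lit 0) (nat_lit 43954191830) (nat_lit 456) (nat_lit 1143953161) (nat_lit 32) (nat_lit 5) (nat_lit 31) (nat_lit 5) (nat_lit 37) (nat_lit 5) (nat_lit 276) (nat_lit 274) (nat_lit 170)) (XT.lf (nat_lit 0) (nat_lit 108793010) (nat_lit 456) (nat_lit 21740588746) (nat_lit 532) (nat_lit 41894612992) (nat_lit 25) (nat_lit 5) (nat_lit 31) (nat_lit 5) (nat_lit 32) (nat_lit 5) (nat_lit 277) (nat_lit 274) (nat_lit 169))))) (XT.nd (nat_lit 234) (nat_lit 304) (nat_lit 0) (XT.nd (nat_lit 78) (nat_lit 0) (nat_lit 0) (XT.lf (nat_lit 0) (nat_lit 1537643164) (nat_lit 456) (nat_lit 62891842892) (nat_lit 532) (nat_lit 2043264001) (nat_lit 26) (nat_lit 5) (nat_lit 32) (nat_lit 5) (nat_lit 33) (nat_lit 5)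 (nat_lit 278) (nat_lit 274) (nat_lit 168)) (XT.nd (nat_lit 78) (nat_lit 0) (nat_lit 0) (XT.lf (nat_lit 0) (nat_lit 4256776551) (nat_lit 456) (nat_lit 37791800784) (nat_lit 532) (nat_lit 27277163157) (nat_lit 26) (nat_lit 5) (nat_lit 32) (nat_lit 5) (nat_lit 33) (nat_lit 5) (nat_lit 279) (nat_lit 274) (nat_lit 167)) (XT.lf (nat_lit 0) (nat_lit 7192137778) (nat_lit 456) (nat_lit 10684794507) (nat_lit 532) (nat_lit 54530153876) (nat_lit 26) (nat_lit 5) (nat_lit 32) (nat_lit 5) (nat_lit 33) (nat_lit 5) (nat_lit 280) (nat_lit 274) (nat_lit 166)))) (XT.nd (nat_lit 78) (nat_lit 380) (nat_lit 0) (XT.lf (nat_lit 0) (nat_lit 11041873946) (nat_lit 456) (nat_lit 56338804406) (nat_lit 76) (nat_lit 8299908353) (nat_lit 27) (nat_lit 5) (nat_lit 33) (nat_lit 5) (nat_lit 28) (nat_lit 5) (nat_lit 281) (nat_lit 274) (nat_lit 165)) (XT.nd (nat_lit 78) (nat_lit 380) (nat_lit 0) (XT.lf (nat_lit 0) (nat_lit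 15962519539) (nat_lit 456) (nat_lit 27287424969) (nat_lit 76) (nat_lit 35904998436) (nat_lit 27) (nat_lit 5) (nat_lit 33) (nat_lit 5) (nat_lit 28) (nat_lit 5) (nat_lit 282) (nat_lit 274) (nat_lit 164)) (XT.lf (nat_lit 0) (nat_lit 4302317531) (nat_lit 380) (nat_lit 17076919465) (nat_lit 456) (nat_lit 61519826417) (nat_lit 22) (nat_lit 5) (nat_lit 27) (nat_lit 5) (nat_lit 28) (nat_lit 5) (nat_lit 283) (nat_lit 274) (nat_lit 163)))))) (XT.nd (nat_lit 390) (nat_lit 380) (nat_lit 0) (XT.nd (nat_lit 156) (nat_lit 380) (nat_lit 0) (XT.nd (nat_lit 78) (nat_lit 0) (nat_lit 0) (XT.lf (nat_lit 0) (nat_lit 28262881613) (nat_lit 456) (nat_lit 47201456245) (nat_lit 76) (nat_lit 11395697136) (nat_lit 22) (nat_lit 5) (nat_lit 28) (nat_lit 5) (nat_lit 23) (nat_lit 5) (nat_lit 284) (nat_lit 274) (nat_lit 162)) (XT.lf (nat_lit 0) (nat_lit 36139853614) (nat_lit 456) (nat_lit 13739055102) (nat_lit 76)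 (nat_lit 41223572734) (nat_lit 22) (nat_lit 5) (nat_lit 28) (nat_lit 5) (nat_lit 23) (nat_lit 5) (nat_lit 285) (nat_lit 274) (nat_lit 161))) (XT.nd (nat_lit 78) (nat_lit 152) (nat_lit 0) (XT.lf (nat_lit 0) (nat_lit 23578969113) (nat_lit 228) (nat_lit 21634236691) (nat_lit 304) (nat_lit 50425827444) (nat_lit 19) (nat_lit 5) (nat_lit 22) (nat_lit 5) (nat_lit 23) (nat_lit 5) (nat_lit 286) (nat_lit 274) (nat_lit 160)) (XT.nd (nat_lit 78) (nat_lit 152) (nat_lit 0) (XT.lf (nat_lit 0) (nat_lit 55610346163) (nat_lit 304) (nat_lit 36068683324) (nat_lit 76) (nat_lit 8811652974) (nat_lit 19) (nat_lit 5) (nat_lit 23) (nat_lit 5) (nat_lit 20) (nat_lit 5) (nat_lit 287) (nat_lit 274) (nat_lit 159)) (XT.lf (nat_lit 0) (nat_lit 2357129397) (nat_lit 152) (nat_lit 65099994487) (nat_lit 228) (nat_lit 38223916799) (nat_lit 17) (nat_lit 5) (nat_lit 19) (nat_lit 5) (nat_lit 20) (nat_lit 5) (nat_lit 288)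 (nat_lit 274) (nat_lit 158))))) (XT.nd (nat_lit 234) (nat_lit 228) (nat_lit 0) (XT.nd (nat_lit 78) (nat_lit 152) (nat_lit 0) (XT.lf (nat_lit 0) (nat_lit 45907423489) (nat_lit 152) (nat_lit 35329686341) (nat_lit 228) (nat_lit 29970686342) (nat_lit 17) (nat_lit 5) (nat_lit 19) (nat_lit 5) (nat_lit 20) (nat_lit 5) (nat_lit 289) (nat_lit 274) (nat_lit 157)) (XT.nd (nat_lit 78) (nat_lit 152) (nat_lit 0) (XT.lf (nat_lit 0) (nat_lit 92940961824) (nat_lit 152) (nat_lit 3177870130) (nat_lit 228) (nat_lit 21057918617) (nat_lit 17) (nat_lit 5) (nat_lit 19) (nat_lit 5) (nat_lit 20) (nat_lit 5) (nat_lit 290) (nat_lit 274) (nat_lit 156)) (XT.lf (nat_lit 0) (nat_lit 20373678454) (nat_lit 152) (nat_lit 93065468903) (nat_lit 228) (nat_lit 10084234575) (nat_lit 15) (nat_lit 5) (nat_lit 17) (nat_lit 5) (nat_lit 18) (nat_lit 5) (nat_lit 291) (nat_lit 274) (nat_lit 155)))) (XT.nd (nat_lit 78) (nat_lit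 152) (nat_lit 0) (XT.lf (nat_lit 0) (nat_lit 2440729227) (nat_lit 228) (nat_lit 60537566358) (nat_lit 76) (nat_lit 67335108591) (nat_lit 14) (nat_lit 5) (nat_lit 17) (nat_lit 5) (nat_lit 15) (nat_lit 5) (nat_lit 292) (nat_lit 274) (nat_lit 154)) (XT.nd (nat_lit 78) (nat_lit 152) (nat_lit 0) (XT.lf (nat_lit 0) (nat_lit 15422316192) (nat_lit 228) (nat_lit 14779117826) (nat_lit 76) (nat_lit 107424289006) (nat_lit 14) (nat_lit 5) (nat_lit 17) (nat_lit 5) (nat_lit 15) (nat_lit 5) (nat_lit 293) (nat_lit 274) (nat_lit 153)) (XT.lf (nat_lit 0) (nat_lit 30466629434) (nat_lit 228) (nat_lit 109137318031) (nat_lit 76) (nat_lit 5837147680) (nat_lit 12) (nat_lit 5) (nat_lit 15) (nat_lit 5) (nat_lit 13) (nat_lit 5) (nat_lit 294) (nat_lit 274) (nat_lit 152))))))) (XT.nd (nat_lit 858) (nat_lit 228) (nat_lit 0) (XT.nd (nat_lit 390) (nat_lit 304) (nat_lit 0) (XT.nd (nat_lit 156) (nat_lit 152) (nat_lit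 0) (XT.nd (nat_lit 78) (nat_lit 0) (nat_lit 0) (XT.lf (nat_lit 0) (nat_lit 47913020880) (nat_lit 228) (nat_lit 62331213018) (nat_lit 76) (nat_lit 43541583924) (nat_lit 12) (nat_lit 5) (nat_lit 15) (nat_lit 5) (nat_lit 13) (nat_lit 5) (nat_lit 295) (nat_lit 274) (nat_lit 151)) (XT.lf (nat_lit 0) (nat_lit 66754658150) (nat_lit 228) (nat_lit 11781267320) (nat_lit 76) (nat_lit 84262233265) (nat_lit 12) (nat_lit 5) (nat_lit 15) (nat_lit 5) (nat_lit 13) (nat_lit 5) (nat_lit 296) (nat_lit 274) (nat_lit 150))) (XT.nd (nat_lit 78) (nat_lit 0) (nat_lit 0) (XT.lf (nat_lit 0) (nat_lit 45066482257) (nat_lit 152) (nat_lit 43120563114) (nat_lit 228) (nat_lit 84257770979) (nat_lit 10) (nat_lit 5) (nat_lit 12) (nat_lit 5) (nat_lit 13) (nat_lit 5) (nat_lit 297) (nat_lit 274) (nat_lit 149)) (XT.nd (nat_lit 78) (nat_lit 0) (nat_lit 0) (XT.lf (nat_lit 0) (nat_lit 107131478359) (nat_lit 152) (nat_lit 4524252795)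 (nat_lit 228) (nat_lit 71181741542) (nat_lit 10) (nat_lit 5) (nat_lit 12) (nat_lit 5) (nat_lit 13) (nat_lit 5) (nat_lit 298) (nat_lit 274) (nat_lit 148)) (XT.lf (nat_lit 0) (nat_lit 137895218622) (nat_lit 228) (nat_lit 20794131146) (nat_lit 76) (nat_lit 35300729762) (nat_lit 10) (nat_lit 5) (nat_lit 13) (nat_lit 5) (nat_lit 11) (nat_lit 4) (nat_lit 299) (nat_lit 274) (nat_lit 147))))) (XT.nd (nat_lit 234) (nat_lit 152) (nat_lit 0) (XT.nd (nat_lit 78) (nat_lit 76) (nat_lit 0) (XT.lf (nat_lit 0) (nat_lit 40414328108) (nat_lit 76) (nat_lit 126908657862) (nat_lit 152) (nat_lit 38624781610) (nat_lit 9) (nat_lit 5) (nat_lit 10) (nat_lit 5) (nat_lit 11) (nat_lit 4) (nat_lit 300) (nat_lit 274) (nat_lit 146)) (XT.nd (nat_lit 78) (nat_lit 76) (nat_lit 0) (XT.lf (nat_lit 0) (nat_lit 107701529840) (nat_lit 76) (nat_lit 91971649641) (nat_lit 152) (nat_lit 19143436978) (nat_lit 9) (nat_lit 5) (nat_lit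 10) (nat_lit 5) (nat_lit 11) (nat_lit 4) (nat_lit 301) (nat_lit 274) (nat_lit 145)) (XT.lf (nat_lit 0) (nat_lit 1801220515) (nat_lit 152) (nat_lit 52389370300) (nat_lit 76) (nat_lit 178520761848) (nat_lit 8) (nat_lit 5) (nat_lit 10) (nat_lit 5) (nat_lit 9) (nat_lit 5) (nat_lit 302) (nat_lit 274) (nat_lit 144)))) (XT.nd (nat_lit 78) (nat_lit 0) (nat_lit 0) (XT.lf (nat_lit 0) (nat_lit 11091556579) (nat_lit 152) (nat_lit 12562099385) (nat_lit 228) (nat_lit 224002919095) (nat_lit 6) (nat_lit 5) (nat_lit 8) (nat_lit 5) (nat_lit 9) (nat_lit 5) (nat_lit 303) (nat_lit 274) (nat_lit 143)) (XT.nd (nat_lit 78) (nat_lit 0) (nat_lit 0) (XT.lf (nat_lit 0) (nat_lit 49502754873) (nat_lit 228) (nat_lit 181869249472) (nat_lit 76) (nat_lit 32245535004) (nat_lit 6) (nat_lit 5) (nat_lit 9) (nat_lit 5) (nat_lit 7) (nat_lit 4) (nat_lit 304) (nat_lit 274) (nat_lit 142)) (XT.lf (nat_lit 0) (nat_lit 77745795919)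 (nat_lit 228) (nat_lit 123124541321) (nat_lit 76) (nat_lit 79958963879) (nat_lit 6) (nat_lit 5) (nat_lit 9) (nat_lit 5) (nat_lit 7) (nat_lit 4) (nat_lit 305) (nat_lit 274) (nat_lit 141)))))) (XT.nd (nat_lit 390) (nat_lit 152) (nat_lit 0) (XT.nd (nat_lit 156) (nat_lit 0) (nat_lit 0) (XT.nd (nat_lit 78) (nat_lit 76) (nat_lit 0) (XT.lf (nat_lit 0) (nat_lit 108248026478) (nat_lit 228) (nat_lit 59680658445) (nat_lit 76) (nat_lit 131489340573) (nat_lit 6) (nat_lit 5) (nat_lit 9) (nat_lit 5) (nat_lit 7) (nat_lit 4) (nat_lit 306) (nat_lit 274) (nat_lit 140)) (XT.lf (nat_lit 0) (nat_lit 9303775433) (nat_lit 76) (nat_lit 132110181101) (nat_lit 152) (nat_lit 178062010870) (nat_lit 5) (nat_lit 5) (nat_lit 6) (nat_lit 5) (nat_lit 7) (nat_lit 4) (nat_lit 307) (nat_lit 274) (nat_lit 139))) (XT.nd (nat_lit 78) (nat_lit 0) (nat_lit 0) (XT.lf (nat_lit 0) (nat_lit 87200693215) (nat_lit 76) (nat_lit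 91664016453) (nat_lit 152) (nat_lit 162143312271) (nat_lit 5) (nat_lit 5) (nat_lit 6) (nat_lit 5) (nat_lit 7) (nat_lit 4) (nat_lit 308) (nat_lit 274) (nat_lit 138)) (XT.nd (nat_lit 78) (nat_lit 0) (nat_lit 0) (XT.lf (nat_lit 0) (nat_lit 171329028555) (nat_lit 76) (nat_lit 47982284970) (nat_lit 152) (nat_lit 144951345158) (nat_lit 5) (nat_lit 5) (nat_lit 6) (nat_lit 5) (nat_lit 7) (nat_lit 4) (nat_lit 309) (nat_lit 274) (nat_lit 137)) (XT.lf (nat_lit 0) (nat_lit 262187319737) (nat_lit 76) (nat_lit 806131947) (nat_lit 152) (nat_lit 126384231207) (nat_lit 5) (nat_lit 5) (nat_lit 6) (nat_lit 5) (nat_lit 7) (nat_lit 4) (nat_lit 310) (nat_lit 274) (nat_lit 136))))) (XT.nd (nat_lit 234) (nat_lit 76) (nat_lit 0) (XT.nd (nat_lit 78) (nat_lit 76) (nat_lit 0) (XT.lf (nat_lit 0) (nat_lit 311375945786) (nat_lit 152) (nat_lit 57393902599) (nat_lit 0) (nat_lit 47635598789) (nat_lit 5) (nat_lit 5)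 (nat_lit 7) (nat_lit 4) (nat_lit 5) (nat_lit 4) (nat_lit 311) (nat_lit 274) (nat_lit 135)) (XT.nd (nat_lit 78) (nat_lit 0) (nat_lit 0) (XT.lf (nat_lit 0) (nat_lit 18911066047) (nat_lit 76) (nat_lit 345193554711) (nat_lit 76) (nat_lit 81452766193) (nat_lit 4) (nat_lit 4) (nat_lit 5) (nat_lit 5) (nat_lit 5) (nat_lit 4) (nat_lit 312) (nat_lit 274) (nat_lit 134)) (XT.lf (nat_lit 0) (nat_lit 104584202956) (nat_lit 76) (nat_lit 318036475013) (nat_lit 76) (nat_lit 54295277680) (nat_lit 4) (nat_lit 4) (nat_lit 5) (nat_lit 5) (nat_lit 5) (nat_lit 4) (nat_lit 313) (nat_lit 274) (nat_lit 133)))) (XT.nd (nat_lit 78) (nat_lit 76) (nat_lit 0) (XT.lf (nat_lit 0) (nat_lit 197110939588) (nat_lit 76) (nat_lit 288706929457) (nat_lit 76) (nat_lit 24965353592) (nat_lit 4) (nat_lit 4) (nat_lit 5) (nat_lit 5) (nat_lit 5) (nat_lit 4) (nat_lit 314) (nat_lit 274) (nat_lit 132)) (XT.nd (nat_lit 78) (nat_lit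 0) (nat_lit 0) (XT.lf (nat_lit 0) (nat_lit 6375110983) (nat_lit 152) (nat_lit 250481695513) (nat_lit 76) (nat_lit 290490164716) (nat_lit 3) (nat_lit 5) (nat_lit 5) (nat_lit 5) (nat_lit 4) (nat_lit 4) (nat_lit 315) (nat_lit 274) (nat_lit 131)) (XT.lf (nat_lit 0) (nat_lit 38873902012) (nat_lit 152) (nat_lit 182884534703) (nat_lit 76) (nat_lit 365025518138) (nat_lit 3) (nat_lit 5) (nat_lit 5) (nat_lit 5) (nat_lit 4) (nat_lit 4) (nat_lit 316) (nat_lit 274) (nat_lit 130))))))))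
noncomputable def xc107 : XT := (XT.nd (nat_lit 35256) (nat_lit 0) (nat_lit 228) (XT.nd (nat_lit 34398) (nat_lit 0) (nat_lit 1292) (XT.nd (nat_lit 390) (nat_lit 0) (nat_lit 0) (XT.nd (nat_lit 156) (nat_lit 76) (nat_lit 0) (XT.nd (nat_lit 78) (nat_lit 0) (nat_lit 0) (XT.lf (nat_lit 0) (nat_lit 73972473020) (nat_lit 152) (nat_lit 109879807496) (nat_lit 76) (nat_lit 445523627075) (nat_lit 3) (nat_lit 5) (nat_lit 5) (nat_lit 5) (nat_lit 4) (nat_lit 4) (nat_lit 317) (nat_lit 274) (nat_lit 129)) (XT.lf (nat_lit 0) (nat_lit 111878815540) (nat_lit 152) (nat_lit 31034893288) (nat_lit 76) (nat_lit 532461517356) (nat_lit 3) (nat_lit 5) (nat_lit 5) (nat_lit 5) (nat_lit 4) (nat_lit 4) (nat_lit 318) (nat_lit 274) (nat_lit 128))) (XT.nd (nat_lit 78) (nat_lit 0) (nat_lit 0) (XT.lf (nat_lit 0) (nat_lit 56967165373) (nat_lit 76) (nat_lit 97220456073) (nat_lit 152) (nat_lit 570757272805) (nat_lit 2)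 (nat_lit 5) (nat_lit 3) (nat_lit 5) (nat_lit 4) (nat_lit 4) (nat_lit 319) (nat_lit 274) (nat_lit 127)) (XT.nd (nat_lit 78) (nat_lit 0) (nat_lit 0) (XT.lf (nat_lit 0) (nat_lit 153774198076) (nat_lit 76) (nat_lit 46955380698) (nat_lit 152) (nat_lit 577682681663) (nat_lit 2) (nat_lit 5) (nat_lit 3) (nat_lit 5) (nat_lit 4) (nat_lit 4) (nat_lit 320) (nat_lit 274) (nat_lit 126)) (XT.lf (nat_lit 0) (nat_lit 251171104984) (nat_lit 152) (nat_lit 578007696999) (nat_lit 0) (nat_lit 6964117350) (nat_lit 2) (nat_lit 5) (nat_lit 4) (nat_lit 4) (nat_lit 2) (nat_lit 4) (nat_lit 321) (nat_lit 274) (nat_lit 125))))) (XT.nd (nat_lit 234) (nat_lit 0) (nat_lit 0) (XT.nd (nat_lit 78) (nat_lit 0) (nat_lit 0) (XT.lf (nat_lit 0) (nat_lit 306867484639) (nat_lit 152) (nat_lit 528866676517) (nat_lit 0) (nat_lit 62660307644) (nat_lit 2) (nat_lit 5) (nat_lit 4) (nat_lit 4) (nat_lit 2) (nat_lit 4) (nat_lit 322)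 (nat_lit 274) (nat_lit 124)) (XT.nd (nat_lit 78) (nat_lit 0) (nat_lit 0) (XT.lf (nat_lit 0) (nat_lit 367019492325) (nat_lit 152) (nat_lit 475794516834) (nat_lit 0) (nat_lit 122812139996) (nat_lit 2) (nat_lit 5) (nat_lit 4) (nat_lit 4) (nat_lit 2) (nat_lit 4) (nat_lit 323) (nat_lit 274) (nat_lit 123)) (XT.lf (nat_lit 0) (nat_lit 431983584383) (nat_lit 152) (nat_lit 418476716262) (nat_lit 0) (nat_lit 187776069708) (nat_lit 2) (nat_lit 5) (nat_lit 4) (nat_lit 4) (nat_lit 2) (nat_lit 4) (nat_lit 324) (nat_lit 274) (nat_lit 122)))) (XT.nd (nat_lit 33618) (nat_lit 0) (nat_lit 2204) (XT.lf (nat_lit 0) (nat_lit 502144733211) (nat_lit 152) (nat_lit 356573613761) (nat_lit 0) (nat_lit 257937068216) (nat_lit 2) (nat_lit 5) (nat_lit 4) (nat_lit 4) (nat_lit 2) (nat_lit 4) (nat_lit 325) (nat_lit 274) (nat_lit 121)) (XT.nd (nat_lit 78) (nat_lit 0) (nat_lit 0) (XT.lf (nat_lit 0) (nat_lit 14767833708)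 (nat_lit 0) (nat_lit 14767833708) (nat_lit 380) (nat_lit 1008909846) (nat_lit 31) (nat_lit 5) (nat_lit 31) (nat_lit 3) (nat_lit 36) (nat_lit 3) (nat_lit 275) (nat_lit 275) (nat_lit 170)) (XT.lf (nat_lit 0) (nat_lit 55322781240) (nat_lit 0) (nat_lit 6125887165) (nat_lit 380) (nat_lit 2082745624) (nat_lit 31) (nat_lit 5) (nat_lit 31) (nat_lit 3) (nat_lit 36) (nat_lit 3) (nat_lit 276) (nat_lit 275) (nat_lit 169)))))) (XT.nd (nat_lit 390) (nat_lit 456) (nat_lit 0) (XT.nd (nat_lit 156) (nat_lit 0) (nat_lit 76) (XT.nd (nat_lit 78) (nat_lit 456) (nat_lit 0) (XT.lf (nat_lit 76) (nat_lit 17413302790) (nat_lit 0) (nat_lit 47480963437) (nat_lit 456) (nat_lit 1204556695) (nat_lit 32) (nat_lit 5) (nat_lit 31) (nat_lit 5) (nat_lit 37) (nat_lit 5) (nat_lit 277) (nat_lit 275) (nat_lit 168)) (XT.lf (nat_lit 0) (nat_lit 144687506) (nat_lit 456) (nat_lit 23461564543) (nat_lit 532) (nat_lit 45234838886)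 (nat_lit 25) (nat_lit 5) (nat_lit 31) (nat_lit 5) (nat_lit 32) (nat_lit 5) (nat_lit 278) (nat_lit 275) (nat_lit 167))) (XT.nd (nat_lit 78) (nat_lit 0) (nat_lit 0) (XT.lf (nat_lit 0) (nat_lit 1686072316) (nat_lit 456) (nat_lit 67902915934) (nat_lit 532) (nat_lit 2199318666) (nat_lit 26) (nat_lit 5) (nat_lit 32) (nat_lit 5) (nat_lit 33) (nat_lit 5) (nat_lit 279) (nat_lit 275) (nat_lit 166)) (XT.nd (nat_lit 78) (nat_lit 0) (nat_lit 0) (XT.lf (nat_lit 0) (nat_lit 4620853581) (nat_lit 456) (nat_lit 40796372264) (nat_lit 532) (nat_lit 29452478380) (nat_lit 26) (nat_lit 5) (nat_lit 32) (nat_lit 5) (nat_lit 33) (nat_lit 5) (nat_lit 280) (nat_lit 275) (nat_lit 165)) (XT.lf (nat_lit 0) (nat_lit 7789300380) (nat_lit 456) (nat_lit 11522196047) (nat_lit 532) (nat_lit 58886216344) (nat_lit 26) (nat_lit 5) (nat_lit 32) (nat_lit 5) (nat_lit 33) (nat_lit 5) (nat_lit 281) (nat_lit 275) (nat_lit 164)))))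 (XT.nd (nat_lit 234) (nat_lit 228) (nat_lit 0) (XT.nd (nat_lit 78) (nat_lit 380) (nat_lit 0) (XT.lf (nat_lit 0) (nat_lit 11945721094) (nat_lit 456) (nat_lit 60827050023) (nat_lit 76) (nat_lit 8960440378) (nat_lit 27) (nat_lit 5) (nat_lit 33) (nat_lit 5) (nat_lit 28) (nat_lit 5) (nat_lit 282) (nat_lit 275) (nat_lit 163)) (XT.nd (nat_lit 78) (nat_lit 380) (nat_lit 0) (XT.lf (nat_lit 0) (nat_lit 17258500020) (nat_lit 456) (nat_lit 29452957175) (nat_lit 76) (nat_lit 38774194013) (nat_lit 27) (nat_lit 5) (nat_lit 33) (nat_lit 5) (nat_lit 28) (nat_lit 5) (nat_lit 283) (nat_lit 275) (nat_lit 162)) (XT.lf (nat_lit 0) (nat_lit 4663522655) (nat_lit 380) (nat_lit 18444035699) (nat_lit 456) (nat_lit 66421835190) (nat_lit 22) (nat_lit 5) (nat_lit 27) (nat_lit 5) (nat_lit 28) (nat_lit 5) (nat_lit 284) (nat_lit 275) (nat_lit 161)))) (XT.nd (nat_lit 78) (nat_lit 228) (nat_lit 0) (XT.lf (nat_lit 0)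 (nat_lit 30540541072) (nat_lit 456) (nat_lit 50960315508) (nat_lit 76) (nat_lit 12306506130) (nat_lit 22) (nat_lit 5) (nat_lit 28) (nat_lit 5) (nat_lit 23) (nat_lit 5) (nat_lit 285) (nat_lit 275) (nat_lit 160)) (XT.nd (nat_lit 78) (nat_lit 228) (nat_lit 0) (XT.lf (nat_lit 0) (nat_lit 39046439061) (nat_lit 456) (nat_lit 14822200587) (nat_lit 76) (nat_lit 44520674500) (nat_lit 22) (nat_lit 5) (nat_lit 28) (nat_lit 5) (nat_lit 23) (nat_lit 5) (nat_lit 286) (nat_lit 275) (nat_lit 159)) (XT.lf (nat_lit 0) (nat_lit 25480861035) (nat_lit 228) (nat_lit 23364032426) (nat_lit 304) (nat_lit 54443967836) (nat_lit 19) (nat_lit 5) (nat_lit 22) (nat_lit 5) (nat_lit 23) (nat_lit 5) (nat_lit 287) (nat_lit 275) (nat_lit 158))))))) (XT.nd (nat_lit 858) (nat_lit 380) (nat_lit 0) (XT.nd (nat_lit 390) (nat_lit 380) (nat_lit 0) (XT.nd (nat_lit 156) (nat_lit 152) (nat_lit 0) (XT.nd (nat_lit 78) (nat_lit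 152) (nat_lit 0) (XT.lf (nat_lit 0) (nat_lit 60072742260) (nat_lit 304) (nat_lit 38938579545) (nat_lit 76) (nat_lit 9517414859) (nat_lit 19) (nat_lit 5) (nat_lit 23) (nat_lit 5) (nat_lit 20) (nat_lit 5) (nat_lit 288) (nat_lit 275) (nat_lit 157)) (XT.lf (nat_lit 0) (nat_lit 2560903297) (nat_lit 152) (nat_lit 70305719481) (nat_lit 228) (nat_lit 41267760432) (nat_lit 17) (nat_lit 5) (nat_lit 19) (nat_lit 5) (nat_lit 20) (nat_lit 5) (nat_lit 289) (nat_lit 275) (nat_lit 156))) (XT.nd (nat_lit 78) (nat_lit 152) (nat_lit 0) (XT.lf (nat_lit 0) (nat_lit 49594094728) (nat_lit 152) (nat_lit 38153955170) (nat_lit 228) (nat_lit 32355313740) (nat_lit 17) (nat_lit 5) (nat_lit 19) (nat_lit 5) (nat_lit 20) (nat_lit 5) (nat_lit 290) (nat_lit 275) (nat_lit 155)) (XT.nd (nat_lit 78) (nat_lit 152) (nat_lit 0) (XT.lf (nat_lit 0) (nat_lit 100389273362) (nat_lit 152) (nat_lit 3430149668) (nat_lit 228) (nat_lit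 22730489597) (nat_lit 17) (nat_lit 5) (nat_lit 19) (nat_lit 5) (nat_lit 20) (nat_lit 5) (nat_lit 291) (nat_lit 275) (nat_lit 154)) (XT.lf (nat_lit 0) (nat_lit 22017184851) (nat_lit 152) (nat_lit 100507728534) (nat_lit 228) (nat_lit 10879403890) (nat_lit 15) (nat_lit 5) (nat_lit 17) (nat_lit 5) (nat_lit 18) (nat_lit 5) (nat_lit 292) (nat_lit 275) (nat_lit 153))))) (XT.nd (nat_lit 234) (nat_lit 152) (nat_lit 0) (XT.nd (nat_lit 78) (nat_lit 152) (nat_lit 0) (XT.lf (nat_lit 0) (nat_lit 2646164140) (nat_lit 228) (nat_lit 65367359549) (nat_lit 76) (nat_lit 72724066275) (nat_lit 14) (nat_lit 5) (nat_lit 17) (nat_lit 5) (nat_lit 15) (nat_lit 5) (nat_lit 293) (nat_lit 275) (nat_lit 152)) (XT.nd (nat_lit 78) (nat_lit 152) (nat_lit 0) (XT.lf (nat_lit 0) (nat_lit 16665524241) (nat_lit 228) (nat_lit 15949213810) (nat_lit 76) (nat_lit 116020221938) (nat_lit 14) (nat_lit 5) (nat_lit 17) (nat_lit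 5) (nat_lit 15) (nat_lit 5) (nat_lit 294) (nat_lit 275) (nat_lit 151)) (XT.lf (nat_lit 0) (nat_lit 32913041365) (nat_lit 228) (nat_lit 117855666766) (nat_lit 76) (nat_lit 6306886011) (nat_lit 12) (nat_lit 5) (nat_lit 15) (nat_lit 5) (nat_lit 13) (nat_lit 5) (nat_lit 295) (nat_lit 275) (nat_lit 150)))) (XT.nd (nat_lit 78) (nat_lit 152) (nat_lit 0) (XT.lf (nat_lit 0) (nat_lit 51754471418) (nat_lit 228) (nat_lit 67306009404) (nat_lit 76) (nat_lit 47027472227) (nat_lit 12) (nat_lit 5) (nat_lit 15) (nat_lit 5) (nat_lit 13) (nat_lit 5) (nat_lit 296) (nat_lit 275) (nat_lit 149)) (XT.nd (nat_lit 78) (nat_lit 152) (nat_lit 0) (XT.lf (nat_lit 0) (nat_lit 72102816790) (nat_lit 228) (nat_lit 12712934766) (nat_lit 76) (nat_lit 91005583768) (nat_lit 12) (nat_lit 5) (nat_lit 15) (nat_lit 5) (nat_lit 13) (nat_lit 5) (nat_lit 297) (nat_lit 275) (nat_lit 148)) (XT.lf (nat_lit 0) (nat_lit 48682360501)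 (nat_lit 152) (nat_lit 46567111708) (nat_lit 228) (nat_lit 90990283104) (nat_lit 10) (nat_lit 5) (nat_lit 12) (nat_lit 5) (nat_lit 13) (nat_lit 5) (nat_lit 298) (nat_lit 275) (nat_lit 147)))))) (XT.nd (nat_lit 390) (nat_lit 228) (nat_lit 0) (XT.nd (nat_lit 156) (nat_lit 152) (nat_lit 0) (XT.nd (nat_lit 78) (nat_lit 0) (nat_lit 0) (XT.lf (nat_lit 0) (nat_lit 115711774094) (nat_lit 152) (nat_lit 4883325931) (nat_lit 228) (nat_lit 76868772020) (nat_lit 10) (nat_lit 5) (nat_lit 12) (nat_lit 5) (nat_lit 13) (nat_lit 5) (nat_lit 299) (nat_lit 275) (nat_lit 146)) (XT.lf (nat_lit 0) (nat_lit 148933298456) (nat_lit 228) (nat_lit 22448118138) (nat_lit 76) (nat_lit 38127310055) (nat_lit 10) (nat_lit 5) (nat_lit 13) (nat_lit 5) (nat_lit 11) (nat_lit 4) (nat_lit 300) (nat_lit 275) (nat_lit 145))) (XT.nd (nat_lit 78) (nat_lit 76) (nat_lit 0) (XT.lf (nat_lit 0) (nat_lit 43656776249) (nat_lit 76)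 (nat_lit 137058255962) (nat_lit 152) (nat_lit 41708021060) (nat_lit 9) (nat_lit 5) (nat_lit 10) (nat_lit 5) (nat_lit 11) (nat_lit 4) (nat_lit 301) (nat_lit 275) (nat_lit 144)) (XT.nd (nat_lit 78) (nat_lit 76) (nat_lit 0) (XT.lf (nat_lit 0) (nat_lit 116326265090) (nat_lit 76) (nat_lit 99326516307) (nat_lit 152) (nat_lit 20668668345) (nat_lit 9) (nat_lit 5) (nat_lit 10) (nat_lit 5) (nat_lit 11) (nat_lit 4) (nat_lit 302) (nat_lit 275) (nat_lit 143)) (XT.lf (nat_lit 0) (nat_lit 1950810065) (nat_lit 152) (nat_lit 56572224797) (nat_lit 76) (nat_lit 192804755602) (nat_lit 8) (nat_lit 5) (nat_lit 10) (nat_lit 5) (nat_lit 9) (nat_lit 5) (nat_lit 303) (nat_lit 275) (nat_lit 142))))) (XT.nd (nat_lit 234) (nat_lit 76) (nat_lit 0) (XT.nd (nat_lit 78) (nat_lit 0) (nat_lit 0) (XT.lf (nat_lit 0) (nat_lit 11986966230) (nat_lit 152) (nat_lit 13564261760) (nat_lit 228) (nat_lit 241917421952) (nat_lit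 6) (nat_lit 5) (nat_lit 8) (nat_lit 5) (nat_lit 9) (nat_lit 5) (nat_lit 304) (nat_lit 275) (nat_lit 141)) (XT.nd (nat_lit 78) (nat_lit 0) (nat_lit 0) (XT.lf (nat_lit 0) (nat_lit 53467926209) (nat_lit 228) (nat_lit 196410947974) (nat_lit 76) (nat_lit 34827645610) (nat_lit 6) (nat_lit 5) (nat_lit 9) (nat_lit 5) (nat_lit 7) (nat_lit 4) (nat_lit 305) (nat_lit 275) (nat_lit 140)) (XT.lf (nat_lit 0) (nat_lit 83970043802) (nat_lit 228) (nat_lit 132967244018) (nat_lit 76) (nat_lit 86357965995) (nat_lit 6) (nat_lit 5) (nat_lit 9) (nat_lit 5) (nat_lit 7) (nat_lit 4) (nat_lit 306) (nat_lit 275) (nat_lit 139)))) (XT.nd (nat_lit 78) (nat_lit 76) (nat_lit 0) (XT.lf (nat_lit 0) (nat_lit 116912113235) (nat_lit 228) (nat_lit 64448388335) (nat_lit 76) (nat_lit 142010603564) (nat_lit 6) (nat_lit 5) (nat_lit 9) (nat_lit 5) (nat_lit 7) (nat_lit 4) (nat_lit 307) (nat_lit 275) (nat_lit 138)) (XT.nd (nat_lit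 78) (nat_lit 0) (nat_lit 0) (XT.lf (nat_lit 0) (nat_lit 10054630055) (nat_lit 76) (nat_lit 142676530812) (nat_lit 152) (nat_lit 192302535765) (nat_lit 5) (nat_lit 5) (nat_lit 6) (nat_lit 5) (nat_lit 7) (nat_lit 4) (nat_lit 308) (nat_lit 275) (nat_lit 137)) (XT.lf (nat_lit 0) (nat_lit 94182815883) (nat_lit 76) (nat_lit 98994855568) (nat_lit 152) (nat_lit 175110669869) (nat_lit 5) (nat_lit 5) (nat_lit 6) (nat_lit 5) (nat_lit 7) (nat_lit 4) (nat_lit 309) (nat_lit 275) (nat_lit 136))))))))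
noncomputable def xc108 : XT := (XT.nd (nat_lit 35334) (nat_lit 0) (nat_lit 532) (XT.nd (nat_lit 858) (nat_lit 0) (nat_lit 0) (XT.nd (nat_lit 390) (nat_lit 152) (nat_lit 0) (XT.nd (nat_lit 156) (nat_lit 76) (nat_lit 0) (XT.nd (nat_lit 78) (nat_lit 0) (nat_lit 0) (XT.lf (nat_lit 0) (nat_lit 185040968628) (nat_lit 76) (nat_lit 51818754619) (nat_lit 152) (nat_lit 156543649638) (nat_lit 5) (nat_lit 5) (nat_lit 6) (nat_lit 5) (nat_lit 7) (nat_lit 4) (nat_lit 310) (nat_lit 275) (nat_lit 135)) (XT.lf (nat_lit 0) (nat_lit 283167506972) (nat_lit 76) (nat_lit 868665884) (nat_lit 152) (nat_lit 136491448284) (nat_lit 5) (nat_lit 5) (nat_lit 6) (nat_lit 5) (nat_lit 7) (nat_lit 4) (nat_lit 311) (nat_lit 275) (nat_lit 134))) (XT.nd (nat_lit 78) (nat_lit 76) (nat_lit 0) (XT.lf (nat_lit 0) (nat_lit 336289069683) (nat_lit 152) (nat_lit 61980386120) (nat_lit 0) (nat_lit 51448167749) (nat_lit 5) (nat_lit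 5) (nat_lit 7) (nat_lit 4) (nat_lit 5) (nat_lit 4) (nat_lit 312) (nat_lit 275) (nat_lit 133)) (XT.nd (nat_lit 78) (nat_lit 0) (nat_lit 0) (XT.lf (nat_lit 0) (nat_lit 20428852710) (nat_lit 76) (nat_lit 372807078026) (nat_lit 76) (nat_lit 87965797560) (nat_lit 4) (nat_lit 4) (nat_lit 5) (nat_lit 5) (nat_lit 5) (nat_lit 4) (nat_lit 313) (nat_lit 275) (nat_lit 132)) (XT.lf (nat_lit 0) (nat_lit 112955477506) (nat_lit 76) (nat_lit 343477577216) (nat_lit 76) (nat_lit 58635946256) (nat_lit 4) (nat_lit 4) (nat_lit 5) (nat_lit 5) (nat_lit 5) (nat_lit 4) (nat_lit 314) (nat_lit 275) (nat_lit 131))))) (XT.nd (nat_lit 234) (nat_lit 76) (nat_lit 0) (XT.nd (nat_lit 78) (nat_lit 76) (nat_lit 0) (XT.lf (nat_lit 0) (nat_lit 212884016897) (nat_lit 76) (nat_lit 311801802519) (nat_lit 76) (nat_lit 26959847029) (nat_lit 4) (nat_lit 4) (nat_lit 5) (nat_lit 5) (nat_lit 5) (nat_lit 4) (nat_lit 315) (nat_lit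 275) (nat_lit 130)) (XT.nd (nat_lit 78) (nat_lit 0) (nat_lit 0) (XT.lf (nat_lit 0) (nat_lit 6887525456) (nat_lit 152) (nat_lit 270516203032) (nat_lit 76) (nat_lit 313730797399) (nat_lit 3) (nat_lit 5) (nat_lit 5) (nat_lit 5) (nat_lit 4) (nat_lit 4) (nat_lit 316) (nat_lit 275) (nat_lit 129)) (XT.lf (nat_lit 0) (nat_lit 41986041575) (nat_lit 152) (nat_lit 197511567737) (nat_lit 76) (nat_lit 394228873946) (nat_lit 3) (nat_lit 5) (nat_lit 5) (nat_lit 5) (nat_lit 4) (nat_lit 4) (nat_lit 317) (nat_lit 275) (nat_lit 128)))) (XT.nd (nat_lit 78) (nat_lit 76) (nat_lit 0) (XT.lf (nat_lit 0) (nat_lit 79892333271) (nat_lit 152) (nat_lit 118666738631) (nat_lit 76) (nat_lit 481166734237) (nat_lit 3) (nat_lit 5) (nat_lit 5) (nat_lit 5) (nat_lit 4) (nat_lit 4) (nat_lit 318) (nat_lit 275) (nat_lit 127)) (XT.nd (nat_lit 78) (nat_lit 76) (nat_lit 0) (XT.lf (nat_lit 0) (nat_lit 120831030422) (nat_lit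 152) (nat_lit 33514487098) (nat_lit 76) (nat_lit 575059565594) (nat_lit 3) (nat_lit 5) (nat_lit 5) (nat_lit 5) (nat_lit 4) (nat_lit 4) (nat_lit 319) (nat_lit 275) (nat_lit 126)) (XT.lf (nat_lit 0) (nat_lit 61527655302) (nat_lit 76) (nat_lit 104996818999) (nat_lit 152) (nat_lit 616415856265) (nat_lit 2) (nat_lit 5) (nat_lit 3) (nat_lit 5) (nat_lit 4) (nat_lit 4) (nat_lit 320) (nat_lit 275) (nat_lit 125)))))) (XT.nd (nat_lit 34008) (nat_lit 0) (nat_lit 1748) (XT.nd (nat_lit 156) (nat_lit 0) (nat_lit 0) (XT.nd (nat_lit 78) (nat_lit 0) (nat_lit 0) (XT.lf (nat_lit 0) (nat_lit 166079019755) (nat_lit 76) (nat_lit 50710631932) (nat_lit 152) (nat_lit 623895445858) (nat_lit 2) (nat_lit 5) (nat_lit 3) (nat_lit 5) (nat_lit 4) (nat_lit 4) (nat_lit 321) (nat_lit 275) (nat_lit 124)) (XT.lf (nat_lit 0) (nat_lit 271266399838) (nat_lit 152) (nat_lit 624245533871) (nat_lit 0) (nat_lit 7522283989) (nat_lit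 2) (nat_lit 5) (nat_lit 4) (nat_lit 4) (nat_lit 2) (nat_lit 4) (nat_lit 322) (nat_lit 275) (nat_lit 123))) (XT.nd (nat_lit 78) (nat_lit 0) (nat_lit 0) (XT.lf (nat_lit 0) (nat_lit 331418370869) (nat_lit 152) (nat_lit 571173437595) (nat_lit 0) (nat_lit 67674092674) (nat_lit 2) (nat_lit 5) (nat_lit 4) (nat_lit 4) (nat_lit 2) (nat_lit 4) (nat_lit 323) (nat_lit 275) (nat_lit 122)) (XT.nd (nat_lit 78) (nat_lit 0) (nat_lit 0) (XT.lf (nat_lit 0) (nat_lit 396382428987) (nat_lit 152) (nat_lit 513855695733) (nat_lit 0) (nat_lit 132638000472) (nat_lit 2) (nat_lit 5) (nat_lit 4) (nat_lit 4) (nat_lit 2) (nat_lit 4) (nat_lit 324) (nat_lit 275) (nat_lit 121)) (XT.lf (nat_lit 0) (nat_lit 466543546390) (nat_lit 152) (nat_lit 451952647593) (nat_lit 0) (nat_lit 202798978689) (nat_lit 2) (nat_lit 5) (nat_lit 4) (nat_lit 4) (nat_lit 2) (nat_lit 4) (nat_lit 325) (nat_lit 275) (nat_lit 120))))) (XT.nd (nat_lit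 234) (nat_lit 456) (nat_lit 0) (XT.nd (nat_lit 78) (nat_lit 0) (nat_lit 0) (XT.lf (nat_lit 0) (nat_lit 15956326370) (nat_lit 0) (nat_lit 15956326370) (nat_lit 380) (nat_lit 1074215452) (nat_lit 31) (nat_lit 5) (nat_lit 31) (nat_lit 3) (nat_lit 36) (nat_lit 3) (nat_lit 276) (nat_lit 276) (nat_lit 168)) (XT.nd (nat_lit 78) (nat_lit 0) (nat_lit 0) (XT.lf (nat_lit 0) (nat_lit 59761688860) (nat_lit 0) (nat_lit 6629043258) (nat_lit 380) (nat_lit 2220833457) (nat_lit 31) (nat_lit 5) (nat_lit 31) (nat_lit 3) (nat_lit 36) (nat_lit 3) (nat_lit 277) (nat_lit 276) (nat_lit 167)) (XT.lf (nat_lit 76) (nat_lit 18821729384) (nat_lit 0) (nat_lit 51288387924) (nat_lit 456) (nat_lit 1274418557) (nat_lit 32) (nat_lit 5) (nat_lit 31) (nat_lit 5) (nat_lit 37) (nat_lit 5) (nat_lit 278) (nat_lit 276) (nat_lit 166)))) (XT.nd (nat_lit 78) (nat_lit 0) (nat_lit 76) (XT.lf (nat_lit 0) (nat_lit 179574454) (nat_lit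 456) (nat_lit 25322825010) (nat_lit 532) (nat_lit 48843901077) (nat_lit 25) (nat_lit 5) (nat_lit 31) (nat_lit 5) (nat_lit 32) (nat_lit 5) (nat_lit 279) (nat_lit 276) (nat_lit 165)) (XT.nd (nat_lit 78) (nat_lit 0) (nat_lit 0) (XT.lf (nat_lit 0) (nat_lit 1842749681) (nat_lit 456) (nat_lit 73317767188) (nat_lit 532) (nat_lit 2368914318) (nat_lit 26) (nat_lit 5) (nat_lit 32) (nat_lit 5) (nat_lit 33) (nat_lit 5) (nat_lit 280) (nat_lit 276) (nat_lit 164)) (XT.lf (nat_lit 0) (nat_lit 5010699256) (nat_lit 456) (nat_lit 44043987582) (nat_lit 532) (nat_lit 31802797168) (nat_lit 26) (nat_lit 5) (nat_lit 32) (nat_lit 5) (nat_lit 33) (nat_lit 5) (nat_lit 281) (nat_lit 276) (nat_lit 163))))))) (XT.nd (nat_lit 858) (nat_lit 608) (nat_lit 0) (XT.nd (nat_lit 390) (nat_lit 380) (nat_lit 0) (XT.nd (nat_lit 156) (nat_lit 304) (nat_lit 0) (XT.nd (nat_lit 78) (nat_lit 0) (nat_lit 76) (XT.lf (nat_lit 0)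 (nat_lit 8431127178) (nat_lit 456) (nat_lit 12429069449) (nat_lit 532) (nat_lit 63591669686) (nat_lit 26) (nat_lit 5) (nat_lit 32) (nat_lit 5) (nat_lit 33) (nat_lit 5) (nat_lit 282) (nat_lit 276) (nat_lit 162)) (XT.lf (nat_lit 0) (nat_lit 12918951854) (nat_lit 456) (nat_lit 65677045699) (nat_lit 76) (nat_lit 9674308666) (nat_lit 27) (nat_lit 5) (nat_lit 33) (nat_lit 5) (nat_lit 28) (nat_lit 5) (nat_lit 283) (nat_lit 276) (nat_lit 161))) (XT.nd (nat_lit 78) (nat_lit 380) (nat_lit 0) (XT.lf (nat_lit 0) (nat_lit 18655451386) (nat_lit 456) (nat_lit 31794223076) (nat_lit 76) (nat_lit 41873382365) (nat_lit 27) (nat_lit 5) (nat_lit 33) (nat_lit 5) (nat_lit 28) (nat_lit 5) (nat_lit 284) (nat_lit 276) (nat_lit 160)) (XT.nd (nat_lit 78) (nat_lit 0) (nat_lit 0) (XT.lf (nat_lit 0) (nat_lit 5051196136) (nat_lit 380) (nat_lit 19920383894) (nat_lit 456) (nat_lit 71718797592) (nat_lit 22) (nat_lit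 5) (nat_lit 27) (nat_lit 5) (nat_lit 28) (nat_lit 5) (nat_lit 285) (nat_lit 276) (nat_lit 159)) (XT.lf (nat_lit 0) (nat_lit 32998040986) (nat_lit 456) (nat_lit 55022345449) (nat_lit 76) (nat_lit 13290300645) (nat_lit 22) (nat_lit 5) (nat_lit 28) (nat_lit 5) (nat_lit 23) (nat_lit 5) (nat_lit 286) (nat_lit 276) (nat_lit 158))))) (XT.nd (nat_lit 234) (nat_lit 152) (nat_lit 0) (XT.nd (nat_lit 78) (nat_lit 228) (nat_lit 0) (XT.lf (nat_lit 0) (nat_lit 42183354768) (nat_lit 456) (nat_lit 15994277282) (nat_lit 76) (nat_lit 48081656261) (nat_lit 22) (nat_lit 5) (nat_lit 28) (nat_lit 5) (nat_lit 23) (nat_lit 5) (nat_lit 287) (nat_lit 276) (nat_lit 157)) (XT.nd (nat_lit 78) (nat_lit 0) (nat_lit 0) (XT.lf (nat_lit 0) (nat_lit 27532682450) (nat_lit 228) (nat_lit 25232346377) (nat_lit 304) (nat_lit 58785831453) (nat_lit 19) (nat_lit 5) (nat_lit 22) (nat_lit 5) (nat_lit 23) (nat_lit 5) (nat_lit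 288) (nat_lit 276) (nat_lit 156)) (XT.lf (nat_lit 0) (nat_lit 64890194361) (nat_lit 304) (nat_lit 42040292756) (nat_lit 76) (nat_lit 10279519336) (nat_lit 19) (nat_lit 5) (nat_lit 23) (nat_lit 5) (nat_lit 20) (nat_lit 5) (nat_lit 289) (nat_lit 276) (nat_lit 155)))) (XT.nd (nat_lit 78) (nat_lit 0) (nat_lit 0) (XT.lf (nat_lit 0) (nat_lit 2778810152) (nat_lit 152) (nat_lit 75928226966) (nat_lit 228) (nat_lit 44557118758) (nat_lit 17) (nat_lit 5) (nat_lit 19) (nat_lit 5) (nat_lit 20) (nat_lit 5) (nat_lit 290) (nat_lit 276) (nat_lit 154)) (XT.nd (nat_lit 78) (nat_lit 0) (nat_lit 0) (XT.lf (nat_lit 0) (nat_lit 53573691372) (nat_lit 152) (nat_lit 41204465960) (nat_lit 228) (nat_lit 34932569849) (nat_lit 17) (nat_lit 5) (nat_lit 19) (nat_lit 5) (nat_lit 20) (nat_lit 5) (nat_lit 291) (nat_lit 276) (nat_lit 153)) (XT.lf (nat_lit 0) (nat_lit 108431590293) (nat_lit 152) (nat_lit 3702889768) (nat_lit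 228) (nat_lit 24538587107) (nat_lit 17) (nat_lit 5) (nat_lit 19) (nat_lit 5) (nat_lit 20) (nat_lit 5) (nat_lit 292) (nat_lit 276) (nat_lit 152)))))) (XT.nd (nat_lit 390) (nat_lit 228) (nat_lit 0) (XT.nd (nat_lit 156) (nat_lit 152) (nat_lit 0) (XT.nd (nat_lit 78) (nat_lit 76) (nat_lit 0) (XT.lf (nat_lit 0) (nat_lit 23790229840) (nat_lit 152) (nat_lit 108545793764) (nat_lit 228) (nat_lit 11739837262) (nat_lit 15) (nat_lit 5) (nat_lit 17) (nat_lit 5) (nat_lit 18) (nat_lit 5) (nat_lit 293) (nat_lit 276) (nat_lit 151)) (XT.lf (nat_lit 0) (nat_lit 2866582043) (nat_lit 228) (nat_lit 70585421053) (nat_lit 76) (nat_lit 78543833995) (nat_lit 14) (nat_lit 5) (nat_lit 17) (nat_lit 5) (nat_lit 15) (nat_lit 5) (nat_lit 294) (nat_lit 276) (nat_lit 150))) (XT.nd (nat_lit 78) (nat_lit 152) (nat_lit 0) (XT.lf (nat_lit 0) (nat_lit 18006844673) (nat_lit 228) (nat_lit 17214662711) (nat_lit 76) (nat_lit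 125303545635) (nat_lit 14) (nat_lit 5) (nat_lit 17) (nat_lit 5) (nat_lit 15) (nat_lit 5) (nat_lit 295) (nat_lit 276) (nat_lit 149)) (XT.nd (nat_lit 78) (nat_lit 0) (nat_lit 0) (XT.lf (nat_lit 0) (nat_lit 35553870662) (nat_lit 228) (nat_lit 127273286167) (nat_lit 76) (nat_lit 6813808733) (nat_lit 12) (nat_lit 5) (nat_lit 15) (nat_lit 5) (nat_lit 13) (nat_lit 5) (nat_lit 296) (nat_lit 276) (nat_lit 148)) (XT.lf (nat_lit 0) (nat_lit 55902038379) (nat_lit 228) (nat_lit 72680458730) (nat_lit 76) (nat_lit 50791866155) (nat_lit 12) (nat_lit 5) (nat_lit 15) (nat_lit 5) (nat_lit 13) (nat_lit 5) (nat_lit 297) (nat_lit 276) (nat_lit 147))))) (XT.nd (nat_lit 234) (nat_lit 76) (nat_lit 0) (XT.nd (nat_lit 78) (nat_lit 152) (nat_lit 0) (XT.lf (nat_lit 0) (nat_lit 77877717363) (nat_lit 228) (nat_lit 13720681189) (nat_lit 76) (nat_lit 98288063942) (nat_lit 12) (nat_lit 5) (nat_lit 15) (nat_lit 5)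 (nat_lit 13) (nat_lit 5) (nat_lit 298) (nat_lit 276) (nat_lit 146)) (XT.nd (nat_lit 78) (nat_lit 0) (nat_lit 0) (XT.lf (nat_lit 0) (nat_lit 52586002551) (nat_lit 152) (nat_lit 50289825934) (nat_lit 228) (nat_lit 98262553118) (nat_lit 10) (nat_lit 5) (nat_lit 12) (nat_lit 5) (nat_lit 13) (nat_lit 5) (nat_lit 299) (nat_lit 276) (nat_lit 145)) (XT.lf (nat_lit 0) (nat_lit 124977098623) (nat_lit 152) (nat_lit 5271533940) (nat_lit 228) (nat_lit 83011836156) (nat_lit 10) (nat_lit 5) (nat_lit 12) (nat_lit 5) (nat_lit 13) (nat_lit 5) (nat_lit 300) (nat_lit 276) (nat_lit 144)))) (XT.nd (nat_lit 78) (nat_lit 76) (nat_lit 0) (XT.lf (nat_lit 0) (nat_lit 160853502751) (nat_lit 228) (nat_lit 24235785576) (nat_lit 76) (nat_lit 41179656992) (nat_lit 10) (nat_lit 5) (nat_lit 13) (nat_lit 5) (nat_lit 11) (nat_lit 4) (nat_lit 301) (nat_lit 276) (nat_lit 143)) (XT.nd (nat_lit 78) (nat_lit 0) (nat_lit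 0) (XT.lf (nat_lit 0) (nat_lit 47157293222) (nat_lit 76) (nat_lit 148020263379) (nat_lit 152) (nat_lit 45038881642) (nat_lit 9) (nat_lit 5) (nat_lit 10) (nat_lit 5) (nat_lit 11) (nat_lit 4) (nat_lit 302) (nat_lit 276) (nat_lit 142)) (XT.lf (nat_lit 0) (nat_lit 125639750439) (nat_lit 76) (nat_lit 107270181074) (nat_lit 152) (nat_lit 22316808940) (nat_lit 9) (nat_lit 5) (nat_lit 10) (nat_lit 5) (nat_lit 11) (nat_lit 4) (nat_lit 303) (nat_lit 276) (nat_lit 141))))))))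
noncomputable def xc109 : XT := (XT.nd (nat_lit 35412) (nat_lit 0) (nat_lit 760) (XT.nd (nat_lit 858) (nat_lit 152) (nat_lit 0) (XT.nd (nat_lit 390) (nat_lit 152) (nat_lit 0) (XT.nd (nat_lit 156) (nat_lit 0) (nat_lit 0) (XT.nd (nat_lit 78) (nat_lit 152) (nat_lit 0) (XT.lf (nat_lit 0) (nat_lit 2111583297) (nat_lit 152) (nat_lit 61090891046) (nat_lit 76) (nat_lit 208231136056) (nat_lit 8) (nat_lit 5) (nat_lit 10) (nat_lit 5) (nat_lit 9) (nat_lit 5) (nat_lit 304) (nat_lit 276) (nat_lit 140)) (XT.lf (nat_lit 0) (nat_lit 12952855219) (nat_lit 152) (nat_lit 14646997372) (nat_lit 228) (nat_lit 261265902581) (nat_lit 6) (nat_lit 5) (nat_lit 8) (nat_lit 5) (nat_lit 9) (nat_lit 5) (nat_lit 305) (nat_lit 276) (nat_lit 139))) (XT.nd (nat_lit 78) (nat_lit 0) (nat_lit 0) (XT.lf (nat_lit 0) (nat_lit 57749604945) (nat_lit 228) (nat_lit 212117101026) (nat_lit 76) (nat_lit 37615973004) (nat_lit 6)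 (nat_lit 5) (nat_lit 9) (nat_lit 5) (nat_lit 7) (nat_lit 4) (nat_lit 306) (nat_lit 276) (nat_lit 138)) (XT.nd (nat_lit 78) (nat_lit 0) (nat_lit 0) (XT.lf (nat_lit 0) (nat_lit 90691577527) (nat_lit 228) (nat_lit 143598398739) (nat_lit 76) (nat_lit 93268562298) (nat_lit 6) (nat_lit 5) (nat_lit 9) (nat_lit 5) (nat_lit 7) (nat_lit 4) (nat_lit 307) (nat_lit 276) (nat_lit 137)) (XT.lf (nat_lit 0) (nat_lit 126268721388) (nat_lit 228) (nat_lit 69598495698) (nat_lit 76) (nat_lit 153373265760) (nat_lit 6) (nat_lit 5) (nat_lit 9) (nat_lit 5) (nat_lit 7) (nat_lit 4) (nat_lit 308) (nat_lit 276) (nat_lit 136))))) (XT.nd (nat_lit 234) (nat_lit 76) (nat_lit 0) (XT.nd (nat_lit 78) (nat_lit 0) (nat_lit 0) (XT.lf (nat_lit 0) (nat_lit 10864618248) (nat_lit 76) (nat_lit 154088540127) (nat_lit 152) (nat_lit 207682935493) (nat_lit 5) (nat_lit 5) (nat_lit 6) (nat_lit 5) (nat_lit 7) (nat_lit 4) (nat_lit 309)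 (nat_lit 276) (nat_lit 135)) (XT.nd (nat_lit 78) (nat_lit 0) (nat_lit 0) (XT.lf (nat_lit 0) (nat_lit 101722642810) (nat_lit 76) (nat_lit 106912487394) (nat_lit 152) (nat_lit 189116002039) (nat_lit 5) (nat_lit 5) (nat_lit 6) (nat_lit 5) (nat_lit 7) (nat_lit 4) (nat_lit 310) (nat_lit 276) (nat_lit 134)) (XT.lf (nat_lit 0) (nat_lit 199849062466) (nat_lit 76) (nat_lit 55962443304) (nat_lit 152) (nat_lit 169063881035) (nat_lit 5) (nat_lit 5) (nat_lit 6) (nat_lit 5) (nat_lit 7) (nat_lit 4) (nat_lit 311) (nat_lit 276) (nat_lit 133)))) (XT.nd (nat_lit 78) (nat_lit 76) (nat_lit 0) (XT.lf (nat_lit 0) (nat_lit 305825367111) (nat_lit 76) (nat_lit 936481668) (nat_lit 152) (nat_lit 147407745097) (nat_lit 5) (nat_lit 5) (nat_lit 6) (nat_lit 5) (nat_lit 7) (nat_lit 4) (nat_lit 312) (nat_lit 276) (nat_lit 132)) (XT.nd (nat_lit 78) (nat_lit 76) (nat_lit 0) (XT.lf (nat_lit 0) (nat_lit 363194808627)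 (nat_lit 152) (nat_lit 66934505720) (nat_lit 0) (nat_lit 55565496698) (nat_lit 5) (nat_lit 5) (nat_lit 7) (nat_lit 4) (nat_lit 5) (nat_lit 4) (nat_lit 313) (nat_lit 276) (nat_lit 131)) (XT.lf (nat_lit 0) (nat_lit 22067363069) (nat_lit 76) (nat_lit 402629962974) (nat_lit 76) (nat_lit 95000326514) (nat_lit 4) (nat_lit 4) (nat_lit 5) (nat_lit 5) (nat_lit 5) (nat_lit 4) (nat_lit 314) (nat_lit 276) (nat_lit 130)))))) (XT.nd (nat_lit 390) (nat_lit 76) (nat_lit 0) (XT.nd (nat_lit 156) (nat_lit 76) (nat_lit 0) (XT.nd (nat_lit 78) (nat_lit 0) (nat_lit 0) (XT.lf (nat_lit 0) (nat_lit 121995806579) (nat_lit 76) (nat_lit 370954226639) (nat_lit 76) (nat_lit 63324289688) (nat_lit 4) (nat_lit 4) (nat_lit 5) (nat_lit 5) (nat_lit 5) (nat_lit 4) (nat_lit 315) (nat_lit 276) (nat_lit 129)) (XT.lf (nat_lit 0) (nat_lit 229918340909) (nat_lit 76) (nat_lit 336744505282) (nat_lit 76) (nat_lit 29114290098)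 (nat_lit 4) (nat_lit 4) (nat_lit 5) (nat_lit 5) (nat_lit 5) (nat_lit 4) (nat_lit 316) (nat_lit 276) (nat_lit 128))) (XT.nd (nat_lit 78) (nat_lit 0) (nat_lit 0) (XT.lf (nat_lit 0) (nat_lit 7440589902) (nat_lit 152) (nat_lit 292154045810) (nat_lit 76) (nat_lit 338830478187) (nat_lit 3) (nat_lit 5) (nat_lit 5) (nat_lit 5) (nat_lit 4) (nat_lit 4) (nat_lit 317) (nat_lit 276) (nat_lit 127)) (XT.nd (nat_lit 78) (nat_lit 0) (nat_lit 0) (XT.lf (nat_lit 0) (nat_lit 45346834539) (nat_lit 152) (nat_lit 213309295503) (nat_lit 76) (nat_lit 425768310710) (nat_lit 3) (nat_lit 5) (nat_lit 5) (nat_lit 5) (nat_lit 4) (nat_lit 4) (nat_lit 318) (nat_lit 276) (nat_lit 126)) (XT.lf (nat_lit 0) (nat_lit 86285488117) (nat_lit 152) (nat_lit 128157116932) (nat_lit 76) (nat_lit 519661116355) (nat_lit 3) (nat_lit 5) (nat_lit 5) (nat_lit 5) (nat_lit 4) (nat_lit 4) (nat_lit 319) (nat_lit 276) (nat_lit 125)))))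 (XT.nd (nat_lit 234) (nat_lit 0) (nat_lit 0) (XT.nd (nat_lit 78) (nat_lit 76) (nat_lit 0) (XT.lf (nat_lit 0) (nat_lit 130499150062) (nat_lit 152) (nat_lit 36192904594) (nat_lit 76) (nat_lit 621065296932) (nat_lit 3) (nat_lit 5) (nat_lit 5) (nat_lit 5) (nat_lit 4) (nat_lit 4) (nat_lit 320) (nat_lit 276) (nat_lit 124)) (XT.nd (nat_lit 78) (nat_lit 0) (nat_lit 0) (XT.lf (nat_lit 0) (nat_lit 66452539794) (nat_lit 76) (nat_lit 113395472648) (nat_lit 152) (nat_lit 665727411491) (nat_lit 2) (nat_lit 5) (nat_lit 3) (nat_lit 5) (nat_lit 4) (nat_lit 4) (nat_lit 321) (nat_lit 276) (nat_lit 123)) (XT.lf (nat_lit 0) (nat_lit 179367815472) (nat_lit 76) (nat_lit 54766471494) (nat_lit 152) (nat_lit 673805495161) (nat_lit 2) (nat_lit 5) (nat_lit 3) (nat_lit 5) (nat_lit 4) (nat_lit 4) (nat_lit 322) (nat_lit 276) (nat_lit 122)))) (XT.nd (nat_lit 78) (nat_lit 0) (nat_lit 0) (XT.lf (nat_lit 0) (nat_lit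 292969089102) (nat_lit 152) (nat_lit 674182794133) (nat_lit 0) (nat_lit 8124955985) (nat_lit 2) (nat_lit 5) (nat_lit 4) (nat_lit 4) (nat_lit 2) (nat_lit 4) (nat_lit 323) (nat_lit 276) (nat_lit 121)) (XT.nd (nat_lit 78) (nat_lit 0) (nat_lit 0) (XT.lf (nat_lit 0) (nat_lit 357933115794) (nat_lit 152) (nat_lit 616865106632) (nat_lit 0) (nat_lit 73088843492) (nat_lit 2) (nat_lit 5) (nat_lit 4) (nat_lit 4) (nat_lit 2) (nat_lit 4) (nat_lit 324) (nat_lit 276) (nat_lit 120)) (XT.lf (nat_lit 0) (nat_lit 428094204099) (nat_lit 152) (nat_lit 554962108826) (nat_lit 0) (nat_lit 143249802921) (nat_lit 2) (nat_lit 5) (nat_lit 4) (nat_lit 4) (nat_lit 2) (nat_lit 4) (nat_lit 325) (nat_lit 276) (nat_lit 119))))))) (XT.nd (nat_lit 858) (nat_lit 760) (nat_lit 0) (XT.nd (nat_lit 390) (nat_lit 228) (nat_lit 0) (XT.nd (nat_lit 156) (nat_lit 456) (nat_lit 0) (XT.nd (nat_lit 78) (nat_lit 0) (nat_lit 0) (XT.lf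 (nat_lit 0) (nat_lit 17238890405) (nat_lit 0) (nat_lit 17238890405) (nat_lit 380) (nat_lit 1146943514) (nat_lit 31) (nat_lit 5) (nat_lit 31) (nat_lit 3) (nat_lit 36) (nat_lit 3) (nat_lit 277) (nat_lit 277) (nat_lit 166)) (XT.lf (nat_lit 0) (nat_lit 64553842350) (nat_lit 0) (nat_lit 7170585100) (nat_lit 380) (nat_lit 2374038699) (nat_lit 31) (nat_lit 5) (nat_lit 31) (nat_lit 3) (nat_lit 36) (nat_lit 3) (nat_lit 278) (nat_lit 277) (nat_lit 165))) (XT.nd (nat_lit 78) (nat_lit 456) (nat_lit 0) (XT.lf (nat_lit 76) (nat_lit 20340638492) (nat_lit 0) (nat_lit 55399129921) (nat_lit 456) (nat_lit 1353650270) (nat_lit 32) (nat_lit 5) (nat_lit 31) (nat_lit 5) (nat_lit 37) (nat_lit 5) (nat_lit 279) (nat_lit 277) (nat_lit 164)) (XT.nd (nat_lit 78) (nat_lit 0) (nat_lit 76) (XT.lf (nat_lit 0) (nat_lit 213926648) (nat_lit 456) (nat_lit 27335221058) (nat_lit 532) (nat_lit 52743075613) (nat_lit 25)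 (nat_lit 5) (nat_lit 31) (nat_lit 5) (nat_lit 32) (nat_lit 5) (nat_lit 280) (nat_lit 277) (nat_lit 163)) (XT.lf (nat_lit 0) (nat_lit 2008852422) (nat_lit 456) (nat_lit 79168286282) (nat_lit 532) (nat_lit 2552983498) (nat_lit 26) (nat_lit 5) (nat_lit 32) (nat_lit 5) (nat_lit 33) (nat_lit 5) (nat_lit 281) (nat_lit 277) (nat_lit 162))))) (XT.nd (nat_lit 234) (nat_lit 304) (nat_lit 0) (XT.nd (nat_lit 78) (nat_lit 0) (nat_lit 0) (XT.lf (nat_lit 0) (nat_lit 5428854054) (nat_lit 456) (nat_lit 47553708180) (nat_lit 532) (nat_lit 34341980233) (nat_lit 26) (nat_lit 5) (nat_lit 32) (nat_lit 5) (nat_lit 33) (nat_lit 5) (nat_lit 282) (nat_lit 277) (nat_lit 161)) (XT.nd (nat_lit 78) (nat_lit 0) (nat_lit 76) (XT.lf (nat_lit 0) (nat_lit 9121634814) (nat_lit 456) (nat_lit 13410618701) (nat_lit 532) (nat_lit 68674335938) (nat_lit 26) (nat_lit 5) (nat_lit 32) (nat_lit 5) (nat_lit 33) (nat_lit 5) (nat_lit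 283) (nat_lit 277) (nat_lit 160)) (XT.lf (nat_lit 0) (nat_lit 13967534080) (nat_lit 456) (nat_lit 70917347622) (nat_lit 76) (nat_lit 10445709684) (nat_lit 27) (nat_lit 5) (nat_lit 33) (nat_lit 5) (nat_lit 28) (nat_lit 5) (nat_lit 284) (nat_lit 277) (nat_lit 159)))) (XT.nd (nat_lit 78) (nat_lit 380) (nat_lit 0) (XT.lf (nat_lit 0) (nat_lit 20161837568) (nat_lit 456) (nat_lit 34324925984) (nat_lit 76) (nat_lit 45220897699) (nat_lit 27) (nat_lit 5) (nat_lit 33) (nat_lit 5) (nat_lit 28) (nat_lit 5) (nat_lit 285) (nat_lit 277) (nat_lit 158)) (XT.nd (nat_lit 78) (nat_lit 0) (nat_lit 0) (XT.lf (nat_lit 0) (nat_lit 5467801830) (nat_lit 380) (nat_lit 21514722201) (nat_lit 456) (nat_lit 77441911471) (nat_lit 22) (nat_lit 5) (nat_lit 27) (nat_lit 5) (nat_lit 28) (nat_lit 5) (nat_lit 286) (nat_lit 277) (nat_lit 157)) (XT.lf (nat_lit 0) (nat_lit 35650107025) (nat_lit 456) (nat_lit 59411448501)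 (nat_lit 76) (nat_lit 14352902291) (nat_lit 22) (nat_lit 5) (nat_lit 28) (nat_lit 5) (nat_lit 23) (nat_lit 5) (nat_lit 287) (nat_lit 277) (nat_lit 156)))))) (XT.nd (nat_lit 390) (nat_lit 380) (nat_lit 0) (XT.nd (nat_lit 156) (nat_lit 152) (nat_lit 0) (XT.nd (nat_lit 78) (nat_lit 228) (nat_lit 0) (XT.lf (nat_lit 0) (nat_lit 45569340520) (nat_lit 456) (nat_lit 17262074480) (nat_lit 76) (nat_lit 51927612460) (nat_lit 22) (nat_lit 5) (nat_lit 28) (nat_lit 5) (nat_lit 23) (nat_lit 5) (nat_lit 288) (nat_lit 277) (nat_lit 155)) (XT.lf (nat_lit 0) (nat_lit 29746744690) (nat_lit 228) (nat_lit 27250240806) (nat_lit 304) (nat_lit 63476992028) (nat_lit 19) (nat_lit 5) (nat_lit 22) (nat_lit 5) (nat_lit 23) (nat_lit 5) (nat_lit 289) (nat_lit 277) (nat_lit 154))) (XT.nd (nat_lit 78) (nat_lit 152) (nat_lit 0) (XT.lf (nat_lit 0) (nat_lit 70091383092) (nat_lit 304) (nat_lit 45392050853) (nat_lit 76)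 (nat_lit 11102490698) (nat_lit 19) (nat_lit 5) (nat_lit 23) (nat_lit 5) (nat_lit 20) (nat_lit 5) (nat_lit 290) (nat_lit 277) (nat_lit 153)) (XT.nd (nat_lit 78) (nat_lit 0) (nat_lit 0) (XT.lf (nat_lit 0) (nat_lit 3012290026) (nat_lit 152) (nat_lit 82000813250) (nat_lit 228) (nat_lit 48111346601) (nat_lit 17) (nat_lit 5) (nat_lit 19) (nat_lit 5) (nat_lit 20) (nat_lit 5) (nat_lit 291) (nat_lit 277) (nat_lit 152)) (XT.lf (nat_lit 0) (nat_lit 57869933961) (nat_lit 152) (nat_lit 44499275206) (nat_lit 228) (nat_lit 37717599828) (nat_lit 17) (nat_lit 5) (nat_lit 19) (nat_lit 5) (nat_lit 20) (nat_lit 5) (nat_lit 292) (nat_lit 277) (nat_lit 151))))) (XT.nd (nat_lit 234) (nat_lit 152) (nat_lit 0) (XT.nd (nat_lit 78) (nat_lit 228) (nat_lit 0) (XT.lf (nat_lit 0) (nat_lit 117115698330) (nat_lit 152) (nat_lit 3997687588) (nat_lit 228) (nat_lit 26492807771) (nat_lit 17) (nat_lit 5) (nat_lit 19) (nat_lit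 5) (nat_lit 20) (nat_lit 5) (nat_lit 293) (nat_lit 277) (nat_lit 150)) (XT.nd (nat_lit 78) (nat_lit 76) (nat_lit 0) (XT.lf (nat_lit 0) (nat_lit 25703453542) (nat_lit 152) (nat_lit 117227268434) (nat_lit 228) (nat_lit 12670520351) (nat_lit 15) (nat_lit 5) (nat_lit 17) (nat_lit 5) (nat_lit 18) (nat_lit 5) (nat_lit 294) (nat_lit 277) (nat_lit 149)) (XT.lf (nat_lit 0) (nat_lit 3103388693) (nat_lit 228) (nat_lit 76222543437) (nat_lit 76) (nat_lit 84828920291) (nat_lit 14) (nat_lit 5) (nat_lit 17) (nat_lit 5) (nat_lit 15) (nat_lit 5) (nat_lit 295) (nat_lit 277) (nat_lit 148)))) (XT.nd (nat_lit 78) (nat_lit 152) (nat_lit 0) (XT.lf (nat_lit 0) (nat_lit 19454318253) (nat_lit 228) (nat_lit 18582843783) (nat_lit 76) (nat_lit 135329291857) (nat_lit 14) (nat_lit 5) (nat_lit 17) (nat_lit 5) (nat_lit 15) (nat_lit 5) (nat_lit 296) (nat_lit 277) (nat_lit 147)) (XT.nd (nat_lit 78) (nat_lit 0) (nat_lit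 0) (XT.lf (nat_lit 0) (nat_lit 38404855545) (nat_lit 228) (nat_lit 137445860703) (nat_lit 76) (nat_lit 7360946904) (nat_lit 12) (nat_lit 5) (nat_lit 15) (nat_lit 5) (nat_lit 13) (nat_lit 5) (nat_lit 297) (nat_lit 277) (nat_lit 146)) (XT.lf (nat_lit 0) (nat_lit 60380382218) (nat_lit 228) (nat_lit 78486295098) (nat_lit 76) (nat_lit 54857098292) (nat_lit 12) (nat_lit 5) (nat_lit 15) (nat_lit 5) (nat_lit 13) (nat_lit 5) (nat_lit 298) (nat_lit 277) (nat_lit 145))))))))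
noncomputable def xc110 : XT := (XT.nd (nat_lit 1716) (nat_lit 76) (nat_lit 0) (XT.nd (nat_lit 858) (nat_lit 228) (nat_lit 0) (XT.nd (nat_lit 390) (nat_lit 228) (nat_lit 0) (XT.nd (nat_lit 156) (nat_lit 76) (nat_lit 0) (XT.nd (nat_lit 78) (nat_lit 152) (nat_lit 0) (XT.lf (nat_lit 0) (nat_lit 84113657686) (nat_lit 228) (nat_lit 14810372415) (nat_lit 76) (nat_lit 106152852432) (nat_lit 12) (nat_lit 5) (nat_lit 15) (nat_lit 5) (nat_lit 13) (nat_lit 5) (nat_lit 299) (nat_lit 277) (nat_lit 144)) (XT.lf (nat_lit 0) (nat_lit 56800644422) (nat_lit 152) (nat_lit 54310736022) (nat_lit 228) (nat_lit 106117596603) (nat_lit 10) (nat_lit 5) (nat_lit 12) (nat_lit 5) (nat_lit 13) (nat_lit 5) (nat_lit 300) (nat_lit 277) (nat_lit 143))) (XT.nd (nat_lit 78) (nat_lit 76) (nat_lit 0) (XT.lf (nat_lit 0) (nat_lit 134982453242) (nat_lit 152) (nat_lit 5691149260) (nat_lit 228) (nat_lit 89647263823) (nat_lit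 10) (nat_lit 5) (nat_lit 12) (nat_lit 5) (nat_lit 13) (nat_lit 5) (nat_lit 301) (nat_lit 277) (nat_lit 142)) (XT.nd (nat_lit 78) (nat_lit 76) (nat_lit 0) (XT.lf (nat_lit 0) (nat_lit 173726532987) (nat_lit 228) (nat_lit 26167633665) (nat_lit 76) (nat_lit 44475883231) (nat_lit 10) (nat_lit 5) (nat_lit 13) (nat_lit 5) (nat_lit 11) (nat_lit 4) (nat_lit 302) (nat_lit 277) (nat_lit 141)) (XT.lf (nat_lit 0) (nat_lit 50936713849) (nat_lit 76) (nat_lit 159859609877) (nat_lit 152) (nat_lit 48637035810) (nat_lit 9) (nat_lit 5) (nat_lit 10) (nat_lit 5) (nat_lit 11) (nat_lit 4) (nat_lit 303) (nat_lit 277) (nat_lit 140))))) (XT.nd (nat_lit 234) (nat_lit 0) (nat_lit 0) (XT.nd (nat_lit 78) (nat_lit 228) (nat_lit 0) (XT.lf (nat_lit 0) (nat_lit 135697261186) (nat_lit 76) (nat_lit 115849689475) (nat_lit 152) (nat_lit 24097564429) (nat_lit 9) (nat_lit 5) (nat_lit 10) (nat_lit 5) (nat_lit 11) (nat_lit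 4) (nat_lit 304) (nat_lit 277) (nat_lit 139)) (XT.nd (nat_lit 78) (nat_lit 152) (nat_lit 0) (XT.lf (nat_lit 0) (nat_lit 2284546677) (nat_lit 152) (nat_lit 65972065163) (nat_lit 76) (nat_lit 224891341622) (nat_lit 8) (nat_lit 5) (nat_lit 10) (nat_lit 5) (nat_lit 9) (nat_lit 5) (nat_lit 305) (nat_lit 277) (nat_lit 138)) (XT.lf (nat_lit 0) (nat_lit 13995026444) (nat_lit 152) (nat_lit 15816694979) (nat_lit 228) (nat_lit 282162962573) (nat_lit 6) (nat_lit 5) (nat_lit 8) (nat_lit 5) (nat_lit 9) (nat_lit 5) (nat_lit 306) (nat_lit 277) (nat_lit 137)))) (XT.nd (nat_lit 78) (nat_lit 0) (nat_lit 0) (XT.lf (nat_lit 0) (nat_lit 62373212434) (nat_lit 228) (nat_lit 229080705404) (nat_lit 76) (nat_lit 40627064755) (nat_lit 6) (nat_lit 5) (nat_lit 9) (nat_lit 5) (nat_lit 7) (nat_lit 4) (nat_lit 307) (nat_lit 277) (nat_lit 136)) (XT.nd (nat_lit 78) (nat_lit 0) (nat_lit 0) (XT.lf (nat_lit 0) (nat_lit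 97950273260) (nat_lit 228) (nat_lit 155080933875) (nat_lit 76) (nat_lit 100731726829) (nat_lit 6) (nat_lit 5) (nat_lit 9) (nat_lit 5) (nat_lit 7) (nat_lit 4) (nat_lit 308) (nat_lit 277) (nat_lit 135)) (XT.lf (nat_lit 0) (nat_lit 136373339035) (nat_lit 228) (nat_lit 75161433906) (nat_lit 76) (nat_lit 165644682157) (nat_lit 6) (nat_lit 5) (nat_lit 9) (nat_lit 5) (nat_lit 7) (nat_lit 4) (nat_lit 309) (nat_lit 277) (nat_lit 134)))))) (XT.nd (nat_lit 390) (nat_lit 152) (nat_lit 0) (XT.nd (nat_lit 156) (nat_lit 0) (nat_lit 0) (XT.nd (nat_lit 78) (nat_lit 0) (nat_lit 0) (XT.lf (nat_lit 0) (nat_lit 11738604055) (nat_lit 76) (nat_lit 166413811653) (nat_lit 152) (nat_lit 224294309759) (nat_lit 5) (nat_lit 5) (nat_lit 6) (nat_lit 5) (nat_lit 7) (nat_lit 4) (nat_lit 310) (nat_lit 277) (nat_lit 133)) (XT.lf (nat_lit 0) (nat_lit 109864913816) (nat_lit 76) (nat_lit 115463808900) (nat_lit 152) (nat_lit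 204242263152) (nat_lit 5) (nat_lit 5) (nat_lit 6) (nat_lit 5) (nat_lit 7) (nat_lit 4) (nat_lit 311) (nat_lit 277) (nat_lit 132))) (XT.nd (nat_lit 78) (nat_lit 0) (nat_lit 0) (XT.lf (nat_lit 0) (nat_lit 215841116705) (nat_lit 76) (nat_lit 60437885540) (nat_lit 152) (nat_lit 182586196101) (nat_lit 5) (nat_lit 5) (nat_lit 6) (nat_lit 5) (nat_lit 7) (nat_lit 4) (nat_lit 312) (nat_lit 277) (nat_lit 131)) (XT.nd (nat_lit 78) (nat_lit 0) (nat_lit 0) (XT.lf (nat_lit 0) (nat_lit 330295219852) (nat_lit 76) (nat_lit 1009962028) (nat_lit 152) (nat_lit 159197776357) (nat_lit 5) (nat_lit 5) (nat_lit 6) (nat_lit 5) (nat_lit 7) (nat_lit 4) (nat_lit 313) (nat_lit 277) (nat_lit 130)) (XT.lf (nat_lit 0) (nat_lit 392252633861) (nat_lit 152) (nat_lit 72285569943) (nat_lit 0) (nat_lit 60012001462) (nat_lit 5) (nat_lit 5) (nat_lit 7) (nat_lit 4) (nat_lit 5) (nat_lit 4) (nat_lit 314) (nat_lit 277) (nat_lit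 129))))) (XT.nd (nat_lit 234) (nat_lit 76) (nat_lit 0) (XT.nd (nat_lit 78) (nat_lit 0) (nat_lit 0) (XT.lf (nat_lit 0) (nat_lit 23836354775) (nat_lit 76) (nat_lit 434838918573) (nat_lit 76) (nat_lit 102598007942) (nat_lit 4) (nat_lit 4) (nat_lit 5) (nat_lit 5) (nat_lit 5) (nat_lit 4) (nat_lit 315) (nat_lit 277) (nat_lit 128)) (XT.nd (nat_lit 78) (nat_lit 0) (nat_lit 0) (XT.lf (nat_lit 0) (nat_lit 131758806902) (nat_lit 76) (nat_lit 400629230105) (nat_lit 76) (nat_lit 68388061851) (nat_lit 4) (nat_lit 4) (nat_lit 5) (nat_lit 5) (nat_lit 5) (nat_lit 4) (nat_lit 316) (nat_lit 277) (nat_lit 127)) (XT.lf (nat_lit 0) (nat_lit 248314896882) (nat_lit 76) (nat_lit 363682829903) (nat_lit 76) (nat_lit 31441423109) (nat_lit 4) (nat_lit 4) (nat_lit 5) (nat_lit 5) (nat_lit 5) (nat_lit 4) (nat_lit 317) (nat_lit 277) (nat_lit 126)))) (XT.nd (nat_lit 78) (nat_lit 0) (nat_lit 0) (XT.lf (nat_lit 0) (nat_lit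 8037605278) (nat_lit 152) (nat_lit 315523408685) (nat_lit 76) (nat_lit 365937959821) (nat_lit 3) (nat_lit 5) (nat_lit 5) (nat_lit 5) (nat_lit 4) (nat_lit 4) (nat_lit 318) (nat_lit 277) (nat_lit 125)) (XT.nd (nat_lit 78) (nat_lit 0) (nat_lit 0) (XT.lf (nat_lit 0) (nat_lit 48976218510) (nat_lit 152) (nat_lit 230371297671) (nat_lit 76) (nat_lit 459830741658) (nat_lit 3) (nat_lit 5) (nat_lit 5) (nat_lit 5) (nat_lit 4) (nat_lit 4) (nat_lit 319) (nat_lit 277) (nat_lit 124)) (XT.lf (nat_lit 0) (nat_lit 93189843099) (nat_lit 152) (nat_lit 138407147887) (nat_lit 76) (nat_lit 561234900192) (nat_lit 3) (nat_lit 5) (nat_lit 5) (nat_lit 5) (nat_lit 4) (nat_lit 4) (nat_lit 320) (nat_lit 277) (nat_lit 123))))))) (XT.nd (nat_lit 34710) (nat_lit 0) (nat_lit 988) (XT.nd (nat_lit 34242) (nat_lit 0) (nat_lit 1748) (XT.nd (nat_lit 156) (nat_lit 0) (nat_lit 0) (XT.nd (nat_lit 78) (nat_lit 76) (nat_lit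 0) (XT.lf (nat_lit 0) (nat_lit 140940485709) (nat_lit 152) (nat_lit 39085986592) (nat_lit 76) (nat_lit 670751348954) (nat_lit 3) (nat_lit 5) (nat_lit 5) (nat_lit 5) (nat_lit 4) (nat_lit 4) (nat_lit 321) (nat_lit 277) (nat_lit 122)) (XT.lf (nat_lit 0) (nat_lit 71771033845) (nat_lit 76) (nat_lit 122466174355) (nat_lit 152) (nat_lit 718984135553) (nat_lit 2) (nat_lit 5) (nat_lit 3) (nat_lit 5) (nat_lit 4) (nat_lit 4) (nat_lit 322) (nat_lit 277) (nat_lit 121))) (XT.nd (nat_lit 78) (nat_lit 0) (nat_lit 0) (XT.lf (nat_lit 0) (nat_lit 193719361884) (nat_lit 76) (nat_lit 59146922451) (nat_lit 152) (nat_lit 727708574721) (nat_lit 2) (nat_lit 5) (nat_lit 3) (nat_lit 5) (nat_lit 4) (nat_lit 4) (nat_lit 323) (nat_lit 277) (nat_lit 120)) (XT.nd (nat_lit 33930) (nat_lit 0) (nat_lit 2204) (XT.lf (nat_lit 0) (nat_lit 316407797022) (nat_lit 152) (nat_lit 728115375098) (nat_lit 0) (nat_lit 8775714875)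 (nat_lit 2) (nat_lit 5) (nat_lit 4) (nat_lit 4) (nat_lit 2) (nat_lit 4) (nat_lit 324) (nat_lit 277) (nat_lit 119)) (XT.lf (nat_lit 0) (nat_lit 18623195333) (nat_lit 0) (nat_lit 18623195333) (nat_lit 380) (nat_lit 1227374257) (nat_lit 31) (nat_lit 5) (nat_lit 31) (nat_lit 3) (nat_lit 36) (nat_lit 3) (nat_lit 278) (nat_lit 278) (nat_lit 164))))) (XT.nd (nat_lit 234) (nat_lit 0) (nat_lit 76) (XT.nd (nat_lit 78) (nat_lit 456) (nat_lit 0) (XT.lf (nat_lit 0) (nat_lit 69727767692) (nat_lit 0) (nat_lit 7753849863) (nat_lit 380) (nat_lit 2542990058) (nat_lit 31) (nat_lit 5) (nat_lit 31) (nat_lit 3) (nat_lit 36) (nat_lit 3) (nat_lit 279) (nat_lit 278) (nat_lit 163)) (XT.nd (nat_lit 78) (nat_lit 456) (nat_lit 0) (XT.lf (nat_lit 76) (nat_lit 21979181373) (nat_lit 0) (nat_lit 59837636929) (nat_lit 456) (nat_lit 1442462035) (nat_lit 32) (nat_lit 5) (nat_lit 31) (nat_lit 5) (nat_lit 37) (nat_lit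 5) (nat_lit 280) (nat_lit 278) (nat_lit 162)) (XT.lf (nat_lit 0) (nat_lit 248175757) (nat_lit 456) (nat_lit 29510524723) (nat_lit 532) (nat_lit 56955373556) (nat_lit 25) (nat_lit 5) (nat_lit 31) (nat_lit 5) (nat_lit 32) (nat_lit 5) (nat_lit 281) (nat_lit 278) (nat_lit 161)))) (XT.nd (nat_lit 78) (nat_lit 0) (nat_lit 0) (XT.lf (nat_lit 0) (nat_lit 2185578078) (nat_lit 456) (nat_lit 85488972880) (nat_lit 532) (nat_lit 2752554855) (nat_lit 26) (nat_lit 5) (nat_lit 32) (nat_lit 5) (nat_lit 33) (nat_lit 5) (nat_lit 282) (nat_lit 278) (nat_lit 160)) (XT.nd (nat_lit 78) (nat_lit 0) (nat_lit 0) (XT.lf (nat_lit 0) (nat_lit 5877993362) (nat_lit 456) (nat_lit 51346174923) (nat_lit 532) (nat_lit 37085017056) (nat_lit 26) (nat_lit 5) (nat_lit 32) (nat_lit 5) (nat_lit 33) (nat_lit 5) (nat_lit 283) (nat_lit 278) (nat_lit 159)) (XT.lf (nat_lit 0) (nat_lit 9865097990) (nat_lit 456) (nat_lit 14472514576)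 (nat_lit 532) (nat_lit 74164281336) (nat_lit 26) (nat_lit 5) (nat_lit 32) (nat_lit 5) (nat_lit 33) (nat_lit 5) (nat_lit 284) (nat_lit 278) (nat_lit 158)))))) (XT.nd (nat_lit 390) (nat_lit 532) (nat_lit 0) (XT.nd (nat_lit 156) (nat_lit 380) (nat_lit 0) (XT.nd (nat_lit 78) (nat_lit 0) (nat_lit 0) (XT.lf (nat_lit 0) (nat_lit 15097853539) (nat_lit 456) (nat_lit 76578851229) (nat_lit 76) (nat_lit 11279185667) (nat_lit 27) (nat_lit 5) (nat_lit 33) (nat_lit 5) (nat_lit 28) (nat_lit 5) (nat_lit 285) (nat_lit 278) (nat_lit 157)) (XT.lf (nat_lit 0) (nat_lit 21786744512) (nat_lit 456) (nat_lit 37059916172) (nat_lit 76) (nat_lit 48836550263) (nat_lit 27) (nat_lit 5) (nat_lit 33) (nat_lit 5) (nat_lit 28) (nat_lit 5) (nat_lit 286) (nat_lit 278) (nat_lit 156))) (XT.nd (nat_lit 78) (nat_lit 0) (nat_lit 0) (XT.lf (nat_lit 0) (nat_lit 5915951288) (nat_lit 380) (nat_lit 23236506627) (nat_lit 456) (nat_lit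 83624927343) (nat_lit 22) (nat_lit 5) (nat_lit 27) (nat_lit 5) (nat_lit 28) (nat_lit 5) (nat_lit 287) (nat_lit 278) (nat_lit 155)) (XT.nd (nat_lit 78) (nat_lit 0) (nat_lit 0) (XT.lf (nat_lit 0) (nat_lit 38512594634) (nat_lit 456) (nat_lit 64153489395) (nat_lit 76) (nat_lit 15500600861) (nat_lit 22) (nat_lit 5) (nat_lit 28) (nat_lit 5) (nat_lit 23) (nat_lit 5) (nat_lit 288) (nat_lit 278) (nat_lit 154)) (XT.lf (nat_lit 0) (nat_lit 49224590583) (nat_lit 456) (nat_lit 18632971006) (nat_lit 76) (nat_lit 56081327370) (nat_lit 22) (nat_lit 5) (nat_lit 28) (nat_lit 5) (nat_lit 23) (nat_lit 5) (nat_lit 289) (nat_lit 278) (nat_lit 153))))) (XT.nd (nat_lit 234) (nat_lit 152) (nat_lit 0) (XT.nd (nat_lit 78) (nat_lit 152) (nat_lit 0) (XT.lf (nat_lit 0) (nat_lit 32136298775) (nat_lit 228) (nat_lit 29429665694) (nat_lit 304) (nat_lit 68545115432) (nat_lit 19) (nat_lit 5) (nat_lit 22) (nat_lit 5)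 (nat_lit 23) (nat_lit 5) (nat_lit 290) (nat_lit 278) (nat_lit 152)) (XT.nd (nat_lit 78) (nat_lit 152) (nat_lit 0) (XT.lf (nat_lit 0) (nat_lit 75707244135) (nat_lit 304) (nat_lit 49013585255) (nat_lit 76) (nat_lit 11991212772) (nat_lit 19) (nat_lit 5) (nat_lit 23) (nat_lit 5) (nat_lit 20) (nat_lit 5) (nat_lit 291) (nat_lit 278) (nat_lit 151)) (XT.lf (nat_lit 0) (nat_lit 3262854042) (nat_lit 152) (nat_lit 88559444949) (nat_lit 228) (nat_lit 51951388025) (nat_lit 17) (nat_lit 5) (nat_lit 19) (nat_lit 5) (nat_lit 20) (nat_lit 5) (nat_lit 292) (nat_lit 278) (nat_lit 150)))) (XT.nd (nat_lit 78) (nat_lit 152) (nat_lit 0) (XT.lf (nat_lit 0) (nat_lit 62508399803) (nat_lit 152) (nat_lit 48057890036) (nat_lit 228) (nat_lit 40726798273) (nat_lit 17) (nat_lit 5) (nat_lit 19) (nat_lit 5) (nat_lit 20) (nat_lit 5) (nat_lit 293) (nat_lit 278) (nat_lit 149)) (XT.nd (nat_lit 78) (nat_lit 152) (nat_lit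 0) (XT.lf (nat_lit 0) (nat_lit 126493168200) (nat_lit 152) (nat_lit 4316273718) (nat_lit 228) (nat_lit 28604630966) (nat_lit 17) (nat_lit 5) (nat_lit 19) (nat_lit 5) (nat_lit 20) (nat_lit 5) (nat_lit 294) (nat_lit 278) (nat_lit 148)) (XT.lf (nat_lit 0) (nat_lit 27768307771) (nat_lit 152) (nat_lit 126603573338) (nat_lit 228) (nat_lit 13676871263) (nat_lit 15) (nat_lit 5) (nat_lit 17) (nat_lit 5) (nat_lit 18) (nat_lit 5) (nat_lit 295) (nat_lit 278) (nat_lit 147))))))))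
noncomputable def xc111 : XT := (XT.nd (nat_lit 1716) (nat_lit 152) (nat_lit 0) (XT.nd (nat_lit 858) (nat_lit 304) (nat_lit 0) (XT.nd (nat_lit 390) (nat_lit 304) (nat_lit 0) (XT.nd (nat_lit 156) (nat_lit 152) (nat_lit 0) (XT.nd (nat_lit 78) (nat_lit 0) (nat_lit 0) (XT.lf (nat_lit 0) (nat_lit 3358072756) (nat_lit 228) (nat_lit 82312021037) (nat_lit 76) (nat_lit 91616588146) (nat_lit 14) (nat_lit 5) (nat_lit 17) (nat_lit 5) (nat_lit 15) (nat_lit 5) (nat_lit 296) (nat_lit 278) (nat_lit 146)) (XT.lf (nat_lit 0) (nat_lit 21016601646) (nat_lit 228) (nat_lit 20061762142) (nat_lit 76) (nat_lit 146156889124) (nat_lit 14) (nat_lit 5) (nat_lit 17) (nat_lit 5) (nat_lit 15) (nat_lit 5) (nat_lit 297) (nat_lit 278) (nat_lit 145))) (XT.nd (nat_lit 78) (nat_lit 0) (nat_lit 0) (XT.lf (nat_lit 0) (nat_lit 41482966923) (nat_lit 228) (nat_lit 148433566290) (nat_lit 76) (nat_lit 7951566031) (nat_lit 12)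 (nat_lit 5) (nat_lit 15) (nat_lit 5) (nat_lit 13) (nat_lit 5) (nat_lit 298) (nat_lit 278) (nat_lit 144)) (XT.nd (nat_lit 78) (nat_lit 0) (nat_lit 0) (XT.lf (nat_lit 0) (nat_lit 65216111808) (nat_lit 228) (nat_lit 84757825308) (nat_lit 76) (nat_lit 59247280391) (nat_lit 12) (nat_lit 5) (nat_lit 15) (nat_lit 5) (nat_lit 13) (nat_lit 5) (nat_lit 299) (nat_lit 278) (nat_lit 143)) (XT.lf (nat_lit 0) (nat_lit 90847656794) (nat_lit 228) (nat_lit 15988374989) (nat_lit 76) (nat_lit 114646575289) (nat_lit 12) (nat_lit 5) (nat_lit 15) (nat_lit 5) (nat_lit 13) (nat_lit 5) (nat_lit 300) (nat_lit 278) (nat_lit 142))))) (XT.nd (nat_lit 234) (nat_lit 152) (nat_lit 0) (XT.nd (nat_lit 78) (nat_lit 0) (nat_lit 0) (XT.lf (nat_lit 0) (nat_lit 61351350355) (nat_lit 152) (nat_lit 58653643612) (nat_lit 228) (nat_lit 114601893937) (nat_lit 10) (nat_lit 5) (nat_lit 12) (nat_lit 5) (nat_lit 13) (nat_lit 5)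 (nat_lit 301) (nat_lit 278) (nat_lit 141)) (XT.nd (nat_lit 78) (nat_lit 0) (nat_lit 0) (XT.lf (nat_lit 0) (nat_lit 145787210963) (nat_lit 152) (nat_lit 6144634450) (nat_lit 228) (nat_lit 96814313083) (nat_lit 10) (nat_lit 5) (nat_lit 12) (nat_lit 5) (nat_lit 13) (nat_lit 5) (nat_lit 302) (nat_lit 278) (nat_lit 140)) (XT.lf (nat_lit 0) (nat_lit 187628727999) (nat_lit 228) (nat_lit 28255030335) (nat_lit 76) (nat_lit 48035543122) (nat_lit 10) (nat_lit 5) (nat_lit 13) (nat_lit 5) (nat_lit 11) (nat_lit 4) (nat_lit 303) (nat_lit 278) (nat_lit 139)))) (XT.nd (nat_lit 78) (nat_lit 76) (nat_lit 0) (XT.lf (nat_lit 0) (nat_lit 55017512726) (nat_lit 76) (nat_lit 172646428589) (nat_lit 152) (nat_lit 52523749392) (nat_lit 9) (nat_lit 5) (nat_lit 10) (nat_lit 5) (nat_lit 11) (nat_lit 4) (nat_lit 304) (nat_lit 278) (nat_lit 138)) (XT.nd (nat_lit 78) (nat_lit 76) (nat_lit 0) (XT.lf (nat_lit 0) (nat_lit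 146558469646) (nat_lit 76) (nat_lit 125115859005) (nat_lit 152) (nat_lit 26021435062) (nat_lit 9) (nat_lit 5) (nat_lit 10) (nat_lit 5) (nat_lit 11) (nat_lit 4) (nat_lit 305) (nat_lit 278) (nat_lit 137)) (XT.lf (nat_lit 0) (nat_lit 2470771246) (nat_lit 152) (nat_lit 71244603039) (nat_lit 76) (nat_lit 242884119016) (nat_lit 8) (nat_lit 5) (nat_lit 10) (nat_lit 5) (nat_lit 9) (nat_lit 5) (nat_lit 306) (nat_lit 278) (nat_lit 136)))))) (XT.nd (nat_lit 390) (nat_lit 76) (nat_lit 0) (XT.nd (nat_lit 156) (nat_lit 76) (nat_lit 0) (XT.nd (nat_lit 78) (nat_lit 0) (nat_lit 0) (XT.lf (nat_lit 0) (nat_lit 15119723559) (nat_lit 152) (nat_lit 17080262589) (nat_lit 228) (nat_lit 304732388284) (nat_lit 6) (nat_lit 5) (nat_lit 8) (nat_lit 5) (nat_lit 9) (nat_lit 5) (nat_lit 307) (nat_lit 278) (nat_lit 135)) (XT.lf (nat_lit 0) (nat_lit 67366189365) (nat_lit 228) (nat_lit 247402220389) (nat_lit 76) (nat_lit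 43878785071) (nat_lit 6) (nat_lit 5) (nat_lit 9) (nat_lit 5) (nat_lit 7) (nat_lit 4) (nat_lit 308) (nat_lit 278) (nat_lit 134))) (XT.nd (nat_lit 78) (nat_lit 76) (nat_lit 0) (XT.lf (nat_lit 0) (nat_lit 105789183951) (nat_lit 228) (nat_lit 167482833170) (nat_lit 76) (nat_lit 108791704916) (nat_lit 6) (nat_lit 5) (nat_lit 9) (nat_lit 5) (nat_lit 7) (nat_lit 4) (nat_lit 309) (nat_lit 278) (nat_lit 133)) (XT.nd (nat_lit 78) (nat_lit 76) (nat_lit 0) (XT.lf (nat_lit 0) (nat_lit 147285881000) (nat_lit 228) (nat_lit 81170112123) (nat_lit 76) (nat_lit 178897590008) (nat_lit 6) (nat_lit 5) (nat_lit 9) (nat_lit 5) (nat_lit 7) (nat_lit 4) (nat_lit 310) (nat_lit 278) (nat_lit 132)) (XT.lf (nat_lit 0) (nat_lit 12681821622) (nat_lit 76) (nat_lit 179725363358) (nat_lit 152) (nat_lit 242235059123) (nat_lit 5) (nat_lit 5) (nat_lit 6) (nat_lit 5) (nat_lit 7) (nat_lit 4) (nat_lit 311) (nat_lit 278) (nat_lit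 131))))) (XT.nd (nat_lit 234) (nat_lit 76) (nat_lit 0) (XT.nd (nat_lit 78) (nat_lit 0) (nat_lit 0) (XT.lf (nat_lit 0) (nat_lit 118657930293) (nat_lit 76) (nat_lit 124699475438) (nat_lit 152) (nat_lit 220579055856) (nat_lit 5) (nat_lit 5) (nat_lit 6) (nat_lit 5) (nat_lit 7) (nat_lit 4) (nat_lit 312) (nat_lit 278) (nat_lit 130)) (XT.nd (nat_lit 78) (nat_lit 0) (nat_lit 0) (XT.lf (nat_lit 0) (nat_lit 233111946201) (nat_lit 76) (nat_lit 65271584741) (nat_lit 152) (nat_lit 197190695170) (nat_lit 5) (nat_lit 5) (nat_lit 6) (nat_lit 5) (nat_lit 7) (nat_lit 4) (nat_lit 313) (nat_lit 278) (nat_lit 129)) (XT.lf (nat_lit 0) (nat_lit 356722115365) (nat_lit 76) (nat_lit 1089525988) (nat_lit 152) (nat_lit 171931379374) (nat_lit 5) (nat_lit 5) (nat_lit 6) (nat_lit 5) (nat_lit 7) (nat_lit 4) (nat_lit 314) (nat_lit 278) (nat_lit 128)))) (XT.nd (nat_lit 78) (nat_lit 76) (nat_lit 0) (XT.lf (nat_lit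 0) (nat_lit 423634765474) (nat_lit 152) (nat_lit 78065246612) (nat_lit 0) (nat_lit 64814046137) (nat_lit 5) (nat_lit 5) (nat_lit 7) (nat_lit 4) (nat_lit 5) (nat_lit 4) (nat_lit 315) (nat_lit 278) (nat_lit 127)) (XT.nd (nat_lit 78) (nat_lit 0) (nat_lit 0) (XT.lf (nat_lit 0) (nat_lit 25746351857) (nat_lit 76) (nat_lit 469624796258) (nat_lit 76) (nat_lit 110803838381) (nat_lit 4) (nat_lit 4) (nat_lit 5) (nat_lit 5) (nat_lit 5) (nat_lit 4) (nat_lit 316) (nat_lit 278) (nat_lit 126)) (XT.lf (nat_lit 0) (nat_lit 142302371361) (nat_lit 76) (nat_lit 432678424253) (nat_lit 76) (nat_lit 73857245506) (nat_lit 4) (nat_lit 4) (nat_lit 5) (nat_lit 5) (nat_lit 5) (nat_lit 4) (nat_lit 317) (nat_lit 278) (nat_lit 125))))))) (XT.nd (nat_lit 34788) (nat_lit 0) (nat_lit 1140) (XT.nd (nat_lit 390) (nat_lit 76) (nat_lit 0) (XT.nd (nat_lit 156) (nat_lit 0) (nat_lit 0) (XT.nd (nat_lit 78) (nat_lit 76) (nat_lit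 0) (XT.lf (nat_lit 0) (nat_lit 268182736695) (nat_lit 76) (nat_lit 392776396794) (nat_lit 76) (nat_lit 33955013538) (nat_lit 4) (nat_lit 4) (nat_lit 5) (nat_lit 5) (nat_lit 5) (nat_lit 4) (nat_lit 318) (nat_lit 278) (nat_lit 124)) (XT.lf (nat_lit 0) (nat_lit 8682129632) (nat_lit 152) (nat_lit 340762742980) (nat_lit 76) (nat_lit 395213891135) (nat_lit 3) (nat_lit 5) (nat_lit 5) (nat_lit 5) (nat_lit 4) (nat_lit 4) (nat_lit 319) (nat_lit 278) (nat_lit 123))) (XT.nd (nat_lit 78) (nat_lit 0) (nat_lit 0) (XT.lf (nat_lit 0) (nat_lit 52895719632) (nat_lit 152) (nat_lit 248798651115) (nat_lit 76) (nat_lit 496618029259) (nat_lit 3) (nat_lit 5) (nat_lit 5) (nat_lit 5) (nat_lit 4) (nat_lit 4) (nat_lit 320) (nat_lit 278) (nat_lit 122)) (XT.nd (nat_lit 78) (nat_lit 0) (nat_lit 0) (XT.lf (nat_lit 0) (nat_lit 100646330215) (nat_lit 152) (nat_lit 149477543449) (nat_lit 76) (nat_lit 606134459122) (nat_lit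 3) (nat_lit 5) (nat_lit 5) (nat_lit 5) (nat_lit 4) (nat_lit 4) (nat_lit 321) (nat_lit 278) (nat_lit 121)) (XT.lf (nat_lit 0) (nat_lit 152216927962) (nat_lit 152) (nat_lit 42210850455) (nat_lit 76) (nat_lit 724412166977) (nat_lit 3) (nat_lit 5) (nat_lit 5) (nat_lit 5) (nat_lit 4) (nat_lit 4) (nat_lit 322) (nat_lit 278) (nat_lit 120))))) (XT.nd (nat_lit 34164) (nat_lit 0) (nat_lit 1748) (XT.nd (nat_lit 78) (nat_lit 0) (nat_lit 0) (XT.lf (nat_lit 0) (nat_lit 77514680602) (nat_lit 76) (nat_lit 132262665746) (nat_lit 152) (nat_lit 776501607089) (nat_lit 2) (nat_lit 5) (nat_lit 3) (nat_lit 5) (nat_lit 4) (nat_lit 4) (nat_lit 323) (nat_lit 278) (nat_lit 119)) (XT.nd (nat_lit 34008) (nat_lit 0) (nat_lit 2204) (XT.lf (nat_lit 0) (nat_lit 209218729399) (nat_lit 76) (nat_lit 63877933138) (nat_lit 152) (nat_lit 785924094672) (nat_lit 2) (nat_lit 5) (nat_lit 3) (nat_lit 5) (nat_lit 4) (nat_lit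 4) (nat_lit 324) (nat_lit 278) (nat_lit 118)) (XT.lf (nat_lit 0) (nat_lit 20117503716) (nat_lit 0) (nat_lit 20117503716) (nat_lit 380) (nat_lit 1315855060) (nat_lit 31) (nat_lit 5) (nat_lit 31) (nat_lit 3) (nat_lit 36) (nat_lit 3) (nat_lit 279) (nat_lit 279) (nat_lit 162)))) (XT.nd (nat_lit 78) (nat_lit 456) (nat_lit 0) (XT.lf (nat_lit 0) (nat_lit 75314234953) (nat_lit 0) (nat_lit 8382403697) (nat_lit 380) (nat_lit 2728449379) (nat_lit 31) (nat_lit 5) (nat_lit 31) (nat_lit 3) (nat_lit 36) (nat_lit 3) (nat_lit 280) (nat_lit 279) (nat_lit 161)) (XT.nd (nat_lit 78) (nat_lit 456) (nat_lit 0) (XT.lf (nat_lit 76) (nat_lit 23747196783) (nat_lit 0) (nat_lit 64630286271) (nat_lit 456) (nat_lit 1541157817) (nat_lit 32) (nat_lit 5) (nat_lit 31) (nat_lit 5) (nat_lit 37) (nat_lit 5) (nat_lit 281) (nat_lit 279) (nat_lit 160)) (XT.lf (nat_lit 0) (nat_lit 282720298) (nat_lit 456) (nat_lit 31861495285)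 (nat_lit 532) (nat_lit 61505675092) (nat_lit 25) (nat_lit 5) (nat_lit 31) (nat_lit 5) (nat_lit 32) (nat_lit 5) (nat_lit 282) (nat_lit 279) (nat_lit 159)))))) (XT.nd (nat_lit 390) (nat_lit 684) (nat_lit 0) (XT.nd (nat_lit 156) (nat_lit 0) (nat_lit 0) (XT.nd (nat_lit 78) (nat_lit 0) (nat_lit 0) (XT.lf (nat_lit 0) (nat_lit 2374156715) (nat_lit 456) (nat_lit 92317137089) (nat_lit 532) (nat_lit 2968757766) (nat_lit 26) (nat_lit 5) (nat_lit 32) (nat_lit 5) (nat_lit 33) (nat_lit 5) (nat_lit 283) (nat_lit 279) (nat_lit 158)) (XT.lf (nat_lit 0) (nat_lit 6360948008) (nat_lit 456) (nat_lit 55443726674) (nat_lit 532) (nat_lit 40048113349) (nat_lit 26) (nat_lit 5) (nat_lit 32) (nat_lit 5) (nat_lit 33) (nat_lit 5) (nat_lit 284) (nat_lit 279) (nat_lit 157))) (XT.nd (nat_lit 78) (nat_lit 0) (nat_lit 76) (XT.lf (nat_lit 0) (nat_lit 10666079142) (nat_lit 456) (nat_lit 15620924777) (nat_lit 532) (nat_lit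 80093993221) (nat_lit 26) (nat_lit 5) (nat_lit 32) (nat_lit 5) (nat_lit 33) (nat_lit 5) (nat_lit 285) (nat_lit 279) (nat_lit 156)) (XT.nd (nat_lit 78) (nat_lit 0) (nat_lit 0) (XT.lf (nat_lit 0) (nat_lit 16316755839) (nat_lit 456) (nat_lit 82694970540) (nat_lit 76) (nat_lit 12179650843) (nat_lit 27) (nat_lit 5) (nat_lit 33) (nat_lit 5) (nat_lit 28) (nat_lit 5) (nat_lit 286) (nat_lit 279) (nat_lit 155)) (XT.lf (nat_lit 0) (nat_lit 23539937792) (nat_lit 456) (nat_lit 40015275403) (nat_lit 76) (nat_lit 52741743102) (nat_lit 27) (nat_lit 5) (nat_lit 33) (nat_lit 5) (nat_lit 28) (nat_lit 5) (nat_lit 287) (nat_lit 279) (nat_lit 154))))) (XT.nd (nat_lit 234) (nat_lit 380) (nat_lit 0) (XT.nd (nat_lit 78) (nat_lit 0) (nat_lit 0) (XT.lf (nat_lit 0) (nat_lit 6398422617) (nat_lit 380) (nat_lit 25095947261) (nat_lit 456) (nat_lit 90304344504) (nat_lit 22) (nat_lit 5) (nat_lit 27) (nat_lit 5) (nat_lit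 28) (nat_lit 5) (nat_lit 288) (nat_lit 279) (nat_lit 153)) (XT.nd (nat_lit 78) (nat_lit 0) (nat_lit 0) (XT.lf (nat_lit 0) (nat_lit 41602586299) (nat_lit 456) (nat_lit 69276444998) (nat_lit 76) (nat_lit 16740191443) (nat_lit 22) (nat_lit 5) (nat_lit 28) (nat_lit 5) (nat_lit 23) (nat_lit 5) (nat_lit 289) (nat_lit 279) (nat_lit 152)) (XT.lf (nat_lit 0) (nat_lit 53170876435) (nat_lit 456) (nat_lit 20114975771) (nat_lit 76) (nat_lit 60567409961) (nat_lit 22) (nat_lit 5) (nat_lit 28) (nat_lit 5) (nat_lit 23) (nat_lit 5) (nat_lit 290) (nat_lit 279) (nat_lit 151)))) (XT.nd (nat_lit 78) (nat_lit 152) (nat_lit 0) (XT.lf (nat_lit 0) (nat_lit 34715617038) (nat_lit 228) (nat_lit 31783529367) (nat_lit 304) (nat_lit 74020120451) (nat_lit 19) (nat_lit 5) (nat_lit 22) (nat_lit 5) (nat_lit 23) (nat_lit 5) (nat_lit 291) (nat_lit 279) (nat_lit 150)) (XT.nd (nat_lit 78) (nat_lit 152) (nat_lit 0) (XT.lf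 (nat_lit 0) (nat_lit 81771154253) (nat_lit 304) (nat_lit 52926244721) (nat_lit 76) (nat_lit 12950958026) (nat_lit 19) (nat_lit 5) (nat_lit 23) (nat_lit 5) (nat_lit 20) (nat_lit 5) (nat_lit 292) (nat_lit 279) (nat_lit 149)) (XT.lf (nat_lit 0) (nat_lit 3532096370) (nat_lit 152) (nat_lit 95642971668) (nat_lit 228) (nat_lit 56099897640) (nat_lit 17) (nat_lit 5) (nat_lit 19) (nat_lit 5) (nat_lit 20) (nat_lit 5) (nat_lit 293) (nat_lit 279) (nat_lit 148))))))))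
noncomputable def xc112 : XT := (XT.nd (nat_lit 1638) (nat_lit 228) (nat_lit 0) (XT.nd (nat_lit 780) (nat_lit 380) (nat_lit 0) (XT.nd (nat_lit 390) (nat_lit 304) (nat_lit 0) (XT.nd (nat_lit 156) (nat_lit 228) (nat_lit 0) (XT.nd (nat_lit 78) (nat_lit 0) (nat_lit 0) (XT.lf (nat_lit 0) (nat_lit 67516677346) (nat_lit 152) (nat_lit 51901383390) (nat_lit 228) (nat_lit 43977903777) (nat_lit 17) (nat_lit 5) (nat_lit 19) (nat_lit 5) (nat_lit 20) (nat_lit 5) (nat_lit 294) (nat_lit 279) (nat_lit 147)) (XT.lf (nat_lit 0) (nat_lit 136619663841) (nat_lit 152) (nat_lit 4660522052) (nat_lit 228) (nat_lit 30886484445) (nat_lit 17) (nat_lit 5) (nat_lit 19) (nat_lit 5) (nat_lit 20) (nat_lit 5) (nat_lit 295) (nat_lit 279) (nat_lit 146))) (XT.nd (nat_lit 78) (nat_lit 76) (nat_lit 0) (XT.lf (nat_lit 0) (nat_lit 29997126598) (nat_lit 152) (nat_lit 136730250349) (nat_lit 228) (nat_lit 14764770349) (nat_lit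 15) (nat_lit 5) (nat_lit 17) (nat_lit 5) (nat_lit 18) (nat_lit 5) (nat_lit 296) (nat_lit 279) (nat_lit 145)) (XT.nd (nat_lit 78) (nat_lit 0) (nat_lit 0) (XT.lf (nat_lit 0) (nat_lit 3632216663) (nat_lit 228) (nat_lit 88889844624) (nat_lit 76) (nat_lit 98947076233) (nat_lit 14) (nat_lit 5) (nat_lit 17) (nat_lit 5) (nat_lit 15) (nat_lit 5) (nat_lit 297) (nat_lit 279) (nat_lit 144)) (XT.lf (nat_lit 0) (nat_lit 22703020599) (nat_lit 228) (nat_lit 21660093766) (nat_lit 76) (nat_lit 157850515287) (nat_lit 14) (nat_lit 5) (nat_lit 17) (nat_lit 5) (nat_lit 15) (nat_lit 5) (nat_lit 298) (nat_lit 279) (nat_lit 143))))) (XT.nd (nat_lit 156) (nat_lit 152) (nat_lit 0) (XT.nd (nat_lit 78) (nat_lit 0) (nat_lit 0) (XT.lf (nat_lit 0) (nat_lit 44806510770) (nat_lit 228) (nat_lit 160301424374) (nat_lit 76) (nat_lit 8589185976) (nat_lit 12) (nat_lit 5) (nat_lit 15) (nat_lit 5) (nat_lit 13) (nat_lit 5)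 (nat_lit 299) (nat_lit 279) (nat_lit 142)) (XT.lf (nat_lit 0) (nat_lit 70437943802) (nat_lit 228) (nat_lit 91532129833) (nat_lit 76) (nat_lit 63988446769) (nat_lit 12) (nat_lit 5) (nat_lit 15) (nat_lit 5) (nat_lit 13) (nat_lit 5) (nat_lit 300) (nat_lit 279) (nat_lit 141))) (XT.nd (nat_lit 78) (nat_lit 152) (nat_lit 0) (XT.lf (nat_lit 0) (nat_lit 98119675865) (nat_lit 228) (nat_lit 17261591747) (nat_lit 76) (nat_lit 123819582744) (nat_lit 12) (nat_lit 5) (nat_lit 15) (nat_lit 5) (nat_lit 13) (nat_lit 5) (nat_lit 301) (nat_lit 279) (nat_lit 140)) (XT.nd (nat_lit 78) (nat_lit 0) (nat_lit 0) (XT.lf (nat_lit 0) (nat_lit 66265163441) (nat_lit 152) (nat_lit 63344262183) (nat_lit 228) (nat_lit 123765664113) (nat_lit 10) (nat_lit 5) (nat_lit 12) (nat_lit 5) (nat_lit 13) (nat_lit 5) (nat_lit 302) (nat_lit 279) (nat_lit 139)) (XT.lf (nat_lit 0) (nat_lit 157455470301) (nat_lit 152) (nat_lit 6634656207)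 (nat_lit 228) (nat_lit 104555401334) (nat_lit 10) (nat_lit 5) (nat_lit 12) (nat_lit 5) (nat_lit 13) (nat_lit 5) (nat_lit 303) (nat_lit 279) (nat_lit 138)))))) (XT.nd (nat_lit 390) (nat_lit 76) (nat_lit 0) (XT.nd (nat_lit 156) (nat_lit 228) (nat_lit 0) (XT.nd (nat_lit 78) (nat_lit 76) (nat_lit 0) (XT.lf (nat_lit 0) (nat_lit 202642517643) (nat_lit 228) (nat_lit 30510276706) (nat_lit 76) (nat_lit 51879749082) (nat_lit 10) (nat_lit 5) (nat_lit 13) (nat_lit 5) (nat_lit 11) (nat_lit 4) (nat_lit 304) (nat_lit 279) (nat_lit 137)) (XT.lf (nat_lit 0) (nat_lit 59423939268) (nat_lit 76) (nat_lit 186456470998) (nat_lit 152) (nat_lit 56722006268) (nat_lit 9) (nat_lit 5) (nat_lit 10) (nat_lit 5) (nat_lit 11) (nat_lit 4) (nat_lit 305) (nat_lit 279) (nat_lit 136))) (XT.nd (nat_lit 78) (nat_lit 228) (nat_lit 0) (XT.lf (nat_lit 0) (nat_lit 158287800479) (nat_lit 76) (nat_lit 135123579690) (nat_lit 152)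 (nat_lit 28099776649) (nat_lit 9) (nat_lit 5) (nat_lit 10) (nat_lit 5) (nat_lit 11) (nat_lit 4) (nat_lit 306) (nat_lit 279) (nat_lit 135)) (XT.nd (nat_lit 78) (nat_lit 152) (nat_lit 0) (XT.lf (nat_lit 0) (nat_lit 2671400053) (nat_lit 152) (nat_lit 76939689683) (nat_lit 76) (nat_lit 262316108879) (nat_lit 8) (nat_lit 5) (nat_lit 10) (nat_lit 5) (nat_lit 9) (nat_lit 5) (nat_lit 307) (nat_lit 279) (nat_lit 134)) (XT.lf (nat_lit 0) (nat_lit 16333669585) (nat_lit 152) (nat_lit 18445167830) (nat_lit 228) (nat_lit 329107883244) (nat_lit 6) (nat_lit 5) (nat_lit 8) (nat_lit 5) (nat_lit 9) (nat_lit 5) (nat_lit 308) (nat_lit 279) (nat_lit 133))))) (XT.nd (nat_lit 234) (nat_lit 76) (nat_lit 0) (XT.nd (nat_lit 78) (nat_lit 0) (nat_lit 0) (XT.lf (nat_lit 0) (nat_lit 72758159356) (nat_lit 228) (nat_lit 267190161525) (nat_lit 76) (nat_lit 47390421156) (nat_lit 6) (nat_lit 5) (nat_lit 9) (nat_lit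 5) (nat_lit 7) (nat_lit 4) (nat_lit 309) (nat_lit 279) (nat_lit 132)) (XT.nd (nat_lit 78) (nat_lit 0) (nat_lit 0) (XT.lf (nat_lit 0) (nat_lit 114254795373) (nat_lit 228) (nat_lit 180877537143) (nat_lit 76) (nat_lit 117496275826) (nat_lit 6) (nat_lit 5) (nat_lit 9) (nat_lit 5) (nat_lit 7) (nat_lit 4) (nat_lit 310) (nat_lit 279) (nat_lit 131)) (XT.lf (nat_lit 0) (nat_lit 159071044726) (nat_lit 228) (nat_lit 87660088982) (nat_lit 76) (nat_lit 193210540280) (nat_lit 6) (nat_lit 5) (nat_lit 9) (nat_lit 5) (nat_lit 7) (nat_lit 4) (nat_lit 311) (nat_lit 279) (nat_lit 130)))) (XT.nd (nat_lit 78) (nat_lit 0) (nat_lit 0) (XT.lf (nat_lit 0) (nat_lit 13699907511) (nat_lit 76) (nat_lit 194102060784) (nat_lit 152) (nat_lit 261611467234) (nat_lit 5) (nat_lit 5) (nat_lit 6) (nat_lit 5) (nat_lit 7) (nat_lit 4) (nat_lit 312) (nat_lit 279) (nat_lit 129)) (XT.nd (nat_lit 78) (nat_lit 0) (nat_lit 0) (XT.lf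 (nat_lit 0) (nat_lit 128153842642) (nat_lit 76) (nat_lit 134674200471) (nat_lit 152) (nat_lit 238223161233) (nat_lit 5) (nat_lit 5) (nat_lit 6) (nat_lit 5) (nat_lit 7) (nat_lit 4) (nat_lit 313) (nat_lit 279) (nat_lit 128)) (XT.lf (nat_lit 0) (nat_lit 251763937013) (nat_lit 76) (nat_lit 70492169852) (nat_lit 152) (nat_lit 212963896070) (nat_lit 5) (nat_lit 5) (nat_lit 6) (nat_lit 5) (nat_lit 7) (nat_lit 4) (nat_lit 314) (nat_lit 279) (nat_lit 127))))))) (XT.nd (nat_lit 34866) (nat_lit 0) (nat_lit 1520) (XT.nd (nat_lit 390) (nat_lit 152) (nat_lit 0) (XT.nd (nat_lit 156) (nat_lit 76) (nat_lit 0) (XT.nd (nat_lit 78) (nat_lit 0) (nat_lit 0) (XT.lf (nat_lit 0) (nat_lit 385262694887) (nat_lit 76) (nat_lit 1175630967) (nat_lit 152) (nat_lit 185683987210) (nat_lit 5) (nat_lit 5) (nat_lit 6) (nat_lit 5) (nat_lit 7) (nat_lit 4) (nat_lit 315) (nat_lit 279) (nat_lit 126)) (XT.lf (nat_lit 0) (nat_lit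 457527193578) (nat_lit 152) (nat_lit 84307749498) (nat_lit 0) (nat_lit 70000099661) (nat_lit 5) (nat_lit 5) (nat_lit 7) (nat_lit 4) (nat_lit 5) (nat_lit 4) (nat_lit 316) (nat_lit 279) (nat_lit 125))) (XT.nd (nat_lit 78) (nat_lit 0) (nat_lit 0) (XT.lf (nat_lit 0) (nat_lit 27808708068) (nat_lit 76) (nat_lit 507193720458) (nat_lit 76) (nat_lit 119666422032) (nat_lit 4) (nat_lit 4) (nat_lit 5) (nat_lit 5) (nat_lit 5) (nat_lit 4) (nat_lit 317) (nat_lit 279) (nat_lit 124)) (XT.nd (nat_lit 78) (nat_lit 0) (nat_lit 0) (XT.lf (nat_lit 0) (nat_lit 153689012980) (nat_lit 76) (nat_lit 467291717174) (nat_lit 76) (nat_lit 79764229388) (nat_lit 4) (nat_lit 4) (nat_lit 5) (nat_lit 5) (nat_lit 5) (nat_lit 4) (nat_lit 318) (nat_lit 279) (nat_lit 123)) (XT.lf (nat_lit 0) (nat_lit 289639625917) (nat_lit 76) (nat_lit 424197600187) (nat_lit 76) (nat_lit 36669937067) (nat_lit 4) (nat_lit 4) (nat_lit 5)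 (nat_lit 5) (nat_lit 5) (nat_lit 4) (nat_lit 319) (nat_lit 279) (nat_lit 122))))) (XT.nd (nat_lit 234) (nat_lit 76) (nat_lit 0) (XT.nd (nat_lit 78) (nat_lit 0) (nat_lit 0) (XT.lf (nat_lit 0) (nat_lit 9377999671) (nat_lit 152) (nat_lit 368021586150) (nat_lit 76) (nat_lit 426831769341) (nat_lit 3) (nat_lit 5) (nat_lit 5) (nat_lit 5) (nat_lit 4) (nat_lit 4) (nat_lit 320) (nat_lit 279) (nat_lit 121)) (XT.nd (nat_lit 78) (nat_lit 0) (nat_lit 0) (XT.lf (nat_lit 0) (nat_lit 57128580599) (nat_lit 152) (nat_lit 268700528140) (nat_lit 76) (nat_lit 536348181705) (nat_lit 3) (nat_lit 5) (nat_lit 5) (nat_lit 5) (nat_lit 4) (nat_lit 4) (nat_lit 321) (nat_lit 279) (nat_lit 120)) (XT.lf (nat_lit 0) (nat_lit 108699150887) (nat_lit 152) (nat_lit 161433881125) (nat_lit 76) (nat_lit 654625873357) (nat_lit 3) (nat_lit 5) (nat_lit 5) (nat_lit 5) (nat_lit 4) (nat_lit 4) (nat_lit 322) (nat_lit 279) (nat_lit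 119)))) (XT.nd (nat_lit 78) (nat_lit 76) (nat_lit 0) (XT.lf (nat_lit 0) (nat_lit 164395313917) (nat_lit 152) (nat_lit 45585990899) (nat_lit 76) (nat_lit 782365749136) (nat_lit 3) (nat_lit 5) (nat_lit 5) (nat_lit 5) (nat_lit 4) (nat_lit 4) (nat_lit 323) (nat_lit 279) (nat_lit 118)) (XT.nd (nat_lit 34086) (nat_lit 0) (nat_lit 2204) (XT.lf (nat_lit 0) (nat_lit 83717538906) (nat_lit 76) (nat_lit 142842990941) (nat_lit 152) (nat_lit 838620656002) (nat_lit 2) (nat_lit 5) (nat_lit 3) (nat_lit 5) (nat_lit 4) (nat_lit 4) (nat_lit 324) (nat_lit 279) (nat_lit 117)) (XT.lf (nat_lit 0) (nat_lit 21730721534) (nat_lit 0) (nat_lit 21730721534) (nat_lit 380) (nat_lit 1412799444) (nat_lit 31) (nat_lit 5) (nat_lit 31) (nat_lit 3) (nat_lit 36) (nat_lit 3) (nat_lit 280) (nat_lit 280) (nat_lit 160)))))) (XT.nd (nat_lit 390) (nat_lit 228) (nat_lit 0) (XT.nd (nat_lit 156) (nat_lit 456) (nat_lit 0) (XT.nd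 (nat_lit 78) (nat_lit 0) (nat_lit 0) (XT.lf (nat_lit 0) (nat_lit 81346443233) (nat_lit 0) (nat_lit 9060065476) (nat_lit 380) (nat_lit 2931310476) (nat_lit 31) (nat_lit 5) (nat_lit 31) (nat_lit 3) (nat_lit 36) (nat_lit 3) (nat_lit 281) (nat_lit 280) (nat_lit 159)) (XT.lf (nat_lit 76) (nat_lit 25655272337) (nat_lit 0) (nat_lit 69805543181) (nat_lit 456) (nat_lit 1650131873) (nat_lit 32) (nat_lit 5) (nat_lit 31) (nat_lit 5) (nat_lit 37) (nat_lit 5) (nat_lit 282) (nat_lit 280) (nat_lit 158))) (XT.nd (nat_lit 78) (nat_lit 0) (nat_lit 76) (XT.lf (nat_lit 0) (nat_lit 317932642) (nat_lit 456) (nat_lit 34401951760) (nat_lit 532) (nat_lit 66420875028) (nat_lit 25) (nat_lit 5) (nat_lit 31) (nat_lit 5) (nat_lit 32) (nat_lit 5) (nat_lit 283) (nat_lit 280) (nat_lit 157)) (XT.nd (nat_lit 78) (nat_lit 0) (nat_lit 0) (XT.lf (nat_lit 0) (nat_lit 2575862565) (nat_lit 456) (nat_lit 99693117091) (nat_lit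 532) (nat_lit 3202827765) (nat_lit 26) (nat_lit 5) (nat_lit 32) (nat_lit 5) (nat_lit 33) (nat_lit 5) (nat_lit 284) (nat_lit 280) (nat_lit 156)) (XT.lf (nat_lit 0) (nat_lit 6880725064) (nat_lit 456) (nat_lit 59870529470) (nat_lit 532) (nat_lit 43248785915) (nat_lit 26) (nat_lit 5) (nat_lit 32) (nat_lit 5) (nat_lit 33) (nat_lit 5) (nat_lit 285) (nat_lit 280) (nat_lit 155))))) (XT.nd (nat_lit 234) (nat_lit 304) (nat_lit 0) (XT.nd (nat_lit 78) (nat_lit 0) (nat_lit 76) (XT.lf (nat_lit 0) (nat_lit 11529459191) (nat_lit 456) (nat_lit 16862547520) (nat_lit 532) (nat_lit 86498571473) (nat_lit 26) (nat_lit 5) (nat_lit 32) (nat_lit 5) (nat_lit 33) (nat_lit 5) (nat_lit 286) (nat_lit 280) (nat_lit 154)) (XT.nd (nat_lit 78) (nat_lit 0) (nat_lit 0) (XT.lf (nat_lit 0) (nat_lit 17631590491) (nat_lit 456) (nat_lit 89301832939) (nat_lit 76) (nat_lit 13152419964) (nat_lit 27) (nat_lit 5) (nat_lit 33)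 (nat_lit 5) (nat_lit 28) (nat_lit 5) (nat_lit 287) (nat_lit 280) (nat_lit 153)) (XT.lf (nat_lit 0) (nat_lit 25431923727) (nat_lit 456) (nat_lit 43208409247) (nat_lit 76) (nat_lit 56959598340) (nat_lit 27) (nat_lit 5) (nat_lit 33) (nat_lit 5) (nat_lit 28) (nat_lit 5) (nat_lit 288) (nat_lit 280) (nat_lit 152)))) (XT.nd (nat_lit 78) (nat_lit 0) (nat_lit 0) (XT.lf (nat_lit 0) (nat_lit 6918179850) (nat_lit 380) (nat_lit 27104068947) (nat_lit 456) (nat_lit 97519623968) (nat_lit 22) (nat_lit 5) (nat_lit 27) (nat_lit 5) (nat_lit 28) (nat_lit 5) (nat_lit 289) (nat_lit 280) (nat_lit 151)) (XT.nd (nat_lit 78) (nat_lit 0) (nat_lit 0) (XT.lf (nat_lit 0) (nat_lit 44938495615) (nat_lit 456) (nat_lit 74810567158) (nat_lit 76) (nat_lit 18079014537) (nat_lit 22) (nat_lit 5) (nat_lit 28) (nat_lit 5) (nat_lit 23) (nat_lit 5) (nat_lit 290) (nat_lit 280) (nat_lit 150)) (XT.lf (nat_lit 0) (nat_lit 57431678413)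 (nat_lit 456) (nat_lit 21716772500) (nat_lit 76) (nat_lit 65412439590) (nat_lit 22) (nat_lit 5) (nat_lit 28) (nat_lit 5) (nat_lit 23) (nat_lit 5) (nat_lit 291) (nat_lit 280) (nat_lit 149))))))))
noncomputable def xc113 : XT := (XT.nd (nat_lit 1716) (nat_lit 152) (nat_lit 0) (XT.nd (nat_lit 858) (nat_lit 532) (nat_lit 0) (XT.nd (nat_lit 390) (nat_lit 380) (nat_lit 0) (XT.nd (nat_lit 156) (nat_lit 152) (nat_lit 0) (XT.nd (nat_lit 78) (nat_lit 0) (nat_lit 0) (XT.lf (nat_lit 0) (nat_lit 37500080358) (nat_lit 228) (nat_lit 34325774832) (nat_lit 304) (nat_lit 79934353358) (nat_lit 19) (nat_lit 5) (nat_lit 22) (nat_lit 5) (nat_lit 23) (nat_lit 5) (nat_lit 292) (nat_lit 280) (nat_lit 148)) (XT.lf (nat_lit 0) (nat_lit 88319131389) (nat_lit 304) (nat_lit 57153119200) (nat_lit 76) (nat_lit 13987418955) (nat_lit 19) (nat_lit 5) (nat_lit 23) (nat_lit 5) (nat_lit 20) (nat_lit 5) (nat_lit 293) (nat_lit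 280) (nat_lit 147))) (XT.nd (nat_lit 78) (nat_lit 0) (nat_lit 0) (XT.lf (nat_lit 0) (nat_lit 3821706263) (nat_lit 152) (nat_lit 103293355838) (nat_lit 228) (nat_lit 60581372453) (nat_lit 17) (nat_lit 5) (nat_lit 19) (nat_lit 5) (nat_lit 20) (nat_lit 5) (nat_lit 294) (nat_lit 280) (nat_lit 146)) (XT.nd (nat_lit 78) (nat_lit 0) (nat_lit 0) (XT.lf (nat_lit 0) (nat_lit 72924532075) (nat_lit 152) (nat_lit 56052518539) (nat_lit 228) (nat_lit 47490101821) (nat_lit 17) (nat_lit 5) (nat_lit 19) (nat_lit 5) (nat_lit 20) (nat_lit 5) (nat_lit 295) (nat_lit 280) (nat_lit 145)) (XT.lf (nat_lit 0) (nat_lit 147555274486) (nat_lit 152) (nat_lit 5032460555) (nat_lit 228) (nat_lit 33351815925) (nat_lit 17) (nat_lit 5) (nat_lit 19) (nat_lit 5) (nat_lit 20) (nat_lit 5) (nat_lit 296) (nat_lit 280) (nat_lit 144))))) (XT.nd (nat_lit 234) (nat_lit 152) (nat_lit 0) (XT.nd (nat_lit 78) (nat_lit 76) (nat_lit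 0) (XT.lf (nat_lit 0) (nat_lit 32403201772) (nat_lit 152) (nat_lit 147667291042) (nat_lit 228) (nat_lit 15940593083) (nat_lit 15) (nat_lit 5) (nat_lit 17) (nat_lit 5) (nat_lit 18) (nat_lit 5) (nat_lit 297) (nat_lit 280) (nat_lit 143)) (XT.nd (nat_lit 78) (nat_lit 0) (nat_lit 0) (XT.lf (nat_lit 0) (nat_lit 3927507719) (nat_lit 228) (nat_lit 95994912428) (nat_lit 76) (nat_lit 106863837733) (nat_lit 14) (nat_lit 5) (nat_lit 17) (nat_lit 5) (nat_lit 15) (nat_lit 5) (nat_lit 298) (nat_lit 280) (nat_lit 142)) (XT.lf (nat_lit 0) (nat_lit 24523626805) (nat_lit 228) (nat_lit 23387234817) (nat_lit 76) (nat_lit 170479478178) (nat_lit 14) (nat_lit 5) (nat_lit 17) (nat_lit 5) (nat_lit 15) (nat_lit 5) (nat_lit 299) (nat_lit 280) (nat_lit 141)))) (XT.nd (nat_lit 78) (nat_lit 0) (nat_lit 0) (XT.lf (nat_lit 0) (nat_lit 48395238159) (nat_lit 228) (nat_lit 173119685083) (nat_lit 76) (nat_lit 9277602286)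 (nat_lit 12) (nat_lit 5) (nat_lit 15) (nat_lit 5) (nat_lit 13) (nat_lit 5) (nat_lit 300) (nat_lit 280) (nat_lit 140)) (XT.nd (nat_lit 78) (nat_lit 0) (nat_lit 0) (XT.lf (nat_lit 0) (nat_lit 76076874239) (nat_lit 228) (nat_lit 98849280552) (nat_lit 76) (nat_lit 69108709022) (nat_lit 12) (nat_lit 5) (nat_lit 15) (nat_lit 5) (nat_lit 13) (nat_lit 5) (nat_lit 301) (nat_lit 280) (nat_lit 139)) (XT.lf (nat_lit 0) (nat_lit 105972856353) (nat_lit 228) (nat_lit 18637500876) (nat_lit 76) (nat_lit 133726247985) (nat_lit 12) (nat_lit 5) (nat_lit 15) (nat_lit 5) (nat_lit 13) (nat_lit 5) (nat_lit 302) (nat_lit 280) (nat_lit 138)))))) (XT.nd (nat_lit 390) (nat_lit 304) (nat_lit 0) (XT.nd (nat_lit 156) (nat_lit 76) (nat_lit 0) (XT.nd (nat_lit 78) (nat_lit 0) (nat_lit 0) (XT.lf (nat_lit 0) (nat_lit 71571267683) (nat_lit 152) (nat_lit 68410368900) (nat_lit 228) (nat_lit 133663160950) (nat_lit 10) (nat_lit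 5) (nat_lit 12) (nat_lit 5) (nat_lit 13) (nat_lit 5) (nat_lit 303) (nat_lit 280) (nat_lit 137)) (XT.lf (nat_lit 0) (nat_lit 170056436783) (nat_lit 152) (nat_lit 7164100688) (nat_lit 228) (nat_lit 112916355392) (nat_lit 10) (nat_lit 5) (nat_lit 12) (nat_lit 5) (nat_lit 13) (nat_lit 5) (nat_lit 304) (nat_lit 280) (nat_lit 136))) (XT.nd (nat_lit 78) (nat_lit 76) (nat_lit 0) (XT.lf (nat_lit 0) (nat_lit 218856912370) (nat_lit 228) (nat_lit 32946678355) (nat_lit 76) (nat_lit 56031297142) (nat_lit 10) (nat_lit 5) (nat_lit 13) (nat_lit 5) (nat_lit 11) (nat_lit 4) (nat_lit 305) (nat_lit 280) (nat_lit 135)) (XT.nd (nat_lit 78) (nat_lit 0) (nat_lit 0) (XT.lf (nat_lit 0) (nat_lit 64182162985) (nat_lit 76) (nat_lit 201371555312) (nat_lit 152) (nat_lit 61256643419) (nat_lit 9) (nat_lit 5) (nat_lit 10) (nat_lit 5) (nat_lit 11) (nat_lit 4) (nat_lit 306) (nat_lit 280) (nat_lit 134)) (XT.lf (nat_lit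 0) (nat_lit 170954813940) (nat_lit 76) (nat_lit 145932138875) (nat_lit 152) (nat_lit 30344866790) (nat_lit 9) (nat_lit 5) (nat_lit 10) (nat_lit 5) (nat_lit 11) (nat_lit 4) (nat_lit 307) (nat_lit 280) (nat_lit 133))))) (XT.nd (nat_lit 234) (nat_lit 76) (nat_lit 0) (XT.nd (nat_lit 78) (nat_lit 152) (nat_lit 0) (XT.lf (nat_lit 0) (nat_lit 2887655873) (nat_lit 152) (nat_lit 83091022609) (nat_lit 76) (nat_lit 283302478130) (nat_lit 8) (nat_lit 5) (nat_lit 10) (nat_lit 5) (nat_lit 9) (nat_lit 5) (nat_lit 308) (nat_lit 280) (nat_lit 132)) (XT.nd (nat_lit 78) (nat_lit 0) (nat_lit 0) (XT.lf (nat_lit 0) (nat_lit 17644108128) (nat_lit 152) (nat_lit 19919481732) (nat_lit 228) (nat_lit 355433859494) (nat_lit 6) (nat_lit 5) (nat_lit 8) (nat_lit 5) (nat_lit 9) (nat_lit 5) (nat_lit 309) (nat_lit 280) (nat_lit 131)) (XT.lf (nat_lit 0) (nat_lit 78581105351) (nat_lit 228) (nat_lit 288561742335) (nat_lit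 76) (nat_lit 51182797920) (nat_lit 6) (nat_lit 5) (nat_lit 9) (nat_lit 5) (nat_lit 7) (nat_lit 4) (nat_lit 310) (nat_lit 280) (nat_lit 130)))) (XT.nd (nat_lit 78) (nat_lit 76) (nat_lit 0) (XT.lf (nat_lit 0) (nat_lit 123397302379) (nat_lit 228) (nat_lit 195344377049) (nat_lit 76) (nat_lit 126897036292) (nat_lit 6) (nat_lit 5) (nat_lit 9) (nat_lit 5) (nat_lit 7) (nat_lit 4) (nat_lit 311) (nat_lit 280) (nat_lit 129)) (XT.nd (nat_lit 78) (nat_lit 76) (nat_lit 0) (XT.lf (nat_lit 0) (nat_lit 171798694393) (nat_lit 228) (nat_lit 94669782150) (nat_lit 76) (nat_lit 208668363502) (nat_lit 6) (nat_lit 5) (nat_lit 9) (nat_lit 5) (nat_lit 7) (nat_lit 4) (nat_lit 312) (nat_lit 280) (nat_lit 128)) (XT.lf (nat_lit 0) (nat_lit 14798935228) (nat_lit 76) (nat_lit 209629083978) (nat_lit 152) (nat_lit 282538329898) (nat_lit 5) (nat_lit 5) (nat_lit 6) (nat_lit 5) (nat_lit 7) (nat_lit 4) (nat_lit 313) (nat_lit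 280) (nat_lit 127))))))) (XT.nd (nat_lit 34944) (nat_lit 0) (nat_lit 1444) (XT.nd (nat_lit 390) (nat_lit 76) (nat_lit 0) (XT.nd (nat_lit 156) (nat_lit 76) (nat_lit 0) (XT.nd (nat_lit 78) (nat_lit 0) (nat_lit 0) (XT.lf (nat_lit 0) (nat_lit 138408960346) (nat_lit 76) (nat_lit 145447079408) (nat_lit 152) (nat_lit 257279111618) (nat_lit 5) (nat_lit 5) (nat_lit 6) (nat_lit 5) (nat_lit 7) (nat_lit 4) (nat_lit 314) (nat_lit 280) (nat_lit 126)) (XT.lf (nat_lit 0) (nat_lit 271907654097) (nat_lit 76) (nat_lit 76130564643) (nat_lit 152) (nat_lit 229999246169) (nat_lit 5) (nat_lit 5) (nat_lit 6) (nat_lit 5) (nat_lit 7) (nat_lit 4) (nat_lit 315) (nat_lit 280) (nat_lit 125))) (XT.nd (nat_lit 78) (nat_lit 76) (nat_lit 0) (XT.lf (nat_lit 0) (nat_lit 416086119851) (nat_lit 76) (nat_lit 1268775151) (nat_lit 152) (nat_lit 200537075088) (nat_lit 5) (nat_lit 5) (nat_lit 6) (nat_lit 5) (nat_lit 7) (nat_lit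 4) (nat_lit 316) (nat_lit 280) (nat_lit 124)) (XT.nd (nat_lit 78) (nat_lit 76) (nat_lit 0) (XT.lf (nat_lit 0) (nat_lit 494130780986) (nat_lit 152) (nat_lit 91050040202) (nat_lit 0) (nat_lit 75600904816) (nat_lit 5) (nat_lit 5) (nat_lit 7) (nat_lit 4) (nat_lit 5) (nat_lit 4) (nat_lit 317) (nat_lit 280) (nat_lit 123)) (XT.lf (nat_lit 0) (nat_lit 30035675000) (nat_lit 76) (nat_lit 547768309743) (nat_lit 76) (nat_lit 129238258240) (nat_lit 4) (nat_lit 4) (nat_lit 5) (nat_lit 5) (nat_lit 5) (nat_lit 4) (nat_lit 318) (nat_lit 280) (nat_lit 122))))) (XT.nd (nat_lit 234) (nat_lit 0) (nat_lit 0) (XT.nd (nat_lit 78) (nat_lit 76) (nat_lit 0) (XT.lf (nat_lit 0) (nat_lit 165986236136) (nat_lit 76) (nat_lit 504674213482) (nat_lit 76) (nat_lit 86143999633) (nat_lit 4) (nat_lit 4) (nat_lit 5) (nat_lit 5) (nat_lit 5) (nat_lit 4) (nat_lit 319) (nat_lit 280) (nat_lit 121)) (XT.nd (nat_lit 78) (nat_lit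 76) (nat_lit 0) (XT.lf (nat_lit 0) (nat_lit 312812742396) (nat_lit 76) (nat_lit 458132629437) (nat_lit 76) (nat_lit 39602265267) (nat_lit 4) (nat_lit 4) (nat_lit 5) (nat_lit 5) (nat_lit 5) (nat_lit 4) (nat_lit 320) (nat_lit 280) (nat_lit 120)) (XT.lf (nat_lit 0) (nat_lit 10129353900) (nat_lit 152) (nat_lit 397461447242) (nat_lit 76) (nat_lit 460978968393) (nat_lit 3) (nat_lit 5) (nat_lit 5) (nat_lit 5) (nat_lit 4) (nat_lit 4) (nat_lit 321) (nat_lit 280) (nat_lit 119)))) (XT.nd (nat_lit 78) (nat_lit 0) (nat_lit 0) (XT.lf (nat_lit 0) (nat_lit 61699898765) (nat_lit 152) (nat_lit 290194842799) (nat_lit 76) (nat_lit 579256645043) (nat_lit 3) (nat_lit 5) (nat_lit 5) (nat_lit 5) (nat_lit 4) (nat_lit 4) (nat_lit 322) (nat_lit 280) (nat_lit 118)) (XT.nd (nat_lit 78) (nat_lit 0) (nat_lit 0) (XT.lf (nat_lit 0) (nat_lit 117396038253) (nat_lit 152) (nat_lit 174346991993) (nat_lit 76) (nat_lit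 706996506931) (nat_lit 3) (nat_lit 5) (nat_lit 5) (nat_lit 5) (nat_lit 4) (nat_lit 4) (nat_lit 323) (nat_lit 280) (nat_lit 117)) (XT.lf (nat_lit 0) (nat_lit 177547823562) (nat_lit 152) (nat_lit 49231389039) (nat_lit 76) (nat_lit 844955531016) (nat_lit 3) (nat_lit 5) (nat_lit 5) (nat_lit 5) (nat_lit 4) (nat_lit 4) (nat_lit 324) (nat_lit 280) (nat_lit 116)))))) (XT.nd (nat_lit 390) (nat_lit 228) (nat_lit 0) (XT.nd (nat_lit 156) (nat_lit 456) (nat_lit 0) (XT.nd (nat_lit 78) (nat_lit 0) (nat_lit 0) (XT.lf (nat_lit 0) (nat_lit 23472452166) (nat_lit 0) (nat_lit 23472452166) (nat_lit 380) (nat_lit 1518686894) (nat_lit 31) (nat_lit 5) (nat_lit 31) (nat_lit 3) (nat_lit 36) (nat_lit 3) (nat_lit 281) (nat_lit 281) (nat_lit 158)) (XT.lf (nat_lit 0) (nat_lit 87860219634) (nat_lit 0) (nat_lit 9790931657) (nat_lit 380) (nat_lit 3152599562) (nat_lit 31) (nat_lit 5) (nat_lit 31) (nat_lit 3) (nat_lit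 36) (nat_lit 3) (nat_lit 282) (nat_lit 281) (nat_lit 157))) (XT.nd (nat_lit 78) (nat_lit 456) (nat_lit 0) (XT.lf (nat_lit 76) (nat_lit 27714809874) (nat_lit 0) (nat_lit 75394131018) (nat_lit 456) (nat_lit 1769866556) (nat_lit 32) (nat_lit 5) (nat_lit 31) (nat_lit 5) (nat_lit 37) (nat_lit 5) (nat_lit 283) (nat_lit 281) (nat_lit 156)) (XT.nd (nat_lit 78) (nat_lit 0) (nat_lit 76) (XT.lf (nat_lit 0) (nat_lit 354165196) (nat_lit 456) (nat_lit 37146852115) (nat_lit 532) (nat_lit 71730040511) (nat_lit 25) (nat_lit 5) (nat_lit 31) (nat_lit 5) (nat_lit 32) (nat_lit 5) (nat_lit 284) (nat_lit 281) (nat_lit 155)) (XT.lf (nat_lit 0) (nat_lit 2792025288) (nat_lit 456) (nat_lit 107660515220) (nat_lit 532) (nat_lit 3456112781) (nat_lit 26) (nat_lit 5) (nat_lit 32) (nat_lit 5) (nat_lit 33) (nat_lit 5) (nat_lit 285) (nat_lit 281) (nat_lit 154))))) (XT.nd (nat_lit 234) (nat_lit 304) (nat_lit 0) (XT.nd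 (nat_lit 78) (nat_lit 0) (nat_lit 0) (XT.lf (nat_lit 0) (nat_lit 7440529104) (nat_lit 456) (nat_lit 64652716977) (nat_lit 532) (nat_lit 46705965450) (nat_lit 26) (nat_lit 5) (nat_lit 32) (nat_lit 5) (nat_lit 33) (nat_lit 5) (nat_lit 286) (nat_lit 281) (nat_lit 153)) (XT.nd (nat_lit 78) (nat_lit 0) (nat_lit 76) (XT.lf (nat_lit 0) (nat_lit 12460469663) (nat_lit 456) (nat_lit 18204648682) (nat_lit 532) (nat_lit 93415935582) (nat_lit 26) (nat_lit 5) (nat_lit 32) (nat_lit 5) (nat_lit 33) (nat_lit 5) (nat_lit 287) (nat_lit 281) (nat_lit 152)) (XT.lf (nat_lit 0) (nat_lit 19050257463) (nat_lit 456) (nat_lit 96438490511) (nat_lit 76) (nat_lit 14203239292) (nat_lit 27) (nat_lit 5) (nat_lit 33) (nat_lit 5) (nat_lit 28) (nat_lit 5) (nat_lit 288) (nat_lit 281) (nat_lit 151)))) (XT.nd (nat_lit 78) (nat_lit 380) (nat_lit 0) (XT.lf (nat_lit 0) (nat_lit 27474014415) (nat_lit 456) (nat_lit 46658147669)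 (nat_lit 76) (nat_lit 61515093736) (nat_lit 27) (nat_lit 5) (nat_lit 33) (nat_lit 5) (nat_lit 28) (nat_lit 5) (nat_lit 289) (nat_lit 281) (nat_lit 150)) (XT.nd (nat_lit 78) (nat_lit 0) (nat_lit 0) (XT.lf (nat_lit 0) (nat_lit 7478393004) (nat_lit 380) (nat_lit 29272776755) (nat_lit 456) (nat_lit 105313419454) (nat_lit 22) (nat_lit 5) (nat_lit 27) (nat_lit 5) (nat_lit 28) (nat_lit 5) (nat_lit 290) (nat_lit 281) (nat_lit 149)) (XT.lf (nat_lit 0) (nat_lit 48540178842) (nat_lit 456) (nat_lit 80788559445) (nat_lit 76) (nat_lit 19524999433) (nat_lit 22) (nat_lit 5) (nat_lit 28) (nat_lit 5) (nat_lit 23) (nat_lit 5) (nat_lit 291) (nat_lit 281) (nat_lit 148))))))))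
noncomputable def xc114 : XT := (XT.nd (nat_lit 1716) (nat_lit 228) (nat_lit 0) (XT.nd (nat_lit 858) (nat_lit 456) (nat_lit 0) (XT.nd (nat_lit 390) (nat_lit 380) (nat_lit 0) (XT.nd (nat_lit 156) (nat_lit 152) (nat_lit 0) (XT.nd (nat_lit 78) (nat_lit 228) (nat_lit 0) (XT.lf (nat_lit 0) (nat_lit 62032327109) (nat_lit 456) (nat_lit 23447768850) (nat_lit 76) (nat_lit 70645123399) (nat_lit 22) (nat_lit 5) (nat_lit 28) (nat_lit 5) (nat_lit 23) (nat_lit 5) (nat_lit 292) (nat_lit 281) (nat_lit 147)) (XT.lf (nat_lit 0) (nat_lit 40506271593) (nat_lit 228) (nat_lit 37071462260) (nat_lit 304) (nat_lit 86322777271) (nat_lit 19) (nat_lit 5) (nat_lit 22) (nat_lit 5) (nat_lit 23) (nat_lit 5) (nat_lit 293) (nat_lit 281) (nat_lit 146))) (XT.nd (nat_lit 78) (nat_lit 152) (nat_lit 0) (XT.lf (nat_lit 0) (nat_lit 95390050100) (nat_lit 304) (nat_lit 61719174379) (nat_lit 76) (nat_lit 15106741936) (nat_lit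 19) (nat_lit 5) (nat_lit 23) (nat_lit 5) (nat_lit 20) (nat_lit 5) (nat_lit 294) (nat_lit 281) (nat_lit 145)) (XT.nd (nat_lit 78) (nat_lit 0) (nat_lit 0) (XT.lf (nat_lit 0) (nat_lit 4133480303) (nat_lit 152) (nat_lit 111555921044) (nat_lit 228) (nat_lit 65422294973) (nat_lit 17) (nat_lit 5) (nat_lit 19) (nat_lit 5) (nat_lit 20) (nat_lit 5) (nat_lit 295) (nat_lit 281) (nat_lit 144)) (XT.lf (nat_lit 0) (nat_lit 78764084954) (nat_lit 152) (nat_lit 60535883669) (nat_lit 228) (nat_lit 51284136563) (nat_lit 17) (nat_lit 5) (nat_lit 19) (nat_lit 5) (nat_lit 20) (nat_lit 5) (nat_lit 296) (nat_lit 281) (nat_lit 143))))) (XT.nd (nat_lit 234) (nat_lit 152) (nat_lit 0) (XT.nd (nat_lit 78) (nat_lit 228) (nat_lit 0) (XT.lf (nat_lit 0) (nat_lit 159364872661) (nat_lit 152) (nat_lit 5434282999) (nat_lit 228) (nat_lit 36015171011) (nat_lit 17) (nat_lit 5) (nat_lit 19) (nat_lit 5) (nat_lit 20) (nat_lit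 5) (nat_lit 297) (nat_lit 281) (nat_lit 142)) (XT.nd (nat_lit 78) (nat_lit 76) (nat_lit 0) (XT.lf (nat_lit 0) (nat_lit 35000863475) (nat_lit 152) (nat_lit 159479491768) (nat_lit 228) (nat_lit 17211246141) (nat_lit 15) (nat_lit 5) (nat_lit 17) (nat_lit 5) (nat_lit 18) (nat_lit 5) (nat_lit 298) (nat_lit 281) (nat_lit 141)) (XT.lf (nat_lit 0) (nat_lit 4245749594) (nat_lit 228) (nat_lit 103669258708) (nat_lit 76) (nat_lit 115413798148) (nat_lit 14) (nat_lit 5) (nat_lit 17) (nat_lit 5) (nat_lit 15) (nat_lit 5) (nat_lit 299) (nat_lit 281) (nat_lit 140)))) (XT.nd (nat_lit 78) (nat_lit 152) (nat_lit 0) (XT.lf (nat_lit 0) (nat_lit 26489258855) (nat_lit 228) (nat_lit 25253355534) (nat_lit 76) (nat_lit 184118626614) (nat_lit 14) (nat_lit 5) (nat_lit 17) (nat_lit 5) (nat_lit 15) (nat_lit 5) (nat_lit 300) (nat_lit 281) (nat_lit 139)) (XT.nd (nat_lit 78) (nat_lit 0) (nat_lit 0) (XT.lf (nat_lit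 0) (nat_lit 52270463630) (nat_lit 228) (nat_lit 186964241679) (nat_lit 76) (nat_lit 10020909091) (nat_lit 12) (nat_lit 5) (nat_lit 15) (nat_lit 5) (nat_lit 13) (nat_lit 5) (nat_lit 301) (nat_lit 281) (nat_lit 138)) (XT.lf (nat_lit 0) (nat_lit 82166363455) (nat_lit 228) (nat_lit 106752576505) (nat_lit 76) (nat_lit 74638422986) (nat_lit 12) (nat_lit 5) (nat_lit 15) (nat_lit 5) (nat_lit 13) (nat_lit 5) (nat_lit 302) (nat_lit 281) (nat_lit 137)))))) (XT.nd (nat_lit 390) (nat_lit 228) (nat_lit 0) (XT.nd (nat_lit 156) (nat_lit 76) (nat_lit 0) (XT.nd (nat_lit 78) (nat_lit 152) (nat_lit 0) (XT.lf (nat_lit 0) (nat_lit 114453776784) (nat_lit 228) (nat_lit 20124198640) (nat_lit 76) (nat_lit 144425289715) (nat_lit 12) (nat_lit 5) (nat_lit 15) (nat_lit 5) (nat_lit 13) (nat_lit 5) (nat_lit 303) (nat_lit 281) (nat_lit 136)) (XT.lf (nat_lit 0) (nat_lit 77301162486) (nat_lit 152) (nat_lit 73881968768)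 (nat_lit 228) (nat_lit 144352993411) (nat_lit 10) (nat_lit 5) (nat_lit 12) (nat_lit 5) (nat_lit 13) (nat_lit 5) (nat_lit 304) (nat_lit 281) (nat_lit 135))) (XT.nd (nat_lit 78) (nat_lit 76) (nat_lit 0) (XT.lf (nat_lit 0) (nat_lit 183664834492) (nat_lit 152) (nat_lit 7736090183) (nat_lit 228) (nat_lit 121946681957) (nat_lit 10) (nat_lit 5) (nat_lit 12) (nat_lit 5) (nat_lit 13) (nat_lit 5) (nat_lit 305) (nat_lit 281) (nat_lit 134)) (XT.nd (nat_lit 78) (nat_lit 76) (nat_lit 0) (XT.lf (nat_lit 0) (nat_lit 236368031645) (nat_lit 228) (nat_lit 35578622769) (nat_lit 76) (nat_lit 60514802399) (nat_lit 10) (nat_lit 5) (nat_lit 13) (nat_lit 5) (nat_lit 11) (nat_lit 4) (nat_lit 306) (nat_lit 281) (nat_lit 133)) (XT.lf (nat_lit 0) (nat_lit 69320429933) (nat_lit 76) (nat_lit 217480050857) (nat_lit 152) (nat_lit 66154497124) (nat_lit 9) (nat_lit 5) (nat_lit 10) (nat_lit 5) (nat_lit 11) (nat_lit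 4) (nat_lit 307) (nat_lit 281) (nat_lit 132))))) (XT.nd (nat_lit 234) (nat_lit 0) (nat_lit 0) (XT.nd (nat_lit 78) (nat_lit 228) (nat_lit 0) (XT.lf (nat_lit 0) (nat_lit 184634619341) (nat_lit 76) (nat_lit 157605572133) (nat_lit 152) (nat_lit 32769976718) (nat_lit 9) (nat_lit 5) (nat_lit 10) (nat_lit 5) (nat_lit 11) (nat_lit 4) (nat_lit 308) (nat_lit 281) (nat_lit 131)) (XT.nd (nat_lit 78) (nat_lit 152) (nat_lit 0) (XT.lf (nat_lit 0) (nat_lit 3120849256) (nat_lit 152) (nat_lit 89735010308) (nat_lit 76) (nat_lit 305967602770) (nat_lit 8) (nat_lit 5) (nat_lit 10) (nat_lit 5) (nat_lit 9) (nat_lit 5) (nat_lit 309) (nat_lit 281) (nat_lit 130)) (XT.lf (nat_lit 0) (nat_lit 19058847493) (nat_lit 152) (nat_lit 21511926138) (nat_lit 228) (nat_lit 383866292525) (nat_lit 6) (nat_lit 5) (nat_lit 8) (nat_lit 5) (nat_lit 9) (nat_lit 5) (nat_lit 310) (nat_lit 281) (nat_lit 129)))) (XT.nd (nat_lit 78)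 (nat_lit 0) (nat_lit 0) (XT.lf (nat_lit 0) (nat_lit 84869559868) (nat_lit 228) (nat_lit 311643567772) (nat_lit 76) (nat_lit 55278401753) (nat_lit 6) (nat_lit 5) (nat_lit 9) (nat_lit 5) (nat_lit 7) (nat_lit 4) (nat_lit 311) (nat_lit 281) (nat_lit 128)) (XT.nd (nat_lit 78) (nat_lit 0) (nat_lit 0) (XT.lf (nat_lit 0) (nat_lit 133270907022) (nat_lit 228) (nat_lit 210969043925) (nat_lit 76) (nat_lit 137049706602) (nat_lit 6) (nat_lit 5) (nat_lit 9) (nat_lit 5) (nat_lit 7) (nat_lit 4) (nat_lit 312) (nat_lit 281) (nat_lit 127)) (XT.lf (nat_lit 0) (nat_lit 185544275549) (nat_lit 228) (nat_lit 102240695011) (nat_lit 76) (nat_lit 225362672774) (nat_lit 6) (nat_lit 5) (nat_lit 9) (nat_lit 5) (nat_lit 7) (nat_lit 4) (nat_lit 313) (nat_lit 281) (nat_lit 126))))))) (XT.nd (nat_lit 35100) (nat_lit 0) (nat_lit 1444) (XT.nd (nat_lit 390) (nat_lit 152) (nat_lit 0) (XT.nd (nat_lit 156) (nat_lit 0) (nat_lit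 0) (XT.nd (nat_lit 78) (nat_lit 0) (nat_lit 0) (XT.lf (nat_lit 0) (nat_lit 15985452169) (nat_lit 76) (nat_lit 226398431899) (nat_lit 152) (nat_lit 305139634703) (nat_lit 5) (nat_lit 5) (nat_lit 6) (nat_lit 5) (nat_lit 7) (nat_lit 4) (nat_lit 314) (nat_lit 281) (nat_lit 125)) (XT.lf (nat_lit 0) (nat_lit 149484086547) (nat_lit 76) (nat_lit 157081939468) (nat_lit 152) (nat_lit 277859809449) (nat_lit 5) (nat_lit 5) (nat_lit 6) (nat_lit 5) (nat_lit 7) (nat_lit 4) (nat_lit 315) (nat_lit 281) (nat_lit 124))) (XT.nd (nat_lit 78) (nat_lit 0) (nat_lit 0) (XT.lf (nat_lit 0) (nat_lit 293662497326) (nat_lit 76) (nat_lit 82220170654) (nat_lit 152) (nat_lit 248397675586) (nat_lit 5) (nat_lit 5) (nat_lit 6) (nat_lit 5) (nat_lit 7) (nat_lit 4) (nat_lit 316) (nat_lit 281) (nat_lit 123)) (XT.nd (nat_lit 78) (nat_lit 0) (nat_lit 0) (XT.lf (nat_lit 0) (nat_lit 449375075088) (nat_lit 76) (nat_lit 1369500162)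 (nat_lit 152) (nat_lit 216578642691) (nat_lit 5) (nat_lit 5) (nat_lit 6) (nat_lit 5) (nat_lit 7) (nat_lit 4) (nat_lit 317) (nat_lit 281) (nat_lit 122)) (XT.lf (nat_lit 0) (nat_lit 533662453961) (nat_lit 152) (nat_lit 98332046458) (nat_lit 0) (nat_lit 81649660657) (nat_lit 5) (nat_lit 5) (nat_lit 7) (nat_lit 4) (nat_lit 5) (nat_lit 4) (nat_lit 318) (nat_lit 281) (nat_lit 121))))) (XT.nd (nat_lit 234) (nat_lit 76) (nat_lit 0) (XT.nd (nat_lit 78) (nat_lit 0) (nat_lit 0) (XT.lf (nat_lit 0) (nat_lit 32440475405) (nat_lit 76) (nat_lit 591588995758) (nat_lit 76) (nat_lit 139576052134) (nat_lit 4) (nat_lit 4) (nat_lit 5) (nat_lit 5) (nat_lit 5) (nat_lit 4) (nat_lit 319) (nat_lit 281) (nat_lit 120)) (XT.nd (nat_lit 78) (nat_lit 0) (nat_lit 0) (XT.lf (nat_lit 0) (nat_lit 179266937254) (nat_lit 76) (nat_lit 545047429483) (nat_lit 76) (nat_lit 93034346673) (nat_lit 4) (nat_lit 4) (nat_lit 5)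 (nat_lit 5) (nat_lit 5) (nat_lit 4) (nat_lit 320) (nat_lit 281) (nat_lit 119)) (XT.lf (nat_lit 0) (nat_lit 337839430516) (nat_lit 76) (nat_lit 494782572127) (nat_lit 76) (nat_lit 42769360442) (nat_lit 4) (nat_lit 4) (nat_lit 5) (nat_lit 5) (nat_lit 5) (nat_lit 4) (nat_lit 321) (nat_lit 281) (nat_lit 118)))) (XT.nd (nat_lit 78) (nat_lit 0) (nat_lit 0) (XT.lf (nat_lit 0) (nat_lit 10940657507) (nat_lit 152) (nat_lit 429256763399) (nat_lit 76) (nat_lit 497857849570) (nat_lit 3) (nat_lit 5) (nat_lit 5) (nat_lit 5) (nat_lit 4) (nat_lit 4) (nat_lit 322) (nat_lit 281) (nat_lit 117)) (XT.nd (nat_lit 34320) (nat_lit 0) (nat_lit 2128) (XT.lf (nat_lit 0) (nat_lit 66636775198) (nat_lit 152) (nat_lit 313408949091) (nat_lit 76) (nat_lit 625597698595) (nat_lit 3) (nat_lit 5) (nat_lit 5) (nat_lit 5) (nat_lit 4) (nat_lit 4) (nat_lit 323) (nat_lit 281) (nat_lit 116)) (XT.lf (nat_lit 0) (nat_lit 25353054331)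 (nat_lit 0) (nat_lit 25353054331) (nat_lit 380) (nat_lit 1634063442) (nat_lit 31) (nat_lit 5) (nat_lit 31) (nat_lit 3) (nat_lit 36) (nat_lit 3) (nat_lit 282) (nat_lit 282) (nat_lit 156)))))) (XT.nd (nat_lit 390) (nat_lit 228) (nat_lit 0) (XT.nd (nat_lit 156) (nat_lit 456) (nat_lit 0) (XT.nd (nat_lit 78) (nat_lit 0) (nat_lit 0) (XT.lf (nat_lit 0) (nat_lit 94894233486) (nat_lit 0) (nat_lit 10579402471) (nat_lit 380) (nat_lit 3393477150) (nat_lit 31) (nat_lit 5) (nat_lit 31) (nat_lit 3) (nat_lit 36) (nat_lit 3) (nat_lit 283) (nat_lit 282) (nat_lit 155)) (XT.lf (nat_lit 76) (nat_lit 29938095274) (nat_lit 0) (nat_lit 81429214640) (nat_lit 456) (nat_lit 1900931305) (nat_lit 32) (nat_lit 5) (nat_lit 31) (nat_lit 5) (nat_lit 37) (nat_lit 5) (nat_lit 284) (nat_lit 282) (nat_lit 154))) (XT.nd (nat_lit 78) (nat_lit 0) (nat_lit 76) (XT.lf (nat_lit 0) (nat_lit 391755906) (nat_lit 456) (nat_lit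 40112379617) (nat_lit 532) (nat_lit 77464581852) (nat_lit 25) (nat_lit 5) (nat_lit 31) (nat_lit 5) (nat_lit 32) (nat_lit 5) (nat_lit 285) (nat_lit 282) (nat_lit 153)) (XT.nd (nat_lit 78) (nat_lit 0) (nat_lit 0) (XT.lf (nat_lit 0) (nat_lit 3024041047) (nat_lit 456) (nat_lit 116266453798) (nat_lit 532) (nat_lit 3730080194) (nat_lit 26) (nat_lit 5) (nat_lit 32) (nat_lit 5) (nat_lit 33) (nat_lit 5) (nat_lit 286) (nat_lit 282) (nat_lit 152)) (XT.lf (nat_lit 0) (nat_lit 8043784151) (nat_lit 456) (nat_lit 69818543002) (nat_lit 532) (nat_lit 50440107863) (nat_lit 26) (nat_lit 5) (nat_lit 32) (nat_lit 5) (nat_lit 33) (nat_lit 5) (nat_lit 287) (nat_lit 282) (nat_lit 151))))) (XT.nd (nat_lit 234) (nat_lit 304) (nat_lit 0) (XT.nd (nat_lit 78) (nat_lit 0) (nat_lit 76) (XT.lf (nat_lit 0) (nat_lit 13464726419) (nat_lit 456) (nat_lit 19655102676) (nat_lit 532) (nat_lit 100887048555) (nat_lit 26)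 (nat_lit 5) (nat_lit 32) (nat_lit 5) (nat_lit 33) (nat_lit 5) (nat_lit 288) (nat_lit 282) (nat_lit 150)) (XT.nd (nat_lit 78) (nat_lit 0) (nat_lit 0) (XT.lf (nat_lit 0) (nat_lit 20581256569) (nat_lit 456) (nat_lit 104147149088) (nat_lit 76) (nat_lit 15338320222) (nat_lit 27) (nat_lit 5) (nat_lit 33) (nat_lit 5) (nat_lit 28) (nat_lit 5) (nat_lit 289) (nat_lit 282) (nat_lit 149)) (XT.lf (nat_lit 0) (nat_lit 29678397150) (nat_lit 456) (nat_lit 50384854422) (nat_lit 76) (nat_lit 66435210296) (nat_lit 27) (nat_lit 5) (nat_lit 33) (nat_lit 5) (nat_lit 28) (nat_lit 5) (nat_lit 290) (nat_lit 282) (nat_lit 148)))) (XT.nd (nat_lit 78) (nat_lit 0) (nat_lit 0) (XT.lf (nat_lit 0) (nat_lit 8082458996) (nat_lit 380) (nat_lit 31614926649) (nat_lit 456) (nat_lit 113731827689) (nat_lit 22) (nat_lit 5) (nat_lit 27) (nat_lit 5) (nat_lit 28) (nat_lit 5) (nat_lit 291) (nat_lit 282) (nat_lit 147)) (XT.nd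 (nat_lit 78) (nat_lit 0) (nat_lit 0) (XT.lf (nat_lit 0) (nat_lit 52429054652) (nat_lit 456) (nat_lit 87245768783) (nat_lit 76) (nat_lit 21086711093) (nat_lit 22) (nat_lit 5) (nat_lit 28) (nat_lit 5) (nat_lit 23) (nat_lit 5) (nat_lit 292) (nat_lit 282) (nat_lit 146)) (XT.lf (nat_lit 0) (nat_lit 67000155411) (nat_lit 456) (nat_lit 25318150157) (nat_lit 76) (nat_lit 76296466331) (nat_lit 22) (nat_lit 5) (nat_lit 28) (nat_lit 5) (nat_lit 23) (nat_lit 5) (nat_lit 293) (nat_lit 282) (nat_lit 145))))))))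
noncomputable def xc115 : XT := (XT.nd (nat_lit 1716) (nat_lit 152) (nat_lit 0) (XT.nd (nat_lit 858) (nat_lit 532) (nat_lit 0) (XT.nd (nat_lit 390) (nat_lit 380) (nat_lit 0) (XT.nd (nat_lit 156) (nat_lit 152) (nat_lit 0) (XT.nd (nat_lit 78) (nat_lit 0) (nat_lit 0) (XT.lf (nat_lit 0) (nat_lit 43752075795) (nat_lit 228) (nat_lit 40036858118) (nat_lit 304) (nat_lit 93223177337) (nat_lit 19) (nat_lit 5) (nat_lit 22) (nat_lit 5) (nat_lit 23) (nat_lit 5) (nat_lit 294) (nat_lit 282) (nat_lit 144)) (XT.lf (nat_lit 0) (nat_lit 103025873621) (nat_lit 304) (nat_lit 66651397667) (nat_lit 76) (nat_lit 16315563753) (nat_lit 19) (nat_lit 5) (nat_lit 23) (nat_lit 5) (nat_lit 20) (nat_lit 5) (nat_lit 295) (nat_lit 282) (nat_lit 143))) (XT.nd (nat_lit 78) (nat_lit 0) (nat_lit 0) (XT.lf (nat_lit 0) (nat_lit 4469334943) (nat_lit 152) (nat_lit 120479620326) (nat_lit 228) (nat_lit 70651288383) (nat_lit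 17) (nat_lit 5) (nat_lit 19) (nat_lit 5) (nat_lit 20) (nat_lit 5) (nat_lit 296) (nat_lit 282) (nat_lit 142)) (XT.nd (nat_lit 78) (nat_lit 0) (nat_lit 0) (XT.lf (nat_lit 0) (nat_lit 85070004542) (nat_lit 152) (nat_lit 65378037325) (nat_lit 228) (nat_lit 55382432129) (nat_lit 17) (nat_lit 5) (nat_lit 19) (nat_lit 5) (nat_lit 20) (nat_lit 5) (nat_lit 297) (nat_lit 282) (nat_lit 141)) (XT.lf (nat_lit 0) (nat_lit 172118500244) (nat_lit 152) (nat_lit 5868361715) (nat_lit 228) (nat_lit 38892277877) (nat_lit 17) (nat_lit 5) (nat_lit 19) (nat_lit 5) (nat_lit 20) (nat_lit 5) (nat_lit 298) (nat_lit 282) (nat_lit 140))))) (XT.nd (nat_lit 234) (nat_lit 152) (nat_lit 0) (XT.nd (nat_lit 78) (nat_lit 76) (nat_lit 0) (XT.lf (nat_lit 0) (nat_lit 37805566950) (nat_lit 152) (nat_lit 172236837257) (nat_lit 228) (nat_lit 18584206885) (nat_lit 15) (nat_lit 5) (nat_lit 17) (nat_lit 5) (nat_lit 18) (nat_lit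 5) (nat_lit 299) (nat_lit 282) (nat_lit 139)) (XT.nd (nat_lit 78) (nat_lit 0) (nat_lit 0) (XT.lf (nat_lit 0) (nat_lit 4588874289) (nat_lit 228) (nat_lit 111958301194) (nat_lit 76) (nat_lit 124647633649) (nat_lit 14) (nat_lit 5) (nat_lit 17) (nat_lit 5) (nat_lit 15) (nat_lit 5) (nat_lit 300) (nat_lit 282) (nat_lit 138)) (XT.lf (nat_lit 0) (nat_lit 28611607644) (nat_lit 228) (nat_lit 27269458966) (nat_lit 76) (nat_lit 198848794196) (nat_lit 14) (nat_lit 5) (nat_lit 17) (nat_lit 5) (nat_lit 15) (nat_lit 5) (nat_lit 301) (nat_lit 282) (nat_lit 137)))) (XT.nd (nat_lit 78) (nat_lit 0) (nat_lit 0) (XT.lf (nat_lit 0) (nat_lit 56455192644) (nat_lit 228) (nat_lit 201917078707) (nat_lit 76) (nat_lit 10823523709) (nat_lit 12) (nat_lit 5) (nat_lit 15) (nat_lit 5) (nat_lit 13) (nat_lit 5) (nat_lit 302) (nat_lit 282) (nat_lit 136)) (XT.nd (nat_lit 78) (nat_lit 0) (nat_lit 0) (XT.lf (nat_lit 0) (nat_lit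 88742535423) (nat_lit 228) (nat_lit 115288799008) (nat_lit 76) (nat_lit 80610368947) (nat_lit 12) (nat_lit 5) (nat_lit 15) (nat_lit 5) (nat_lit 13) (nat_lit 5) (nat_lit 303) (nat_lit 282) (nat_lit 135)) (XT.lf (nat_lit 0) (nat_lit 123612729753) (nat_lit 228) (nat_lit 21730445996) (nat_lit 76) (nat_lit 155980120412) (nat_lit 12) (nat_lit 5) (nat_lit 15) (nat_lit 5) (nat_lit 13) (nat_lit 5) (nat_lit 304) (nat_lit 282) (nat_lit 134)))))) (XT.nd (nat_lit 390) (nat_lit 304) (nat_lit 0) (XT.nd (nat_lit 156) (nat_lit 76) (nat_lit 0) (XT.nd (nat_lit 78) (nat_lit 0) (nat_lit 0) (XT.lf (nat_lit 0) (nat_lit 83488850638) (nat_lit 152) (nat_lit 79791472047) (nat_lit 228) (nat_lit 155898471897) (nat_lit 10) (nat_lit 5) (nat_lit 12) (nat_lit 5) (nat_lit 13) (nat_lit 5) (nat_lit 305) (nat_lit 282) (nat_lit 133)) (XT.lf (nat_lit 0) (nat_lit 198361350098) (nat_lit 152) (nat_lit 8354001266) (nat_lit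 228) (nat_lit 131699860045) (nat_lit 10) (nat_lit 5) (nat_lit 12) (nat_lit 5) (nat_lit 13) (nat_lit 5) (nat_lit 306) (nat_lit 282) (nat_lit 132))) (XT.nd (nat_lit 78) (nat_lit 76) (nat_lit 0) (XT.lf (nat_lit 0) (nat_lit 255279674353) (nat_lit 228) (nat_lit 38421663400) (nat_lit 76) (nat_lit 65356845203) (nat_lit 10) (nat_lit 5) (nat_lit 13) (nat_lit 5) (nat_lit 11) (nat_lit 4) (nat_lit 307) (nat_lit 282) (nat_lit 131)) (XT.nd (nat_lit 78) (nat_lit 0) (nat_lit 0) (XT.lf (nat_lit 0) (nat_lit 74869231260) (nat_lit 76) (nat_lit 234877401359) (nat_lit 152) (nat_lit 71444561138) (nat_lit 9) (nat_lit 5) (nat_lit 10) (nat_lit 5) (nat_lit 11) (nat_lit 4) (nat_lit 308) (nat_lit 282) (nat_lit 130)) (XT.lf (nat_lit 0) (nat_lit 199408321233) (nat_lit 76) (nat_lit 170213042379) (nat_lit 152) (nat_lit 35389449156) (nat_lit 9) (nat_lit 5) (nat_lit 10) (nat_lit 5) (nat_lit 11) (nat_lit 4) (nat_lit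 309) (nat_lit 282) (nat_lit 129))))) (XT.nd (nat_lit 234) (nat_lit 76) (nat_lit 0) (XT.nd (nat_lit 78) (nat_lit 152) (nat_lit 0) (XT.lf (nat_lit 0) (nat_lit 3372386977) (nat_lit 152) (nat_lit 96910986965) (nat_lit 76) (nat_lit 330445805222) (nat_lit 8) (nat_lit 5) (nat_lit 10) (nat_lit 5) (nat_lit 9) (nat_lit 5) (nat_lit 310) (nat_lit 282) (nat_lit 128)) (XT.nd (nat_lit 78) (nat_lit 0) (nat_lit 0) (XT.lf (nat_lit 0) (nat_lit 20586307962) (nat_lit 152) (nat_lit 23231925040) (nat_lit 228) (nat_lit 414573644857) (nat_lit 6) (nat_lit 5) (nat_lit 8) (nat_lit 5) (nat_lit 9) (nat_lit 5) (nat_lit 311) (nat_lit 282) (nat_lit 127)) (XT.lf (nat_lit 0) (nat_lit 91660810262) (nat_lit 228) (nat_lit 336572383483) (nat_lit 76) (nat_lit 59701514084) (nat_lit 6) (nat_lit 5) (nat_lit 9) (nat_lit 5) (nat_lit 7) (nat_lit 4) (nat_lit 312) (nat_lit 282) (nat_lit 126)))) (XT.nd (nat_lit 78) (nat_lit 76)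 (nat_lit 0) (XT.lf (nat_lit 0) (nat_lit 143934140328) (nat_lit 228) (nat_lit 227844095485) (nat_lit 76) (nat_lit 148014461085) (nat_lit 6) (nat_lit 5) (nat_lit 9) (nat_lit 5) (nat_lit 7) (nat_lit 4) (nat_lit 313) (nat_lit 282) (nat_lit 125)) (XT.nd (nat_lit 78) (nat_lit 76) (nat_lit 0) (XT.lf (nat_lit 0) (nat_lit 200389262727) (nat_lit 228) (nat_lit 110417661766) (nat_lit 76) (nat_lit 243392406925) (nat_lit 6) (nat_lit 5) (nat_lit 9) (nat_lit 5) (nat_lit 7) (nat_lit 4) (nat_lit 314) (nat_lit 282) (nat_lit 124)) (XT.lf (nat_lit 0) (nat_lit 17266519243) (nat_lit 76) (nat_lit 244509467291) (nat_lit 152) (nat_lit 329549295203) (nat_lit 5) (nat_lit 5) (nat_lit 6) (nat_lit 5) (nat_lit 7) (nat_lit 4) (nat_lit 315) (nat_lit 282) (nat_lit 123))))))) (XT.nd (nat_lit 35178) (nat_lit 0) (nat_lit 1216) (XT.nd (nat_lit 390) (nat_lit 76) (nat_lit 0) (XT.nd (nat_lit 156) (nat_lit 76) (nat_lit 0)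 (XT.nd (nat_lit 78) (nat_lit 0) (nat_lit 0) (XT.lf (nat_lit 0) (nat_lit 161444879119) (nat_lit 76) (nat_lit 169647717625) (nat_lit 152) (nat_lit 300087195801) (nat_lit 5) (nat_lit 5) (nat_lit 6) (nat_lit 5) (nat_lit 7) (nat_lit 4) (nat_lit 316) (nat_lit 282) (nat_lit 122)) (XT.lf (nat_lit 0) (nat_lit 317157409750) (nat_lit 76) (nat_lit 88797064862) (nat_lit 152) (nat_lit 268268194814) (nat_lit 5) (nat_lit 5) (nat_lit 6) (nat_lit 5) (nat_lit 7) (nat_lit 4) (nat_lit 317) (nat_lit 282) (nat_lit 121))) (XT.nd (nat_lit 78) (nat_lit 76) (nat_lit 0) (XT.lf (nat_lit 0) (nat_lit 485326852057) (nat_lit 76) (nat_lit 1478394022) (nat_lit 152) (nat_lit 233903735200) (nat_lit 5) (nat_lit 5) (nat_lit 6) (nat_lit 5) (nat_lit 7) (nat_lit 4) (nat_lit 318) (nat_lit 282) (nat_lit 120)) (XT.nd (nat_lit 78) (nat_lit 76) (nat_lit 0) (XT.lf (nat_lit 0) (nat_lit 576356488083) (nat_lit 152) (nat_lit 106196898102)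 (nat_lit 0) (nat_lit 88182219463) (nat_lit 5) (nat_lit 5) (nat_lit 7) (nat_lit 4) (nat_lit 5) (nat_lit 4) (nat_lit 319) (nat_lit 282) (nat_lit 119)) (XT.lf (nat_lit 0) (nat_lit 35037382166) (nat_lit 76) (nat_lit 638915447754) (nat_lit 76) (nat_lit 150741050258) (nat_lit 4) (nat_lit 4) (nat_lit 5) (nat_lit 5) (nat_lit 5) (nat_lit 4) (nat_lit 320) (nat_lit 282) (nat_lit 118))))) (XT.nd (nat_lit 34554) (nat_lit 0) (nat_lit 2128) (XT.nd (nat_lit 78) (nat_lit 76) (nat_lit 0) (XT.lf (nat_lit 0) (nat_lit 193609837353) (nat_lit 76) (nat_lit 588650605633) (nat_lit 76) (nat_lit 100476088808) (nat_lit 4) (nat_lit 4) (nat_lit 5) (nat_lit 5) (nat_lit 5) (nat_lit 4) (nat_lit 321) (nat_lit 282) (nat_lit 117)) (XT.nd (nat_lit 78) (nat_lit 76) (nat_lit 0) (XT.lf (nat_lit 0) (nat_lit 364868015623) (nat_lit 76) (nat_lit 534364605482) (nat_lit 76) (nat_lit 46189978167) (nat_lit 4) (nat_lit 4) (nat_lit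 5) (nat_lit 5) (nat_lit 5) (nat_lit 4) (nat_lit 322) (nat_lit 282) (nat_lit 116)) (XT.lf (nat_lit 0) (nat_lit 11816729119) (nat_lit 152) (nat_lit 463595933052) (nat_lit 76) (nat_lit 537686960821) (nat_lit 3) (nat_lit 5) (nat_lit 5) (nat_lit 5) (nat_lit 4) (nat_lit 4) (nat_lit 323) (nat_lit 282) (nat_lit 115)))) (XT.nd (nat_lit 78) (nat_lit 0) (nat_lit 0) (XT.lf (nat_lit 0) (nat_lit 27383704364) (nat_lit 0) (nat_lit 27383704364) (nat_lit 380) (nat_lit 1759542972) (nat_lit 31) (nat_lit 5) (nat_lit 31) (nat_lit 3) (nat_lit 36) (nat_lit 3) (nat_lit 283) (nat_lit 283) (nat_lit 154)) (XT.nd (nat_lit 78) (nat_lit 0) (nat_lit 0) (XT.lf (nat_lit 0) (nat_lit 102490227138) (nat_lit 0) (nat_lit 11430209642) (nat_lit 380) (nat_lit 3655241350) (nat_lit 31) (nat_lit 5) (nat_lit 31) (nat_lit 3) (nat_lit 36) (nat_lit 3) (nat_lit 284) (nat_lit 283) (nat_lit 153)) (XT.lf (nat_lit 76) (nat_lit 32338373184)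 (nat_lit 0) (nat_lit 87946598056) (nat_lit 456) (nat_lit 2043982681) (nat_lit 32) (nat_lit 5) (nat_lit 31) (nat_lit 5) (nat_lit 37) (nat_lit 5) (nat_lit 285) (nat_lit 283) (nat_lit 152)))))) (XT.nd (nat_lit 390) (nat_lit 456) (nat_lit 0) (XT.nd (nat_lit 156) (nat_lit 0) (nat_lit 76) (XT.nd (nat_lit 78) (nat_lit 0) (nat_lit 76) (XT.lf (nat_lit 0) (nat_lit 431033189) (nat_lit 456) (nat_lit 43316036768) (nat_lit 532) (nat_lit 83658437444) (nat_lit 25) (nat_lit 5) (nat_lit 31) (nat_lit 5) (nat_lit 32) (nat_lit 5) (nat_lit 286) (nat_lit 283) (nat_lit 151)) (XT.lf (nat_lit 0) (nat_lit 3273383515) (nat_lit 456) (nat_lit 125561852201) (nat_lit 532) (nat_lit 4026324736) (nat_lit 26) (nat_lit 5) (nat_lit 32) (nat_lit 5) (nat_lit 33) (nat_lit 5) (nat_lit 287) (nat_lit 283) (nat_lit 150))) (XT.nd (nat_lit 78) (nat_lit 0) (nat_lit 0) (XT.lf (nat_lit 0) (nat_lit 8694156498) (nat_lit 456) (nat_lit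 75398546905) (nat_lit 532) (nat_lit 54473314757) (nat_lit 26) (nat_lit 5) (nat_lit 32) (nat_lit 5) (nat_lit 33) (nat_lit 5) (nat_lit 288) (nat_lit 283) (nat_lit 149)) (XT.nd (nat_lit 78) (nat_lit 0) (nat_lit 76) (XT.lf (nat_lit 0) (nat_lit 14548265287) (nat_lit 456) (nat_lit 21222437244) (nat_lit 532) (nat_lit 108956158981) (nat_lit 26) (nat_lit 5) (nat_lit 32) (nat_lit 5) (nat_lit 33) (nat_lit 5) (nat_lit 289) (nat_lit 283) (nat_lit 148)) (XT.lf (nat_lit 0) (nat_lit 22233740041) (nat_lit 456) (nat_lit 112473416329) (nat_lit 76) (nat_lit 16564375711) (nat_lit 27) (nat_lit 5) (nat_lit 33) (nat_lit 5) (nat_lit 28) (nat_lit 5) (nat_lit 290) (nat_lit 283) (nat_lit 147))))) (XT.nd (nat_lit 234) (nat_lit 228) (nat_lit 0) (XT.nd (nat_lit 78) (nat_lit 380) (nat_lit 0) (XT.lf (nat_lit 0) (nat_lit 32058208688) (nat_lit 456) (nat_lit 54410545845) (nat_lit 76) (nat_lit 71749091816) (nat_lit 27)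 (nat_lit 5) (nat_lit 33) (nat_lit 5) (nat_lit 28) (nat_lit 5) (nat_lit 291) (nat_lit 283) (nat_lit 146)) (XT.nd (nat_lit 78) (nat_lit 0) (nat_lit 0) (XT.lf (nat_lit 0) (nat_lit 8734023610) (nat_lit 380) (nat_lit 34144401777) (nat_lit 456) (nat_lit 122824659465) (nat_lit 22) (nat_lit 5) (nat_lit 27) (nat_lit 5) (nat_lit 28) (nat_lit 5) (nat_lit 292) (nat_lit 283) (nat_lit 145)) (XT.lf (nat_lit 0) (nat_lit 56628232851) (nat_lit 456) (nat_lit 94220393063) (nat_lit 76) (nat_lit 22773400814) (nat_lit 22) (nat_lit 5) (nat_lit 28) (nat_lit 5) (nat_lit 23) (nat_lit 5) (nat_lit 293) (nat_lit 283) (nat_lit 144)))) (XT.nd (nat_lit 78) (nat_lit 228) (nat_lit 0) (XT.lf (nat_lit 0) (nat_lit 72364662127) (nat_lit 456) (nat_lit 27338938074) (nat_lit 76) (nat_lit 82399954780) (nat_lit 22) (nat_lit 5) (nat_lit 28) (nat_lit 5) (nat_lit 23) (nat_lit 5) (nat_lit 294) (nat_lit 283) (nat_lit 143)) (XT.nd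 (nat_lit 78) (nat_lit 0) (nat_lit 0) (XT.lf (nat_lit 0) (nat_lit 47256787875) (nat_lit 228) (nat_lit 43239531456) (nat_lit 304) (nat_lit 100676382934) (nat_lit 19) (nat_lit 5) (nat_lit 22) (nat_lit 5) (nat_lit 23) (nat_lit 5) (nat_lit 295) (nat_lit 283) (nat_lit 142)) (XT.lf (nat_lit 0) (nat_lit 111271903999) (nat_lit 304) (nat_lit 71978956443) (nat_lit 76) (nat_lit 17621051019) (nat_lit 19) (nat_lit 5) (nat_lit 23) (nat_lit 5) (nat_lit 20) (nat_lit 5) (nat_lit 296) (nat_lit 283) (nat_lit 141))))))))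
noncomputable def xc116 : XT := (XT.nd (nat_lit 1716) (nat_lit 76) (nat_lit 0) (XT.nd (nat_lit 858) (nat_lit 380) (nat_lit 0) (XT.nd (nat_lit 390) (nat_lit 304) (nat_lit 0) (XT.nd (nat_lit 156) (nat_lit 228) (nat_lit 0) (XT.nd (nat_lit 78) (nat_lit 0) (nat_lit 0) (XT.lf (nat_lit 0) (nat_lit 4831319509) (nat_lit 152) (nat_lit 130117326029) (nat_lit 228) (nat_lit 76299284639) (nat_lit 17) (nat_lit 5) (nat_lit 19) (nat_lit 5) (nat_lit 20) (nat_lit 5) (nat_lit 297) (nat_lit 283) (nat_lit 140)) (XT.lf (nat_lit 0) (nat_lit 91879713953) (nat_lit 152) (nat_lit 70607665567) (nat_lit 228) (nat_lit 59809224093) (nat_lit 17) (nat_lit 5) (nat_lit 19) (nat_lit 5) (nat_lit 20) (nat_lit 5) (nat_lit 298) (nat_lit 283) (nat_lit 139))) (XT.nd (nat_lit 78) (nat_lit 228) (nat_lit 0) (XT.lf (nat_lit 0) (nat_lit 185891784937) (nat_lit 152) (nat_lit 6337261444) (nat_lit 228) (nat_lit 42000139176) (nat_lit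 17) (nat_lit 5) (nat_lit 19) (nat_lit 5) (nat_lit 20) (nat_lit 5) (nat_lit 299) (nat_lit 283) (nat_lit 138)) (XT.nd (nat_lit 78) (nat_lit 76) (nat_lit 0) (XT.lf (nat_lit 0) (nat_lit 40833985554) (nat_lit 152) (nat_lit 186014915023) (nat_lit 228) (nat_lit 20067566424) (nat_lit 15) (nat_lit 5) (nat_lit 17) (nat_lit 5) (nat_lit 18) (nat_lit 5) (nat_lit 300) (nat_lit 283) (nat_lit 137)) (XT.lf (nat_lit 0) (nat_lit 4958954677) (nat_lit 228) (nat_lit 120911108799) (nat_lit 76) (nat_lit 134620071613) (nat_lit 14) (nat_lit 5) (nat_lit 17) (nat_lit 5) (nat_lit 15) (nat_lit 5) (nat_lit 301) (nat_lit 283) (nat_lit 136))))) (XT.nd (nat_lit 234) (nat_lit 152) (nat_lit 0) (XT.nd (nat_lit 78) (nat_lit 152) (nat_lit 0) (XT.lf (nat_lit 0) (nat_lit 30903286667) (nat_lit 228) (nat_lit 29447444859) (nat_lit 76) (nat_lit 214757278539) (nat_lit 14) (nat_lit 5) (nat_lit 17) (nat_lit 5) (nat_lit 15) (nat_lit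 5) (nat_lit 302) (nat_lit 283) (nat_lit 135)) (XT.nd (nat_lit 78) (nat_lit 0) (nat_lit 0) (XT.lf (nat_lit 0) (nat_lit 60974258881) (nat_lit 228) (nat_lit 218066756469) (nat_lit 76) (nat_lit 11690213126) (nat_lit 12) (nat_lit 5) (nat_lit 15) (nat_lit 5) (nat_lit 13) (nat_lit 5) (nat_lit 303) (nat_lit 283) (nat_lit 134)) (XT.lf (nat_lit 0) (nat_lit 95844392726) (nat_lit 228) (nat_lit 124508487619) (nat_lit 76) (nat_lit 87059946166) (nat_lit 12) (nat_lit 5) (nat_lit 15) (nat_lit 5) (nat_lit 13) (nat_lit 5) (nat_lit 304) (nat_lit 283) (nat_lit 133)))) (XT.nd (nat_lit 78) (nat_lit 152) (nat_lit 0) (XT.lf (nat_lit 0) (nat_lit 133504020789) (nat_lit 228) (nat_lit 23465719352) (nat_lit 76) (nat_lit 168459222363) (nat_lit 12) (nat_lit 5) (nat_lit 15) (nat_lit 5) (nat_lit 13) (nat_lit 5) (nat_lit 305) (nat_lit 283) (nat_lit 132)) (XT.nd (nat_lit 78) (nat_lit 0) (nat_lit 0) (XT.lf (nat_lit 0)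 (nat_lit 90171040955) (nat_lit 152) (nat_lit 86173885985) (nat_lit 228) (nat_lit 168367982547) (nat_lit 10) (nat_lit 5) (nat_lit 12) (nat_lit 5) (nat_lit 13) (nat_lit 5) (nat_lit 306) (nat_lit 283) (nat_lit 131)) (XT.lf (nat_lit 0) (nat_lit 214233112055) (nat_lit 152) (nat_lit 9021484492) (nat_lit 228) (nat_lit 142233657088) (nat_lit 10) (nat_lit 5) (nat_lit 12) (nat_lit 5) (nat_lit 13) (nat_lit 5) (nat_lit 307) (nat_lit 283) (nat_lit 130)))))) (XT.nd (nat_lit 390) (nat_lit 76) (nat_lit 0) (XT.nd (nat_lit 156) (nat_lit 228) (nat_lit 0) (XT.nd (nat_lit 78) (nat_lit 76) (nat_lit 0) (XT.lf (nat_lit 0) (nat_lit 275703934598) (nat_lit 228) (nat_lit 41492610816) (nat_lit 76) (nat_lit 70586128941) (nat_lit 10) (nat_lit 5) (nat_lit 13) (nat_lit 5) (nat_lit 11) (nat_lit 4) (nat_lit 308) (nat_lit 283) (nat_lit 129)) (XT.lf (nat_lit 0) (nat_lit 80861484894) (nat_lit 76) (nat_lit 253666690204)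 (nat_lit 152) (nat_lit 77158157789) (nat_lit 9) (nat_lit 5) (nat_lit 10) (nat_lit 5) (nat_lit 11) (nat_lit 4) (nat_lit 309) (nat_lit 283) (nat_lit 128))) (XT.nd (nat_lit 78) (nat_lit 228) (nat_lit 0) (XT.lf (nat_lit 0) (nat_lit 215363500945) (nat_lit 76) (nat_lit 183829249414) (nat_lit 152) (nat_lit 38218782643) (nat_lit 9) (nat_lit 5) (nat_lit 10) (nat_lit 5) (nat_lit 11) (nat_lit 4) (nat_lit 310) (nat_lit 283) (nat_lit 127)) (XT.nd (nat_lit 78) (nat_lit 152) (nat_lit 0) (XT.lf (nat_lit 0) (nat_lit 3643780971) (nat_lit 152) (nat_lit 104661444654) (nat_lit 76) (nat_lit 356882150563) (nat_lit 8) (nat_lit 5) (nat_lit 10) (nat_lit 5) (nat_lit 9) (nat_lit 5) (nat_lit 311) (nat_lit 283) (nat_lit 126)) (XT.lf (nat_lit 0) (nat_lit 22235572570) (nat_lit 152) (nat_lit 25089660122) (nat_lit 228) (nat_lit 447737863717) (nat_lit 6) (nat_lit 5) (nat_lit 8) (nat_lit 5) (nat_lit 9) (nat_lit 5) (nat_lit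 312) (nat_lit 283) (nat_lit 125))))) (XT.nd (nat_lit 234) (nat_lit 76) (nat_lit 0) (XT.nd (nat_lit 78) (nat_lit 0) (nat_lit 0) (XT.lf (nat_lit 0) (nat_lit 98995120217) (nat_lit 228) (nat_lit 363495885316) (nat_lit 76) (nat_lit 64478355540) (nat_lit 6) (nat_lit 5) (nat_lit 9) (nat_lit 5) (nat_lit 7) (nat_lit 4) (nat_lit 313) (nat_lit 283) (nat_lit 124)) (XT.nd (nat_lit 78) (nat_lit 0) (nat_lit 0) (XT.lf (nat_lit 0) (nat_lit 155450209642) (nat_lit 228) (nat_lit 246069503822) (nat_lit 76) (nat_lit 159856284943) (nat_lit 6) (nat_lit 5) (nat_lit 9) (nat_lit 5) (nat_lit 7) (nat_lit 4) (nat_lit 314) (nat_lit 283) (nat_lit 123)) (XT.lf (nat_lit 0) (nat_lit 216421642715) (nat_lit 228) (nat_lit 119249112391) (nat_lit 76) (nat_lit 262864417044) (nat_lit 6) (nat_lit 5) (nat_lit 9) (nat_lit 5) (nat_lit 7) (nat_lit 4) (nat_lit 315) (nat_lit 283) (nat_lit 122)))) (XT.nd (nat_lit 78) (nat_lit 0)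 (nat_lit 0) (XT.lf (nat_lit 0) (nat_lit 18649753421) (nat_lit 76) (nat_lit 264069505229) (nat_lit 152) (nat_lit 355911944001) (nat_lit 5) (nat_lit 5) (nat_lit 6) (nat_lit 5) (nat_lit 7) (nat_lit 4) (nat_lit 316) (nat_lit 283) (nat_lit 121)) (XT.nd (nat_lit 78) (nat_lit 0) (nat_lit 0) (XT.lf (nat_lit 0) (nat_lit 174362240410) (nat_lit 76) (nat_lit 183218868882) (nat_lit 152) (nat_lit 324092972558) (nat_lit 5) (nat_lit 5) (nat_lit 6) (nat_lit 5) (nat_lit 7) (nat_lit 4) (nat_lit 317) (nat_lit 283) (nat_lit 120)) (XT.lf (nat_lit 0) (nat_lit 342531642308) (nat_lit 76) (nat_lit 95900213242) (nat_lit 152) (nat_lit 289728540301) (nat_lit 5) (nat_lit 5) (nat_lit 6) (nat_lit 5) (nat_lit 7) (nat_lit 4) (nat_lit 318) (nat_lit 283) (nat_lit 119))))))) (XT.nd (nat_lit 35256) (nat_lit 0) (nat_lit 988) (XT.nd (nat_lit 34788) (nat_lit 0) (nat_lit 1596) (XT.nd (nat_lit 156) (nat_lit 76) (nat_lit 0)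 (XT.nd (nat_lit 78) (nat_lit 0) (nat_lit 0) (XT.lf (nat_lit 0) (nat_lit 524154518535) (nat_lit 76) (nat_lit 1596094426) (nat_lit 152) (nat_lit 252615006148) (nat_lit 5) (nat_lit 5) (nat_lit 6) (nat_lit 5) (nat_lit 7) (nat_lit 4) (nat_lit 319) (nat_lit 283) (nat_lit 118)) (XT.lf (nat_lit 0) (nat_lit 622465896880) (nat_lit 152) (nat_lit 114691182124) (nat_lit 0) (nat_lit 95237299380) (nat_lit 5) (nat_lit 5) (nat_lit 7) (nat_lit 4) (nat_lit 5) (nat_lit 4) (nat_lit 320) (nat_lit 283) (nat_lit 117))) (XT.nd (nat_lit 78) (nat_lit 0) (nat_lit 0) (XT.lf (nat_lit 0) (nat_lit 37841803405) (nat_lit 76) (nat_lit 690028111159) (nat_lit 76) (nat_lit 162799403169) (nat_lit 4) (nat_lit 4) (nat_lit 5) (nat_lit 5) (nat_lit 5) (nat_lit 4) (nat_lit 321) (nat_lit 283) (nat_lit 116)) (XT.nd (nat_lit 78) (nat_lit 0) (nat_lit 0) (XT.lf (nat_lit 0) (nat_lit 209099949032) (nat_lit 76) (nat_lit 635742124069)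 (nat_lit 76) (nat_lit 108513313774) (nat_lit 4) (nat_lit 4) (nat_lit 5) (nat_lit 5) (nat_lit 5) (nat_lit 4) (nat_lit 322) (nat_lit 283) (nat_lit 115)) (XT.lf (nat_lit 0) (nat_lit 394058683438) (nat_lit 76) (nat_lit 577113283167) (nat_lit 76) (nat_lit 49884378144) (nat_lit 4) (nat_lit 4) (nat_lit 5) (nat_lit 5) (nat_lit 5) (nat_lit 4) (nat_lit 323) (nat_lit 283) (nat_lit 114))))) (XT.nd (nat_lit 234) (nat_lit 456) (nat_lit 0) (XT.nd (nat_lit 78) (nat_lit 0) (nat_lit 0) (XT.lf (nat_lit 0) (nat_lit 29576463201) (nat_lit 0) (nat_lit 29576463201) (nat_lit 380) (nat_lit 1895809201) (nat_lit 31) (nat_lit 5) (nat_lit 31) (nat_lit 3) (nat_lit 36) (nat_lit 3) (nat_lit 284) (nat_lit 284) (nat_lit 152)) (XT.nd (nat_lit 78) (nat_lit 0) (nat_lit 0) (XT.lf (nat_lit 0) (nat_lit 110693264731) (nat_lit 0) (nat_lit 12348445835) (nat_lit 380) (nat_lit 3939332493) (nat_lit 31) (nat_lit 5) (nat_lit 31)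 (nat_lit 3) (nat_lit 36) (nat_lit 3) (nat_lit 285) (nat_lit 284) (nat_lit 151)) (XT.lf (nat_lit 76) (nat_lit 34929927169) (nat_lit 0) (nat_lit 94984937565) (nat_lit 456) (nat_lit 2199765417) (nat_lit 32) (nat_lit 5) (nat_lit 31) (nat_lit 5) (nat_lit 37) (nat_lit 5) (nat_lit 286) (nat_lit 284) (nat_lit 150)))) (XT.nd (nat_lit 78) (nat_lit 0) (nat_lit 76) (XT.lf (nat_lit 0) (nat_lit 472320379) (nat_lit 456) (nat_lit 46776747334) (nat_lit 532) (nat_lit 90348273829) (nat_lit 25) (nat_lit 5) (nat_lit 31) (nat_lit 5) (nat_lit 32) (nat_lit 5) (nat_lit 287) (nat_lit 284) (nat_lit 149)) (XT.nd (nat_lit 78) (nat_lit 0) (nat_lit 0) (XT.lf (nat_lit 0) (nat_lit 3541614951) (nat_lit 456) (nat_lit 135601726731) (nat_lit 532) (nat_lit 4346577257) (nat_lit 26) (nat_lit 5) (nat_lit 32) (nat_lit 5) (nat_lit 33) (nat_lit 5) (nat_lit 288) (nat_lit 284) (nat_lit 148)) (XT.lf (nat_lit 0) (nat_lit 9395578605)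 (nat_lit 456) (nat_lit 81425732836) (nat_lit 532) (nat_lit 58829463772) (nat_lit 26) (nat_lit 5) (nat_lit 32) (nat_lit 5) (nat_lit 33) (nat_lit 5) (nat_lit 289) (nat_lit 284) (nat_lit 147)))))) (XT.nd (nat_lit 390) (nat_lit 380) (nat_lit 0) (XT.nd (nat_lit 156) (nat_lit 304) (nat_lit 0) (XT.nd (nat_lit 78) (nat_lit 0) (nat_lit 76) (XT.lf (nat_lit 0) (nat_lit 15717579832) (nat_lit 456) (nat_lit 22915882389) (nat_lit 532) (nat_lit 117671062658) (nat_lit 26) (nat_lit 5) (nat_lit 32) (nat_lit 5) (nat_lit 33) (nat_lit 5) (nat_lit 290) (nat_lit 284) (nat_lit 146)) (XT.lf (nat_lit 0) (nat_lit 24017568657) (nat_lit 456) (nat_lit 121466570256) (nat_lit 76) (nat_lit 17888659745) (nat_lit 27) (nat_lit 5) (nat_lit 33) (nat_lit 5) (nat_lit 28) (nat_lit 5) (nat_lit 291) (nat_lit 284) (nat_lit 145))) (XT.nd (nat_lit 78) (nat_lit 380) (nat_lit 0) (XT.lf (nat_lit 0) (nat_lit 34627614839) (nat_lit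 456) (nat_lit 58759019716) (nat_lit 76) (nat_lit 77488217288) (nat_lit 27) (nat_lit 5) (nat_lit 33) (nat_lit 5) (nat_lit 28) (nat_lit 5) (nat_lit 292) (nat_lit 284) (nat_lit 144)) (XT.nd (nat_lit 78) (nat_lit 0) (nat_lit 0) (XT.lf (nat_lit 0) (nat_lit 9437004668) (nat_lit 380) (nat_lit 36876194828) (nat_lit 456) (nat_lit 132645733012) (nat_lit 22) (nat_lit 5) (nat_lit 27) (nat_lit 5) (nat_lit 28) (nat_lit 5) (nat_lit 293) (nat_lit 284) (nat_lit 143)) (XT.lf (nat_lit 0) (nat_lit 61162652852) (nat_lit 456) (nat_lit 101753705901) (nat_lit 76) (nat_lit 24595060974) (nat_lit 22) (nat_lit 5) (nat_lit 28) (nat_lit 5) (nat_lit 23) (nat_lit 5) (nat_lit 294) (nat_lit 284) (nat_lit 142))))) (XT.nd (nat_lit 234) (nat_lit 152) (nat_lit 0) (XT.nd (nat_lit 78) (nat_lit 228) (nat_lit 0) (XT.lf (nat_lit 0) (nat_lit 78157688221) (nat_lit 456) (nat_lit 29522054410) (nat_lit 76) (nat_lit 88991754954)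 (nat_lit 22) (nat_lit 5) (nat_lit 28) (nat_lit 5) (nat_lit 23) (nat_lit 5) (nat_lit 295) (nat_lit 284) (nat_lit 141)) (XT.nd (nat_lit 78) (nat_lit 0) (nat_lit 0) (XT.lf (nat_lit 0) (nat_lit 51041228382) (nat_lit 228) (nat_lit 46698457937) (nat_lit 304) (nat_lit 108726508152) (nat_lit 19) (nat_lit 5) (nat_lit 22) (nat_lit 5) (nat_lit 23) (nat_lit 5) (nat_lit 296) (nat_lit 284) (nat_lit 140)) (XT.lf (nat_lit 0) (nat_lit 120177051799) (nat_lit 304) (nat_lit 77733369462) (nat_lit 76) (nat_lit 19030942719) (nat_lit 19) (nat_lit 5) (nat_lit 23) (nat_lit 5) (nat_lit 20) (nat_lit 5) (nat_lit 297) (nat_lit 284) (nat_lit 139)))) (XT.nd (nat_lit 78) (nat_lit 0) (nat_lit 0) (XT.lf (nat_lit 0) (nat_lit 5221629743) (nat_lit 152) (nat_lit 140526142903) (nat_lit 228) (nat_lit 82399706478) (nat_lit 17) (nat_lit 5) (nat_lit 19) (nat_lit 5) (nat_lit 20) (nat_lit 5) (nat_lit 298) (nat_lit 284) (nat_lit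 138)) (XT.nd (nat_lit 78) (nat_lit 0) (nat_lit 0) (XT.lf (nat_lit 0) (nat_lit 99233613914) (nat_lit 152) (nat_lit 76255751768) (nat_lit 228) (nat_lit 64590701899) (nat_lit 17) (nat_lit 5) (nat_lit 19) (nat_lit 5) (nat_lit 20) (nat_lit 5) (nat_lit 299) (nat_lit 284) (nat_lit 137)) (XT.lf (nat_lit 0) (nat_lit 200766389626) (nat_lit 152) (nat_lit 6843754356) (nat_lit 228) (nat_lit 45357131679) (nat_lit 17) (nat_lit 5) (nat_lit 19) (nat_lit 5) (nat_lit 20) (nat_lit 5) (nat_lit 300) (nat_lit 284) (nat_lit 136))))))))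
noncomputable def xc117 : XT := (XT.nd (nat_lit 36270) (nat_lit 0) (nat_lit 608) (XT.nd (nat_lit 858) (nat_lit 380) (nat_lit 0) (XT.nd (nat_lit 390) (nat_lit 228) (nat_lit 0) (XT.nd (nat_lit 156) (nat_lit 152) (nat_lit 0) (XT.nd (nat_lit 78) (nat_lit 76) (nat_lit 0) (XT.lf (nat_lit 0) (nat_lit 44104110819) (nat_lit 152) (nat_lit 200895363013) (nat_lit 228) (nat_lit 21670076494) (nat_lit 15) (nat_lit 5) (nat_lit 17) (nat_lit 5) (nat_lit 18) (nat_lit 5) (nat_lit 301) (nat_lit 284) (nat_lit 135)) (XT.lf (nat_lit 0) (nat_lit 5358217729) (nat_lit 228) (nat_lit 130580691183) (nat_lit 76) (nat_lit 145390215126) (nat_lit 14) (nat_lit 5) (nat_lit 17) (nat_lit 5) (nat_lit 15) (nat_lit 5) (nat_lit 302) (nat_lit 284) (nat_lit 134))) (XT.nd (nat_lit 78) (nat_lit 152) (nat_lit 0) (XT.lf (nat_lit 0) (nat_lit 33377907636) (nat_lit 228) (nat_lit 31800179041) (nat_lit 76) (nat_lit 231938358770) (nat_lit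 14) (nat_lit 5) (nat_lit 17) (nat_lit 5) (nat_lit 15) (nat_lit 5) (nat_lit 303) (nat_lit 284) (nat_lit 133)) (XT.nd (nat_lit 78) (nat_lit 0) (nat_lit 0) (XT.lf (nat_lit 0) (nat_lit 65854472247) (nat_lit 228) (nat_lit 235508934662) (nat_lit 76) (nat_lit 12626122494) (nat_lit 12) (nat_lit 5) (nat_lit 15) (nat_lit 5) (nat_lit 13) (nat_lit 5) (nat_lit 304) (nat_lit 284) (nat_lit 132)) (XT.lf (nat_lit 0) (nat_lit 103514048455) (nat_lit 228) (nat_lit 134466238551) (nat_lit 76) (nat_lit 94025382894) (nat_lit 12) (nat_lit 5) (nat_lit 15) (nat_lit 5) (nat_lit 13) (nat_lit 5) (nat_lit 305) (nat_lit 284) (nat_lit 131))))) (XT.nd (nat_lit 234) (nat_lit 76) (nat_lit 0) (XT.nd (nat_lit 78) (nat_lit 152) (nat_lit 0) (XT.lf (nat_lit 0) (nat_lit 144186290888) (nat_lit 228) (nat_lit 25340265718) (nat_lit 76) (nat_lit 181936553703) (nat_lit 12) (nat_lit 5) (nat_lit 15) (nat_lit 5) (nat_lit 13) (nat_lit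 5) (nat_lit 306) (nat_lit 284) (nat_lit 130)) (XT.nd (nat_lit 78) (nat_lit 0) (nat_lit 0) (XT.lf (nat_lit 0) (nat_lit 97387366776) (nat_lit 152) (nat_lit 93067021979) (nat_lit 228) (nat_lit 181835391743) (nat_lit 10) (nat_lit 5) (nat_lit 12) (nat_lit 5) (nat_lit 13) (nat_lit 5) (nat_lit 307) (nat_lit 284) (nat_lit 129)) (XT.lf (nat_lit 0) (nat_lit 231374207821) (nat_lit 152) (nat_lit 9742485765) (nat_lit 228) (nat_lit 153610470573) (nat_lit 10) (nat_lit 5) (nat_lit 12) (nat_lit 5) (nat_lit 13) (nat_lit 5) (nat_lit 308) (nat_lit 284) (nat_lit 128)))) (XT.nd (nat_lit 78) (nat_lit 76) (nat_lit 0) (XT.lf (nat_lit 0) (nat_lit 297761866561) (nat_lit 228) (nat_lit 44809631429) (nat_lit 76) (nat_lit 76233650363) (nat_lit 10) (nat_lit 5) (nat_lit 13) (nat_lit 5) (nat_lit 11) (nat_lit 4) (nat_lit 309) (nat_lit 284) (nat_lit 127)) (XT.nd (nat_lit 78) (nat_lit 0) (nat_lit 0) (XT.lf (nat_lit 0)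 (nat_lit 87332731475) (nat_lit 76) (nat_lit 273959251018) (nat_lit 152) (nat_lit 83329122963) (nat_lit 9) (nat_lit 5) (nat_lit 10) (nat_lit 5) (nat_lit 11) (nat_lit 4) (nat_lit 310) (nat_lit 284) (nat_lit 126)) (XT.lf (nat_lit 0) (nat_lit 232594736381) (nat_lit 76) (nat_lit 198534872328) (nat_lit 152) (nat_lit 41274722802) (nat_lit 9) (nat_lit 5) (nat_lit 10) (nat_lit 5) (nat_lit 11) (nat_lit 4) (nat_lit 311) (nat_lit 284) (nat_lit 125)))))) (XT.nd (nat_lit 390) (nat_lit 152) (nat_lit 0) (XT.nd (nat_lit 156) (nat_lit 0) (nat_lit 0) (XT.nd (nat_lit 78) (nat_lit 152) (nat_lit 0) (XT.lf (nat_lit 0) (nat_lit 3936657794) (nat_lit 152) (nat_lit 113032284379) (nat_lit 76) (nat_lit 385433306391) (nat_lit 8) (nat_lit 5) (nat_lit 10) (nat_lit 5) (nat_lit 9) (nat_lit 5) (nat_lit 312) (nat_lit 284) (nat_lit 124)) (XT.lf (nat_lit 0) (nat_lit 24016441670) (nat_lit 152) (nat_lit 27096130839) (nat_lit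 228) (nat_lit 483555458720) (nat_lit 6) (nat_lit 5) (nat_lit 8) (nat_lit 5) (nat_lit 9) (nat_lit 5) (nat_lit 313) (nat_lit 284) (nat_lit 123))) (XT.nd (nat_lit 78) (nat_lit 0) (nat_lit 0) (XT.lf (nat_lit 0) (nat_lit 106915968804) (nat_lit 228) (nat_lit 392573593824) (nat_lit 76) (nat_lit 69637241549) (nat_lit 6) (nat_lit 5) (nat_lit 9) (nat_lit 5) (nat_lit 7) (nat_lit 4) (nat_lit 314) (nat_lit 284) (nat_lit 122)) (XT.nd (nat_lit 78) (nat_lit 0) (nat_lit 0) (XT.lf (nat_lit 0) (nat_lit 167887373607) (nat_lit 228) (nat_lit 265753247168) (nat_lit 76) (nat_lit 172645359559) (nat_lit 6) (nat_lit 5) (nat_lit 9) (nat_lit 5) (nat_lit 7) (nat_lit 4) (nat_lit 315) (nat_lit 284) (nat_lit 121)) (XT.lf (nat_lit 0) (nat_lit 233736436349) (nat_lit 228) (nat_lit 128787359011) (nat_lit 76) (nat_lit 283894099871) (nat_lit 6) (nat_lit 5) (nat_lit 9) (nat_lit 5) (nat_lit 7) (nat_lit 4) (nat_lit 316) (nat_lit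 284) (nat_lit 120))))) (XT.nd (nat_lit 234) (nat_lit 76) (nat_lit 0) (XT.nd (nat_lit 78) (nat_lit 0) (nat_lit 0) (XT.lf (nat_lit 0) (nat_lit 20143373473) (nat_lit 76) (nat_lit 285194448839) (nat_lit 152) (nat_lit 384383789423) (nat_lit 5) (nat_lit 5) (nat_lit 6) (nat_lit 5) (nat_lit 7) (nat_lit 4) (nat_lit 317) (nat_lit 284) (nat_lit 119)) (XT.nd (nat_lit 78) (nat_lit 0) (nat_lit 0) (XT.lf (nat_lit 0) (nat_lit 188312737956) (nat_lit 76) (nat_lit 197875807274) (nat_lit 152) (nat_lit 350019382494) (nat_lit 5) (nat_lit 5) (nat_lit 6) (nat_lit 5) (nat_lit 7) (nat_lit 4) (nat_lit 318) (nat_lit 284) (nat_lit 118)) (XT.lf (nat_lit 0) (nat_lit 369935579539) (nat_lit 76) (nat_lit 103571701488) (nat_lit 152) (nat_lit 312905871794) (nat_lit 5) (nat_lit 5) (nat_lit 6) (nat_lit 5) (nat_lit 7) (nat_lit 4) (nat_lit 319) (nat_lit 284) (nat_lit 117)))) (XT.nd (nat_lit 78) (nat_lit 76) (nat_lit 0)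 (XT.lf (nat_lit 0) (nat_lit 566088181727) (nat_lit 76) (nat_lit 1723292338) (nat_lit 152) (nat_lit 272823325408) (nat_lit 5) (nat_lit 5) (nat_lit 6) (nat_lit 5) (nat_lit 7) (nat_lit 4) (nat_lit 320) (nat_lit 284) (nat_lit 116)) (XT.nd (nat_lit 78) (nat_lit 76) (nat_lit 0) (XT.lf (nat_lit 0) (nat_lit 672263931448) (nat_lit 152) (nat_lit 123865218270) (nat_lit 0) (nat_lit 102856714023) (nat_lit 5) (nat_lit 5) (nat_lit 7) (nat_lit 4) (nat_lit 5) (nat_lit 4) (nat_lit 321) (nat_lit 284) (nat_lit 115)) (XT.lf (nat_lit 0) (nat_lit 40870374243) (nat_lit 76) (nat_lit 745229869298) (nat_lit 76) (nat_lit 175822557146) (nat_lit 4) (nat_lit 4) (nat_lit 5) (nat_lit 5) (nat_lit 5) (nat_lit 4) (nat_lit 322) (nat_lit 284) (nat_lit 114))))))) (XT.nd (nat_lit 858) (nat_lit 760) (nat_lit 0) (XT.nd (nat_lit 390) (nat_lit 228) (nat_lit 0) (XT.nd (nat_lit 156) (nat_lit 456) (nat_lit 0) (XT.nd (nat_lit 78)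 (nat_lit 0) (nat_lit 0) (XT.lf (nat_lit 0) (nat_lit 31944348508) (nat_lit 0) (nat_lit 31944348508) (nat_lit 380) (nat_lit 2043618305) (nat_lit 31) (nat_lit 5) (nat_lit 31) (nat_lit 3) (nat_lit 36) (nat_lit 3) (nat_lit 285) (nat_lit 285) (nat_lit 150)) (XT.lf (nat_lit 0) (nat_lit 119552000448) (nat_lit 0) (nat_lit 13339596041) (nat_lit 380) (nat_lit 4247339033) (nat_lit 31) (nat_lit 5) (nat_lit 31) (nat_lit 3) (nat_lit 36) (nat_lit 3) (nat_lit 286) (nat_lit 285) (nat_lit 149))) (XT.nd (nat_lit 78) (nat_lit 456) (nat_lit 0) (XT.lf (nat_lit 76) (nat_lit 37728165761) (nat_lit 0) (nat_lit 102585971651) (nat_lit 456) (nat_lit 2369114382) (nat_lit 32) (nat_lit 5) (nat_lit 31) (nat_lit 5) (nat_lit 37) (nat_lit 5) (nat_lit 287) (nat_lit 285) (nat_lit 148)) (XT.nd (nat_lit 78) (nat_lit 0) (nat_lit 76) (XT.lf (nat_lit 0) (nat_lit 515939801) (nat_lit 456) (nat_lit 50514967045) (nat_lit 532) (nat_lit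 97573702084) (nat_lit 25) (nat_lit 5) (nat_lit 31) (nat_lit 5) (nat_lit 32) (nat_lit 5) (nat_lit 288) (nat_lit 285) (nat_lit 147)) (XT.lf (nat_lit 0) (nat_lit 3830397468) (nat_lit 456) (nat_lit 146445515035) (nat_lit 532) (nat_lit 4692714396) (nat_lit 26) (nat_lit 5) (nat_lit 32) (nat_lit 5) (nat_lit 33) (nat_lit 5) (nat_lit 289) (nat_lit 285) (nat_lit 146))))) (XT.nd (nat_lit 234) (nat_lit 304) (nat_lit 0) (XT.nd (nat_lit 78) (nat_lit 0) (nat_lit 0) (XT.lf (nat_lit 0) (nat_lit 10152274265) (nat_lit 456) (nat_lit 87935763840) (nat_lit 532) (nat_lit 63534349539) (nat_lit 26) (nat_lit 5) (nat_lit 32) (nat_lit 5) (nat_lit 33) (nat_lit 5) (nat_lit 290) (nat_lit 285) (nat_lit 145)) (XT.nd (nat_lit 78) (nat_lit 0) (nat_lit 76) (XT.lf (nat_lit 0) (nat_lit 16979661563) (nat_lit 456) (nat_lit 24745423699) (nat_lit 532) (nat_lit 127083385324) (nat_lit 26) (nat_lit 5) (nat_lit 32) (nat_lit 5)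 (nat_lit 33) (nat_lit 5) (nat_lit 291) (nat_lit 285) (nat_lit 144)) (XT.lf (nat_lit 0) (nat_lit 25943371794) (nat_lit 456) (nat_lit 131179849768) (nat_lit 76) (nat_lit 19319010050) (nat_lit 27) (nat_lit 5) (nat_lit 33) (nat_lit 5) (nat_lit 28) (nat_lit 5) (nat_lit 292) (nat_lit 285) (nat_lit 143)))) (XT.nd (nat_lit 78) (nat_lit 380) (nat_lit 0) (XT.lf (nat_lit 0) (nat_lit 37401895919) (nat_lit 456) (nat_lit 63455994898) (nat_lit 76) (nat_lit 83686587195) (nat_lit 27) (nat_lit 5) (nat_lit 33) (nat_lit 5) (nat_lit 28) (nat_lit 5) (nat_lit 293) (nat_lit 285) (nat_lit 142)) (XT.nd (nat_lit 78) (nat_lit 0) (nat_lit 0) (XT.lf (nat_lit 0) (nat_lit 10195616592) (nat_lit 380) (nat_lit 39826496954) (nat_lit 456) (nat_lit 143253191370) (nat_lit 22) (nat_lit 5) (nat_lit 27) (nat_lit 5) (nat_lit 28) (nat_lit 5) (nat_lit 294) (nat_lit 285) (nat_lit 141)) (XT.lf (nat_lit 0) (nat_lit 66059232788)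 (nat_lit 456) (nat_lit 109890299864) (nat_lit 76) (nat_lit 26562484178) (nat_lit 22) (nat_lit 5) (nat_lit 28) (nat_lit 5) (nat_lit 23) (nat_lit 5) (nat_lit 295) (nat_lit 285) (nat_lit 140)))))) (XT.nd (nat_lit 390) (nat_lit 380) (nat_lit 0) (XT.nd (nat_lit 156) (nat_lit 152) (nat_lit 0) (XT.nd (nat_lit 78) (nat_lit 228) (nat_lit 0) (XT.lf (nat_lit 0) (nat_lit 84413606711) (nat_lit 456) (nat_lit 31880390514) (nat_lit 76) (nat_lit 96110927133) (nat_lit 22) (nat_lit 5) (nat_lit 28) (nat_lit 5) (nat_lit 23) (nat_lit 5) (nat_lit 296) (nat_lit 285) (nat_lit 139)) (XT.lf (nat_lit 0) (nat_lit 55127868111) (nat_lit 228) (nat_lit 50434132210) (nat_lit 304) (nat_lit 117421211952) (nat_lit 19) (nat_lit 5) (nat_lit 22) (nat_lit 5) (nat_lit 23) (nat_lit 5) (nat_lit 297) (nat_lit 285) (nat_lit 138))) (XT.nd (nat_lit 78) (nat_lit 152) (nat_lit 0) (XT.lf (nat_lit 0) (nat_lit 129794127019) (nat_lit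 304) (nat_lit 83948692401) (nat_lit 76) (nat_lit 20553596136) (nat_lit 19) (nat_lit 5) (nat_lit 23) (nat_lit 5) (nat_lit 20) (nat_lit 5) (nat_lit 298) (nat_lit 285) (nat_lit 137)) (XT.nd (nat_lit 78) (nat_lit 0) (nat_lit 0) (XT.lf (nat_lit 0) (nat_lit 5642622016) (nat_lit 152) (nat_lit 151767746332) (nat_lit 228) (nat_lit 88988664366) (nat_lit 17) (nat_lit 5) (nat_lit 19) (nat_lit 5) (nat_lit 20) (nat_lit 5) (nat_lit 299) (nat_lit 285) (nat_lit 136)) (XT.lf (nat_lit 0) (nat_lit 107175323300) (nat_lit 152) (nat_lit 82355760054) (nat_lit 228) (nat_lit 69755163022) (nat_lit 17) (nat_lit 5) (nat_lit 19) (nat_lit 5) (nat_lit 20) (nat_lit 5) (nat_lit 300) (nat_lit 285) (nat_lit 135))))) (XT.nd (nat_lit 234) (nat_lit 152) (nat_lit 0) (XT.nd (nat_lit 78) (nat_lit 228) (nat_lit 0) (XT.lf (nat_lit 0) (nat_lit 216830497344) (nat_lit 152) (nat_lit 7390836320) (nat_lit 228) (nat_lit 48983114223)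 (nat_lit 17) (nat_lit 5) (nat_lit 19) (nat_lit 5) (nat_lit 20) (nat_lit 5) (nat_lit 301) (nat_lit 285) (nat_lit 134)) (XT.nd (nat_lit 78) (nat_lit 76) (nat_lit 0) (XT.lf (nat_lit 0) (nat_lit 47635360141) (nat_lit 152) (nat_lit 216966353155) (nat_lit 228) (nat_lit 23401200409) (nat_lit 15) (nat_lit 5) (nat_lit 17) (nat_lit 5) (nat_lit 18) (nat_lit 5) (nat_lit 302) (nat_lit 285) (nat_lit 133)) (XT.lf (nat_lit 0) (nat_lit 5789058513) (nat_lit 228) (nat_lit 141024311842) (nat_lit 76) (nat_lit 157021893400) (nat_lit 14) (nat_lit 5) (nat_lit 17) (nat_lit 5) (nat_lit 15) (nat_lit 5) (nat_lit 303) (nat_lit 285) (nat_lit 132)))) (XT.nd (nat_lit 78) (nat_lit 152) (nat_lit 0) (XT.lf (nat_lit 0) (nat_lit 36050161882) (nat_lit 228) (nat_lit 34341568701) (nat_lit 76) (nat_lit 250493854382) (nat_lit 14) (nat_lit 5) (nat_lit 17) (nat_lit 5) (nat_lit 15) (nat_lit 5) (nat_lit 304) (nat_lit 285) (nat_lit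 131)) (XT.nd (nat_lit 78) (nat_lit 0) (nat_lit 0) (XT.lf (nat_lit 0) (nat_lit 71124778463) (nat_lit 228) (nat_lit 254346938252) (nat_lit 76) (nat_lit 13636805844) (nat_lit 12) (nat_lit 5) (nat_lit 15) (nat_lit 5) (nat_lit 13) (nat_lit 5) (nat_lit 305) (nat_lit 285) (nat_lit 130)) (XT.lf (nat_lit 0) (nat_lit 111796976438) (nat_lit 228) (nat_lit 145221027281) (nat_lit 76) (nat_lit 101547963110) (nat_lit 12) (nat_lit 5) (nat_lit 15) (nat_lit 5) (nat_lit 13) (nat_lit 5) (nat_lit 306) (nat_lit 285) (nat_lit 129))))))))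
noncomputable def xc118 : XT := (XT.nd (nat_lit 36348) (nat_lit 0) (nat_lit 304) (XT.nd (nat_lit 858) (nat_lit 76) (nat_lit 0) (XT.nd (nat_lit 390) (nat_lit 228) (nat_lit 0) (XT.nd (nat_lit 156) (nat_lit 76) (nat_lit 0) (XT.nd (nat_lit 78) (nat_lit 152) (nat_lit 0) (XT.lf (nat_lit 0) (nat_lit 155722864629) (nat_lit 228) (nat_lit 27365162573) (nat_lit 76) (nat_lit 196491986874) (nat_lit 12) (nat_lit 5) (nat_lit 15) (nat_lit 5) (nat_lit 13) (nat_lit 5) (nat_lit 307) (nat_lit 285) (nat_lit 128)) (XT.lf (nat_lit 0) (nat_lit 105180621675) (nat_lit 152) (nat_lit 100511719399) (nat_lit 228) (nat_lit 196380483193) (nat_lit 10) (nat_lit 5) (nat_lit 12) (nat_lit 5) (nat_lit 13) (nat_lit 5) (nat_lit 308) (nat_lit 285) (nat_lit 127))) (XT.nd (nat_lit 78) (nat_lit 76) (nat_lit 0) (XT.lf (nat_lit 0) (nat_lit 249886242184) (nat_lit 152) (nat_lit 10521269498) (nat_lit 228) (nat_lit 165897697210)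 (nat_lit 10) (nat_lit 5) (nat_lit 12) (nat_lit 5) (nat_lit 13) (nat_lit 5) (nat_lit 309) (nat_lit 285) (nat_lit 126)) (XT.nd (nat_lit 78) (nat_lit 76) (nat_lit 0) (XT.lf (nat_lit 0) (nat_lit 321584202371) (nat_lit 228) (nat_lit 48392354403) (nat_lit 76) (nat_lit 82332883463) (nat_lit 10) (nat_lit 5) (nat_lit 13) (nat_lit 5) (nat_lit 11) (nat_lit 4) (nat_lit 310) (nat_lit 285) (nat_lit 125)) (XT.lf (nat_lit 0) (nat_lit 94321345698) (nat_lit 76) (nat_lit 295875327173) (nat_lit 152) (nat_lit 89994006085) (nat_lit 9) (nat_lit 5) (nat_lit 10) (nat_lit 5) (nat_lit 11) (nat_lit 4) (nat_lit 311) (nat_lit 285) (nat_lit 124))))) (XT.nd (nat_lit 234) (nat_lit 0) (nat_lit 0) (XT.nd (nat_lit 78) (nat_lit 228) (nat_lit 0) (XT.lf (nat_lit 0) (nat_lit 251204163166) (nat_lit 76) (nat_lit 214417047368) (nat_lit 152) (nat_lit 44575361075) (nat_lit 9) (nat_lit 5) (nat_lit 10) (nat_lit 5) (nat_lit 11)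 (nat_lit 4) (nat_lit 312) (nat_lit 285) (nat_lit 123)) (XT.nd (nat_lit 78) (nat_lit 152) (nat_lit 0) (XT.lf (nat_lit 0) (nat_lit 4252768696) (nat_lit 152) (nat_lit 122073087424) (nat_lit 76) (nat_lit 416268471402) (nat_lit 8) (nat_lit 5) (nat_lit 10) (nat_lit 5) (nat_lit 9) (nat_lit 5) (nat_lit 313) (nat_lit 285) (nat_lit 122)) (XT.lf (nat_lit 0) (nat_lit 25939491652) (nat_lit 152) (nat_lit 29263219375) (nat_lit 228) (nat_lit 522238665913) (nat_lit 6) (nat_lit 5) (nat_lit 8) (nat_lit 5) (nat_lit 9) (nat_lit 5) (nat_lit 314) (nat_lit 285) (nat_lit 121)))) (XT.nd (nat_lit 78) (nat_lit 0) (nat_lit 0) (XT.lf (nat_lit 0) (nat_lit 115470308525) (nat_lit 228) (nat_lit 423977798960) (nat_lit 76) (nat_lit 75208750337) (nat_lit 6) (nat_lit 5) (nat_lit 9) (nat_lit 5) (nat_lit 7) (nat_lit 4) (nat_lit 315) (nat_lit 285) (nat_lit 120)) (XT.nd (nat_lit 78) (nat_lit 0) (nat_lit 0) (XT.lf (nat_lit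 0) (nat_lit 181319347030) (nat_lit 228) (nat_lit 287011949191) (nat_lit 76) (nat_lit 186457478568) (nat_lit 6) (nat_lit 5) (nat_lit 9) (nat_lit 5) (nat_lit 7) (nat_lit 4) (nat_lit 316) (nat_lit 285) (nat_lit 119)) (XT.lf (nat_lit 0) (nat_lit 252436261936) (nat_lit 228) (nat_lit 139088905371) (nat_lit 76) (nat_lit 306606081790) (nat_lit 6) (nat_lit 5) (nat_lit 9) (nat_lit 5) (nat_lit 7) (nat_lit 4) (nat_lit 317) (nat_lit 285) (nat_lit 118)))))) (XT.nd (nat_lit 35022) (nat_lit 0) (nat_lit 1520) (XT.nd (nat_lit 156) (nat_lit 0) (nat_lit 0) (XT.nd (nat_lit 78) (nat_lit 0) (nat_lit 0) (XT.lf (nat_lit 0) (nat_lit 21756249197) (nat_lit 76) (nat_lit 308009475933) (nat_lit 152) (nat_lit 415133540846) (nat_lit 5) (nat_lit 5) (nat_lit 6) (nat_lit 5) (nat_lit 7) (nat_lit 4) (nat_lit 318) (nat_lit 285) (nat_lit 117)) (XT.lf (nat_lit 0) (nat_lit 203379058702) (nat_lit 76) (nat_lit 213705382214)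 (nat_lit 152) (nat_lit 378020051862) (nat_lit 5) (nat_lit 5) (nat_lit 6) (nat_lit 5) (nat_lit 7) (nat_lit 4) (nat_lit 319) (nat_lit 285) (nat_lit 116))) (XT.nd (nat_lit 78) (nat_lit 0) (nat_lit 0) (XT.lf (nat_lit 0) (nat_lit 399531631189) (nat_lit 76) (nat_lit 111856984235) (nat_lit 152) (nat_lit 337937525583) (nat_lit 5) (nat_lit 5) (nat_lit 6) (nat_lit 5) (nat_lit 7) (nat_lit 4) (nat_lit 320) (nat_lit 285) (nat_lit 115)) (XT.nd (nat_lit 78) (nat_lit 0) (nat_lit 0) (XT.lf (nat_lit 0) (nat_lit 611376352271) (nat_lit 76) (nat_lit 1860735935) (nat_lit 152) (nat_lit 294648435926) (nat_lit 5) (nat_lit 5) (nat_lit 6) (nat_lit 5) (nat_lit 7) (nat_lit 4) (nat_lit 321) (nat_lit 285) (nat_lit 114)) (XT.lf (nat_lit 0) (nat_lit 726045699957) (nat_lit 152) (nat_lit 133773356836) (nat_lit 0) (nat_lit 111085620395) (nat_lit 5) (nat_lit 5) (nat_lit 7) (nat_lit 4) (nat_lit 5) (nat_lit 4) (nat_lit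 322) (nat_lit 285) (nat_lit 113))))) (XT.nd (nat_lit 234) (nat_lit 456) (nat_lit 0) (XT.nd (nat_lit 78) (nat_lit 0) (nat_lit 0) (XT.lf (nat_lit 0) (nat_lit 34501412378) (nat_lit 0) (nat_lit 34501412378) (nat_lit 380) (nat_lit 2203802186) (nat_lit 31) (nat_lit 5) (nat_lit 31) (nat_lit 3) (nat_lit 36) (nat_lit 3) (nat_lit 286) (nat_lit 286) (nat_lit 148)) (XT.nd (nat_lit 78) (nat_lit 0) (nat_lit 0) (XT.lf (nat_lit 0) (nat_lit 129118967873) (nat_lit 0) (nat_lit 14409571113) (nat_lit 380) (nat_lit 4581004706) (nat_lit 31) (nat_lit 5) (nat_lit 31) (nat_lit 3) (nat_lit 36) (nat_lit 3) (nat_lit 287) (nat_lit 286) (nat_lit 147)) (XT.lf (nat_lit 76) (nat_lit 40749714991) (nat_lit 0) (nat_lit 110794769034) (nat_lit 456) (nat_lit 2552957432) (nat_lit 32) (nat_lit 5) (nat_lit 31) (nat_lit 5) (nat_lit 37) (nat_lit 5) (nat_lit 288) (nat_lit 286) (nat_lit 146)))) (XT.nd (nat_lit 78) (nat_lit 0)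 (nat_lit 76) (XT.lf (nat_lit 0) (nat_lit 562216522) (nat_lit 456) (nat_lit 54552803576) (nat_lit 532) (nat_lit 105377511786) (nat_lit 25) (nat_lit 5) (nat_lit 31) (nat_lit 5) (nat_lit 32) (nat_lit 5) (nat_lit 289) (nat_lit 286) (nat_lit 145)) (XT.nd (nat_lit 78) (nat_lit 0) (nat_lit 0) (XT.lf (nat_lit 0) (nat_lit 4141504610) (nat_lit 456) (nat_lit 158157426957) (nat_lit 532) (nat_lit 5066769201) (nat_lit 26) (nat_lit 5) (nat_lit 32) (nat_lit 5) (nat_lit 33) (nat_lit 5) (nat_lit 290) (nat_lit 286) (nat_lit 144)) (XT.lf (nat_lit 0) (nat_lit 10968785229) (nat_lit 456) (nat_lit 94967171908) (nat_lit 532) (nat_lit 68615836070) (nat_lit 26) (nat_lit 5) (nat_lit 32) (nat_lit 5) (nat_lit 33) (nat_lit 5) (nat_lit 291) (nat_lit 286) (nat_lit 143))))))) (XT.nd (nat_lit 858) (nat_lit 608) (nat_lit 0) (XT.nd (nat_lit 390) (nat_lit 380) (nat_lit 0) (XT.nd (nat_lit 156) (nat_lit 304) (nat_lit 0)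 (XT.nd (nat_lit 78) (nat_lit 0) (nat_lit 76) (XT.lf (nat_lit 0) (nat_lit 18342042842) (nat_lit 456) (nat_lit 26721860337) (nat_lit 532) (nat_lit 137248888156) (nat_lit 26) (nat_lit 5) (nat_lit 32) (nat_lit 5) (nat_lit 33) (nat_lit 5) (nat_lit 292) (nat_lit 286) (nat_lit 142)) (XT.lf (nat_lit 0) (nat_lit 28022611808) (nat_lit 456) (nat_lit 141670768864) (nat_lit 76) (nat_lit 20863894302) (nat_lit 27) (nat_lit 5) (nat_lit 33) (nat_lit 5) (nat_lit 28) (nat_lit 5) (nat_lit 293) (nat_lit 286) (nat_lit 141))) (XT.nd (nat_lit 78) (nat_lit 380) (nat_lit 0) (XT.lf (nat_lit 0) (nat_lit 40397538585) (nat_lit 456) (nat_lit 68529262559) (nat_lit 76) (nat_lit 90380924770) (nat_lit 27) (nat_lit 5) (nat_lit 33) (nat_lit 5) (nat_lit 28) (nat_lit 5) (nat_lit 294) (nat_lit 286) (nat_lit 140)) (XT.nd (nat_lit 78) (nat_lit 0) (nat_lit 0) (XT.lf (nat_lit 0) (nat_lit 11014396536) (nat_lit 380) (nat_lit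 43012793786) (nat_lit 456) (nat_lit 154709845614) (nat_lit 22) (nat_lit 5) (nat_lit 27) (nat_lit 5) (nat_lit 28) (nat_lit 5) (nat_lit 295) (nat_lit 286) (nat_lit 139)) (XT.lf (nat_lit 0) (nat_lit 71347030145) (nat_lit 456) (nat_lit 118678349548) (nat_lit 76) (nat_lit 28687327155) (nat_lit 22) (nat_lit 5) (nat_lit 28) (nat_lit 5) (nat_lit 23) (nat_lit 5) (nat_lit 296) (nat_lit 286) (nat_lit 138))))) (XT.nd (nat_lit 234) (nat_lit 152) (nat_lit 0) (XT.nd (nat_lit 78) (nat_lit 228) (nat_lit 0) (XT.lf (nat_lit 0) (nat_lit 91169527409) (nat_lit 456) (nat_lit 34427882584) (nat_lit 76) (nat_lit 103799657085) (nat_lit 22) (nat_lit 5) (nat_lit 28) (nat_lit 5) (nat_lit 23) (nat_lit 5) (nat_lit 297) (nat_lit 286) (nat_lit 137)) (XT.nd (nat_lit 78) (nat_lit 0) (nat_lit 0) (XT.lf (nat_lit 0) (nat_lit 59540962322) (nat_lit 228) (nat_lit 54468689294) (nat_lit 304) (nat_lit 126811979507) (nat_lit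 19) (nat_lit 5) (nat_lit 22) (nat_lit 5) (nat_lit 23) (nat_lit 5) (nat_lit 298) (nat_lit 286) (nat_lit 136)) (XT.lf (nat_lit 0) (nat_lit 140180152960) (nat_lit 304) (nat_lit 90661718607) (nat_lit 76) (nat_lit 22198036433) (nat_lit 19) (nat_lit 5) (nat_lit 23) (nat_lit 5) (nat_lit 20) (nat_lit 5) (nat_lit 299) (nat_lit 286) (nat_lit 135)))) (XT.nd (nat_lit 78) (nat_lit 0) (nat_lit 0) (XT.lf (nat_lit 0) (nat_lit 6096828326) (nat_lit 152) (nat_lit 163908747654) (nat_lit 228) (nat_lit 96105169525) (nat_lit 17) (nat_lit 5) (nat_lit 19) (nat_lit 5) (nat_lit 20) (nat_lit 5) (nat_lit 300) (nat_lit 286) (nat_lit 134)) (XT.nd (nat_lit 78) (nat_lit 0) (nat_lit 0) (XT.lf (nat_lit 0) (nat_lit 115751938560) (nat_lit 152) (nat_lit 88943833465) (nat_lit 228) (nat_lit 75333179777) (nat_lit 17) (nat_lit 5) (nat_lit 19) (nat_lit 5) (nat_lit 20) (nat_lit 5) (nat_lit 301) (nat_lit 286) (nat_lit 133))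 (XT.lf (nat_lit 0) (nat_lit 234179334721) (nat_lit 152) (nat_lit 7981744528) (nat_lit 228) (nat_lit 52899544577) (nat_lit 17) (nat_lit 5) (nat_lit 19) (nat_lit 5) (nat_lit 20) (nat_lit 5) (nat_lit 302) (nat_lit 286) (nat_lit 132)))))) (XT.nd (nat_lit 390) (nat_lit 228) (nat_lit 0) (XT.nd (nat_lit 156) (nat_lit 152) (nat_lit 0) (XT.nd (nat_lit 78) (nat_lit 76) (nat_lit 0) (XT.lf (nat_lit 0) (nat_lit 51448692772) (nat_lit 152) (nat_lit 234323113654) (nat_lit 228) (nat_lit 25271168351) (nat_lit 15) (nat_lit 5) (nat_lit 17) (nat_lit 5) (nat_lit 18) (nat_lit 5) (nat_lit 303) (nat_lit 286) (nat_lit 131)) (XT.lf (nat_lit 0) (nat_lit 6254055078) (nat_lit 228) (nat_lit 152303826546) (nat_lit 76) (nat_lit 169584040159) (nat_lit 14) (nat_lit 5) (nat_lit 17) (nat_lit 5) (nat_lit 15) (nat_lit 5) (nat_lit 304) (nat_lit 286) (nat_lit 130))) (XT.nd (nat_lit 78) (nat_lit 152) (nat_lit 0) (XT.lf (nat_lit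 0) (nat_lit 38935908058) (nat_lit 228) (nat_lit 37086643972) (nat_lit 76) (nat_lit 270533728740) (nat_lit 14) (nat_lit 5) (nat_lit 17) (nat_lit 5) (nat_lit 15) (nat_lit 5) (nat_lit 305) (nat_lit 286) (nat_lit 129)) (XT.nd (nat_lit 78) (nat_lit 0) (nat_lit 0) (XT.lf (nat_lit 0) (nat_lit 76816431210) (nat_lit 228) (nat_lit 274692368910) (nat_lit 76) (nat_lit 14728259186) (nat_lit 12) (nat_lit 5) (nat_lit 15) (nat_lit 5) (nat_lit 13) (nat_lit 5) (nat_lit 306) (nat_lit 286) (nat_lit 128)) (XT.lf (nat_lit 0) (nat_lit 120742281285) (nat_lit 228) (nat_lit 156836557239) (nat_lit 76) (nat_lit 109672271339) (nat_lit 12) (nat_lit 5) (nat_lit 15) (nat_lit 5) (nat_lit 13) (nat_lit 5) (nat_lit 307) (nat_lit 286) (nat_lit 127))))) (XT.nd (nat_lit 234) (nat_lit 76) (nat_lit 0) (XT.nd (nat_lit 78) (nat_lit 152) (nat_lit 0) (XT.lf (nat_lit 0) (nat_lit 168182125958) (nat_lit 228) (nat_lit 29552382778)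 (nat_lit 76) (nat_lit 212211782102) (nat_lit 12) (nat_lit 5) (nat_lit 15) (nat_lit 5) (nat_lit 13) (nat_lit 5) (nat_lit 308) (nat_lit 286) (nat_lit 126)) (XT.nd (nat_lit 78) (nat_lit 0) (nat_lit 0) (XT.lf (nat_lit 0) (nat_lit 113597013759) (nat_lit 152) (nat_lit 108552087387) (nat_lit 228) (nat_lit 212089430173) (nat_lit 10) (nat_lit 5) (nat_lit 12) (nat_lit 5) (nat_lit 13) (nat_lit 5) (nat_lit 309) (nat_lit 286) (nat_lit 125)) (XT.lf (nat_lit 0) (nat_lit 269878940031) (nat_lit 152) (nat_lit 11362443684) (nat_lit 228) (nat_lit 179168131806) (nat_lit 10) (nat_lit 5) (nat_lit 12) (nat_lit 5) (nat_lit 13) (nat_lit 5) (nat_lit 310) (nat_lit 286) (nat_lit 124)))) (XT.nd (nat_lit 78) (nat_lit 76) (nat_lit 0) (XT.lf (nat_lit 0) (nat_lit 347312127247) (nat_lit 228) (nat_lit 52261987319) (nat_lit 76) (nat_lit 88919978022) (nat_lit 10) (nat_lit 5) (nat_lit 13) (nat_lit 5) (nat_lit 11) (nat_lit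 4) (nat_lit 311) (nat_lit 286) (nat_lit 123)) (XT.nd (nat_lit 78) (nat_lit 0) (nat_lit 0) (XT.lf (nat_lit 0) (nat_lit 101868764348) (nat_lit 76) (nat_lit 319544784138) (nat_lit 152) (nat_lit 97192286246) (nat_lit 9) (nat_lit 5) (nat_lit 10) (nat_lit 5) (nat_lit 11) (nat_lit 4) (nat_lit 312) (nat_lit 286) (nat_lit 122)) (XT.lf (nat_lit 0) (nat_lit 271302080473) (nat_lit 76) (nat_lit 231569884112) (nat_lit 152) (nat_lit 48140241512) (nat_lit 9) (nat_lit 5) (nat_lit 10) (nat_lit 5) (nat_lit 11) (nat_lit 4) (nat_lit 313) (nat_lit 286) (nat_lit 121))))))))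
noncomputable def xc119 : XT := (XT.nd (nat_lit 36426) (nat_lit 0) (nat_lit 0) (XT.nd (nat_lit 35568) (nat_lit 0) (nat_lit 1064) (XT.nd (nat_lit 390) (nat_lit 76) (nat_lit 0) (XT.nd (nat_lit 156) (nat_lit 0) (nat_lit 0) (XT.nd (nat_lit 78) (nat_lit 152) (nat_lit 0) (XT.lf (nat_lit 0) (nat_lit 4594000376) (nat_lit 152) (nat_lit 131837408608) (nat_lit 76) (nat_lit 449570378211) (nat_lit 8) (nat_lit 5) (nat_lit 10) (nat_lit 5) (nat_lit 9) (nat_lit 5) (nat_lit 314) (nat_lit 286) (nat_lit 120)) (XT.lf (nat_lit 0) (nat_lit 28016138166) (nat_lit 152) (nat_lit 31603760866) (nat_lit 228) (nat_lit 564016705083) (nat_lit 6) (nat_lit 5) (nat_lit 8) (nat_lit 5) (nat_lit 9) (nat_lit 5) (nat_lit 315) (nat_lit 286) (nat_lit 119))) (XT.nd (nat_lit 78) (nat_lit 0) (nat_lit 0) (XT.lf (nat_lit 0) (nat_lit 124708843887) (nat_lit 228) (nat_lit 457894580515) (nat_lit 76) (nat_lit 81225904293) (nat_lit 6)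 (nat_lit 5) (nat_lit 9) (nat_lit 5) (nat_lit 7) (nat_lit 4) (nat_lit 316) (nat_lit 286) (nat_lit 118)) (XT.nd (nat_lit 78) (nat_lit 0) (nat_lit 0) (XT.lf (nat_lit 0) (nat_lit 195825738014) (nat_lit 228) (nat_lit 309971569606) (nat_lit 76) (nat_lit 201374497158) (nat_lit 6) (nat_lit 5) (nat_lit 9) (nat_lit 5) (nat_lit 7) (nat_lit 4) (nat_lit 317) (nat_lit 286) (nat_lit 117)) (XT.lf (nat_lit 0) (nat_lit 272631943652) (nat_lit 228) (nat_lit 150214781208) (nat_lit 76) (nat_lit 331134957505) (nat_lit 6) (nat_lit 5) (nat_lit 9) (nat_lit 5) (nat_lit 7) (nat_lit 4) (nat_lit 318) (nat_lit 286) (nat_lit 116))))) (XT.nd (nat_lit 234) (nat_lit 0) (nat_lit 0) (XT.nd (nat_lit 78) (nat_lit 0) (nat_lit 0) (XT.lf (nat_lit 0) (nat_lit 23497954419) (nat_lit 76) (nat_lit 332649780635) (nat_lit 152) (nat_lit 448343408158) (nat_lit 5) (nat_lit 5) (nat_lit 6) (nat_lit 5) (nat_lit 7) (nat_lit 4) (nat_lit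 319) (nat_lit 286) (nat_lit 115)) (XT.nd (nat_lit 78) (nat_lit 0) (nat_lit 0) (XT.lf (nat_lit 0) (nat_lit 219650499404) (nat_lit 76) (nat_lit 230801393001) (nat_lit 152) (nat_lit 408260900497) (nat_lit 5) (nat_lit 5) (nat_lit 6) (nat_lit 5) (nat_lit 7) (nat_lit 4) (nat_lit 320) (nat_lit 286) (nat_lit 114)) (XT.lf (nat_lit 0) (nat_lit 431495195023) (nat_lit 76) (nat_lit 120805154280) (nat_lit 152) (nat_lit 364971828079) (nat_lit 5) (nat_lit 5) (nat_lit 6) (nat_lit 5) (nat_lit 7) (nat_lit 4) (nat_lit 321) (nat_lit 286) (nat_lit 113)))) (XT.nd (nat_lit 34788) (nat_lit 0) (nat_lit 1976) (XT.lf (nat_lit 0) (nat_lit 660287417248) (nat_lit 76) (nat_lit 2009234909) (nat_lit 152) (nat_lit 318219663068) (nat_lit 5) (nat_lit 5) (nat_lit 6) (nat_lit 5) (nat_lit 7) (nat_lit 4) (nat_lit 322) (nat_lit 286) (nat_lit 112)) (XT.nd (nat_lit 78) (nat_lit 0) (nat_lit 0) (XT.lf (nat_lit 0) (nat_lit 37262825086)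 (nat_lit 0) (nat_lit 37262825086) (nat_lit 380) (nat_lit 2377272356) (nat_lit 31) (nat_lit 5) (nat_lit 31) (nat_lit 3) (nat_lit 36) (nat_lit 3) (nat_lit 287) (nat_lit 287) (nat_lit 146)) (XT.lf (nat_lit 0) (nat_lit 139450892187) (nat_lit 0) (nat_lit 15564743686) (nat_lit 380) (nat_lit 4942236925) (nat_lit 31) (nat_lit 5) (nat_lit 31) (nat_lit 3) (nat_lit 36) (nat_lit 3) (nat_lit 288) (nat_lit 287) (nat_lit 145)))))) (XT.nd (nat_lit 390) (nat_lit 456) (nat_lit 0) (XT.nd (nat_lit 156) (nat_lit 0) (nat_lit 76) (XT.nd (nat_lit 78) (nat_lit 456) (nat_lit 0) (XT.lf (nat_lit 76) (nat_lit 44012517953) (nat_lit 0) (nat_lit 119659996348) (nat_lit 456) (nat_lit 2752319111) (nat_lit 32) (nat_lit 5) (nat_lit 31) (nat_lit 5) (nat_lit 37) (nat_lit 5) (nat_lit 289) (nat_lit 287) (nat_lit 144)) (XT.lf (nat_lit 0) (nat_lit 611481855) (nat_lit 456) (nat_lit 58914146490) (nat_lit 532) (nat_lit 113805923923)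 (nat_lit 25) (nat_lit 5) (nat_lit 31) (nat_lit 5) (nat_lit 32) (nat_lit 5) (nat_lit 290) (nat_lit 287) (nat_lit 143))) (XT.nd (nat_lit 78) (nat_lit 0) (nat_lit 0) (XT.lf (nat_lit 0) (nat_lit 4476833333) (nat_lit 456) (nat_lit 170806823855) (nat_lit 532) (nat_lit 5470942744) (nat_lit 26) (nat_lit 5) (nat_lit 32) (nat_lit 5) (nat_lit 33) (nat_lit 5) (nat_lit 291) (nat_lit 287) (nat_lit 142)) (XT.nd (nat_lit 78) (nat_lit 0) (nat_lit 0) (XT.lf (nat_lit 0) (nat_lit 11849999487) (nat_lit 456) (nat_lit 102561585237) (nat_lit 532) (nat_lit 74104021481) (nat_lit 26) (nat_lit 5) (nat_lit 32) (nat_lit 5) (nat_lit 33) (nat_lit 5) (nat_lit 292) (nat_lit 287) (nat_lit 141)) (XT.lf (nat_lit 0) (nat_lit 19812842787) (nat_lit 456) (nat_lit 28856868031) (nat_lit 532) (nat_lit 148227797843) (nat_lit 26) (nat_lit 5) (nat_lit 32) (nat_lit 5) (nat_lit 33) (nat_lit 5) (nat_lit 293) (nat_lit 287) (nat_lit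 140))))) (XT.nd (nat_lit 234) (nat_lit 228) (nat_lit 0) (XT.nd (nat_lit 78) (nat_lit 380) (nat_lit 0) (XT.lf (nat_lit 0) (nat_lit 30267653153) (nat_lit 456) (nat_lit 153001456363) (nat_lit 76) (nat_lit 22532460105) (nat_lit 27) (nat_lit 5) (nat_lit 33) (nat_lit 5) (nat_lit 28) (nat_lit 5) (nat_lit 294) (nat_lit 287) (nat_lit 139)) (XT.nd (nat_lit 78) (nat_lit 380) (nat_lit 0) (XT.lf (nat_lit 0) (nat_lit 43632334634) (nat_lit 456) (nat_lit 74008849850) (nat_lit 76) (nat_lit 97610893436) (nat_lit 27) (nat_lit 5) (nat_lit 33) (nat_lit 5) (nat_lit 28) (nat_lit 5) (nat_lit 295) (nat_lit 287) (nat_lit 138)) (XT.lf (nat_lit 0) (nat_lit 11898232257) (nat_lit 380) (nat_lit 46453969102) (nat_lit 456) (nat_lit 167083545930) (nat_lit 22) (nat_lit 5) (nat_lit 27) (nat_lit 5) (nat_lit 28) (nat_lit 5) (nat_lit 296) (nat_lit 287) (nat_lit 137)))) (XT.nd (nat_lit 78) (nat_lit 228) (nat_lit 0) (XT.lf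 (nat_lit 0) (nat_lit 77057414928) (nat_lit 456) (nat_lit 128169896058) (nat_lit 76) (nat_lit 30982179792) (nat_lit 22) (nat_lit 5) (nat_lit 28) (nat_lit 5) (nat_lit 23) (nat_lit 5) (nat_lit 297) (nat_lit 287) (nat_lit 136)) (XT.nd (nat_lit 78) (nat_lit 228) (nat_lit 0) (XT.lf (nat_lit 0) (nat_lit 98465517724) (nat_lit 456) (nat_lit 37179593325) (nat_lit 76) (nat_lit 112103506007) (nat_lit 22) (nat_lit 5) (nat_lit 28) (nat_lit 5) (nat_lit 23) (nat_lit 5) (nat_lit 298) (nat_lit 287) (nat_lit 135)) (XT.lf (nat_lit 0) (nat_lit 64306695379) (nat_lit 228) (nat_lit 58826035696) (nat_lit 304) (nat_lit 136954426379) (nat_lit 19) (nat_lit 5) (nat_lit 22) (nat_lit 5) (nat_lit 23) (nat_lit 5) (nat_lit 299) (nat_lit 287) (nat_lit 134))))))) (XT.nd (nat_lit 858) (nat_lit 380) (nat_lit 0) (XT.nd (nat_lit 390) (nat_lit 380) (nat_lit 0) (XT.nd (nat_lit 156) (nat_lit 152) (nat_lit 0) (XT.nd (nat_lit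 78) (nat_lit 152) (nat_lit 0) (XT.lf (nat_lit 0) (nat_lit 151396704925) (nat_lit 304) (nat_lit 97912196231) (nat_lit 76) (nat_lit 23974010182) (nat_lit 19) (nat_lit 5) (nat_lit 23) (nat_lit 5) (nat_lit 20) (nat_lit 5) (nat_lit 300) (nat_lit 287) (nat_lit 133)) (XT.lf (nat_lit 0) (nat_lit 6586972181) (nat_lit 152) (nat_lit 177021088768) (nat_lit 228) (nat_lit 103791364303) (nat_lit 17) (nat_lit 5) (nat_lit 19) (nat_lit 5) (nat_lit 20) (nat_lit 5) (nat_lit 301) (nat_lit 287) (nat_lit 132))) (XT.nd (nat_lit 78) (nat_lit 152) (nat_lit 0) (XT.lf (nat_lit 0) (nat_lit 125014313635) (nat_lit 152) (nat_lit 96059008015) (nat_lit 228) (nat_lit 81357779730) (nat_lit 17) (nat_lit 5) (nat_lit 19) (nat_lit 5) (nat_lit 20) (nat_lit 5) (nat_lit 302) (nat_lit 287) (nat_lit 131)) (XT.nd (nat_lit 78) (nat_lit 152) (nat_lit 0) (XT.lf (nat_lit 0) (nat_lit 252915737045) (nat_lit 152) (nat_lit 8619976565)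 (nat_lit 228) (nat_lit 57129605893) (nat_lit 17) (nat_lit 5) (nat_lit 19) (nat_lit 5) (nat_lit 20) (nat_lit 5) (nat_lit 303) (nat_lit 287) (nat_lit 130)) (XT.lf (nat_lit 0) (nat_lit 55566734817) (nat_lit 152) (nat_lit 253068493137) (nat_lit 228) (nat_lit 27291037324) (nat_lit 15) (nat_lit 5) (nat_lit 17) (nat_lit 5) (nat_lit 18) (nat_lit 5) (nat_lit 304) (nat_lit 287) (nat_lit 129))))) (XT.nd (nat_lit 234) (nat_lit 152) (nat_lit 0) (XT.nd (nat_lit 78) (nat_lit 152) (nat_lit 0) (XT.lf (nat_lit 0) (nat_lit 6755984324) (nat_lit 228) (nat_lit 164486049127) (nat_lit 76) (nat_lit 183151102267) (nat_lit 14) (nat_lit 5) (nat_lit 17) (nat_lit 5) (nat_lit 15) (nat_lit 5) (nat_lit 305) (nat_lit 287) (nat_lit 128)) (XT.nd (nat_lit 78) (nat_lit 152) (nat_lit 0) (XT.lf (nat_lit 0) (nat_lit 42052266665) (nat_lit 228) (nat_lit 40051646284) (nat_lit 76) (nat_lit 292176740831) (nat_lit 14) (nat_lit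 5) (nat_lit 17) (nat_lit 5) (nat_lit 15) (nat_lit 5) (nat_lit 306) (nat_lit 287) (nat_lit 127)) (XT.lf (nat_lit 0) (nat_lit 82963177866) (nat_lit 228) (nat_lit 296665765623) (nat_lit 76) (nat_lit 15906956199) (nat_lit 12) (nat_lit 5) (nat_lit 15) (nat_lit 5) (nat_lit 13) (nat_lit 5) (nat_lit 307) (nat_lit 287) (nat_lit 126)))) (XT.nd (nat_lit 78) (nat_lit 152) (nat_lit 0) (XT.lf (nat_lit 0) (nat_lit 130402989860) (nat_lit 228) (nat_lit 169381636632) (nat_lit 76) (nat_lit 118446457007) (nat_lit 12) (nat_lit 5) (nat_lit 15) (nat_lit 5) (nat_lit 13) (nat_lit 5) (nat_lit 308) (nat_lit 287) (nat_lit 125)) (XT.nd (nat_lit 78) (nat_lit 152) (nat_lit 0) (XT.lf (nat_lit 0) (nat_lit 181637923879) (nat_lit 228) (nat_lit 31914864895) (nat_lit 76) (nat_lit 229189098708) (nat_lit 12) (nat_lit 5) (nat_lit 15) (nat_lit 5) (nat_lit 13) (nat_lit 5) (nat_lit 309) (nat_lit 287) (nat_lit 124)) (XT.lf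 (nat_lit 0) (nat_lit 122686440112) (nat_lit 152) (nat_lit 117235766069) (nat_lit 228) (nat_lit 229055305715) (nat_lit 10) (nat_lit 5) (nat_lit 12) (nat_lit 5) (nat_lit 13) (nat_lit 5) (nat_lit 310) (nat_lit 287) (nat_lit 123)))))) (XT.nd (nat_lit 390) (nat_lit 228) (nat_lit 0) (XT.nd (nat_lit 156) (nat_lit 152) (nat_lit 0) (XT.nd (nat_lit 78) (nat_lit 0) (nat_lit 0) (XT.lf (nat_lit 0) (nat_lit 291470797133) (nat_lit 152) (nat_lit 12270987041) (nat_lit 228) (nat_lit 193500398210) (nat_lit 10) (nat_lit 5) (nat_lit 12) (nat_lit 5) (nat_lit 13) (nat_lit 5) (nat_lit 311) (nat_lit 287) (nat_lit 122)) (XT.lf (nat_lit 0) (nat_lit 375098116535) (nat_lit 228) (nat_lit 56441441301) (nat_lit 76) (nat_lit 96033973968) (nat_lit 10) (nat_lit 5) (nat_lit 13) (nat_lit 5) (nat_lit 11) (nat_lit 4) (nat_lit 312) (nat_lit 287) (nat_lit 121))) (XT.nd (nat_lit 78) (nat_lit 76) (nat_lit 0) (XT.lf (nat_lit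 0) (nat_lit 110019732398) (nat_lit 76) (nat_lit 345107878864) (nat_lit 152) (nat_lit 104966605767) (nat_lit 9) (nat_lit 5) (nat_lit 10) (nat_lit 5) (nat_lit 11) (nat_lit 4) (nat_lit 313) (nat_lit 287) (nat_lit 120)) (XT.nd (nat_lit 78) (nat_lit 76) (nat_lit 0) (XT.lf (nat_lit 0) (nat_lit 293007605154) (nat_lit 76) (nat_lit 250095022984) (nat_lit 152) (nat_lit 51990476223) (nat_lit 9) (nat_lit 5) (nat_lit 10) (nat_lit 5) (nat_lit 11) (nat_lit 4) (nat_lit 314) (nat_lit 287) (nat_lit 119)) (XT.lf (nat_lit 0) (nat_lit 4962386477) (nat_lit 152) (nat_lit 142383093161) (nat_lit 76) (nat_lit 485536376350) (nat_lit 8) (nat_lit 5) (nat_lit 10) (nat_lit 5) (nat_lit 9) (nat_lit 5) (nat_lit 315) (nat_lit 287) (nat_lit 118))))) (XT.nd (nat_lit 234) (nat_lit 76) (nat_lit 0) (XT.nd (nat_lit 78) (nat_lit 0) (nat_lit 0) (XT.lf (nat_lit 0) (nat_lit 30258704239) (nat_lit 152) (nat_lit 34131619298) (nat_lit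 228) (nat_lit 609137137767) (nat_lit 6) (nat_lit 5) (nat_lit 8) (nat_lit 5) (nat_lit 9) (nat_lit 5) (nat_lit 316) (nat_lit 287) (nat_lit 117)) (XT.nd (nat_lit 78) (nat_lit 0) (nat_lit 0) (XT.lf (nat_lit 0) (nat_lit 134686332159) (nat_lit 228) (nat_lit 494524910364) (nat_lit 76) (nat_lit 87724365808) (nat_lit 6) (nat_lit 5) (nat_lit 9) (nat_lit 5) (nat_lit 7) (nat_lit 4) (nat_lit 317) (nat_lit 287) (nat_lit 116)) (XT.lf (nat_lit 0) (nat_lit 211492519982) (nat_lit 228) (nat_lit 334768150182) (nat_lit 76) (nat_lit 217484817275) (nat_lit 6) (nat_lit 5) (nat_lit 9) (nat_lit 5) (nat_lit 7) (nat_lit 4) (nat_lit 318) (nat_lit 287) (nat_lit 115)))) (XT.nd (nat_lit 156) (nat_lit 76) (nat_lit 0) (XT.lf (nat_lit 0) (nat_lit 294443168521) (nat_lit 228) (nat_lit 162230903526) (nat_lit 76) (nat_lit 357626087757) (nat_lit 6) (nat_lit 5) (nat_lit 9) (nat_lit 5) (nat_lit 7) (nat_lit 4) (nat_lit 319)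 (nat_lit 287) (nat_lit 114)) (XT.nd (nat_lit 34944) (nat_lit 0) (nat_lit 1976) (XT.lf (nat_lit 0) (nat_lit 237223496152) (nat_lit 76) (nat_lit 249265144540) (nat_lit 152) (nat_lit 440921124805) (nat_lit 5) (nat_lit 5) (nat_lit 6) (nat_lit 5) (nat_lit 7) (nat_lit 4) (nat_lit 321) (nat_lit 287) (nat_lit 112)) (XT.lf (nat_lit 0) (nat_lit 40244965391) (nat_lit 0) (nat_lit 40244965391) (nat_lit 380) (nat_lit 2565024443) (nat_lit 31) (nat_lit 5) (nat_lit 31) (nat_lit 3) (nat_lit 36) (nat_lit 3) (nat_lit 288) (nat_lit 288) (nat_lit 144))))))))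
noncomputable def xc120 : XT := (XT.nd (nat_lit 1638) (nat_lit 532) (nat_lit 0) (XT.nd (nat_lit 780) (nat_lit 760) (nat_lit 0) (XT.nd (nat_lit 390) (nat_lit 228) (nat_lit 0) (XT.nd (nat_lit 156) (nat_lit 456) (nat_lit 0) (XT.nd (nat_lit 78) (nat_lit 0) (nat_lit 0) (XT.lf (nat_lit 0) (nat_lit 150609027077) (nat_lit 0) (nat_lit 16811986696) (nat_lit 380) (nat_lit 5333116431) (nat_lit 31) (nat_lit 5) (nat_lit 31) (nat_lit 3) (nat_lit 36) (nat_lit 3) (nat_lit 289) (nat_lit 288) (nat_lit 143)) (XT.lf (nat_lit 76) (nat_lit 47535942025) (nat_lit 0) (nat_lit 129234207057) (nat_lit 456) (nat_lit 2968325186) (nat_lit 32) (nat_lit 5) (nat_lit 31) (nat_lit 5) (nat_lit 37) (nat_lit 5) (nat_lit 290) (nat_lit 288) (nat_lit 142))) (XT.nd (nat_lit 78) (nat_lit 0) (nat_lit 76) (XT.lf (nat_lit 0) (nat_lit 664076682) (nat_lit 456) (nat_lit 63624807897) (nat_lit 532) (nat_lit 122908864223) (nat_lit 25)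 (nat_lit 5) (nat_lit 31) (nat_lit 5) (nat_lit 32) (nat_lit 5) (nat_lit 291) (nat_lit 288) (nat_lit 141)) (XT.nd (nat_lit 78) (nat_lit 0) (nat_lit 0) (XT.lf (nat_lit 0) (nat_lit 4838416517) (nat_lit 456) (nat_lit 184468628631) (nat_lit 532) (nat_lit 5907616797) (nat_lit 26) (nat_lit 5) (nat_lit 32) (nat_lit 5) (nat_lit 33) (nat_lit 5) (nat_lit 292) (nat_lit 288) (nat_lit 140)) (XT.lf (nat_lit 0) (nat_lit 12801181406) (nat_lit 456) (nat_lit 110763973970) (nat_lit 532) (nat_lit 80031416008) (nat_lit 26) (nat_lit 5) (nat_lit 32) (nat_lit 5) (nat_lit 33) (nat_lit 5) (nat_lit 293) (nat_lit 288) (nat_lit 139))))) (XT.nd (nat_lit 156) (nat_lit 304) (nat_lit 0) (XT.nd (nat_lit 78) (nat_lit 0) (nat_lit 76) (XT.lf (nat_lit 0) (nat_lit 21400816470) (nat_lit 456) (nat_lit 31163067394) (nat_lit 532) (nat_lit 160085163161) (nat_lit 26) (nat_lit 5) (nat_lit 32) (nat_lit 5) (nat_lit 33) (nat_lit 5)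 (nat_lit 294) (nat_lit 288) (nat_lit 138)) (XT.lf (nat_lit 0) (nat_lit 32691836667) (nat_lit 456) (nat_lit 165239023138) (nat_lit 76) (nat_lit 24334589029) (nat_lit 27) (nat_lit 5) (nat_lit 33) (nat_lit 5) (nat_lit 28) (nat_lit 5) (nat_lit 295) (nat_lit 288) (nat_lit 137))) (XT.nd (nat_lit 78) (nat_lit 380) (nat_lit 0) (XT.lf (nat_lit 0) (nat_lit 47125487388) (nat_lit 456) (nat_lit 79927196973) (nat_lit 76) (nat_lit 105419331684) (nat_lit 27) (nat_lit 5) (nat_lit 33) (nat_lit 5) (nat_lit 28) (nat_lit 5) (nat_lit 296) (nat_lit 288) (nat_lit 136)) (XT.nd (nat_lit 78) (nat_lit 0) (nat_lit 0) (XT.lf (nat_lit 0) (nat_lit 12852391934) (nat_lit 380) (nat_lit 50170416786) (nat_lit 456) (nat_lit 180447582714) (nat_lit 22) (nat_lit 5) (nat_lit 27) (nat_lit 5) (nat_lit 28) (nat_lit 5) (nat_lit 297) (nat_lit 288) (nat_lit 135)) (XT.lf (nat_lit 0) (nat_lit 83224256383) (nat_lit 456) (nat_lit 138421154533)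 (nat_lit 76) (nat_lit 33460639689) (nat_lit 22) (nat_lit 5) (nat_lit 28) (nat_lit 5) (nat_lit 23) (nat_lit 5) (nat_lit 298) (nat_lit 288) (nat_lit 134)))))) (XT.nd (nat_lit 390) (nat_lit 380) (nat_lit 0) (XT.nd (nat_lit 156) (nat_lit 152) (nat_lit 0) (XT.nd (nat_lit 78) (nat_lit 228) (nat_lit 0) (XT.lf (nat_lit 0) (nat_lit 106344840865) (nat_lit 456) (nat_lit 40151800412) (nat_lit 76) (nat_lit 121071680483) (nat_lit 22) (nat_lit 5) (nat_lit 28) (nat_lit 5) (nat_lit 23) (nat_lit 5) (nat_lit 299) (nat_lit 288) (nat_lit 133)) (XT.lf (nat_lit 0) (nat_lit 69453336695) (nat_lit 228) (nat_lit 63531991029) (nat_lit 304) (nat_lit 147908627293) (nat_lit 19) (nat_lit 5) (nat_lit 22) (nat_lit 5) (nat_lit 23) (nat_lit 5) (nat_lit 300) (nat_lit 288) (nat_lit 132))) (XT.nd (nat_lit 78) (nat_lit 152) (nat_lit 0) (XT.lf (nat_lit 0) (nat_lit 163510275791) (nat_lit 304) (nat_lit 105743062993) (nat_lit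 76) (nat_lit 25892043166) (nat_lit 19) (nat_lit 5) (nat_lit 23) (nat_lit 5) (nat_lit 20) (nat_lit 5) (nat_lit 301) (nat_lit 288) (nat_lit 131)) (XT.nd (nat_lit 78) (nat_lit 0) (nat_lit 0) (XT.lf (nat_lit 0) (nat_lit 7115985502) (nat_lit 152) (nat_lit 191182468345) (nat_lit 228) (nat_lit 112092771198) (nat_lit 17) (nat_lit 5) (nat_lit 19) (nat_lit 5) (nat_lit 20) (nat_lit 5) (nat_lit 302) (nat_lit 288) (nat_lit 130)) (XT.lf (nat_lit 0) (nat_lit 135017362010) (nat_lit 152) (nat_lit 103743443911) (nat_lit 228) (nat_lit 87864640766) (nat_lit 17) (nat_lit 5) (nat_lit 19) (nat_lit 5) (nat_lit 20) (nat_lit 5) (nat_lit 303) (nat_lit 288) (nat_lit 129))))) (XT.nd (nat_lit 234) (nat_lit 152) (nat_lit 0) (XT.nd (nat_lit 78) (nat_lit 228) (nat_lit 0) (XT.lf (nat_lit 0) (nat_lit 273150758309) (nat_lit 152) (nat_lit 9309311037) (nat_lit 228) (nat_lit 61698343492) (nat_lit 17) (nat_lit 5) (nat_lit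 19) (nat_lit 5) (nat_lit 20) (nat_lit 5) (nat_lit 304) (nat_lit 288) (nat_lit 128)) (XT.nd (nat_lit 78) (nat_lit 76) (nat_lit 0) (XT.lf (nat_lit 0) (nat_lit 60013913985) (nat_lit 152) (nat_lit 273313569973) (nat_lit 228) (nat_lit 29472756100) (nat_lit 15) (nat_lit 5) (nat_lit 17) (nat_lit 5) (nat_lit 18) (nat_lit 5) (nat_lit 305) (nat_lit 288) (nat_lit 127)) (XT.lf (nat_lit 0) (nat_lit 7297838960) (nat_lit 228) (nat_lit 177643146756) (nat_lit 76) (nat_lit 197803480997) (nat_lit 14) (nat_lit 5) (nat_lit 17) (nat_lit 5) (nat_lit 15) (nat_lit 5) (nat_lit 306) (nat_lit 288) (nat_lit 126)))) (XT.nd (nat_lit 78) (nat_lit 152) (nat_lit 0) (XT.lf (nat_lit 0) (nat_lit 45417721971) (nat_lit 228) (nat_lit 43254124004) (nat_lit 76) (nat_lit 315551149124) (nat_lit 14) (nat_lit 5) (nat_lit 17) (nat_lit 5) (nat_lit 15) (nat_lit 5) (nat_lit 307) (nat_lit 288) (nat_lit 125)) (XT.nd (nat_lit 78) (nat_lit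 0) (nat_lit 0) (XT.lf (nat_lit 0) (nat_lit 89601459940) (nat_lit 228) (nat_lit 320397318367) (nat_lit 76) (nat_lit 17179886733) (nat_lit 12) (nat_lit 5) (nat_lit 15) (nat_lit 5) (nat_lit 13) (nat_lit 5) (nat_lit 308) (nat_lit 288) (nat_lit 124)) (XT.lf (nat_lit 0) (nat_lit 140836365943) (nat_lit 228) (nat_lit 182930585614) (nat_lit 76) (nat_lit 127922519899) (nat_lit 12) (nat_lit 5) (nat_lit 15) (nat_lit 5) (nat_lit 13) (nat_lit 5) (nat_lit 309) (nat_lit 288) (nat_lit 123))))))) (XT.nd (nat_lit 35880) (nat_lit 0) (nat_lit 1292) (XT.nd (nat_lit 390) (nat_lit 304) (nat_lit 0) (XT.nd (nat_lit 156) (nat_lit 76) (nat_lit 0) (XT.nd (nat_lit 78) (nat_lit 152) (nat_lit 0) (XT.lf (nat_lit 0) (nat_lit 196170010469) (nat_lit 228) (nat_lit 34466589319) (nat_lit 76) (nat_lit 247524547281) (nat_lit 12) (nat_lit 5) (nat_lit 15) (nat_lit 5) (nat_lit 13) (nat_lit 5) (nat_lit 310) (nat_lit 288) (nat_lit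 122)) (XT.lf (nat_lit 0) (nat_lit 132502783006) (nat_lit 152) (nat_lit 126614208709) (nat_lit 228) (nat_lit 247378633747) (nat_lit 10) (nat_lit 5) (nat_lit 12) (nat_lit 5) (nat_lit 13) (nat_lit 5) (nat_lit 311) (nat_lit 288) (nat_lit 121))) (XT.nd (nat_lit 78) (nat_lit 76) (nat_lit 0) (XT.lf (nat_lit 0) (nat_lit 314789782835) (nat_lit 152) (nat_lit 13252278369) (nat_lit 228) (nat_lit 208979414858) (nat_lit 10) (nat_lit 5) (nat_lit 12) (nat_lit 5) (nat_lit 13) (nat_lit 5) (nat_lit 312) (nat_lit 288) (nat_lit 120)) (XT.nd (nat_lit 78) (nat_lit 76) (nat_lit 0) (XT.lf (nat_lit 0) (nat_lit 405106839578) (nat_lit 228) (nat_lit 60955466307) (nat_lit 76) (nat_lit 103717032852) (nat_lit 10) (nat_lit 5) (nat_lit 13) (nat_lit 5) (nat_lit 11) (nat_lit 4) (nat_lit 313) (nat_lit 288) (nat_lit 119)) (XT.lf (nat_lit 0) (nat_lit 118822568623) (nat_lit 76) (nat_lit 372716090787) (nat_lit 152) (nat_lit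 113363022553) (nat_lit 9) (nat_lit 5) (nat_lit 10) (nat_lit 5) (nat_lit 11) (nat_lit 4) (nat_lit 314) (nat_lit 288) (nat_lit 118))))) (XT.nd (nat_lit 234) (nat_lit 76) (nat_lit 0) (XT.nd (nat_lit 78) (nat_lit 228) (nat_lit 0) (XT.lf (nat_lit 0) (nat_lit 316449378041) (nat_lit 76) (nat_lit 270102237428) (nat_lit 152) (nat_lit 56148870176) (nat_lit 9) (nat_lit 5) (nat_lit 10) (nat_lit 5) (nat_lit 11) (nat_lit 4) (nat_lit 315) (nat_lit 288) (nat_lit 117)) (XT.nd (nat_lit 78) (nat_lit 152) (nat_lit 0) (XT.lf (nat_lit 0) (nat_lit 5360119911) (nat_lit 152) (nat_lit 153772619098) (nat_lit 76) (nat_lit 524379601858) (nat_lit 8) (nat_lit 5) (nat_lit 10) (nat_lit 5) (nat_lit 9) (nat_lit 5) (nat_lit 316) (nat_lit 288) (nat_lit 116)) (XT.lf (nat_lit 0) (nat_lit 32680493701) (nat_lit 152) (nat_lit 36861769523) (nat_lit 228) (nat_lit 657867333991) (nat_lit 6) (nat_lit 5) (nat_lit 8) (nat_lit 5)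 (nat_lit 9) (nat_lit 5) (nat_lit 317) (nat_lit 288) (nat_lit 115)))) (XT.nd (nat_lit 78) (nat_lit 76) (nat_lit 0) (XT.lf (nat_lit 0) (nat_lit 145461908108) (nat_lit 228) (nat_lit 534085843014) (nat_lit 76) (nat_lit 94742648724) (nat_lit 6) (nat_lit 5) (nat_lit 9) (nat_lit 5) (nat_lit 7) (nat_lit 4) (nat_lit 318) (nat_lit 288) (nat_lit 114)) (XT.nd (nat_lit 156) (nat_lit 76) (nat_lit 0) (XT.lf (nat_lit 0) (nat_lit 228412541374) (nat_lit 228) (nat_lit 361548620549) (nat_lit 76) (nat_lit 234883911593) (nat_lit 6) (nat_lit 5) (nat_lit 9) (nat_lit 5) (nat_lit 7) (nat_lit 4) (nat_lit 319) (nat_lit 288) (nat_lit 113)) (XT.lf (nat_lit 0) (nat_lit 27410015962) (nat_lit 76) (nat_lit 388001951102) (nat_lit 152) (nat_lit 522946396010) (nat_lit 5) (nat_lit 5) (nat_lit 6) (nat_lit 5) (nat_lit 7) (nat_lit 4) (nat_lit 321) (nat_lit 288) (nat_lit 111)))))) (XT.nd (nat_lit 390) (nat_lit 228) (nat_lit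 0) (XT.nd (nat_lit 156) (nat_lit 456) (nat_lit 0) (XT.nd (nat_lit 78) (nat_lit 0) (nat_lit 0) (XT.lf (nat_lit 0) (nat_lit 43465517953) (nat_lit 0) (nat_lit 43465517953) (nat_lit 380) (nat_lit 2768143320) (nat_lit 31) (nat_lit 5) (nat_lit 31) (nat_lit 3) (nat_lit 36) (nat_lit 3) (nat_lit 289) (nat_lit 289) (nat_lit 142)) (XT.lf (nat_lit 0) (nat_lit 162659518374) (nat_lit 0) (nat_lit 18158714763) (nat_lit 380) (nat_lit 5755908193) (nat_lit 31) (nat_lit 5) (nat_lit 31) (nat_lit 3) (nat_lit 36) (nat_lit 3) (nat_lit 290) (nat_lit 289) (nat_lit 141))) (XT.nd (nat_lit 78) (nat_lit 456) (nat_lit 0) (XT.lf (nat_lit 76) (nat_lit 51340894407) (nat_lit 0) (nat_lit 139574153328) (nat_lit 456) (nat_lit 3202207993) (nat_lit 32) (nat_lit 5) (nat_lit 31) (nat_lit 5) (nat_lit 37) (nat_lit 5) (nat_lit 291) (nat_lit 289) (nat_lit 140)) (XT.nd (nat_lit 78) (nat_lit 0) (nat_lit 76) (XT.lf (nat_lit 0) (nat_lit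 720354633) (nat_lit 456) (nat_lit 68712674634) (nat_lit 532) (nat_lit 132740258535) (nat_lit 25) (nat_lit 5) (nat_lit 31) (nat_lit 5) (nat_lit 32) (nat_lit 5) (nat_lit 292) (nat_lit 289) (nat_lit 139)) (XT.lf (nat_lit 0) (nat_lit 5228436099) (nat_lit 456) (nat_lit 199223768841) (nat_lit 532) (nat_lit 6379367632) (nat_lit 26) (nat_lit 5) (nat_lit 32) (nat_lit 5) (nat_lit 33) (nat_lit 5) (nat_lit 293) (nat_lit 289) (nat_lit 138))))) (XT.nd (nat_lit 234) (nat_lit 304) (nat_lit 0) (XT.nd (nat_lit 78) (nat_lit 0) (nat_lit 0) (XT.lf (nat_lit 0) (nat_lit 13828003937) (nat_lit 456) (nat_lit 119622915888) (nat_lit 532) (nat_lit 86433134373) (nat_lit 26) (nat_lit 5) (nat_lit 32) (nat_lit 5) (nat_lit 33) (nat_lit 5) (nat_lit 294) (nat_lit 289) (nat_lit 137)) (XT.nd (nat_lit 78) (nat_lit 0) (nat_lit 76) (XT.lf (nat_lit 0) (nat_lit 23115407731) (nat_lit 456) (nat_lit 33654097971) (nat_lit 532)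 (nat_lit 172891240180) (nat_lit 26) (nat_lit 5) (nat_lit 32) (nat_lit 5) (nat_lit 33) (nat_lit 5) (nat_lit 295) (nat_lit 289) (nat_lit 136)) (XT.lf (nat_lit 0) (nat_lit 35309559511) (nat_lit 456) (nat_lit 178455959003) (nat_lit 76) (nat_lit 26280955015) (nat_lit 27) (nat_lit 5) (nat_lit 33) (nat_lit 5) (nat_lit 28) (nat_lit 5) (nat_lit 296) (nat_lit 289) (nat_lit 135)))) (XT.nd (nat_lit 78) (nat_lit 380) (nat_lit 0) (XT.lf (nat_lit 0) (nat_lit 50897726296) (nat_lit 456) (nat_lit 86319348670) (nat_lit 76) (nat_lit 113852506797) (nat_lit 27) (nat_lit 5) (nat_lit 33) (nat_lit 5) (nat_lit 28) (nat_lit 5) (nat_lit 297) (nat_lit 289) (nat_lit 134)) (XT.nd (nat_lit 78) (nat_lit 0) (nat_lit 0) (XT.lf (nat_lit 0) (nat_lit 13882556108) (nat_lit 380) (nat_lit 54184161716) (nat_lit 456) (nat_lit 194881120048) (nat_lit 22) (nat_lit 5) (nat_lit 27) (nat_lit 5) (nat_lit 28) (nat_lit 5) (nat_lit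 298) (nat_lit 289) (nat_lit 133)) (XT.lf (nat_lit 0) (nat_lit 89884124415) (nat_lit 456) (nat_lit 149492846545) (nat_lit 76) (nat_lit 36137392711) (nat_lit 22) (nat_lit 5) (nat_lit 28) (nat_lit 5) (nat_lit 23) (nat_lit 5) (nat_lit 299) (nat_lit 289) (nat_lit 132))))))))
noncomputable def xc121 : XT := (XT.nd (nat_lit 36738) (nat_lit 0) (nat_lit 456) (XT.nd (nat_lit 858) (nat_lit 456) (nat_lit 0) (XT.nd (nat_lit 390) (nat_lit 380) (nat_lit 0) (XT.nd (nat_lit 156) (nat_lit 152) (nat_lit 0) (XT.nd (nat_lit 78) (nat_lit 228) (nat_lit 0) (XT.lf (nat_lit 0) (nat_lit 114854212876) (nat_lit 456) (nat_lit 43362092269) (nat_lit 76) (nat_lit 130757324039) (nat_lit 22) (nat_lit 5) (nat_lit 28) (nat_lit 5) (nat_lit 23) (nat_lit 5) (nat_lit 300) (nat_lit 289) (nat_lit 131)) (XT.lf (nat_lit 0) (nat_lit 75011408916) (nat_lit 228) (nat_lit 68614440981) (nat_lit 304) (nat_lit 159739471457) (nat_lit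 19) (nat_lit 5) (nat_lit 22) (nat_lit 5) (nat_lit 23) (nat_lit 5) (nat_lit 301) (nat_lit 289) (nat_lit 130))) (XT.nd (nat_lit 78) (nat_lit 152) (nat_lit 0) (XT.lf (nat_lit 0) (nat_lit 176592670619) (nat_lit 304) (nat_lit 114200699958) (nat_lit 76) (nat_lit 27963502787) (nat_lit 19) (nat_lit 5) (nat_lit 23) (nat_lit 5) (nat_lit 20) (nat_lit 5) (nat_lit 302) (nat_lit 289) (nat_lit 129)) (XT.nd (nat_lit 78) (nat_lit 0) (nat_lit 0) (XT.lf (nat_lit 0) (nat_lit 7687026642) (nat_lit 152) (nat_lit 206476802159) (nat_lit 228) (nat_lit 121058562021) (nat_lit 17) (nat_lit 5) (nat_lit 19) (nat_lit 5) (nat_lit 20) (nat_lit 5) (nat_lit 303) (nat_lit 289) (nat_lit 128)) (XT.lf (nat_lit 0) (nat_lit 145820382730) (nat_lit 152) (nat_lit 112042675301) (nat_lit 228) (nat_lit 94892301960) (nat_lit 17) (nat_lit 5) (nat_lit 19) (nat_lit 5) (nat_lit 20) (nat_lit 5) (nat_lit 304) (nat_lit 289) (nat_lit 127)))))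 (XT.nd (nat_lit 234) (nat_lit 152) (nat_lit 0) (XT.nd (nat_lit 78) (nat_lit 228) (nat_lit 0) (XT.lf (nat_lit 0) (nat_lit 295004329862) (nat_lit 152) (nat_lit 10053829880) (nat_lit 228) (nat_lit 66632812762) (nat_lit 17) (nat_lit 5) (nat_lit 19) (nat_lit 5) (nat_lit 20) (nat_lit 5) (nat_lit 305) (nat_lit 289) (nat_lit 126)) (XT.nd (nat_lit 78) (nat_lit 76) (nat_lit 0) (XT.lf (nat_lit 0) (nat_lit 64816604935) (nat_lit 152) (nat_lit 295178310394) (nat_lit 228) (nat_lit 31829235530) (nat_lit 15) (nat_lit 5) (nat_lit 17) (nat_lit 5) (nat_lit 18) (nat_lit 5) (nat_lit 306) (nat_lit 289) (nat_lit 125)) (XT.lf (nat_lit 0) (nat_lit 7882845682) (nat_lit 228) (nat_lit 191853067031) (nat_lit 76) (nat_lit 213628008574) (nat_lit 14) (nat_lit 5) (nat_lit 17) (nat_lit 5) (nat_lit 15) (nat_lit 5) (nat_lit 307) (nat_lit 289) (nat_lit 124)))) (XT.nd (nat_lit 78) (nat_lit 152) (nat_lit 0) (XT.lf (nat_lit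 0) (nat_lit 49052231955) (nat_lit 228) (nat_lit 46713035900) (nat_lit 76) (nat_lit 340795471700) (nat_lit 14) (nat_lit 5) (nat_lit 17) (nat_lit 5) (nat_lit 15) (nat_lit 5) (nat_lit 308) (nat_lit 289) (nat_lit 123)) (XT.nd (nat_lit 78) (nat_lit 0) (nat_lit 0) (XT.lf (nat_lit 0) (nat_lit 96770629415) (nat_lit 228) (nat_lit 346027639069) (nat_lit 76) (nat_lit 18554598349) (nat_lit 12) (nat_lit 5) (nat_lit 15) (nat_lit 5) (nat_lit 13) (nat_lit 5) (nat_lit 309) (nat_lit 289) (nat_lit 122)) (XT.lf (nat_lit 0) (nat_lit 152104249921) (nat_lit 228) (nat_lit 197563676196) (nat_lit 76) (nat_lit 138156618414) (nat_lit 12) (nat_lit 5) (nat_lit 15) (nat_lit 5) (nat_lit 13) (nat_lit 5) (nat_lit 310) (nat_lit 289) (nat_lit 121)))))) (XT.nd (nat_lit 390) (nat_lit 228) (nat_lit 0) (XT.nd (nat_lit 156) (nat_lit 76) (nat_lit 0) (XT.nd (nat_lit 78) (nat_lit 152) (nat_lit 0) (XT.lf (nat_lit 0) (nat_lit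 211864513810) (nat_lit 228) (nat_lit 37222660662) (nat_lit 76) (nat_lit 267326785993) (nat_lit 12) (nat_lit 5) (nat_lit 15) (nat_lit 5) (nat_lit 13) (nat_lit 5) (nat_lit 311) (nat_lit 289) (nat_lit 120)) (XT.lf (nat_lit 0) (nat_lit 143104229656) (nat_lit 152) (nat_lit 136742986484) (nat_lit 228) (nat_lit 267167984438) (nat_lit 10) (nat_lit 5) (nat_lit 12) (nat_lit 5) (nat_lit 13) (nat_lit 5) (nat_lit 312) (nat_lit 289) (nat_lit 119))) (XT.nd (nat_lit 78) (nat_lit 76) (nat_lit 0) (XT.lf (nat_lit 0) (nat_lit 339974098804) (nat_lit 152) (nat_lit 14312128304) (nat_lit 228) (nat_lit 225696897669) (nat_lit 10) (nat_lit 5) (nat_lit 12) (nat_lit 5) (nat_lit 13) (nat_lit 5) (nat_lit 313) (nat_lit 289) (nat_lit 118)) (XT.nd (nat_lit 78) (nat_lit 76) (nat_lit 0) (XT.lf (nat_lit 0) (nat_lit 437516135818) (nat_lit 228) (nat_lit 65830797389) (nat_lit 76) (nat_lit 112014687804) (nat_lit 10) (nat_lit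 5) (nat_lit 13) (nat_lit 5) (nat_lit 11) (nat_lit 4) (nat_lit 314) (nat_lit 289) (nat_lit 117)) (XT.lf (nat_lit 0) (nat_lit 128329452329) (nat_lit 76) (nat_lit 402533019352) (nat_lit 152) (nat_lit 122431282742) (nat_lit 9) (nat_lit 5) (nat_lit 10) (nat_lit 5) (nat_lit 11) (nat_lit 4) (nat_lit 315) (nat_lit 289) (nat_lit 116))))) (XT.nd (nat_lit 234) (nat_lit 0) (nat_lit 0) (XT.nd (nat_lit 78) (nat_lit 228) (nat_lit 0) (XT.lf (nat_lit 0) (nat_lit 341766326633) (nat_lit 76) (nat_lit 291710084294) (nat_lit 152) (nat_lit 60640056072) (nat_lit 9) (nat_lit 5) (nat_lit 10) (nat_lit 5) (nat_lit 11) (nat_lit 4) (nat_lit 316) (nat_lit 289) (nat_lit 115)) (XT.nd (nat_lit 78) (nat_lit 152) (nat_lit 0) (XT.lf (nat_lit 0) (nat_lit 5789566091) (nat_lit 152) (nat_lit 166073467107) (nat_lit 76) (nat_lit 566330240411) (nat_lit 8) (nat_lit 5) (nat_lit 10) (nat_lit 5) (nat_lit 9) (nat_lit 5) (nat_lit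 317) (nat_lit 289) (nat_lit 114)) (XT.lf (nat_lit 0) (nat_lit 35295870374) (nat_lit 152) (nat_lit 39810385880) (nat_lit 228) (nat_lit 710496056447) (nat_lit 6) (nat_lit 5) (nat_lit 8) (nat_lit 5) (nat_lit 9) (nat_lit 5) (nat_lit 318) (nat_lit 289) (nat_lit 113)))) (XT.nd (nat_lit 78) (nat_lit 0) (nat_lit 0) (XT.lf (nat_lit 0) (nat_lit 157099434640) (nat_lit 228) (nat_lit 576811801523) (nat_lit 76) (nat_lit 102322346674) (nat_lit 6) (nat_lit 5) (nat_lit 9) (nat_lit 5) (nat_lit 7) (nat_lit 4) (nat_lit 319) (nat_lit 289) (nat_lit 112)) (XT.nd (nat_lit 78) (nat_lit 0) (nat_lit 0) (XT.lf (nat_lit 0) (nat_lit 246686076057) (nat_lit 228) (nat_lit 390471668589) (nat_lit 76) (nat_lit 253674889384) (nat_lit 6) (nat_lit 5) (nat_lit 9) (nat_lit 5) (nat_lit 7) (nat_lit 4) (nat_lit 320) (nat_lit 289) (nat_lit 111)) (XT.lf (nat_lit 0) (nat_lit 343439623568) (nat_lit 228) (nat_lit 189224364963) (nat_lit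 76) (nat_lit 417135622941) (nat_lit 6) (nat_lit 5) (nat_lit 9) (nat_lit 5) (nat_lit 7) (nat_lit 4) (nat_lit 321) (nat_lit 289) (nat_lit 110))))))) (XT.nd (nat_lit 858) (nat_lit 760) (nat_lit 0) (XT.nd (nat_lit 390) (nat_lit 228) (nat_lit 0) (XT.nd (nat_lit 156) (nat_lit 456) (nat_lit 0) (XT.nd (nat_lit 78) (nat_lit 0) (nat_lit 0) (XT.lf (nat_lit 0) (nat_lit 46943578432) (nat_lit 0) (nat_lit 46943578432) (nat_lit 380) (nat_lit 2987808882) (nat_lit 31) (nat_lit 5) (nat_lit 31) (nat_lit 3) (nat_lit 36) (nat_lit 3) (nat_lit 290) (nat_lit 290) (nat_lit 140)) (XT.lf (nat_lit 0) (nat_lit 175673796589) (nat_lit 0) (nat_lit 19612928689) (nat_lit 380) (nat_lit 6213073620) (nat_lit 31) (nat_lit 5) (nat_lit 31) (nat_lit 3) (nat_lit 36) (nat_lit 3) (nat_lit 291) (nat_lit 290) (nat_lit 139))) (XT.nd (nat_lit 78) (nat_lit 456) (nat_lit 0) (XT.lf (nat_lit 76) (nat_lit 55449946669) (nat_lit 0) (nat_lit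 150741122722) (nat_lit 456) (nat_lit 3455312608) (nat_lit 32) (nat_lit 5) (nat_lit 31) (nat_lit 5) (nat_lit 37) (nat_lit 5) (nat_lit 292) (nat_lit 290) (nat_lit 138)) (XT.nd (nat_lit 78) (nat_lit 0) (nat_lit 76) (XT.lf (nat_lit 0) (nat_lit 780685179) (nat_lit 456) (nat_lit 74207872852) (nat_lit 532) (nat_lit 143358351966) (nat_lit 25) (nat_lit 5) (nat_lit 31) (nat_lit 5) (nat_lit 32) (nat_lit 5) (nat_lit 293) (nat_lit 290) (nat_lit 137)) (XT.lf (nat_lit 0) (nat_lit 5649236930) (nat_lit 456) (nat_lit 215159655534) (nat_lit 532) (nat_lit 6888981008) (nat_lit 26) (nat_lit 5) (nat_lit 32) (nat_lit 5) (nat_lit 33) (nat_lit 5) (nat_lit 294) (nat_lit 290) (nat_lit 136))))) (XT.nd (nat_lit 234) (nat_lit 304) (nat_lit 0) (XT.nd (nat_lit 78) (nat_lit 0) (nat_lit 0) (XT.lf (nat_lit 0) (nat_lit 14936583089) (nat_lit 456) (nat_lit 129190883590) (nat_lit 532) (nat_lit 93347103610) (nat_lit 26)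 (nat_lit 5) (nat_lit 32) (nat_lit 5) (nat_lit 33) (nat_lit 5) (nat_lit 295) (nat_lit 290) (nat_lit 135)) (XT.nd (nat_lit 78) (nat_lit 0) (nat_lit 76) (XT.lf (nat_lit 0) (nat_lit 24966805939) (nat_lit 456) (nat_lit 36344698430) (nat_lit 532) (nat_lit 186721908364) (nat_lit 26) (nat_lit 5) (nat_lit 32) (nat_lit 5) (nat_lit 33) (nat_lit 5) (nat_lit 296) (nat_lit 290) (nat_lit 134)) (XT.lf (nat_lit 0) (nat_lit 38136361232) (nat_lit 456) (nat_lit 192730561593) (nat_lit 76) (nat_lit 28383087507) (nat_lit 27) (nat_lit 5) (nat_lit 33) (nat_lit 5) (nat_lit 28) (nat_lit 5) (nat_lit 297) (nat_lit 290) (nat_lit 133)))) (XT.nd (nat_lit 78) (nat_lit 380) (nat_lit 0) (XT.lf (nat_lit 0) (nat_lit 54971430474) (nat_lit 456) (nat_lit 93223161257) (nat_lit 76) (nat_lit 122960388906) (nat_lit 27) (nat_lit 5) (nat_lit 33) (nat_lit 5) (nat_lit 28) (nat_lit 5) (nat_lit 298) (nat_lit 290) (nat_lit 132)) (XT.nd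 (nat_lit 78) (nat_lit 0) (nat_lit 0) (XT.lf (nat_lit 0) (nat_lit 14994851972) (nat_lit 380) (nat_lit 58518990321) (nat_lit 456) (nat_lit 210469664108) (nat_lit 22) (nat_lit 5) (nat_lit 27) (nat_lit 5) (nat_lit 28) (nat_lit 5) (nat_lit 299) (nat_lit 290) (nat_lit 131)) (XT.lf (nat_lit 0) (nat_lit 97076506907) (nat_lit 456) (nat_lit 161450559291) (nat_lit 76) (nat_lit 39028299978) (nat_lit 22) (nat_lit 5) (nat_lit 28) (nat_lit 5) (nat_lit 23) (nat_lit 5) (nat_lit 300) (nat_lit 290) (nat_lit 130)))))) (XT.nd (nat_lit 390) (nat_lit 380) (nat_lit 0) (XT.nd (nat_lit 156) (nat_lit 152) (nat_lit 0) (XT.nd (nat_lit 78) (nat_lit 228) (nat_lit 0) (XT.lf (nat_lit 0) (nat_lit 124044080034) (nat_lit 456) (nat_lit 46829471708) (nat_lit 76) (nat_lit 141217832045) (nat_lit 22) (nat_lit 5) (nat_lit 28) (nat_lit 5) (nat_lit 23) (nat_lit 5) (nat_lit 301) (nat_lit 290) (nat_lit 129)) (XT.lf (nat_lit 0)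 (nat_lit 81013869371) (nat_lit 228) (nat_lit 74103502527) (nat_lit 304) (nat_lit 172517046510) (nat_lit 19) (nat_lit 5) (nat_lit 22) (nat_lit 5) (nat_lit 23) (nat_lit 5) (nat_lit 302) (nat_lit 290) (nat_lit 128))) (XT.nd (nat_lit 78) (nat_lit 152) (nat_lit 0) (XT.lf (nat_lit 0) (nat_lit 190721432660) (nat_lit 304) (nat_lit 123335205823) (nat_lit 76) (nat_lit 30200665458) (nat_lit 19) (nat_lit 5) (nat_lit 23) (nat_lit 5) (nat_lit 20) (nat_lit 5) (nat_lit 303) (nat_lit 290) (nat_lit 127)) (XT.nd (nat_lit 78) (nat_lit 0) (nat_lit 0) (XT.lf (nat_lit 0) (nat_lit 8303499661) (nat_lit 152) (nat_lit 222994720292) (nat_lit 228) (nat_lit 130741848772) (nat_lit 17) (nat_lit 5) (nat_lit 19) (nat_lit 5) (nat_lit 20) (nat_lit 5) (nat_lit 304) (nat_lit 290) (nat_lit 126)) (XT.lf (nat_lit 0) (nat_lit 157487412319) (nat_lit 152) (nat_lit 121005880028) (nat_lit 228) (nat_lit 102482391477) (nat_lit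 17) (nat_lit 5) (nat_lit 19) (nat_lit 5) (nat_lit 20) (nat_lit 5) (nat_lit 305) (nat_lit 290) (nat_lit 125))))) (XT.nd (nat_lit 234) (nat_lit 152) (nat_lit 0) (XT.nd (nat_lit 78) (nat_lit 228) (nat_lit 0) (XT.lf (nat_lit 0) (nat_lit 318605971594) (nat_lit 152) (nat_lit 10857942477) (nat_lit 228) (nat_lit 71962239043) (nat_lit 17) (nat_lit 5) (nat_lit 19) (nat_lit 5) (nat_lit 20) (nat_lit 5) (nat_lit 306) (nat_lit 290) (nat_lit 124)) (XT.nd (nat_lit 78) (nat_lit 76) (nat_lit 0) (XT.lf (nat_lit 0) (nat_lit 70003286067) (nat_lit 152) (nat_lit 318792279291) (nat_lit 228) (nat_lit 34374424631) (nat_lit 15) (nat_lit 5) (nat_lit 17) (nat_lit 5) (nat_lit 18) (nat_lit 5) (nat_lit 307) (nat_lit 290) (nat_lit 123)) (XT.lf (nat_lit 0) (nat_lit 8514484657) (nat_lit 228) (nat_lit 207199999409) (nat_lit 76) (nat_lit 230718462822) (nat_lit 14) (nat_lit 5) (nat_lit 17) (nat_lit 5) (nat_lit 15) (nat_lit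 5) (nat_lit 308) (nat_lit 290) (nat_lit 122)))) (XT.nd (nat_lit 78) (nat_lit 152) (nat_lit 0) (XT.lf (nat_lit 0) (nat_lit 52977346920) (nat_lit 228) (nat_lit 50448863046) (nat_lit 76) (nat_lit 368059307178) (nat_lit 14) (nat_lit 5) (nat_lit 17) (nat_lit 5) (nat_lit 15) (nat_lit 5) (nat_lit 309) (nat_lit 290) (nat_lit 121)) (XT.nd (nat_lit 78) (nat_lit 0) (nat_lit 0) (XT.lf (nat_lit 0) (nat_lit 104513182271) (nat_lit 228) (nat_lit 373708594392) (nat_lit 76) (nat_lit 20039241145) (nat_lit 12) (nat_lit 5) (nat_lit 15) (nat_lit 5) (nat_lit 13) (nat_lit 5) (nat_lit 310) (nat_lit 290) (nat_lit 120)) (XT.lf (nat_lit 0) (nat_lit 164273425566) (nat_lit 228) (nat_lit 213367607512) (nat_lit 76) (nat_lit 149209402451) (nat_lit 12) (nat_lit 5) (nat_lit 15) (nat_lit 5) (nat_lit 13) (nat_lit 5) (nat_lit 311) (nat_lit 290) (nat_lit 119))))))))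
noncomputable def xc122 : XT := (XT.nd (nat_lit 36972) (nat_lit 0) (nat_lit 0) (XT.nd (nat_lit 36114) (nat_lit 0) (nat_lit 988) (XT.nd (nat_lit 390) (nat_lit 228) (nat_lit 0) (XT.nd (nat_lit 156) (nat_lit 76) (nat_lit 0) (XT.nd (nat_lit 78) (nat_lit 152) (nat_lit 0) (XT.lf (nat_lit 0) (nat_lit 228814448665) (nat_lit 228) (nat_lit 40199396867) (nat_lit 76) (nat_lit 288713164580) (nat_lit 12) (nat_lit 5) (nat_lit 15) (nat_lit 5) (nat_lit 13) (nat_lit 5) (nat_lit 312) (nat_lit 290) (nat_lit 118)) (XT.lf (nat_lit 0) (nat_lit 154553617420) (nat_lit 152) (nat_lit 147682117685) (nat_lit 228) (nat_lit 288540617287) (nat_lit 10) (nat_lit 5) (nat_lit 12) (nat_lit 5) (nat_lit 13) (nat_lit 5) (nat_lit 313) (nat_lit 290) (nat_lit 117))) (XT.nd (nat_lit 78) (nat_lit 76) (nat_lit 0) (XT.lf (nat_lit 0) (nat_lit 367172998367) (nat_lit 152) (nat_lit 15456813645) (nat_lit 228) (nat_lit 243751903273)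 (nat_lit 10) (nat_lit 5) (nat_lit 12) (nat_lit 5) (nat_lit 13) (nat_lit 5) (nat_lit 314) (nat_lit 290) (nat_lit 116)) (XT.nd (nat_lit 78) (nat_lit 76) (nat_lit 0) (XT.lf (nat_lit 0) (nat_lit 472518068894) (nat_lit 228) (nat_lit 71096312773) (nat_lit 76) (nat_lit 120976113450) (nat_lit 10) (nat_lit 5) (nat_lit 13) (nat_lit 5) (nat_lit 11) (nat_lit 4) (nat_lit 315) (nat_lit 290) (nat_lit 115)) (XT.lf (nat_lit 0) (nat_lit 138596732913) (nat_lit 76) (nat_lit 434735353374) (nat_lit 152) (nat_lit 132225115252) (nat_lit 9) (nat_lit 5) (nat_lit 10) (nat_lit 5) (nat_lit 11) (nat_lit 4) (nat_lit 316) (nat_lit 290) (nat_lit 114))))) (XT.nd (nat_lit 35490) (nat_lit 0) (nat_lit 1900) (XT.nd (nat_lit 78) (nat_lit 228) (nat_lit 0) (XT.lf (nat_lit 0) (nat_lit 369108488687) (nat_lit 76) (nat_lit 315046606292) (nat_lit 152) (nat_lit 65490640087) (nat_lit 9) (nat_lit 5) (nat_lit 10) (nat_lit 5) (nat_lit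 11) (nat_lit 4) (nat_lit 317) (nat_lit 290) (nat_lit 113)) (XT.nd (nat_lit 156) (nat_lit 152) (nat_lit 0) (XT.lf (nat_lit 0) (nat_lit 6253277150) (nat_lit 152) (nat_lit 179358520128) (nat_lit 76) (nat_lit 611636891472) (nat_lit 8) (nat_lit 5) (nat_lit 10) (nat_lit 5) (nat_lit 9) (nat_lit 5) (nat_lit 318) (nat_lit 290) (nat_lit 112)) (XT.lf (nat_lit 0) (nat_lit 169667881423) (nat_lit 228) (nat_lit 622955966382) (nat_lit 76) (nat_lit 110508379652) (nat_lit 6) (nat_lit 5) (nat_lit 9) (nat_lit 5) (nat_lit 7) (nat_lit 4) (nat_lit 320) (nat_lit 290) (nat_lit 110)))) (XT.nd (nat_lit 78) (nat_lit 0) (nat_lit 0) (XT.lf (nat_lit 0) (nat_lit 50699766903) (nat_lit 0) (nat_lit 50699766903) (nat_lit 380) (nat_lit 3225302468) (nat_lit 31) (nat_lit 5) (nat_lit 31) (nat_lit 3) (nat_lit 36) (nat_lit 3) (nat_lit 291) (nat_lit 291) (nat_lit 138)) (XT.nd (nat_lit 78) (nat_lit 0) (nat_lit 0) (XT.lf (nat_lit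 0) (nat_lit 189729000681) (nat_lit 0) (nat_lit 21183263348) (nat_lit 380) (nat_lit 6707284094) (nat_lit 31) (nat_lit 5) (nat_lit 31) (nat_lit 3) (nat_lit 36) (nat_lit 3) (nat_lit 292) (nat_lit 291) (nat_lit 137)) (XT.lf (nat_lit 76) (nat_lit 59887469074) (nat_lit 0) (nat_lit 162801301709) (nat_lit 456) (nat_lit 3729103852) (nat_lit 32) (nat_lit 5) (nat_lit 31) (nat_lit 5) (nat_lit 37) (nat_lit 5) (nat_lit 293) (nat_lit 291) (nat_lit 136)))))) (XT.nd (nat_lit 390) (nat_lit 456) (nat_lit 0) (XT.nd (nat_lit 156) (nat_lit 0) (nat_lit 76) (XT.nd (nat_lit 78) (nat_lit 0) (nat_lit 76) (XT.lf (nat_lit 0) (nat_lit 845456672) (nat_lit 456) (nat_lit 80142945964) (nat_lit 532) (nat_lit 154826053687) (nat_lit 25) (nat_lit 5) (nat_lit 31) (nat_lit 5) (nat_lit 32) (nat_lit 5) (nat_lit 294) (nat_lit 291) (nat_lit 135)) (XT.lf (nat_lit 0) (nat_lit 6103341473) (nat_lit 456) (nat_lit 232370700598) (nat_lit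 532) (nat_lit 7439468459) (nat_lit 26) (nat_lit 5) (nat_lit 32) (nat_lit 5) (nat_lit 33) (nat_lit 5) (nat_lit 295) (nat_lit 291) (nat_lit 134))) (XT.nd (nat_lit 78) (nat_lit 0) (nat_lit 0) (XT.lf (nat_lit 0) (nat_lit 16133514911) (nat_lit 456) (nat_lit 139524554852) (nat_lit 532) (nat_lit 100814287611) (nat_lit 26) (nat_lit 5) (nat_lit 32) (nat_lit 5) (nat_lit 33) (nat_lit 5) (nat_lit 296) (nat_lit 291) (nat_lit 133)) (XT.nd (nat_lit 78) (nat_lit 0) (nat_lit 76) (XT.lf (nat_lit 0) (nat_lit 26966007057) (nat_lit 456) (nat_lit 39250793355) (nat_lit 532) (nat_lit 201659120027) (nat_lit 26) (nat_lit 5) (nat_lit 32) (nat_lit 5) (nat_lit 33) (nat_lit 5) (nat_lit 297) (nat_lit 291) (nat_lit 132)) (XT.lf (nat_lit 0) (nat_lit 41189016496) (nat_lit 456) (nat_lit 208147399755) (nat_lit 76) (nat_lit 30653439661) (nat_lit 27) (nat_lit 5) (nat_lit 33) (nat_lit 5) (nat_lit 28) (nat_lit 5) (nat_lit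 298) (nat_lit 291) (nat_lit 131))))) (XT.nd (nat_lit 234) (nat_lit 228) (nat_lit 0) (XT.nd (nat_lit 78) (nat_lit 380) (nat_lit 0) (XT.lf (nat_lit 0) (nat_lit 59370761917) (nat_lit 456) (nat_lit 100679526412) (nat_lit 76) (nat_lit 132796947012) (nat_lit 27) (nat_lit 5) (nat_lit 33) (nat_lit 5) (nat_lit 28) (nat_lit 5) (nat_lit 299) (nat_lit 291) (nat_lit 130)) (XT.nd (nat_lit 78) (nat_lit 0) (nat_lit 0) (XT.lf (nat_lit 0) (nat_lit 16195890210) (nat_lit 380) (nat_lit 63200591567) (nat_lit 456) (nat_lit 227305569247) (nat_lit 22) (nat_lit 5) (nat_lit 27) (nat_lit 5) (nat_lit 28) (nat_lit 5) (nat_lit 300) (nat_lit 291) (nat_lit 129)) (XT.lf (nat_lit 0) (nat_lit 104844044245) (nat_lit 456) (nat_lit 174365133717) (nat_lit 76) (nat_lit 42150491831) (nat_lit 22) (nat_lit 5) (nat_lit 28) (nat_lit 5) (nat_lit 23) (nat_lit 5) (nat_lit 301) (nat_lit 291) (nat_lit 128)))) (XT.nd (nat_lit 78) (nat_lit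 228) (nat_lit 0) (XT.lf (nat_lit 0) (nat_lit 133968918276) (nat_lit 456) (nat_lit 50574468039) (nat_lit 76) (nat_lit 152515191807) (nat_lit 22) (nat_lit 5) (nat_lit 28) (nat_lit 5) (nat_lit 23) (nat_lit 5) (nat_lit 302) (nat_lit 291) (nat_lit 127)) (XT.nd (nat_lit 78) (nat_lit 0) (nat_lit 0) (XT.lf (nat_lit 0) (nat_lit 87496305860) (nat_lit 228) (nat_lit 80031702369) (nat_lit 304) (nat_lit 186317053352) (nat_lit 19) (nat_lit 5) (nat_lit 22) (nat_lit 5) (nat_lit 23) (nat_lit 5) (nat_lit 303) (nat_lit 291) (nat_lit 126)) (XT.lf (nat_lit 0) (nat_lit 205980303302) (nat_lit 304) (nat_lit 133200693301) (nat_lit 76) (nat_lit 32616789381) (nat_lit 19) (nat_lit 5) (nat_lit 23) (nat_lit 5) (nat_lit 20) (nat_lit 5) (nat_lit 304) (nat_lit 291) (nat_lit 125))))))) (XT.nd (nat_lit 858) (nat_lit 304) (nat_lit 0) (XT.nd (nat_lit 390) (nat_lit 304) (nat_lit 0) (XT.nd (nat_lit 156) (nat_lit 228) (nat_lit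 0) (XT.nd (nat_lit 78) (nat_lit 0) (nat_lit 0) (XT.lf (nat_lit 0) (nat_lit 8969074977) (nat_lit 152) (nat_lit 240834104122) (nat_lit 228) (nat_lit 141199997934) (nat_lit 17) (nat_lit 5) (nat_lit 19) (nat_lit 5) (nat_lit 20) (nat_lit 5) (nat_lit 305) (nat_lit 291) (nat_lit 124)) (XT.lf (nat_lit 0) (nat_lit 170087604696) (nat_lit 152) (nat_lit 130686170992) (nat_lit 228) (nat_lit 110679872851) (nat_lit 17) (nat_lit 5) (nat_lit 19) (nat_lit 5) (nat_lit 20) (nat_lit 5) (nat_lit 306) (nat_lit 291) (nat_lit 123))) (XT.nd (nat_lit 78) (nat_lit 228) (nat_lit 0) (XT.lf (nat_lit 0) (nat_lit 344095559869) (nat_lit 152) (nat_lit 11726411729) (nat_lit 228) (nat_lit 77718190440) (nat_lit 17) (nat_lit 5) (nat_lit 19) (nat_lit 5) (nat_lit 20) (nat_lit 5) (nat_lit 307) (nat_lit 291) (nat_lit 122)) (XT.nd (nat_lit 78) (nat_lit 76) (nat_lit 0) (XT.lf (nat_lit 0) (nat_lit 75604708705) (nat_lit 152) (nat_lit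 344295407919) (nat_lit 228) (nat_lit 37123392884) (nat_lit 15) (nat_lit 5) (nat_lit 17) (nat_lit 5) (nat_lit 18) (nat_lit 5) (nat_lit 308) (nat_lit 291) (nat_lit 121)) (XT.lf (nat_lit 0) (nat_lit 9196510474) (nat_lit 228) (nat_lit 223774873688) (nat_lit 76) (nat_lit 249176122942) (nat_lit 14) (nat_lit 5) (nat_lit 17) (nat_lit 5) (nat_lit 15) (nat_lit 5) (nat_lit 309) (nat_lit 291) (nat_lit 120))))) (XT.nd (nat_lit 234) (nat_lit 152) (nat_lit 0) (XT.nd (nat_lit 78) (nat_lit 152) (nat_lit 0) (XT.lf (nat_lit 0) (nat_lit 57216337493) (nat_lit 228) (nat_lit 54483729800) (nat_lit 76) (nat_lit 397504221285) (nat_lit 14) (nat_lit 5) (nat_lit 17) (nat_lit 5) (nat_lit 15) (nat_lit 5) (nat_lit 310) (nat_lit 291) (nat_lit 119)) (XT.nd (nat_lit 78) (nat_lit 0) (nat_lit 0) (XT.lf (nat_lit 0) (nat_lit 112875010603) (nat_lit 228) (nat_lit 403604205296) (nat_lit 76) (nat_lit 21642616144) (nat_lit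 12) (nat_lit 5) (nat_lit 15) (nat_lit 5) (nat_lit 13) (nat_lit 5) (nat_lit 311) (nat_lit 291) (nat_lit 118)) (XT.lf (nat_lit 0) (nat_lit 177416016047) (nat_lit 228) (nat_lit 230436019217) (nat_lit 76) (nat_lit 161146372895) (nat_lit 12) (nat_lit 5) (nat_lit 15) (nat_lit 5) (nat_lit 13) (nat_lit 5) (nat_lit 312) (nat_lit 291) (nat_lit 117)))) (XT.nd (nat_lit 78) (nat_lit 152) (nat_lit 0) (XT.lf (nat_lit 0) (nat_lit 247120267925) (nat_lit 228) (nat_lit 43414425564) (nat_lit 76) (nat_lit 311810419827) (nat_lit 12) (nat_lit 5) (nat_lit 15) (nat_lit 5) (nat_lit 13) (nat_lit 5) (nat_lit 313) (nat_lit 291) (nat_lit 116)) (XT.nd (nat_lit 78) (nat_lit 0) (nat_lit 0) (XT.lf (nat_lit 0) (nat_lit 166918806497) (nat_lit 152) (nat_lit 159496423282) (nat_lit 228) (nat_lit 311623175736) (nat_lit 10) (nat_lit 5) (nat_lit 12) (nat_lit 5) (nat_lit 13) (nat_lit 5) (nat_lit 314) (nat_lit 291) (nat_lit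 115)) (XT.lf (nat_lit 0) (nat_lit 396547671277) (nat_lit 152) (nat_lit 16693114460) (nat_lit 228) (nat_lit 263251415781) (nat_lit 10) (nat_lit 5) (nat_lit 12) (nat_lit 5) (nat_lit 13) (nat_lit 5) (nat_lit 315) (nat_lit 291) (nat_lit 114)))))) (XT.nd (nat_lit 35724) (nat_lit 0) (nat_lit 1444) (XT.nd (nat_lit 156) (nat_lit 228) (nat_lit 0) (XT.nd (nat_lit 78) (nat_lit 76) (nat_lit 0) (XT.lf (nat_lit 0) (nat_lit 510320064998) (nat_lit 228) (nat_lit 76783204688) (nat_lit 76) (nat_lit 130654417393) (nat_lit 10) (nat_lit 5) (nat_lit 13) (nat_lit 5) (nat_lit 11) (nat_lit 4) (nat_lit 316) (nat_lit 291) (nat_lit 113)) (XT.lf (nat_lit 0) (nat_lit 149685264068) (nat_lit 76) (nat_lit 469513917990) (nat_lit 152) (nat_lit 142802549961) (nat_lit 9) (nat_lit 5) (nat_lit 10) (nat_lit 5) (nat_lit 11) (nat_lit 4) (nat_lit 317) (nat_lit 291) (nat_lit 112))) (XT.nd (nat_lit 156) (nat_lit 228) (nat_lit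 0) (XT.lf (nat_lit 0) (nat_lit 398637901598) (nat_lit 76) (nat_lit 340250090671) (nat_lit 152) (nat_lit 70729359340) (nat_lit 9) (nat_lit 5) (nat_lit 10) (nat_lit 5) (nat_lit 11) (nat_lit 4) (nat_lit 318) (nat_lit 291) (nat_lit 111)) (XT.nd (nat_lit 35334) (nat_lit 0) (nat_lit 1900) (XT.lf (nat_lit 0) (nat_lit 41170659813) (nat_lit 152) (nat_lit 46434293939) (nat_lit 228) (nat_lit 828721496928) (nat_lit 6) (nat_lit 5) (nat_lit 8) (nat_lit 5) (nat_lit 9) (nat_lit 5) (nat_lit 320) (nat_lit 291) (nat_lit 109)) (XT.lf (nat_lit 0) (nat_lit 54756350276) (nat_lit 0) (nat_lit 54756350276) (nat_lit 380) (nat_lit 3482013973) (nat_lit 31) (nat_lit 5) (nat_lit 31) (nat_lit 3) (nat_lit 36) (nat_lit 3) (nat_lit 292) (nat_lit 292) (nat_lit 136))))) (XT.nd (nat_lit 234) (nat_lit 0) (nat_lit 76) (XT.nd (nat_lit 78) (nat_lit 456) (nat_lit 0) (XT.lf (nat_lit 0) (nat_lit 204908435588) (nat_lit 0) (nat_lit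 22879039269) (nat_lit 380) (nat_lit 7241435909) (nat_lit 31) (nat_lit 5) (nat_lit 31) (nat_lit 3) (nat_lit 36) (nat_lit 3) (nat_lit 293) (nat_lit 292) (nat_lit 135)) (XT.nd (nat_lit 78) (nat_lit 456) (nat_lit 0) (XT.lf (nat_lit 76) (nat_lit 64679775475) (nat_lit 0) (nat_lit 175826168166) (nat_lit 456) (nat_lit 4025174131) (nat_lit 32) (nat_lit 5) (nat_lit 31) (nat_lit 5) (nat_lit 37) (nat_lit 5) (nat_lit 294) (nat_lit 292) (nat_lit 134)) (XT.lf (nat_lit 0) (nat_lit 915079385) (nat_lit 456) (nat_lit 86553047009) (nat_lit 532) (nat_lit 167211309418) (nat_lit 25) (nat_lit 5) (nat_lit 31) (nat_lit 5) (nat_lit 32) (nat_lit 5) (nat_lit 295) (nat_lit 292) (nat_lit 133)))) (XT.nd (nat_lit 78) (nat_lit 0) (nat_lit 0) (XT.lf (nat_lit 0) (nat_lit 6593465435) (nat_lit 456) (nat_lit 250958875697) (nat_lit 532) (nat_lit 8034084929) (nat_lit 26) (nat_lit 5) (nat_lit 32) (nat_lit 5) (nat_lit 33)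 (nat_lit 5) (nat_lit 296) (nat_lit 292) (nat_lit 132)) (XT.nd (nat_lit 78) (nat_lit 0) (nat_lit 0) (XT.lf (nat_lit 0) (nat_lit 17425915218) (nat_lit 456) (nat_lit 150685147991) (nat_lit 532) (nat_lit 108878929688) (nat_lit 26) (nat_lit 5) (nat_lit 32) (nat_lit 5) (nat_lit 33) (nat_lit 5) (nat_lit 297) (nat_lit 292) (nat_lit 131)) (XT.lf (nat_lit 0) (nat_lit 29124879395) (nat_lit 456) (nat_lit 42389587148) (nat_lit 532) (nat_lit 217791385803) (nat_lit 26) (nat_lit 5) (nat_lit 32) (nat_lit 5) (nat_lit 33) (nat_lit 5) (nat_lit 298) (nat_lit 292) (nat_lit 130))))))))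
noncomputable def xc123 : XT := (XT.nd (nat_lit 37284) (nat_lit 0) (nat_lit 0) (XT.nd (nat_lit 858) (nat_lit 380) (nat_lit 0) (XT.nd (nat_lit 390) (nat_lit 532) (nat_lit 0) (XT.nd (nat_lit 156) (nat_lit 380) (nat_lit 0) (XT.nd (nat_lit 78) (nat_lit 0) (nat_lit 0) (XT.lf (nat_lit 0) (nat_lit 44485635042) (nat_lit 456) (nat_lit 224797814193) (nat_lit 76) (nat_lit 33105462050) (nat_lit 27) (nat_lit 5) (nat_lit 33) (nat_lit 5) (nat_lit 28) (nat_lit 5) (nat_lit 299) (nat_lit 292) (nat_lit 129)) (XT.lf (nat_lit 0) (nat_lit 64121809192) (nat_lit 456) (nat_lit 108732613023) (nat_lit 76) (nat_lit 143420468715) (nat_lit 27) (nat_lit 5) (nat_lit 33) (nat_lit 5) (nat_lit 28) (nat_lit 5) (nat_lit 300) (nat_lit 292) (nat_lit 128))) (XT.nd (nat_lit 78) (nat_lit 0) (nat_lit 0) (XT.lf (nat_lit 0) (nat_lit 17492804638) (nat_lit 380) (nat_lit 68256709212) (nat_lit 456) (nat_lit 245488584754) (nat_lit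 22) (nat_lit 5) (nat_lit 27) (nat_lit 5) (nat_lit 28) (nat_lit 5) (nat_lit 301) (nat_lit 292) (nat_lit 127)) (XT.nd (nat_lit 78) (nat_lit 0) (nat_lit 0) (XT.lf (nat_lit 0) (nat_lit 113232782450) (nat_lit 456) (nat_lit 188313083854) (nat_lit 76) (nat_lit 45522469324) (nat_lit 22) (nat_lit 5) (nat_lit 28) (nat_lit 5) (nat_lit 23) (nat_lit 5) (nat_lit 302) (nat_lit 292) (nat_lit 126)) (XT.lf (nat_lit 0) (nat_lit 144687556428) (nat_lit 456) (nat_lit 54619258297) (nat_lit 76) (nat_lit 164716349881) (nat_lit 22) (nat_lit 5) (nat_lit 28) (nat_lit 5) (nat_lit 23) (nat_lit 5) (nat_lit 303) (nat_lit 292) (nat_lit 125))))) (XT.nd (nat_lit 234) (nat_lit 152) (nat_lit 0) (XT.nd (nat_lit 78) (nat_lit 152) (nat_lit 0) (XT.lf (nat_lit 0) (nat_lit 94497147965) (nat_lit 228) (nat_lit 86434169662) (nat_lit 304) (nat_lit 201221254315) (nat_lit 19) (nat_lit 5) (nat_lit 22) (nat_lit 5) (nat_lit 23) (nat_lit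 5) (nat_lit 304) (nat_lit 292) (nat_lit 124)) (XT.nd (nat_lit 78) (nat_lit 152) (nat_lit 0) (XT.lf (nat_lit 0) (nat_lit 222459718674) (nat_lit 304) (nat_lit 143855609372) (nat_lit 76) (nat_lit 35226193133) (nat_lit 19) (nat_lit 5) (nat_lit 23) (nat_lit 5) (nat_lit 20) (nat_lit 5) (nat_lit 305) (nat_lit 292) (nat_lit 123)) (XT.lf (nat_lit 0) (nat_lit 9687711523) (nat_lit 152) (nat_lit 260100666305) (nat_lit 228) (nat_lit 152494970043) (nat_lit 17) (nat_lit 5) (nat_lit 19) (nat_lit 5) (nat_lit 20) (nat_lit 5) (nat_lit 306) (nat_lit 292) (nat_lit 122)))) (XT.nd (nat_lit 78) (nat_lit 152) (nat_lit 0) (XT.lf (nat_lit 0) (nat_lit 183695641357) (nat_lit 152) (nat_lit 141140910833) (nat_lit 228) (nat_lit 119533311081) (nat_lit 17) (nat_lit 5) (nat_lit 19) (nat_lit 5) (nat_lit 20) (nat_lit 5) (nat_lit 307) (nat_lit 292) (nat_lit 121)) (XT.nd (nat_lit 78) (nat_lit 152) (nat_lit 0) (XT.lf (nat_lit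 0) (nat_lit 371624156774) (nat_lit 152) (nat_lit 12664382223) (nat_lit 228) (nat_lit 83934764565) (nat_lit 17) (nat_lit 5) (nat_lit 19) (nat_lit 5) (nat_lit 20) (nat_lit 5) (nat_lit 308) (nat_lit 292) (nat_lit 120)) (XT.lf (nat_lit 0) (nat_lit 81654079703) (nat_lit 152) (nat_lit 371838823032) (nat_lit 228) (nat_lit 40092419220) (nat_lit 15) (nat_lit 5) (nat_lit 17) (nat_lit 5) (nat_lit 18) (nat_lit 5) (nat_lit 309) (nat_lit 292) (nat_lit 119)))))) (XT.nd (nat_lit 390) (nat_lit 152) (nat_lit 0) (XT.nd (nat_lit 156) (nat_lit 152) (nat_lit 0) (XT.nd (nat_lit 78) (nat_lit 0) (nat_lit 0) (XT.lf (nat_lit 0) (nat_lit 9932974663) (nat_lit 228) (nat_lit 241675898500) (nat_lit 76) (nat_lit 269110369752) (nat_lit 14) (nat_lit 5) (nat_lit 17) (nat_lit 5) (nat_lit 15) (nat_lit 5) (nat_lit 310) (nat_lit 292) (nat_lit 118)) (XT.lf (nat_lit 0) (nat_lit 61794332780) (nat_lit 228) (nat_lit 58841534588)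 (nat_lit 76) (nat_lit 429304704334) (nat_lit 14) (nat_lit 5) (nat_lit 17) (nat_lit 5) (nat_lit 15) (nat_lit 5) (nat_lit 311) (nat_lit 292) (nat_lit 117))) (XT.nd (nat_lit 78) (nat_lit 0) (nat_lit 0) (XT.lf (nat_lit 0) (nat_lit 121905674818) (nat_lit 228) (nat_lit 435891618667) (nat_lit 76) (nat_lit 23374227517) (nat_lit 12) (nat_lit 5) (nat_lit 15) (nat_lit 5) (nat_lit 13) (nat_lit 5) (nat_lit 312) (nat_lit 292) (nat_lit 116)) (XT.nd (nat_lit 78) (nat_lit 0) (nat_lit 0) (XT.lf (nat_lit 0) (nat_lit 191609911559) (nat_lit 228) (nat_lit 248870046076) (nat_lit 76) (nat_lit 174038269838) (nat_lit 12) (nat_lit 5) (nat_lit 15) (nat_lit 5) (nat_lit 13) (nat_lit 5) (nat_lit 313) (nat_lit 292) (nat_lit 115)) (XT.lf (nat_lit 0) (nat_lit 266890458089) (nat_lit 228) (nat_lit 46886788241) (nat_lit 76) (nat_lit 336755426665) (nat_lit 12) (nat_lit 5) (nat_lit 15) (nat_lit 5) (nat_lit 13) (nat_lit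 5) (nat_lit 314) (nat_lit 292) (nat_lit 114))))) (XT.nd (nat_lit 35802) (nat_lit 0) (nat_lit 1596) (XT.nd (nat_lit 78) (nat_lit 0) (nat_lit 0) (XT.lf (nat_lit 0) (nat_lit 180273082351) (nat_lit 152) (nat_lit 172255910963) (nat_lit 228) (nat_lit 336552437430) (nat_lit 10) (nat_lit 5) (nat_lit 12) (nat_lit 5) (nat_lit 13) (nat_lit 5) (nat_lit 315) (nat_lit 292) (nat_lit 113)) (XT.nd (nat_lit 78) (nat_lit 0) (nat_lit 0) (XT.lf (nat_lit 0) (nat_lit 428272199177) (nat_lit 152) (nat_lit 18028354190) (nat_lit 228) (nat_lit 284310980558) (nat_lit 10) (nat_lit 5) (nat_lit 12) (nat_lit 5) (nat_lit 13) (nat_lit 5) (nat_lit 316) (nat_lit 292) (nat_lit 112)) (XT.lf (nat_lit 0) (nat_lit 551146142242) (nat_lit 228) (nat_lit 82925163955) (nat_lit 76) (nat_lit 141106954998) (nat_lit 10) (nat_lit 5) (nat_lit 13) (nat_lit 5) (nat_lit 11) (nat_lit 4) (nat_lit 317) (nat_lit 292) (nat_lit 111)))) (XT.nd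 (nat_lit 78) (nat_lit 0) (nat_lit 0) (XT.lf (nat_lit 0) (nat_lit 59137374433) (nat_lit 0) (nat_lit 59137374433) (nat_lit 380) (nat_lit 3759449669) (nat_lit 31) (nat_lit 5) (nat_lit 31) (nat_lit 3) (nat_lit 36) (nat_lit 3) (nat_lit 293) (nat_lit 293) (nat_lit 134)) (XT.nd (nat_lit 78) (nat_lit 0) (nat_lit 0) (XT.lf (nat_lit 0) (nat_lit 221302066242) (nat_lit 0) (nat_lit 24710318217) (nat_lit 380) (nat_lit 7818666667) (nat_lit 31) (nat_lit 5) (nat_lit 31) (nat_lit 3) (nat_lit 36) (nat_lit 3) (nat_lit 294) (nat_lit 293) (nat_lit 133)) (XT.lf (nat_lit 76) (nat_lit 69855279662) (nat_lit 0) (nat_lit 189892915186) (nat_lit 456) (nat_lit 4345252166) (nat_lit 32) (nat_lit 5) (nat_lit 31) (nat_lit 5) (nat_lit 37) (nat_lit 5) (nat_lit 295) (nat_lit 293) (nat_lit 132))))))) (XT.nd (nat_lit 858) (nat_lit 684) (nat_lit 0) (XT.nd (nat_lit 390) (nat_lit 456) (nat_lit 0) (XT.nd (nat_lit 156) (nat_lit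 0) (nat_lit 76) (XT.nd (nat_lit 78) (nat_lit 0) (nat_lit 76) (XT.lf (nat_lit 0) (nat_lit 989988564) (nat_lit 456) (nat_lit 93476146537) (nat_lit 532) (nat_lit 180587503812) (nat_lit 25) (nat_lit 5) (nat_lit 31) (nat_lit 5) (nat_lit 32) (nat_lit 5) (nat_lit 296) (nat_lit 293) (nat_lit 131)) (XT.lf (nat_lit 0) (nat_lit 7122534442) (nat_lit 456) (nat_lit 271034316077) (nat_lit 532) (nat_lit 8676347897) (nat_lit 26) (nat_lit 5) (nat_lit 32) (nat_lit 5) (nat_lit 33) (nat_lit 5) (nat_lit 297) (nat_lit 293) (nat_lit 130))) (XT.nd (nat_lit 78) (nat_lit 0) (nat_lit 0) (XT.lf (nat_lit 0) (nat_lit 18821462299) (nat_lit 456) (nat_lit 162738784205) (nat_lit 532) (nat_lit 117588814595) (nat_lit 26) (nat_lit 5) (nat_lit 32) (nat_lit 5) (nat_lit 33) (nat_lit 5) (nat_lit 298) (nat_lit 293) (nat_lit 129)) (XT.nd (nat_lit 78) (nat_lit 0) (nat_lit 76) (XT.lf (nat_lit 0) (nat_lit 31456234435) (nat_lit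 456) (nat_lit 45779665579) (nat_lit 532) (nat_lit 235214299011) (nat_lit 26) (nat_lit 5) (nat_lit 32) (nat_lit 5) (nat_lit 33) (nat_lit 5) (nat_lit 299) (nat_lit 293) (nat_lit 128)) (XT.lf (nat_lit 0) (nat_lit 48045769476) (nat_lit 456) (nat_lit 242780458309) (nat_lit 76) (nat_lit 35753682293) (nat_lit 27) (nat_lit 5) (nat_lit 33) (nat_lit 5) (nat_lit 28) (nat_lit 5) (nat_lit 300) (nat_lit 293) (nat_lit 127))))) (XT.nd (nat_lit 234) (nat_lit 228) (nat_lit 0) (XT.nd (nat_lit 78) (nat_lit 380) (nat_lit 0) (XT.lf (nat_lit 0) (nat_lit 69252742474) (nat_lit 456) (nat_lit 117430128528) (nat_lit 76) (nat_lit 154893905544) (nat_lit 27) (nat_lit 5) (nat_lit 33) (nat_lit 5) (nat_lit 28) (nat_lit 5) (nat_lit 301) (nat_lit 293) (nat_lit 126)) (XT.nd (nat_lit 78) (nat_lit 0) (nat_lit 0) (XT.lf (nat_lit 0) (nat_lit 18893294862) (nat_lit 380) (nat_lit 73717306236) (nat_lit 456) (nat_lit 265126445512)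 (nat_lit 22) (nat_lit 5) (nat_lit 27) (nat_lit 5) (nat_lit 28) (nat_lit 5) (nat_lit 302) (nat_lit 293) (nat_lit 125)) (XT.lf (nat_lit 0) (nat_lit 122292446426) (nat_lit 456) (nat_lit 203377049835) (nat_lit 76) (nat_lit 49164213841) (nat_lit 22) (nat_lit 5) (nat_lit 28) (nat_lit 5) (nat_lit 23) (nat_lit 5) (nat_lit 303) (nat_lit 293) (nat_lit 124)))) (XT.nd (nat_lit 78) (nat_lit 228) (nat_lit 0) (XT.lf (nat_lit 0) (nat_lit 156263525183) (nat_lit 456) (nat_lit 58987798288) (nat_lit 76) (nat_lit 177893608770) (nat_lit 22) (nat_lit 5) (nat_lit 28) (nat_lit 5) (nat_lit 23) (nat_lit 5) (nat_lit 304) (nat_lit 293) (nat_lit 123)) (XT.nd (nat_lit 78) (nat_lit 0) (nat_lit 0) (XT.lf (nat_lit 0) (nat_lit 102057895142) (nat_lit 228) (nat_lit 93348844167) (nat_lit 304) (nat_lit 217317957313) (nat_lit 19) (nat_lit 5) (nat_lit 22) (nat_lit 5) (nat_lit 23) (nat_lit 5) (nat_lit 305) (nat_lit 293) (nat_lit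 122)) (XT.lf (nat_lit 0) (nat_lit 240257345884) (nat_lit 304) (nat_lit 155363081275) (nat_lit 76) (nat_lit 38044340540) (nat_lit 19) (nat_lit 5) (nat_lit 23) (nat_lit 5) (nat_lit 20) (nat_lit 5) (nat_lit 306) (nat_lit 293) (nat_lit 121)))))) (XT.nd (nat_lit 390) (nat_lit 304) (nat_lit 0) (XT.nd (nat_lit 156) (nat_lit 228) (nat_lit 0) (XT.nd (nat_lit 78) (nat_lit 0) (nat_lit 0) (XT.lf (nat_lit 0) (nat_lit 10463680561) (nat_lit 152) (nat_lit 280908577166) (nat_lit 228) (nat_lit 164693686536) (nat_lit 17) (nat_lit 5) (nat_lit 19) (nat_lit 5) (nat_lit 20) (nat_lit 5) (nat_lit 307) (nat_lit 293) (nat_lit 120)) (XT.lf (nat_lit 0) (nat_lit 198392174254) (nat_lit 152) (nat_lit 152432051807) (nat_lit 228) (nat_lit 129095160125) (nat_lit 17) (nat_lit 5) (nat_lit 19) (nat_lit 5) (nat_lit 20) (nat_lit 5) (nat_lit 308) (nat_lit 293) (nat_lit 119))) (XT.nd (nat_lit 78) (nat_lit 228) (nat_lit 0)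 (XT.lf (nat_lit 0) (nat_lit 401354905602) (nat_lit 152) (nat_lit 13677410679) (nat_lit 228) (nat_lit 90648790321) (nat_lit 17) (nat_lit 5) (nat_lit 19) (nat_lit 5) (nat_lit 20) (nat_lit 5) (nat_lit 309) (nat_lit 293) (nat_lit 118)) (XT.nd (nat_lit 78) (nat_lit 76) (nat_lit 0) (XT.lf (nat_lit 0) (nat_lit 88187258533) (nat_lit 152) (nat_lit 401585742387) (nat_lit 228) (nat_lit 43299088226) (nat_lit 15) (nat_lit 5) (nat_lit 17) (nat_lit 5) (nat_lit 18) (nat_lit 5) (nat_lit 310) (nat_lit 293) (nat_lit 117)) (XT.lf (nat_lit 0) (nat_lit 10728249940) (nat_lit 228) (nat_lit 261009142977) (nat_lit 76) (nat_lit 290639333912) (nat_lit 14) (nat_lit 5) (nat_lit 17) (nat_lit 5) (nat_lit 15) (nat_lit 5) (nat_lit 311) (nat_lit 293) (nat_lit 116))))) (XT.nd (nat_lit 234) (nat_lit 152) (nat_lit 0) (XT.nd (nat_lit 78) (nat_lit 152) (nat_lit 0) (XT.lf (nat_lit 0) (nat_lit 66738469499) (nat_lit 228) (nat_lit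 63548091241) (nat_lit 76) (nat_lit 463649205292) (nat_lit 14) (nat_lit 5) (nat_lit 17) (nat_lit 5) (nat_lit 15) (nat_lit 5) (nat_lit 312) (nat_lit 293) (nat_lit 115)) (XT.nd (nat_lit 78) (nat_lit 0) (nat_lit 0) (XT.lf (nat_lit 0) (nat_lit 131658697533) (nat_lit 228) (nat_lit 470762156792) (nat_lit 76) (nat_lit 25244338970) (nat_lit 12) (nat_lit 5) (nat_lit 15) (nat_lit 5) (nat_lit 13) (nat_lit 5) (nat_lit 313) (nat_lit 293) (nat_lit 114)) (XT.lf (nat_lit 0) (nat_lit 206939231086) (nat_lit 228) (nat_lit 268778917014) (nat_lit 76) (nat_lit 187961491844) (nat_lit 12) (nat_lit 5) (nat_lit 15) (nat_lit 5) (nat_lit 13) (nat_lit 5) (nat_lit 314) (nat_lit 293) (nat_lit 113)))) (XT.nd (nat_lit 78) (nat_lit 152) (nat_lit 0) (XT.lf (nat_lit 0) (nat_lit 288242182330) (nat_lit 228) (nat_lit 50637052830) (nat_lit 76) (nat_lit 363696009334) (nat_lit 12) (nat_lit 5) (nat_lit 15) (nat_lit 5) (nat_lit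 13) (nat_lit 5) (nat_lit 315) (nat_lit 293) (nat_lit 112)) (XT.nd (nat_lit 78) (nat_lit 0) (nat_lit 0) (XT.lf (nat_lit 0) (nat_lit 194695590234) (nat_lit 152) (nat_lit 186036189926) (nat_lit 228) (nat_lit 363476124567) (nat_lit 10) (nat_lit 5) (nat_lit 12) (nat_lit 5) (nat_lit 13) (nat_lit 5) (nat_lit 316) (nat_lit 293) (nat_lit 111)) (XT.lf (nat_lit 0) (nat_lit 462534587421) (nat_lit 152) (nat_lit 19470442975) (nat_lit 228) (nat_lit 307055388764) (nat_lit 10) (nat_lit 5) (nat_lit 12) (nat_lit 5) (nat_lit 13) (nat_lit 5) (nat_lit 317) (nat_lit 293) (nat_lit 110))))))))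
noncomputable def xc124 : XT := (XT.nd (nat_lit 1716) (nat_lit 0) (nat_lit 0) (XT.nd (nat_lit 858) (nat_lit 760) (nat_lit 0) (XT.nd (nat_lit 390) (nat_lit 228) (nat_lit 0) (XT.nd (nat_lit 156) (nat_lit 456) (nat_lit 0) (XT.nd (nat_lit 78) (nat_lit 0) (nat_lit 0) (XT.lf (nat_lit 0) (nat_lit 63868806891) (nat_lit 0) (nat_lit 63868806891) (nat_lit 380) (nat_lit 4059240774) (nat_lit 31) (nat_lit 5) (nat_lit 31) (nat_lit 3) (nat_lit 36) (nat_lit 3) (nat_lit 294) (nat_lit 294) (nat_lit 132)) (XT.lf (nat_lit 0) (nat_lit 239007050991) (nat_lit 0) (nat_lit 26687963124) (nat_lit 380) (nat_lit 8442373207) (nat_lit 31) (nat_lit 5) (nat_lit 31) (nat_lit 3) (nat_lit 36) (nat_lit 3) (nat_lit 295) (nat_lit 294) (nat_lit 131))) (XT.nd (nat_lit 78) (nat_lit 456) (nat_lit 0) (XT.lf (nat_lit 76) (nat_lit 75444664097) (nat_lit 0) (nat_lit 205084908728) (nat_lit 456) (nat_lit 4691212620) (nat_lit 32) (nat_lit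 5) (nat_lit 31) (nat_lit 5) (nat_lit 37) (nat_lit 5) (nat_lit 296) (nat_lit 294) (nat_lit 130)) (XT.nd (nat_lit 78) (nat_lit 0) (nat_lit 76) (XT.lf (nat_lit 0) (nat_lit 1070647550) (nat_lit 456) (nat_lit 100953257265) (nat_lit 532) (nat_lit 195033895098) (nat_lit 25) (nat_lit 5) (nat_lit 31) (nat_lit 5) (nat_lit 32) (nat_lit 5) (nat_lit 297) (nat_lit 294) (nat_lit 129)) (XT.lf (nat_lit 0) (nat_lit 7693701886) (nat_lit 456) (nat_lit 292715972822) (nat_lit 532) (nat_lit 9370058073) (nat_lit 26) (nat_lit 5) (nat_lit 32) (nat_lit 5) (nat_lit 33) (nat_lit 5) (nat_lit 298) (nat_lit 294) (nat_lit 128))))) (XT.nd (nat_lit 234) (nat_lit 304) (nat_lit 0) (XT.nd (nat_lit 78) (nat_lit 0) (nat_lit 0) (XT.lf (nat_lit 0) (nat_lit 20328442883) (nat_lit 456) (nat_lit 175756879033) (nat_lit 532) (nat_lit 126995551562) (nat_lit 26) (nat_lit 5) (nat_lit 32) (nat_lit 5) (nat_lit 33) (nat_lit 5) (nat_lit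 299) (nat_lit 294) (nat_lit 127)) (XT.nd (nat_lit 78) (nat_lit 0) (nat_lit 76) (XT.lf (nat_lit 0) (nat_lit 33973903190) (nat_lit 456) (nat_lit 49441105576) (nat_lit 532) (nat_lit 254031102006) (nat_lit 26) (nat_lit 5) (nat_lit 32) (nat_lit 5) (nat_lit 33) (nat_lit 5) (nat_lit 300) (nat_lit 294) (nat_lit 126)) (XT.lf (nat_lit 0) (nat_lit 51890531541) (nat_lit 456) (nat_lit 262201882439) (nat_lit 76) (nat_lit 38613791073) (nat_lit 27) (nat_lit 5) (nat_lit 33) (nat_lit 5) (nat_lit 28) (nat_lit 5) (nat_lit 301) (nat_lit 294) (nat_lit 125)))) (XT.nd (nat_lit 78) (nat_lit 380) (nat_lit 0) (XT.lf (nat_lit 0) (nat_lit 74793980859) (nat_lit 456) (nat_lit 126823601278) (nat_lit 76) (nat_lit 167285245947) (nat_lit 27) (nat_lit 5) (nat_lit 33) (nat_lit 5) (nat_lit 28) (nat_lit 5) (nat_lit 302) (nat_lit 294) (nat_lit 124)) (XT.nd (nat_lit 78) (nat_lit 0) (nat_lit 0) (XT.lf (nat_lit 0) (nat_lit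 20405672248) (nat_lit 380) (nat_lit 79614742421) (nat_lit 456) (nat_lit 286335510036) (nat_lit 22) (nat_lit 5) (nat_lit 27) (nat_lit 5) (nat_lit 28) (nat_lit 5) (nat_lit 303) (nat_lit 294) (nat_lit 123)) (XT.lf (nat_lit 0) (nat_lit 132076734955) (nat_lit 456) (nat_lit 219646287273) (nat_lit 76) (nat_lit 53097305485) (nat_lit 22) (nat_lit 5) (nat_lit 28) (nat_lit 5) (nat_lit 23) (nat_lit 5) (nat_lit 304) (nat_lit 294) (nat_lit 122)))))) (XT.nd (nat_lit 390) (nat_lit 380) (nat_lit 0) (XT.nd (nat_lit 156) (nat_lit 152) (nat_lit 0) (XT.nd (nat_lit 78) (nat_lit 228) (nat_lit 0) (XT.lf (nat_lit 0) (nat_lit 168765433878) (nat_lit 456) (nat_lit 63705964235) (nat_lit 76) (nat_lit 192125055375) (nat_lit 22) (nat_lit 5) (nat_lit 28) (nat_lit 5) (nat_lit 23) (nat_lit 5) (nat_lit 305) (nat_lit 294) (nat_lit 121)) (XT.lf (nat_lit 0) (nat_lit 110223362951) (nat_lit 228) (nat_lit 100816701060) (nat_lit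 304) (nat_lit 234702538834) (nat_lit 19) (nat_lit 5) (nat_lit 22) (nat_lit 5) (nat_lit 23) (nat_lit 5) (nat_lit 306) (nat_lit 294) (nat_lit 120))) (XT.nd (nat_lit 78) (nat_lit 152) (nat_lit 0) (XT.lf (nat_lit 0) (nat_lit 259478662049) (nat_lit 304) (nat_lit 167791290290) (nat_lit 76) (nat_lit 41087932327) (nat_lit 19) (nat_lit 5) (nat_lit 23) (nat_lit 5) (nat_lit 20) (nat_lit 5) (nat_lit 307) (nat_lit 294) (nat_lit 119)) (XT.nd (nat_lit 78) (nat_lit 0) (nat_lit 0) (XT.lf (nat_lit 0) (nat_lit 11301591292) (nat_lit 152) (nat_lit 303381141217) (nat_lit 228) (nat_lit 177868426050) (nat_lit 17) (nat_lit 5) (nat_lit 19) (nat_lit 5) (nat_lit 20) (nat_lit 5) (nat_lit 308) (nat_lit 294) (nat_lit 118)) (XT.lf (nat_lit 0) (nat_lit 214264304015) (nat_lit 152) (nat_lit 164626502875) (nat_lit 228) (nat_lit 139422073482) (nat_lit 17) (nat_lit 5) (nat_lit 19) (nat_lit 5) (nat_lit 20) (nat_lit 5)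 (nat_lit 309) (nat_lit 294) (nat_lit 117))))) (XT.nd (nat_lit 234) (nat_lit 152) (nat_lit 0) (XT.nd (nat_lit 78) (nat_lit 228) (nat_lit 0) (XT.lf (nat_lit 0) (nat_lit 433463997884) (nat_lit 152) (nat_lit 14771498833) (nat_lit 228) (nat_lit 97900045905) (nat_lit 17) (nat_lit 5) (nat_lit 19) (nat_lit 5) (nat_lit 20) (nat_lit 5) (nat_lit 310) (nat_lit 294) (nat_lit 116)) (XT.nd (nat_lit 78) (nat_lit 76) (nat_lit 0) (XT.lf (nat_lit 0) (nat_lit 95242970057) (nat_lit 152) (nat_lit 433712441894) (nat_lit 228) (nat_lit 46762394115) (nat_lit 15) (nat_lit 5) (nat_lit 17) (nat_lit 5) (nat_lit 18) (nat_lit 5) (nat_lit 311) (nat_lit 294) (nat_lit 115)) (XT.lf (nat_lit 0) (nat_lit 11587056321) (nat_lit 228) (nat_lit 281889165051) (nat_lit 76) (nat_lit 313890596006) (nat_lit 14) (nat_lit 5) (nat_lit 17) (nat_lit 5) (nat_lit 15) (nat_lit 5) (nat_lit 312) (nat_lit 294) (nat_lit 114)))) (XT.nd (nat_lit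 78) (nat_lit 152) (nat_lit 0) (XT.lf (nat_lit 0) (nat_lit 72078052971) (nat_lit 228) (nat_lit 68631281721) (nat_lit 76) (nat_lit 500741248549) (nat_lit 14) (nat_lit 5) (nat_lit 17) (nat_lit 5) (nat_lit 15) (nat_lit 5) (nat_lit 313) (nat_lit 294) (nat_lit 113)) (XT.nd (nat_lit 78) (nat_lit 0) (nat_lit 0) (XT.lf (nat_lit 0) (nat_lit 142191880930) (nat_lit 228) (nat_lit 508422450864) (nat_lit 76) (nat_lit 27264034624) (nat_lit 12) (nat_lit 5) (nat_lit 15) (nat_lit 5) (nat_lit 13) (nat_lit 5) (nat_lit 314) (nat_lit 294) (nat_lit 112)) (XT.lf (nat_lit 0) (nat_lit 223494821049) (nat_lit 228) (nat_lit 290280602161) (nat_lit 76) (nat_lit 202998548725) (nat_lit 12) (nat_lit 5) (nat_lit 15) (nat_lit 5) (nat_lit 13) (nat_lit 5) (nat_lit 315) (nat_lit 294) (nat_lit 111))))))) (XT.nd (nat_lit 36660) (nat_lit 0) (nat_lit 0) (XT.nd (nat_lit 36192) (nat_lit 0) (nat_lit 760) (XT.nd (nat_lit 35958)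 (nat_lit 0) (nat_lit 988) (XT.nd (nat_lit 35880) (nat_lit 0) (nat_lit 1444) (XT.lf (nat_lit 0) (nat_lit 311301974950) (nat_lit 228) (nat_lit 54687435376) (nat_lit 76) (nat_lit 392791817426) (nat_lit 12) (nat_lit 5) (nat_lit 15) (nat_lit 5) (nat_lit 13) (nat_lit 5) (nat_lit 316) (nat_lit 294) (nat_lit 110)) (XT.lf (nat_lit 0) (nat_lit 68978690818) (nat_lit 0) (nat_lit 68978690818) (nat_lit 380) (nat_lit 4383152817) (nat_lit 31) (nat_lit 5) (nat_lit 31) (nat_lit 3) (nat_lit 36) (nat_lit 3) (nat_lit 295) (nat_lit 295) (nat_lit 130))) (XT.nd (nat_lit 78) (nat_lit 456) (nat_lit 0) (XT.lf (nat_lit 0) (nat_lit 258128317617) (nat_lit 0) (nat_lit 28823702721) (nat_lit 380) (nat_lit 9116231177) (nat_lit 31) (nat_lit 5) (nat_lit 31) (nat_lit 3) (nat_lit 36) (nat_lit 3) (nat_lit 296) (nat_lit 295) (nat_lit 129)) (XT.nd (nat_lit 78) (nat_lit 456) (nat_lit 0) (XT.lf (nat_lit 76) (nat_lit 81481062038)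 (nat_lit 0) (nat_lit 221492181818) (nat_lit 456) (nat_lit 5065086689) (nat_lit 32) (nat_lit 5) (nat_lit 31) (nat_lit 5) (nat_lit 37) (nat_lit 5) (nat_lit 297) (nat_lit 295) (nat_lit 128)) (XT.lf (nat_lit 0) (nat_lit 1157550984) (nat_lit 456) (nat_lit 109028676801) (nat_lit 532) (nat_lit 210636084571) (nat_lit 25) (nat_lit 5) (nat_lit 31) (nat_lit 5) (nat_lit 32) (nat_lit 5) (nat_lit 298) (nat_lit 295) (nat_lit 127))))) (XT.nd (nat_lit 234) (nat_lit 304) (nat_lit 0) (XT.nd (nat_lit 78) (nat_lit 0) (nat_lit 0) (XT.lf (nat_lit 0) (nat_lit 8310368038) (nat_lit 456) (nat_lit 316132317399) (nat_lit 532) (nat_lit 10119321792) (nat_lit 26) (nat_lit 5) (nat_lit 32) (nat_lit 5) (nat_lit 33) (nat_lit 5) (nat_lit 299) (nat_lit 295) (nat_lit 126)) (XT.nd (nat_lit 78) (nat_lit 0) (nat_lit 0) (XT.lf (nat_lit 0) (nat_lit 21955801648) (nat_lit 456) (nat_lit 189816565236) (nat_lit 532) (nat_lit 137154880015)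 (nat_lit 26) (nat_lit 5) (nat_lit 32) (nat_lit 5) (nat_lit 33) (nat_lit 5) (nat_lit 300) (nat_lit 295) (nat_lit 125)) (XT.lf (nat_lit 0) (nat_lit 36692818532) (nat_lit 456) (nat_lit 53395593911) (nat_lit 532) (nat_lit 274353297877) (nat_lit 26) (nat_lit 5) (nat_lit 32) (nat_lit 5) (nat_lit 33) (nat_lit 5) (nat_lit 301) (nat_lit 295) (nat_lit 124)))) (XT.nd (nat_lit 78) (nat_lit 380) (nat_lit 0) (XT.lf (nat_lit 0) (nat_lit 56042717571) (nat_lit 456) (nat_lit 283177164949) (nat_lit 76) (nat_lit 41702735062) (nat_lit 27) (nat_lit 5) (nat_lit 33) (nat_lit 5) (nat_lit 28) (nat_lit 5) (nat_lit 302) (nat_lit 295) (nat_lit 123)) (XT.nd (nat_lit 78) (nat_lit 380) (nat_lit 0) (XT.lf (nat_lit 0) (nat_lit 80778372945) (nat_lit 456) (nat_lit 136968685598) (nat_lit 76) (nat_lit 180667918126) (nat_lit 27) (nat_lit 5) (nat_lit 33) (nat_lit 5) (nat_lit 28) (nat_lit 5) (nat_lit 303) (nat_lit 295) (nat_lit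 122)) (XT.lf (nat_lit 0) (nat_lit 22038909462) (nat_lit 380) (nat_lit 85983966128) (nat_lit 456) (nat_lit 309241449676) (nat_lit 22) (nat_lit 5) (nat_lit 27) (nat_lit 5) (nat_lit 28) (nat_lit 5) (nat_lit 304) (nat_lit 295) (nat_lit 121)))))) (XT.nd (nat_lit 390) (nat_lit 380) (nat_lit 0) (XT.nd (nat_lit 156) (nat_lit 380) (nat_lit 0) (XT.nd (nat_lit 78) (nat_lit 0) (nat_lit 0) (XT.lf (nat_lit 0) (nat_lit 142643639197) (nat_lit 456) (nat_lit 237217195888) (nat_lit 76) (nat_lit 57345050945) (nat_lit 22) (nat_lit 5) (nat_lit 28) (nat_lit 5) (nat_lit 23) (nat_lit 5) (nat_lit 305) (nat_lit 295) (nat_lit 120)) (XT.lf (nat_lit 0) (nat_lit 182267377334) (nat_lit 456) (nat_lit 68801705849) (nat_lit 76) (nat_lit 207495023715) (nat_lit 22) (nat_lit 5) (nat_lit 28) (nat_lit 5) (nat_lit 23) (nat_lit 5) (nat_lit 306) (nat_lit 295) (nat_lit 119))) (XT.nd (nat_lit 78) (nat_lit 152) (nat_lit 0) (XT.lf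 (nat_lit 0) (nat_lit 119041948891) (nat_lit 228) (nat_lit 108881993728) (nat_lit 304) (nat_lit 253478008861) (nat_lit 19) (nat_lit 5) (nat_lit 22) (nat_lit 5) (nat_lit 23) (nat_lit 5) (nat_lit 307) (nat_lit 295) (nat_lit 118)) (XT.nd (nat_lit 78) (nat_lit 152) (nat_lit 0) (XT.lf (nat_lit 0) (nat_lit 280237579579) (nat_lit 304) (nat_lit 181213875502) (nat_lit 76) (nat_lit 44375005103) (nat_lit 19) (nat_lit 5) (nat_lit 23) (nat_lit 5) (nat_lit 20) (nat_lit 5) (nat_lit 308) (nat_lit 295) (nat_lit 117)) (XT.lf (nat_lit 0) (nat_lit 12206418429) (nat_lit 152) (nat_lit 327651527814) (nat_lit 228) (nat_lit 192097252492) (nat_lit 17) (nat_lit 5) (nat_lit 19) (nat_lit 5) (nat_lit 20) (nat_lit 5) (nat_lit 309) (nat_lit 295) (nat_lit 116))))) (XT.nd (nat_lit 234) (nat_lit 228) (nat_lit 0) (XT.nd (nat_lit 78) (nat_lit 152) (nat_lit 0) (XT.lf (nat_lit 0) (nat_lit 231406096330) (nat_lit 152) (nat_lit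 177796526161) (nat_lit 228) (nat_lit 150575239692) (nat_lit 17) (nat_lit 5) (nat_lit 19) (nat_lit 5) (nat_lit 20) (nat_lit 5) (nat_lit 310) (nat_lit 295) (nat_lit 115)) (XT.nd (nat_lit 78) (nat_lit 152) (nat_lit 0) (XT.lf (nat_lit 0) (nat_lit 468141717709) (nat_lit 152) (nat_lit 15953128976) (nat_lit 228) (nat_lit 105731494329) (nat_lit 17) (nat_lit 5) (nat_lit 19) (nat_lit 5) (nat_lit 20) (nat_lit 5) (nat_lit 311) (nat_lit 295) (nat_lit 114)) (XT.lf (nat_lit 0) (nat_lit 102863034240) (nat_lit 152) (nat_lit 468409300171) (nat_lit 228) (nat_lit 50502853091) (nat_lit 15) (nat_lit 5) (nat_lit 17) (nat_lit 5) (nat_lit 18) (nat_lit 5) (nat_lit 312) (nat_lit 295) (nat_lit 113)))) (XT.nd (nat_lit 78) (nat_lit 152) (nat_lit 0) (XT.lf (nat_lit 0) (nat_lit 12514489263) (nat_lit 228) (nat_lit 304439690089) (nat_lit 76) (nat_lit 339001942606) (nat_lit 14) (nat_lit 5) (nat_lit 17) (nat_lit 5)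 (nat_lit 15) (nat_lit 5) (nat_lit 313) (nat_lit 295) (nat_lit 112)) (XT.nd (nat_lit 78) (nat_lit 152) (nat_lit 0) (XT.lf (nat_lit 0) (nat_lit 77844730946) (nat_lit 228) (nat_lit 74121221142) (nat_lit 76) (nat_lit 540800640026) (nat_lit 14) (nat_lit 5) (nat_lit 17) (nat_lit 5) (nat_lit 15) (nat_lit 5) (nat_lit 314) (nat_lit 295) (nat_lit 111)) (XT.lf (nat_lit 0) (nat_lit 153567649438) (nat_lit 228) (nat_lit 549095665254) (nat_lit 76) (nat_lit 29445284739) (nat_lit 12) (nat_lit 5) (nat_lit 15) (nat_lit 5) (nat_lit 13) (nat_lit 5) (nat_lit 315) (nat_lit 295) (nat_lit 110))))))))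
noncomputable def xc125 : XT := (XT.nd (nat_lit 73632) (nat_lit 0) (nat_lit 152) (XT.nd (nat_lit 36738) (nat_lit 0) (nat_lit 152) (XT.nd (nat_lit 36270) (nat_lit 0) (nat_lit 760) (XT.nd (nat_lit 36036) (nat_lit 0) (nat_lit 988) (XT.nd (nat_lit 35958) (nat_lit 0) (nat_lit 1444) (XT.lf (nat_lit 0) (nat_lit 241374793801) (nat_lit 228) (nat_lit 313502511742) (nat_lit 76) (nat_lit 219238550535) (nat_lit 12) (nat_lit 5) (nat_lit 15) (nat_lit 5) (nat_lit 13) (nat_lit 5) (nat_lit 316) (nat_lit 295) (nat_lit 109)) (XT.lf (nat_lit 0) (nat_lit 74497311336) (nat_lit 0) (nat_lit 74497311336) (nat_lit 380) (nat_lit 4733095836) (nat_lit 31) (nat_lit 5) (nat_lit 31) (nat_lit 3) (nat_lit 36) (nat_lit 3) (nat_lit 296) (nat_lit 296) (nat_lit 128))) (XT.nd (nat_lit 78) (nat_lit 456) (nat_lit 0) (XT.lf (nat_lit 0) (nat_lit 278779185347) (nat_lit 0) (nat_lit 31130201259) (nat_lit 380) (nat_lit 9844216325)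 (nat_lit 31) (nat_lit 5) (nat_lit 31) (nat_lit 3) (nat_lit 36) (nat_lit 3) (nat_lit 297) (nat_lit 296) (nat_lit 127)) (XT.nd (nat_lit 78) (nat_lit 456) (nat_lit 0) (XT.lf (nat_lit 76) (nat_lit 88000254145) (nat_lit 0) (nat_lit 239211968221) (nat_lit 456) (nat_lit 5469073681) (nat_lit 32) (nat_lit 5) (nat_lit 31) (nat_lit 5) (nat_lit 37) (nat_lit 5) (nat_lit 298) (nat_lit 296) (nat_lit 126)) (XT.lf (nat_lit 0) (nat_lit 1251228133) (nat_lit 456) (nat_lit 117750249884) (nat_lit 532) (nat_lit 227486523689) (nat_lit 25) (nat_lit 5) (nat_lit 31) (nat_lit 5) (nat_lit 32) (nat_lit 5) (nat_lit 299) (nat_lit 296) (nat_lit 125))))) (XT.nd (nat_lit 234) (nat_lit 304) (nat_lit 0) (XT.nd (nat_lit 78) (nat_lit 0) (nat_lit 0) (XT.lf (nat_lit 0) (nat_lit 8976200567) (nat_lit 456) (nat_lit 341422102680) (nat_lit 532) (nat_lit 10928575247) (nat_lit 26) (nat_lit 5) (nat_lit 32) (nat_lit 5) (nat_lit 33)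 (nat_lit 5) (nat_lit 300) (nat_lit 296) (nat_lit 124)) (XT.nd (nat_lit 78) (nat_lit 0) (nat_lit 0) (XT.lf (nat_lit 0) (nat_lit 23713194564) (nat_lit 456) (nat_lit 205001149612) (nat_lit 532) (nat_lit 148126999778) (nat_lit 26) (nat_lit 5) (nat_lit 32) (nat_lit 5) (nat_lit 33) (nat_lit 5) (nat_lit 301) (nat_lit 296) (nat_lit 123)) (XT.lf (nat_lit 0) (nat_lit 39629104000) (nat_lit 456) (nat_lit 57666555459) (nat_lit 532) (nat_lit 296301311116) (nat_lit 26) (nat_lit 5) (nat_lit 32) (nat_lit 5) (nat_lit 33) (nat_lit 5) (nat_lit 302) (nat_lit 296) (nat_lit 122)))) (XT.nd (nat_lit 78) (nat_lit 380) (nat_lit 0) (XT.lf (nat_lit 0) (nat_lit 60526943881) (nat_lit 456) (nat_lit 305830593901) (nat_lit 76) (nat_lit 45038817296) (nat_lit 27) (nat_lit 5) (nat_lit 33) (nat_lit 5) (nat_lit 28) (nat_lit 5) (nat_lit 303) (nat_lit 296) (nat_lit 121)) (XT.nd (nat_lit 78) (nat_lit 380) (nat_lit 0) (XT.lf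 (nat_lit 0) (nat_lit 87241391767) (nat_lit 456) (nat_lit 147925491332) (nat_lit 76) (nat_lit 195121225121) (nat_lit 27) (nat_lit 5) (nat_lit 33) (nat_lit 5) (nat_lit 28) (nat_lit 5) (nat_lit 304) (nat_lit 296) (nat_lit 120)) (XT.lf (nat_lit 0) (nat_lit 23802693887) (nat_lit 380) (nat_lit 92862721409) (nat_lit 456) (nat_lit 333979993048) (nat_lit 22) (nat_lit 5) (nat_lit 27) (nat_lit 5) (nat_lit 28) (nat_lit 5) (nat_lit 305) (nat_lit 296) (nat_lit 119)))))) (XT.nd (nat_lit 390) (nat_lit 228) (nat_lit 0) (XT.nd (nat_lit 156) (nat_lit 380) (nat_lit 0) (XT.nd (nat_lit 78) (nat_lit 0) (nat_lit 0) (XT.lf (nat_lit 0) (nat_lit 154055786579) (nat_lit 456) (nat_lit 256193890518) (nat_lit 76) (nat_lit 61932621604) (nat_lit 22) (nat_lit 5) (nat_lit 28) (nat_lit 5) (nat_lit 23) (nat_lit 5) (nat_lit 306) (nat_lit 296) (nat_lit 118)) (XT.lf (nat_lit 0) (nat_lit 196849375156) (nat_lit 456) (nat_lit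 74305211723) (nat_lit 76) (nat_lit 224094594670) (nat_lit 22) (nat_lit 5) (nat_lit 28) (nat_lit 5) (nat_lit 23) (nat_lit 5) (nat_lit 307) (nat_lit 296) (nat_lit 117))) (XT.nd (nat_lit 78) (nat_lit 152) (nat_lit 0) (XT.lf (nat_lit 0) (nat_lit 128565919431) (nat_lit 228) (nat_lit 117592516004) (nat_lit 304) (nat_lit 273755621073) (nat_lit 19) (nat_lit 5) (nat_lit 22) (nat_lit 5) (nat_lit 23) (nat_lit 5) (nat_lit 308) (nat_lit 296) (nat_lit 116)) (XT.nd (nat_lit 78) (nat_lit 152) (nat_lit 0) (XT.lf (nat_lit 0) (nat_lit 302657121410) (nat_lit 304) (nat_lit 195710369963) (nat_lit 76) (nat_lit 47925038253) (nat_lit 19) (nat_lit 5) (nat_lit 23) (nat_lit 5) (nat_lit 20) (nat_lit 5) (nat_lit 309) (nat_lit 296) (nat_lit 115)) (XT.lf (nat_lit 0) (nat_lit 13183531897) (nat_lit 152) (nat_lit 353863560276) (nat_lit 228) (nat_lit 207464477443) (nat_lit 17) (nat_lit 5) (nat_lit 19) (nat_lit 5) (nat_lit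 20) (nat_lit 5) (nat_lit 310) (nat_lit 296) (nat_lit 114))))) (XT.nd (nat_lit 234) (nat_lit 76) (nat_lit 0) (XT.nd (nat_lit 78) (nat_lit 152) (nat_lit 0) (XT.lf (nat_lit 0) (nat_lit 249919139586) (nat_lit 152) (nat_lit 192020165139) (nat_lit 228) (nat_lit 162620744748) (nat_lit 17) (nat_lit 5) (nat_lit 19) (nat_lit 5) (nat_lit 20) (nat_lit 5) (nat_lit 311) (nat_lit 296) (nat_lit 113)) (XT.nd (nat_lit 78) (nat_lit 152) (nat_lit 0) (XT.lf (nat_lit 0) (nat_lit 505593569524) (nat_lit 152) (nat_lit 17229302336) (nat_lit 228) (nat_lit 114189537839) (nat_lit 17) (nat_lit 5) (nat_lit 19) (nat_lit 5) (nat_lit 20) (nat_lit 5) (nat_lit 312) (nat_lit 296) (nat_lit 112)) (XT.lf (nat_lit 0) (nat_lit 111092614170) (nat_lit 152) (nat_lit 505881926665) (nat_lit 228) (nat_lit 54542624761) (nat_lit 15) (nat_lit 5) (nat_lit 17) (nat_lit 5) (nat_lit 18) (nat_lit 5) (nat_lit 313) (nat_lit 296) (nat_lit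 111)))) (XT.nd (nat_lit 78) (nat_lit 0) (nat_lit 0) (XT.lf (nat_lit 0) (nat_lit 13516050014) (nat_lit 228) (nat_lit 328794343891) (nat_lit 76) (nat_lit 366122182823) (nat_lit 14) (nat_lit 5) (nat_lit 17) (nat_lit 5) (nat_lit 15) (nat_lit 5) (nat_lit 314) (nat_lit 296) (nat_lit 110)) (XT.nd (nat_lit 36114) (nat_lit 0) (nat_lit 1292) (XT.lf (nat_lit 0) (nat_lit 84072681283) (nat_lit 228) (nat_lit 80050436052) (nat_lit 76) (nat_lit 584064769754) (nat_lit 14) (nat_lit 5) (nat_lit 17) (nat_lit 5) (nat_lit 15) (nat_lit 5) (nat_lit 315) (nat_lit 296) (nat_lit 109)) (XT.lf (nat_lit 0) (nat_lit 80457375095) (nat_lit 0) (nat_lit 80457375095) (nat_lit 380) (nat_lit 5111135472) (nat_lit 31) (nat_lit 5) (nat_lit 31) (nat_lit 3) (nat_lit 36) (nat_lit 3) (nat_lit 297) (nat_lit 297) (nat_lit 126))))))) (XT.nd (nat_lit 858) (nat_lit 608) (nat_lit 0) (XT.nd (nat_lit 390) (nat_lit 228) (nat_lit 0) (XT.nd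 (nat_lit 156) (nat_lit 456) (nat_lit 0) (XT.nd (nat_lit 78) (nat_lit 0) (nat_lit 0) (XT.lf (nat_lit 0) (nat_lit 301082036567) (nat_lit 0) (nat_lit 33621133752) (nat_lit 380) (nat_lit 10630627648) (nat_lit 31) (nat_lit 5) (nat_lit 31) (nat_lit 3) (nat_lit 36) (nat_lit 3) (nat_lit 298) (nat_lit 297) (nat_lit 125)) (XT.lf (nat_lit 76) (nat_lit 95040880739) (nat_lit 0) (nat_lit 258349278780) (nat_lit 456) (nat_lit 5905553671) (nat_lit 32) (nat_lit 5) (nat_lit 31) (nat_lit 5) (nat_lit 37) (nat_lit 5) (nat_lit 299) (nat_lit 297) (nat_lit 124))) (XT.nd (nat_lit 78) (nat_lit 0) (nat_lit 76) (XT.lf (nat_lit 0) (nat_lit 1352246369) (nat_lit 456) (nat_lit 127169651682) (nat_lit 532) (nat_lit 245685061799) (nat_lit 25) (nat_lit 5) (nat_lit 31) (nat_lit 5) (nat_lit 32) (nat_lit 5) (nat_lit 300) (nat_lit 297) (nat_lit 123)) (XT.nd (nat_lit 78) (nat_lit 0) (nat_lit 0) (XT.lf (nat_lit 0) (nat_lit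 9695156598) (nat_lit 456) (nat_lit 368735184929) (nat_lit 532) (nat_lit 11802610676) (nat_lit 26) (nat_lit 5) (nat_lit 32) (nat_lit 5) (nat_lit 33) (nat_lit 5) (nat_lit 301) (nat_lit 297) (nat_lit 122)) (XT.lf (nat_lit 0) (nat_lit 25611046411) (nat_lit 456) (nat_lit 221400606427) (nat_lit 532) (nat_lit 159976927732) (nat_lit 26) (nat_lit 5) (nat_lit 32) (nat_lit 5) (nat_lit 33) (nat_lit 5) (nat_lit 302) (nat_lit 297) (nat_lit 121))))) (XT.nd (nat_lit 234) (nat_lit 304) (nat_lit 0) (XT.nd (nat_lit 78) (nat_lit 0) (nat_lit 76) (XT.lf (nat_lit 0) (nat_lit 42800169618) (nat_lit 456) (nat_lit 62279291790) (nat_lit 532) (nat_lit 320005201164) (nat_lit 26) (nat_lit 5) (nat_lit 32) (nat_lit 5) (nat_lit 33) (nat_lit 5) (nat_lit 303) (nat_lit 297) (nat_lit 120)) (XT.nd (nat_lit 78) (nat_lit 0) (nat_lit 0) (XT.lf (nat_lit 0) (nat_lit 65369792897) (nat_lit 456) (nat_lit 330296403345) (nat_lit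 76) (nat_lit 48641805592) (nat_lit 27) (nat_lit 5) (nat_lit 33) (nat_lit 5) (nat_lit 28) (nat_lit 5) (nat_lit 304) (nat_lit 297) (nat_lit 119)) (XT.lf (nat_lit 0) (nat_lit 94221345243) (nat_lit 456) (nat_lit 159758939834) (nat_lit 76) (nat_lit 210730814717) (nat_lit 27) (nat_lit 5) (nat_lit 33) (nat_lit 5) (nat_lit 28) (nat_lit 5) (nat_lit 305) (nat_lit 297) (nat_lit 118)))) (XT.nd (nat_lit 78) (nat_lit 0) (nat_lit 0) (XT.lf (nat_lit 0) (nat_lit 25707485245) (nat_lit 380) (nat_lit 100291771693) (nat_lit 456) (nat_lit 360697730110) (nat_lit 22) (nat_lit 5) (nat_lit 27) (nat_lit 5) (nat_lit 28) (nat_lit 5) (nat_lit 306) (nat_lit 297) (nat_lit 117)) (XT.nd (nat_lit 78) (nat_lit 0) (nat_lit 0) (XT.lf (nat_lit 0) (nat_lit 166380812130) (nat_lit 456) (nat_lit 276688817876) (nat_lit 76) (nat_lit 66887202682) (nat_lit 22) (nat_lit 5) (nat_lit 28) (nat_lit 5) (nat_lit 23) (nat_lit 5) (nat_lit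 307) (nat_lit 297) (nat_lit 116)) (XT.lf (nat_lit 0) (nat_lit 212597846118) (nat_lit 456) (nat_lit 80249088028) (nat_lit 76) (nat_lit 242022135716) (nat_lit 22) (nat_lit 5) (nat_lit 28) (nat_lit 5) (nat_lit 23) (nat_lit 5) (nat_lit 308) (nat_lit 297) (nat_lit 115)))))) (XT.nd (nat_lit 390) (nat_lit 228) (nat_lit 0) (XT.nd (nat_lit 156) (nat_lit 152) (nat_lit 0) (XT.nd (nat_lit 78) (nat_lit 0) (nat_lit 0) (XT.lf (nat_lit 0) (nat_lit 138851719932) (nat_lit 228) (nat_lit 126999885372) (nat_lit 304) (nat_lit 295655531923) (nat_lit 19) (nat_lit 5) (nat_lit 22) (nat_lit 5) (nat_lit 23) (nat_lit 5) (nat_lit 309) (nat_lit 297) (nat_lit 114)) (XT.lf (nat_lit 0) (nat_lit 326870150198) (nat_lit 304) (nat_lit 211366671801) (nat_lit 76) (nat_lit 51759069383) (nat_lit 19) (nat_lit 5) (nat_lit 23) (nat_lit 5) (nat_lit 20) (nat_lit 5) (nat_lit 310) (nat_lit 297) (nat_lit 113))) (XT.nd (nat_lit 78)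 (nat_lit 0) (nat_lit 0) (XT.lf (nat_lit 0) (nat_lit 14238728848) (nat_lit 152) (nat_lit 382172568140) (nat_lit 228) (nat_lit 224061159602) (nat_lit 17) (nat_lit 5) (nat_lit 19) (nat_lit 5) (nat_lit 20) (nat_lit 5) (nat_lit 311) (nat_lit 297) (nat_lit 112)) (XT.nd (nat_lit 78) (nat_lit 0) (nat_lit 0) (XT.lf (nat_lit 0) (nat_lit 269913147048) (nat_lit 152) (nat_lit 207381707093) (nat_lit 228) (nat_lit 175629963554) (nat_lit 17) (nat_lit 5) (nat_lit 19) (nat_lit 5) (nat_lit 20) (nat_lit 5) (nat_lit 312) (nat_lit 297) (nat_lit 111)) (XT.lf (nat_lit 0) (nat_lit 546041496100) (nat_lit 152) (nat_lit 18607580544) (nat_lit 228) (nat_lit 123324292742) (nat_lit 17) (nat_lit 5) (nat_lit 19) (nat_lit 5) (nat_lit 20) (nat_lit 5) (nat_lit 313) (nat_lit 297) (nat_lit 110))))) (XT.nd (nat_lit 36348) (nat_lit 0) (nat_lit 836) (XT.nd (nat_lit 78) (nat_lit 76) (nat_lit 0) (XT.lf (nat_lit 0) (nat_lit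 119980483857) (nat_lit 152) (nat_lit 546352380044) (nat_lit 228) (nat_lit 58905643300) (nat_lit 15) (nat_lit 5) (nat_lit 17) (nat_lit 5) (nat_lit 18) (nat_lit 5) (nat_lit 314) (nat_lit 297) (nat_lit 109)) (XT.nd (nat_lit 36192) (nat_lit 0) (nat_lit 1292) (XT.lf (nat_lit 0) (nat_lit 14597678330) (nat_lit 228) (nat_lit 355097444382) (nat_lit 76) (nat_lit 395412030158) (nat_lit 14) (nat_lit 5) (nat_lit 17) (nat_lit 5) (nat_lit 15) (nat_lit 5) (nat_lit 315) (nat_lit 297) (nat_lit 108)) (XT.lf (nat_lit 0) (nat_lit 86894204173) (nat_lit 0) (nat_lit 86894204173) (nat_lit 380) (nat_lit 5519505022) (nat_lit 31) (nat_lit 5) (nat_lit 31) (nat_lit 3) (nat_lit 36) (nat_lit 3) (nat_lit 298) (nat_lit 298) (nat_lit 124)))) (XT.nd (nat_lit 78) (nat_lit 456) (nat_lit 0) (XT.lf (nat_lit 0) (nat_lit 325169042216) (nat_lit 0) (nat_lit 36311267176) (nat_lit 380) (nat_lit 11480112511) (nat_lit 31) (nat_lit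 5) (nat_lit 31) (nat_lit 3) (nat_lit 36) (nat_lit 3) (nat_lit 299) (nat_lit 298) (nat_lit 123)) (XT.nd (nat_lit 78) (nat_lit 456) (nat_lit 0) (XT.lf (nat_lit 76) (nat_lit 102644670970) (nat_lit 0) (nat_lit 279017523810) (nat_lit 456) (nat_lit 6377101271) (nat_lit 32) (nat_lit 5) (nat_lit 31) (nat_lit 5) (nat_lit 37) (nat_lit 5) (nat_lit 300) (nat_lit 298) (nat_lit 122)) (XT.lf (nat_lit 0) (nat_lit 1461214817) (nat_lit 456) (nat_lit 137342693815) (nat_lit 532) (nat_lit 265339537709) (nat_lit 25) (nat_lit 5) (nat_lit 31) (nat_lit 5) (nat_lit 32) (nat_lit 5) (nat_lit 301) (nat_lit 298) (nat_lit 121))))))))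
noncomputable def xc126 : XT := (XT.nd (nat_lit 37986) (nat_lit 0) (nat_lit 0) (XT.nd (nat_lit 858) (nat_lit 0) (nat_lit 0) (XT.nd (nat_lit 390) (nat_lit 684) (nat_lit 0) (XT.nd (nat_lit 156) (nat_lit 0) (nat_lit 0) (XT.nd (nat_lit 78) (nat_lit 0) (nat_lit 0) (XT.lf (nat_lit 0) (nat_lit 10471506425) (nat_lit 456) (nat_lit 398233411618) (nat_lit 532) (nat_lit 12746604688) (nat_lit 26) (nat_lit 5) (nat_lit 32) (nat_lit 5) (nat_lit 33) (nat_lit 5) (nat_lit 302) (nat_lit 298) (nat_lit 120)) (XT.lf (nat_lit 0) (nat_lit 27660612808) (nat_lit 456) (nat_lit 239112110400) (nat_lit 532) (nat_lit 172774883023) (nat_lit 26) (nat_lit 5) (nat_lit 32) (nat_lit 5) (nat_lit 33) (nat_lit 5) (nat_lit 303) (nat_lit 298) (nat_lit 119))) (XT.nd (nat_lit 78) (nat_lit 0) (nat_lit 76) (XT.lf (nat_lit 0) (nat_lit 46224815303) (nat_lit 456) (nat_lit 67261130928) (nat_lit 532) (nat_lit 345605433066) (nat_lit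 26) (nat_lit 5) (nat_lit 32) (nat_lit 5) (nat_lit 33) (nat_lit 5) (nat_lit 304) (nat_lit 298) (nat_lit 118)) (XT.nd (nat_lit 78) (nat_lit 0) (nat_lit 0) (XT.lf (nat_lit 0) (nat_lit 70599970898) (nat_lit 456) (nat_lit 356719568572) (nat_lit 76) (nat_lit 52533049656) (nat_lit 27) (nat_lit 5) (nat_lit 33) (nat_lit 5) (nat_lit 28) (nat_lit 5) (nat_lit 305) (nat_lit 298) (nat_lit 117)) (XT.lf (nat_lit 0) (nat_lit 101759603389) (nat_lit 456) (nat_lit 172539148502) (nat_lit 76) (nat_lit 227589186946) (nat_lit 27) (nat_lit 5) (nat_lit 33) (nat_lit 5) (nat_lit 28) (nat_lit 5) (nat_lit 306) (nat_lit 298) (nat_lit 116))))) (XT.nd (nat_lit 234) (nat_lit 380) (nat_lit 0) (XT.nd (nat_lit 78) (nat_lit 0) (nat_lit 0) (XT.lf (nat_lit 0) (nat_lit 27764577761) (nat_lit 380) (nat_lit 108315141353) (nat_lit 456) (nat_lit 389552980633) (nat_lit 22) (nat_lit 5) (nat_lit 27) (nat_lit 5) (nat_lit 28) (nat_lit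 5) (nat_lit 307) (nat_lit 298) (nat_lit 115)) (XT.nd (nat_lit 78) (nat_lit 0) (nat_lit 0) (XT.lf (nat_lit 0) (nat_lit 179691759461) (nat_lit 456) (nat_lit 298823422720) (nat_lit 76) (nat_lit 72238154334) (nat_lit 22) (nat_lit 5) (nat_lit 28) (nat_lit 5) (nat_lit 23) (nat_lit 5) (nat_lit 308) (nat_lit 298) (nat_lit 114)) (XT.lf (nat_lit 0) (nat_lit 229606120437) (nat_lit 456) (nat_lit 86668551565) (nat_lit 76) (nat_lit 261383883830) (nat_lit 22) (nat_lit 5) (nat_lit 28) (nat_lit 5) (nat_lit 23) (nat_lit 5) (nat_lit 309) (nat_lit 298) (nat_lit 113)))) (XT.nd (nat_lit 78) (nat_lit 152) (nat_lit 0) (XT.lf (nat_lit 0) (nat_lit 149960309297) (nat_lit 228) (nat_lit 137159848842) (nat_lit 304) (nat_lit 319307512513) (nat_lit 19) (nat_lit 5) (nat_lit 22) (nat_lit 5) (nat_lit 23) (nat_lit 5) (nat_lit 310) (nat_lit 298) (nat_lit 112)) (XT.nd (nat_lit 78) (nat_lit 152) (nat_lit 0) (XT.lf (nat_lit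 0) (nat_lit 353020155796) (nat_lit 304) (nat_lit 228275553076) (nat_lit 76) (nat_lit 55899819000) (nat_lit 19) (nat_lit 5) (nat_lit 23) (nat_lit 5) (nat_lit 20) (nat_lit 5) (nat_lit 311) (nat_lit 298) (nat_lit 111)) (XT.lf (nat_lit 0) (nat_lit 15378268170) (nat_lit 152) (nat_lit 412746307612) (nat_lit 228) (nat_lit 241985644246) (nat_lit 17) (nat_lit 5) (nat_lit 19) (nat_lit 5) (nat_lit 20) (nat_lit 5) (nat_lit 312) (nat_lit 298) (nat_lit 110)))))) (XT.nd (nat_lit 36660) (nat_lit 0) (nat_lit 608) (XT.nd (nat_lit 36426) (nat_lit 0) (nat_lit 1064) (XT.nd (nat_lit 78) (nat_lit 0) (nat_lit 0) (XT.lf (nat_lit 0) (nat_lit 291506607158) (nat_lit 152) (nat_lit 223972182569) (nat_lit 228) (nat_lit 189679982746) (nat_lit 17) (nat_lit 5) (nat_lit 19) (nat_lit 5) (nat_lit 20) (nat_lit 5) (nat_lit 313) (nat_lit 298) (nat_lit 109)) (XT.lf (nat_lit 0) (nat_lit 589725193886) (nat_lit 152) (nat_lit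 20096130421) (nat_lit 228) (nat_lit 133189886260) (nat_lit 17) (nat_lit 5) (nat_lit 19) (nat_lit 5) (nat_lit 20) (nat_lit 5) (nat_lit 314) (nat_lit 298) (nat_lit 108))) (XT.nd (nat_lit 78) (nat_lit 0) (nat_lit 0) (XT.lf (nat_lit 0) (nat_lit 93845945471) (nat_lit 0) (nat_lit 93845945471) (nat_lit 380) (nat_lit 5960618503) (nat_lit 31) (nat_lit 5) (nat_lit 31) (nat_lit 3) (nat_lit 36) (nat_lit 3) (nat_lit 299) (nat_lit 299) (nat_lit 122)) (XT.nd (nat_lit 78) (nat_lit 0) (nat_lit 0) (XT.lf (nat_lit 0) (nat_lit 351182945157) (nat_lit 0) (nat_lit 39216548114) (nat_lit 380) (nat_lit 12397693881) (nat_lit 31) (nat_lit 5) (nat_lit 31) (nat_lit 3) (nat_lit 36) (nat_lit 3) (nat_lit 300) (nat_lit 299) (nat_lit 121)) (XT.lf (nat_lit 76) (nat_lit 110856690269) (nat_lit 0) (nat_lit 301339185255) (nat_lit 456) (nat_lit 6886500601) (nat_lit 32) (nat_lit 5) (nat_lit 31) (nat_lit 5) (nat_lit 37) (nat_lit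 5) (nat_lit 301) (nat_lit 299) (nat_lit 120))))) (XT.nd (nat_lit 234) (nat_lit 0) (nat_lit 76) (XT.nd (nat_lit 78) (nat_lit 0) (nat_lit 76) (XT.lf (nat_lit 0) (nat_lit 1578788219) (nat_lit 456) (nat_lit 148329654930) (nat_lit 532) (nat_lit 286566418632) (nat_lit 25) (nat_lit 5) (nat_lit 31) (nat_lit 5) (nat_lit 32) (nat_lit 5) (nat_lit 302) (nat_lit 299) (nat_lit 119)) (XT.nd (nat_lit 78) (nat_lit 0) (nat_lit 0) (XT.lf (nat_lit 0) (nat_lit 11309859053) (nat_lit 456) (nat_lit 430091580342) (nat_lit 532) (nat_lit 13766148872) (nat_lit 26) (nat_lit 5) (nat_lit 32) (nat_lit 5) (nat_lit 33) (nat_lit 5) (nat_lit 303) (nat_lit 299) (nat_lit 118)) (XT.lf (nat_lit 0) (nat_lit 29874047125) (nat_lit 456) (nat_lit 258240612375) (nat_lit 532) (nat_lit 186596703117) (nat_lit 26) (nat_lit 5) (nat_lit 32) (nat_lit 5) (nat_lit 33) (nat_lit 5) (nat_lit 304) (nat_lit 299) (nat_lit 117)))) (XT.nd (nat_lit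 78) (nat_lit 0) (nat_lit 76) (XT.lf (nat_lit 0) (nat_lit 49923342463) (nat_lit 456) (nat_lit 72641589127) (nat_lit 532) (nat_lit 373253709796) (nat_lit 26) (nat_lit 5) (nat_lit 32) (nat_lit 5) (nat_lit 33) (nat_lit 5) (nat_lit 305) (nat_lit 299) (nat_lit 116)) (XT.nd (nat_lit 78) (nat_lit 0) (nat_lit 0) (XT.lf (nat_lit 0) (nat_lit 76248478318) (nat_lit 456) (nat_lit 385256665058) (nat_lit 76) (nat_lit 56735607565) (nat_lit 27) (nat_lit 5) (nat_lit 33) (nat_lit 5) (nat_lit 28) (nat_lit 5) (nat_lit 306) (nat_lit 299) (nat_lit 115)) (XT.lf (nat_lit 0) (nat_lit 109900843649) (nat_lit 456) (nat_lit 186341846123) (nat_lit 76) (nat_lit 245796242214) (nat_lit 27) (nat_lit 5) (nat_lit 33) (nat_lit 5) (nat_lit 28) (nat_lit 5) (nat_lit 307) (nat_lit 299) (nat_lit 114))))))) (XT.nd (nat_lit 37284) (nat_lit 0) (nat_lit 152) (XT.nd (nat_lit 390) (nat_lit 152) (nat_lit 0) (XT.nd (nat_lit 156) (nat_lit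 228) (nat_lit 0) (XT.nd (nat_lit 78) (nat_lit 0) (nat_lit 0) (XT.lf (nat_lit 0) (nat_lit 29986167246) (nat_lit 380) (nat_lit 116980376603) (nat_lit 456) (nat_lit 420716732213) (nat_lit 22) (nat_lit 5) (nat_lit 27) (nat_lit 5) (nat_lit 28) (nat_lit 5) (nat_lit 308) (nat_lit 299) (nat_lit 113)) (XT.lf (nat_lit 0) (nat_lit 194067513764) (nat_lit 456) (nat_lit 322728867366) (nat_lit 76) (nat_lit 78017185622) (nat_lit 22) (nat_lit 5) (nat_lit 28) (nat_lit 5) (nat_lit 23) (nat_lit 5) (nat_lit 309) (nat_lit 299) (nat_lit 112))) (XT.nd (nat_lit 78) (nat_lit 228) (nat_lit 0) (XT.lf (nat_lit 0) (nat_lit 247974992985) (nat_lit 456) (nat_lit 93601638309) (nat_lit 76) (nat_lit 282294575038) (nat_lit 22) (nat_lit 5) (nat_lit 28) (nat_lit 5) (nat_lit 23) (nat_lit 5) (nat_lit 310) (nat_lit 299) (nat_lit 111)) (XT.nd (nat_lit 78) (nat_lit 0) (nat_lit 0) (XT.lf (nat_lit 0) (nat_lit 161957521362) (nat_lit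 228) (nat_lit 148132613293) (nat_lit 304) (nat_lit 344851717454) (nat_lit 19) (nat_lit 5) (nat_lit 22) (nat_lit 5) (nat_lit 23) (nat_lit 5) (nat_lit 311) (nat_lit 299) (nat_lit 110)) (XT.lf (nat_lit 0) (nat_lit 381262105694) (nat_lit 304) (nat_lit 246537209403) (nat_lit 76) (nat_lit 60371825152) (nat_lit 19) (nat_lit 5) (nat_lit 23) (nat_lit 5) (nat_lit 20) (nat_lit 5) (nat_lit 312) (nat_lit 299) (nat_lit 109))))) (XT.nd (nat_lit 36660) (nat_lit 0) (nat_lit 608) (XT.nd (nat_lit 36504) (nat_lit 0) (nat_lit 1064) (XT.lf (nat_lit 0) (nat_lit 16608907721) (nat_lit 152) (nat_lit 445765955655) (nat_lit 228) (nat_lit 261344145885) (nat_lit 17) (nat_lit 5) (nat_lit 19) (nat_lit 5) (nat_lit 20) (nat_lit 5) (nat_lit 313) (nat_lit 299) (nat_lit 108)) (XT.nd (nat_lit 78) (nat_lit 0) (nat_lit 0) (XT.lf (nat_lit 0) (nat_lit 101353796833) (nat_lit 0) (nat_lit 101353796833) (nat_lit 380) (nat_lit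 6437084820) (nat_lit 31) (nat_lit 5) (nat_lit 31) (nat_lit 3) (nat_lit 36) (nat_lit 3) (nat_lit 300) (nat_lit 300) (nat_lit 120)) (XT.lf (nat_lit 0) (nat_lit 379277906185) (nat_lit 0) (nat_lit 42354197378) (nat_lit 380) (nat_lit 13388799832) (nat_lit 31) (nat_lit 5) (nat_lit 31) (nat_lit 3) (nat_lit 36) (nat_lit 3) (nat_lit 301) (nat_lit 300) (nat_lit 119)))) (XT.nd (nat_lit 78) (nat_lit 456) (nat_lit 0) (XT.lf (nat_lit 76) (nat_lit 119725607539) (nat_lit 0) (nat_lit 325446542590) (nat_lit 456) (nat_lit 7436761552) (nat_lit 32) (nat_lit 5) (nat_lit 31) (nat_lit 5) (nat_lit 37) (nat_lit 5) (nat_lit 302) (nat_lit 300) (nat_lit 118)) (XT.nd (nat_lit 78) (nat_lit 0) (nat_lit 76) (XT.lf (nat_lit 0) (nat_lit 1705671024) (nat_lit 456) (nat_lit 160195637758) (nat_lit 532) (nat_lit 309491490273) (nat_lit 25) (nat_lit 5) (nat_lit 31) (nat_lit 5) (nat_lit 32) (nat_lit 5) (nat_lit 303) (nat_lit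 300) (nat_lit 117)) (XT.lf (nat_lit 0) (nat_lit 12215189714) (nat_lit 456) (nat_lit 464498474494) (nat_lit 532) (nat_lit 14867282867) (nat_lit 26) (nat_lit 5) (nat_lit 32) (nat_lit 5) (nat_lit 33) (nat_lit 5) (nat_lit 304) (nat_lit 300) (nat_lit 116)))))) (XT.nd (nat_lit 390) (nat_lit 228) (nat_lit 0) (XT.nd (nat_lit 156) (nat_lit 304) (nat_lit 0) (XT.nd (nat_lit 78) (nat_lit 0) (nat_lit 0) (XT.lf (nat_lit 0) (nat_lit 32264472688) (nat_lit 456) (nat_lit 278899461110) (nat_lit 532) (nat_lit 201524293149) (nat_lit 26) (nat_lit 5) (nat_lit 32) (nat_lit 5) (nat_lit 33) (nat_lit 5) (nat_lit 305) (nat_lit 300) (nat_lit 115)) (XT.lf (nat_lit 0) (nat_lit 53917674484) (nat_lit 456) (nat_lit 78452545651) (nat_lit 532) (nat_lit 403113871194) (nat_lit 26) (nat_lit 5) (nat_lit 32) (nat_lit 5) (nat_lit 33) (nat_lit 5) (nat_lit 306) (nat_lit 300) (nat_lit 114))) (XT.nd (nat_lit 78) (nat_lit 380)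 (nat_lit 0) (XT.lf (nat_lit 0) (nat_lit 82348793609) (nat_lit 456) (nat_lit 416076796171) (nat_lit 76) (nat_lit 61274382385) (nat_lit 27) (nat_lit 5) (nat_lit 33) (nat_lit 5) (nat_lit 28) (nat_lit 5) (nat_lit 307) (nat_lit 300) (nat_lit 113)) (XT.nd (nat_lit 78) (nat_lit 380) (nat_lit 0) (XT.lf (nat_lit 0) (nat_lit 118693315795) (nat_lit 456) (nat_lit 201248821506) (nat_lit 76) (nat_lit 265459873271) (nat_lit 27) (nat_lit 5) (nat_lit 33) (nat_lit 5) (nat_lit 28) (nat_lit 5) (nat_lit 308) (nat_lit 300) (nat_lit 112)) (XT.lf (nat_lit 0) (nat_lit 32385423507) (nat_lit 380) (nat_lit 126338827256) (nat_lit 456) (nat_lit 454373653377) (nat_lit 22) (nat_lit 5) (nat_lit 27) (nat_lit 5) (nat_lit 28) (nat_lit 5) (nat_lit 309) (nat_lit 300) (nat_lit 111))))) (XT.nd (nat_lit 234) (nat_lit 0) (nat_lit 0) (XT.nd (nat_lit 78) (nat_lit 228) (nat_lit 0) (XT.lf (nat_lit 0) (nat_lit 209593269414) (nat_lit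 456) (nat_lit 348546808810) (nat_lit 76) (nat_lit 84258542418) (nat_lit 22) (nat_lit 5) (nat_lit 28) (nat_lit 5) (nat_lit 23) (nat_lit 5) (nat_lit 310) (nat_lit 300) (nat_lit 110)) (XT.nd (nat_lit 78) (nat_lit 228) (nat_lit 0) (XT.lf (nat_lit 0) (nat_lit 267813320710) (nat_lit 456) (nat_lit 101089428684) (nat_lit 76) (nat_lit 304878124324) (nat_lit 22) (nat_lit 5) (nat_lit 28) (nat_lit 5) (nat_lit 23) (nat_lit 5) (nat_lit 311) (nat_lit 300) (nat_lit 109)) (XT.lf (nat_lit 0) (nat_lit 174914455136) (nat_lit 228) (nat_lit 159983202246) (nat_lit 304) (nat_lit 372439515292) (nat_lit 19) (nat_lit 5) (nat_lit 22) (nat_lit 5) (nat_lit 23) (nat_lit 5) (nat_lit 312) (nat_lit 300) (nat_lit 108)))) (XT.nd (nat_lit 36582) (nat_lit 0) (nat_lit 912) (XT.lf (nat_lit 0) (nat_lit 411763363444) (nat_lit 304) (nat_lit 266259853578) (nat_lit 76) (nat_lit 65201588854) (nat_lit 19) (nat_lit 5) (nat_lit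 23) (nat_lit 5) (nat_lit 20) (nat_lit 5) (nat_lit 313) (nat_lit 300) (nat_lit 107)) (XT.nd (nat_lit 78) (nat_lit 0) (nat_lit 0) (XT.lf (nat_lit 0) (nat_lit 109462251235) (nat_lit 0) (nat_lit 109462251235) (nat_lit 380) (nat_lit 6951723106) (nat_lit 31) (nat_lit 5) (nat_lit 31) (nat_lit 3) (nat_lit 36) (nat_lit 3) (nat_lit 301) (nat_lit 301) (nat_lit 118)) (XT.lf (nat_lit 0) (nat_lit 409620417671) (nat_lit 0) (nat_lit 45742812159) (nat_lit 380) (nat_lit 14459295485) (nat_lit 31) (nat_lit 5) (nat_lit 31) (nat_lit 3) (nat_lit 36) (nat_lit 3) (nat_lit 302) (nat_lit 301) (nat_lit 117))))))))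
noncomputable def xc127 : XT := (XT.nd (nat_lit 75192) (nat_lit 0) (nat_lit 228) (XT.nd (nat_lit 37518) (nat_lit 0) (nat_lit 0) (XT.nd (nat_lit 390) (nat_lit 228) (nat_lit 0) (XT.nd (nat_lit 156) (nat_lit 0) (nat_lit 76) (XT.nd (nat_lit 78) (nat_lit 456) (nat_lit 0) (XT.lf (nat_lit 76) (nat_lit 129303983686) (nat_lit 0) (nat_lit 351482456767) (nat_lit 456) (nat_lit 8031137407) (nat_lit 32) (nat_lit 5) (nat_lit 31) (nat_lit 5) (nat_lit 37) (nat_lit 5) (nat_lit 303) (nat_lit 301) (nat_lit 116)) (XT.lf (nat_lit 0) (nat_lit 1842621745) (nat_lit 456) (nat_lit 173010954788) (nat_lit 532) (nat_lit 334250602148) (nat_lit 25) (nat_lit 5) (nat_lit 31) (nat_lit 5) (nat_lit 32) (nat_lit 5) (nat_lit 304) (nat_lit 301) (nat_lit 115))) (XT.nd (nat_lit 78) (nat_lit 0) (nat_lit 0) (XT.lf (nat_lit 0) (nat_lit 13192869515) (nat_lit 456) (nat_lit 501657981848) (nat_lit 532) (nat_lit 16056530110) (nat_lit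 26) (nat_lit 5) (nat_lit 32) (nat_lit 5) (nat_lit 33) (nat_lit 5) (nat_lit 305) (nat_lit 301) (nat_lit 114)) (XT.nd (nat_lit 78) (nat_lit 0) (nat_lit 0) (XT.lf (nat_lit 0) (nat_lit 34846060709) (nat_lit 456) (nat_lit 301211074845) (nat_lit 532) (nat_lit 217646111243) (nat_lit 26) (nat_lit 5) (nat_lit 32) (nat_lit 5) (nat_lit 33) (nat_lit 5) (nat_lit 306) (nat_lit 301) (nat_lit 113)) (XT.lf (nat_lit 0) (nat_lit 58231486782) (nat_lit 456) (nat_lit 84728431569) (nat_lit 532) (nat_lit 435362864817) (nat_lit 26) (nat_lit 5) (nat_lit 32) (nat_lit 5) (nat_lit 33) (nat_lit 5) (nat_lit 307) (nat_lit 301) (nat_lit 112))))) (XT.nd (nat_lit 234) (nat_lit 0) (nat_lit 0) (XT.nd (nat_lit 78) (nat_lit 380) (nat_lit 0) (XT.lf (nat_lit 0) (nat_lit 88937071778) (nat_lit 456) (nat_lit 449362595137) (nat_lit 76) (nat_lit 66176269717) (nat_lit 27) (nat_lit 5) (nat_lit 33) (nat_lit 5) (nat_lit 28) (nat_lit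 5) (nat_lit 308) (nat_lit 301) (nat_lit 111)) (XT.nd (nat_lit 78) (nat_lit 380) (nat_lit 0) (XT.lf (nat_lit 0) (nat_lit 128189127984) (nat_lit 456) (nat_lit 217348408034) (nat_lit 76) (nat_lit 286696604560) (nat_lit 27) (nat_lit 5) (nat_lit 33) (nat_lit 5) (nat_lit 28) (nat_lit 5) (nat_lit 309) (nat_lit 301) (nat_lit 110)) (XT.lf (nat_lit 0) (nat_lit 34976568500) (nat_lit 380) (nat_lit 136445951034) (nat_lit 456) (nat_lit 490723187783) (nat_lit 22) (nat_lit 5) (nat_lit 27) (nat_lit 5) (nat_lit 28) (nat_lit 5) (nat_lit 310) (nat_lit 301) (nat_lit 109)))) (XT.nd (nat_lit 78) (nat_lit 0) (nat_lit 0) (XT.lf (nat_lit 0) (nat_lit 226361034936) (nat_lit 456) (nat_lit 376430238061) (nat_lit 76) (nat_lit 90999210333) (nat_lit 22) (nat_lit 5) (nat_lit 28) (nat_lit 5) (nat_lit 23) (nat_lit 5) (nat_lit 311) (nat_lit 301) (nat_lit 108)) (XT.nd (nat_lit 36738) (nat_lit 0) (nat_lit 684) (XT.lf (nat_lit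 0) (nat_lit 289238667820) (nat_lit 456) (nat_lit 109176290892) (nat_lit 76) (nat_lit 329268359938) (nat_lit 22) (nat_lit 5) (nat_lit 28) (nat_lit 5) (nat_lit 23) (nat_lit 5) (nat_lit 312) (nat_lit 301) (nat_lit 107)) (XT.lf (nat_lit 0) (nat_lit 118219360496) (nat_lit 0) (nat_lit 118219360496) (nat_lit 380) (nat_lit 7507579319) (nat_lit 31) (nat_lit 5) (nat_lit 31) (nat_lit 3) (nat_lit 36) (nat_lit 3) (nat_lit 302) (nat_lit 302) (nat_lit 116)))))) (XT.nd (nat_lit 390) (nat_lit 228) (nat_lit 0) (XT.nd (nat_lit 156) (nat_lit 456) (nat_lit 0) (XT.nd (nat_lit 78) (nat_lit 0) (nat_lit 0) (XT.lf (nat_lit 0) (nat_lit 442390290274) (nat_lit 0) (nat_lit 49402476321) (nat_lit 380) (nat_lit 15615517576) (nat_lit 31) (nat_lit 5) (nat_lit 31) (nat_lit 3) (nat_lit 36) (nat_lit 3) (nat_lit 303) (nat_lit 302) (nat_lit 115)) (XT.lf (nat_lit 76) (nat_lit 139648583198) (nat_lit 0) (nat_lit 379601216862)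 (nat_lit 456) (nat_lit 8673143944) (nat_lit 32) (nat_lit 5) (nat_lit 31) (nat_lit 5) (nat_lit 37) (nat_lit 5) (nat_lit 304) (nat_lit 302) (nat_lit 114))) (XT.nd (nat_lit 78) (nat_lit 0) (nat_lit 76) (XT.lf (nat_lit 0) (nat_lit 1990457616) (nat_lit 456) (nat_lit 186851544828) (nat_lit 532) (nat_lit 360990472553) (nat_lit 25) (nat_lit 5) (nat_lit 31) (nat_lit 5) (nat_lit 32) (nat_lit 5) (nat_lit 305) (nat_lit 302) (nat_lit 113)) (XT.nd (nat_lit 78) (nat_lit 0) (nat_lit 0) (XT.lf (nat_lit 0) (nat_lit 14248697415) (nat_lit 456) (nat_lit 541790302661) (nat_lit 532) (nat_lit 17340936447) (nat_lit 26) (nat_lit 5) (nat_lit 32) (nat_lit 5) (nat_lit 33) (nat_lit 5) (nat_lit 306) (nat_lit 302) (nat_lit 112)) (XT.lf (nat_lit 0) (nat_lit 37634114399) (nat_lit 456) (nat_lit 325307666634) (nat_lit 532) (nat_lit 235057692669) (nat_lit 26) (nat_lit 5) (nat_lit 32) (nat_lit 5) (nat_lit 33) (nat_lit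 5) (nat_lit 307) (nat_lit 302) (nat_lit 111))))) (XT.nd (nat_lit 234) (nat_lit 304) (nat_lit 0) (XT.nd (nat_lit 78) (nat_lit 0) (nat_lit 76) (XT.lf (nat_lit 0) (nat_lit 62890347237) (nat_lit 456) (nat_lit 91506433688) (nat_lit 532) (nat_lit 470191794490) (nat_lit 26) (nat_lit 5) (nat_lit 32) (nat_lit 5) (nat_lit 33) (nat_lit 5) (nat_lit 308) (nat_lit 302) (nat_lit 110)) (XT.nd (nat_lit 78) (nat_lit 0) (nat_lit 0) (XT.lf (nat_lit 0) (nat_lit 96052358747) (nat_lit 456) (nat_lit 485311307198) (nat_lit 76) (nat_lit 71470317060) (nat_lit 27) (nat_lit 5) (nat_lit 33) (nat_lit 5) (nat_lit 28) (nat_lit 5) (nat_lit 309) (nat_lit 302) (nat_lit 109)) (XT.lf (nat_lit 0) (nat_lit 138444555655) (nat_lit 456) (nat_lit 234736007020) (nat_lit 76) (nat_lit 309632282708) (nat_lit 27) (nat_lit 5) (nat_lit 33) (nat_lit 5) (nat_lit 28) (nat_lit 5) (nat_lit 310) (nat_lit 302) (nat_lit 108)))) (XT.nd (nat_lit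 36894) (nat_lit 0) (nat_lit 684) (XT.lf (nat_lit 0) (nat_lit 37774960709) (nat_lit 380) (nat_lit 147361642204) (nat_lit 456) (nat_lit 529980735995) (nat_lit 22) (nat_lit 5) (nat_lit 27) (nat_lit 5) (nat_lit 28) (nat_lit 5) (nat_lit 311) (nat_lit 302) (nat_lit 107)) (XT.nd (nat_lit 78) (nat_lit 0) (nat_lit 0) (XT.lf (nat_lit 0) (nat_lit 127677020072) (nat_lit 0) (nat_lit 127677020072) (nat_lit 380) (nat_lit 8107944207) (nat_lit 31) (nat_lit 5) (nat_lit 31) (nat_lit 3) (nat_lit 36) (nat_lit 3) (nat_lit 303) (nat_lit 303) (nat_lit 114)) (XT.lf (nat_lit 0) (nat_lit 477781718563) (nat_lit 0) (nat_lit 53354879494) (nat_lit 380) (nat_lit 16864311839) (nat_lit 31) (nat_lit 5) (nat_lit 31) (nat_lit 3) (nat_lit 36) (nat_lit 3) (nat_lit 304) (nat_lit 303) (nat_lit 113))))))) (XT.nd (nat_lit 37752) (nat_lit 0) (nat_lit 0) (XT.nd (nat_lit 390) (nat_lit 0) (nat_lit 0) (XT.nd (nat_lit 156) (nat_lit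 0) (nat_lit 76) (XT.nd (nat_lit 78) (nat_lit 456) (nat_lit 0) (XT.lf (nat_lit 76) (nat_lit 150820710609) (nat_lit 0) (nat_lit 409969454433) (nat_lit 456) (nat_lit 9366580116) (nat_lit 32) (nat_lit 5) (nat_lit 31) (nat_lit 5) (nat_lit 37) (nat_lit 5) (nat_lit 305) (nat_lit 303) (nat_lit 112)) (XT.lf (nat_lit 0) (nat_lit 2150059564) (nat_lit 456) (nat_lit 201799422921) (nat_lit 532) (nat_lit 389869557950) (nat_lit 25) (nat_lit 5) (nat_lit 31) (nat_lit 5) (nat_lit 32) (nat_lit 5) (nat_lit 306) (nat_lit 303) (nat_lit 111))) (XT.nd (nat_lit 78) (nat_lit 0) (nat_lit 0) (XT.lf (nat_lit 0) (nat_lit 15388934721) (nat_lit 456) (nat_lit 585133254467) (nat_lit 532) (nat_lit 18728111849) (nat_lit 26) (nat_lit 5) (nat_lit 32) (nat_lit 5) (nat_lit 33) (nat_lit 5) (nat_lit 307) (nat_lit 303) (nat_lit 110)) (XT.nd (nat_lit 78) (nat_lit 0) (nat_lit 0) (XT.lf (nat_lit 0) (nat_lit 40645159766) (nat_lit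 456) (nat_lit 351332027736) (nat_lit 532) (nat_lit 253862215941) (nat_lit 26) (nat_lit 5) (nat_lit 32) (nat_lit 5) (nat_lit 33) (nat_lit 5) (nat_lit 308) (nat_lit 303) (nat_lit 109)) (XT.lf (nat_lit 0) (nat_lit 67921867807) (nat_lit 456) (nat_lit 98826714838) (nat_lit 532) (nat_lit 507807052732) (nat_lit 26) (nat_lit 5) (nat_lit 32) (nat_lit 5) (nat_lit 33) (nat_lit 5) (nat_lit 309) (nat_lit 303) (nat_lit 108))))) (XT.nd (nat_lit 37128) (nat_lit 152) (nat_lit 0) (XT.nd (nat_lit 78) (nat_lit 0) (nat_lit 0) (XT.lf (nat_lit 0) (nat_lit 103736822847) (nat_lit 456) (nat_lit 524135958388) (nat_lit 76) (nat_lit 77187895928) (nat_lit 27) (nat_lit 5) (nat_lit 33) (nat_lit 5) (nat_lit 28) (nat_lit 5) (nat_lit 310) (nat_lit 303) (nat_lit 107)) (XT.nd (nat_lit 36972) (nat_lit 0) (nat_lit 304) (XT.lf (nat_lit 0) (nat_lit 149520375108) (nat_lit 456) (nat_lit 253514652965) (nat_lit 76) (nat_lit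 334402822272) (nat_lit 27) (nat_lit 5) (nat_lit 33) (nat_lit 5) (nat_lit 28) (nat_lit 5) (nat_lit 311) (nat_lit 303) (nat_lit 106)) (XT.lf (nat_lit 0) (nat_lit 137891276616) (nat_lit 0) (nat_lit 137891276616) (nat_lit 380) (nat_lit 8756372733) (nat_lit 31) (nat_lit 5) (nat_lit 31) (nat_lit 3) (nat_lit 36) (nat_lit 3) (nat_lit 304) (nat_lit 304) (nat_lit 112)))) (XT.nd (nat_lit 78) (nat_lit 456) (nat_lit 0) (XT.lf (nat_lit 0) (nat_lit 516004431859) (nat_lit 0) (nat_lit 57623445665) (nat_lit 380) (nat_lit 18213073433) (nat_lit 31) (nat_lit 5) (nat_lit 31) (nat_lit 3) (nat_lit 36) (nat_lit 3) (nat_lit 305) (nat_lit 304) (nat_lit 111)) (XT.nd (nat_lit 78) (nat_lit 456) (nat_lit 0) (XT.lf (nat_lit 76) (nat_lit 162886573866) (nat_lit 0) (nat_lit 442767131005) (nat_lit 456) (nat_lit 10115550436) (nat_lit 32) (nat_lit 5) (nat_lit 31) (nat_lit 5) (nat_lit 37) (nat_lit 5) (nat_lit 306) (nat_lit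 304) (nat_lit 110)) (XT.lf (nat_lit 0) (nat_lit 2322377548) (nat_lit 456) (nat_lit 217943166284) (nat_lit 532) (nat_lit 421058991923) (nat_lit 25) (nat_lit 5) (nat_lit 31) (nat_lit 5) (nat_lit 32) (nat_lit 5) (nat_lit 307) (nat_lit 304) (nat_lit 109)))))) (XT.nd (nat_lit 37440) (nat_lit 76) (nat_lit 0) (XT.nd (nat_lit 156) (nat_lit 0) (nat_lit 0) (XT.nd (nat_lit 78) (nat_lit 0) (nat_lit 0) (XT.lf (nat_lit 0) (nat_lit 16620342290) (nat_lit 456) (nat_lit 631943681280) (nat_lit 532) (nat_lit 20226275481) (nat_lit 26) (nat_lit 5) (nat_lit 32) (nat_lit 5) (nat_lit 33) (nat_lit 5) (nat_lit 308) (nat_lit 304) (nat_lit 108)) (XT.lf (nat_lit 0) (nat_lit 43897043650) (nat_lit 456) (nat_lit 379438373710) (nat_lit 532) (nat_lit 274171114219) (nat_lit 26) (nat_lit 5) (nat_lit 32) (nat_lit 5) (nat_lit 33) (nat_lit 5) (nat_lit 309) (nat_lit 304) (nat_lit 107))) (XT.nd (nat_lit 37128) (nat_lit 0)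 (nat_lit 380) (XT.lf (nat_lit 0) (nat_lit 73355868253) (nat_lit 456) (nat_lit 106732651798) (nat_lit 532) (nat_lit 548431543806) (nat_lit 26) (nat_lit 5) (nat_lit 32) (nat_lit 5) (nat_lit 33) (nat_lit 5) (nat_lit 310) (nat_lit 304) (nat_lit 106)) (XT.nd (nat_lit 78) (nat_lit 0) (nat_lit 0) (XT.lf (nat_lit 0) (nat_lit 148922660140) (nat_lit 0) (nat_lit 148922660140) (nat_lit 380) (nat_lit 9456705073) (nat_lit 31) (nat_lit 5) (nat_lit 31) (nat_lit 3) (nat_lit 36) (nat_lit 3) (nat_lit 305) (nat_lit 305) (nat_lit 110)) (XT.lf (nat_lit 0) (nat_lit 557284937138) (nat_lit 0) (nat_lit 62233472048) (nat_lit 380) (nat_lit 19669790644) (nat_lit 31) (nat_lit 5) (nat_lit 31) (nat_lit 3) (nat_lit 36) (nat_lit 3) (nat_lit 306) (nat_lit 305) (nat_lit 109))))) (XT.nd (nat_lit 37440) (nat_lit 0) (nat_lit 456) (XT.nd (nat_lit 78) (nat_lit 456) (nat_lit 0) (XT.lf (nat_lit 76) (nat_lit 175917676738) (nat_lit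 0) (nat_lit 478188604552) (nat_lit 456) (nat_lit 10924489181) (nat_lit 32) (nat_lit 5) (nat_lit 31) (nat_lit 5) (nat_lit 37) (nat_lit 5) (nat_lit 307) (nat_lit 305) (nat_lit 108)) (XT.nd (nat_lit 78) (nat_lit 0) (nat_lit 76) (XT.lf (nat_lit 0) (nat_lit 2508436287) (nat_lit 456) (nat_lit 235378439142) (nat_lit 532) (nat_lit 454743599253) (nat_lit 25) (nat_lit 5) (nat_lit 31) (nat_lit 5) (nat_lit 32) (nat_lit 5) (nat_lit 308) (nat_lit 305) (nat_lit 107)) (XT.lf (nat_lit 0) (nat_lit 17950220694) (nat_lit 456) (nat_lit 682498975555) (nat_lit 532) (nat_lit 21844304374) (nat_lit 26) (nat_lit 5) (nat_lit 32) (nat_lit 5) (nat_lit 33) (nat_lit 5) (nat_lit 309) (nat_lit 305) (nat_lit 106)))) (XT.nd (nat_lit 78) (nat_lit 0) (nat_lit 0) (XT.lf (nat_lit 0) (nat_lit 160836542733) (nat_lit 0) (nat_lit 160836542733) (nat_lit 380) (nat_lit 10213089320) (nat_lit 31) (nat_lit 5) (nat_lit 31) (nat_lit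 3) (nat_lit 36) (nat_lit 3) (nat_lit 306) (nat_lit 306) (nat_lit 108)) (XT.nd (nat_lit 78) (nat_lit 0) (nat_lit 0) (XT.lf (nat_lit 0) (nat_lit 601867861336) (nat_lit 0) (nat_lit 67212279039) (nat_lit 380) (nat_lit 21243092120) (nat_lit 31) (nat_lit 5) (nat_lit 31) (nat_lit 3) (nat_lit 36) (nat_lit 3) (nat_lit 307) (nat_lit 306) (nat_lit 107)) (XT.lf (nat_lit 76) (nat_lit 189991242593) (nat_lit 0) (nat_lit 516443781280) (nat_lit 456) (nat_lit 11798186579) (nat_lit 32) (nat_lit 5) (nat_lit 31) (nat_lit 5) (nat_lit 37) (nat_lit 5) (nat_lit 308) (nat_lit 306) (nat_lit 106))))))))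

set_option maxRecDepth 10000000 in
noncomputable def Tp : PT := (PT.nd (nat_lit 4586010) (PT.nd (nat_lit 4361682) pc0 pc1) (PT.nd (nat_lit 112944) pc2 pc3))

set_option maxRecDepth 10000000 in
noncomputable def Tx : XT := (XT.nd (nat_lit 7267026) (nat_lit 0) (nat_lit 76) XT.nil (XT.nd (nat_lit 4237584) (nat_lit 0) (nat_lit 0) (XT.nd (nat_lit 2021058) (nat_lit 0) (nat_lit 0) (XT.nd (nat_lit 1387074) (nat_lit 0) (nat_lit 0) (XT.nd (nat_lit 974220) (nat_lit 0) (nat_lit 0) (XT.nd (nat_lit 674778) (nat_lit 0) (nat_lit 0) (XT.nd (nat_lit 486174) (nat_lit 0) (nat_lit 0) (XT.nd (nat_lit 336726) (nat_lit 0) (nat_lit 0) (XT.nd (nat_lit 224718) (nat_lit 0) (nat_lit 0) xc0 xc1) (XT.nd (nat_lit 75036) (nat_lit 0) (nat_lit 0) xc2 xc3)) (XT.nd (nat_lit 112164) (nat_lit 0) (nat_lit 0) (XT.nd (nat_lit 38610) (nat_lit 0) (nat_lit 0) xc4 xc5) (XT.nd (nat_lit 38298) (nat_lit 0) (nat_lit 0) xc6 xc7)))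 (XT.nd (nat_lit 184860) (nat_lit 0) (nat_lit 0) (XT.nd (nat_lit 109980) (nat_lit 0) (nat_lit 0) (XT.nd (nat_lit 37908) (nat_lit 0) (nat_lit 0) xc8 xc9) (XT.nd (nat_lit 37518) (nat_lit 0) (nat_lit 0) xc10 xc11)) (XT.nd (nat_lit 40638) (nat_lit 0) (nat_lit 0) (XT.nd (nat_lit 37206) (nat_lit 0) (nat_lit 0) xc12 xc13) (XT.nd (nat_lit 37050) (nat_lit 0) (nat_lit 0) xc14 xc15)))) (XT.nd (nat_lit 224874) (nat_lit 0) (nat_lit 0) (XT.nd (nat_lit 113100) (nat_lit 0) (nat_lit 0) (XT.nd (nat_lit 73242) (nat_lit 0) (nat_lit 0) (XT.nd (nat_lit 36660) (nat_lit 0) (nat_lit 0) xc16 xc17) (XT.nd (nat_lit 36426) (nat_lit 0) (nat_lit 0) xc18 xc19)) (XT.nd (nat_lit 72384) (nat_lit 0) (nat_lit 0) (XT.nd (nat_lit 36270) (nat_lit 0) (nat_lit 0) xc20 xc21) (XT.nd (nat_lit 35958) (nat_lit 0) (nat_lit 0) xc22 xc23))) (XT.nd (nat_lit 110448) (nat_lit 0) (nat_lit 0) (XT.nd (nat_lit 71448) (nat_lit 0) (nat_lit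 0) (XT.nd (nat_lit 35724) (nat_lit 0) (nat_lit 0) xc24 xc25) (XT.nd (nat_lit 3432) (nat_lit 0) (nat_lit 0) xc26 xc27)) (XT.nd (nat_lit 38844) (nat_lit 0) (nat_lit 0) (XT.nd (nat_lit 3432) (nat_lit 0) (nat_lit 0) xc28 xc29) (XT.nd (nat_lit 35256) (nat_lit 0) (nat_lit 0) xc30 xc31))))) (XT.nd (nat_lit 334230) (nat_lit 0) (nat_lit 0) (XT.nd (nat_lit 184080) (nat_lit 0) (nat_lit 0) (XT.nd (nat_lit 108186) (nat_lit 0) (nat_lit 0) (XT.nd (nat_lit 38454) (nat_lit 0) (nat_lit 0) (XT.nd (nat_lit 35022) (nat_lit 0) (nat_lit 0) xc32 xc33) (XT.nd (nat_lit 34944) (nat_lit 0) (nat_lit 0) xc34 xc35)) (XT.nd (nat_lit 37986) (nat_lit 0) (nat_lit 0) (XT.nd (nat_lit 3354) (nat_lit 0) (nat_lit 0) xc36 xc37) (XT.nd (nat_lit 3432) (nat_lit 0) (nat_lit 0) xc38 xc39))) (XT.nd (nat_lit 75270) (nat_lit 0) (nat_lit 0) (XT.nd (nat_lit 37674) (nat_lit 0) (nat_lit 0) (XT.nd (nat_lit 3354) (nat_lit 0) (nat_lit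 0) xc40 xc41) (XT.nd (nat_lit 3432) (nat_lit 0) (nat_lit 0) xc42 xc43)) (XT.nd (nat_lit 37518) (nat_lit 0) (nat_lit 0) (XT.nd (nat_lit 3432) (nat_lit 0) (nat_lit 0) xc44 xc45) (XT.nd (nat_lit 3432) (nat_lit 0) (nat_lit 0) xc46 xc47)))) (XT.nd (nat_lit 149214) (nat_lit 0) (nat_lit 0) (XT.nd (nat_lit 74412) (nat_lit 0) (nat_lit 0) (XT.nd (nat_lit 37128) (nat_lit 0) (nat_lit 0) (XT.nd (nat_lit 3354) (nat_lit 0) (nat_lit 0) xc48 xc49) (XT.nd (nat_lit 3432) (nat_lit 0) (nat_lit 0) xc50 xc51)) (XT.nd (nat_lit 37362) (nat_lit 0) (nat_lit 0) (XT.nd (nat_lit 3432) (nat_lit 0) (nat_lit 0) xc52 xc53) (XT.nd (nat_lit 3432) (nat_lit 0) (nat_lit 0) xc54 xc55))) (XT.nd (nat_lit 75036) (nat_lit 0) (nat_lit 0) (XT.nd (nat_lit 37440) (nat_lit 0) (nat_lit 0) (XT.nd (nat_lit 3354) (nat_lit 0) (nat_lit 0) xc56 xc57) (XT.nd (nat_lit 3432) (nat_lit 0) (nat_lit 0) xc58 xc59)) (XT.nd (nat_lit 37674) (nat_lit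 0) (nat_lit 0) (XT.nd (nat_lit 3432) (nat_lit 0) (nat_lit 0) xc60 xc61) (XT.nd (nat_lit 3432) (nat_lit 0) (nat_lit 0) xc62 xc63)))))) (XT.nd (nat_lit 714324) (nat_lit 0) (nat_lit 0) (XT.nd (nat_lit 337116) (nat_lit 0) (nat_lit 0) (XT.nd (nat_lit 151944) (nat_lit 0) (nat_lit 0) (XT.nd (nat_lit 75816) (nat_lit 0) (nat_lit 0) (XT.nd (nat_lit 37830) (nat_lit 0) (nat_lit 0) (XT.nd (nat_lit 3354) (nat_lit 0) (nat_lit 0) xc64 xc65) (XT.nd (nat_lit 3432) (nat_lit 0) (nat_lit 0) xc66 xc67)) (XT.nd (nat_lit 37986) (nat_lit 0) (nat_lit 0) (XT.nd (nat_lit 3354) (nat_lit 0) (nat_lit 0) xc68 xc69) (XT.nd (nat_lit 34710) (nat_lit 0) (nat_lit 152) xc70 xc71))) (XT.nd (nat_lit 76440) (nat_lit 0) (nat_lit 0) (XT.nd (nat_lit 38142) (nat_lit 0) (nat_lit 0) (XT.nd (nat_lit 34710) (nat_lit 0) (nat_lit 76) xc72 xc73) (XT.nd (nat_lit 34866) (nat_lit 0) (nat_lit 0) xc74 xc75)) (XT.nd (nat_lit 38454) (nat_lit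 0) (nat_lit 0) (XT.nd (nat_lit 35022) (nat_lit 0) (nat_lit 0) xc76 xc77) (XT.nd (nat_lit 35100) (nat_lit 0) (nat_lit 0) xc78 xc79)))) (XT.nd (nat_lit 187434) (nat_lit 0) (nat_lit 0) (XT.nd (nat_lit 77376) (nat_lit 0) (nat_lit 0) (XT.nd (nat_lit 38610) (nat_lit 0) (nat_lit 0) (XT.nd (nat_lit 3354) (nat_lit 76) (nat_lit 0) xc80 xc81) (XT.nd (nat_lit 3432) (nat_lit 0) (nat_lit 0) xc82 xc83)) (XT.nd (nat_lit 38844) (nat_lit 0) (nat_lit 0) (XT.nd (nat_lit 35412) (nat_lit 0) (nat_lit 76) xc84 xc85) (XT.nd (nat_lit 35568) (nat_lit 0) (nat_lit 0) xc86 xc87))) (XT.nd (nat_lit 78312) (nat_lit 0) (nat_lit 0) (XT.nd (nat_lit 39078) (nat_lit 0) (nat_lit 0) (XT.nd (nat_lit 3354) (nat_lit 152) (nat_lit 0) xc88 xc89) (XT.nd (nat_lit 3432) (nat_lit 0) (nat_lit 0) xc90 xc91)) (XT.nd (nat_lit 39312) (nat_lit 0) (nat_lit 0) (XT.nd (nat_lit 35880) (nat_lit 0) (nat_lit 0) xc92 xc93) (XT.nd (nat_lit 36036)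 (nat_lit 0) (nat_lit 0) xc94 xc95))))) (XT.nd (nat_lit 488046) (nat_lit 0) (nat_lit 76) (XT.nd (nat_lit 225342) (nat_lit 0) (nat_lit 76) (XT.nd (nat_lit 112164) (nat_lit 0) (nat_lit 0) (XT.nd (nat_lit 39546) (nat_lit 0) (nat_lit 0) (XT.nd (nat_lit 36114) (nat_lit 0) (nat_lit 76) xc96 xc97) (XT.nd (nat_lit 36270) (nat_lit 0) (nat_lit 0) xc98 xc99)) (XT.nd (nat_lit 39936) (nat_lit 0) (nat_lit 0) (XT.nd (nat_lit 36504) (nat_lit 0) (nat_lit 76) xc100 xc101) (XT.nd (nat_lit 36582) (nat_lit 0) (nat_lit 76) xc102 xc103))) (XT.nd (nat_lit 113880) (nat_lit 0) (nat_lit 0) (XT.nd (nat_lit 40092) (nat_lit 0) (nat_lit 0) (XT.nd (nat_lit 36660) (nat_lit 0) (nat_lit 0) xc104 xc105) (XT.nd (nat_lit 36816) (nat_lit 0) (nat_lit 0) xc106 xc107)) (XT.nd (nat_lit 74178) (nat_lit 0) (nat_lit 0) (XT.nd (nat_lit 37050) (nat_lit 0) (nat_lit 0) xc108 xc109) (XT.nd (nat_lit 37284) (nat_lit 0) (nat_lit 0) xc110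 xc111)))) (XT.nd (nat_lit 337272) (nat_lit 0) (nat_lit 228) (XT.nd (nat_lit 150306) (nat_lit 0) (nat_lit 152) (XT.nd (nat_lit 74880) (nat_lit 0) (nat_lit 76) (XT.nd (nat_lit 37362) (nat_lit 0) (nat_lit 76) xc112 xc113) (XT.nd (nat_lit 37674) (nat_lit 0) (nat_lit 0) xc114 xc115)) (XT.nd (nat_lit 75816) (nat_lit 0) (nat_lit 76) (XT.nd (nat_lit 37830) (nat_lit 0) (nat_lit 0) xc116 xc117) (XT.nd (nat_lit 38064) (nat_lit 0) (nat_lit 0) xc118 xc119))) (XT.nd (nat_lit 225498) (nat_lit 0) (nat_lit 532) (XT.nd (nat_lit 76830) (nat_lit 0) (nat_lit 76) (XT.nd (nat_lit 38376) (nat_lit 0) (nat_lit 76) xc120 xc121) (XT.nd (nat_lit 74022) (nat_lit 0) (nat_lit 304) xc122 xc123)) (XT.nd (nat_lit 150696) (nat_lit 0) (nat_lit 380) (XT.nd (nat_lit 39234) (nat_lit 0) (nat_lit 0) xc124 xc125) (XT.nd (nat_lit 112632) (nat_lit 0) (nat_lit 380) xc126 xc127))))))) XT.nil))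

set_option maxRecDepth 10000000 in
noncomputable def Te : XT := XT.nil

set_option maxRecDepth 10000000 in
noncomputable def Tz : ZL := (ZL.cons (nat_lit 76) (nat_lit 3) (nat_lit 78366533311512146131) (ZL.cons (nat_lit 152) (nat_lit 6) (nat_lit 152008689648213342118) (ZL.cons (nat_lit 228) (nat_lit 6) (nat_lit 147748066368996466234) (ZL.cons (nat_lit 304) (nat_lit 3) (nat_lit 73671700527387908532) (ZL.cons (nat_lit 380) (nat_lit 6) (nat_lit 143146593227442240276) (ZL.cons (nat_lit 456) (nat_lit 6) (nat_lit 139393396193902486856) (ZL.cons (nat_lit 532) (nat_lit 3) (nat_lit 69509353044071313258) (ZL.cons (nat_lit 608) (nat_lit 6) (nat_lit 136061568786550395298) (ZL.cons (nat_lit 684) (nat_lit 6) (nat_lit 135339943397679553162) (ZL.cons (nat_lit 760) (nat_lit 6) (nat_lit 132088505080850276076) (ZL.cons (nat_lit 836) (nat_lit 3) (nat_lit 65870784898869647140) (ZL.cons (nat_lit 912) (nat_lit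 6) (nat_lit 129245123355036547696) (ZL.cons (nat_lit 988) (nat_lit 6) (nat_lit 128576951698674656826) (ZL.cons (nat_lit 1064) (nat_lit 6) (nat_lit 126792948550752064442) (ZL.cons (nat_lit 1140) (nat_lit 6) (nat_lit 125827335808046739248) (ZL.cons (nat_lit 1216) (nat_lit 3) (nat_lit 62753049717397915087) (ZL.cons (nat_lit 1292) (nat_lit 6) (nat_lit 123476428105762931658) (ZL.cons (nat_lit 1368) (nat_lit 6) (nat_lit 122857750646168588260) (ZL.cons (nat_lit 1444) (nat_lit 6) (nat_lit 121510297286920811494) (ZL.cons (nat_lit 1520) (nat_lit 6) (nat_lit 120616211414045510388) (ZL.cons (nat_lit 1596) (nat_lit 3) (nat_lit 60159385163851038032) (ZL.cons (nat_lit 1672) (nat_lit 6) (nat_lit 119917292205927240270) (ZL.cons (nat_lit 1748) (nat_lit 6) (nat_lit 118768198542976978320) (ZL.cons (nat_lit 1824) (nat_lit 6) (nat_lit 118195349043352586288) (ZL.cons (nat_lit 1900) (nat_lit 6) (nat_lit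 117293363792249457920) (ZL.cons (nat_lit 1976) (nat_lit 6) (nat_lit 117815054311611757506) (ZL.cons (nat_lit 2052) (nat_lit 6) (nat_lit 118687972832672626450) (ZL.cons (nat_lit 2128) (nat_lit 6) (nat_lit 117302760845578882240) (ZL.cons (nat_lit 2204) (nat_lit 6) (nat_lit 116474903555879529364) (ZL.cons (nat_lit 2280) (nat_lit 3) (nat_lit 58099747571299285828) (ZL.cons (nat_lit 2356) (nat_lit 6) (nat_lit 115126097966333798438) (ZL.cons (nat_lit 2432) (nat_lit 6) (nat_lit 115487090321772274838) (ZL.cons (nat_lit 2508) (nat_lit 6) (nat_lit 116211214246607381574) (ZL.cons (nat_lit 2584) (nat_lit 6) (nat_lit 115147238632764546438) (ZL.cons (nat_lit 2660) (nat_lit 6) (nat_lit 114616822429408627886) (ZL.cons (nat_lit 2736) (nat_lit 3) (nat_lit 56726811265353388533) (ZL.cons (nat_lit 2812) (nat_lit 6) (nat_lit 113641060869107524430) (ZL.cons (nat_lit 2888) (nat_lit 6) (nat_lit 114204486630018807980)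 (ZL.cons (nat_lit 2964) (nat_lit 6) (nat_lit 113437952102519407168) (ZL.cons (nat_lit 3040) (nat_lit 3) (nat_lit 56591472156222223162) (ZL.cons (nat_lit 3116) (nat_lit 6) (nat_lit 112266026519823937382) (ZL.cons (nat_lit 3192) (nat_lit 6) (nat_lit 112655898263697491896) (ZL.cons (nat_lit 3268) (nat_lit 6) (nat_lit 112164772149479048792) (ZL.cons (nat_lit 3344) (nat_lit 3) (nat_lit 55676919461111027703) (ZL.cons (nat_lit 3420) (nat_lit 6) (nat_lit 111556272327694862556) (ZL.cons (nat_lit 3496) (nat_lit 3) (nat_lit 55660077001775690148) (ZL.cons (nat_lit 3572) (nat_lit 6) (nat_lit 110899092520167941424) (ZL.cons (nat_lit 3648) (nat_lit 1) (nat_lit 18446744073709551617) ZL.nil))))))))))))))))))))))))))))))))))))))))))))))))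

noncomputable def vl : XL := ⟨(nat_lit 0), (nat_lit 76), (nat_lit 634277364), (nat_lit 152), (nat_lit 63910844), (nat_lit 152), (nat_lit 63910844), (nat_lit 1), (nat_lit 4), (nat_lit 2), (nat_lit 5), (nat_lit 2), (nat_lit 4), (nat_lit 0), (nat_lit 0), (nat_lit 0)⟩

noncomputable def cp0 : Nat := (nat_lit 195418987585551574977130341030057303470421647496554528584759852141482065922337870966402608027697678518139350941882090281129362480242442796462911974744330591467207759531015889582573612035806493935223533082049115898473488126966891384347664458708606191660892802494265722154610849139203579576520766115717549126555822122044050569411342827827877266728183979912264770751288770407919927602455988942180190577114112575047287792873860395638180378638455810777953209986800226374925153755867846096842796787242947868581985303190012243005524141159614960772311597210152983932481424810782283596967484362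1178112080885185854063642106964012261509595026804940699147562903186594011482452852708534427206592747828657468957264052926453695248582219278365036565240428411705789021367914268018579980878061721949768946194781154304058379103207223636697503033870050714020627843961639201454332990119074742950424276533796994812241521129594123775960256107782562887308292549327188049635345456364511901468821362614091827310424809266907168826816493789158079108032984383642244543999834017900050876425522441327541668948452017701960823490620454709049381879808)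

noncomputable def cp1 : Nat := (nat_lit 2660379873343808484508197909761729889465681680475563455663820471673056893893392841437586899212207953630499054558155336883022571484582124219518393286345434298749432337627801904025433610617831736021035196594410847720519017017666711095900416735067738754154979270797318452672281051890492382186276418281877648137347184231856797367355297192863657341968587271555458443247502129016643235406305975285954398210509801962963133873035761035851008804054498478149333902561925082352889733606434579279821590595898454082277309404513552973706394111041593224330946581052905892363174609668874191470191607766444138417463447084358496480106015076742861616576517440965251319499024257100429731853525752164697632539721010897209640826709518455012421779603120160111768170424791342823937905393342414438748137926907300131658487682776462461403871170790714007782953669388561174394201828499953627597638372895808317167878166702857057837697855052186597007839793522597368702257698396531190333642467370667141736109776361441376589474164713988496344073627537868774777279116025711959203544574727528334100092874928383149723832881815055063003387165432365449216)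

noncomputable def rc0 : Nat := (nat_lit 2660379873343808484508197909761729889465681680475563455663820471673056893893392841437586899212207953630499054558155336883022571484582124219518393286345434298749432337627801904025433610617831736021035196594410847720519017017666711095900416735067738754154979270797318452672281051890492382186276418281877648137347184231856797367355297192863657341968587271555458443247502129016643235406305975285954398210509801962963133873035761035851008804054498478149333902561925082352889733606434579279821590595898454082277309404513552973706394111041593224330946581052905892363174609668874191470191607766444138417463447084358496480106015076742861616576517440965251319499024257100429731853525752164697632539721010897209640826709518455012421779603120160111768170424791342823937905393342414438748137926907300131658487682776462461403871170790714007782953669388561174394201828499953627597638372895808317167878166702857057837697855052186597007839793522597368702257698396531190333642467370667141736109776361441376589474164713988496344073627537868774777279116025711959203544574727528334100092874928383149723832881815055063003387165432365449216)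

end Vale.Agent.Lib.P154.PChain.BX.S2
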