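import Vale.Agent.Lib.P154.PChain.BX.R2_0

set_option linter.all false

namespace Vale.Agent.Lib.P154.PChain.BX.S3

open Vale.Agent.Lib.P154.Chain

noncomputable def pc0 : PT := (PT.nd (nat_lit 4211532) (PT.nd (nat_lit 4061694) (PT.nd (nat_lit 3949374) (PT.nd (nat_lit 3911778) (PT.nd (nat_lit 3874338) (PT.nd (nat_lit 3836898) PT.nil (PT.lf (nat_lit 76) (nat_lit 3) (nat_lit 1) (nat_lit 1) (nat_lit 129) (nat_lit 102) (nat_lit 129))) (PT.nd (nat_lit 78) (PT.lf (nat_lit 152) (nat_lit 6) (nat_lit 2) (nat_lit 3) (nat_lit 128) (nat_lit 103) (nat_lit 129)) (PT.lf (nat_lit 152) (nat_lit 6) (nat_lit 2) (nat_lit 1) (nat_lit 129) (nat_lit 103) (nat_lit 128)))) (PT.nd (nat_lit 156) (PT.nd (nat_lit 78) (PT.lf (nat_lit 228) (nat_lit 6) (nat_lit 3) (nat_lit 3) (nat_lit 127) (nat_lit 104) (nat_lit 129)) (PT.lf (nat_lit 304) (nat_lit 3) (nat_lit 4) (nat_lit 1) (nat_lit 128) (nat_lit 104) (nat_lit 128)))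 (PT.nd (nat_lit 37362) (PT.lf (nat_lit 228) (nat_lit 6) (nat_lit 3) (nat_lit 1) (nat_lit 129) (nat_lit 104) (nat_lit 127)) (PT.lf (nat_lit 380) (nat_lit 6) (nat_lit 5) (nat_lit 3) (nat_lit 127) (nat_lit 105) (nat_lit 128))))) (PT.nd (nat_lit 74802) (PT.nd (nat_lit 37440) (PT.nd (nat_lit 37362) (PT.lf (nat_lit 380) (nat_lit 6) (nat_lit 5) (nat_lit 1) (nat_lit 128) (nat_lit 105) (nat_lit 127)) (PT.lf (nat_lit 456) (nat_lit 6) (nat_lit 6) (nat_lit 3) (nat_lit 126) (nat_lit 106) (nat_lit 128))) (PT.nd (nat_lit 78) (PT.lf (nat_lit 532) (nat_lit 3) (nat_lit 7) (nat_lit 1) (nat_lit 127) (nat_lit 106) (nat_lit 127)) (PT.lf (nat_lit 456) (nat_lit 6) (nat_lit 6) (nat_lit 1) (nat_lit 128) (nat_lit 106) (nat_lit 126)))) (PT.nd (nat_lit 156) (PT.nd (nat_lit 78) (PT.lf (nat_lit 608) (nat_lit 6) (nat_lit 8) (nat_lit 3) (nat_lit 125) (nat_lit 107) (nat_lit 128)) (PT.lf (nat_lit 684) (nat_lit 6) (nat_lit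 9) (nat_lit 3) (nat_lit 126) (nat_lit 107) (nat_lit 127))) (PT.nd (nat_lit 78) (PT.lf (nat_lit 684) (nat_lit 6) (nat_lit 9) (nat_lit 1) (nat_lit 127) (nat_lit 107) (nat_lit 126)) (PT.lf (nat_lit 608) (nat_lit 6) (nat_lit 8) (nat_lit 1) (nat_lit 128) (nat_lit 107) (nat_lit 125)))))) (PT.nd (nat_lit 74958) (PT.nd (nat_lit 37518) (PT.nd (nat_lit 156) (PT.nd (nat_lit 78) (PT.lf (nat_lit 760) (nat_lit 6) (nat_lit 10) (nat_lit 3) (nat_lit 125) (nat_lit 108) (nat_lit 127)) (PT.lf (nat_lit 836) (nat_lit 3) (nat_lit 11) (nat_lit 1) (nat_lit 126) (nat_lit 108) (nat_lit 126))) (PT.nd (nat_lit 37284) (PT.lf (nat_lit 760) (nat_lit 6) (nat_lit 10) (nat_lit 1) (nat_lit 127) (nat_lit 108) (nat_lit 125)) (PT.lf (nat_lit 912) (nat_lit 6) (nat_lit 12) (nat_lit 3) (nat_lit 124) (nat_lit 109) (nat_lit 127)))) (PT.nd (nat_lit 156) (PT.nd (nat_lit 78) (PT.lf (nat_lit 988) (nat_lit 6) (nat_lit 13) (nat_lit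 3) (nat_lit 125) (nat_lit 109) (nat_lit 126)) (PT.lf (nat_lit 988) (nat_lit 6) (nat_lit 13) (nat_lit 1) (nat_lit 126) (nat_lit 109) (nat_lit 125))) (PT.nd (nat_lit 37206) (PT.lf (nat_lit 912) (nat_lit 6) (nat_lit 12) (nat_lit 1) (nat_lit 127) (nat_lit 109) (nat_lit 124)) (PT.lf (nat_lit 1064) (nat_lit 6) (nat_lit 14) (nat_lit 3) (nat_lit 123) (nat_lit 110) (nat_lit 127))))) (PT.nd (nat_lit 37440) (PT.nd (nat_lit 156) (PT.nd (nat_lit 78) (PT.lf (nat_lit 1140) (nat_lit 6) (nat_lit 15) (nat_lit 3) (nat_lit 124) (nat_lit 110) (nat_lit 126)) (PT.lf (nat_lit 1216) (nat_lit 3) (nat_lit 16) (nat_lit 1) (nat_lit 125) (nat_lit 110) (nat_lit 125))) (PT.nd (nat_lit 78) (PT.lf (nat_lit 1140) (nat_lit 6) (nat_lit 15) (nat_lit 1) (nat_lit 126) (nat_lit 110) (nat_lit 124)) (PT.lf (nat_lit 1064) (nat_lit 6) (nat_lit 14) (nat_lit 1) (nat_lit 127) (nat_lit 110) (nat_lit 123)))) (PT.nd (nat_lit 156) (PT.nd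 (nat_lit 78) (PT.lf (nat_lit 1292) (nat_lit 6) (nat_lit 17) (nat_lit 3) (nat_lit 123) (nat_lit 111) (nat_lit 126)) (PT.lf (nat_lit 1368) (nat_lit 6) (nat_lit 18) (nat_lit 3) (nat_lit 124) (nat_lit 111) (nat_lit 125))) (PT.nd (nat_lit 78) (PT.lf (nat_lit 1368) (nat_lit 6) (nat_lit 18) (nat_lit 1) (nat_lit 125) (nat_lit 111) (nat_lit 124)) (PT.lf (nat_lit 1292) (nat_lit 6) (nat_lit 17) (nat_lit 1) (nat_lit 126) (nat_lit 111) (nat_lit 123))))))) (PT.nd (nat_lit 75192) (PT.nd (nat_lit 37596) (PT.nd (nat_lit 234) (PT.nd (nat_lit 78) (PT.lf (nat_lit 1444) (nat_lit 6) (nat_lit 19) (nat_lit 3) (nat_lit 122) (nat_lit 112) (nat_lit 126)) (PT.nd (nat_lit 78) (PT.lf (nat_lit 1520) (nat_lit 6) (nat_lit 20) (nat_lit 3) (nat_lit 123) (nat_lit 112) (nat_lit 125)) (PT.lf (nat_lit 1596) (nat_lit 3) (nat_lit 21) (nat_lit 1) (nat_lit 124) (nat_lit 112) (nat_lit 124)))) (PT.nd (nat_lit 37206) (PT.nd (nat_lit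 78) (PT.lf (nat_lit 1520) (nat_lit 6) (nat_lit 20) (nat_lit 1) (nat_lit 125) (nat_lit 112) (nat_lit 123)) (PT.lf (nat_lit 1444) (nat_lit 6) (nat_lit 19) (nat_lit 1) (nat_lit 126) (nat_lit 112) (nat_lit 122))) (PT.nd (nat_lit 78) (PT.lf (nat_lit 1672) (nat_lit 6) (nat_lit 22) (nat_lit 3) (nat_lit 121) (nat_lit 113) (nat_lit 126)) (PT.lf (nat_lit 1748) (nat_lit 6) (nat_lit 23) (nat_lit 3) (nat_lit 122) (nat_lit 113) (nat_lit 125))))) (PT.nd (nat_lit 37284) (PT.nd (nat_lit 156) (PT.nd (nat_lit 78) (PT.lf (nat_lit 1824) (nat_lit 6) (nat_lit 24) (nat_lit 3) (nat_lit 123) (nat_lit 113) (nat_lit 124)) (PT.lf (nat_lit 1824) (nat_lit 6) (nat_lit 24) (nat_lit 1) (nat_lit 124) (nat_lit 113) (nat_lit 123))) (PT.nd (nat_lit 78) (PT.lf (nat_lit 1748) (nat_lit 6) (nat_lit 23) (nat_lit 1) (nat_lit 125) (nat_lit 113) (nat_lit 122)) (PT.lf (nat_lit 1672) (nat_lit 6) (nat_lit 22) (nat_lit 1) (nat_lit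 126) (nat_lit 113) (nat_lit 121)))) (PT.nd (nat_lit 156) (PT.nd (nat_lit 78) (PT.lf (nat_lit 2052) (nat_lit 6) (nat_lit 27) (nat_lit 3) (nat_lit 120) (nat_lit 114) (nat_lit 126)) (PT.lf (nat_lit 2128) (nat_lit 6) (nat_lit 28) (nat_lit 3) (nat_lit 121) (nat_lit 114) (nat_lit 125))) (PT.nd (nat_lit 78) (PT.lf (nat_lit 2204) (nat_lit 6) (nat_lit 29) (nat_lit 3) (nat_lit 122) (nat_lit 114) (nat_lit 124)) (PT.lf (nat_lit 2280) (nat_lit 3) (nat_lit 30) (nat_lit 1) (nat_lit 123) (nat_lit 114) (nat_lit 123)))))) (PT.nd (nat_lit 37518) (PT.nd (nat_lit 37206) (PT.nd (nat_lit 156) (PT.nd (nat_lit 78) (PT.lf (nat_lit 2204) (nat_lit 6) (nat_lit 29) (nat_lit 1) (nat_lit 124) (nat_lit 114) (nat_lit 122)) (PT.lf (nat_lit 2128) (nat_lit 6) (nat_lit 28) (nat_lit 1) (nat_lit 125) (nat_lit 114) (nat_lit 121))) (PT.nd (nat_lit 36972) (PT.lf (nat_lit 2052) (nat_lit 6) (nat_lit 27) (nat_lit 1) (nat_lit 126)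 (nat_lit 114) (nat_lit 120)) (PT.lf (nat_lit 1976) (nat_lit 6) (nat_lit 26) (nat_lit 3) (nat_lit 119) (nat_lit 115) (nat_lit 126)))) (PT.nd (nat_lit 156) (PT.nd (nat_lit 78) (PT.lf (nat_lit 2508) (nat_lit 6) (nat_lit 33) (nat_lit 3) (nat_lit 120) (nat_lit 115) (nat_lit 125)) (PT.lf (nat_lit 2584) (nat_lit 6) (nat_lit 34) (nat_lit 3) (nat_lit 121) (nat_lit 115) (nat_lit 124))) (PT.nd (nat_lit 78) (PT.lf (nat_lit 2660) (nat_lit 6) (nat_lit 35) (nat_lit 3) (nat_lit 122) (nat_lit 115) (nat_lit 123)) (PT.lf (nat_lit 2660) (nat_lit 6) (nat_lit 35) (nat_lit 1) (nat_lit 123) (nat_lit 115) (nat_lit 122))))) (PT.nd (nat_lit 37128) (PT.nd (nat_lit 156) (PT.nd (nat_lit 78) (PT.lf (nat_lit 2584) (nat_lit 6) (nat_lit 34) (nat_lit 1) (nat_lit 124) (nat_lit 115) (nat_lit 121)) (PT.lf (nat_lit 2508) (nat_lit 6) (nat_lit 33) (nat_lit 1) (nat_lit 125) (nat_lit 115) (nat_lit 120))) (PT.nd (nat_lit 36894)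 (PT.lf (nat_lit 1976) (nat_lit 6) (nat_lit 26) (nat_lit 1) (nat_lit 126) (nat_lit 115) (nat_lit 119)) (PT.lf (nat_lit 1900) (nat_lit 6) (nat_lit 25) (nat_lit 3) (nat_lit 118) (nat_lit 116) (nat_lit 126)))) (PT.nd (nat_lit 156) (PT.nd (nat_lit 78) (PT.lf (nat_lit 2432) (nat_lit 6) (nat_lit 32) (nat_lit 3) (nat_lit 119) (nat_lit 116) (nat_lit 125)) (PT.lf (nat_lit 2888) (nat_lit 6) (nat_lit 38) (nat_lit 3) (nat_lit 120) (nat_lit 116) (nat_lit 124))) (PT.nd (nat_lit 78) (PT.lf (nat_lit 2964) (nat_lit 6) (nat_lit 39) (nat_lit 3) (nat_lit 121) (nat_lit 116) (nat_lit 123)) (PT.lf (nat_lit 3040) (nat_lit 3) (nat_lit 40) (nat_lit 1) (nat_lit 122) (nat_lit 116) (nat_lit 122))))))))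
noncomputable def pc1 : PT := (PT.nd (nat_lit 112554) (PT.nd (nat_lit 74724) (PT.nd (nat_lit 37362) (PT.nd (nat_lit 234) (PT.nd (nat_lit 78) (PT.lf (nat_lit 2964) (nat_lit 6) (nat_lit 39) (nat_lit 1) (nat_lit 123) (nat_lit 116) (nat_lit 121)) (PT.nd (nat_lit 78) (PT.lf (nat_lit 2888) (nat_lit 6) (nat_lit 38) (nat_lit 1) (nat_lit 124) (nat_lit 116) (nat_lit 120)) (PT.lf (nat_lit 2432) (nat_lit 6) (nat_lit 32) (nat_lit 1) (nat_lit 125) (nat_lit 116) (nat_lit 119)))) (PT.nd (nat_lit 36972) (PT.nd (nat_lit 36894) (PT.lf (nat_lit 1900) (nat_lit 6) (nat_lit 25) (nat_lit 1) (nat_lit 126) (nat_lit 116) (nat_lit 118)) (PT.lf (nat_lit 2356) (nat_lit 6) (nat_lit 31) (nat_lit 3) (nat_lit 118) (nat_lit 117) (nat_lit 125))) (PT.nd (nat_lit 78) (PT.lf (nat_lit 2812) (nat_lit 6) (nat_lit 37) (nat_lit 3) (nat_lit 119) (nat_lit 117) (nat_lit 124)) (PT.lf (nat_lit 3192) (nat_lit 6) (nat_lit 42) (nat_lit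 3) (nat_lit 120) (nat_lit 117) (nat_lit 123))))) (PT.nd (nat_lit 312) (PT.nd (nat_lit 156) (PT.nd (nat_lit 78) (PT.lf (nat_lit 3268) (nat_lit 6) (nat_lit 43) (nat_lit 3) (nat_lit 121) (nat_lit 117) (nat_lit 122)) (PT.lf (nat_lit 3268) (nat_lit 6) (nat_lit 43) (nat_lit 1) (nat_lit 122) (nat_lit 117) (nat_lit 121))) (PT.nd (nat_lit 78) (PT.lf (nat_lit 3192) (nat_lit 6) (nat_lit 42) (nat_lit 1) (nat_lit 123) (nat_lit 117) (nat_lit 120)) (PT.lf (nat_lit 2812) (nat_lit 6) (nat_lit 37) (nat_lit 1) (nat_lit 124) (nat_lit 117) (nat_lit 119)))) (PT.nd (nat_lit 36894) (PT.nd (nat_lit 36816) (PT.lf (nat_lit 2356) (nat_lit 6) (nat_lit 31) (nat_lit 1) (nat_lit 125) (nat_lit 117) (nat_lit 118)) (PT.lf (nat_lit 1900) (nat_lit 6) (nat_lit 25) (nat_lit 5) (nat_lit 116) (nat_lit 118) (nat_lit 126))) (PT.nd (nat_lit 78) (PT.lf (nat_lit 2356) (nat_lit 6) (nat_lit 31) (nat_lit 5) (nat_lit 117) (nat_lit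 118) (nat_lit 125)) (PT.lf (nat_lit 2736) (nat_lit 3) (nat_lit 36) (nat_lit 3) (nat_lit 118) (nat_lit 118) (nat_lit 124)))))) (PT.nd (nat_lit 37206) (PT.nd (nat_lit 312) (PT.nd (nat_lit 156) (PT.nd (nat_lit 78) (PT.lf (nat_lit 3116) (nat_lit 6) (nat_lit 41) (nat_lit 3) (nat_lit 119) (nat_lit 118) (nat_lit 123)) (PT.lf (nat_lit 3420) (nat_lit 6) (nat_lit 45) (nat_lit 3) (nat_lit 120) (nat_lit 118) (nat_lit 122))) (PT.nd (nat_lit 78) (PT.lf (nat_lit 3496) (nat_lit 3) (nat_lit 46) (nat_lit 1) (nat_lit 121) (nat_lit 118) (nat_lit 121)) (PT.lf (nat_lit 3420) (nat_lit 6) (nat_lit 45) (nat_lit 1) (nat_lit 122) (nat_lit 118) (nat_lit 120)))) (PT.nd (nat_lit 156) (PT.nd (nat_lit 78) (PT.lf (nat_lit 3116) (nat_lit 6) (nat_lit 41) (nat_lit 1) (nat_lit 123) (nat_lit 118) (nat_lit 119)) (PT.lf (nat_lit 2736) (nat_lit 3) (nat_lit 36) (nat_lit 0) (nat_lit 124) (nat_lit 118) (nat_lit 118))) (PT.nd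 (nat_lit 78) (PT.lf (nat_lit 2356) (nat_lit 6) (nat_lit 31) (nat_lit 0) (nat_lit 125) (nat_lit 118) (nat_lit 117)) (PT.lf (nat_lit 1900) (nat_lit 6) (nat_lit 25) (nat_lit 0) (nat_lit 126) (nat_lit 118) (nat_lit 116))))) (PT.nd (nat_lit 312) (PT.nd (nat_lit 156) (PT.nd (nat_lit 78) (PT.lf (nat_lit 1976) (nat_lit 6) (nat_lit 26) (nat_lit 5) (nat_lit 115) (nat_lit 119) (nat_lit 126)) (PT.lf (nat_lit 2432) (nat_lit 6) (nat_lit 32) (nat_lit 5) (nat_lit 116) (nat_lit 119) (nat_lit 125))) (PT.nd (nat_lit 78) (PT.lf (nat_lit 2812) (nat_lit 6) (nat_lit 37) (nat_lit 5) (nat_lit 117) (nat_lit 119) (nat_lit 124)) (PT.lf (nat_lit 3116) (nat_lit 6) (nat_lit 41) (nat_lit 5) (nat_lit 118) (nat_lit 119) (nat_lit 123)))) (PT.nd (nat_lit 156) (PT.nd (nat_lit 78) (PT.lf (nat_lit 3344) (nat_lit 3) (nat_lit 44) (nat_lit 3) (nat_lit 119) (nat_lit 119) (nat_lit 122)) (PT.lf (nat_lit 3572) (nat_lit 6) (nat_lit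 47) (nat_lit 3) (nat_lit 120) (nat_lit 119) (nat_lit 121))) (PT.nd (nat_lit 78) (PT.lf (nat_lit 3572) (nat_lit 6) (nat_lit 47) (nat_lit 1) (nat_lit 121) (nat_lit 119) (nat_lit 120)) (PT.lf (nat_lit 3344) (nat_lit 3) (nat_lit 44) (nat_lit 0) (nat_lit 122) (nat_lit 119) (nat_lit 119))))))) (PT.nd (nat_lit 37752) (PT.nd (nat_lit 37128) (PT.nd (nat_lit 36816) (PT.nd (nat_lit 156) (PT.nd (nat_lit 78) (PT.lf (nat_lit 3116) (nat_lit 6) (nat_lit 41) (nat_lit 0) (nat_lit 123) (nat_lit 119) (nat_lit 118)) (PT.lf (nat_lit 2812) (nat_lit 6) (nat_lit 37) (nat_lit 0) (nat_lit 124) (nat_lit 119) (nat_lit 117))) (PT.nd (nat_lit 78) (PT.lf (nat_lit 2432) (nat_lit 6) (nat_lit 32) (nat_lit 0) (nat_lit 125) (nat_lit 119) (nat_lit 116)) (PT.lf (nat_lit 1976) (nat_lit 6) (nat_lit 26) (nat_lit 0) (nat_lit 126) (nat_lit 119) (nat_lit 115)))) (PT.nd (nat_lit 156) (PT.nd (nat_lit 78) (PT.lf (nat_lit 2052) (nat_lit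 6) (nat_lit 27) (nat_lit 5) (nat_lit 114) (nat_lit 120) (nat_lit 126)) (PT.lf (nat_lit 2508) (nat_lit 6) (nat_lit 33) (nat_lit 5) (nat_lit 115) (nat_lit 120) (nat_lit 125))) (PT.nd (nat_lit 78) (PT.lf (nat_lit 2888) (nat_lit 6) (nat_lit 38) (nat_lit 5) (nat_lit 116) (nat_lit 120) (nat_lit 124)) (PT.lf (nat_lit 3192) (nat_lit 6) (nat_lit 42) (nat_lit 5) (nat_lit 117) (nat_lit 120) (nat_lit 123))))) (PT.nd (nat_lit 312) (PT.nd (nat_lit 156) (PT.nd (nat_lit 78) (PT.lf (nat_lit 3420) (nat_lit 6) (nat_lit 45) (nat_lit 5) (nat_lit 118) (nat_lit 120) (nat_lit 122)) (PT.lf (nat_lit 3572) (nat_lit 6) (nat_lit 47) (nat_lit 5) (nat_lit 119) (nat_lit 120) (nat_lit 121))) (PT.nd (nat_lit 78) (PT.lf (nat_lit 3648) (nat_lit 1) (nat_lit 48) (nat_lit 0) (nat_lit 120) (nat_lit 120) (nat_lit 120)) (PT.lf (nat_lit 3572) (nat_lit 6) (nat_lit 47) (nat_lit 0) (nat_lit 121) (nat_lit 120) (nat_lit 119)))) (PT.nd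 (nat_lit 156) (PT.nd (nat_lit 78) (PT.lf (nat_lit 3420) (nat_lit 6) (nat_lit 45) (nat_lit 0) (nat_lit 122) (nat_lit 120) (nat_lit 118)) (PT.lf (nat_lit 3192) (nat_lit 6) (nat_lit 42) (nat_lit 0) (nat_lit 123) (nat_lit 120) (nat_lit 117))) (PT.nd (nat_lit 78) (PT.lf (nat_lit 2888) (nat_lit 6) (nat_lit 38) (nat_lit 0) (nat_lit 124) (nat_lit 120) (nat_lit 116)) (PT.lf (nat_lit 2508) (nat_lit 6) (nat_lit 33) (nat_lit 0) (nat_lit 125) (nat_lit 120) (nat_lit 115)))))) (PT.nd (nat_lit 37050) (PT.nd (nat_lit 36738) (PT.nd (nat_lit 36582) (PT.nd (nat_lit 36504) (PT.lf (nat_lit 2052) (nat_lit 6) (nat_lit 27) (nat_lit 0) (nat_lit 126) (nat_lit 120) (nat_lit 114)) (PT.lf (nat_lit 1672) (nat_lit 6) (nat_lit 22) (nat_lit 5) (nat_lit 113) (nat_lit 121) (nat_lit 126))) (PT.nd (nat_lit 78) (PT.lf (nat_lit 2128) (nat_lit 6) (nat_lit 28) (nat_lit 5) (nat_lit 114) (nat_lit 121) (nat_lit 125)) (PT.lf (nat_lit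 2584) (nat_lit 6) (nat_lit 34) (nat_lit 5) (nat_lit 115) (nat_lit 121) (nat_lit 124)))) (PT.nd (nat_lit 156) (PT.nd (nat_lit 78) (PT.lf (nat_lit 2964) (nat_lit 6) (nat_lit 39) (nat_lit 5) (nat_lit 116) (nat_lit 121) (nat_lit 123)) (PT.lf (nat_lit 3268) (nat_lit 6) (nat_lit 43) (nat_lit 5) (nat_lit 117) (nat_lit 121) (nat_lit 122))) (PT.nd (nat_lit 78) (PT.lf (nat_lit 3496) (nat_lit 3) (nat_lit 46) (nat_lit 4) (nat_lit 118) (nat_lit 121) (nat_lit 121)) (PT.lf (nat_lit 3572) (nat_lit 6) (nat_lit 47) (nat_lit 4) (nat_lit 119) (nat_lit 121) (nat_lit 120))))) (PT.nd (nat_lit 312) (PT.nd (nat_lit 156) (PT.nd (nat_lit 78) (PT.lf (nat_lit 3572) (nat_lit 6) (nat_lit 47) (nat_lit 2) (nat_lit 120) (nat_lit 121) (nat_lit 119)) (PT.lf (nat_lit 3496) (nat_lit 3) (nat_lit 46) (nat_lit 0) (nat_lit 121) (nat_lit 121) (nat_lit 118))) (PT.nd (nat_lit 78) (PT.lf (nat_lit 3268) (nat_lit 6) (nat_lit 43)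 (nat_lit 0) (nat_lit 122) (nat_lit 121) (nat_lit 117)) (PT.lf (nat_lit 2964) (nat_lit 6) (nat_lit 39) (nat_lit 0) (nat_lit 123) (nat_lit 121) (nat_lit 116)))) (PT.nd (nat_lit 156) (PT.nd (nat_lit 78) (PT.lf (nat_lit 2584) (nat_lit 6) (nat_lit 34) (nat_lit 0) (nat_lit 124) (nat_lit 121) (nat_lit 115)) (PT.lf (nat_lit 2128) (nat_lit 6) (nat_lit 28) (nat_lit 0) (nat_lit 125) (nat_lit 121) (nat_lit 114))) (PT.nd (nat_lit 36426) (PT.lf (nat_lit 1672) (nat_lit 6) (nat_lit 22) (nat_lit 0) (nat_lit 126) (nat_lit 121) (nat_lit 113)) (PT.lf (nat_lit 1444) (nat_lit 6) (nat_lit 19) (nat_lit 5) (nat_lit 112) (nat_lit 122) (nat_lit 126))))))))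
noncomputable def pc2 : PT := (PT.nd (nat_lit 38610) (PT.nd (nat_lit 37362) (PT.nd (nat_lit 546) (PT.nd (nat_lit 234) (PT.nd (nat_lit 78) (PT.lf (nat_lit 1748) (nat_lit 6) (nat_lit 23) (nat_lit 5) (nat_lit 113) (nat_lit 122) (nat_lit 125)) (PT.nd (nat_lit 78) (PT.lf (nat_lit 2204) (nat_lit 6) (nat_lit 29) (nat_lit 5) (nat_lit 114) (nat_lit 122) (nat_lit 124)) (PT.lf (nat_lit 2660) (nat_lit 6) (nat_lit 35) (nat_lit 5) (nat_lit 115) (nat_lit 122) (nat_lit 123)))) (PT.nd (nat_lit 156) (PT.nd (nat_lit 78) (PT.lf (nat_lit 3040) (nat_lit 3) (nat_lit 40) (nat_lit 4) (nat_lit 116) (nat_lit 122) (nat_lit 122)) (PT.lf (nat_lit 3268) (nat_lit 6) (nat_lit 43) (nat_lit 4) (nat_lit 117) (nat_lit 122) (nat_lit 121))) (PT.nd (nat_lit 78) (PT.lf (nat_lit 3420) (nat_lit 6) (nat_lit 45) (nat_lit 4) (nat_lit 118) (nat_lit 122) (nat_lit 120)) (PT.lf (nat_lit 3344) (nat_lit 3) (nat_lit 44) (nat_lit 2) (nat_lit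 119) (nat_lit 122) (nat_lit 119))))) (PT.nd (nat_lit 312) (PT.nd (nat_lit 156) (PT.nd (nat_lit 78) (PT.lf (nat_lit 3420) (nat_lit 6) (nat_lit 45) (nat_lit 2) (nat_lit 120) (nat_lit 122) (nat_lit 118)) (PT.lf (nat_lit 3268) (nat_lit 6) (nat_lit 43) (nat_lit 2) (nat_lit 121) (nat_lit 122) (nat_lit 117))) (PT.nd (nat_lit 78) (PT.lf (nat_lit 3040) (nat_lit 3) (nat_lit 40) (nat_lit 0) (nat_lit 122) (nat_lit 122) (nat_lit 116)) (PT.lf (nat_lit 2660) (nat_lit 6) (nat_lit 35) (nat_lit 0) (nat_lit 123) (nat_lit 122) (nat_lit 115)))) (PT.nd (nat_lit 156) (PT.nd (nat_lit 78) (PT.lf (nat_lit 2204) (nat_lit 6) (nat_lit 29) (nat_lit 0) (nat_lit 124) (nat_lit 122) (nat_lit 114)) (PT.lf (nat_lit 1748) (nat_lit 6) (nat_lit 23) (nat_lit 0) (nat_lit 125) (nat_lit 122) (nat_lit 113))) (PT.nd (nat_lit 36270) (PT.lf (nat_lit 1444) (nat_lit 6) (nat_lit 19) (nat_lit 0) (nat_lit 126) (nat_lit 122) (nat_lit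 112)) (PT.lf (nat_lit 1064) (nat_lit 6) (nat_lit 14) (nat_lit 5) (nat_lit 110) (nat_lit 123) (nat_lit 127)))))) (PT.nd (nat_lit 624) (PT.nd (nat_lit 312) (PT.nd (nat_lit 156) (PT.nd (nat_lit 78) (PT.lf (nat_lit 1292) (nat_lit 6) (nat_lit 17) (nat_lit 5) (nat_lit 111) (nat_lit 123) (nat_lit 126)) (PT.lf (nat_lit 1520) (nat_lit 6) (nat_lit 20) (nat_lit 5) (nat_lit 112) (nat_lit 123) (nat_lit 125))) (PT.nd (nat_lit 78) (PT.lf (nat_lit 1824) (nat_lit 6) (nat_lit 24) (nat_lit 5) (nat_lit 113) (nat_lit 123) (nat_lit 124)) (PT.lf (nat_lit 2280) (nat_lit 3) (nat_lit 30) (nat_lit 4) (nat_lit 114) (nat_lit 123) (nat_lit 123)))) (PT.nd (nat_lit 156) (PT.nd (nat_lit 78) (PT.lf (nat_lit 2660) (nat_lit 6) (nat_lit 35) (nat_lit 4) (nat_lit 115) (nat_lit 123) (nat_lit 122)) (PT.lf (nat_lit 2964) (nat_lit 6) (nat_lit 39) (nat_lit 4) (nat_lit 116) (nat_lit 123) (nat_lit 121))) (PT.nd (nat_lit 78) (PT.lf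 (nat_lit 3192) (nat_lit 6) (nat_lit 42) (nat_lit 4) (nat_lit 117) (nat_lit 123) (nat_lit 120)) (PT.lf (nat_lit 3116) (nat_lit 6) (nat_lit 41) (nat_lit 4) (nat_lit 118) (nat_lit 123) (nat_lit 119))))) (PT.nd (nat_lit 312) (PT.nd (nat_lit 156) (PT.nd (nat_lit 78) (PT.lf (nat_lit 3116) (nat_lit 6) (nat_lit 41) (nat_lit 2) (nat_lit 119) (nat_lit 123) (nat_lit 118)) (PT.lf (nat_lit 3192) (nat_lit 6) (nat_lit 42) (nat_lit 2) (nat_lit 120) (nat_lit 123) (nat_lit 117))) (PT.nd (nat_lit 78) (PT.lf (nat_lit 2964) (nat_lit 6) (nat_lit 39) (nat_lit 2) (nat_lit 121) (nat_lit 123) (nat_lit 116)) (PT.lf (nat_lit 2660) (nat_lit 6) (nat_lit 35) (nat_lit 2) (nat_lit 122) (nat_lit 123) (nat_lit 115)))) (PT.nd (nat_lit 156) (PT.nd (nat_lit 78) (PT.lf (nat_lit 2280) (nat_lit 3) (nat_lit 30) (nat_lit 0) (nat_lit 123) (nat_lit 123) (nat_lit 114)) (PT.lf (nat_lit 1824) (nat_lit 6) (nat_lit 24) (nat_lit 0)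 (nat_lit 124) (nat_lit 123) (nat_lit 113))) (PT.nd (nat_lit 78) (PT.lf (nat_lit 1520) (nat_lit 6) (nat_lit 20) (nat_lit 0) (nat_lit 125) (nat_lit 123) (nat_lit 112)) (PT.lf (nat_lit 1292) (nat_lit 6) (nat_lit 17) (nat_lit 0) (nat_lit 126) (nat_lit 123) (nat_lit 111))))))) (PT.nd (nat_lit 37206) (PT.nd (nat_lit 36582) (PT.nd (nat_lit 36270) (PT.nd (nat_lit 36114) (PT.lf (nat_lit 1064) (nat_lit 6) (nat_lit 14) (nat_lit 0) (nat_lit 127) (nat_lit 123) (nat_lit 110)) (PT.nd (nat_lit 78) (PT.lf (nat_lit 912) (nat_lit 6) (nat_lit 12) (nat_lit 5) (nat_lit 109) (nat_lit 124) (nat_lit 127)) (PT.lf (nat_lit 1140) (nat_lit 6) (nat_lit 15) (nat_lit 5) (nat_lit 110) (nat_lit 124) (nat_lit 126)))) (PT.nd (nat_lit 156) (PT.nd (nat_lit 78) (PT.lf (nat_lit 1368) (nat_lit 6) (nat_lit 18) (nat_lit 5) (nat_lit 111) (nat_lit 124) (nat_lit 125)) (PT.lf (nat_lit 1596) (nat_lit 3) (nat_lit 21) (nat_lit 4) (nat_lit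 112) (nat_lit 124) (nat_lit 124))) (PT.nd (nat_lit 78) (PT.lf (nat_lit 1824) (nat_lit 6) (nat_lit 24) (nat_lit 4) (nat_lit 113) (nat_lit 124) (nat_lit 123)) (PT.lf (nat_lit 2204) (nat_lit 6) (nat_lit 29) (nat_lit 4) (nat_lit 114) (nat_lit 124) (nat_lit 122))))) (PT.nd (nat_lit 312) (PT.nd (nat_lit 156) (PT.nd (nat_lit 78) (PT.lf (nat_lit 2584) (nat_lit 6) (nat_lit 34) (nat_lit 4) (nat_lit 115) (nat_lit 124) (nat_lit 121)) (PT.lf (nat_lit 2888) (nat_lit 6) (nat_lit 38) (nat_lit 4) (nat_lit 116) (nat_lit 124) (nat_lit 120))) (PT.nd (nat_lit 78) (PT.lf (nat_lit 2812) (nat_lit 6) (nat_lit 37) (nat_lit 4) (nat_lit 117) (nat_lit 124) (nat_lit 119)) (PT.lf (nat_lit 2736) (nat_lit 3) (nat_lit 36) (nat_lit 2) (nat_lit 118) (nat_lit 124) (nat_lit 118)))) (PT.nd (nat_lit 156) (PT.nd (nat_lit 78) (PT.lf (nat_lit 2812) (nat_lit 6) (nat_lit 37) (nat_lit 2) (nat_lit 119) (nat_lit 124) (nat_lit 117))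 (PT.lf (nat_lit 2888) (nat_lit 6) (nat_lit 38) (nat_lit 2) (nat_lit 120) (nat_lit 124) (nat_lit 116))) (PT.nd (nat_lit 78) (PT.lf (nat_lit 2584) (nat_lit 6) (nat_lit 34) (nat_lit 2) (nat_lit 121) (nat_lit 124) (nat_lit 115)) (PT.lf (nat_lit 2204) (nat_lit 6) (nat_lit 29) (nat_lit 2) (nat_lit 122) (nat_lit 124) (nat_lit 114)))))) (PT.nd (nat_lit 36504) (PT.nd (nat_lit 312) (PT.nd (nat_lit 156) (PT.nd (nat_lit 78) (PT.lf (nat_lit 1824) (nat_lit 6) (nat_lit 24) (nat_lit 2) (nat_lit 123) (nat_lit 124) (nat_lit 113)) (PT.lf (nat_lit 1596) (nat_lit 3) (nat_lit 21) (nat_lit 0) (nat_lit 124) (nat_lit 124) (nat_lit 112))) (PT.nd (nat_lit 78) (PT.lf (nat_lit 1368) (nat_lit 6) (nat_lit 18) (nat_lit 0) (nat_lit 125) (nat_lit 124) (nat_lit 111)) (PT.lf (nat_lit 1140) (nat_lit 6) (nat_lit 15) (nat_lit 0) (nat_lit 126) (nat_lit 124) (nat_lit 110)))) (PT.nd (nat_lit 36036) (PT.nd (nat_lit 35958) (PT.lf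 (nat_lit 912) (nat_lit 6) (nat_lit 12) (nat_lit 0) (nat_lit 127) (nat_lit 124) (nat_lit 109)) (PT.lf (nat_lit 608) (nat_lit 6) (nat_lit 8) (nat_lit 5) (nat_lit 107) (nat_lit 125) (nat_lit 128))) (PT.nd (nat_lit 78) (PT.lf (nat_lit 760) (nat_lit 6) (nat_lit 10) (nat_lit 5) (nat_lit 108) (nat_lit 125) (nat_lit 127)) (PT.lf (nat_lit 988) (nat_lit 6) (nat_lit 13) (nat_lit 5) (nat_lit 109) (nat_lit 125) (nat_lit 126))))) (PT.nd (nat_lit 312) (PT.nd (nat_lit 156) (PT.nd (nat_lit 78) (PT.lf (nat_lit 1216) (nat_lit 3) (nat_lit 16) (nat_lit 4) (nat_lit 110) (nat_lit 125) (nat_lit 125)) (PT.lf (nat_lit 1368) (nat_lit 6) (nat_lit 18) (nat_lit 4) (nat_lit 111) (nat_lit 125) (nat_lit 124))) (PT.nd (nat_lit 78) (PT.lf (nat_lit 1520) (nat_lit 6) (nat_lit 20) (nat_lit 4) (nat_lit 112) (nat_lit 125) (nat_lit 123)) (PT.lf (nat_lit 1748) (nat_lit 6) (nat_lit 23) (nat_lit 4) (nat_lit 113) (nat_lit 125)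 (nat_lit 122)))) (PT.nd (nat_lit 156) (PT.nd (nat_lit 78) (PT.lf (nat_lit 2128) (nat_lit 6) (nat_lit 28) (nat_lit 4) (nat_lit 114) (nat_lit 125) (nat_lit 121)) (PT.lf (nat_lit 2508) (nat_lit 6) (nat_lit 33) (nat_lit 4) (nat_lit 115) (nat_lit 125) (nat_lit 120))) (PT.nd (nat_lit 78) (PT.lf (nat_lit 2432) (nat_lit 6) (nat_lit 32) (nat_lit 4) (nat_lit 116) (nat_lit 125) (nat_lit 119)) (PT.lf (nat_lit 2356) (nat_lit 6) (nat_lit 31) (nat_lit 4) (nat_lit 117) (nat_lit 125) (nat_lit 118))))))))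
noncomputable def pc3 : PT := (PT.nd (nat_lit 38220) (PT.nd (nat_lit 36894) (PT.nd (nat_lit 546) (PT.nd (nat_lit 234) (PT.nd (nat_lit 78) (PT.lf (nat_lit 2356) (nat_lit 6) (nat_lit 31) (nat_lit 2) (nat_lit 118) (nat_lit 125) (nat_lit 117)) (PT.nd (nat_lit 78) (PT.lf (nat_lit 2432) (nat_lit 6) (nat_lit 32) (nat_lit 2) (nat_lit 119) (nat_lit 125) (nat_lit 116)) (PT.lf (nat_lit 2508) (nat_lit 6) (nat_lit 33) (nat_lit 2) (nat_lit 120) (nat_lit 125) (nat_lit 115)))) (PT.nd (nat_lit 156) (PT.nd (nat_lit 78) (PT.lf (nat_lit 2128) (nat_lit 6) (nat_lit 28) (nat_lit 2) (nat_lit 121) (nat_lit 125) (nat_lit 114)) (PT.lf (nat_lit 1748) (nat_lit 6) (nat_lit 23) (nat_lit 2) (nat_lit 122) (nat_lit 125) (nat_lit 113))) (PT.nd (nat_lit 78) (PT.lf (nat_lit 1520) (nat_lit 6) (nat_lit 20) (nat_lit 2) (nat_lit 123) (nat_lit 125) (nat_lit 112)) (PT.lf (nat_lit 1368) (nat_lit 6) (nat_lit 18) (nat_lit 2) (nat_lit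 124) (nat_lit 125) (nat_lit 111))))) (PT.nd (nat_lit 36036) (PT.nd (nat_lit 156) (PT.nd (nat_lit 78) (PT.lf (nat_lit 1216) (nat_lit 3) (nat_lit 16) (nat_lit 0) (nat_lit 125) (nat_lit 125) (nat_lit 110)) (PT.lf (nat_lit 988) (nat_lit 6) (nat_lit 13) (nat_lit 0) (nat_lit 126) (nat_lit 125) (nat_lit 109))) (PT.nd (nat_lit 78) (PT.lf (nat_lit 760) (nat_lit 6) (nat_lit 10) (nat_lit 0) (nat_lit 127) (nat_lit 125) (nat_lit 108)) (PT.lf (nat_lit 608) (nat_lit 6) (nat_lit 8) (nat_lit 0) (nat_lit 128) (nat_lit 125) (nat_lit 107)))) (PT.nd (nat_lit 156) (PT.nd (nat_lit 78) (PT.lf (nat_lit 456) (nat_lit 6) (nat_lit 6) (nat_lit 5) (nat_lit 106) (nat_lit 126) (nat_lit 128)) (PT.lf (nat_lit 684) (nat_lit 6) (nat_lit 9) (nat_lit 5) (nat_lit 107) (nat_lit 126) (nat_lit 127))) (PT.nd (nat_lit 78) (PT.lf (nat_lit 836) (nat_lit 3) (nat_lit 11) (nat_lit 4) (nat_lit 108) (nat_lit 126) (nat_lit 126)) (PT.lf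 (nat_lit 988) (nat_lit 6) (nat_lit 13) (nat_lit 4) (nat_lit 109) (nat_lit 126) (nat_lit 125)))))) (PT.nd (nat_lit 702) (PT.nd (nat_lit 312) (PT.nd (nat_lit 156) (PT.nd (nat_lit 78) (PT.lf (nat_lit 1140) (nat_lit 6) (nat_lit 15) (nat_lit 4) (nat_lit 110) (nat_lit 126) (nat_lit 124)) (PT.lf (nat_lit 1292) (nat_lit 6) (nat_lit 17) (nat_lit 4) (nat_lit 111) (nat_lit 126) (nat_lit 123))) (PT.nd (nat_lit 78) (PT.lf (nat_lit 1444) (nat_lit 6) (nat_lit 19) (nat_lit 4) (nat_lit 112) (nat_lit 126) (nat_lit 122)) (PT.lf (nat_lit 1672) (nat_lit 6) (nat_lit 22) (nat_lit 4) (nat_lit 113) (nat_lit 126) (nat_lit 121)))) (PT.nd (nat_lit 156) (PT.nd (nat_lit 78) (PT.lf (nat_lit 2052) (nat_lit 6) (nat_lit 27) (nat_lit 4) (nat_lit 114) (nat_lit 126) (nat_lit 120)) (PT.lf (nat_lit 1976) (nat_lit 6) (nat_lit 26) (nat_lit 4) (nat_lit 115) (nat_lit 126) (nat_lit 119))) (PT.nd (nat_lit 156) (PT.lf (nat_lit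 1900) (nat_lit 6) (nat_lit 25) (nat_lit 4) (nat_lit 116) (nat_lit 126) (nat_lit 118)) (PT.lf (nat_lit 1900) (nat_lit 6) (nat_lit 25) (nat_lit 2) (nat_lit 118) (nat_lit 126) (nat_lit 116))))) (PT.nd (nat_lit 312) (PT.nd (nat_lit 156) (PT.nd (nat_lit 78) (PT.lf (nat_lit 1976) (nat_lit 6) (nat_lit 26) (nat_lit 2) (nat_lit 119) (nat_lit 126) (nat_lit 115)) (PT.lf (nat_lit 2052) (nat_lit 6) (nat_lit 27) (nat_lit 2) (nat_lit 120) (nat_lit 126) (nat_lit 114))) (PT.nd (nat_lit 78) (PT.lf (nat_lit 1672) (nat_lit 6) (nat_lit 22) (nat_lit 2) (nat_lit 121) (nat_lit 126) (nat_lit 113)) (PT.lf (nat_lit 1444) (nat_lit 6) (nat_lit 19) (nat_lit 2) (nat_lit 122) (nat_lit 126) (nat_lit 112)))) (PT.nd (nat_lit 156) (PT.nd (nat_lit 78) (PT.lf (nat_lit 1292) (nat_lit 6) (nat_lit 17) (nat_lit 2) (nat_lit 123) (nat_lit 126) (nat_lit 111)) (PT.lf (nat_lit 1140) (nat_lit 6) (nat_lit 15) (nat_lit 2) (nat_lit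 124) (nat_lit 126) (nat_lit 110))) (PT.nd (nat_lit 78) (PT.lf (nat_lit 988) (nat_lit 6) (nat_lit 13) (nat_lit 2) (nat_lit 125) (nat_lit 126) (nat_lit 109)) (PT.lf (nat_lit 836) (nat_lit 3) (nat_lit 11) (nat_lit 0) (nat_lit 126) (nat_lit 126) (nat_lit 108))))))) (PT.nd (nat_lit 73164) (PT.nd (nat_lit 36192) (PT.nd (nat_lit 35880) (PT.nd (nat_lit 35724) (PT.nd (nat_lit 78) (PT.lf (nat_lit 684) (nat_lit 6) (nat_lit 9) (nat_lit 0) (nat_lit 127) (nat_lit 126) (nat_lit 107)) (PT.lf (nat_lit 456) (nat_lit 6) (nat_lit 6) (nat_lit 0) (nat_lit 128) (nat_lit 126) (nat_lit 106))) (PT.nd (nat_lit 78) (PT.lf (nat_lit 228) (nat_lit 6) (nat_lit 3) (nat_lit 5) (nat_lit 104) (nat_lit 127) (nat_lit 129)) (PT.lf (nat_lit 380) (nat_lit 6) (nat_lit 5) (nat_lit 5) (nat_lit 105) (nat_lit 127) (nat_lit 128)))) (PT.nd (nat_lit 156) (PT.nd (nat_lit 78) (PT.lf (nat_lit 532) (nat_lit 3) (nat_lit 7) (nat_lit 4)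 (nat_lit 106) (nat_lit 127) (nat_lit 127)) (PT.lf (nat_lit 684) (nat_lit 6) (nat_lit 9) (nat_lit 4) (nat_lit 107) (nat_lit 127) (nat_lit 126))) (PT.nd (nat_lit 78) (PT.lf (nat_lit 760) (nat_lit 6) (nat_lit 10) (nat_lit 4) (nat_lit 108) (nat_lit 127) (nat_lit 125)) (PT.lf (nat_lit 912) (nat_lit 6) (nat_lit 12) (nat_lit 4) (nat_lit 109) (nat_lit 127) (nat_lit 124))))) (PT.nd (nat_lit 1248) (PT.nd (nat_lit 1092) (PT.nd (nat_lit 1014) (PT.lf (nat_lit 1064) (nat_lit 6) (nat_lit 14) (nat_lit 4) (nat_lit 110) (nat_lit 127) (nat_lit 123)) (PT.lf (nat_lit 1064) (nat_lit 6) (nat_lit 14) (nat_lit 2) (nat_lit 123) (nat_lit 127) (nat_lit 110))) (PT.nd (nat_lit 78) (PT.lf (nat_lit 912) (nat_lit 6) (nat_lit 12) (nat_lit 2) (nat_lit 124) (nat_lit 127) (nat_lit 109)) (PT.lf (nat_lit 760) (nat_lit 6) (nat_lit 10) (nat_lit 2) (nat_lit 125) (nat_lit 127) (nat_lit 108)))) (PT.nd (nat_lit 156) (PT.nd (nat_lit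 78) (PT.lf (nat_lit 684) (nat_lit 6) (nat_lit 9) (nat_lit 2) (nat_lit 126) (nat_lit 127) (nat_lit 107)) (PT.lf (nat_lit 532) (nat_lit 3) (nat_lit 7) (nat_lit 0) (nat_lit 127) (nat_lit 127) (nat_lit 106))) (PT.nd (nat_lit 78) (PT.lf (nat_lit 380) (nat_lit 6) (nat_lit 5) (nat_lit 0) (nat_lit 128) (nat_lit 127) (nat_lit 105)) (PT.lf (nat_lit 228) (nat_lit 6) (nat_lit 3) (nat_lit 0) (nat_lit 129) (nat_lit 127) (nat_lit 104)))))) (PT.nd (nat_lit 1950) (PT.nd (nat_lit 312) (PT.nd (nat_lit 156) (PT.nd (nat_lit 78) (PT.lf (nat_lit 152) (nat_lit 6) (nat_lit 2) (nat_lit 5) (nat_lit 103) (nat_lit 128) (nat_lit 129)) (PT.lf (nat_lit 304) (nat_lit 3) (nat_lit 4) (nat_lit 4) (nat_lit 104) (nat_lit 128) (nat_lit 128))) (PT.nd (nat_lit 78) (PT.lf (nat_lit 380) (nat_lit 6) (nat_lit 5) (nat_lit 4) (nat_lit 105) (nat_lit 128) (nat_lit 127)) (PT.lf (nat_lit 456) (nat_lit 6) (nat_lit 6) (nat_lit 4) (nat_lit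 106) (nat_lit 128) (nat_lit 126)))) (PT.nd (nat_lit 1482) (PT.nd (nat_lit 1404) (PT.lf (nat_lit 608) (nat_lit 6) (nat_lit 8) (nat_lit 4) (nat_lit 107) (nat_lit 128) (nat_lit 125)) (PT.lf (nat_lit 608) (nat_lit 6) (nat_lit 8) (nat_lit 2) (nat_lit 125) (nat_lit 128) (nat_lit 107))) (PT.nd (nat_lit 78) (PT.lf (nat_lit 456) (nat_lit 6) (nat_lit 6) (nat_lit 2) (nat_lit 126) (nat_lit 128) (nat_lit 106)) (PT.lf (nat_lit 380) (nat_lit 6) (nat_lit 5) (nat_lit 2) (nat_lit 127) (nat_lit 128) (nat_lit 105))))) (PT.nd (nat_lit 35646) (PT.nd (nat_lit 35490) (PT.nd (nat_lit 78) (PT.lf (nat_lit 304) (nat_lit 3) (nat_lit 4) (nat_lit 0) (nat_lit 128) (nat_lit 128) (nat_lit 104)) (PT.lf (nat_lit 152) (nat_lit 6) (nat_lit 2) (nat_lit 0) (nat_lit 129) (nat_lit 128) (nat_lit 103))) (PT.nd (nat_lit 78) (PT.lf (nat_lit 76) (nat_lit 3) (nat_lit 1) (nat_lit 4) (nat_lit 102) (nat_lit 129) (nat_lit 129)) (PT.lf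 (nat_lit 152) (nat_lit 6) (nat_lit 2) (nat_lit 4) (nat_lit 103) (nat_lit 129) (nat_lit 128)))) (PT.nd (nat_lit 1872) (PT.nd (nat_lit 1794) (PT.lf (nat_lit 228) (nat_lit 6) (nat_lit 3) (nat_lit 4) (nat_lit 104) (nat_lit 129) (nat_lit 127)) (PT.lf (nat_lit 228) (nat_lit 6) (nat_lit 3) (nat_lit 2) (nat_lit 127) (nat_lit 129) (nat_lit 104))) (PT.nd (nat_lit 78) (PT.lf (nat_lit 152) (nat_lit 6) (nat_lit 2) (nat_lit 2) (nat_lit 128) (nat_lit 129) (nat_lit 103)) (PT.lf (nat_lit 76) (nat_lit 3) (nat_lit 1) (nat_lit 0) (nat_lit 129) (nat_lit 129) (nat_lit 102))))))))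
noncomputable def xc0 : XT := (XT.nd (nat_lit 112398) (nat_lit 0) (nat_lit 0) (XT.nd (nat_lit 74880) (nat_lit 0) (nat_lit 0) (XT.nd (nat_lit 37518) (nat_lit 0) (nat_lit 0) (XT.nd (nat_lit 37362) (nat_lit 0) (nat_lit 0) (XT.nd (nat_lit 78) (nat_lit 0) (nat_lit 0) (XT.lf (nat_lit 0) (nat_lit 19269514341) (nat_lit 152) (nat_lit 321422522178) (nat_lit 0) (nat_lit 19269514341) (nat_lit 1) (nat_lit 5) (nat_lit 3) (nat_lit 4) (nat_lit 1) (nat_lit 4) (nat_lit 320) (nat_lit 200) (nat_lit 200)) (XT.lf (nat_lit 0) (nat_lit 42484256676) (nat_lit 152) (nat_lit 692589291741) (nat_lit 0) (nat_lit 42393279847) (nat_lit 1) (nat_lit 5) (nat_lit 3) (nat_lit 4) (nat_lit 1) (nat_lit 4) (nat_lit 321) (nat_lit 200) (nat_lit 199))) (XT.nd (nat_lit 78) (nat_lit 0) (nat_lit 0) (XT.lf (nat_lit 0) (nat_lit 15743701722) (nat_lit 152) (nat_lit 277169285711) (nat_lit 0) (nat_lit 15743701722) (nat_lit 1) (nat_lit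 5) (nat_lit 3) (nat_lit 4) (nat_lit 1) (nat_lit 4) (nat_lit 318) (nat_lit 201) (nat_lit 201)) (XT.lf (nat_lit 0) (nat_lit 34937469875) (nat_lit 152) (nat_lit 596867632477) (nat_lit 0) (nat_lit 34839214899) (nat_lit 1) (nat_lit 5) (nat_lit 3) (nat_lit 4) (nat_lit 1) (nat_lit 4) (nat_lit 319) (nat_lit 201) (nat_lit 200)))) (XT.nd (nat_lit 37206) (nat_lit 0) (nat_lit 0) (XT.nd (nat_lit 78) (nat_lit 0) (nat_lit 0) (XT.lf (nat_lit 0) (nat_lit 38612970729) (nat_lit 152) (nat_lit 642887660969) (nat_lit 0) (nat_lit 38423738924) (nat_lit 1) (nat_lit 5) (nat_lit 3) (nat_lit 4) (nat_lit 1) (nat_lit 4) (nat_lit 320) (nat_lit 201) (nat_lit 199)) (XT.lf (nat_lit 0) (nat_lit 42535686753) (nat_lit 152) (nat_lit 692671368178) (nat_lit 0) (nat_lit 42262217142) (nat_lit 1) (nat_lit 5) (nat_lit 3) (nat_lit 4) (nat_lit 1) (nat_lit 4) (nat_lit 321) (nat_lit 201) (nat_lit 198))) (XT.nd (nat_lit 78) (nat_lit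 0) (nat_lit 0) (XT.lf (nat_lit 0) (nat_lit 12658741612) (nat_lit 152) (nat_lit 239357370541) (nat_lit 0) (nat_lit 12658741612) (nat_lit 1) (nat_lit 5) (nat_lit 3) (nat_lit 4) (nat_lit 1) (nat_lit 4) (nat_lit 316) (nat_lit 202) (nat_lit 202)) (XT.lf (nat_lit 0) (nat_lit 28348441972) (nat_lit 152) (nat_lit 515048453738) (nat_lit 0) (nat_lit 28242326598) (nat_lit 1) (nat_lit 5) (nat_lit 3) (nat_lit 4) (nat_lit 1) (nat_lit 4) (nat_lit 317) (nat_lit 202) (nat_lit 201))))) (XT.nd (nat_lit 37206) (nat_lit 0) (nat_lit 0) (XT.nd (nat_lit 156) (nat_lit 0) (nat_lit 0) (XT.nd (nat_lit 78) (nat_lit 0) (nat_lit 0) (XT.lf (nat_lit 0) (nat_lit 31567260855) (nat_lit 152) (nat_lit 554384597363) (nat_lit 0) (nat_lit 31362890505) (nat_lit 1) (nat_lit 5) (nat_lit 3) (nat_lit 4) (nat_lit 1) (nat_lit 4) (nat_lit 318) (nat_lit 202) (nat_lit 200)) (XT.lf (nat_lit 0) (nat_lit 34993014358) (nat_lit 152) (nat_lit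 596956275030) (nat_lit 0) (nat_lit 34697667178) (nat_lit 1) (nat_lit 5) (nat_lit 3) (nat_lit 4) (nat_lit 1) (nat_lit 4) (nat_lit 319) (nat_lit 202) (nat_lit 199))) (XT.nd (nat_lit 78) (nat_lit 0) (nat_lit 0) (XT.lf (nat_lit 0) (nat_lit 38646003241) (nat_lit 152) (nat_lit 643015763347) (nat_lit 0) (nat_lit 38266418257) (nat_lit 1) (nat_lit 5) (nat_lit 3) (nat_lit 4) (nat_lit 1) (nat_lit 4) (nat_lit 320) (nat_lit 202) (nat_lit 198)) (XT.lf (nat_lit 0) (nat_lit 42547874847) (nat_lit 152) (nat_lit 692836007432) (nat_lit 0) (nat_lit 42090291895) (nat_lit 1) (nat_lit 5) (nat_lit 3) (nat_lit 4) (nat_lit 1) (nat_lit 4) (nat_lit 321) (nat_lit 202) (nat_lit 197)))) (XT.nd (nat_lit 156) (nat_lit 0) (nat_lit 0) (XT.nd (nat_lit 78) (nat_lit 0) (nat_lit 0) (XT.lf (nat_lit 0) (nat_lit 9946769948) (nat_lit 152) (nat_lit 207078098365) (nat_lit 0) (nat_lit 9946769948) (nat_lit 1) (nat_lit 5) (nat_lit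 3) (nat_lit 4) (nat_lit 1) (nat_lit 4) (nat_lit 314) (nat_lit 203) (nat_lit 203)) (XT.lf (nat_lit 0) (nat_lit 22571027983) (nat_lit 152) (nat_lit 445168148507) (nat_lit 0) (nat_lit 22456423379) (nat_lit 1) (nat_lit 5) (nat_lit 3) (nat_lit 4) (nat_lit 1) (nat_lit 4) (nat_lit 315) (nat_lit 203) (nat_lit 202))) (XT.nd (nat_lit 78) (nat_lit 0) (nat_lit 0) (XT.lf (nat_lit 0) (nat_lit 25403729230) (nat_lit 152) (nat_lit 478764449099) (nat_lit 0) (nat_lit 25183009252) (nat_lit 1) (nat_lit 5) (nat_lit 3) (nat_lit 4) (nat_lit 1) (nat_lit 4) (nat_lit 316) (nat_lit 203) (nat_lit 201)) (XT.lf (nat_lit 0) (nat_lit 28408430013) (nat_lit 152) (nat_lit 515144187695) (nat_lit 0) (nat_lit 28089455059) (nat_lit 1) (nat_lit 5) (nat_lit 3) (nat_lit 4) (nat_lit 1) (nat_lit 4) (nat_lit 317) (nat_lit 203) (nat_lit 200)))))) (XT.nd (nat_lit 37362) (nat_lit 0) (nat_lit 0) (XT.nd (nat_lit 37050) (nat_lit 0) (nat_lit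 0) (XT.nd (nat_lit 156) (nat_lit 0) (nat_lit 0) (XT.nd (nat_lit 78) (nat_lit 0) (nat_lit 0) (XT.lf (nat_lit 0) (nat_lit 31602935968) (nat_lit 152) (nat_lit 554522947931) (nat_lit 0) (nat_lit 31192984185) (nat_lit 1) (nat_lit 5) (nat_lit 3) (nat_lit 4) (nat_lit 1) (nat_lit 4) (nat_lit 318) (nat_lit 203) (nat_lit 199)) (XT.lf (nat_lit 0) (nat_lit 35006177500) (nat_lit 152) (nat_lit 597134085424) (nat_lit 0) (nat_lit 34511987911) (nat_lit 1) (nat_lit 5) (nat_lit 3) (nat_lit 4) (nat_lit 1) (nat_lit 4) (nat_lit 319) (nat_lit 203) (nat_lit 198))) (XT.nd (nat_lit 78) (nat_lit 0) (nat_lit 0) (XT.lf (nat_lit 0) (nat_lit 38638321966) (nat_lit 152) (nat_lit 643230110617) (nat_lit 0) (nat_lit 38066134410) (nat_lit 1) (nat_lit 5) (nat_lit 3) (nat_lit 4) (nat_lit 1) (nat_lit 4) (nat_lit 320) (nat_lit 203) (nat_lit 197)) (XT.lf (nat_lit 0) (nat_lit 42520893185) (nat_lit 152) (nat_lit 693084185142)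 (nat_lit 0) (nat_lit 41876485289) (nat_lit 1) (nat_lit 5) (nat_lit 3) (nat_lit 4) (nat_lit 1) (nat_lit 4) (nat_lit 321) (nat_lit 203) (nat_lit 196)))) (XT.nd (nat_lit 156) (nat_lit 0) (nat_lit 0) (XT.nd (nat_lit 78) (nat_lit 0) (nat_lit 0) (XT.lf (nat_lit 0) (nat_lit 7549206508) (nat_lit 152) (nat_lit 179553243851) (nat_lit 0) (nat_lit 7549206508) (nat_lit 1) (nat_lit 5) (nat_lit 3) (nat_lit 4) (nat_lit 1) (nat_lit 4) (nat_lit 312) (nat_lit 204) (nat_lit 204)) (XT.lf (nat_lit 0) (nat_lit 17479171345) (nat_lit 152) (nat_lit 385544819240) (nat_lit 0) (nat_lit 17355398373) (nat_lit 1) (nat_lit 5) (nat_lit 3) (nat_lit 4) (nat_lit 1) (nat_lit 4) (nat_lit 313) (nat_lit 204) (nat_lit 203))) (XT.nd (nat_lit 78) (nat_lit 0) (nat_lit 0) (XT.lf (nat_lit 0) (nat_lit 19986685581) (nat_lit 152) (nat_lit 414209881388) (nat_lit 0) (nat_lit 19748308005) (nat_lit 1) (nat_lit 5) (nat_lit 3) (nat_lit 4)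 (nat_lit 1) (nat_lit 4) (nat_lit 314) (nat_lit 204) (nat_lit 202)) (XT.lf (nat_lit 0) (nat_lit 22635815068) (nat_lit 152) (nat_lit 445271541180) (nat_lit 0) (nat_lit 22291322118) (nat_lit 1) (nat_lit 5) (nat_lit 3) (nat_lit 4) (nat_lit 1) (nat_lit 4) (nat_lit 315) (nat_lit 204) (nat_lit 201))))) (XT.nd (nat_lit 312) (nat_lit 0) (nat_lit 0) (XT.nd (nat_lit 156) (nat_lit 0) (nat_lit 0) (XT.nd (nat_lit 78) (nat_lit 0) (nat_lit 0) (XT.lf (nat_lit 0) (nat_lit 25442258351) (nat_lit 152) (nat_lit 478913867713) (nat_lit 0) (nat_lit 24999510426) (nat_lit 1) (nat_lit 5) (nat_lit 3) (nat_lit 4) (nat_lit 1) (nat_lit 4) (nat_lit 316) (nat_lit 204) (nat_lit 200)) (XT.lf (nat_lit 0) (nat_lit 28422646206) (nat_lit 152) (nat_lit 515336222921) (nat_lit 0) (nat_lit 27888921451) (nat_lit 1) (nat_lit 5) (nat_lit 3) (nat_lit 4) (nat_lit 1) (nat_lit 4) (nat_lit 317) (nat_lit 204) (nat_lit 199))) (XT.nd (nat_lit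 78) (nat_lit 0) (nat_lit 0) (XT.lf (nat_lit 0) (nat_lit 31594640190) (nat_lit 152) (nat_lit 554754442983) (nat_lit 0) (nat_lit 30976677630) (nat_lit 1) (nat_lit 5) (nat_lit 3) (nat_lit 4) (nat_lit 1) (nat_lit 4) (nat_lit 318) (nat_lit 204) (nat_lit 198)) (XT.lf (nat_lit 0) (nat_lit 34977037305) (nat_lit 152) (nat_lit 597402117351) (nat_lit 0) (nat_lit 34281076777) (nat_lit 1) (nat_lit 5) (nat_lit 3) (nat_lit 4) (nat_lit 1) (nat_lit 4) (nat_lit 319) (nat_lit 204) (nat_lit 197)))) (XT.nd (nat_lit 36738) (nat_lit 0) (nat_lit 0) (XT.nd (nat_lit 78) (nat_lit 0) (nat_lit 0) (XT.lf (nat_lit 0) (nat_lit 38589881384) (nat_lit 152) (nat_lit 643531972985) (nat_lit 0) (nat_lit 37821700516) (nat_lit 1) (nat_lit 5) (nat_lit 3) (nat_lit 4) (nat_lit 1) (nat_lit 4) (nat_lit 320) (nat_lit 204) (nat_lit 196)) (XT.lf (nat_lit 0) (nat_lit 42454581876) (nat_lit 152) (nat_lit 693417371992) (nat_lit 0) (nat_lit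 41619530322) (nat_lit 1) (nat_lit 5) (nat_lit 3) (nat_lit 4) (nat_lit 1) (nat_lit 4) (nat_lit 321) (nat_lit 204) (nat_lit 195))) (XT.nd (nat_lit 78) (nat_lit 0) (nat_lit 0) (XT.lf (nat_lit 0) (nat_lit 5415398657) (nat_lit 152) (nat_lit 156116489656) (nat_lit 0) (nat_lit 5415398657) (nat_lit 1) (nat_lit 5) (nat_lit 3) (nat_lit 4) (nat_lit 1) (nat_lit 4) (nat_lit 310) (nat_lit 205) (nat_lit 205)) (XT.nd (nat_lit 78) (nat_lit 0) (nat_lit 0) (XT.lf (nat_lit 0) (nat_lit 12963977209) (nat_lit 152) (nat_lit 334738215181) (nat_lit 0) (nat_lit 12830302399) (nat_lit 1) (nat_lit 5) (nat_lit 3) (nat_lit 4) (nat_lit 1) (nat_lit 4) (nat_lit 311) (nat_lit 205) (nat_lit 204)) (XT.lf (nat_lit 0) (nat_lit 15199010356) (nat_lit 152) (nat_lit 359164467133) (nat_lit 0) (nat_lit 14941562574) (nat_lit 1) (nat_lit 5) (nat_lit 3) (nat_lit 4) (nat_lit 1) (nat_lit 4) (nat_lit 312) (nat_lit 205) (nat_lit 203))))))))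
noncomputable def xc1 : XT := (XT.nd (nat_lit 37674) (nat_lit 0) (nat_lit 0) (XT.nd (nat_lit 624) (nat_lit 0) (nat_lit 0) (XT.nd (nat_lit 312) (nat_lit 0) (nat_lit 0) (XT.nd (nat_lit 156) (nat_lit 0) (nat_lit 0) (XT.nd (nat_lit 78) (nat_lit 0) (nat_lit 0) (XT.lf (nat_lit 0) (nat_lit 17549141396) (nat_lit 152) (nat_lit 385656483327) (nat_lit 0) (nat_lit 17177089010) (nat_lit 1) (nat_lit 5) (nat_lit 3) (nat_lit 4) (nat_lit 1) (nat_lit 4) (nat_lit 313) (nat_lit 205) (nat_lit 202)) (XT.lf (nat_lit 0) (nat_lit 20028297032) (nat_lit 152) (nat_lit 414371253491) (nat_lit 0) (nat_lit 19550129272) (nat_lit 1) (nat_lit 5) (nat_lit 3) (nat_lit 4) (nat_lit 1) (nat_lit 4) (nat_lit 314) (nat_lit 205) (nat_lit 201))) (XT.nd (nat_lit 78) (nat_lit 0) (nat_lit 0) (XT.lf (nat_lit 0) (nat_lit 22651168557) (nat_lit 152) (nat_lit 445478939224) (nat_lit 0) (nat_lit 22074745821) (nat_lit 1) (nat_lit 5) (nat_lit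 3) (nat_lit 4) (nat_lit 1) (nat_lit 4) (nat_lit 315) (nat_lit 205) (nat_lit 200)) (XT.lf (nat_lit 0) (nat_lit 25433298912) (nat_lit 152) (nat_lit 479163882369) (nat_lit 0) (nat_lit 24765899346) (nat_lit 1) (nat_lit 5) (nat_lit 3) (nat_lit 4) (nat_lit 1) (nat_lit 4) (nat_lit 316) (nat_lit 205) (nat_lit 199)))) (XT.nd (nat_lit 156) (nat_lit 0) (nat_lit 0) (XT.nd (nat_lit 78) (nat_lit 0) (nat_lit 0) (XT.lf (nat_lit 0) (nat_lit 28391174796) (nat_lit 152) (nat_lit 515625697402) (nat_lit 0) (nat_lit 27639537425) (nat_lit 1) (nat_lit 5) (nat_lit 3) (nat_lit 4) (nat_lit 1) (nat_lit 4) (nat_lit 317) (nat_lit 205) (nat_lit 198)) (XT.lf (nat_lit 0) (nat_lit 31542324362) (nat_lit 152) (nat_lit 555080454340) (nat_lit 0) (nat_lit 30712689024) (nat_lit 1) (nat_lit 5) (nat_lit 3) (nat_lit 4) (nat_lit 1) (nat_lit 4) (nat_lit 318) (nat_lit 205) (nat_lit 197))) (XT.nd (nat_lit 78) (nat_lit 0) (nat_lit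 0) (XT.lf (nat_lit 0) (nat_lit 34905421090) (nat_lit 152) (nat_lit 597761959149) (nat_lit 0) (nat_lit 34003565412) (nat_lit 1) (nat_lit 5) (nat_lit 3) (nat_lit 4) (nat_lit 1) (nat_lit 4) (nat_lit 319) (nat_lit 205) (nat_lit 196)) (XT.lf (nat_lit 0) (nat_lit 38500394441) (nat_lit 152) (nat_lit 643923139264) (nat_lit 0) (nat_lit 37531668078) (nat_lit 1) (nat_lit 5) (nat_lit 3) (nat_lit 4) (nat_lit 1) (nat_lit 4) (nat_lit 320) (nat_lit 205) (nat_lit 195))))) (XT.nd (nat_lit 36738) (nat_lit 0) (nat_lit 0) (XT.nd (nat_lit 36582) (nat_lit 0) (nat_lit 0) (XT.nd (nat_lit 36504) (nat_lit 0) (nat_lit 0) (XT.lf (nat_lit 0) (nat_lit 42348547962) (nat_lit 152) (nat_lit 693837542421) (nat_lit 0) (nat_lit 41317904297) (nat_lit 1) (nat_lit 5) (nat_lit 3) (nat_lit 4) (nat_lit 1) (nat_lit 4) (nat_lit 321) (nat_lit 205) (nat_lit 194)) (XT.lf (nat_lit 0) (nat_lit 3501456019) (nat_lit 152) (nat_lit 136197532335)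 (nat_lit 0) (nat_lit 3501456019) (nat_lit 1) (nat_lit 5) (nat_lit 3) (nat_lit 4) (nat_lit 1) (nat_lit 4) (nat_lit 308) (nat_lit 206) (nat_lit 206))) (XT.nd (nat_lit 78) (nat_lit 0) (nat_lit 0) (XT.lf (nat_lit 0) (nat_lit 8931198400) (nat_lit 152) (nat_lit 291515395168) (nat_lit 0) (nat_lit 8786829605) (nat_lit 1) (nat_lit 5) (nat_lit 3) (nat_lit 4) (nat_lit 1) (nat_lit 4) (nat_lit 309) (nat_lit 206) (nat_lit 205)) (XT.lf (nat_lit 0) (nat_lit 10939442440) (nat_lit 152) (nat_lit 312295597097) (nat_lit 0) (nat_lit 10661398835) (nat_lit 1) (nat_lit 5) (nat_lit 3) (nat_lit 4) (nat_lit 1) (nat_lit 4) (nat_lit 310) (nat_lit 206) (nat_lit 204)))) (XT.nd (nat_lit 156) (nat_lit 0) (nat_lit 0) (XT.nd (nat_lit 78) (nat_lit 0) (nat_lit 0) (XT.lf (nat_lit 0) (nat_lit 13039544864) (nat_lit 152) (nat_lit 334858812395) (nat_lit 0) (nat_lit 12637728287) (nat_lit 1) (nat_lit 5) (nat_lit 3) (nat_lit 4)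 (nat_lit 1) (nat_lit 4) (nat_lit 311) (nat_lit 206) (nat_lit 203)) (XT.lf (nat_lit 0) (nat_lit 15243950724) (nat_lit 152) (nat_lit 359338749004) (nat_lit 0) (nat_lit 14727529543) (nat_lit 1) (nat_lit 5) (nat_lit 3) (nat_lit 4) (nat_lit 1) (nat_lit 4) (nat_lit 312) (nat_lit 206) (nat_lit 202))) (XT.nd (nat_lit 78) (nat_lit 0) (nat_lit 0) (XT.lf (nat_lit 0) (nat_lit 17565723164) (nat_lit 152) (nat_lit 385880473215) (nat_lit 0) (nat_lit 16943186610) (nat_lit 1) (nat_lit 5) (nat_lit 3) (nat_lit 4) (nat_lit 1) (nat_lit 4) (nat_lit 313) (nat_lit 206) (nat_lit 201)) (XT.lf (nat_lit 0) (nat_lit 20018620837) (nat_lit 152) (nat_lit 414641269319) (nat_lit 0) (nat_lit 19297829307) (nat_lit 1) (nat_lit 5) (nat_lit 3) (nat_lit 4) (nat_lit 1) (nat_lit 4) (nat_lit 314) (nat_lit 206) (nat_lit 200)))))) (XT.nd (nat_lit 36894) (nat_lit 0) (nat_lit 0) (XT.nd (nat_lit 312) (nat_lit 0) (nat_lit 0) (XT.nd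 (nat_lit 156) (nat_lit 0) (nat_lit 0) (XT.nd (nat_lit 78) (nat_lit 0) (nat_lit 0) (XT.lf (nat_lit 0) (nat_lit 22617179433) (nat_lit 152) (nat_lit 445791571664) (nat_lit 0) (nat_lit 21805411073) (nat_lit 1) (nat_lit 5) (nat_lit 3) (nat_lit 4) (nat_lit 1) (nat_lit 4) (nat_lit 315) (nat_lit 206) (nat_lit 199)) (XT.lf (nat_lit 0) (nat_lit 25376797817) (nat_lit 152) (nat_lit 479515974634) (nat_lit 0) (nat_lit 24480791652) (nat_lit 1) (nat_lit 5) (nat_lit 3) (nat_lit 4) (nat_lit 1) (nat_lit 4) (nat_lit 316) (nat_lit 206) (nat_lit 198))) (XT.nd (nat_lit 78) (nat_lit 0) (nat_lit 0) (XT.lf (nat_lit 0) (nat_lit 28313829284) (nat_lit 152) (nat_lit 516014326543) (nat_lit 0) (nat_lit 27339825151) (nat_lit 1) (nat_lit 5) (nat_lit 3) (nat_lit 4) (nat_lit 1) (nat_lit 4) (nat_lit 317) (nat_lit 206) (nat_lit 197)) (XT.lf (nat_lit 0) (nat_lit 31445678464) (nat_lit 152) (nat_lit 555502913921) (nat_lit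 0) (nat_lit 30399453991) (nat_lit 1) (nat_lit 5) (nat_lit 3) (nat_lit 4) (nat_lit 1) (nat_lit 4) (nat_lit 318) (nat_lit 206) (nat_lit 196)))) (XT.nd (nat_lit 156) (nat_lit 0) (nat_lit 0) (XT.nd (nat_lit 78) (nat_lit 0) (nat_lit 0) (XT.lf (nat_lit 0) (nat_lit 34790904464) (nat_lit 152) (nat_lit 598215743212) (nat_lit 0) (nat_lit 33677809305) (nat_lit 1) (nat_lit 5) (nat_lit 3) (nat_lit 4) (nat_lit 1) (nat_lit 4) (nat_lit 319) (nat_lit 206) (nat_lit 195)) (XT.lf (nat_lit 0) (nat_lit 38369330844) (nat_lit 152) (nat_lit 644405927478) (nat_lit 0) (nat_lit 37194318384) (nat_lit 1) (nat_lit 5) (nat_lit 3) (nat_lit 4) (nat_lit 1) (nat_lit 4) (nat_lit 320) (nat_lit 206) (nat_lit 194))) (XT.nd (nat_lit 36348) (nat_lit 0) (nat_lit 0) (XT.lf (nat_lit 0) (nat_lit 42202163096) (nat_lit 152) (nat_lit 694347186329) (nat_lit 0) (nat_lit 40969819801) (nat_lit 1) (nat_lit 5) (nat_lit 3) (nat_lit 4) (nat_lit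 1) (nat_lit 4) (nat_lit 321) (nat_lit 206) (nat_lit 193)) (XT.lf (nat_lit 0) (nat_lit 1769248658) (nat_lit 152) (nat_lit 119308461384) (nat_lit 0) (nat_lit 1769248658) (nat_lit 1) (nat_lit 5) (nat_lit 3) (nat_lit 4) (nat_lit 1) (nat_lit 4) (nat_lit 306) (nat_lit 207) (nat_lit 207))))) (XT.nd (nat_lit 312) (nat_lit 0) (nat_lit 0) (XT.nd (nat_lit 156) (nat_lit 0) (nat_lit 0) (XT.nd (nat_lit 78) (nat_lit 0) (nat_lit 0) (XT.lf (nat_lit 0) (nat_lit 5299074771) (nat_lit 152) (nat_lit 254821299940) (nat_lit 0) (nat_lit 5143156473) (nat_lit 1) (nat_lit 5) (nat_lit 3) (nat_lit 4) (nat_lit 1) (nat_lit 4) (nat_lit 307) (nat_lit 207) (nat_lit 206)) (XT.lf (nat_lit 0) (nat_lit 7120248775) (nat_lit 152) (nat_lit 272462691877) (nat_lit 0) (nat_lit 6819961682) (nat_lit 1) (nat_lit 5) (nat_lit 3) (nat_lit 4) (nat_lit 1) (nat_lit 4) (nat_lit 308) (nat_lit 207) (nat_lit 205))) (XT.nd (nat_lit 78) (nat_lit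 0) (nat_lit 0) (XT.lf (nat_lit 0) (nat_lit 9012811468) (nat_lit 152) (nat_lit 291645640159) (nat_lit 0) (nat_lit 8578849565) (nat_lit 1) (nat_lit 5) (nat_lit 3) (nat_lit 4) (nat_lit 1) (nat_lit 4) (nat_lit 309) (nat_lit 207) (nat_lit 204)) (XT.lf (nat_lit 0) (nat_lit 10987978037) (nat_lit 152) (nat_lit 312483821519) (nat_lit 0) (nat_lit 10430243162) (nat_lit 1) (nat_lit 5) (nat_lit 3) (nat_lit 4) (nat_lit 1) (nat_lit 4) (nat_lit 310) (nat_lit 207) (nat_lit 203)))) (XT.nd (nat_lit 156) (nat_lit 0) (nat_lit 0) (XT.nd (nat_lit 78) (nat_lit 0) (nat_lit 0) (XT.lf (nat_lit 0) (nat_lit 13057453173) (nat_lit 152) (nat_lit 335100721474) (nat_lit 0) (nat_lit 12385113695) (nat_lit 1) (nat_lit 5) (nat_lit 3) (nat_lit 4) (nat_lit 1) (nat_lit 4) (nat_lit 311) (nat_lit 207) (nat_lit 202)) (XT.lf (nat_lit 0) (nat_lit 15233500433) (nat_lit 152) (nat_lit 359630366098) (nat_lit 0) (nat_lit 14455045580)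 (nat_lit 1) (nat_lit 5) (nat_lit 3) (nat_lit 4) (nat_lit 1) (nat_lit 4) (nat_lit 312) (nat_lit 207) (nat_lit 201))) (XT.nd (nat_lit 78) (nat_lit 0) (nat_lit 0) (XT.lf (nat_lit 0) (nat_lit 17529014911) (nat_lit 152) (nat_lit 386218116250) (nat_lit 0) (nat_lit 16652305082) (nat_lit 1) (nat_lit 5) (nat_lit 3) (nat_lit 4) (nat_lit 1) (nat_lit 4) (nat_lit 313) (nat_lit 207) (nat_lit 200)) (XT.nd (nat_lit 78) (nat_lit 0) (nat_lit 0) (XT.lf (nat_lit 0) (nat_lit 19957599656) (nat_lit 152) (nat_lit 415021528966) (nat_lit 0) (nat_lit 18989912997) (nat_lit 1) (nat_lit 5) (nat_lit 3) (nat_lit 4) (nat_lit 1) (nat_lit 4) (nat_lit 314) (nat_lit 207) (nat_lit 199)) (XT.lf (nat_lit 0) (nat_lit 22533646281) (nat_lit 152) (nat_lit 446211291137) (nat_lit 0) (nat_lit 21481721817) (nat_lit 1) (nat_lit 5) (nat_lit 3) (nat_lit 4) (nat_lit 1) (nat_lit 4) (nat_lit 315) (nat_lit 207) (nat_lit 198))))))))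
noncomputable def xc2 : XT := (XT.nd (nat_lit 37362) (nat_lit 0) (nat_lit 0) (XT.nd (nat_lit 36738) (nat_lit 0) (nat_lit 0) (XT.nd (nat_lit 312) (nat_lit 0) (nat_lit 0) (XT.nd (nat_lit 156) (nat_lit 0) (nat_lit 0) (XT.nd (nat_lit 78) (nat_lit 0) (nat_lit 0) (XT.lf (nat_lit 0) (nat_lit 25272420247) (nat_lit 152) (nat_lit 479972230982) (nat_lit 0) (nat_lit 24142497816) (nat_lit 1) (nat_lit 5) (nat_lit 3) (nat_lit 4) (nat_lit 1) (nat_lit 4) (nat_lit 316) (nat_lit 207) (nat_lit 197)) (XT.lf (nat_lit 0) (nat_lit 28190151327) (nat_lit 152) (nat_lit 516504413332) (nat_lit 0) (nat_lit 26988008556) (nat_lit 1) (nat_lit 5) (nat_lit 3) (nat_lit 4) (nat_lit 1) (nat_lit 4) (nat_lit 317) (nat_lit 207) (nat_lit 196))) (XT.nd (nat_lit 78) (nat_lit 0) (nat_lit 0) (XT.lf (nat_lit 0) (nat_lit 31304129779) (nat_lit 152) (nat_lit 556024325192) (nat_lit 0) (nat_lit 30035116322) (nat_lit 1) (nat_lit 5) (nat_lit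 3) (nat_lit 4) (nat_lit 1) (nat_lit 4) (nat_lit 318) (nat_lit 207) (nat_lit 195)) (XT.lf (nat_lit 0) (nat_lit 34632808808) (nat_lit 152) (nat_lit 598766158633) (nat_lit 0) (nat_lit 33301878050) (nat_lit 1) (nat_lit 5) (nat_lit 3) (nat_lit 4) (nat_lit 1) (nat_lit 4) (nat_lit 319) (nat_lit 207) (nat_lit 194)))) (XT.nd (nat_lit 36270) (nat_lit 0) (nat_lit 0) (XT.nd (nat_lit 78) (nat_lit 0) (nat_lit 0) (XT.lf (nat_lit 0) (nat_lit 38195913920) (nat_lit 152) (nat_lit 644983198593) (nat_lit 0) (nat_lit 36807652327) (nat_lit 1) (nat_lit 5) (nat_lit 3) (nat_lit 4) (nat_lit 1) (nat_lit 4) (nat_lit 320) (nat_lit 207) (nat_lit 193)) (XT.lf (nat_lit 0) (nat_lit 42014559811) (nat_lit 152) (nat_lit 694949323827) (nat_lit 0) (nat_lit 40573214112) (nat_lit 1) (nat_lit 5) (nat_lit 3) (nat_lit 4) (nat_lit 1) (nat_lit 4) (nat_lit 321) (nat_lit 207) (nat_lit 192))) (XT.nd (nat_lit 78) (nat_lit 0) (nat_lit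 0) (XT.lf (nat_lit 0) (nat_lit 185545201) (nat_lit 152) (nat_lit 105032087594) (nat_lit 0) (nat_lit 185545201) (nat_lit 1) (nat_lit 5) (nat_lit 3) (nat_lit 4) (nat_lit 1) (nat_lit 4) (nat_lit 304) (nat_lit 208) (nat_lit 208)) (XT.lf (nat_lit 0) (nat_lit 1996475118) (nat_lit 152) (nat_lit 223753534422) (nat_lit 0) (nat_lit 1828083356) (nat_lit 1) (nat_lit 5) (nat_lit 3) (nat_lit 4) (nat_lit 1) (nat_lit 4) (nat_lit 305) (nat_lit 208) (nat_lit 207))))) (XT.nd (nat_lit 312) (nat_lit 0) (nat_lit 0) (XT.nd (nat_lit 156) (nat_lit 0) (nat_lit 0) (XT.nd (nat_lit 78) (nat_lit 0) (nat_lit 0) (XT.lf (nat_lit 0) (nat_lit 3665220991) (nat_lit 152) (nat_lit 238689960152) (nat_lit 0) (nat_lit 3340910931) (nat_lit 1) (nat_lit 5) (nat_lit 3) (nat_lit 4) (nat_lit 1) (nat_lit 4) (nat_lit 306) (nat_lit 208) (nat_lit 206)) (XT.lf (nat_lit 0) (nat_lit 5387216885) (nat_lit 152) (nat_lit 254961964531) (nat_lit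 0) (nat_lit 4918538030) (nat_lit 1) (nat_lit 5) (nat_lit 3) (nat_lit 4) (nat_lit 1) (nat_lit 4) (nat_lit 307) (nat_lit 208) (nat_lit 205))) (XT.nd (nat_lit 78) (nat_lit 0) (nat_lit 0) (XT.lf (nat_lit 0) (nat_lit 7172667220) (nat_lit 152) (nat_lit 272665974251) (nat_lit 0) (nat_lit 6570313555) (nat_lit 1) (nat_lit 5) (nat_lit 3) (nat_lit 4) (nat_lit 1) (nat_lit 4) (nat_lit 308) (nat_lit 208) (nat_lit 204)) (XT.lf (nat_lit 0) (nat_lit 9032152442) (nat_lit 152) (nat_lit 291906901964) (nat_lit 0) (nat_lit 8306025805) (nat_lit 1) (nat_lit 5) (nat_lit 3) (nat_lit 4) (nat_lit 1) (nat_lit 4) (nat_lit 309) (nat_lit 208) (nat_lit 203)))) (XT.nd (nat_lit 156) (nat_lit 0) (nat_lit 0) (XT.nd (nat_lit 78) (nat_lit 0) (nat_lit 0) (XT.lf (nat_lit 0) (nat_lit 10976691723) (nat_lit 152) (nat_lit 312798767980) (nat_lit 0) (nat_lit 10135960482) (nat_lit 1) (nat_lit 5) (nat_lit 3) (nat_lit 4) (nat_lit 1)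 (nat_lit 4) (nat_lit 310) (nat_lit 208) (nat_lit 202)) (XT.lf (nat_lit 0) (nat_lit 13017808260) (nat_lit 152) (nat_lit 335465375951) (nat_lit 0) (nat_lit 12070961645) (nat_lit 1) (nat_lit 5) (nat_lit 3) (nat_lit 4) (nat_lit 1) (nat_lit 4) (nat_lit 311) (nat_lit 208) (nat_lit 201))) (XT.nd (nat_lit 78) (nat_lit 0) (nat_lit 0) (XT.lf (nat_lit 0) (nat_lit 15167597557) (nat_lit 152) (nat_lit 360041046517) (nat_lit 0) (nat_lit 14122495966) (nat_lit 1) (nat_lit 5) (nat_lit 3) (nat_lit 4) (nat_lit 1) (nat_lit 4) (nat_lit 312) (nat_lit 208) (nat_lit 200)) (XT.lf (nat_lit 0) (nat_lit 17438799106) (nat_lit 152) (nat_lit 386671413280) (nat_lit 0) (nat_lit 16302720686) (nat_lit 1) (nat_lit 5) (nat_lit 3) (nat_lit 4) (nat_lit 1) (nat_lit 4) (nat_lit 313) (nat_lit 208) (nat_lit 199)))))) (XT.nd (nat_lit 36582) (nat_lit 0) (nat_lit 0) (XT.nd (nat_lit 312) (nat_lit 0) (nat_lit 0) (XT.nd (nat_lit 156)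 (nat_lit 0) (nat_lit 0) (XT.nd (nat_lit 78) (nat_lit 0) (nat_lit 0) (XT.lf (nat_lit 0) (nat_lit 19844871880) (nat_lit 152) (nat_lit 415514285822) (nat_lit 0) (nat_lit 18624555655) (nat_lit 1) (nat_lit 5) (nat_lit 3) (nat_lit 4) (nat_lit 1) (nat_lit 4) (nat_lit 314) (nat_lit 208) (nat_lit 198)) (XT.lf (nat_lit 0) (nat_lit 22400074087) (nat_lit 152) (nat_lit 446740584868) (nat_lit 0) (nat_lit 21101759895) (nat_lit 1) (nat_lit 5) (nat_lit 3) (nat_lit 4) (nat_lit 1) (nat_lit 4) (nat_lit 315) (nat_lit 208) (nat_lit 197))) (XT.nd (nat_lit 78) (nat_lit 0) (nat_lit 0) (XT.lf (nat_lit 0) (nat_lit 25119547668) (nat_lit 152) (nat_lit 480535355155) (nat_lit 0) (nat_lit 23749013134) (nat_lit 1) (nat_lit 5) (nat_lit 3) (nat_lit 4) (nat_lit 1) (nat_lit 4) (nat_lit 316) (nat_lit 208) (nat_lit 196)) (XT.lf (nat_lit 0) (nat_lit 28019408020) (nat_lit 152) (nat_lit 517098861986) (nat_lit 0) (nat_lit 26582002801)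 (nat_lit 1) (nat_lit 5) (nat_lit 3) (nat_lit 4) (nat_lit 1) (nat_lit 4) (nat_lit 317) (nat_lit 208) (nat_lit 195)))) (XT.nd (nat_lit 156) (nat_lit 0) (nat_lit 0) (XT.nd (nat_lit 78) (nat_lit 0) (nat_lit 0) (XT.lf (nat_lit 0) (nat_lit 31116839501) (nat_lit 152) (nat_lit 556647777996) (nat_lit 0) (nat_lit 29617516980) (nat_lit 1) (nat_lit 5) (nat_lit 3) (nat_lit 4) (nat_lit 1) (nat_lit 4) (nat_lit 318) (nat_lit 208) (nat_lit 194)) (XT.lf (nat_lit 0) (nat_lit 34430197261) (nat_lit 152) (nat_lit 599416467131) (nat_lit 0) (nat_lit 32873543906) (nat_lit 1) (nat_lit 5) (nat_lit 3) (nat_lit 4) (nat_lit 1) (nat_lit 4) (nat_lit 319) (nat_lit 208) (nat_lit 193))) (XT.nd (nat_lit 78) (nat_lit 0) (nat_lit 0) (XT.lf (nat_lit 0) (nat_lit 37979116012) (nat_lit 152) (nat_lit 645658373474) (nat_lit 0) (nat_lit 36369378551) (nat_lit 1) (nat_lit 5) (nat_lit 3) (nat_lit 4) (nat_lit 1) (nat_lit 4) (nat_lit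 320) (nat_lit 208) (nat_lit 192)) (XT.lf (nat_lit 0) (nat_lit 41784626385) (nat_lit 152) (nat_lit 695647523139) (nat_lit 0) (nat_lit 40125736973) (nat_lit 1) (nat_lit 5) (nat_lit 3) (nat_lit 4) (nat_lit 1) (nat_lit 4) (nat_lit 321) (nat_lit 208) (nat_lit 191))))) (XT.nd (nat_lit 312) (nat_lit 0) (nat_lit 0) (XT.nd (nat_lit 156) (nat_lit 152) (nat_lit 0) (XT.nd (nat_lit 78) (nat_lit 0) (nat_lit 0) (XT.lf (nat_lit 0) (nat_lit 87934248584) (nat_lit 76) (nat_lit 1258104614) (nat_lit 76) (nat_lit 1258104614) (nat_lit 3) (nat_lit 4) (nat_lit 4) (nat_lit 5) (nat_lit 4) (nat_lit 4) (nat_lit 302) (nat_lit 209) (nat_lit 209)) (XT.lf (nat_lit 0) (nat_lit 193055108835) (nat_lit 76) (nat_lit 1206891748) (nat_lit 76) (nat_lit 1015935490) (nat_lit 3) (nat_lit 4) (nat_lit 4) (nat_lit 5) (nat_lit 4) (nat_lit 4) (nat_lit 303) (nat_lit 209) (nat_lit 208))) (XT.nd (nat_lit 78) (nat_lit 0) (nat_lit 0) (XT.lf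 (nat_lit 0) (nat_lit 507951971) (nat_lit 152) (nat_lit 210143055562) (nat_lit 0) (nat_lit 157697106) (nat_lit 1) (nat_lit 5) (nat_lit 3) (nat_lit 4) (nat_lit 1) (nat_lit 4) (nat_lit 304) (nat_lit 209) (nat_lit 207)) (XT.lf (nat_lit 0) (nat_lit 2091668601) (nat_lit 152) (nat_lit 223905452179) (nat_lit 0) (nat_lit 1585495437) (nat_lit 1) (nat_lit 5) (nat_lit 3) (nat_lit 4) (nat_lit 1) (nat_lit 4) (nat_lit 305) (nat_lit 209) (nat_lit 206)))) (XT.nd (nat_lit 156) (nat_lit 0) (nat_lit 0) (XT.nd (nat_lit 78) (nat_lit 0) (nat_lit 0) (XT.lf (nat_lit 0) (nat_lit 3721832911) (nat_lit 152) (nat_lit 238909505116) (nat_lit 0) (nat_lit 3071290953) (nat_lit 1) (nat_lit 5) (nat_lit 3) (nat_lit 4) (nat_lit 1) (nat_lit 4) (nat_lit 306) (nat_lit 209) (nat_lit 205)) (XT.lf (nat_lit 0) (nat_lit 5408105137) (nat_lit 152) (nat_lit 255244127280) (nat_lit 0) (nat_lit 4623888369) (nat_lit 1) (nat_lit 5) (nat_lit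 3) (nat_lit 4) (nat_lit 1) (nat_lit 4) (nat_lit 307) (nat_lit 209) (nat_lit 204))) (XT.nd (nat_lit 78) (nat_lit 0) (nat_lit 0) (XT.lf (nat_lit 0) (nat_lit 7160478001) (nat_lit 152) (nat_lit 273006116430) (nat_lit 0) (nat_lit 6252488260) (nat_lit 1) (nat_lit 5) (nat_lit 3) (nat_lit 4) (nat_lit 1) (nat_lit 4) (nat_lit 308) (nat_lit 209) (nat_lit 203)) (XT.nd (nat_lit 78) (nat_lit 0) (nat_lit 0) (XT.lf (nat_lit 0) (nat_lit 8989335935) (nat_lit 152) (nat_lit 292300728800) (nat_lit 0) (nat_lit 7966741591) (nat_lit 1) (nat_lit 5) (nat_lit 3) (nat_lit 4) (nat_lit 1) (nat_lit 4) (nat_lit 309) (nat_lit 209) (nat_lit 202)) (XT.lf (nat_lit 0) (nat_lit 10905516617) (nat_lit 152) (nat_lit 313242302832) (nat_lit 0) (nat_lit 9776806899) (nat_lit 1) (nat_lit 5) (nat_lit 3) (nat_lit 4) (nat_lit 1) (nat_lit 4) (nat_lit 310) (nat_lit 209) (nat_lit 201))))))))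
noncomputable def xc3 : XT := (XT.nd (nat_lit 37050) (nat_lit 0) (nat_lit 0) (XT.nd (nat_lit 624) (nat_lit 0) (nat_lit 0) (XT.nd (nat_lit 312) (nat_lit 0) (nat_lit 0) (XT.nd (nat_lit 156) (nat_lit 0) (nat_lit 0) (XT.nd (nat_lit 78) (nat_lit 0) (nat_lit 0) (XT.lf (nat_lit 0) (nat_lit 12920375191) (nat_lit 152) (nat_lit 335954936744) (nat_lit 0) (nat_lit 11693410497) (nat_lit 1) (nat_lit 5) (nat_lit 3) (nat_lit 4) (nat_lit 1) (nat_lit 4) (nat_lit 311) (nat_lit 209) (nat_lit 200)) (XT.lf (nat_lit 0) (nat_lit 15045851559) (nat_lit 152) (nat_lit 360573223921) (nat_lit 0) (nat_lit 13727910036) (nat_lit 1) (nat_lit 5) (nat_lit 3) (nat_lit 4) (nat_lit 1) (nat_lit 4) (nat_lit 312) (nat_lit 209) (nat_lit 199))) (XT.nd (nat_lit 78) (nat_lit 0) (nat_lit 0) (XT.lf (nat_lit 0) (nat_lit 17294541137) (nat_lit 152) (nat_lit 387243050510) (nat_lit 0) (nat_lit 15892361809) (nat_lit 1) (nat_lit 5) (nat_lit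 3) (nat_lit 4) (nat_lit 1) (nat_lit 4) (nat_lit 313) (nat_lit 209) (nat_lit 198)) (XT.lf (nat_lit 0) (nat_lit 19679769494) (nat_lit 152) (nat_lit 416122459928) (nat_lit 0) (nat_lit 18199592198) (nat_lit 1) (nat_lit 5) (nat_lit 3) (nat_lit 4) (nat_lit 1) (nat_lit 4) (nat_lit 314) (nat_lit 209) (nat_lit 197)))) (XT.nd (nat_lit 156) (nat_lit 0) (nat_lit 0) (XT.nd (nat_lit 78) (nat_lit 0) (nat_lit 0) (XT.lf (nat_lit 0) (nat_lit 22215671315) (nat_lit 152) (nat_lit 447382589415) (nat_lit 0) (nat_lit 20663273678) (nat_lit 1) (nat_lit 5) (nat_lit 3) (nat_lit 4) (nat_lit 1) (nat_lit 4) (nat_lit 315) (nat_lit 209) (nat_lit 196)) (XT.lf (nat_lit 0) (nat_lit 24917274167) (nat_lit 152) (nat_lit 481208684183) (nat_lit 0) (nat_lit 23298005845) (nat_lit 1) (nat_lit 5) (nat_lit 3) (nat_lit 4) (nat_lit 1) (nat_lit 4) (nat_lit 316) (nat_lit 209) (nat_lit 195))) (XT.nd (nat_lit 78) (nat_lit 0) (nat_lit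 0) (XT.lf (nat_lit 0) (nat_lit 27800587548) (nat_lit 152) (nat_lit 517801195164) (nat_lit 0) (nat_lit 26119401925) (nat_lit 1) (nat_lit 5) (nat_lit 3) (nat_lit 4) (nat_lit 1) (nat_lit 4) (nat_lit 317) (nat_lit 209) (nat_lit 194)) (XT.lf (nat_lit 0) (nat_lit 30882697760) (nat_lit 152) (nat_lit 557376966868) (nat_lit 0) (nat_lit 29144181302) (nat_lit 1) (nat_lit 5) (nat_lit 3) (nat_lit 4) (nat_lit 1) (nat_lit 4) (nat_lit 318) (nat_lit 209) (nat_lit 193))))) (XT.nd (nat_lit 36114) (nat_lit 0) (nat_lit 0) (XT.nd (nat_lit 156) (nat_lit 0) (nat_lit 0) (XT.nd (nat_lit 78) (nat_lit 0) (nat_lit 0) (XT.lf (nat_lit 0) (nat_lit 34181869160) (nat_lit 152) (nat_lit 600170522387) (nat_lit 0) (nat_lit 32390268596) (nat_lit 1) (nat_lit 5) (nat_lit 3) (nat_lit 4) (nat_lit 1) (nat_lit 4) (nat_lit 319) (nat_lit 209) (nat_lit 192)) (XT.lf (nat_lit 0) (nat_lit 37717652393) (nat_lit 152) (nat_lit 646435453160)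 (nat_lit 0) (nat_lit 35876899878) (nat_lit 1) (nat_lit 5) (nat_lit 3) (nat_lit 4) (nat_lit 1) (nat_lit 4) (nat_lit 320) (nat_lit 209) (nat_lit 191))) (XT.nd (nat_lit 35880) (nat_lit 0) (nat_lit 152) (XT.lf (nat_lit 0) (nat_lit 41511000248) (nat_lit 152) (nat_lit 696445921740) (nat_lit 0) (nat_lit 39624736668) (nat_lit 1) (nat_lit 5) (nat_lit 3) (nat_lit 4) (nat_lit 1) (nat_lit 4) (nat_lit 321) (nat_lit 209) (nat_lit 190)) (XT.lf (nat_lit 0) (nat_lit 72424296978) (nat_lit 76) (nat_lit 2606405036) (nat_lit 76) (nat_lit 2606405036) (nat_lit 3) (nat_lit 4) (nat_lit 4) (nat_lit 5) (nat_lit 4) (nat_lit 4) (nat_lit 300) (nat_lit 210) (nat_lit 210)))) (XT.nd (nat_lit 156) (nat_lit 152) (nat_lit 0) (XT.nd (nat_lit 78) (nat_lit 0) (nat_lit 0) (XT.lf (nat_lit 0) (nat_lit 159802983919) (nat_lit 76) (nat_lit 3998371522) (nat_lit 76) (nat_lit 3792138763) (nat_lit 3) (nat_lit 4) (nat_lit 4) (nat_lit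 5) (nat_lit 4) (nat_lit 4) (nat_lit 301) (nat_lit 210) (nat_lit 209)) (XT.lf (nat_lit 0) (nat_lit 175789582436) (nat_lit 76) (nat_lit 2755464303) (nat_lit 76) (nat_lit 2358275286) (nat_lit 3) (nat_lit 4) (nat_lit 4) (nat_lit 5) (nat_lit 4) (nat_lit 4) (nat_lit 302) (nat_lit 210) (nat_lit 208))) (XT.nd (nat_lit 78) (nat_lit 152) (nat_lit 0) (XT.lf (nat_lit 0) (nat_lit 192903124908) (nat_lit 76) (nat_lit 1476723041) (nat_lit 76) (nat_lit 902722673) (nat_lit 3) (nat_lit 4) (nat_lit 4) (nat_lit 5) (nat_lit 4) (nat_lit 4) (nat_lit 303) (nat_lit 210) (nat_lit 207)) (XT.lf (nat_lit 0) (nat_lit 433339617) (nat_lit 76) (nat_lit 137906332) (nat_lit 152) (nat_lit 210244410895) (nat_lit 1) (nat_lit 5) (nat_lit 2) (nat_lit 5) (nat_lit 3) (nat_lit 4) (nat_lit 304) (nat_lit 210) (nat_lit 206)))))) (XT.nd (nat_lit 624) (nat_lit 0) (nat_lit 0) (XT.nd (nat_lit 312) (nat_lit 0) (nat_lit 0) (XT.nd (nat_lit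 156) (nat_lit 0) (nat_lit 0) (XT.nd (nat_lit 78) (nat_lit 0) (nat_lit 0) (XT.lf (nat_lit 0) (nat_lit 2114227913) (nat_lit 152) (nat_lit 224210187948) (nat_lit 0) (nat_lit 1267273803) (nat_lit 1) (nat_lit 5) (nat_lit 3) (nat_lit 4) (nat_lit 1) (nat_lit 4) (nat_lit 305) (nat_lit 210) (nat_lit 205)) (XT.lf (nat_lit 0) (nat_lit 3708668555) (nat_lit 152) (nat_lit 239276858670) (nat_lit 0) (nat_lit 2728039636) (nat_lit 1) (nat_lit 5) (nat_lit 3) (nat_lit 4) (nat_lit 1) (nat_lit 4) (nat_lit 306) (nat_lit 210) (nat_lit 204))) (XT.nd (nat_lit 78) (nat_lit 0) (nat_lit 0) (XT.lf (nat_lit 0) (nat_lit 5361863310) (nat_lit 152) (nat_lit 255669460263) (nat_lit 0) (nat_lit 4257461418) (nat_lit 1) (nat_lit 5) (nat_lit 3) (nat_lit 4) (nat_lit 1) (nat_lit 4) (nat_lit 307) (nat_lit 210) (nat_lit 203)) (XT.lf (nat_lit 0) (nat_lit 7083608886) (nat_lit 152) (nat_lit 273485134070) (nat_lit 0) (nat_lit 5864602390)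 (nat_lit 1) (nat_lit 5) (nat_lit 3) (nat_lit 4) (nat_lit 1) (nat_lit 4) (nat_lit 308) (nat_lit 210) (nat_lit 202)))) (XT.nd (nat_lit 156) (nat_lit 0) (nat_lit 0) (XT.nd (nat_lit 78) (nat_lit 0) (nat_lit 0) (XT.lf (nat_lit 0) (nat_lit 8884108220) (nat_lit 152) (nat_lit 292829454456) (nat_lit 0) (nat_lit 7558986351) (nat_lit 1) (nat_lit 5) (nat_lit 3) (nat_lit 4) (nat_lit 1) (nat_lit 4) (nat_lit 309) (nat_lit 210) (nat_lit 201)) (XT.lf (nat_lit 0) (nat_lit 10774030939) (nat_lit 152) (nat_lit 313817054429) (nat_lit 0) (nat_lit 9350654094) (nat_lit 1) (nat_lit 5) (nat_lit 3) (nat_lit 4) (nat_lit 1) (nat_lit 4) (nat_lit 310) (nat_lit 210) (nat_lit 200))) (XT.nd (nat_lit 78) (nat_lit 0) (nat_lit 0) (XT.lf (nat_lit 0) (nat_lit 12764576585) (nat_lit 152) (nat_lit 336572304953) (nat_lit 0) (nat_lit 11250222910) (nat_lit 1) (nat_lit 5) (nat_lit 3) (nat_lit 4) (nat_lit 1) (nat_lit 4) (nat_lit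 311) (nat_lit 210) (nat_lit 199)) (XT.lf (nat_lit 0) (nat_lit 14867540982) (nat_lit 152) (nat_lit 361230051956) (nat_lit 0) (nat_lit 13268949502) (nat_lit 1) (nat_lit 5) (nat_lit 3) (nat_lit 4) (nat_lit 1) (nat_lit 4) (nat_lit 312) (nat_lit 210) (nat_lit 198))))) (XT.nd (nat_lit 312) (nat_lit 0) (nat_lit 0) (XT.nd (nat_lit 156) (nat_lit 0) (nat_lit 0) (XT.nd (nat_lit 78) (nat_lit 0) (nat_lit 0) (XT.lf (nat_lit 0) (nat_lit 17095386143) (nat_lit 152) (nat_lit 387936415420) (nat_lit 0) (nat_lit 15418796696) (nat_lit 1) (nat_lit 5) (nat_lit 3) (nat_lit 4) (nat_lit 1) (nat_lit 4) (nat_lit 313) (nat_lit 210) (nat_lit 197)) (XT.lf (nat_lit 0) (nat_lit 19461314113) (nat_lit 152) (nat_lit 416849655278) (nat_lit 0) (nat_lit 17712504325) (nat_lit 1) (nat_lit 5) (nat_lit 3) (nat_lit 4) (nat_lit 1) (nat_lit 4) (nat_lit 314) (nat_lit 210) (nat_lit 196))) (XT.nd (nat_lit 78) (nat_lit 0) (nat_lit 0)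 (XT.lf (nat_lit 0) (nat_lit 21979345206) (nat_lit 152) (nat_lit 448141109247) (nat_lit 0) (nat_lit 20163664733) (nat_lit 1) (nat_lit 5) (nat_lit 3) (nat_lit 4) (nat_lit 1) (nat_lit 4) (nat_lit 315) (nat_lit 210) (nat_lit 195)) (XT.lf (nat_lit 0) (nat_lit 24664401087) (nat_lit 152) (nat_lit 481996208165) (nat_lit 0) (nat_lit 22786803312) (nat_lit 1) (nat_lit 5) (nat_lit 3) (nat_lit 4) (nat_lit 1) (nat_lit 4) (nat_lit 316) (nat_lit 210) (nat_lit 194)))) (XT.nd (nat_lit 156) (nat_lit 0) (nat_lit 0) (XT.nd (nat_lit 78) (nat_lit 0) (nat_lit 0) (XT.lf (nat_lit 0) (nat_lit 27532393200) (nat_lit 152) (nat_lit 518615574841) (nat_lit 0) (nat_lit 25597464590) (nat_lit 1) (nat_lit 5) (nat_lit 3) (nat_lit 4) (nat_lit 1) (nat_lit 4) (nat_lit 317) (nat_lit 210) (nat_lit 193)) (XT.lf (nat_lit 0) (nat_lit 30600317051) (nat_lit 152) (nat_lit 558216212929) (nat_lit 0) (nat_lit 28612304336) (nat_lit 1)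 (nat_lit 5) (nat_lit 3) (nat_lit 4) (nat_lit 1) (nat_lit 4) (nat_lit 318) (nat_lit 210) (nat_lit 192))) (XT.nd (nat_lit 78) (nat_lit 0) (nat_lit 0) (XT.lf (nat_lit 0) (nat_lit 33886352932) (nat_lit 152) (nat_lit 601032792877) (nat_lit 0) (nat_lit 31849188266) (nat_lit 1) (nat_lit 5) (nat_lit 3) (nat_lit 4) (nat_lit 1) (nat_lit 4) (nat_lit 319) (nat_lit 210) (nat_lit 191)) (XT.nd (nat_lit 78) (nat_lit 0) (nat_lit 0) (XT.lf (nat_lit 0) (nat_lit 37409973648) (nat_lit 152) (nat_lit 647319042566) (nat_lit 0) (nat_lit 35327297917) (nat_lit 1) (nat_lit 5) (nat_lit 3) (nat_lit 4) (nat_lit 1) (nat_lit 4) (nat_lit 320) (nat_lit 210) (nat_lit 190)) (XT.lf (nat_lit 0) (nat_lit 41192059913) (nat_lit 152) (nat_lit 697349250883) (nat_lit 0) (nat_lit 39067244307) (nat_lit 1) (nat_lit 5) (nat_lit 3) (nat_lit 4) (nat_lit 1) (nat_lit 4) (nat_lit 321) (nat_lit 210) (nat_lit 189))))))))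
noncomputable def xc4 : XT := (XT.nd (nat_lit 1248) (nat_lit 0) (nat_lit 0) (XT.nd (nat_lit 624) (nat_lit 0) (nat_lit 0) (XT.nd (nat_lit 312) (nat_lit 152) (nat_lit 0) (XT.nd (nat_lit 156) (nat_lit 0) (nat_lit 0) (XT.nd (nat_lit 78) (nat_lit 0) (nat_lit 0) (XT.lf (nat_lit 0) (nat_lit 58889801529) (nat_lit 76) (nat_lit 3884577978) (nat_lit 76) (nat_lit 3884577978) (nat_lit 3) (nat_lit 4) (nat_lit 4) (nat_lit 5) (nat_lit 4) (nat_lit 4) (nat_lit 298) (nat_lit 211) (nat_lit 211)) (XT.lf (nat_lit 0) (nat_lit 130837793943) (nat_lit 76) (nat_lit 6628708009) (nat_lit 76) (nat_lit 6405976629) (nat_lit 3) (nat_lit 4) (nat_lit 4) (nat_lit 5) (nat_lit 4) (nat_lit 4) (nat_lit 299) (nat_lit 211) (nat_lit 210))) (XT.nd (nat_lit 78) (nat_lit 0) (nat_lit 0) (XT.lf (nat_lit 0) (nat_lit 144763366047) (nat_lit 76) (nat_lit 5471205553) (nat_lit 76) (nat_lit 5042241415) (nat_lit 3) (nat_lit 4) (nat_lit 4)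 (nat_lit 5) (nat_lit 4) (nat_lit 4) (nat_lit 300) (nat_lit 211) (nat_lit 209)) (XT.lf (nat_lit 0) (nat_lit 159638841277) (nat_lit 76) (nat_lit 4289789318) (nat_lit 76) (nat_lit 3669868921) (nat_lit 3) (nat_lit 4) (nat_lit 4) (nat_lit 5) (nat_lit 4) (nat_lit 4) (nat_lit 301) (nat_lit 211) (nat_lit 208)))) (XT.nd (nat_lit 156) (nat_lit 152) (nat_lit 0) (XT.nd (nat_lit 78) (nat_lit 0) (nat_lit 0) (XT.lf (nat_lit 0) (nat_lit 175552370599) (nat_lit 76) (nat_lit 3077458317) (nat_lit 76) (nat_lit 2280726570) (nat_lit 3) (nat_lit 4) (nat_lit 4) (nat_lit 5) (nat_lit 4) (nat_lit 4) (nat_lit 302) (nat_lit 211) (nat_lit 207)) (XT.lf (nat_lit 0) (nat_lit 192598256408) (nat_lit 76) (nat_lit 1827028367) (nat_lit 76) (nat_lit 866582407) (nat_lit 3) (nat_lit 4) (nat_lit 4) (nat_lit 5) (nat_lit 4) (nat_lit 4) (nat_lit 303) (nat_lit 211) (nat_lit 206))) (XT.nd (nat_lit 78) (nat_lit 0) (nat_lit 0) (XT.lf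 (nat_lit 0) (nat_lit 42132512) (nat_lit 76) (nat_lit 520875149) (nat_lit 152) (nat_lit 210264163132) (nat_lit 1) (nat_lit 5) (nat_lit 2) (nat_lit 5) (nat_lit 3) (nat_lit 4) (nat_lit 304) (nat_lit 211) (nat_lit 205)) (XT.lf (nat_lit 0) (nat_lit 2064286739) (nat_lit 152) (nat_lit 224669547570) (nat_lit 0) (nat_lit 871532697) (nat_lit 1) (nat_lit 5) (nat_lit 3) (nat_lit 4) (nat_lit 1) (nat_lit 4) (nat_lit 305) (nat_lit 211) (nat_lit 204))))) (XT.nd (nat_lit 312) (nat_lit 0) (nat_lit 0) (XT.nd (nat_lit 156) (nat_lit 0) (nat_lit 0) (XT.nd (nat_lit 78) (nat_lit 0) (nat_lit 0) (XT.lf (nat_lit 0) (nat_lit 3625649911) (nat_lit 152) (nat_lit 239794197721) (nat_lit 0) (nat_lit 2309122896) (nat_lit 1) (nat_lit 5) (nat_lit 3) (nat_lit 4) (nat_lit 1) (nat_lit 4) (nat_lit 306) (nat_lit 211) (nat_lit 203)) (XT.lf (nat_lit 0) (nat_lit 5248217378) (nat_lit 152) (nat_lit 256240483971) (nat_lit 0) (nat_lit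 3817085759) (nat_lit 1) (nat_lit 5) (nat_lit 3) (nat_lit 4) (nat_lit 1) (nat_lit 4) (nat_lit 307) (nat_lit 211) (nat_lit 202))) (XT.nd (nat_lit 78) (nat_lit 0) (nat_lit 0) (XT.lf (nat_lit 0) (nat_lit 6941604354) (nat_lit 152) (nat_lit 274105865795) (nat_lit 0) (nat_lit 5404357361) (nat_lit 1) (nat_lit 5) (nat_lit 3) (nat_lit 4) (nat_lit 1) (nat_lit 4) (nat_lit 308) (nat_lit 211) (nat_lit 201)) (XT.lf (nat_lit 0) (nat_lit 8715845726) (nat_lit 152) (nat_lit 293496212121) (nat_lit 0) (nat_lit 7080343757) (nat_lit 1) (nat_lit 5) (nat_lit 3) (nat_lit 4) (nat_lit 1) (nat_lit 4) (nat_lit 309) (nat_lit 211) (nat_lit 200)))) (XT.nd (nat_lit 156) (nat_lit 0) (nat_lit 0) (XT.nd (nat_lit 78) (nat_lit 0) (nat_lit 0) (XT.lf (nat_lit 0) (nat_lit 10581455516) (nat_lit 152) (nat_lit 314526428706) (nat_lit 0) (nat_lit 8854976718) (nat_lit 1) (nat_lit 5) (nat_lit 3) (nat_lit 4) (nat_lit 1) (nat_lit 4)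 (nat_lit 310) (nat_lit 211) (nat_lit 199)) (XT.lf (nat_lit 0) (nat_lit 12549489191) (nat_lit 152) (nat_lit 337321139056) (nat_lit 0) (nat_lit 10738772588) (nat_lit 1) (nat_lit 5) (nat_lit 3) (nat_lit 4) (nat_lit 1) (nat_lit 4) (nat_lit 311) (nat_lit 211) (nat_lit 198))) (XT.nd (nat_lit 78) (nat_lit 0) (nat_lit 0) (XT.lf (nat_lit 0) (nat_lit 14631609171) (nat_lit 152) (nat_lit 362015422934) (nat_lit 0) (nat_lit 12742894600) (nat_lit 1) (nat_lit 5) (nat_lit 3) (nat_lit 4) (nat_lit 1) (nat_lit 4) (nat_lit 312) (nat_lit 211) (nat_lit 197)) (XT.lf (nat_lit 0) (nat_lit 16840153945) (nat_lit 152) (nat_lit 388755616839) (nat_lit 0) (nat_lit 14879219034) (nat_lit 1) (nat_lit 5) (nat_lit 3) (nat_lit 4) (nat_lit 1) (nat_lit 4) (nat_lit 313) (nat_lit 211) (nat_lit 196)))))) (XT.nd (nat_lit 36114) (nat_lit 0) (nat_lit 76) (XT.nd (nat_lit 312) (nat_lit 0) (nat_lit 0) (XT.nd (nat_lit 156) (nat_lit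 0) (nat_lit 0) (XT.nd (nat_lit 78) (nat_lit 0) (nat_lit 0) (XT.lf (nat_lit 0) (nat_lit 19188211187) (nat_lit 152) (nat_lit 417700181179) (nat_lit 0) (nat_lit 17160405590) (nat_lit 1) (nat_lit 5) (nat_lit 3) (nat_lit 4) (nat_lit 1) (nat_lit 4) (nat_lit 314) (nat_lit 211) (nat_lit 195)) (XT.lf (nat_lit 0) (nat_lit 21689695309) (nat_lit 152) (nat_lit 449020639298) (nat_lit 0) (nat_lit 19599972411) (nat_lit 1) (nat_lit 5) (nat_lit 3) (nat_lit 4) (nat_lit 1) (nat_lit 4) (nat_lit 315) (nat_lit 211) (nat_lit 194))) (XT.nd (nat_lit 78) (nat_lit 0) (nat_lit 0) (XT.lf (nat_lit 0) (nat_lit 24359429922) (nat_lit 152) (nat_lit 482902593910) (nat_lit 0) (nat_lit 22212376189) (nat_lit 1) (nat_lit 5) (nat_lit 3) (nat_lit 4) (nat_lit 1) (nat_lit 4) (nat_lit 316) (nat_lit 211) (nat_lit 193)) (XT.lf (nat_lit 0) (nat_lit 27213235674) (nat_lit 152) (nat_lit 519546826970) (nat_lit 0) (nat_lit 25013097834)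 (nat_lit 1) (nat_lit 5) (nat_lit 3) (nat_lit 4) (nat_lit 1) (nat_lit 4) (nat_lit 317) (nat_lit 211) (nat_lit 192)))) (XT.nd (nat_lit 156) (nat_lit 0) (nat_lit 0) (XT.nd (nat_lit 78) (nat_lit 0) (nat_lit 0) (XT.lf (nat_lit 0) (nat_lit 30268024007) (nat_lit 152) (nat_lit 559170489487) (nat_lit 0) (nat_lit 28018734217) (nat_lit 1) (nat_lit 5) (nat_lit 3) (nat_lit 4) (nat_lit 1) (nat_lit 4) (nat_lit 318) (nat_lit 211) (nat_lit 191)) (XT.lf (nat_lit 0) (nat_lit 33541897370) (nat_lit 152) (nat_lit 602008388351) (nat_lit 0) (nat_lit 31247096516) (nat_lit 1) (nat_lit 5) (nat_lit 3) (nat_lit 4) (nat_lit 1) (nat_lit 4) (nat_lit 319) (nat_lit 211) (nat_lit 190))) (XT.nd (nat_lit 78) (nat_lit 0) (nat_lit 0) (XT.lf (nat_lit 0) (nat_lit 37054256495) (nat_lit 152) (nat_lit 648314377777) (nat_lit 0) (nat_lit 34717315766) (nat_lit 1) (nat_lit 5) (nat_lit 3) (nat_lit 4) (nat_lit 1) (nat_lit 4) (nat_lit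 320) (nat_lit 211) (nat_lit 189)) (XT.lf (nat_lit 0) (nat_lit 40825915362) (nat_lit 152) (nat_lit 698362863628) (nat_lit 0) (nat_lit 38449956230) (nat_lit 1) (nat_lit 5) (nat_lit 3) (nat_lit 4) (nat_lit 1) (nat_lit 4) (nat_lit 321) (nat_lit 211) (nat_lit 188))))) (XT.nd (nat_lit 312) (nat_lit 76) (nat_lit 0) (XT.nd (nat_lit 156) (nat_lit 0) (nat_lit 0) (XT.nd (nat_lit 78) (nat_lit 0) (nat_lit 0) (XT.lf (nat_lit 0) (nat_lit 47029964382) (nat_lit 76) (nat_lit 5112405722) (nat_lit 76) (nat_lit 5112405722) (nat_lit 3) (nat_lit 4) (nat_lit 4) (nat_lit 5) (nat_lit 4) (nat_lit 4) (nat_lit 296) (nat_lit 212) (nat_lit 212)) (XT.lf (nat_lit 0) (nat_lit 105511411518) (nat_lit 76) (nat_lit 9139857500) (nat_lit 76) (nat_lit 8899307610) (nat_lit 3) (nat_lit 4) (nat_lit 4) (nat_lit 5) (nat_lit 4) (nat_lit 4) (nat_lit 297) (nat_lit 212) (nat_lit 211))) (XT.nd (nat_lit 78) (nat_lit 0) (nat_lit 0) (XT.lf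 (nat_lit 0) (nat_lit 117687556915) (nat_lit 76) (nat_lit 8048223076) (nat_lit 76) (nat_lit 7584941806) (nat_lit 3) (nat_lit 4) (nat_lit 4) (nat_lit 5) (nat_lit 4) (nat_lit 4) (nat_lit 298) (nat_lit 212) (nat_lit 210)) (XT.lf (nat_lit 0) (nat_lit 130660519891) (nat_lit 76) (nat_lit 6943439228) (nat_lit 76) (nat_lit 6273925200) (nat_lit 3) (nat_lit 4) (nat_lit 4) (nat_lit 5) (nat_lit 4) (nat_lit 4) (nat_lit 299) (nat_lit 212) (nat_lit 209)))) (XT.nd (nat_lit 156) (nat_lit 76) (nat_lit 0) (XT.nd (nat_lit 78) (nat_lit 0) (nat_lit 0) (XT.lf (nat_lit 0) (nat_lit 144507177263) (nat_lit 76) (nat_lit 5818959088) (nat_lit 76) (nat_lit 4958488802) (nat_lit 3) (nat_lit 4) (nat_lit 4) (nat_lit 5) (nat_lit 4) (nat_lit 4) (nat_lit 300) (nat_lit 212) (nat_lit 208)) (XT.lf (nat_lit 0) (nat_lit 159309583297) (nat_lit 76) (nat_lit 4668119071) (nat_lit 76) (nat_lit 3630837434) (nat_lit 3) (nat_lit 4) (nat_lit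 4) (nat_lit 5) (nat_lit 4) (nat_lit 4) (nat_lit 301) (nat_lit 212) (nat_lit 207))) (XT.nd (nat_lit 78) (nat_lit 76) (nat_lit 0) (XT.lf (nat_lit 0) (nat_lit 175155455956) (nat_lit 76) (nat_lit 3484099383) (nat_lit 76) (nat_lit 2283103533) (nat_lit 3) (nat_lit 4) (nat_lit 4) (nat_lit 5) (nat_lit 4) (nat_lit 4) (nat_lit 302) (nat_lit 212) (nat_lit 206)) (XT.nd (nat_lit 78) (nat_lit 76) (nat_lit 0) (XT.lf (nat_lit 0) (nat_lit 192138696707) (nat_lit 76) (nat_lit 2259883612) (nat_lit 76) (nat_lit 907300527) (nat_lit 3) (nat_lit 4) (nat_lit 4) (nat_lit 5) (nat_lit 4) (nat_lit 4) (nat_lit 303) (nat_lit 212) (nat_lit 205)) (XT.lf (nat_lit 0) (nat_lit 488570153) (nat_lit 152) (nat_lit 491372820) (nat_lit 76) (nat_lit 209863102650) (nat_lit 2) (nat_lit 5) (nat_lit 4) (nat_lit 5) (nat_lit 3) (nat_lit 4) (nat_lit 304) (nat_lit 212) (nat_lit 204))))))))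
noncomputable def xc5 : XT := (XT.nd (nat_lit 1248) (nat_lit 0) (nat_lit 0) (XT.nd (nat_lit 624) (nat_lit 0) (nat_lit 0) (XT.nd (nat_lit 312) (nat_lit 0) (nat_lit 0) (XT.nd (nat_lit 156) (nat_lit 0) (nat_lit 0) (XT.nd (nat_lit 78) (nat_lit 0) (nat_lit 0) (XT.lf (nat_lit 0) (nat_lit 1941549133) (nat_lit 152) (nat_lit 225286253175) (nat_lit 0) (nat_lit 395926985) (nat_lit 1) (nat_lit 5) (nat_lit 3) (nat_lit 4) (nat_lit 1) (nat_lit 4) (nat_lit 305) (nat_lit 212) (nat_lit 203)) (XT.lf (nat_lit 0) (nat_lit 3472285017) (nat_lit 152) (nat_lit 240464587984) (nat_lit 0) (nat_lit 1812058264) (nat_lit 1) (nat_lit 5) (nat_lit 3) (nat_lit 4) (nat_lit 1) (nat_lit 4) (nat_lit 306) (nat_lit 212) (nat_lit 202))) (XT.nd (nat_lit 78) (nat_lit 0) (nat_lit 0) (XT.lf (nat_lit 0) (nat_lit 5066493884) (nat_lit 152) (nat_lit 256960582250) (nat_lit 0) (nat_lit 3300151757) (nat_lit 1) (nat_lit 5) (nat_lit 3)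 (nat_lit 4) (nat_lit 1) (nat_lit 4) (nat_lit 307) (nat_lit 212) (nat_lit 201)) (XT.lf (nat_lit 0) (nat_lit 6733622897) (nat_lit 152) (nat_lit 274871990014) (nat_lit 0) (nat_lit 4869025795) (nat_lit 1) (nat_lit 5) (nat_lit 3) (nat_lit 4) (nat_lit 1) (nat_lit 4) (nat_lit 308) (nat_lit 212) (nat_lit 200)))) (XT.nd (nat_lit 156) (nat_lit 0) (nat_lit 0) (XT.nd (nat_lit 78) (nat_lit 0) (nat_lit 0) (XT.lf (nat_lit 0) (nat_lit 8483551341) (nat_lit 152) (nat_lit 294304952953) (nat_lit 0) (nat_lit 6527977409) (nat_lit 1) (nat_lit 5) (nat_lit 3) (nat_lit 4) (nat_lit 1) (nat_lit 4) (nat_lit 309) (nat_lit 212) (nat_lit 199)) (XT.lf (nat_lit 0) (nat_lit 10326649160) (nat_lit 152) (nat_lit 315374629363) (nat_lit 0) (nat_lit 8286837424) (nat_lit 1) (nat_lit 5) (nat_lit 3) (nat_lit 4) (nat_lit 1) (nat_lit 4) (nat_lit 310) (nat_lit 212) (nat_lit 198))) (XT.nd (nat_lit 78) (nat_lit 0) (nat_lit 0) (XT.lf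 (nat_lit 0) (nat_lit 12273838417) (nat_lit 152) (nat_lit 338205876588) (nat_lit 0) (nat_lit 10156028713) (nat_lit 1) (nat_lit 5) (nat_lit 3) (nat_lit 4) (nat_lit 1) (nat_lit 4) (nat_lit 311) (nat_lit 212) (nat_lit 197)) (XT.lf (nat_lit 0) (nat_lit 14336658011) (nat_lit 152) (nat_lit 362933990907) (nat_lit 0) (nat_lit 12146627966) (nat_lit 1) (nat_lit 5) (nat_lit 3) (nat_lit 4) (nat_lit 1) (nat_lit 4) (nat_lit 312) (nat_lit 212) (nat_lit 196))))) (XT.nd (nat_lit 312) (nat_lit 0) (nat_lit 0) (XT.nd (nat_lit 156) (nat_lit 0) (nat_lit 0) (XT.nd (nat_lit 78) (nat_lit 0) (nat_lit 0) (XT.lf (nat_lit 0) (nat_lit 16527332057) (nat_lit 152) (nat_lit 389705509294) (nat_lit 0) (nat_lit 14270431327) (nat_lit 1) (nat_lit 5) (nat_lit 3) (nat_lit 4) (nat_lit 1) (nat_lit 4) (nat_lit 313) (nat_lit 212) (nat_lit 195)) (XT.lf (nat_lit 0) (nat_lit 18858842328) (nat_lit 152) (nat_lit 418679077784) (nat_lit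 0) (nat_lit 16540024297) (nat_lit 1) (nat_lit 5) (nat_lit 3) (nat_lit 4) (nat_lit 1) (nat_lit 4) (nat_lit 314) (nat_lit 212) (nat_lit 194))) (XT.nd (nat_lit 78) (nat_lit 0) (nat_lit 0) (XT.lf (nat_lit 0) (nat_lit 21345005181) (nat_lit 152) (nat_lit 450026391597) (nat_lit 0) (nat_lit 18968856315) (nat_lit 1) (nat_lit 5) (nat_lit 3) (nat_lit 4) (nat_lit 1) (nat_lit 4) (nat_lit 315) (nat_lit 212) (nat_lit 193)) (XT.lf (nat_lit 0) (nat_lit 24000553433) (nat_lit 152) (nat_lit 483933212593) (nat_lit 0) (nat_lit 21571320461) (nat_lit 1) (nat_lit 5) (nat_lit 3) (nat_lit 4) (nat_lit 1) (nat_lit 4) (nat_lit 316) (nat_lit 212) (nat_lit 192)))) (XT.nd (nat_lit 156) (nat_lit 0) (nat_lit 0) (XT.nd (nat_lit 78) (nat_lit 0) (nat_lit 0) (XT.lf (nat_lit 0) (nat_lit 26841223667) (nat_lit 152) (nat_lit 520600470082) (nat_lit 0) (nat_lit 24362838744) (nat_lit 1) (nat_lit 5) (nat_lit 3) (nat_lit 4) (nat_lit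 1) (nat_lit 4) (nat_lit 317) (nat_lit 212) (nat_lit 191)) (XT.lf (nat_lit 0) (nat_lit 29883849482) (nat_lit 152) (nat_lit 560245451515) (nat_lit 0) (nat_lit 27359953495) (nat_lit 1) (nat_lit 5) (nat_lit 3) (nat_lit 4) (nat_lit 1) (nat_lit 4) (nat_lit 318) (nat_lit 212) (nat_lit 190))) (XT.nd (nat_lit 78) (nat_lit 0) (nat_lit 0) (XT.lf (nat_lit 0) (nat_lit 33146461256) (nat_lit 152) (nat_lit 603103090116) (nat_lit 0) (nat_lit 30580425393) (nat_lit 1) (nat_lit 5) (nat_lit 3) (nat_lit 4) (nat_lit 1) (nat_lit 4) (nat_lit 319) (nat_lit 212) (nat_lit 189)) (XT.lf (nat_lit 0) (nat_lit 36648392983) (nat_lit 152) (nat_lit 649427357076) (nat_lit 0) (nat_lit 34043338717) (nat_lit 1) (nat_lit 5) (nat_lit 3) (nat_lit 4) (nat_lit 1) (nat_lit 4) (nat_lit 320) (nat_lit 212) (nat_lit 188)))))) (XT.nd (nat_lit 35958) (nat_lit 0) (nat_lit 0) (XT.nd (nat_lit 35646) (nat_lit 0) (nat_lit 152) (XT.nd (nat_lit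 35490) (nat_lit 0) (nat_lit 152) (XT.nd (nat_lit 35412) (nat_lit 0) (nat_lit 152) (XT.lf (nat_lit 0) (nat_lit 40410396851) (nat_lit 152) (nat_lit 699492766571) (nat_lit 0) (nat_lit 37769214435) (nat_lit 1) (nat_lit 5) (nat_lit 3) (nat_lit 4) (nat_lit 1) (nat_lit 4) (nat_lit 321) (nat_lit 212) (nat_lit 187)) (XT.lf (nat_lit 0) (nat_lit 36585381707) (nat_lit 76) (nat_lit 6307630608) (nat_lit 76) (nat_lit 6307630608) (nat_lit 3) (nat_lit 4) (nat_lit 4) (nat_lit 5) (nat_lit 4) (nat_lit 4) (nat_lit 294) (nat_lit 213) (nat_lit 213))) (XT.nd (nat_lit 78) (nat_lit 0) (nat_lit 0) (XT.lf (nat_lit 0) (nat_lit 83265248016) (nat_lit 76) (nat_lit 11569308146) (nat_lit 76) (nat_lit 11309514264) (nat_lit 3) (nat_lit 4) (nat_lit 4) (nat_lit 5) (nat_lit 4) (nat_lit 4) (nat_lit 295) (nat_lit 213) (nat_lit 212)) (XT.lf (nat_lit 0) (nat_lit 93960518931) (nat_lit 76) (nat_lit 10526203932) (nat_lit 76) (nat_lit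 10025860161) (nat_lit 3) (nat_lit 4) (nat_lit 4) (nat_lit 5) (nat_lit 4) (nat_lit 4) (nat_lit 296) (nat_lit 213) (nat_lit 211)))) (XT.nd (nat_lit 156) (nat_lit 0) (nat_lit 0) (XT.nd (nat_lit 78) (nat_lit 0) (nat_lit 0) (XT.lf (nat_lit 0) (nat_lit 105319955541) (nat_lit 76) (nat_lit 9479767217) (nat_lit 76) (nat_lit 8756692066) (nat_lit 3) (nat_lit 4) (nat_lit 4) (nat_lit 5) (nat_lit 4) (nat_lit 4) (nat_lit 297) (nat_lit 213) (nat_lit 210)) (XT.lf (nat_lit 0) (nat_lit 117410873028) (nat_lit 76) (nat_lit 8423796894) (nat_lit 76) (nat_lit 7494488984) (nat_lit 3) (nat_lit 4) (nat_lit 4) (nat_lit 5) (nat_lit 4) (nat_lit 4) (nat_lit 298) (nat_lit 213) (nat_lit 209))) (XT.nd (nat_lit 78) (nat_lit 0) (nat_lit 0) (XT.lf (nat_lit 0) (nat_lit 130304921272) (nat_lit 76) (nat_lit 7352035361) (nat_lit 76) (nat_lit 6231771193) (nat_lit 3) (nat_lit 4) (nat_lit 4) (nat_lit 5) (nat_lit 4) (nat_lit 4)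 (nat_lit 299) (nat_lit 213) (nat_lit 208)) (XT.lf (nat_lit 0) (nat_lit 144078509448) (nat_lit 76) (nat_lit 6258131439) (nat_lit 76) (nat_lit 4961055921) (nat_lit 3) (nat_lit 4) (nat_lit 4) (nat_lit 5) (nat_lit 4) (nat_lit 4) (nat_lit 300) (nat_lit 213) (nat_lit 207))))) (XT.nd (nat_lit 312) (nat_lit 76) (nat_lit 0) (XT.nd (nat_lit 156) (nat_lit 76) (nat_lit 0) (XT.nd (nat_lit 78) (nat_lit 0) (nat_lit 0) (XT.lf (nat_lit 0) (nat_lit 158813258820) (nat_lit 76) (nat_lit 5135602735) (nat_lit 76) (nat_lit 3674813004) (nat_lit 3) (nat_lit 4) (nat_lit 4) (nat_lit 5) (nat_lit 4) (nat_lit 4) (nat_lit 301) (nat_lit 213) (nat_lit 206)) (XT.lf (nat_lit 0) (nat_lit 174596486421) (nat_lit 76) (nat_lit 3977797226) (nat_lit 76) (nat_lit 2365420260) (nat_lit 3) (nat_lit 4) (nat_lit 4) (nat_lit 5) (nat_lit 4) (nat_lit 4) (nat_lit 302) (nat_lit 213) (nat_lit 205))) (XT.nd (nat_lit 78) (nat_lit 76) (nat_lit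 0) (XT.lf (nat_lit 0) (nat_lit 191521722488) (nat_lit 76) (nat_lit 2777853842) (nat_lit 76) (nat_lit 1025118326) (nat_lit 3) (nat_lit 4) (nat_lit 4) (nat_lit 5) (nat_lit 4) (nat_lit 4) (nat_lit 303) (nat_lit 213) (nat_lit 204)) (XT.lf (nat_lit 0) (nat_lit 342703986) (nat_lit 152) (nat_lit 1180153965) (nat_lit 76) (nat_lit 209340756872) (nat_lit 2) (nat_lit 5) (nat_lit 4) (nat_lit 5) (nat_lit 3) (nat_lit 4) (nat_lit 304) (nat_lit 213) (nat_lit 203)))) (XT.nd (nat_lit 156) (nat_lit 0) (nat_lit 0) (XT.nd (nat_lit 78) (nat_lit 0) (nat_lit 0) (XT.lf (nat_lit 0) (nat_lit 1580176348) (nat_lit 76) (nat_lit 167730148) (nat_lit 152) (nat_lit 225898847905) (nat_lit 1) (nat_lit 5) (nat_lit 2) (nat_lit 5) (nat_lit 3) (nat_lit 4) (nat_lit 305) (nat_lit 213) (nat_lit 202)) (XT.lf (nat_lit 0) (nat_lit 3247665043) (nat_lit 152) (nat_lit 241292002140) (nat_lit 0) (nat_lit 1233900173) (nat_lit 1) (nat_lit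 5) (nat_lit 3) (nat_lit 4) (nat_lit 1) (nat_lit 4) (nat_lit 306) (nat_lit 213) (nat_lit 201))) (XT.nd (nat_lit 78) (nat_lit 0) (nat_lit 0) (XT.lf (nat_lit 0) (nat_lit 4815615947) (nat_lit 152) (nat_lit 257834022348) (nat_lit 0) (nat_lit 2703596101) (nat_lit 1) (nat_lit 5) (nat_lit 3) (nat_lit 4) (nat_lit 1) (nat_lit 4) (nat_lit 307) (nat_lit 213) (nat_lit 200)) (XT.nd (nat_lit 78) (nat_lit 0) (nat_lit 0) (XT.lf (nat_lit 0) (nat_lit 6458432033) (nat_lit 152) (nat_lit 275788046724) (nat_lit 0) (nat_lit 4255435357) (nat_lit 1) (nat_lit 5) (nat_lit 3) (nat_lit 4) (nat_lit 1) (nat_lit 4) (nat_lit 308) (nat_lit 213) (nat_lit 199)) (XT.lf (nat_lit 0) (nat_lit 8185848505) (nat_lit 152) (nat_lit 295260469488) (nat_lit 0) (nat_lit 5898614025) (nat_lit 1) (nat_lit 5) (nat_lit 3) (nat_lit 4) (nat_lit 1) (nat_lit 4) (nat_lit 309) (nat_lit 213) (nat_lit 198))))))))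
noncomputable def xc6 : XT := (XT.nd (nat_lit 36426) (nat_lit 0) (nat_lit 0) (XT.nd (nat_lit 624) (nat_lit 0) (nat_lit 0) (XT.nd (nat_lit 312) (nat_lit 0) (nat_lit 0) (XT.nd (nat_lit 156) (nat_lit 0) (nat_lit 0) (XT.nd (nat_lit 78) (nat_lit 0) (nat_lit 0) (XT.lf (nat_lit 0) (nat_lit 10008101907) (nat_lit 152) (nat_lit 316366682774) (nat_lit 0) (nat_lit 7642869459) (nat_lit 1) (nat_lit 5) (nat_lit 3) (nat_lit 4) (nat_lit 1) (nat_lit 4) (nat_lit 310) (nat_lit 213) (nat_lit 197)) (XT.lf (nat_lit 0) (nat_lit 11935990778) (nat_lit 152) (nat_lit 339231760439) (nat_lit 0) (nat_lit 9498537989) (nat_lit 1) (nat_lit 5) (nat_lit 3) (nat_lit 4) (nat_lit 1) (nat_lit 4) (nat_lit 311) (nat_lit 213) (nat_lit 196))) (XT.nd (nat_lit 78) (nat_lit 0) (nat_lit 0) (XT.lf (nat_lit 0) (nat_lit 13980939643) (nat_lit 152) (nat_lit 363991199240) (nat_lit 0) (nat_lit 11476616169) (nat_lit 1) (nat_lit 5) (nat_lit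 3) (nat_lit 4) (nat_lit 1) (nat_lit 4) (nat_lit 312) (nat_lit 213) (nat_lit 195)) (XT.lf (nat_lit 0) (nat_lit 16155066719) (nat_lit 152) (nat_lit 390791721777) (nat_lit 0) (nat_lit 13588825943) (nat_lit 1) (nat_lit 5) (nat_lit 3) (nat_lit 4) (nat_lit 1) (nat_lit 4) (nat_lit 313) (nat_lit 213) (nat_lit 194)))) (XT.nd (nat_lit 156) (nat_lit 0) (nat_lit 0) (XT.nd (nat_lit 78) (nat_lit 0) (nat_lit 0) (XT.lf (nat_lit 0) (nat_lit 18471255721) (nat_lit 152) (nat_lit 419792145961) (nat_lit 0) (nat_lit 15847684110) (nat_lit 1) (nat_lit 5) (nat_lit 3) (nat_lit 4) (nat_lit 1) (nat_lit 4) (nat_lit 314) (nat_lit 213) (nat_lit 193)) (XT.lf (nat_lit 0) (nat_lit 20943232214) (nat_lit 152) (nat_lit 451164326158) (nat_lit 0) (nat_lit 18266576497) (nat_lit 1) (nat_lit 5) (nat_lit 3) (nat_lit 4) (nat_lit 1) (nat_lit 4) (nat_lit 315) (nat_lit 213) (nat_lit 192))) (XT.nd (nat_lit 78) (nat_lit 0) (nat_lit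 0) (XT.lf (nat_lit 0) (nat_lit 23585644947) (nat_lit 152) (nat_lit 485094171583) (nat_lit 0) (nat_lit 20859837280) (nat_lit 1) (nat_lit 5) (nat_lit 3) (nat_lit 4) (nat_lit 1) (nat_lit 4) (nat_lit 316) (nat_lit 213) (nat_lit 191)) (XT.lf (nat_lit 0) (nat_lit 26414152663) (nat_lit 152) (nat_lit 521782747988) (nat_lit 0) (nat_lit 23642833931) (nat_lit 1) (nat_lit 5) (nat_lit 3) (nat_lit 4) (nat_lit 1) (nat_lit 4) (nat_lit 317) (nat_lit 213) (nat_lit 190))))) (XT.nd (nat_lit 35490) (nat_lit 0) (nat_lit 152) (XT.nd (nat_lit 156) (nat_lit 0) (nat_lit 0) (XT.nd (nat_lit 78) (nat_lit 0) (nat_lit 0) (XT.lf (nat_lit 0) (nat_lit 29445516888) (nat_lit 152) (nat_lit 561447469158) (nat_lit 0) (nat_lit 26632058282) (nat_lit 1) (nat_lit 5) (nat_lit 3) (nat_lit 4) (nat_lit 1) (nat_lit 4) (nat_lit 318) (nat_lit 213) (nat_lit 189)) (XT.lf (nat_lit 0) (nat_lit 32697701264) (nat_lit 152) (nat_lit 604323385294)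 (nat_lit 0) (nat_lit 29845224254) (nat_lit 1) (nat_lit 5) (nat_lit 3) (nat_lit 4) (nat_lit 1) (nat_lit 4) (nat_lit 319) (nat_lit 213) (nat_lit 188))) (XT.nd (nat_lit 78) (nat_lit 0) (nat_lit 0) (XT.lf (nat_lit 0) (nat_lit 36189977992) (nat_lit 152) (nat_lit 650664575897) (nat_lit 0) (nat_lit 33301372832) (nat_lit 1) (nat_lit 5) (nat_lit 3) (nat_lit 4) (nat_lit 1) (nat_lit 4) (nat_lit 320) (nat_lit 213) (nat_lit 187)) (XT.lf (nat_lit 0) (nat_lit 39943042047) (nat_lit 152) (nat_lit 700745655431) (nat_lit 0) (nat_lit 37020984895) (nat_lit 1) (nat_lit 5) (nat_lit 3) (nat_lit 4) (nat_lit 1) (nat_lit 4) (nat_lit 321) (nat_lit 213) (nat_lit 186)))) (XT.nd (nat_lit 156) (nat_lit 0) (nat_lit 0) (XT.nd (nat_lit 78) (nat_lit 0) (nat_lit 0) (XT.lf (nat_lit 0) (nat_lit 27332016920) (nat_lit 76) (nat_lit 7486308639) (nat_lit 76) (nat_lit 7486308639) (nat_lit 3) (nat_lit 4) (nat_lit 4) (nat_lit 5)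 (nat_lit 4) (nat_lit 4) (nat_lit 292) (nat_lit 214) (nat_lit 214)) (XT.lf (nat_lit 0) (nat_lit 63617245958) (nat_lit 76) (nat_lit 13950838776) (nat_lit 76) (nat_lit 13670261385) (nat_lit 3) (nat_lit 4) (nat_lit 4) (nat_lit 5) (nat_lit 4) (nat_lit 4) (nat_lit 293) (nat_lit 214) (nat_lit 213))) (XT.nd (nat_lit 78) (nat_lit 0) (nat_lit 0) (XT.lf (nat_lit 0) (nat_lit 73063400794) (nat_lit 76) (nat_lit 12940765104) (nat_lit 76) (nat_lit 12400393831) (nat_lit 3) (nat_lit 4) (nat_lit 4) (nat_lit 5) (nat_lit 4) (nat_lit 4) (nat_lit 294) (nat_lit 214) (nat_lit 212)) (XT.lf (nat_lit 0) (nat_lit 83058475561) (nat_lit 76) (nat_lit 11936410640) (nat_lit 76) (nat_lit 11155489477) (nat_lit 3) (nat_lit 4) (nat_lit 4) (nat_lit 5) (nat_lit 4) (nat_lit 4) (nat_lit 295) (nat_lit 214) (nat_lit 211)))))) (XT.nd (nat_lit 624) (nat_lit 152) (nat_lit 0) (XT.nd (nat_lit 312) (nat_lit 0) (nat_lit 0) (XT.nd (nat_lit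 156) (nat_lit 0) (nat_lit 0) (XT.nd (nat_lit 78) (nat_lit 0) (nat_lit 0) (XT.lf (nat_lit 0) (nat_lit 93661700333) (nat_lit 76) (nat_lit 10931823655) (nat_lit 76) (nat_lit 9928171112) (nat_lit 3) (nat_lit 4) (nat_lit 4) (nat_lit 5) (nat_lit 4) (nat_lit 4) (nat_lit 296) (nat_lit 214) (nat_lit 210)) (XT.lf (nat_lit 0) (nat_lit 104935909033) (nat_lit 76) (nat_lit 9921051040) (nat_lit 76) (nat_lit 8711165739) (nat_lit 3) (nat_lit 4) (nat_lit 4) (nat_lit 5) (nat_lit 4) (nat_lit 4) (nat_lit 297) (nat_lit 214) (nat_lit 209))) (XT.nd (nat_lit 78) (nat_lit 0) (nat_lit 0) (XT.lf (nat_lit 0) (nat_lit 116947911788) (nat_lit 76) (nat_lit 8898103033) (nat_lit 76) (nat_lit 7497261473) (nat_lit 3) (nat_lit 4) (nat_lit 4) (nat_lit 5) (nat_lit 4) (nat_lit 4) (nat_lit 298) (nat_lit 214) (nat_lit 208)) (XT.lf (nat_lit 0) (nat_lit 129768890837) (nat_lit 76) (nat_lit 7856917718) (nat_lit 76) (nat_lit 6279264809)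 (nat_lit 3) (nat_lit 4) (nat_lit 4) (nat_lit 5) (nat_lit 4) (nat_lit 4) (nat_lit 299) (nat_lit 214) (nat_lit 207)))) (XT.nd (nat_lit 156) (nat_lit 0) (nat_lit 0) (XT.nd (nat_lit 78) (nat_lit 0) (nat_lit 0) (XT.lf (nat_lit 0) (nat_lit 143474822350) (nat_lit 76) (nat_lit 6791325110) (nat_lit 76) (nat_lit 5049957987) (nat_lit 3) (nat_lit 4) (nat_lit 4) (nat_lit 5) (nat_lit 4) (nat_lit 4) (nat_lit 300) (nat_lit 214) (nat_lit 206)) (XT.lf (nat_lit 0) (nat_lit 158146926664) (nat_lit 76) (nat_lit 5695010584) (nat_lit 76) (nat_lit 3802056226) (nat_lit 3) (nat_lit 4) (nat_lit 4) (nat_lit 5) (nat_lit 4) (nat_lit 4) (nat_lit 301) (nat_lit 214) (nat_lit 205))) (XT.nd (nat_lit 78) (nat_lit 0) (nat_lit 0) (XT.lf (nat_lit 0) (nat_lit 173872149581) (nat_lit 76) (nat_lit 4561477462) (nat_lit 76) (nat_lit 2528164554) (nat_lit 3) (nat_lit 4) (nat_lit 4) (nat_lit 5) (nat_lit 4) (nat_lit 4) (nat_lit 302)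 (nat_lit 214) (nat_lit 204)) (XT.lf (nat_lit 0) (nat_lit 190743677608) (nat_lit 76) (nat_lit 3384008512) (nat_lit 76) (nat_lit 1220733983) (nat_lit 3) (nat_lit 4) (nat_lit 4) (nat_lit 5) (nat_lit 4) (nat_lit 4) (nat_lit 303) (nat_lit 214) (nat_lit 203))))) (XT.nd (nat_lit 312) (nat_lit 0) (nat_lit 0) (XT.nd (nat_lit 156) (nat_lit 0) (nat_lit 0) (XT.nd (nat_lit 78) (nat_lit 76) (nat_lit 0) (XT.lf (nat_lit 0) (nat_lit 123886961) (nat_lit 152) (nat_lit 2029641092) (nat_lit 76) (nat_lit 208735505123) (nat_lit 2) (nat_lit 5) (nat_lit 4) (nat_lit 5) (nat_lit 3) (nat_lit 4) (nat_lit 304) (nat_lit 214) (nat_lit 202)) (XT.lf (nat_lit 0) (nat_lit 654036874) (nat_lit 76) (nat_lit 833313067) (nat_lit 152) (nat_lit 226186971907) (nat_lit 1) (nat_lit 5) (nat_lit 2) (nat_lit 5) (nat_lit 3) (nat_lit 4) (nat_lit 305) (nat_lit 214) (nat_lit 201))) (XT.nd (nat_lit 78) (nat_lit 0) (nat_lit 0) (XT.lf (nat_lit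 0) (nat_lit 2950458910) (nat_lit 152) (nat_lit 242281343387) (nat_lit 0) (nat_lit 571222500) (nat_lit 1) (nat_lit 5) (nat_lit 3) (nat_lit 4) (nat_lit 1) (nat_lit 4) (nat_lit 306) (nat_lit 214) (nat_lit 200)) (XT.lf (nat_lit 0) (nat_lit 4494096885) (nat_lit 152) (nat_lit 258865980206) (nat_lit 0) (nat_lit 2023883646) (nat_lit 1) (nat_lit 5) (nat_lit 3) (nat_lit 4) (nat_lit 1) (nat_lit 4) (nat_lit 307) (nat_lit 214) (nat_lit 199)))) (XT.nd (nat_lit 156) (nat_lit 0) (nat_lit 0) (XT.nd (nat_lit 78) (nat_lit 0) (nat_lit 0) (XT.lf (nat_lit 0) (nat_lit 6114400999) (nat_lit 152) (nat_lit 276859464408) (nat_lit 0) (nat_lit 3559949955) (nat_lit 1) (nat_lit 5) (nat_lit 3) (nat_lit 4) (nat_lit 1) (nat_lit 4) (nat_lit 308) (nat_lit 214) (nat_lit 198)) (XT.lf (nat_lit 0) (nat_lit 7820973055) (nat_lit 152) (nat_lit 296368424047) (nat_lit 0) (nat_lit 5188524043) (nat_lit 1) (nat_lit 5) (nat_lit 3)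 (nat_lit 4) (nat_lit 1) (nat_lit 4) (nat_lit 309) (nat_lit 214) (nat_lit 197))) (XT.nd (nat_lit 78) (nat_lit 0) (nat_lit 0) (XT.lf (nat_lit 0) (nat_lit 9623926070) (nat_lit 152) (nat_lit 317508467774) (nat_lit 0) (nat_lit 6919256718) (nat_lit 1) (nat_lit 5) (nat_lit 3) (nat_lit 4) (nat_lit 1) (nat_lit 4) (nat_lit 310) (nat_lit 214) (nat_lit 196)) (XT.nd (nat_lit 78) (nat_lit 0) (nat_lit 0) (XT.lf (nat_lit 0) (nat_lit 11533944213) (nat_lit 152) (nat_lit 340404869921) (nat_lit 0) (nat_lit 8762404175) (nat_lit 1) (nat_lit 5) (nat_lit 3) (nat_lit 4) (nat_lit 1) (nat_lit 4) (nat_lit 311) (nat_lit 214) (nat_lit 195)) (XT.lf (nat_lit 0) (nat_lit 13562346107) (nat_lit 152) (nat_lit 365193312872) (nat_lit 0) (nat_lit 10728888768) (nat_lit 1) (nat_lit 5) (nat_lit 3) (nat_lit 4) (nat_lit 1) (nat_lit 4) (nat_lit 312) (nat_lit 214) (nat_lit 194))))))))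
noncomputable def xc7 : XT := (XT.nd (nat_lit 36348) (nat_lit 0) (nat_lit 0) (XT.nd (nat_lit 624) (nat_lit 0) (nat_lit 0) (XT.nd (nat_lit 312) (nat_lit 0) (nat_lit 0) (XT.nd (nat_lit 156) (nat_lit 0) (nat_lit 0) (XT.nd (nat_lit 78) (nat_lit 0) (nat_lit 0) (XT.lf (nat_lit 0) (nat_lit 15721151914) (nat_lit 152) (nat_lit 392020691103) (nat_lit 0) (nat_lit 12830363740) (nat_lit 1) (nat_lit 5) (nat_lit 3) (nat_lit 4) (nat_lit 1) (nat_lit 4) (nat_lit 313) (nat_lit 214) (nat_lit 193)) (XT.lf (nat_lit 0) (nat_lit 18023154556) (nat_lit 152) (nat_lit 421045981671) (nat_lit 0) (nat_lit 15079282275) (nat_lit 1) (nat_lit 5) (nat_lit 3) (nat_lit 4) (nat_lit 1) (nat_lit 4) (nat_lit 314) (nat_lit 214) (nat_lit 192))) (XT.nd (nat_lit 78) (nat_lit 0) (nat_lit 0) (XT.lf (nat_lit 0) (nat_lit 20481995530) (nat_lit 152) (nat_lit 452441186297) (nat_lit 0) (nat_lit 17488971299) (nat_lit 1) (nat_lit 5) (nat_lit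 3) (nat_lit 4) (nat_lit 1) (nat_lit 4) (nat_lit 315) (nat_lit 214) (nat_lit 191)) (XT.lf (nat_lit 0) (nat_lit 23112245746) (nat_lit 152) (nat_lit 486392350638) (nat_lit 0) (nat_lit 20073710450) (nat_lit 1) (nat_lit 5) (nat_lit 3) (nat_lit 4) (nat_lit 1) (nat_lit 4) (nat_lit 316) (nat_lit 214) (nat_lit 190)))) (XT.nd (nat_lit 156) (nat_lit 0) (nat_lit 0) (XT.nd (nat_lit 78) (nat_lit 0) (nat_lit 0) (XT.lf (nat_lit 0) (nat_lit 25929491871) (nat_lit 152) (nat_lit 523100666780) (nat_lit 0) (nat_lit 22848816701) (nat_lit 1) (nat_lit 5) (nat_lit 3) (nat_lit 4) (nat_lit 1) (nat_lit 4) (nat_lit 317) (nat_lit 214) (nat_lit 189)) (XT.lf (nat_lit 0) (nat_lit 28950428699) (nat_lit 152) (nat_lit 562783665485) (nat_lit 0) (nat_lit 25830735126) (nat_lit 1) (nat_lit 5) (nat_lit 3) (nat_lit 4) (nat_lit 1) (nat_lit 4) (nat_lit 318) (nat_lit 214) (nat_lit 188))) (XT.nd (nat_lit 78) (nat_lit 0) (nat_lit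 0) (XT.lf (nat_lit 0) (nat_lit 32192958075) (nat_lit 152) (nat_lit 605676505263) (nat_lit 0) (nat_lit 29037136352) (nat_lit 1) (nat_lit 5) (nat_lit 3) (nat_lit 4) (nat_lit 1) (nat_lit 4) (nat_lit 319) (nat_lit 214) (nat_lit 187)) (XT.lf (nat_lit 0) (nat_lit 35676294990) (nat_lit 152) (nat_lit 652033365906) (nat_lit 0) (nat_lit 32487021275) (nat_lit 1) (nat_lit 5) (nat_lit 3) (nat_lit 4) (nat_lit 1) (nat_lit 4) (nat_lit 320) (nat_lit 214) (nat_lit 186))))) (XT.nd (nat_lit 35334) (nat_lit 0) (nat_lit 152) (XT.nd (nat_lit 35178) (nat_lit 0) (nat_lit 152) (XT.nd (nat_lit 35100) (nat_lit 0) (nat_lit 152) (XT.lf (nat_lit 0) (nat_lit 39421081440) (nat_lit 152) (nat_lit 702128954736) (nat_lit 0) (nat_lit 36200833659) (nat_lit 1) (nat_lit 5) (nat_lit 3) (nat_lit 4) (nat_lit 1) (nat_lit 4) (nat_lit 321) (nat_lit 214) (nat_lit 185)) (XT.lf (nat_lit 0) (nat_lit 19076023983) (nat_lit 76) (nat_lit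 8663117637) (nat_lit 76) (nat_lit 8663117637) (nat_lit 3) (nat_lit 4) (nat_lit 4) (nat_lit 5) (nat_lit 4) (nat_lit 4) (nat_lit 290) (nat_lit 215) (nat_lit 215))) (XT.nd (nat_lit 78) (nat_lit 0) (nat_lit 0) (XT.lf (nat_lit 0) (nat_lit 46150708368) (nat_lit 76) (nat_lit 16315179180) (nat_lit 76) (nat_lit 16012155597) (nat_lit 3) (nat_lit 4) (nat_lit 4) (nat_lit 5) (nat_lit 4) (nat_lit 4) (nat_lit 291) (nat_lit 215) (nat_lit 214)) (XT.lf (nat_lit 0) (nat_lit 54548082209) (nat_lit 76) (nat_lit 15324161478) (nat_lit 76) (nat_lit 14740560503) (nat_lit 3) (nat_lit 4) (nat_lit 4) (nat_lit 5) (nat_lit 4) (nat_lit 4) (nat_lit 292) (nat_lit 215) (nat_lit 213)))) (XT.nd (nat_lit 156) (nat_lit 0) (nat_lit 0) (XT.nd (nat_lit 78) (nat_lit 0) (nat_lit 0) (XT.lf (nat_lit 0) (nat_lit 63393931706) (nat_lit 76) (nat_lit 14347309470) (nat_lit 76) (nat_lit 13503914614) (nat_lit 3) (nat_lit 4) (nat_lit 4)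 (nat_lit 5) (nat_lit 4) (nat_lit 4) (nat_lit 293) (nat_lit 215) (nat_lit 212)) (XT.lf (nat_lit 0) (nat_lit 72740676708) (nat_lit 76) (nat_lit 13378834405) (nat_lit 76) (nat_lit 12294889659) (nat_lit 3) (nat_lit 4) (nat_lit 4) (nat_lit 5) (nat_lit 4) (nat_lit 4) (nat_lit 294) (nat_lit 215) (nat_lit 211))) (XT.nd (nat_lit 78) (nat_lit 0) (nat_lit 0) (XT.lf (nat_lit 0) (nat_lit 82643705332) (nat_lit 76) (nat_lit 12412997170) (nat_lit 76) (nat_lit 11106321044) (nat_lit 3) (nat_lit 4) (nat_lit 4) (nat_lit 5) (nat_lit 4) (nat_lit 4) (nat_lit 295) (nat_lit 215) (nat_lit 210)) (XT.nd (nat_lit 78) (nat_lit 0) (nat_lit 0) (XT.lf (nat_lit 0) (nat_lit 93161702194) (nat_lit 76) (nat_lit 11444074285) (nat_lit 76) (nat_lit 9931165401) (nat_lit 3) (nat_lit 4) (nat_lit 4) (nat_lit 5) (nat_lit 4) (nat_lit 4) (nat_lit 296) (nat_lit 215) (nat_lit 209)) (XT.lf (nat_lit 0) (nat_lit 104356996163) (nat_lit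 76) (nat_lit 10466323986) (nat_lit 76) (nat_lit 8762458844) (nat_lit 3) (nat_lit 4) (nat_lit 4) (nat_lit 5) (nat_lit 4) (nat_lit 4) (nat_lit 297) (nat_lit 215) (nat_lit 208))))))) (XT.nd (nat_lit 624) (nat_lit 76) (nat_lit 0) (XT.nd (nat_lit 312) (nat_lit 76) (nat_lit 0) (XT.nd (nat_lit 156) (nat_lit 0) (nat_lit 0) (XT.nd (nat_lit 78) (nat_lit 0) (nat_lit 0) (XT.lf (nat_lit 0) (nat_lit 116295929722) (nat_lit 76) (nat_lit 9473952197) (nat_lit 76) (nat_lit 7593275704) (nat_lit 3) (nat_lit 4) (nat_lit 4) (nat_lit 5) (nat_lit 4) (nat_lit 4) (nat_lit 298) (nat_lit 215) (nat_lit 207)) (XT.lf (nat_lit 0) (nat_lit 129049252108) (nat_lit 76) (nat_lit 8461078195) (nat_lit 76) (nat_lit 6416687489) (nat_lit 3) (nat_lit 4) (nat_lit 4) (nat_lit 5) (nat_lit 4) (nat_lit 4) (nat_lit 299) (nat_lit 215) (nat_lit 206))) (XT.nd (nat_lit 78) (nat_lit 0) (nat_lit 0) (XT.lf (nat_lit 0) (nat_lit 142692538563)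 (nat_lit 76) (nat_lit 7421699765) (nat_lit 76) (nat_lit 5225721825) (nat_lit 3) (nat_lit 4) (nat_lit 4) (nat_lit 5) (nat_lit 4) (nat_lit 4) (nat_lit 300) (nat_lit 215) (nat_lit 205)) (XT.lf (nat_lit 0) (nat_lit 157306638193) (nat_lit 76) (nat_lit 6349657627) (nat_lit 76) (nat_lit 4013321136) (nat_lit 3) (nat_lit 4) (nat_lit 4) (nat_lit 5) (nat_lit 4) (nat_lit 4) (nat_lit 301) (nat_lit 215) (nat_lit 204)))) (XT.nd (nat_lit 156) (nat_lit 76) (nat_lit 0) (XT.nd (nat_lit 78) (nat_lit 0) (nat_lit 0) (XT.lf (nat_lit 0) (nat_lit 172978153070) (nat_lit 76) (nat_lit 5238598939) (nat_lit 76) (nat_lit 2772300827) (nat_lit 3) (nat_lit 4) (nat_lit 4) (nat_lit 5) (nat_lit 4) (nat_lit 4) (nat_lit 302) (nat_lit 215) (nat_lit 203)) (XT.lf (nat_lit 0) (nat_lit 189799951430) (nat_lit 76) (nat_lit 4081939648) (nat_lit 76) (nat_lit 1495306702) (nat_lit 3) (nat_lit 4) (nat_lit 4) (nat_lit 5) (nat_lit 4)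 (nat_lit 4) (nat_lit 303) (nat_lit 215) (nat_lit 202))) (XT.nd (nat_lit 78) (nat_lit 76) (nat_lit 0) (XT.lf (nat_lit 0) (nat_lit 207871718004) (nat_lit 76) (nat_lit 2872825479) (nat_lit 76) (nat_lit 174771390) (nat_lit 3) (nat_lit 4) (nat_lit 4) (nat_lit 5) (nat_lit 4) (nat_lit 4) (nat_lit 304) (nat_lit 215) (nat_lit 201)) (XT.lf (nat_lit 0) (nat_lit 1158814850) (nat_lit 152) (nat_lit 425651368) (nat_lit 76) (nat_lit 226122104801) (nat_lit 2) (nat_lit 5) (nat_lit 4) (nat_lit 5) (nat_lit 3) (nat_lit 4) (nat_lit 305) (nat_lit 215) (nat_lit 200))))) (XT.nd (nat_lit 312) (nat_lit 0) (nat_lit 0) (XT.nd (nat_lit 156) (nat_lit 0) (nat_lit 0) (XT.nd (nat_lit 78) (nat_lit 0) (nat_lit 0) (XT.lf (nat_lit 0) (nat_lit 2395956937) (nat_lit 76) (nat_lit 185850097) (nat_lit 152) (nat_lit 243255526029) (nat_lit 1) (nat_lit 5) (nat_lit 2) (nat_lit 5) (nat_lit 3) (nat_lit 4) (nat_lit 306) (nat_lit 215)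 (nat_lit 199)) (XT.lf (nat_lit 0) (nat_lit 4100031398) (nat_lit 152) (nat_lit 260062571130) (nat_lit 0) (nat_lit 1256986466) (nat_lit 1) (nat_lit 5) (nat_lit 3) (nat_lit 4) (nat_lit 1) (nat_lit 4) (nat_lit 307) (nat_lit 215) (nat_lit 198))) (XT.nd (nat_lit 78) (nat_lit 0) (nat_lit 0) (XT.lf (nat_lit 0) (nat_lit 5699491095) (nat_lit 152) (nat_lit 278092592207) (nat_lit 0) (nat_lit 2778448195) (nat_lit 1) (nat_lit 5) (nat_lit 3) (nat_lit 4) (nat_lit 1) (nat_lit 4) (nat_lit 308) (nat_lit 215) (nat_lit 197)) (XT.lf (nat_lit 0) (nat_lit 7386762764) (nat_lit 152) (nat_lit 297635382287) (nat_lit 0) (nat_lit 4393499523) (nat_lit 1) (nat_lit 5) (nat_lit 3) (nat_lit 4) (nat_lit 1) (nat_lit 4) (nat_lit 309) (nat_lit 215) (nat_lit 196)))) (XT.nd (nat_lit 156) (nat_lit 0) (nat_lit 0) (XT.nd (nat_lit 78) (nat_lit 0) (nat_lit 0) (XT.lf (nat_lit 0) (nat_lit 9171845052) (nat_lit 152) (nat_lit 318806750496)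 (nat_lit 0) (nat_lit 6111711125) (nat_lit 1) (nat_lit 5) (nat_lit 3) (nat_lit 4) (nat_lit 1) (nat_lit 4) (nat_lit 310) (nat_lit 215) (nat_lit 195)) (XT.lf (nat_lit 0) (nat_lit 11065316223) (nat_lit 152) (nat_lit 341732156793) (nat_lit 0) (nat_lit 7943264995) (nat_lit 1) (nat_lit 5) (nat_lit 3) (nat_lit 4) (nat_lit 1) (nat_lit 4) (nat_lit 311) (nat_lit 215) (nat_lit 194))) (XT.nd (nat_lit 78) (nat_lit 0) (nat_lit 0) (XT.lf (nat_lit 0) (nat_lit 13078396849) (nat_lit 152) (nat_lit 366547455438) (nat_lit 0) (nat_lit 9899014786) (nat_lit 1) (nat_lit 5) (nat_lit 3) (nat_lit 4) (nat_lit 1) (nat_lit 4) (nat_lit 312) (nat_lit 215) (nat_lit 193)) (XT.nd (nat_lit 78) (nat_lit 0) (nat_lit 0) (XT.lf (nat_lit 0) (nat_lit 15223016295) (nat_lit 152) (nat_lit 393399700053) (nat_lit 0) (nat_lit 11990550126) (nat_lit 1) (nat_lit 5) (nat_lit 3) (nat_lit 4) (nat_lit 1) (nat_lit 4) (nat_lit 313) (nat_lit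 215) (nat_lit 192)) (XT.lf (nat_lit 0) (nat_lit 17511883418) (nat_lit 152) (nat_lit 422448015050) (nat_lit 0) (nat_lit 14230265299) (nat_lit 1) (nat_lit 5) (nat_lit 3) (nat_lit 4) (nat_lit 1) (nat_lit 4) (nat_lit 314) (nat_lit 215) (nat_lit 191))))))))
noncomputable def xc8 : XT := (XT.nd (nat_lit 36114) (nat_lit 0) (nat_lit 0) (XT.nd (nat_lit 35490) (nat_lit 0) (nat_lit 152) (XT.nd (nat_lit 312) (nat_lit 0) (nat_lit 0) (XT.nd (nat_lit 156) (nat_lit 0) (nat_lit 0) (XT.nd (nat_lit 78) (nat_lit 0) (nat_lit 0) (XT.lf (nat_lit 0) (nat_lit 19958561875) (nat_lit 152) (nat_lit 453864538592) (nat_lit 0) (nat_lit 16631432691) (nat_lit 1) (nat_lit 5) (nat_lit 3) (nat_lit 4) (nat_lit 1) (nat_lit 4) (nat_lit 315) (nat_lit 215) (nat_lit 190)) (XT.lf (nat_lit 0) (nat_lit 22577550501) (nat_lit 152) (nat_lit 487835442671) (nat_lit 0) (nat_lit 19208281442) (nat_lit 1) (nat_lit 5) (nat_lit 3) (nat_lit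 4) (nat_lit 1) (nat_lit 4) (nat_lit 316) (nat_lit 215) (nat_lit 189))) (XT.nd (nat_lit 78) (nat_lit 0) (nat_lit 0) (XT.lf (nat_lit 0) (nat_lit 25384369228) (nat_lit 152) (nat_lit 524562036347) (nat_lit 0) (nat_lit 21976081766) (nat_lit 1) (nat_lit 5) (nat_lit 3) (nat_lit 4) (nat_lit 1) (nat_lit 4) (nat_lit 317) (nat_lit 215) (nat_lit 188)) (XT.lf (nat_lit 0) (nat_lit 28395651057) (nat_lit 152) (nat_lit 564261958694) (nat_lit 0) (nat_lit 24951235445) (nat_lit 1) (nat_lit 5) (nat_lit 3) (nat_lit 4) (nat_lit 1) (nat_lit 4) (nat_lit 318) (nat_lit 215) (nat_lit 187)))) (XT.nd (nat_lit 156) (nat_lit 0) (nat_lit 0) (XT.nd (nat_lit 78) (nat_lit 0) (nat_lit 0) (XT.lf (nat_lit 0) (nat_lit 31629240620) (nat_lit 152) (nat_lit 607170468512) (nat_lit 0) (nat_lit 28151373017) (nat_lit 1) (nat_lit 5) (nat_lit 3) (nat_lit 4) (nat_lit 1) (nat_lit 4) (nat_lit 319) (nat_lit 215) (nat_lit 186)) (XT.lf (nat_lit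 0) (nat_lit 35104299930) (nat_lit 152) (nat_lit 653541838451) (nat_lit 0) (nat_lit 31595458261) (nat_lit 1) (nat_lit 5) (nat_lit 3) (nat_lit 4) (nat_lit 1) (nat_lit 4) (nat_lit 320) (nat_lit 215) (nat_lit 185))) (XT.nd (nat_lit 34944) (nat_lit 0) (nat_lit 152) (XT.lf (nat_lit 0) (nat_lit 38841421931) (nat_lit 152) (nat_lit 703650861814) (nat_lit 0) (nat_lit 35303900571) (nat_lit 1) (nat_lit 5) (nat_lit 3) (nat_lit 4) (nat_lit 1) (nat_lit 4) (nat_lit 321) (nat_lit 215) (nat_lit 184)) (XT.lf (nat_lit 0) (nat_lit 11649298726) (nat_lit 76) (nat_lit 9851626844) (nat_lit 76) (nat_lit 9851626844) (nat_lit 3) (nat_lit 4) (nat_lit 4) (nat_lit 5) (nat_lit 4) (nat_lit 4) (nat_lit 288) (nat_lit 216) (nat_lit 216))))) (XT.nd (nat_lit 312) (nat_lit 0) (nat_lit 0) (XT.nd (nat_lit 156) (nat_lit 0) (nat_lit 0) (XT.nd (nat_lit 78) (nat_lit 0) (nat_lit 0) (XT.lf (nat_lit 0) (nat_lit 30504701537) (nat_lit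 76) (nat_lit 18690586674) (nat_lit 76) (nat_lit 18363321204) (nat_lit 3) (nat_lit 4) (nat_lit 4) (nat_lit 5) (nat_lit 4) (nat_lit 4) (nat_lit 289) (nat_lit 216) (nat_lit 215)) (XT.lf (nat_lit 0) (nat_lit 38026820206) (nat_lit 76) (nat_lit 17705903008) (nat_lit 76) (nat_lit 17075613956) (nat_lit 3) (nat_lit 4) (nat_lit 4) (nat_lit 5) (nat_lit 4) (nat_lit 4) (nat_lit 290) (nat_lit 216) (nat_lit 214))) (XT.nd (nat_lit 78) (nat_lit 0) (nat_lit 0) (XT.lf (nat_lit 0) (nat_lit 45909528976) (nat_lit 76) (nat_lit 16743367529) (nat_lit 76) (nat_lit 15832501085) (nat_lit 3) (nat_lit 4) (nat_lit 4) (nat_lit 5) (nat_lit 4) (nat_lit 4) (nat_lit 291) (nat_lit 216) (nat_lit 213)) (XT.lf (nat_lit 0) (nat_lit 54199540197) (nat_lit 76) (nat_lit 15797276323) (nat_lit 76) (nat_lit 14626615997) (nat_lit 3) (nat_lit 4) (nat_lit 4) (nat_lit 5) (nat_lit 4) (nat_lit 4) (nat_lit 292) (nat_lit 216) (nat_lit 212))))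 (XT.nd (nat_lit 156) (nat_lit 0) (nat_lit 0) (XT.nd (nat_lit 78) (nat_lit 0) (nat_lit 0) (XT.lf (nat_lit 0) (nat_lit 62945979859) (nat_lit 76) (nat_lit 14862022922) (nat_lit 76) (nat_lit 13450812707) (nat_lit 3) (nat_lit 4) (nat_lit 4) (nat_lit 5) (nat_lit 4) (nat_lit 4) (nat_lit 293) (nat_lit 216) (nat_lit 211)) (XT.lf (nat_lit 0) (nat_lit 72200678718) (nat_lit 76) (nat_lit 13932065085) (nat_lit 76) (nat_lit 12298123490) (nat_lit 3) (nat_lit 4) (nat_lit 4) (nat_lit 5) (nat_lit 4) (nat_lit 4) (nat_lit 294) (nat_lit 216) (nat_lit 210))) (XT.nd (nat_lit 78) (nat_lit 0) (nat_lit 0) (XT.lf (nat_lit 0) (nat_lit 82018479432) (nat_lit 76) (nat_lit 13001891951) (nat_lit 76) (nat_lit 11161717597) (nat_lit 3) (nat_lit 4) (nat_lit 4) (nat_lit 5) (nat_lit 4) (nat_lit 4) (nat_lit 295) (nat_lit 216) (nat_lit 209)) (XT.lf (nat_lit 0) (nat_lit 92457561563) (nat_lit 76) (nat_lit 12065991382) (nat_lit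 76) (nat_lit 10034860770) (nat_lit 3) (nat_lit 4) (nat_lit 4) (nat_lit 5) (nat_lit 4) (nat_lit 4) (nat_lit 296) (nat_lit 216) (nat_lit 208)))))) (XT.nd (nat_lit 624) (nat_lit 152) (nat_lit 0) (XT.nd (nat_lit 312) (nat_lit 0) (nat_lit 0) (XT.nd (nat_lit 156) (nat_lit 0) (nat_lit 0) (XT.nd (nat_lit 78) (nat_lit 0) (nat_lit 0) (XT.lf (nat_lit 0) (nat_lit 103579786336) (nat_lit 76) (nat_lit 11118817301) (nat_lit 76) (nat_lit 8910875339) (nat_lit 3) (nat_lit 4) (nat_lit 4) (nat_lit 5) (nat_lit 4) (nat_lit 4) (nat_lit 297) (nat_lit 216) (nat_lit 207)) (XT.lf (nat_lit 0) (nat_lit 115451063233) (nat_lit 76) (nat_lit 10154756825) (nat_lit 76) (nat_lit 7783100649) (nat_lit 3) (nat_lit 4) (nat_lit 4) (nat_lit 5) (nat_lit 4) (nat_lit 4) (nat_lit 298) (nat_lit 216) (nat_lit 206))) (XT.nd (nat_lit 78) (nat_lit 0) (nat_lit 0) (XT.lf (nat_lit 0) (nat_lit 128141740560) (nat_lit 76) (nat_lit 9168097002)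 (nat_lit 76) (nat_lit 6644853592) (nat_lit 3) (nat_lit 4) (nat_lit 4) (nat_lit 5) (nat_lit 4) (nat_lit 4) (nat_lit 299) (nat_lit 216) (nat_lit 205)) (XT.lf (nat_lit 0) (nat_lit 141727022332) (nat_lit 76) (nat_lit 8152990959) (nat_lit 76) (nat_lit 5489388999) (nat_lit 3) (nat_lit 4) (nat_lit 4) (nat_lit 5) (nat_lit 4) (nat_lit 4) (nat_lit 300) (nat_lit 216) (nat_lit 204)))) (XT.nd (nat_lit 156) (nat_lit 0) (nat_lit 0) (XT.nd (nat_lit 78) (nat_lit 0) (nat_lit 0) (XT.lf (nat_lit 0) (nat_lit 156287413922) (nat_lit 76) (nat_lit 7103423254) (nat_lit 76) (nat_lit 4309859673) (nat_lit 3) (nat_lit 4) (nat_lit 4) (nat_lit 5) (nat_lit 4) (nat_lit 4) (nat_lit 301) (nat_lit 216) (nat_lit 203)) (XT.lf (nat_lit 0) (nat_lit 171909199132) (nat_lit 76) (nat_lit 6013174226) (nat_lit 76) (nat_lit 3099275811) (nat_lit 3) (nat_lit 4) (nat_lit 4) (nat_lit 5) (nat_lit 4) (nat_lit 4) (nat_lit 302) (nat_lit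 216) (nat_lit 202))) (XT.nd (nat_lit 78) (nat_lit 0) (nat_lit 0) (XT.lf (nat_lit 0) (nat_lit 188684951504) (nat_lit 76) (nat_lit 4875783140) (nat_lit 76) (nat_lit 1850463582) (nat_lit 3) (nat_lit 4) (nat_lit 4) (nat_lit 5) (nat_lit 4) (nat_lit 4) (nat_lit 303) (nat_lit 216) (nat_lit 201)) (XT.lf (nat_lit 0) (nat_lit 206714082904) (nat_lit 76) (nat_lit 3684509900) (nat_lit 76) (nat_lit 556022617) (nat_lit 3) (nat_lit 4) (nat_lit 4) (nat_lit 5) (nat_lit 4) (nat_lit 4) (nat_lit 304) (nat_lit 216) (nat_lit 200))))) (XT.nd (nat_lit 312) (nat_lit 0) (nat_lit 0) (XT.nd (nat_lit 156) (nat_lit 0) (nat_lit 0) (XT.nd (nat_lit 78) (nat_lit 76) (nat_lit 0) (XT.lf (nat_lit 0) (nat_lit 766377928) (nat_lit 152) (nat_lit 1652938200) (nat_lit 76) (nat_lit 225324075719) (nat_lit 2) (nat_lit 5) (nat_lit 4) (nat_lit 5) (nat_lit 3) (nat_lit 4) (nat_lit 305) (nat_lit 216) (nat_lit 199)) (XT.lf (nat_lit 0)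 (nat_lit 1089538421) (nat_lit 76) (nat_lit 1057779174) (nat_lit 152) (nat_lit 243728988232) (nat_lit 1) (nat_lit 5) (nat_lit 2) (nat_lit 5) (nat_lit 3) (nat_lit 4) (nat_lit 306) (nat_lit 216) (nat_lit 198))) (XT.nd (nat_lit 78) (nat_lit 0) (nat_lit 0) (XT.lf (nat_lit 0) (nat_lit 3631084285) (nat_lit 152) (nat_lit 261430886029) (nat_lit 0) (nat_lit 398359985) (nat_lit 1) (nat_lit 5) (nat_lit 3) (nat_lit 4) (nat_lit 1) (nat_lit 4) (nat_lit 307) (nat_lit 216) (nat_lit 197)) (XT.lf (nat_lit 0) (nat_lit 5211243595) (nat_lit 152) (nat_lit 279494737547) (nat_lit 0) (nat_lit 1906298955) (nat_lit 1) (nat_lit 5) (nat_lit 3) (nat_lit 4) (nat_lit 1) (nat_lit 4) (nat_lit 308) (nat_lit 216) (nat_lit 196)))) (XT.nd (nat_lit 156) (nat_lit 0) (nat_lit 0) (XT.nd (nat_lit 78) (nat_lit 0) (nat_lit 0) (XT.lf (nat_lit 0) (nat_lit 6880644536) (nat_lit 152) (nat_lit 299068852109) (nat_lit 0) (nat_lit 3508829210)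 (nat_lit 1) (nat_lit 5) (nat_lit 3) (nat_lit 4) (nat_lit 1) (nat_lit 4) (nat_lit 309) (nat_lit 216) (nat_lit 195)) (XT.lf (nat_lit 0) (nat_lit 8649179852) (nat_lit 152) (nat_lit 320269224468) (nat_lit 0) (nat_lit 5215447225) (nat_lit 1) (nat_lit 5) (nat_lit 3) (nat_lit 4) (nat_lit 1) (nat_lit 4) (nat_lit 310) (nat_lit 216) (nat_lit 194))) (XT.nd (nat_lit 78) (nat_lit 0) (nat_lit 0) (XT.lf (nat_lit 0) (nat_lit 10527329755) (nat_lit 152) (nat_lit 343221486459) (nat_lit 0) (nat_lit 7036266293) (nat_lit 1) (nat_lit 5) (nat_lit 3) (nat_lit 4) (nat_lit 1) (nat_lit 4) (nat_lit 311) (nat_lit 216) (nat_lit 193)) (XT.nd (nat_lit 78) (nat_lit 0) (nat_lit 0) (XT.lf (nat_lit 0) (nat_lit 12526224020) (nat_lit 152) (nat_lit 368061651488) (nat_lit 0) (nat_lit 8982076452) (nat_lit 1) (nat_lit 5) (nat_lit 3) (nat_lit 4) (nat_lit 1) (nat_lit 4) (nat_lit 312) (nat_lit 216) (nat_lit 192)) (XT.lf (nat_lit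 0) (nat_lit 14657707948) (nat_lit 152) (nat_lit 394936920532) (nat_lit 0) (nat_lit 11064408429) (nat_lit 1) (nat_lit 5) (nat_lit 3) (nat_lit 4) (nat_lit 1) (nat_lit 4) (nat_lit 313) (nat_lit 216) (nat_lit 191))))))))
noncomputable def xc9 : XT := (XT.nd (nat_lit 35958) (nat_lit 0) (nat_lit 0) (XT.nd (nat_lit 35334) (nat_lit 0) (nat_lit 152) (XT.nd (nat_lit 312) (nat_lit 0) (nat_lit 0) (XT.nd (nat_lit 156) (nat_lit 0) (nat_lit 0) (XT.nd (nat_lit 78) (nat_lit 0) (nat_lit 0) (XT.lf (nat_lit 0) (nat_lit 16934412553) (nat_lit 152) (nat_lit 424006554445) (nat_lit 0) (nat_lit 13295601970) (nat_lit 1) (nat_lit 5) (nat_lit 3) (nat_lit 4) (nat_lit 1) (nat_lit 4) (nat_lit 314) (nat_lit 216) (nat_lit 190)) (XT.lf (nat_lit 0) (nat_lit 19369829420) (nat_lit 152) (nat_lit 455442817724) (nat_lit 0) (nat_lit 15688878962) (nat_lit 1) (nat_lit 5) (nat_lit 3) (nat_lit 4) (nat_lit 1) (nat_lit 4) (nat_lit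 315) (nat_lit 216) (nat_lit 189))) (XT.nd (nat_lit 78) (nat_lit 0) (nat_lit 0) (XT.lf (nat_lit 0) (nat_lit 21978390648) (nat_lit 152) (nat_lit 489431999337) (nat_lit 0) (nat_lit 18258421786) (nat_lit 1) (nat_lit 5) (nat_lit 3) (nat_lit 4) (nat_lit 1) (nat_lit 4) (nat_lit 316) (nat_lit 216) (nat_lit 188)) (XT.lf (nat_lit 0) (nat_lit 24775554376) (nat_lit 152) (nat_lit 526175516656) (nat_lit 0) (nat_lit 21019457364) (nat_lit 1) (nat_lit 5) (nat_lit 3) (nat_lit 4) (nat_lit 1) (nat_lit 4) (nat_lit 317) (nat_lit 216) (nat_lit 187)))) (XT.nd (nat_lit 156) (nat_lit 0) (nat_lit 0) (XT.nd (nat_lit 78) (nat_lit 0) (nat_lit 0) (XT.lf (nat_lit 0) (nat_lit 27777896392) (nat_lit 152) (nat_lit 565891109043) (nat_lit 0) (nat_lit 23988347389) (nat_lit 1) (nat_lit 5) (nat_lit 3) (nat_lit 4) (nat_lit 1) (nat_lit 4) (nat_lit 318) (nat_lit 216) (nat_lit 186)) (XT.lf (nat_lit 0) (nat_lit 31003208350) (nat_lit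 152) (nat_lit 608814128157) (nat_lit 0) (nat_lit 27182685281) (nat_lit 1) (nat_lit 5) (nat_lit 3) (nat_lit 4) (nat_lit 1) (nat_lit 4) (nat_lit 319) (nat_lit 216) (nat_lit 185))) (XT.nd (nat_lit 78) (nat_lit 0) (nat_lit 0) (XT.lf (nat_lit 0) (nat_lit 34470603212) (nat_lit 152) (nat_lit 655198932629) (nat_lit 0) (nat_lit 30621400451) (nat_lit 1) (nat_lit 5) (nat_lit 3) (nat_lit 4) (nat_lit 1) (nat_lit 4) (nat_lit 320) (nat_lit 216) (nat_lit 184)) (XT.lf (nat_lit 0) (nat_lit 38200628500) (nat_lit 152) (nat_lit 705320395376) (nat_lit 0) (nat_lit 34324870471) (nat_lit 1) (nat_lit 5) (nat_lit 3) (nat_lit 4) (nat_lit 1) (nat_lit 4) (nat_lit 321) (nat_lit 216) (nat_lit 183))))) (XT.nd (nat_lit 312) (nat_lit 0) (nat_lit 0) (XT.nd (nat_lit 156) (nat_lit 0) (nat_lit 0) (XT.nd (nat_lit 78) (nat_lit 0) (nat_lit 0) (XT.lf (nat_lit 0) (nat_lit 4905653482) (nat_lit 76) (nat_lit 11064533909) (nat_lit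 76) (nat_lit 11064533909) (nat_lit 3) (nat_lit 4) (nat_lit 4) (nat_lit 5) (nat_lit 4) (nat_lit 4) (nat_lit 286) (nat_lit 217) (nat_lit 217)) (XT.lf (nat_lit 0) (nat_lit 16365805112) (nat_lit 76) (nat_lit 21103351749) (nat_lit 76) (nat_lit 20749905042) (nat_lit 3) (nat_lit 4) (nat_lit 4) (nat_lit 5) (nat_lit 4) (nat_lit 4) (nat_lit 287) (nat_lit 217) (nat_lit 216))) (XT.nd (nat_lit 78) (nat_lit 0) (nat_lit 0) (XT.lf (nat_lit 0) (nat_lit 23163351471) (nat_lit 76) (nat_lit 20113294842) (nat_lit 76) (nat_lit 19432582665) (nat_lit 3) (nat_lit 4) (nat_lit 4) (nat_lit 5) (nat_lit 4) (nat_lit 4) (nat_lit 288) (nat_lit 217) (nat_lit 215)) (XT.lf (nat_lit 0) (nat_lit 30244227794) (nat_lit 76) (nat_lit 19153030092) (nat_lit 76) (nat_lit 18169294332) (nat_lit 3) (nat_lit 4) (nat_lit 4) (nat_lit 5) (nat_lit 4) (nat_lit 4) (nat_lit 289) (nat_lit 217) (nat_lit 214)))) (XT.nd (nat_lit 156) (nat_lit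 0) (nat_lit 0) (XT.nd (nat_lit 78) (nat_lit 0) (nat_lit 0) (XT.lf (nat_lit 0) (nat_lit 37650394832) (nat_lit 76) (nat_lit 18216867041) (nat_lit 76) (nat_lit 16952553889) (nat_lit 3) (nat_lit 4) (nat_lit 4) (nat_lit 5) (nat_lit 4) (nat_lit 4) (nat_lit 290) (nat_lit 217) (nat_lit 213)) (XT.lf (nat_lit 0) (nat_lit 45425740982) (nat_lit 76) (nat_lit 17299258058) (nat_lit 76) (nat_lit 15775151025) (nat_lit 3) (nat_lit 4) (nat_lit 4) (nat_lit 5) (nat_lit 4) (nat_lit 4) (nat_lit 291) (nat_lit 217) (nat_lit 212))) (XT.nd (nat_lit 78) (nat_lit 0) (nat_lit 0) (XT.lf (nat_lit 0) (nat_lit 53616342368) (nat_lit 76) (nat_lit 16394765458) (nat_lit 76) (nat_lit 14630108535) (nat_lit 3) (nat_lit 4) (nat_lit 4) (nat_lit 5) (nat_lit 4) (nat_lit 4) (nat_lit 292) (nat_lit 217) (nat_lit 211)) (XT.lf (nat_lit 0) (nat_lit 62270735888) (nat_lit 76) (nat_lit 15498029286) (nat_lit 76) (nat_lit 13510640984) (nat_lit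 3) (nat_lit 4) (nat_lit 4) (nat_lit 5) (nat_lit 4) (nat_lit 4) (nat_lit 293) (nat_lit 217) (nat_lit 210)))))) (XT.nd (nat_lit 624) (nat_lit 152) (nat_lit 0) (XT.nd (nat_lit 312) (nat_lit 0) (nat_lit 0) (XT.nd (nat_lit 156) (nat_lit 0) (nat_lit 0) (XT.nd (nat_lit 78) (nat_lit 0) (nat_lit 0) (XT.lf (nat_lit 0) (nat_lit 71440206836) (nat_lit 76) (nat_lit 14603735550) (nat_lit 76) (nat_lit 12410114489) (nat_lit 3) (nat_lit 4) (nat_lit 4) (nat_lit 5) (nat_lit 4) (nat_lit 4) (nat_lit 294) (nat_lit 217) (nat_lit 209)) (XT.lf (nat_lit 0) (nat_lit 81179092819) (nat_lit 76) (nat_lit 13706584731) (nat_lit 76) (nat_lit 11322007412) (nat_lit 3) (nat_lit 4) (nat_lit 4) (nat_lit 5) (nat_lit 4) (nat_lit 4) (nat_lit 295) (nat_lit 217) (nat_lit 208))) (XT.nd (nat_lit 78) (nat_lit 0) (nat_lit 0) (XT.lf (nat_lit 0) (nat_lit 91545105754) (nat_lit 76) (nat_lit 12801260380) (nat_lit 76) (nat_lit 10239871710)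 (nat_lit 3) (nat_lit 4) (nat_lit 4) (nat_lit 5) (nat_lit 4) (nat_lit 4) (nat_lit 296) (nat_lit 217) (nat_lit 207)) (XT.lf (nat_lit 0) (nat_lit 102599673864) (nat_lit 76) (nat_lit 11882397612) (nat_lit 76) (nat_lit 9157294729) (nat_lit 3) (nat_lit 4) (nat_lit 4) (nat_lit 5) (nat_lit 4) (nat_lit 4) (nat_lit 297) (nat_lit 217) (nat_lit 206)))) (XT.nd (nat_lit 156) (nat_lit 0) (nat_lit 0) (XT.nd (nat_lit 78) (nat_lit 0) (nat_lit 0) (XT.lf (nat_lit 0) (nat_lit 114408305703) (nat_lit 76) (nat_lit 10944551315) (nat_lit 76) (nat_lit 8067861197) (nat_lit 3) (nat_lit 4) (nat_lit 4) (nat_lit 5) (nat_lit 4) (nat_lit 4) (nat_lit 298) (nat_lit 217) (nat_lit 205)) (XT.lf (nat_lit 0) (nat_lit 127040978346) (nat_lit 76) (nat_lit 9982163879) (nat_lit 76) (nat_lit 6965115211) (nat_lit 3) (nat_lit 4) (nat_lit 4) (nat_lit 5) (nat_lit 4) (nat_lit 4) (nat_lit 299) (nat_lit 217) (nat_lit 204))) (XT.nd (nat_lit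 78) (nat_lit 0) (nat_lit 0) (XT.lf (nat_lit 0) (nat_lit 140572552078) (nat_lit 76) (nat_lit 8989532270) (nat_lit 76) (nat_lit 5842521981) (nat_lit 3) (nat_lit 4) (nat_lit 4) (nat_lit 5) (nat_lit 4) (nat_lit 4) (nat_lit 300) (nat_lit 217) (nat_lit 203)) (XT.lf (nat_lit 0) (nat_lit 155083214001) (nat_lit 76) (nat_lit 7960774225) (nat_lit 76) (nat_lit 4693429102) (nat_lit 3) (nat_lit 4) (nat_lit 4) (nat_lit 5) (nat_lit 4) (nat_lit 4) (nat_lit 301) (nat_lit 217) (nat_lit 202))))) (XT.nd (nat_lit 312) (nat_lit 76) (nat_lit 0) (XT.nd (nat_lit 156) (nat_lit 76) (nat_lit 0) (XT.nd (nat_lit 78) (nat_lit 0) (nat_lit 0) (XT.lf (nat_lit 0) (nat_lit 170658953223) (nat_lit 76) (nat_lit 6889793401) (nat_lit 76) (nat_lit 3511027135) (nat_lit 3) (nat_lit 4) (nat_lit 4) (nat_lit 5) (nat_lit 4) (nat_lit 4) (nat_lit 302) (nat_lit 217) (nat_lit 201)) (XT.lf (nat_lit 0) (nat_lit 187392070421) (nat_lit 76)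 (nat_lit 5770243244) (nat_lit 76) (nat_lit 2288309254) (nat_lit 3) (nat_lit 4) (nat_lit 4) (nat_lit 5) (nat_lit 4) (nat_lit 4) (nat_lit 303) (nat_lit 217) (nat_lit 200))) (XT.nd (nat_lit 78) (nat_lit 76) (nat_lit 0) (XT.lf (nat_lit 0) (nat_lit 205381724808) (nat_lit 76) (nat_lit 4595489383) (nat_lit 76) (nat_lit 1018029722) (nat_lit 3) (nat_lit 4) (nat_lit 4) (nat_lit 5) (nat_lit 4) (nat_lit 4) (nat_lit 304) (nat_lit 217) (nat_lit 199)) (XT.lf (nat_lit 0) (nat_lit 297502272) (nat_lit 152) (nat_lit 3056029696) (nat_lit 76) (nat_lit 224431981126) (nat_lit 2) (nat_lit 5) (nat_lit 4) (nat_lit 5) (nat_lit 3) (nat_lit 4) (nat_lit 305) (nat_lit 217) (nat_lit 198)))) (XT.nd (nat_lit 156) (nat_lit 0) (nat_lit 0) (XT.nd (nat_lit 78) (nat_lit 76) (nat_lit 0) (XT.lf (nat_lit 0) (nat_lit 1641379651) (nat_lit 152) (nat_lit 382978936) (nat_lit 76) (nat_lit 243895967258) (nat_lit 2) (nat_lit 5) (nat_lit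 4) (nat_lit 5) (nat_lit 3) (nat_lit 4) (nat_lit 306) (nat_lit 217) (nat_lit 197)) (XT.lf (nat_lit 0) (nat_lit 2517958158) (nat_lit 76) (nat_lit 575503665) (nat_lit 152) (nat_lit 262412514996) (nat_lit 1) (nat_lit 5) (nat_lit 2) (nat_lit 5) (nat_lit 3) (nat_lit 4) (nat_lit 307) (nat_lit 217) (nat_lit 196))) (XT.nd (nat_lit 78) (nat_lit 0) (nat_lit 0) (XT.lf (nat_lit 0) (nat_lit 4646765180) (nat_lit 152) (nat_lit 281074209436) (nat_lit 0) (nat_lit 938333942) (nat_lit 1) (nat_lit 5) (nat_lit 3) (nat_lit 4) (nat_lit 1) (nat_lit 4) (nat_lit 308) (nat_lit 217) (nat_lit 195)) (XT.nd (nat_lit 78) (nat_lit 0) (nat_lit 0) (XT.lf (nat_lit 0) (nat_lit 6299619150) (nat_lit 152) (nat_lit 300677328148) (nat_lit 0) (nat_lit 2529270611) (nat_lit 1) (nat_lit 5) (nat_lit 3) (nat_lit 4) (nat_lit 1) (nat_lit 4) (nat_lit 309) (nat_lit 217) (nat_lit 194)) (XT.lf (nat_lit 0) (nat_lit 8052833198) (nat_lit 152)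 (nat_lit 321904556201) (nat_lit 0) (nat_lit 4225153824) (nat_lit 1) (nat_lit 5) (nat_lit 3) (nat_lit 4) (nat_lit 1) (nat_lit 4) (nat_lit 310) (nat_lit 217) (nat_lit 193))))))))
noncomputable def xc10 : XT := (XT.nd (nat_lit 35802) (nat_lit 0) (nat_lit 152) (XT.nd (nat_lit 624) (nat_lit 0) (nat_lit 0) (XT.nd (nat_lit 312) (nat_lit 0) (nat_lit 0) (XT.nd (nat_lit 156) (nat_lit 0) (nat_lit 0) (XT.nd (nat_lit 78) (nat_lit 0) (nat_lit 0) (XT.lf (nat_lit 0) (nat_lit 9916796740) (nat_lit 152) (nat_lit 344881684576) (nat_lit 0) (nat_lit 6036033260) (nat_lit 1) (nat_lit 5) (nat_lit 3) (nat_lit 4) (nat_lit 1) (nat_lit 4) (nat_lit 311) (nat_lit 217) (nat_lit 192)) (XT.lf (nat_lit 0) (nat_lit 11902555486) (nat_lit 152) (nat_lit 369744874034) (nat_lit 0) (nat_lit 7972640056) (nat_lit 1) (nat_lit 5) (nat_lit 3) (nat_lit 4) (nat_lit 1) (nat_lit 4) (nat_lit 312) (nat_lit 217) (nat_lit 191))) (XT.nd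 (nat_lit 78) (nat_lit 0) (nat_lit 0) (XT.lf (nat_lit 0) (nat_lit 14021876897) (nat_lit 152) (nat_lit 396641461995) (nat_lit 0) (nat_lit 10046450401) (nat_lit 1) (nat_lit 5) (nat_lit 3) (nat_lit 4) (nat_lit 1) (nat_lit 4) (nat_lit 313) (nat_lit 217) (nat_lit 190)) (XT.lf (nat_lit 0) (nat_lit 16287319912) (nat_lit 152) (nat_lit 425730835645) (nat_lit 0) (nat_lit 12269753542) (nat_lit 1) (nat_lit 5) (nat_lit 3) (nat_lit 4) (nat_lit 1) (nat_lit 4) (nat_lit 314) (nat_lit 217) (nat_lit 189)))) (XT.nd (nat_lit 156) (nat_lit 0) (nat_lit 0) (XT.nd (nat_lit 78) (nat_lit 0) (nat_lit 0) (XT.lf (nat_lit 0) (nat_lit 18712309380) (nat_lit 152) (nat_lit 457185376458) (nat_lit 0) (nat_lit 14655724607) (nat_lit 1) (nat_lit 5) (nat_lit 3) (nat_lit 4) (nat_lit 1) (nat_lit 4) (nat_lit 315) (nat_lit 217) (nat_lit 188)) (XT.lf (nat_lit 0) (nat_lit 21311215609) (nat_lit 152) (nat_lit 491191481714) (nat_lit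 0) (nat_lit 17218502686) (nat_lit 1) (nat_lit 5) (nat_lit 3) (nat_lit 4) (nat_lit 1) (nat_lit 4) (nat_lit 316) (nat_lit 217) (nat_lit 187))) (XT.nd (nat_lit 78) (nat_lit 0) (nat_lit 0) (XT.lf (nat_lit 0) (nat_lit 24099439525) (nat_lit 152) (nat_lit 527950669072) (nat_lit 0) (nat_lit 19973274610) (nat_lit 1) (nat_lit 5) (nat_lit 3) (nat_lit 4) (nat_lit 1) (nat_lit 4) (nat_lit 317) (nat_lit 217) (nat_lit 186)) (XT.lf (nat_lit 0) (nat_lit 27093503936) (nat_lit 152) (nat_lit 567680770756) (nat_lit 0) (nat_lit 22936364954) (nat_lit 1) (nat_lit 5) (nat_lit 3) (nat_lit 4) (nat_lit 1) (nat_lit 4) (nat_lit 318) (nat_lit 217) (nat_lit 185))))) (XT.nd (nat_lit 34866) (nat_lit 0) (nat_lit 152) (XT.nd (nat_lit 156) (nat_lit 0) (nat_lit 0) (XT.nd (nat_lit 78) (nat_lit 0) (nat_lit 0) (XT.lf (nat_lit 0) (nat_lit 30311151445) (nat_lit 152) (nat_lit 610617224403) (nat_lit 0) (nat_lit 26125332773) (nat_lit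 1) (nat_lit 5) (nat_lit 3) (nat_lit 4) (nat_lit 1) (nat_lit 4) (nat_lit 319) (nat_lit 217) (nat_lit 184)) (XT.lf (nat_lit 0) (nat_lit 33771449594) (nat_lit 152) (nat_lit 657014468258) (nat_lit 0) (nat_lit 29559075653) (nat_lit 1) (nat_lit 5) (nat_lit 3) (nat_lit 4) (nat_lit 1) (nat_lit 4) (nat_lit 320) (nat_lit 217) (nat_lit 183))) (XT.nd (nat_lit 34632) (nat_lit 0) (nat_lit 228) (XT.lf (nat_lit 0) (nat_lit 37494903853) (nat_lit 152) (nat_lit 707147448951) (nat_lit 0) (nat_lit 33257941700) (nat_lit 1) (nat_lit 5) (nat_lit 3) (nat_lit 4) (nat_lit 1) (nat_lit 4) (nat_lit 321) (nat_lit 217) (nat_lit 182)) (XT.lf (nat_lit 0) (nat_lit 11051422608) (nat_lit 152) (nat_lit 1241427577) (nat_lit 0) (nat_lit 11051422608) (nat_lit 4) (nat_lit 5) (nat_lit 6) (nat_lit 4) (nat_lit 4) (nat_lit 4) (nat_lit 284) (nat_lit 218) (nat_lit 218)))) (XT.nd (nat_lit 156) (nat_lit 0) (nat_lit 0) (XT.nd (nat_lit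 78) (nat_lit 0) (nat_lit 0) (XT.lf (nat_lit 0) (nat_lit 3461015554) (nat_lit 76) (nat_lit 23578243810) (nat_lit 76) (nat_lit 23196521366) (nat_lit 3) (nat_lit 4) (nat_lit 4) (nat_lit 5) (nat_lit 4) (nat_lit 4) (nat_lit 285) (nat_lit 218) (nat_lit 217)) (XT.lf (nat_lit 0) (nat_lit 9665241303) (nat_lit 76) (nat_lit 22571912263) (nat_lit 76) (nat_lit 21836743112) (nat_lit 3) (nat_lit 4) (nat_lit 4) (nat_lit 5) (nat_lit 4) (nat_lit 4) (nat_lit 286) (nat_lit 218) (nat_lit 216))) (XT.nd (nat_lit 78) (nat_lit 0) (nat_lit 0) (XT.lf (nat_lit 0) (nat_lit 16084493470) (nat_lit 76) (nat_lit 21602790640) (nat_lit 76) (nat_lit 20540356019) (nat_lit 3) (nat_lit 4) (nat_lit 4) (nat_lit 5) (nat_lit 4) (nat_lit 4) (nat_lit 287) (nat_lit 218) (nat_lit 215)) (XT.lf (nat_lit 0) (nat_lit 22756812067) (nat_lit 76) (nat_lit 20665135997) (nat_lit 76) (nat_lit 19299677793) (nat_lit 3) (nat_lit 4) (nat_lit 4)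 (nat_lit 5) (nat_lit 4) (nat_lit 4) (nat_lit 288) (nat_lit 218) (nat_lit 214)))))) (XT.nd (nat_lit 624) (nat_lit 0) (nat_lit 0) (XT.nd (nat_lit 312) (nat_lit 0) (nat_lit 0) (XT.nd (nat_lit 156) (nat_lit 0) (nat_lit 0) (XT.nd (nat_lit 78) (nat_lit 0) (nat_lit 0) (XT.lf (nat_lit 0) (nat_lit 29721736760) (nat_lit 76) (nat_lit 19753391862) (nat_lit 76) (nat_lit 18107356266) (nat_lit 3) (nat_lit 4) (nat_lit 4) (nat_lit 5) (nat_lit 4) (nat_lit 4) (nat_lit 289) (nat_lit 218) (nat_lit 213)) (XT.lf (nat_lit 0) (nat_lit 37020541177) (nat_lit 76) (nat_lit 18862155307) (nat_lit 76) (nat_lit 16956325830) (nat_lit 3) (nat_lit 4) (nat_lit 4) (nat_lit 5) (nat_lit 4) (nat_lit 4) (nat_lit 290) (nat_lit 218) (nat_lit 212))) (XT.nd (nat_lit 78) (nat_lit 0) (nat_lit 0) (XT.lf (nat_lit 0) (nat_lit 44696477492) (nat_lit 76) (nat_lit 17986144931) (nat_lit 76) (nat_lit 15839765564) (nat_lit 3) (nat_lit 4) (nat_lit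 4) (nat_lit 5) (nat_lit 4) (nat_lit 4) (nat_lit 291) (nat_lit 218) (nat_lit 211)) (XT.lf (nat_lit 0) (nat_lit 52795032735) (nat_lit 76) (nat_lit 17120169560) (nat_lit 76) (nat_lit 14751058813) (nat_lit 3) (nat_lit 4) (nat_lit 4) (nat_lit 5) (nat_lit 4) (nat_lit 4) (nat_lit 292) (nat_lit 218) (nat_lit 210)))) (XT.nd (nat_lit 156) (nat_lit 0) (nat_lit 0) (XT.nd (nat_lit 78) (nat_lit 0) (nat_lit 0) (XT.lf (nat_lit 0) (nat_lit 61364198345) (nat_lit 76) (nat_lit 16259097489) (nat_lit 76) (nat_lit 13683753983) (nat_lit 3) (nat_lit 4) (nat_lit 4) (nat_lit 5) (nat_lit 4) (nat_lit 4) (nat_lit 293) (nat_lit 218) (nat_lit 209)) (XT.lf (nat_lit 0) (nat_lit 70454754562) (nat_lit 76) (nat_lit 15397826068) (nat_lit 76) (nat_lit 12631526305) (nat_lit 3) (nat_lit 4) (nat_lit 4) (nat_lit 5) (nat_lit 4) (nat_lit 4) (nat_lit 294) (nat_lit 218) (nat_lit 208))) (XT.nd (nat_lit 78) (nat_lit 0) (nat_lit 0)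 (XT.lf (nat_lit 0) (nat_lit 80120571350) (nat_lit 76) (nat_lit 14531251467) (nat_lit 76) (nat_lit 11588140353) (nat_lit 3) (nat_lit 4) (nat_lit 4) (nat_lit 5) (nat_lit 4) (nat_lit 4) (nat_lit 295) (nat_lit 218) (nat_lit 207)) (XT.lf (nat_lit 0) (nat_lit 90418927621) (nat_lit 76) (nat_lit 13654238429) (nat_lit 76) (nat_lit 10547413102) (nat_lit 3) (nat_lit 4) (nat_lit 4) (nat_lit 5) (nat_lit 4) (nat_lit 4) (nat_lit 296) (nat_lit 218) (nat_lit 206))))) (XT.nd (nat_lit 312) (nat_lit 0) (nat_lit 0) (XT.nd (nat_lit 156) (nat_lit 0) (nat_lit 0) (XT.nd (nat_lit 78) (nat_lit 0) (nat_lit 0) (XT.lf (nat_lit 0) (nat_lit 101410850674) (nat_lit 76) (nat_lit 12761589840) (nat_lit 76) (nat_lit 9503177279) (nat_lit 3) (nat_lit 4) (nat_lit 4) (nat_lit 5) (nat_lit 4) (nat_lit 4) (nat_lit 297) (nat_lit 218) (nat_lit 205)) (XT.lf (nat_lit 0) (nat_lit 113161477828) (nat_lit 76) (nat_lit 11848015930) (nat_lit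 76) (nat_lit 8449244818) (nat_lit 3) (nat_lit 4) (nat_lit 4) (nat_lit 5) (nat_lit 4) (nat_lit 4) (nat_lit 298) (nat_lit 218) (nat_lit 204))) (XT.nd (nat_lit 78) (nat_lit 0) (nat_lit 0) (XT.lf (nat_lit 0) (nat_lit 125740442432) (nat_lit 76) (nat_lit 10908102928) (nat_lit 76) (nat_lit 7379370195) (nat_lit 3) (nat_lit 4) (nat_lit 4) (nat_lit 5) (nat_lit 4) (nat_lit 4) (nat_lit 299) (nat_lit 218) (nat_lit 203)) (XT.lf (nat_lit 0) (nat_lit 139222286497) (nat_lit 76) (nat_lit 9936280978) (nat_lit 76) (nat_lit 6287213412) (nat_lit 3) (nat_lit 4) (nat_lit 4) (nat_lit 5) (nat_lit 4) (nat_lit 4) (nat_lit 300) (nat_lit 218) (nat_lit 202)))) (XT.nd (nat_lit 156) (nat_lit 0) (nat_lit 0) (XT.nd (nat_lit 78) (nat_lit 0) (nat_lit 0) (XT.lf (nat_lit 0) (nat_lit 153686902432) (nat_lit 76) (nat_lit 8926791137) (nat_lit 76) (nat_lit 5166302428) (nat_lit 3) (nat_lit 4) (nat_lit 4) (nat_lit 5) (nat_lit 4)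 (nat_lit 4) (nat_lit 301) (nat_lit 218) (nat_lit 201)) (XT.lf (nat_lit 0) (nat_lit 169220006480) (nat_lit 76) (nat_lit 7873651243) (nat_lit 76) (nat_lit 4009994809) (nat_lit 3) (nat_lit 4) (nat_lit 4) (nat_lit 5) (nat_lit 4) (nat_lit 4) (nat_lit 302) (nat_lit 218) (nat_lit 200))) (XT.nd (nat_lit 78) (nat_lit 0) (nat_lit 0) (XT.lf (nat_lit 0) (nat_lit 185913646665) (nat_lit 76) (nat_lit 6770620465) (nat_lit 76) (nat_lit 2811438360) (nat_lit 3) (nat_lit 4) (nat_lit 4) (nat_lit 5) (nat_lit 4) (nat_lit 4) (nat_lit 303) (nat_lit 218) (nat_lit 199)) (XT.nd (nat_lit 78) (nat_lit 0) (nat_lit 0) (XT.lf (nat_lit 0) (nat_lit 203866748263) (nat_lit 76) (nat_lit 5611162326) (nat_lit 76) (nat_lit 1563530526) (nat_lit 3) (nat_lit 4) (nat_lit 4) (nat_lit 5) (nat_lit 4) (nat_lit 4) (nat_lit 304) (nat_lit 218) (nat_lit 198)) (XT.lf (nat_lit 0) (nat_lit 223185700022) (nat_lit 76) (nat_lit 4388405962)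 (nat_lit 76) (nat_lit 258876296) (nat_lit 3) (nat_lit 4) (nat_lit 4) (nat_lit 5) (nat_lit 4) (nat_lit 4) (nat_lit 305) (nat_lit 218) (nat_lit 197))))))))
noncomputable def xc11 : XT := (XT.nd (nat_lit 35724) (nat_lit 0) (nat_lit 152) (XT.nd (nat_lit 624) (nat_lit 0) (nat_lit 0) (XT.nd (nat_lit 312) (nat_lit 0) (nat_lit 0) (XT.nd (nat_lit 156) (nat_lit 0) (nat_lit 0) (XT.nd (nat_lit 78) (nat_lit 76) (nat_lit 0) (XT.lf (nat_lit 0) (nat_lit 1074720499) (nat_lit 152) (nat_lit 2002183998) (nat_lit 76) (nat_lit 242892063210) (nat_lit 2) (nat_lit 5) (nat_lit 4) (nat_lit 5) (nat_lit 3) (nat_lit 4) (nat_lit 306) (nat_lit 218) (nat_lit 196)) (XT.lf (nat_lit 0) (nat_lit 814611012) (nat_lit 76) (nat_lit 1668406673) (nat_lit 152) (nat_lit 263073829389) (nat_lit 1) (nat_lit 5) (nat_lit 2) (nat_lit 5) (nat_lit 3) (nat_lit 4) (nat_lit 307) (nat_lit 218) (nat_lit 195))) (XT.nd (nat_lit 78) (nat_lit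 0) (nat_lit 0) (XT.lf (nat_lit 0) (nat_lit 3869306216) (nat_lit 76) (nat_lit 135520430) (nat_lit 152) (nat_lit 282706963132) (nat_lit 1) (nat_lit 5) (nat_lit 2) (nat_lit 5) (nat_lit 3) (nat_lit 4) (nat_lit 308) (nat_lit 218) (nat_lit 194)) (XT.lf (nat_lit 0) (nat_lit 5640243494) (nat_lit 152) (nat_lit 302470342115) (nat_lit 0) (nat_lit 1449018935) (nat_lit 1) (nat_lit 5) (nat_lit 3) (nat_lit 4) (nat_lit 1) (nat_lit 4) (nat_lit 309) (nat_lit 218) (nat_lit 193)))) (XT.nd (nat_lit 156) (nat_lit 0) (nat_lit 0) (XT.nd (nat_lit 78) (nat_lit 0) (nat_lit 0) (XT.lf (nat_lit 0) (nat_lit 7379271181) (nat_lit 152) (nat_lit 323722436551) (nat_lit 0) (nat_lit 3134962516) (nat_lit 1) (nat_lit 5) (nat_lit 3) (nat_lit 4) (nat_lit 1) (nat_lit 4) (nat_lit 310) (nat_lit 218) (nat_lit 192)) (XT.lf (nat_lit 0) (nat_lit 9230099205) (nat_lit 152) (nat_lit 346722589356) (nat_lit 0) (nat_lit 4936638590) (nat_lit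 1) (nat_lit 5) (nat_lit 3) (nat_lit 4) (nat_lit 1) (nat_lit 4) (nat_lit 311) (nat_lit 218) (nat_lit 191))) (XT.nd (nat_lit 78) (nat_lit 0) (nat_lit 0) (XT.lf (nat_lit 0) (nat_lit 11203695434) (nat_lit 152) (nat_lit 371607097730) (nat_lit 0) (nat_lit 6864723754) (nat_lit 1) (nat_lit 5) (nat_lit 3) (nat_lit 4) (nat_lit 1) (nat_lit 4) (nat_lit 312) (nat_lit 218) (nat_lit 190)) (XT.lf (nat_lit 0) (nat_lit 13311755254) (nat_lit 152) (nat_lit 398523425427) (nat_lit 0) (nat_lit 8930643699) (nat_lit 1) (nat_lit 5) (nat_lit 3) (nat_lit 4) (nat_lit 1) (nat_lit 4) (nat_lit 313) (nat_lit 218) (nat_lit 189))))) (XT.nd (nat_lit 312) (nat_lit 0) (nat_lit 0) (XT.nd (nat_lit 156) (nat_lit 0) (nat_lit 0) (XT.nd (nat_lit 78) (nat_lit 0) (nat_lit 0) (XT.lf (nat_lit 0) (nat_lit 15566770871) (nat_lit 152) (nat_lit 427631076612) (nat_lit 0) (nat_lit 11146640914) (nat_lit 1) (nat_lit 5) (nat_lit 3) (nat_lit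 4) (nat_lit 1) (nat_lit 4) (nat_lit 314) (nat_lit 218) (nat_lit 188)) (XT.lf (nat_lit 0) (nat_lit 17982105341) (nat_lit 152) (nat_lit 459102541068) (nat_lit 0) (nat_lit 13525847233) (nat_lit 1) (nat_lit 5) (nat_lit 3) (nat_lit 4) (nat_lit 1) (nat_lit 4) (nat_lit 315) (nat_lit 218) (nat_lit 187))) (XT.nd (nat_lit 78) (nat_lit 0) (nat_lit 0) (XT.lf (nat_lit 0) (nat_lit 20572071757) (nat_lit 152) (nat_lit 493124316363) (nat_lit 0) (nat_lit 16082361657) (nat_lit 1) (nat_lit 5) (nat_lit 3) (nat_lit 4) (nat_lit 1) (nat_lit 4) (nat_lit 316) (nat_lit 218) (nat_lit 186)) (XT.lf (nat_lit 0) (nat_lit 23352018067) (nat_lit 152) (nat_lit 529898013018) (nat_lit 0) (nat_lit 18831333902) (nat_lit 1) (nat_lit 5) (nat_lit 3) (nat_lit 4) (nat_lit 1) (nat_lit 4) (nat_lit 317) (nat_lit 218) (nat_lit 185)))) (XT.nd (nat_lit 156) (nat_lit 0) (nat_lit 0) (XT.nd (nat_lit 78) (nat_lit 0) (nat_lit 0) (XT.lf (nat_lit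 0) (nat_lit 26338418029) (nat_lit 152) (nat_lit 569641549235) (nat_lit 0) (nat_lit 21789054172) (nat_lit 1) (nat_lit 5) (nat_lit 3) (nat_lit 4) (nat_lit 1) (nat_lit 4) (nat_lit 318) (nat_lit 218) (nat_lit 184)) (XT.lf (nat_lit 0) (nat_lit 29548968826) (nat_lit 152) (nat_lit 612590442265) (nat_lit 0) (nat_lit 24973049700) (nat_lit 1) (nat_lit 5) (nat_lit 3) (nat_lit 4) (nat_lit 1) (nat_lit 4) (nat_lit 319) (nat_lit 218) (nat_lit 183))) (XT.nd (nat_lit 78) (nat_lit 0) (nat_lit 0) (XT.lf (nat_lit 0) (nat_lit 33002695946) (nat_lit 152) (nat_lit 658999204067) (nat_lit 0) (nat_lit 28402188607) (nat_lit 1) (nat_lit 5) (nat_lit 3) (nat_lit 4) (nat_lit 1) (nat_lit 4) (nat_lit 320) (nat_lit 218) (nat_lit 182)) (XT.nd (nat_lit 34476) (nat_lit 0) (nat_lit 228) (XT.lf (nat_lit 0) (nat_lit 36720065918) (nat_lit 152) (nat_lit 709142849526) (nat_lit 0) (nat_lit 32096791717) (nat_lit 1) (nat_lit 5)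 (nat_lit 3) (nat_lit 4) (nat_lit 1) (nat_lit 4) (nat_lit 321) (nat_lit 218) (nat_lit 181)) (XT.lf (nat_lit 0) (nat_lit 6694057083) (nat_lit 152) (nat_lit 6801956519) (nat_lit 0) (nat_lit 6694057083) (nat_lit 4) (nat_lit 5) (nat_lit 6) (nat_lit 4) (nat_lit 4) (nat_lit 4) (nat_lit 282) (nat_lit 219) (nat_lit 219))))))) (XT.nd (nat_lit 624) (nat_lit 0) (nat_lit 0) (XT.nd (nat_lit 312) (nat_lit 0) (nat_lit 0) (XT.nd (nat_lit 156) (nat_lit 76) (nat_lit 0) (XT.nd (nat_lit 78) (nat_lit 0) (nat_lit 0) (XT.lf (nat_lit 0) (nat_lit 17822445707) (nat_lit 152) (nat_lit 8177963070) (nat_lit 0) (nat_lit 17410185468) (nat_lit 4) (nat_lit 5) (nat_lit 6) (nat_lit 4) (nat_lit 4) (nat_lit 4) (nat_lit 283) (nat_lit 219) (nat_lit 218)) (XT.lf (nat_lit 0) (nat_lit 22425829238) (nat_lit 152) (nat_lit 2635557054) (nat_lit 0) (nat_lit 21631846555) (nat_lit 4) (nat_lit 5) (nat_lit 6) (nat_lit 4) (nat_lit 4) (nat_lit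 4) (nat_lit 284) (nat_lit 219) (nat_lit 217))) (XT.nd (nat_lit 78) (nat_lit 0) (nat_lit 0) (XT.lf (nat_lit 0) (nat_lit 3157198980) (nat_lit 76) (nat_lit 24117637812) (nat_lit 76) (nat_lit 22970208422) (nat_lit 3) (nat_lit 4) (nat_lit 4) (nat_lit 5) (nat_lit 4) (nat_lit 4) (nat_lit 285) (nat_lit 219) (nat_lit 216)) (XT.lf (nat_lit 0) (nat_lit 9226178747) (nat_lit 76) (nat_lit 23167900711) (nat_lit 76) (nat_lit 21693205851) (nat_lit 3) (nat_lit 4) (nat_lit 4) (nat_lit 5) (nat_lit 4) (nat_lit 4) (nat_lit 286) (nat_lit 219) (nat_lit 215)))) (XT.nd (nat_lit 156) (nat_lit 0) (nat_lit 0) (XT.nd (nat_lit 78) (nat_lit 0) (nat_lit 0) (XT.lf (nat_lit 0) (nat_lit 15520203153) (nat_lit 76) (nat_lit 22251181352) (nat_lit 76) (nat_lit 20473462909) (nat_lit 3) (nat_lit 4) (nat_lit 4) (nat_lit 5) (nat_lit 4) (nat_lit 4) (nat_lit 287) (nat_lit 219) (nat_lit 214)) (XT.lf (nat_lit 0) (nat_lit 22076570119)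 (nat_lit 76) (nat_lit 21362047324) (nat_lit 76) (nat_lit 19303751489) (nat_lit 3) (nat_lit 4) (nat_lit 4) (nat_lit 5) (nat_lit 4) (nat_lit 4) (nat_lit 288) (nat_lit 219) (nat_lit 213))) (XT.nd (nat_lit 78) (nat_lit 0) (nat_lit 0) (XT.lf (nat_lit 0) (nat_lit 28934132191) (nat_lit 76) (nat_lit 20495229685) (nat_lit 76) (nat_lit 18177139969) (nat_lit 3) (nat_lit 4) (nat_lit 4) (nat_lit 5) (nat_lit 4) (nat_lit 4) (nat_lit 289) (nat_lit 219) (nat_lit 212)) (XT.lf (nat_lit 0) (nat_lit 36133526774) (nat_lit 76) (nat_lit 19645591737) (nat_lit 76) (nat_lit 17086952131) (nat_lit 3) (nat_lit 4) (nat_lit 4) (nat_lit 5) (nat_lit 4) (nat_lit 4) (nat_lit 290) (nat_lit 219) (nat_lit 211))))) (XT.nd (nat_lit 312) (nat_lit 0) (nat_lit 0) (XT.nd (nat_lit 156) (nat_lit 0) (nat_lit 0) (XT.nd (nat_lit 78) (nat_lit 0) (nat_lit 0) (XT.lf (nat_lit 0) (nat_lit 43717416946) (nat_lit 76) (nat_lit 18808098589)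 (nat_lit 76) (nat_lit 16026727604) (nat_lit 3) (nat_lit 4) (nat_lit 4) (nat_lit 5) (nat_lit 4) (nat_lit 4) (nat_lit 291) (nat_lit 219) (nat_lit 210)) (XT.lf (nat_lit 0) (nat_lit 51730744280) (nat_lit 76) (nat_lit 17977787319) (nat_lit 76) (nat_lit 14990183575) (nat_lit 3) (nat_lit 4) (nat_lit 4) (nat_lit 5) (nat_lit 4) (nat_lit 4) (nat_lit 292) (nat_lit 219) (nat_lit 209))) (XT.nd (nat_lit 78) (nat_lit 0) (nat_lit 0) (XT.lf (nat_lit 0) (nat_lit 60220995158) (nat_lit 76) (nat_lit 17149737564) (nat_lit 76) (nat_lit 13971177561) (nat_lit 3) (nat_lit 4) (nat_lit 4) (nat_lit 5) (nat_lit 4) (nat_lit 4) (nat_lit 293) (nat_lit 219) (nat_lit 208)) (XT.lf (nat_lit 0) (nat_lit 69238482179) (nat_lit 76) (nat_lit 16319042361) (nat_lit 76) (nat_lit 12963671008) (nat_lit 3) (nat_lit 4) (nat_lit 4) (nat_lit 5) (nat_lit 4) (nat_lit 4) (nat_lit 294) (nat_lit 219) (nat_lit 207)))) (XT.nd (nat_lit 156)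 (nat_lit 0) (nat_lit 0) (XT.nd (nat_lit 78) (nat_lit 0) (nat_lit 0) (XT.lf (nat_lit 0) (nat_lit 78836642304) (nat_lit 76) (nat_lit 15480779073) (nat_lit 76) (nat_lit 11961693507) (nat_lit 3) (nat_lit 4) (nat_lit 4) (nat_lit 5) (nat_lit 4) (nat_lit 4) (nat_lit 295) (nat_lit 219) (nat_lit 206)) (XT.lf (nat_lit 0) (nat_lit 89072353517) (nat_lit 76) (nat_lit 14629980214) (nat_lit 76) (nat_lit 10959307413) (nat_lit 3) (nat_lit 4) (nat_lit 4) (nat_lit 5) (nat_lit 4) (nat_lit 4) (nat_lit 296) (nat_lit 219) (nat_lit 205))) (XT.nd (nat_lit 78) (nat_lit 0) (nat_lit 0) (XT.lf (nat_lit 0) (nat_lit 100006271886) (nat_lit 76) (nat_lit 13761604012) (nat_lit 76) (nat_lit 9950572661) (nat_lit 3) (nat_lit 4) (nat_lit 4) (nat_lit 5) (nat_lit 4) (nat_lit 4) (nat_lit 297) (nat_lit 219) (nat_lit 204)) (XT.nd (nat_lit 78) (nat_lit 0) (nat_lit 0) (XT.lf (nat_lit 0) (nat_lit 111703191001) (nat_lit 76) (nat_lit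 12870504535) (nat_lit 76) (nat_lit 8929511563) (nat_lit 3) (nat_lit 4) (nat_lit 4) (nat_lit 5) (nat_lit 4) (nat_lit 4) (nat_lit 298) (nat_lit 219) (nat_lit 203)) (XT.lf (nat_lit 0) (nat_lit 124232425938) (nat_lit 76) (nat_lit 11951401193) (nat_lit 76) (nat_lit 7890073387) (nat_lit 3) (nat_lit 4) (nat_lit 4) (nat_lit 5) (nat_lit 4) (nat_lit 4) (nat_lit 299) (nat_lit 219) (nat_lit 202))))))))
noncomputable def xc12 : XT := (XT.nd (nat_lit 1248) (nat_lit 0) (nat_lit 0) (XT.nd (nat_lit 624) (nat_lit 76) (nat_lit 0) (XT.nd (nat_lit 312) (nat_lit 76) (nat_lit 0) (XT.nd (nat_lit 156) (nat_lit 0) (nat_lit 0) (XT.nd (nat_lit 78) (nat_lit 0) (nat_lit 0) (XT.lf (nat_lit 0) (nat_lit 137668224014) (nat_lit 76) (nat_lit 10998847448) (nat_lit 76) (nat_lit 6826098499) (nat_lit 3) (nat_lit 4) (nat_lit 4) (nat_lit 5) (nat_lit 4) (nat_lit 4) (nat_lit 300) (nat_lit 219) (nat_lit 201)) (XT.lf (nat_lit 0)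 (nat_lit 152090204776) (nat_lit 76) (nat_lit 10007198536) (nat_lit 76) (nat_lit 5731281863) (nat_lit 3) (nat_lit 4) (nat_lit 4) (nat_lit 5) (nat_lit 4) (nat_lit 4) (nat_lit 301) (nat_lit 219) (nat_lit 200))) (XT.nd (nat_lit 78) (nat_lit 0) (nat_lit 0) (XT.lf (nat_lit 0) (nat_lit 167583831811) (nat_lit 76) (nat_lit 8970578021) (nat_lit 76) (nat_lit 4599135677) (nat_lit 3) (nat_lit 4) (nat_lit 4) (nat_lit 5) (nat_lit 4) (nat_lit 4) (nat_lit 302) (nat_lit 219) (nat_lit 199)) (XT.lf (nat_lit 0) (nat_lit 184240919206) (nat_lit 76) (nat_lit 7882842964) (nat_lit 76) (nat_lit 3422950925) (nat_lit 3) (nat_lit 4) (nat_lit 4) (nat_lit 5) (nat_lit 4) (nat_lit 4) (nat_lit 303) (nat_lit 219) (nat_lit 198)))) (XT.nd (nat_lit 156) (nat_lit 76) (nat_lit 0) (XT.nd (nat_lit 78) (nat_lit 0) (nat_lit 0) (XT.lf (nat_lit 0) (nat_lit 202160175628) (nat_lit 76) (nat_lit 6737547530) (nat_lit 76) (nat_lit 2195757625)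 (nat_lit 3) (nat_lit 4) (nat_lit 4) (nat_lit 5) (nat_lit 4) (nat_lit 4) (nat_lit 304) (nat_lit 219) (nat_lit 197)) (XT.lf (nat_lit 0) (nat_lit 221447789262) (nat_lit 76) (nat_lit 5527904782) (nat_lit 76) (nat_lit 910283519) (nat_lit 3) (nat_lit 4) (nat_lit 4) (nat_lit 5) (nat_lit 4) (nat_lit 4) (nat_lit 305) (nat_lit 219) (nat_lit 196))) (XT.nd (nat_lit 78) (nat_lit 0) (nat_lit 0) (XT.lf (nat_lit 0) (nat_lit 426971412) (nat_lit 152) (nat_lit 3812544088) (nat_lit 76) (nat_lit 241783854699) (nat_lit 2) (nat_lit 5) (nat_lit 4) (nat_lit 5) (nat_lit 3) (nat_lit 4) (nat_lit 306) (nat_lit 219) (nat_lit 195)) (XT.lf (nat_lit 0) (nat_lit 1806632678) (nat_lit 152) (nat_lit 1049251659) (nat_lit 76) (nat_lit 262756833268) (nat_lit 2) (nat_lit 5) (nat_lit 4) (nat_lit 5) (nat_lit 3) (nat_lit 4) (nat_lit 307) (nat_lit 219) (nat_lit 194))))) (XT.nd (nat_lit 312) (nat_lit 0) (nat_lit 0) (XT.nd (nat_lit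 156) (nat_lit 0) (nat_lit 0) (XT.nd (nat_lit 78) (nat_lit 0) (nat_lit 0) (XT.lf (nat_lit 0) (nat_lit 1944512676) (nat_lit 76) (nat_lit 1351857422) (nat_lit 152) (nat_lit 283472927348) (nat_lit 1) (nat_lit 5) (nat_lit 2) (nat_lit 5) (nat_lit 3) (nat_lit 4) (nat_lit 308) (nat_lit 219) (nat_lit 193)) (XT.lf (nat_lit 0) (nat_lit 4898610156) (nat_lit 152) (nat_lit 304458519277) (nat_lit 0) (nat_lit 261672692) (nat_lit 1) (nat_lit 5) (nat_lit 3) (nat_lit 4) (nat_lit 1) (nat_lit 4) (nat_lit 309) (nat_lit 219) (nat_lit 192))) (XT.nd (nat_lit 78) (nat_lit 0) (nat_lit 0) (XT.lf (nat_lit 0) (nat_lit 6624502324) (nat_lit 152) (nat_lit 325733638143) (nat_lit 0) (nat_lit 1938412910) (nat_lit 1) (nat_lit 5) (nat_lit 3) (nat_lit 4) (nat_lit 1) (nat_lit 4) (nat_lit 310) (nat_lit 219) (nat_lit 191)) (XT.lf (nat_lit 0) (nat_lit 8463167830) (nat_lit 152) (nat_lit 348755109863) (nat_lit 0) (nat_lit 3731567351)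 (nat_lit 1) (nat_lit 5) (nat_lit 3) (nat_lit 4) (nat_lit 1) (nat_lit 4) (nat_lit 311) (nat_lit 219) (nat_lit 190)))) (XT.nd (nat_lit 156) (nat_lit 0) (nat_lit 0) (XT.nd (nat_lit 78) (nat_lit 0) (nat_lit 0) (XT.lf (nat_lit 0) (nat_lit 10425502469) (nat_lit 152) (nat_lit 373659357974) (nat_lit 0) (nat_lit 5651762115) (nat_lit 1) (nat_lit 5) (nat_lit 3) (nat_lit 4) (nat_lit 1) (nat_lit 4) (nat_lit 312) (nat_lit 219) (nat_lit 189)) (XT.lf (nat_lit 0) (nat_lit 12523134891) (nat_lit 152) (nat_lit 400593963206) (nat_lit 0) (nat_lit 7710376134) (nat_lit 1) (nat_lit 5) (nat_lit 3) (nat_lit 4) (nat_lit 1) (nat_lit 4) (nat_lit 313) (nat_lit 219) (nat_lit 188))) (XT.nd (nat_lit 78) (nat_lit 0) (nat_lit 0) (XT.lf (nat_lit 0) (nat_lit 14768495510) (nat_lit 152) (nat_lit 429718538033) (nat_lit 0) (nat_lit 9919608602) (nat_lit 1) (nat_lit 5) (nat_lit 3) (nat_lit 4) (nat_lit 1) (nat_lit 4) (nat_lit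 314) (nat_lit 219) (nat_lit 187)) (XT.lf (nat_lit 0) (nat_lit 17174890167) (nat_lit 152) (nat_lit 461205672529) (nat_lit 0) (nat_lit 12292551268) (nat_lit 1) (nat_lit 5) (nat_lit 3) (nat_lit 4) (nat_lit 1) (nat_lit 4) (nat_lit 315) (nat_lit 219) (nat_lit 186)))))) (XT.nd (nat_lit 34866) (nat_lit 0) (nat_lit 152) (XT.nd (nat_lit 312) (nat_lit 0) (nat_lit 0) (XT.nd (nat_lit 156) (nat_lit 0) (nat_lit 0) (XT.nd (nat_lit 78) (nat_lit 0) (nat_lit 0) (XT.lf (nat_lit 0) (nat_lit 19756578977) (nat_lit 152) (nat_lit 495241957121) (nat_lit 0) (nat_lit 14843266012) (nat_lit 1) (nat_lit 5) (nat_lit 3) (nat_lit 4) (nat_lit 1) (nat_lit 4) (nat_lit 316) (nat_lit 219) (nat_lit 185)) (XT.lf (nat_lit 0) (nat_lit 22528860839) (nat_lit 152) (nat_lit 532029088309) (nat_lit 0) (nat_lit 17586868183) (nat_lit 1) (nat_lit 5) (nat_lit 3) (nat_lit 4) (nat_lit 1) (nat_lit 4) (nat_lit 317) (nat_lit 219) (nat_lit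 184))) (XT.nd (nat_lit 78) (nat_lit 0) (nat_lit 0) (XT.lf (nat_lit 0) (nat_lit 25508164088) (nat_lit 152) (nat_lit 571785063908) (nat_lit 0) (nat_lit 20539616163) (nat_lit 1) (nat_lit 5) (nat_lit 3) (nat_lit 4) (nat_lit 1) (nat_lit 4) (nat_lit 318) (nat_lit 219) (nat_lit 183)) (XT.lf (nat_lit 0) (nat_lit 28712143856) (nat_lit 152) (nat_lit 614745474885) (nat_lit 0) (nat_lit 23719007718) (nat_lit 1) (nat_lit 5) (nat_lit 3) (nat_lit 4) (nat_lit 1) (nat_lit 4) (nat_lit 319) (nat_lit 219) (nat_lit 182)))) (XT.nd (nat_lit 34398) (nat_lit 0) (nat_lit 228) (XT.nd (nat_lit 78) (nat_lit 0) (nat_lit 0) (XT.lf (nat_lit 0) (nat_lit 32159786689) (nat_lit 152) (nat_lit 661164901453) (nat_lit 0) (nat_lit 27143883688) (nat_lit 1) (nat_lit 5) (nat_lit 3) (nat_lit 4) (nat_lit 1) (nat_lit 4) (nat_lit 320) (nat_lit 219) (nat_lit 181)) (XT.lf (nat_lit 0) (nat_lit 35871523062) (nat_lit 152) (nat_lit 711318421695)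 (nat_lit 0) (nat_lit 30834539633) (nat_lit 1) (nat_lit 5) (nat_lit 3) (nat_lit 4) (nat_lit 1) (nat_lit 4) (nat_lit 321) (nat_lit 219) (nat_lit 180))) (XT.nd (nat_lit 78) (nat_lit 0) (nat_lit 0) (XT.lf (nat_lit 0) (nat_lit 2735857940) (nat_lit 152) (nat_lit 12028224438) (nat_lit 0) (nat_lit 2735857940) (nat_lit 4) (nat_lit 5) (nat_lit 6) (nat_lit 4) (nat_lit 4) (nat_lit 4) (nat_lit 280) (nat_lit 220) (nat_lit 220)) (XT.lf (nat_lit 0) (nat_lit 9541798152) (nat_lit 152) (nat_lit 18945560736) (nat_lit 0) (nat_lit 9096557094) (nat_lit 4) (nat_lit 5) (nat_lit 6) (nat_lit 4) (nat_lit 4) (nat_lit 4) (nat_lit 281) (nat_lit 220) (nat_lit 219))))) (XT.nd (nat_lit 312) (nat_lit 0) (nat_lit 0) (XT.nd (nat_lit 156) (nat_lit 76) (nat_lit 0) (XT.nd (nat_lit 78) (nat_lit 0) (nat_lit 0) (XT.lf (nat_lit 0) (nat_lit 13736936909) (nat_lit 152) (nat_lit 13768831088) (nat_lit 0) (nat_lit 12879435611) (nat_lit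 4) (nat_lit 5) (nat_lit 6) (nat_lit 4) (nat_lit 4) (nat_lit 4) (nat_lit 282) (nat_lit 220) (nat_lit 218)) (XT.lf (nat_lit 0) (nat_lit 18081992232) (nat_lit 152) (nat_lit 8495583020) (nat_lit 0) (nat_lit 16842768490) (nat_lit 4) (nat_lit 5) (nat_lit 6) (nat_lit 4) (nat_lit 4) (nat_lit 4) (nat_lit 283) (nat_lit 220) (nat_lit 217))) (XT.nd (nat_lit 78) (nat_lit 76) (nat_lit 0) (XT.lf (nat_lit 0) (nat_lit 22602712598) (nat_lit 152) (nat_lit 3094567651) (nat_lit 0) (nat_lit 21010042149) (nat_lit 4) (nat_lit 5) (nat_lit 6) (nat_lit 4) (nat_lit 4) (nat_lit 4) (nat_lit 284) (nat_lit 220) (nat_lit 216)) (XT.lf (nat_lit 0) (nat_lit 2547765437) (nat_lit 76) (nat_lit 24817899781) (nat_lit 76) (nat_lit 22897963862) (nat_lit 3) (nat_lit 4) (nat_lit 4) (nat_lit 5) (nat_lit 4) (nat_lit 4) (nat_lit 285) (nat_lit 220) (nat_lit 215)))) (XT.nd (nat_lit 156) (nat_lit 0) (nat_lit 0) (XT.nd (nat_lit 78) (nat_lit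 0) (nat_lit 0) (XT.lf (nat_lit 0) (nat_lit 8491517444) (nat_lit 76) (nat_lit 23920564945) (nat_lit 76) (nat_lit 21697605443) (nat_lit 3) (nat_lit 4) (nat_lit 4) (nat_lit 5) (nat_lit 4) (nat_lit 4) (nat_lit 286) (nat_lit 220) (nat_lit 214)) (XT.lf (nat_lit 0) (nat_lit 14669590219) (nat_lit 76) (nat_lit 23052366201) (nat_lit 76) (nat_lit 20548829308) (nat_lit 3) (nat_lit 4) (nat_lit 4) (nat_lit 5) (nat_lit 4) (nat_lit 4) (nat_lit 287) (nat_lit 220) (nat_lit 213))) (XT.nd (nat_lit 78) (nat_lit 0) (nat_lit 0) (XT.lf (nat_lit 0) (nat_lit 21118594564) (nat_lit 76) (nat_lit 22208158669) (nat_lit 76) (nat_lit 19444827894) (nat_lit 3) (nat_lit 4) (nat_lit 4) (nat_lit 5) (nat_lit 4) (nat_lit 4) (nat_lit 288) (nat_lit 220) (nat_lit 212)) (XT.nd (nat_lit 78) (nat_lit 0) (nat_lit 0) (XT.lf (nat_lit 0) (nat_lit 27876746802) (nat_lit 76) (nat_lit 21382939636) (nat_lit 76) (nat_lit 18379058972) (nat_lit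 3) (nat_lit 4) (nat_lit 4) (nat_lit 5) (nat_lit 4) (nat_lit 4) (nat_lit 289) (nat_lit 220) (nat_lit 211)) (XT.lf (nat_lit 0) (nat_lit 34984095242) (nat_lit 76) (nat_lit 20571818917) (nat_lit 76) (nat_lit 17345206873) (nat_lit 3) (nat_lit 4) (nat_lit 4) (nat_lit 5) (nat_lit 4) (nat_lit 4) (nat_lit 290) (nat_lit 220) (nat_lit 210))))))))
noncomputable def xc13 : XT := (XT.nd (nat_lit 1248) (nat_lit 152) (nat_lit 0) (XT.nd (nat_lit 624) (nat_lit 0) (nat_lit 0) (XT.nd (nat_lit 312) (nat_lit 0) (nat_lit 0) (XT.nd (nat_lit 156) (nat_lit 0) (nat_lit 0) (XT.nd (nat_lit 78) (nat_lit 0) (nat_lit 0) (XT.lf (nat_lit 0) (nat_lit 42482757504) (nat_lit 76) (nat_lit 19769989870) (nat_lit 76) (nat_lit 16337145067) (nat_lit 3) (nat_lit 4) (nat_lit 4) (nat_lit 5) (nat_lit 4) (nat_lit 4) (nat_lit 291) (nat_lit 220) (nat_lit 209)) (XT.lf (nat_lit 0) (nat_lit 50417170106) (nat_lit 76) (nat_lit 18972700916)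 (nat_lit 76) (nat_lit 15348899854) (nat_lit 3) (nat_lit 4) (nat_lit 4) (nat_lit 5) (nat_lit 4) (nat_lit 4) (nat_lit 292) (nat_lit 220) (nat_lit 208))) (XT.nd (nat_lit 78) (nat_lit 0) (nat_lit 0) (XT.lf (nat_lit 0) (nat_lit 58834351789) (nat_lit 76) (nat_lit 18175227378) (nat_lit 76) (nat_lit 14374614966) (nat_lit 3) (nat_lit 4) (nat_lit 4) (nat_lit 5) (nat_lit 4) (nat_lit 4) (nat_lit 293) (nat_lit 220) (nat_lit 207)) (XT.lf (nat_lit 0) (nat_lit 67784182147) (nat_lit 76) (nat_lit 17372843488) (nat_lit 76) (nat_lit 13408516864) (nat_lit 3) (nat_lit 4) (nat_lit 4) (nat_lit 5) (nat_lit 4) (nat_lit 4) (nat_lit 294) (nat_lit 220) (nat_lit 206)))) (XT.nd (nat_lit 156) (nat_lit 0) (nat_lit 0) (XT.nd (nat_lit 78) (nat_lit 0) (nat_lit 0) (XT.lf (nat_lit 0) (nat_lit 77319697213) (nat_lit 76) (nat_lit 16560794379) (nat_lit 76) (nat_lit 12444880520) (nat_lit 3) (nat_lit 4) (nat_lit 4) (nat_lit 5)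 (nat_lit 4) (nat_lit 4) (nat_lit 295) (nat_lit 220) (nat_lit 205)) (XT.lf (nat_lit 0) (nat_lit 87497403743) (nat_lit 76) (nat_lit 15734267908) (nat_lit 76) (nat_lit 11477995498) (nat_lit 3) (nat_lit 4) (nat_lit 4) (nat_lit 5) (nat_lit 4) (nat_lit 4) (nat_lit 296) (nat_lit 220) (nat_lit 204))) (XT.nd (nat_lit 78) (nat_lit 0) (nat_lit 0) (XT.lf (nat_lit 0) (nat_lit 98377614072) (nat_lit 76) (nat_lit 14888366139) (nat_lit 76) (nat_lit 10502132109) (nat_lit 3) (nat_lit 4) (nat_lit 4) (nat_lit 5) (nat_lit 4) (nat_lit 4) (nat_lit 297) (nat_lit 220) (nat_lit 203)) (XT.lf (nat_lit 0) (nat_lit 110024803520) (nat_lit 76) (nat_lit 14018076322) (nat_lit 76) (nat_lit 9511507458) (nat_lit 3) (nat_lit 4) (nat_lit 4) (nat_lit 5) (nat_lit 4) (nat_lit 4) (nat_lit 298) (nat_lit 220) (nat_lit 202))))) (XT.nd (nat_lit 312) (nat_lit 0) (nat_lit 0) (XT.nd (nat_lit 156) (nat_lit 0) (nat_lit 0) (XT.nd (nat_lit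 78) (nat_lit 0) (nat_lit 0) (XT.lf (nat_lit 0) (nat_lit 122507992469) (nat_lit 76) (nat_lit 13118241184) (nat_lit 76) (nat_lit 8500251177) (nat_lit 3) (nat_lit 4) (nat_lit 4) (nat_lit 5) (nat_lit 4) (nat_lit 4) (nat_lit 299) (nat_lit 220) (nat_lit 201)) (XT.lf (nat_lit 0) (nat_lit 135901155372) (nat_lit 76) (nat_lit 12183528368) (nat_lit 76) (nat_lit 7462370637) (nat_lit 3) (nat_lit 4) (nat_lit 4) (nat_lit 5) (nat_lit 4) (nat_lit 4) (nat_lit 300) (nat_lit 220) (nat_lit 200))) (XT.nd (nat_lit 78) (nat_lit 0) (nat_lit 0) (XT.lf (nat_lit 0) (nat_lit 150283659120) (nat_lit 76) (nat_lit 11208398836) (nat_lit 76) (nat_lit 6391715433) (nat_lit 3) (nat_lit 4) (nat_lit 4) (nat_lit 5) (nat_lit 4) (nat_lit 4) (nat_lit 301) (nat_lit 220) (nat_lit 199)) (XT.lf (nat_lit 0) (nat_lit 165740733365) (nat_lit 76) (nat_lit 10187074042) (nat_lit 76) (nat_lit 5281940944) (nat_lit 3) (nat_lit 4) (nat_lit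 4) (nat_lit 5) (nat_lit 4) (nat_lit 4) (nat_lit 302) (nat_lit 220) (nat_lit 198)))) (XT.nd (nat_lit 156) (nat_lit 0) (nat_lit 0) (XT.nd (nat_lit 78) (nat_lit 0) (nat_lit 0) (XT.lf (nat_lit 0) (nat_lit 182363975585) (nat_lit 76) (nat_lit 9113501691) (nat_lit 76) (nat_lit 4126470727) (nat_lit 3) (nat_lit 4) (nat_lit 4) (nat_lit 5) (nat_lit 4) (nat_lit 4) (nat_lit 303) (nat_lit 220) (nat_lit 197)) (XT.lf (nat_lit 0) (nat_lit 200251893881) (nat_lit 76) (nat_lit 7981319872) (nat_lit 76) (nat_lit 2918457551) (nat_lit 3) (nat_lit 4) (nat_lit 4) (nat_lit 5) (nat_lit 4) (nat_lit 4) (nat_lit 304) (nat_lit 220) (nat_lit 196))) (XT.nd (nat_lit 78) (nat_lit 0) (nat_lit 0) (XT.lf (nat_lit 0) (nat_lit 219510490732) (nat_lit 76) (nat_lit 6783819361) (nat_lit 76) (nat_lit 1650742820) (nat_lit 3) (nat_lit 4) (nat_lit 4) (nat_lit 5) (nat_lit 4) (nat_lit 4) (nat_lit 305) (nat_lit 220) (nat_lit 195)) (XT.lf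 (nat_lit 0) (nat_lit 240253891157) (nat_lit 76) (nat_lit 5513903858) (nat_lit 76) (nat_lit 315814150) (nat_lit 3) (nat_lit 4) (nat_lit 4) (nat_lit 5) (nat_lit 4) (nat_lit 4) (nat_lit 306) (nat_lit 220) (nat_lit 194)))))) (XT.nd (nat_lit 624) (nat_lit 0) (nat_lit 0) (XT.nd (nat_lit 312) (nat_lit 0) (nat_lit 0) (XT.nd (nat_lit 156) (nat_lit 76) (nat_lit 0) (XT.nd (nat_lit 78) (nat_lit 0) (nat_lit 0) (XT.lf (nat_lit 0) (nat_lit 1059216660) (nat_lit 152) (nat_lit 3086892930) (nat_lit 76) (nat_lit 261527864002) (nat_lit 2) (nat_lit 5) (nat_lit 4) (nat_lit 5) (nat_lit 3) (nat_lit 4) (nat_lit 307) (nat_lit 220) (nat_lit 193)) (XT.lf (nat_lit 0) (nat_lit 2504948047) (nat_lit 152) (nat_lit 178881899) (nat_lit 76) (nat_lit 284148954862) (nat_lit 2) (nat_lit 5) (nat_lit 4) (nat_lit 5) (nat_lit 3) (nat_lit 4) (nat_lit 308) (nat_lit 220) (nat_lit 192))) (XT.nd (nat_lit 78) (nat_lit 0) (nat_lit 0)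 (XT.lf (nat_lit 0) (nat_lit 3012910438) (nat_lit 76) (nat_lit 1074184869) (nat_lit 152) (nat_lit 305596227591) (nat_lit 1) (nat_lit 5) (nat_lit 2) (nat_lit 5) (nat_lit 3) (nat_lit 4) (nat_lit 309) (nat_lit 220) (nat_lit 191)) (XT.lf (nat_lit 0) (nat_lit 5784053923) (nat_lit 152) (nat_lit 327950079207) (nat_lit 0) (nat_lit 628414340) (nat_lit 1) (nat_lit 5) (nat_lit 3) (nat_lit 4) (nat_lit 1) (nat_lit 4) (nat_lit 310) (nat_lit 220) (nat_lit 190)))) (XT.nd (nat_lit 156) (nat_lit 0) (nat_lit 0) (XT.nd (nat_lit 78) (nat_lit 0) (nat_lit 0) (XT.lf (nat_lit 0) (nat_lit 7611457839) (nat_lit 152) (nat_lit 350991290664) (nat_lit 0) (nat_lit 2413678381) (nat_lit 1) (nat_lit 5) (nat_lit 3) (nat_lit 4) (nat_lit 1) (nat_lit 4) (nat_lit 311) (nat_lit 220) (nat_lit 189)) (XT.lf (nat_lit 0) (nat_lit 9563365080) (nat_lit 152) (nat_lit 375913816310) (nat_lit 0) (nat_lit 4326567219) (nat_lit 1) (nat_lit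 5) (nat_lit 3) (nat_lit 4) (nat_lit 1) (nat_lit 4) (nat_lit 312) (nat_lit 220) (nat_lit 188))) (XT.nd (nat_lit 78) (nat_lit 0) (nat_lit 0) (XT.lf (nat_lit 0) (nat_lit 11651342503) (nat_lit 152) (nat_lit 402865345184) (nat_lit 0) (nat_lit 6378416492) (nat_lit 1) (nat_lit 5) (nat_lit 3) (nat_lit 4) (nat_lit 1) (nat_lit 4) (nat_lit 313) (nat_lit 220) (nat_lit 187)) (XT.lf (nat_lit 0) (nat_lit 13887763308) (nat_lit 152) (nat_lit 432005590051) (nat_lit 0) (nat_lit 8581385306) (nat_lit 1) (nat_lit 5) (nat_lit 3) (nat_lit 4) (nat_lit 1) (nat_lit 4) (nat_lit 314) (nat_lit 220) (nat_lit 186))))) (XT.nd (nat_lit 312) (nat_lit 0) (nat_lit 0) (XT.nd (nat_lit 156) (nat_lit 0) (nat_lit 0) (XT.nd (nat_lit 78) (nat_lit 0) (nat_lit 0) (XT.lf (nat_lit 0) (nat_lit 16285880360) (nat_lit 152) (nat_lit 463507233843) (nat_lit 0) (nat_lit 10948528291) (nat_lit 1) (nat_lit 5) (nat_lit 3) (nat_lit 4) (nat_lit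 1) (nat_lit 4) (nat_lit 315) (nat_lit 220) (nat_lit 185)) (XT.lf (nat_lit 0) (nat_lit 18859904722) (nat_lit 152) (nat_lit 497556952968) (nat_lit 0) (nat_lit 13493872962) (nat_lit 1) (nat_lit 5) (nat_lit 3) (nat_lit 4) (nat_lit 1) (nat_lit 4) (nat_lit 316) (nat_lit 220) (nat_lit 184))) (XT.nd (nat_lit 78) (nat_lit 0) (nat_lit 0) (XT.lf (nat_lit 0) (nat_lit 21625089871) (nat_lit 152) (nat_lit 534356523539) (nat_lit 0) (nat_lit 16232502843) (nat_lit 1) (nat_lit 5) (nat_lit 3) (nat_lit 4) (nat_lit 1) (nat_lit 4) (nat_lit 317) (nat_lit 220) (nat_lit 183)) (XT.lf (nat_lit 0) (nat_lit 24597822091) (nat_lit 152) (nat_lit 574124017085) (nat_lit 0) (nat_lit 19180646850) (nat_lit 1) (nat_lit 5) (nat_lit 3) (nat_lit 4) (nat_lit 1) (nat_lit 4) (nat_lit 318) (nat_lit 220) (nat_lit 182)))) (XT.nd (nat_lit 156) (nat_lit 0) (nat_lit 0) (XT.nd (nat_lit 78) (nat_lit 0) (nat_lit 0) (XT.lf (nat_lit 0) (nat_lit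 27795717572) (nat_lit 152) (nat_lit 617095092828) (nat_lit 0) (nat_lit 22355775468) (nat_lit 1) (nat_lit 5) (nat_lit 3) (nat_lit 4) (nat_lit 1) (nat_lit 4) (nat_lit 319) (nat_lit 220) (nat_lit 181)) (XT.lf (nat_lit 0) (nat_lit 31237726806) (nat_lit 152) (nat_lit 663524394178) (nat_lit 0) (nat_lit 25776704273) (nat_lit 1) (nat_lit 5) (nat_lit 3) (nat_lit 4) (nat_lit 1) (nat_lit 4) (nat_lit 320) (nat_lit 220) (nat_lit 180))) (XT.nd (nat_lit 34164) (nat_lit 0) (nat_lit 228) (XT.lf (nat_lit 0) (nat_lit 34944246884) (nat_lit 152) (nat_lit 713687057738) (nat_lit 0) (nat_lit 29463705435) (nat_lit 1) (nat_lit 5) (nat_lit 3) (nat_lit 4) (nat_lit 1) (nat_lit 4) (nat_lit 321) (nat_lit 220) (nat_lit 179)) (XT.nd (nat_lit 78) (nat_lit 152) (nat_lit 0) (XT.lf (nat_lit 0) (nat_lit 13439106956) (nat_lit 76) (nat_lit 883434671) (nat_lit 76) (nat_lit 883434671) (nat_lit 6) (nat_lit 4) (nat_lit 7) (nat_lit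 5) (nat_lit 7) (nat_lit 4) (nat_lit 278) (nat_lit 221) (nat_lit 221)) (XT.lf (nat_lit 0) (nat_lit 1983431433) (nat_lit 152) (nat_lit 29131782258) (nat_lit 0) (nat_lit 1502571089) (nat_lit 4) (nat_lit 5) (nat_lit 6) (nat_lit 4) (nat_lit 4) (nat_lit 4) (nat_lit 279) (nat_lit 221) (nat_lit 220))))))))
noncomputable def xc14 : XT := (XT.nd (nat_lit 1248) (nat_lit 152) (nat_lit 0) (XT.nd (nat_lit 624) (nat_lit 0) (nat_lit 0) (XT.nd (nat_lit 312) (nat_lit 76) (nat_lit 0) (XT.nd (nat_lit 156) (nat_lit 0) (nat_lit 0) (XT.nd (nat_lit 78) (nat_lit 0) (nat_lit 0) (XT.lf (nat_lit 0) (nat_lit 5848444444) (nat_lit 152) (nat_lit 24234560372) (nat_lit 0) (nat_lit 4922343042) (nat_lit 4) (nat_lit 5) (nat_lit 6) (nat_lit 4) (nat_lit 4) (nat_lit 4) (nat_lit 280) (nat_lit 221) (nat_lit 219)) (XT.lf (nat_lit 0) (nat_lit 9822108399) (nat_lit 152) (nat_lit 19288590281) (nat_lit 0) (nat_lit 8483746758) (nat_lit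 4) (nat_lit 5) (nat_lit 6) (nat_lit 4) (nat_lit 4) (nat_lit 4) (nat_lit 281) (nat_lit 221) (nat_lit 218))) (XT.nd (nat_lit 78) (nat_lit 0) (nat_lit 0) (XT.lf (nat_lit 0) (nat_lit 13927970937) (nat_lit 152) (nat_lit 14264562533) (nat_lit 0) (nat_lit 12207886853) (nat_lit 4) (nat_lit 5) (nat_lit 6) (nat_lit 4) (nat_lit 4) (nat_lit 4) (nat_lit 282) (nat_lit 221) (nat_lit 217)) (XT.lf (nat_lit 0) (nat_lit 18190363095) (nat_lit 152) (nat_lit 9132705112) (nat_lit 0) (nat_lit 16116832303) (nat_lit 4) (nat_lit 5) (nat_lit 6) (nat_lit 4) (nat_lit 4) (nat_lit 4) (nat_lit 283) (nat_lit 221) (nat_lit 216)))) (XT.nd (nat_lit 156) (nat_lit 0) (nat_lit 0) (XT.nd (nat_lit 78) (nat_lit 76) (nat_lit 0) (XT.lf (nat_lit 0) (nat_lit 22634543494) (nat_lit 152) (nat_lit 3862607009) (nat_lit 0) (nat_lit 20233747232) (nat_lit 4) (nat_lit 5) (nat_lit 6) (nat_lit 4) (nat_lit 4) (nat_lit 4) (nat_lit 284) (nat_lit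 221) (nat_lit 215)) (XT.lf (nat_lit 0) (nat_lit 1629103468) (nat_lit 76) (nat_lit 25683179418) (nat_lit 76) (nat_lit 22979359573) (nat_lit 3) (nat_lit 4) (nat_lit 4) (nat_lit 5) (nat_lit 4) (nat_lit 4) (nat_lit 285) (nat_lit 221) (nat_lit 214))) (XT.nd (nat_lit 78) (nat_lit 0) (nat_lit 0) (XT.lf (nat_lit 0) (nat_lit 7456903844) (nat_lit 76) (nat_lit 24834365197) (nat_lit 76) (nat_lit 21849967960) (nat_lit 3) (nat_lit 4) (nat_lit 4) (nat_lit 5) (nat_lit 4) (nat_lit 4) (nat_lit 286) (nat_lit 221) (nat_lit 213)) (XT.lf (nat_lit 0) (nat_lit 13527613998) (nat_lit 76) (nat_lit 24011092948) (nat_lit 76) (nat_lit 20766901831) (nat_lit 3) (nat_lit 4) (nat_lit 4) (nat_lit 5) (nat_lit 4) (nat_lit 4) (nat_lit 287) (nat_lit 221) (nat_lit 212))))) (XT.nd (nat_lit 312) (nat_lit 0) (nat_lit 0) (XT.nd (nat_lit 156) (nat_lit 0) (nat_lit 0) (XT.nd (nat_lit 78) (nat_lit 0) (nat_lit 0) (XT.lf (nat_lit 0)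 (nat_lit 19877208509) (nat_lit 76) (nat_lit 23208484023) (nat_lit 76) (nat_lit 19723743016) (nat_lit 3) (nat_lit 4) (nat_lit 4) (nat_lit 5) (nat_lit 4) (nat_lit 4) (nat_lit 288) (nat_lit 221) (nat_lit 211)) (XT.lf (nat_lit 0) (nat_lit 26543314605) (nat_lit 76) (nat_lit 22421782220) (nat_lit 76) (nat_lit 18714309832) (nat_lit 3) (nat_lit 4) (nat_lit 4) (nat_lit 5) (nat_lit 4) (nat_lit 4) (nat_lit 289) (nat_lit 221) (nat_lit 210))) (XT.nd (nat_lit 78) (nat_lit 0) (nat_lit 0) (XT.lf (nat_lit 0) (nat_lit 33565435134) (nat_lit 76) (nat_lit 21646325601) (nat_lit 76) (nat_lit 17732620455) (nat_lit 3) (nat_lit 4) (nat_lit 4) (nat_lit 5) (nat_lit 4) (nat_lit 4) (nat_lit 290) (nat_lit 221) (nat_lit 209)) (XT.lf (nat_lit 0) (nat_lit 40985182665) (nat_lit 76) (nat_lit 20877518870) (nat_lit 76) (nat_lit 16772857465) (nat_lit 3) (nat_lit 4) (nat_lit 4) (nat_lit 5) (nat_lit 4) (nat_lit 4) (nat_lit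 291) (nat_lit 221) (nat_lit 208)))) (XT.nd (nat_lit 156) (nat_lit 0) (nat_lit 0) (XT.nd (nat_lit 78) (nat_lit 0) (nat_lit 0) (XT.lf (nat_lit 0) (nat_lit 48846526071) (nat_lit 76) (nat_lit 20110806133) (nat_lit 76) (nat_lit 15829333378) (nat_lit 3) (nat_lit 4) (nat_lit 4) (nat_lit 5) (nat_lit 4) (nat_lit 4) (nat_lit 292) (nat_lit 221) (nat_lit 207)) (XT.lf (nat_lit 0) (nat_lit 57196051091) (nat_lit 76) (nat_lit 19341643908) (nat_lit 76) (nat_lit 14896456941) (nat_lit 3) (nat_lit 4) (nat_lit 4) (nat_lit 5) (nat_lit 4) (nat_lit 4) (nat_lit 293) (nat_lit 221) (nat_lit 206))) (XT.nd (nat_lit 78) (nat_lit 0) (nat_lit 0) (XT.lf (nat_lit 0) (nat_lit 66083236391) (nat_lit 76) (nat_lit 18565474197) (nat_lit 76) (nat_lit 13968699995) (nat_lit 3) (nat_lit 4) (nat_lit 4) (nat_lit 5) (nat_lit 4) (nat_lit 4) (nat_lit 294) (nat_lit 221) (nat_lit 205)) (XT.lf (nat_lit 0) (nat_lit 75560746774) (nat_lit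 76) (nat_lit 17777697476) (nat_lit 76) (nat_lit 13040564723) (nat_lit 3) (nat_lit 4) (nat_lit 4) (nat_lit 5) (nat_lit 4) (nat_lit 4) (nat_lit 295) (nat_lit 221) (nat_lit 204)))))) (XT.nd (nat_lit 624) (nat_lit 152) (nat_lit 0) (XT.nd (nat_lit 312) (nat_lit 0) (nat_lit 0) (XT.nd (nat_lit 156) (nat_lit 0) (nat_lit 0) (XT.nd (nat_lit 78) (nat_lit 0) (nat_lit 0) (XT.lf (nat_lit 0) (nat_lit 85684745264) (nat_lit 76) (nat_lit 16973645437) (nat_lit 76) (nat_lit 12106551064) (nat_lit 3) (nat_lit 4) (nat_lit 4) (nat_lit 5) (nat_lit 4) (nat_lit 4) (nat_lit 296) (nat_lit 221) (nat_lit 203)) (XT.lf (nat_lit 0) (nat_lit 96515225926) (nat_lit 76) (nat_lit 16148553329) (nat_lit 76) (nat_lit 11161124121) (nat_lit 3) (nat_lit 4) (nat_lit 4) (nat_lit 5) (nat_lit 4) (nat_lit 4) (nat_lit 297) (nat_lit 221) (nat_lit 202))) (XT.nd (nat_lit 78) (nat_lit 0) (nat_lit 0) (XT.lf (nat_lit 0) (nat_lit 108116369385)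 (nat_lit 76) (nat_lit 15297531716) (nat_lit 76) (nat_lit 10198681366) (nat_lit 3) (nat_lit 4) (nat_lit 4) (nat_lit 5) (nat_lit 4) (nat_lit 4) (nat_lit 298) (nat_lit 221) (nat_lit 201)) (XT.lf (nat_lit 0) (nat_lit 120556923160) (nat_lit 76) (nat_lit 14415537507) (nat_lit 76) (nat_lit 9213519433) (nat_lit 3) (nat_lit 4) (nat_lit 4) (nat_lit 5) (nat_lit 4) (nat_lit 4) (nat_lit 299) (nat_lit 221) (nat_lit 200)))) (XT.nd (nat_lit 156) (nat_lit 0) (nat_lit 0) (XT.nd (nat_lit 78) (nat_lit 0) (nat_lit 0) (XT.lf (nat_lit 0) (nat_lit 133910609050) (nat_lit 76) (nat_lit 13497344071) (nat_lit 76) (nat_lit 8199800325) (nat_lit 3) (nat_lit 4) (nat_lit 4) (nat_lit 5) (nat_lit 4) (nat_lit 4) (nat_lit 300) (nat_lit 221) (nat_lit 199)) (XT.lf (nat_lit 0) (nat_lit 148256560009) (nat_lit 76) (nat_lit 12537510260) (nat_lit 76) (nat_lit 7151516819) (nat_lit 3) (nat_lit 4) (nat_lit 4) (nat_lit 5) (nat_lit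 4) (nat_lit 4) (nat_lit 301) (nat_lit 221) (nat_lit 198))) (XT.nd (nat_lit 78) (nat_lit 0) (nat_lit 0) (XT.lf (nat_lit 0) (nat_lit 163679789079) (nat_lit 76) (nat_lit 11530348171) (nat_lit 76) (nat_lit 6062456864) (nat_lit 3) (nat_lit 4) (nat_lit 4) (nat_lit 5) (nat_lit 4) (nat_lit 4) (nat_lit 302) (nat_lit 221) (nat_lit 197)) (XT.lf (nat_lit 0) (nat_lit 180271693173) (nat_lit 76) (nat_lit 10469889436) (nat_lit 76) (nat_lit 4926166771) (nat_lit 3) (nat_lit 4) (nat_lit 4) (nat_lit 5) (nat_lit 4) (nat_lit 4) (nat_lit 303) (nat_lit 221) (nat_lit 196))))) (XT.nd (nat_lit 312) (nat_lit 76) (nat_lit 0) (XT.nd (nat_lit 156) (nat_lit 76) (nat_lit 0) (XT.nd (nat_lit 78) (nat_lit 0) (nat_lit 0) (XT.lf (nat_lit 0) (nat_lit 198130594686) (nat_lit 76) (nat_lit 9349849854) (nat_lit 76) (nat_lit 3735912970) (nat_lit 3) (nat_lit 4) (nat_lit 4) (nat_lit 5) (nat_lit 4) (nat_lit 4) (nat_lit 304) (nat_lit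 221) (nat_lit 195)) (XT.lf (nat_lit 0) (nat_lit 217362324145) (nat_lit 76) (nat_lit 8163592155) (nat_lit 76) (nat_lit 2484642104) (nat_lit 3) (nat_lit 4) (nat_lit 4) (nat_lit 5) (nat_lit 4) (nat_lit 4) (nat_lit 305) (nat_lit 221) (nat_lit 194))) (XT.nd (nat_lit 78) (nat_lit 76) (nat_lit 0) (XT.lf (nat_lit 0) (nat_lit 238080847355) (nat_lit 76) (nat_lit 6904086663) (nat_lit 76) (nat_lit 1164939235) (nat_lit 3) (nat_lit 4) (nat_lit 4) (nat_lit 5) (nat_lit 4) (nat_lit 4) (nat_lit 306) (nat_lit 221) (nat_lit 193)) (XT.lf (nat_lit 0) (nat_lit 223622139) (nat_lit 152) (nat_lit 5336460352) (nat_lit 76) (nat_lit 260181531461) (nat_lit 2) (nat_lit 5) (nat_lit 4) (nat_lit 5) (nat_lit 3) (nat_lit 4) (nat_lit 307) (nat_lit 221) (nat_lit 192)))) (XT.nd (nat_lit 156) (nat_lit 0) (nat_lit 0) (XT.nd (nat_lit 78) (nat_lit 76) (nat_lit 0) (XT.lf (nat_lit 0) (nat_lit 1656717654) (nat_lit 152) (nat_lit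 2450224093) (nat_lit 76) (nat_lit 282794143986) (nat_lit 2) (nat_lit 5) (nat_lit 4) (nat_lit 5) (nat_lit 3) (nat_lit 4) (nat_lit 308) (nat_lit 221) (nat_lit 191)) (XT.lf (nat_lit 0) (nat_lit 645638945) (nat_lit 76) (nat_lit 2544566347) (nat_lit 152) (nat_lit 306563878154) (nat_lit 1) (nat_lit 5) (nat_lit 2) (nat_lit 5) (nat_lit 3) (nat_lit 4) (nat_lit 309) (nat_lit 221) (nat_lit 190))) (XT.nd (nat_lit 78) (nat_lit 0) (nat_lit 0) (XT.lf (nat_lit 0) (nat_lit 4036553653) (nat_lit 76) (nat_lit 829340213) (nat_lit 152) (nat_lit 329568502320) (nat_lit 1) (nat_lit 5) (nat_lit 2) (nat_lit 5) (nat_lit 3) (nat_lit 4) (nat_lit 310) (nat_lit 221) (nat_lit 189)) (XT.nd (nat_lit 78) (nat_lit 0) (nat_lit 0) (XT.lf (nat_lit 0) (nat_lit 6669922059) (nat_lit 152) (nat_lit 353444383201) (nat_lit 0) (nat_lit 975161967) (nat_lit 1) (nat_lit 5) (nat_lit 3) (nat_lit 4) (nat_lit 1) (nat_lit 4) (nat_lit 311)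 (nat_lit 221) (nat_lit 188)) (XT.lf (nat_lit 0) (nat_lit 8612174302) (nat_lit 152) (nat_lit 378383832489) (nat_lit 0) (nat_lit 2881286059) (nat_lit 1) (nat_lit 5) (nat_lit 3) (nat_lit 4) (nat_lit 1) (nat_lit 4) (nat_lit 312) (nat_lit 221) (nat_lit 187))))))))
noncomputable def xc15 : XT := (XT.nd (nat_lit 35256) (nat_lit 0) (nat_lit 152) (XT.nd (nat_lit 624) (nat_lit 0) (nat_lit 0) (XT.nd (nat_lit 312) (nat_lit 0) (nat_lit 0) (XT.nd (nat_lit 156) (nat_lit 0) (nat_lit 0) (XT.nd (nat_lit 78) (nat_lit 0) (nat_lit 0) (XT.lf (nat_lit 0) (nat_lit 10691211912) (nat_lit 152) (nat_lit 405351031403) (nat_lit 0) (nat_lit 4926871678) (nat_lit 1) (nat_lit 5) (nat_lit 3) (nat_lit 4) (nat_lit 1) (nat_lit 4) (nat_lit 313) (nat_lit 221) (nat_lit 186)) (XT.lf (nat_lit 0) (nat_lit 12919355112) (nat_lit 152) (nat_lit 434505785566) (nat_lit 0) (nat_lit 7124040812) (nat_lit 1) (nat_lit 5) (nat_lit 3) (nat_lit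 4) (nat_lit 1) (nat_lit 4) (nat_lit 314) (nat_lit 221) (nat_lit 185))) (XT.nd (nat_lit 78) (nat_lit 0) (nat_lit 0) (XT.lf (nat_lit 0) (nat_lit 15309807715) (nat_lit 152) (nat_lit 466020863891) (nat_lit 0) (nat_lit 9485813724) (nat_lit 1) (nat_lit 5) (nat_lit 3) (nat_lit 4) (nat_lit 1) (nat_lit 4) (nat_lit 315) (nat_lit 221) (nat_lit 184)) (XT.lf (nat_lit 0) (nat_lit 17876735364) (nat_lit 152) (nat_lit 500083022399) (nat_lit 0) (nat_lit 12026186104) (nat_lit 1) (nat_lit 5) (nat_lit 3) (nat_lit 4) (nat_lit 1) (nat_lit 4) (nat_lit 316) (nat_lit 221) (nat_lit 183)))) (XT.nd (nat_lit 156) (nat_lit 0) (nat_lit 0) (XT.nd (nat_lit 78) (nat_lit 0) (nat_lit 0) (XT.lf (nat_lit 0) (nat_lit 20635349484) (nat_lit 152) (nat_lit 536894110917) (nat_lit 0) (nat_lit 14760212012) (nat_lit 1) (nat_lit 5) (nat_lit 3) (nat_lit 4) (nat_lit 1) (nat_lit 4) (nat_lit 317) (nat_lit 221) (nat_lit 182)) (XT.lf (nat_lit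 0) (nat_lit 23601997417) (nat_lit 152) (nat_lit 576672269229) (nat_lit 0) (nat_lit 17704093081) (nat_lit 1) (nat_lit 5) (nat_lit 3) (nat_lit 4) (nat_lit 1) (nat_lit 4) (nat_lit 318) (nat_lit 221) (nat_lit 181))) (XT.nd (nat_lit 78) (nat_lit 0) (nat_lit 0) (XT.lf (nat_lit 0) (nat_lit 26794259299) (nat_lit 152) (nat_lit 619653219755) (nat_lit 0) (nat_lit 20875274535) (nat_lit 1) (nat_lit 5) (nat_lit 3) (nat_lit 4) (nat_lit 1) (nat_lit 4) (nat_lit 319) (nat_lit 221) (nat_lit 180)) (XT.lf (nat_lit 0) (nat_lit 30231052238) (nat_lit 152) (nat_lit 666091664423) (nat_lit 0) (nat_lit 24292548557) (nat_lit 1) (nat_lit 5) (nat_lit 3) (nat_lit 4) (nat_lit 1) (nat_lit 4) (nat_lit 320) (nat_lit 221) (nat_lit 179))))) (XT.nd (nat_lit 34242) (nat_lit 0) (nat_lit 228) (XT.nd (nat_lit 34086) (nat_lit 0) (nat_lit 380) (XT.nd (nat_lit 34008) (nat_lit 0) (nat_lit 380) (XT.lf (nat_lit 0) (nat_lit 33932742413)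 (nat_lit 152) (nat_lit 716262794018) (nat_lit 0) (nat_lit 27976165663) (nat_lit 1) (nat_lit 5) (nat_lit 3) (nat_lit 4) (nat_lit 1) (nat_lit 4) (nat_lit 321) (nat_lit 221) (nat_lit 178)) (XT.lf (nat_lit 0) (nat_lit 4839790708) (nat_lit 76) (nat_lit 4203855988) (nat_lit 76) (nat_lit 4203855988) (nat_lit 6) (nat_lit 4) (nat_lit 7) (nat_lit 5) (nat_lit 7) (nat_lit 4) (nat_lit 276) (nat_lit 222) (nat_lit 222))) (XT.nd (nat_lit 78) (nat_lit 0) (nat_lit 0) (XT.lf (nat_lit 0) (nat_lit 18040493406) (nat_lit 76) (nat_lit 5440020941) (nat_lit 76) (nat_lit 4894725312) (nat_lit 6) (nat_lit 4) (nat_lit 7) (nat_lit 5) (nat_lit 7) (nat_lit 4) (nat_lit 277) (nat_lit 222) (nat_lit 221)) (XT.lf (nat_lit 0) (nat_lit 26700376466) (nat_lit 76) (nat_lit 2383693071) (nat_lit 76) (nat_lit 1333494082) (nat_lit 6) (nat_lit 4) (nat_lit 7) (nat_lit 5) (nat_lit 7) (nat_lit 4) (nat_lit 278) (nat_lit 222) (nat_lit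 220)))) (XT.nd (nat_lit 156) (nat_lit 0) (nat_lit 0) (XT.nd (nat_lit 78) (nat_lit 0) (nat_lit 0) (XT.lf (nat_lit 0) (nat_lit 2286166499) (nat_lit 152) (nat_lit 29502254167) (nat_lit 0) (nat_lit 840735927) (nat_lit 4) (nat_lit 5) (nat_lit 6) (nat_lit 4) (nat_lit 4) (nat_lit 4) (nat_lit 279) (nat_lit 222) (nat_lit 219)) (XT.lf (nat_lit 0) (nat_lit 6054761195) (nat_lit 152) (nat_lit 24769950333) (nat_lit 0) (nat_lit 4197070383) (nat_lit 4) (nat_lit 5) (nat_lit 6) (nat_lit 4) (nat_lit 4) (nat_lit 4) (nat_lit 280) (nat_lit 222) (nat_lit 218))) (XT.nd (nat_lit 78) (nat_lit 0) (nat_lit 0) (XT.lf (nat_lit 0) (nat_lit 9939148932) (nat_lit 152) (nat_lit 19976682141) (nat_lit 0) (nat_lit 7699735676) (nat_lit 4) (nat_lit 5) (nat_lit 6) (nat_lit 4) (nat_lit 4) (nat_lit 4) (nat_lit 281) (nat_lit 222) (nat_lit 217)) (XT.nd (nat_lit 78) (nat_lit 0) (nat_lit 0) (XT.lf (nat_lit 0) (nat_lit 13962348305)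 (nat_lit 152) (nat_lit 15094045040) (nat_lit 0) (nat_lit 11369488342) (nat_lit 4) (nat_lit 5) (nat_lit 6) (nat_lit 4) (nat_lit 4) (nat_lit 4) (nat_lit 282) (nat_lit 222) (nat_lit 216)) (XT.lf (nat_lit 0) (nat_lit 18148200496) (nat_lit 152) (nat_lit 10093104884) (nat_lit 0) (nat_lit 15228075063) (nat_lit 4) (nat_lit 5) (nat_lit 6) (nat_lit 4) (nat_lit 4) (nat_lit 4) (nat_lit 283) (nat_lit 222) (nat_lit 215))))))) (XT.nd (nat_lit 624) (nat_lit 0) (nat_lit 0) (XT.nd (nat_lit 312) (nat_lit 0) (nat_lit 0) (XT.nd (nat_lit 156) (nat_lit 0) (nat_lit 0) (XT.nd (nat_lit 78) (nat_lit 76) (nat_lit 0) (XT.lf (nat_lit 0) (nat_lit 22521510554) (nat_lit 152) (nat_lit 4944226473) (nat_lit 0) (nat_lit 19298361538) (nat_lit 4) (nat_lit 5) (nat_lit 6) (nat_lit 4) (nat_lit 4) (nat_lit 4) (nat_lit 284) (nat_lit 222) (nat_lit 214)) (XT.lf (nat_lit 0) (nat_lit 395769150) (nat_lit 76) (nat_lit 26718604305)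 (nat_lit 76) (nat_lit 23214877898) (nat_lit 3) (nat_lit 4) (nat_lit 4) (nat_lit 5) (nat_lit 4) (nat_lit 4) (nat_lit 285) (nat_lit 222) (nat_lit 213))) (XT.nd (nat_lit 78) (nat_lit 0) (nat_lit 0) (XT.lf (nat_lit 0) (nat_lit 6116206905) (nat_lit 76) (nat_lit 25914716579) (nat_lit 76) (nat_lit 22151196291) (nat_lit 3) (nat_lit 4) (nat_lit 4) (nat_lit 5) (nat_lit 4) (nat_lit 4) (nat_lit 286) (nat_lit 222) (nat_lit 212)) (XT.lf (nat_lit 0) (nat_lit 12087507225) (nat_lit 76) (nat_lit 25133042938) (nat_lit 76) (nat_lit 21128972760) (nat_lit 3) (nat_lit 4) (nat_lit 4) (nat_lit 5) (nat_lit 4) (nat_lit 4) (nat_lit 287) (nat_lit 222) (nat_lit 211)))) (XT.nd (nat_lit 156) (nat_lit 0) (nat_lit 0) (XT.nd (nat_lit 78) (nat_lit 0) (nat_lit 0) (XT.lf (nat_lit 0) (nat_lit 18345055593) (nat_lit 76) (nat_lit 24368951242) (nat_lit 76) (nat_lit 20142149684) (nat_lit 3) (nat_lit 4) (nat_lit 4) (nat_lit 5)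 (nat_lit 4) (nat_lit 4) (nat_lit 288) (nat_lit 222) (nat_lit 210)) (XT.lf (nat_lit 0) (nat_lit 24925933778) (nat_lit 76) (nat_lit 23617913539) (nat_lit 76) (nat_lit 19184879222) (nat_lit 3) (nat_lit 4) (nat_lit 4) (nat_lit 5) (nat_lit 4) (nat_lit 4) (nat_lit 289) (nat_lit 222) (nat_lit 209))) (XT.nd (nat_lit 78) (nat_lit 0) (nat_lit 0) (XT.lf (nat_lit 0) (nat_lit 31869139577) (nat_lit 76) (nat_lit 22875479236) (nat_lit 76) (nat_lit 18251488661) (nat_lit 3) (nat_lit 4) (nat_lit 4) (nat_lit 5) (nat_lit 4) (nat_lit 4) (nat_lit 290) (nat_lit 222) (nat_lit 208)) (XT.lf (nat_lit 0) (nat_lit 39215817912) (nat_lit 76) (nat_lit 22137248723) (nat_lit 76) (nat_lit 17336446797) (nat_lit 3) (nat_lit 4) (nat_lit 4) (nat_lit 5) (nat_lit 4) (nat_lit 4) (nat_lit 291) (nat_lit 222) (nat_lit 207))))) (XT.nd (nat_lit 312) (nat_lit 0) (nat_lit 0) (XT.nd (nat_lit 156) (nat_lit 0) (nat_lit 0) (XT.nd (nat_lit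 78) (nat_lit 0) (nat_lit 0) (XT.lf (nat_lit 0) (nat_lit 47009504655) (nat_lit 76) (nat_lit 21398847299) (nat_lit 76) (nat_lit 16434331160) (nat_lit 3) (nat_lit 4) (nat_lit 4) (nat_lit 5) (nat_lit 4) (nat_lit 4) (nat_lit 292) (nat_lit 222) (nat_lit 206)) (XT.lf (nat_lit 0) (nat_lit 55296384616) (nat_lit 76) (nat_lit 20655899253) (nat_lit 76) (nat_lit 15539795880) (nat_lit 3) (nat_lit 4) (nat_lit 4) (nat_lit 5) (nat_lit 4) (nat_lit 4) (nat_lit 293) (nat_lit 222) (nat_lit 205))) (XT.nd (nat_lit 78) (nat_lit 0) (nat_lit 0) (XT.lf (nat_lit 0) (nat_lit 64125565233) (nat_lit 76) (nat_lit 19904001930) (nat_lit 76) (nat_lit 14647540006) (nat_lit 3) (nat_lit 4) (nat_lit 4) (nat_lit 5) (nat_lit 4) (nat_lit 4) (nat_lit 294) (nat_lit 222) (nat_lit 204)) (XT.lf (nat_lit 0) (nat_lit 73549367576) (nat_lit 76) (nat_lit 19138699641) (nat_lit 76) (nat_lit 13752276097) (nat_lit 3) (nat_lit 4) (nat_lit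 4) (nat_lit 5) (nat_lit 4) (nat_lit 4) (nat_lit 295) (nat_lit 222) (nat_lit 203)))) (XT.nd (nat_lit 156) (nat_lit 0) (nat_lit 0) (XT.nd (nat_lit 78) (nat_lit 0) (nat_lit 0) (XT.lf (nat_lit 0) (nat_lit 83623636399) (nat_lit 76) (nat_lit 18355457263) (nat_lit 76) (nat_lit 12848698885) (nat_lit 3) (nat_lit 4) (nat_lit 4) (nat_lit 5) (nat_lit 4) (nat_lit 4) (nat_lit 296) (nat_lit 222) (nat_lit 202)) (XT.lf (nat_lit 0) (nat_lit 94408071073) (nat_lit 76) (nat_lit 17549633358) (nat_lit 76) (nat_lit 11931453838) (nat_lit 3) (nat_lit 4) (nat_lit 4) (nat_lit 5) (nat_lit 4) (nat_lit 4) (nat_lit 297) (nat_lit 222) (nat_lit 201))) (XT.nd (nat_lit 78) (nat_lit 0) (nat_lit 0) (XT.lf (nat_lit 0) (nat_lit 105966579359) (nat_lit 76) (nat_lit 16716452675) (nat_lit 76) (nat_lit 10995105430) (nat_lit 3) (nat_lit 4) (nat_lit 4) (nat_lit 5) (nat_lit 4) (nat_lit 4) (nat_lit 298) (nat_lit 222) (nat_lit 200))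 (XT.nd (nat_lit 78) (nat_lit 0) (nat_lit 0) (XT.lf (nat_lit 0) (nat_lit 118367656121) (nat_lit 76) (nat_lit 15850977845) (nat_lit 76) (nat_lit 10034104929) (nat_lit 3) (nat_lit 4) (nat_lit 4) (nat_lit 5) (nat_lit 4) (nat_lit 4) (nat_lit 299) (nat_lit 222) (nat_lit 199)) (XT.lf (nat_lit 0) (nat_lit 131684789221) (nat_lit 76) (nat_lit 14948080130) (nat_lit 76) (nat_lit 9042757519) (nat_lit 3) (nat_lit 4) (nat_lit 4) (nat_lit 5) (nat_lit 4) (nat_lit 4) (nat_lit 300) (nat_lit 222) (nat_lit 198))))))))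
noncomputable def xc16 : XT := (XT.nd (nat_lit 1248) (nat_lit 0) (nat_lit 0) (XT.nd (nat_lit 624) (nat_lit 76) (nat_lit 0) (XT.nd (nat_lit 312) (nat_lit 76) (nat_lit 0) (XT.nd (nat_lit 156) (nat_lit 0) (nat_lit 0) (XT.nd (nat_lit 78) (nat_lit 0) (nat_lit 0) (XT.lf (nat_lit 0) (nat_lit 145996895004) (nat_lit 76) (nat_lit 14002409025) (nat_lit 76) (nat_lit 8015188547) (nat_lit 3) (nat_lit 4) (nat_lit 4) (nat_lit 5) (nat_lit 4) (nat_lit 4) (nat_lit 301) (nat_lit 222) (nat_lit 197)) (XT.lf (nat_lit 0) (nat_lit 161388785948) (nat_lit 76) (nat_lit 13008360551) (nat_lit 76) (nat_lit 6945308716) (nat_lit 3) (nat_lit 4) (nat_lit 4) (nat_lit 5) (nat_lit 4) (nat_lit 4) (nat_lit 302) (nat_lit 222) (nat_lit 196))) (XT.nd (nat_lit 78) (nat_lit 0) (nat_lit 0) (XT.lf (nat_lit 0) (nat_lit 177951673259) (nat_lit 76) (nat_lit 11960044053) (nat_lit 76) (nat_lit 5826777998) (nat_lit 3) (nat_lit 4) (nat_lit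 4) (nat_lit 5) (nat_lit 4) (nat_lit 4) (nat_lit 303) (nat_lit 222) (nat_lit 195)) (XT.lf (nat_lit 0) (nat_lit 195783707380) (nat_lit 76) (nat_lit 10851247283) (nat_lit 76) (nat_lit 4652968062) (nat_lit 3) (nat_lit 4) (nat_lit 4) (nat_lit 5) (nat_lit 4) (nat_lit 4) (nat_lit 304) (nat_lit 222) (nat_lit 194)))) (XT.nd (nat_lit 156) (nat_lit 76) (nat_lit 0) (XT.nd (nat_lit 78) (nat_lit 0) (nat_lit 0) (XT.lf (nat_lit 0) (nat_lit 214990559625) (nat_lit 76) (nat_lit 9675399595) (nat_lit 76) (nat_lit 3416922997) (nat_lit 3) (nat_lit 4) (nat_lit 4) (nat_lit 5) (nat_lit 4) (nat_lit 4) (nat_lit 305) (nat_lit 222) (nat_lit 193)) (XT.lf (nat_lit 0) (nat_lit 235686048377) (nat_lit 76) (nat_lit 8425533002) (nat_lit 76) (nat_lit 2111318092) (nat_lit 3) (nat_lit 4) (nat_lit 4) (nat_lit 5) (nat_lit 4) (nat_lit 4) (nat_lit 306) (nat_lit 222) (nat_lit 192))) (XT.nd (nat_lit 78) (nat_lit 76) (nat_lit 0)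 (XT.lf (nat_lit 0) (nat_lit 257992813570) (nat_lit 76) (nat_lit 7094240887) (nat_lit 76) (nat_lit 728416430) (nat_lit 3) (nat_lit 4) (nat_lit 4) (nat_lit 5) (nat_lit 4) (nat_lit 4) (nat_lit 307) (nat_lit 222) (nat_lit 191)) (XT.lf (nat_lit 0) (nat_lit 716293079) (nat_lit 152) (nat_lit 4945210263) (nat_lit 76) (nat_lit 281314619592) (nat_lit 2) (nat_lit 5) (nat_lit 4) (nat_lit 5) (nat_lit 3) (nat_lit 4) (nat_lit 308) (nat_lit 222) (nat_lit 190))))) (XT.nd (nat_lit 312) (nat_lit 0) (nat_lit 0) (XT.nd (nat_lit 156) (nat_lit 0) (nat_lit 0) (XT.nd (nat_lit 78) (nat_lit 76) (nat_lit 0) (XT.lf (nat_lit 0) (nat_lit 2228867260) (nat_lit 152) (nat_lit 1888680060) (nat_lit 76) (nat_lit 305712643666) (nat_lit 2) (nat_lit 5) (nat_lit 4) (nat_lit 5) (nat_lit 3) (nat_lit 4) (nat_lit 309) (nat_lit 222) (nat_lit 189)) (XT.lf (nat_lit 0) (nat_lit 1421929302) (nat_lit 76) (nat_lit 2441854390) (nat_lit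 152) (nat_lit 330648781483) (nat_lit 1) (nat_lit 5) (nat_lit 2) (nat_lit 5) (nat_lit 3) (nat_lit 4) (nat_lit 310) (nat_lit 222) (nat_lit 188))) (XT.nd (nat_lit 78) (nat_lit 0) (nat_lit 0) (XT.lf (nat_lit 0) (nat_lit 5030440206) (nat_lit 76) (nat_lit 612097369) (nat_lit 152) (nat_lit 355526383503) (nat_lit 1) (nat_lit 5) (nat_lit 2) (nat_lit 5) (nat_lit 3) (nat_lit 4) (nat_lit 311) (nat_lit 222) (nat_lit 187)) (XT.lf (nat_lit 0) (nat_lit 7566293450) (nat_lit 152) (nat_lit 381084043645) (nat_lit 0) (nat_lit 1307354006) (nat_lit 1) (nat_lit 5) (nat_lit 3) (nat_lit 4) (nat_lit 1) (nat_lit 4) (nat_lit 312) (nat_lit 222) (nat_lit 186)))) (XT.nd (nat_lit 156) (nat_lit 0) (nat_lit 0) (XT.nd (nat_lit 78) (nat_lit 0) (nat_lit 0) (XT.lf (nat_lit 0) (nat_lit 9637053455) (nat_lit 152) (nat_lit 408065751855) (nat_lit 0) (nat_lit 3347139945) (nat_lit 1) (nat_lit 5) (nat_lit 3) (nat_lit 4) (nat_lit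 1) (nat_lit 4) (nat_lit 313) (nat_lit 222) (nat_lit 185)) (XT.lf (nat_lit 0) (nat_lit 11857532206) (nat_lit 152) (nat_lit 437233940552) (nat_lit 0) (nat_lit 5538939005) (nat_lit 1) (nat_lit 5) (nat_lit 3) (nat_lit 4) (nat_lit 1) (nat_lit 4) (nat_lit 314) (nat_lit 222) (nat_lit 184))) (XT.nd (nat_lit 78) (nat_lit 0) (nat_lit 0) (XT.lf (nat_lit 0) (nat_lit 14240888097) (nat_lit 152) (nat_lit 468761458260) (nat_lit 0) (nat_lit 7895739627) (nat_lit 1) (nat_lit 5) (nat_lit 3) (nat_lit 4) (nat_lit 1) (nat_lit 4) (nat_lit 315) (nat_lit 222) (nat_lit 183)) (XT.lf (nat_lit 0) (nat_lit 16801244717) (nat_lit 152) (nat_lit 502835134714) (nat_lit 0) (nat_lit 10431508034) (nat_lit 1) (nat_lit 5) (nat_lit 3) (nat_lit 4) (nat_lit 1) (nat_lit 4) (nat_lit 316) (nat_lit 222) (nat_lit 182)))))) (XT.nd (nat_lit 34398) (nat_lit 0) (nat_lit 228) (XT.nd (nat_lit 312) (nat_lit 0) (nat_lit 0) (XT.nd (nat_lit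 156) (nat_lit 0) (nat_lit 0) (XT.nd (nat_lit 78) (nat_lit 0) (nat_lit 0) (XT.lf (nat_lit 0) (nat_lit 19553774550) (nat_lit 152) (nat_lit 539656887998) (nat_lit 0) (nat_lit 13161271004) (nat_lit 1) (nat_lit 5) (nat_lit 3) (nat_lit 4) (nat_lit 1) (nat_lit 4) (nat_lit 317) (nat_lit 222) (nat_lit 181)) (XT.lf (nat_lit 0) (nat_lit 22514788884) (nat_lit 152) (nat_lit 579444921093) (nat_lit 0) (nat_lit 16101204909) (nat_lit 1) (nat_lit 5) (nat_lit 3) (nat_lit 4) (nat_lit 1) (nat_lit 4) (nat_lit 318) (nat_lit 222) (nat_lit 180))) (XT.nd (nat_lit 78) (nat_lit 0) (nat_lit 0) (XT.lf (nat_lit 0) (nat_lit 25701834471) (nat_lit 152) (nat_lit 622435014936) (nat_lit 0) (nat_lit 19268731580) (nat_lit 1) (nat_lit 5) (nat_lit 3) (nat_lit 4) (nat_lit 1) (nat_lit 4) (nat_lit 319) (nat_lit 222) (nat_lit 179)) (XT.lf (nat_lit 0) (nat_lit 29133797506) (nat_lit 152) (nat_lit 668881925640) (nat_lit 0) (nat_lit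 22682621546) (nat_lit 1) (nat_lit 5) (nat_lit 3) (nat_lit 4) (nat_lit 1) (nat_lit 4) (nat_lit 320) (nat_lit 222) (nat_lit 178)))) (XT.nd (nat_lit 33930) (nat_lit 0) (nat_lit 380) (XT.nd (nat_lit 33852) (nat_lit 0) (nat_lit 456) (XT.lf (nat_lit 0) (nat_lit 32831015549) (nat_lit 152) (nat_lit 719060894155) (nat_lit 0) (nat_lit 26363105265) (nat_lit 1) (nat_lit 5) (nat_lit 3) (nat_lit 4) (nat_lit 1) (nat_lit 4) (nat_lit 321) (nat_lit 222) (nat_lit 177)) (XT.lf (nat_lit 0) (nat_lit 4306884401) (nat_lit 152) (nat_lit 2969130275) (nat_lit 0) (nat_lit 4306884401) (nat_lit 7) (nat_lit 5) (nat_lit 9) (nat_lit 4) (nat_lit 7) (nat_lit 4) (nat_lit 274) (nat_lit 223) (nat_lit 223))) (XT.nd (nat_lit 78) (nat_lit 0) (nat_lit 0) (XT.lf (nat_lit 0) (nat_lit 1568094351) (nat_lit 76) (nat_lit 11893271770) (nat_lit 76) (nat_lit 11304352491) (nat_lit 6) (nat_lit 4) (nat_lit 7) (nat_lit 5) (nat_lit 7) (nat_lit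 4) (nat_lit 275) (nat_lit 223) (nat_lit 222)) (XT.lf (nat_lit 0) (nat_lit 9487516974) (nat_lit 76) (nat_lit 9073881602) (nat_lit 76) (nat_lit 7939666694) (nat_lit 6) (nat_lit 4) (nat_lit 7) (nat_lit 5) (nat_lit 7) (nat_lit 4) (nat_lit 276) (nat_lit 223) (nat_lit 221))))) (XT.nd (nat_lit 312) (nat_lit 0) (nat_lit 0) (XT.nd (nat_lit 156) (nat_lit 152) (nat_lit 0) (XT.nd (nat_lit 78) (nat_lit 0) (nat_lit 0) (XT.lf (nat_lit 0) (nat_lit 17670591517) (nat_lit 76) (nat_lit 6177718667) (nat_lit 76) (nat_lit 4538600398) (nat_lit 6) (nat_lit 4) (nat_lit 7) (nat_lit 5) (nat_lit 7) (nat_lit 4) (nat_lit 277) (nat_lit 223) (nat_lit 220)) (XT.lf (nat_lit 0) (nat_lit 26165810274) (nat_lit 76) (nat_lit 3187620518) (nat_lit 76) (nat_lit 1080999138) (nat_lit 6) (nat_lit 4) (nat_lit 7) (nat_lit 5) (nat_lit 7) (nat_lit 4) (nat_lit 278) (nat_lit 223) (nat_lit 219))) (XT.nd (nat_lit 78) (nat_lit 0) (nat_lit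 0) (XT.lf (nat_lit 0) (nat_lit 2406472687) (nat_lit 76) (nat_lit 6194297) (nat_lit 152) (nat_lit 30239295789) (nat_lit 4) (nat_lit 5) (nat_lit 5) (nat_lit 5) (nat_lit 6) (nat_lit 4) (nat_lit 279) (nat_lit 223) (nat_lit 218)) (XT.lf (nat_lit 0) (nat_lit 6091888752) (nat_lit 152) (nat_lit 25665791440) (nat_lit 0) (nat_lit 3291599992) (nat_lit 4) (nat_lit 5) (nat_lit 6) (nat_lit 4) (nat_lit 4) (nat_lit 4) (nat_lit 280) (nat_lit 223) (nat_lit 217)))) (XT.nd (nat_lit 156) (nat_lit 0) (nat_lit 0) (XT.nd (nat_lit 78) (nat_lit 0) (nat_lit 0) (XT.lf (nat_lit 0) (nat_lit 9893613324) (nat_lit 152) (nat_lit 21013913895) (nat_lit 0) (nat_lit 6739877857) (nat_lit 4) (nat_lit 5) (nat_lit 6) (nat_lit 4) (nat_lit 4) (nat_lit 4) (nat_lit 281) (nat_lit 223) (nat_lit 216)) (XT.lf (nat_lit 0) (nat_lit 13840272730) (nat_lit 152) (nat_lit 16262194060) (nat_lit 0) (nat_lit 10359271793) (nat_lit 4) (nat_lit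 5) (nat_lit 6) (nat_lit 4) (nat_lit 4) (nat_lit 4) (nat_lit 282) (nat_lit 223) (nat_lit 215))) (XT.nd (nat_lit 78) (nat_lit 0) (nat_lit 0) (XT.lf (nat_lit 0) (nat_lit 17955254580) (nat_lit 152) (nat_lit 11382473595) (nat_lit 0) (nat_lit 14171230060) (nat_lit 4) (nat_lit 5) (nat_lit 6) (nat_lit 4) (nat_lit 4) (nat_lit 4) (nat_lit 283) (nat_lit 223) (nat_lit 214)) (XT.nd (nat_lit 78) (nat_lit 0) (nat_lit 0) (XT.lf (nat_lit 0) (nat_lit 22262943952) (nat_lit 152) (nat_lit 6345835638) (nat_lit 0) (nat_lit 18198342041) (nat_lit 4) (nat_lit 5) (nat_lit 6) (nat_lit 4) (nat_lit 4) (nat_lit 4) (nat_lit 284) (nat_lit 223) (nat_lit 213)) (XT.lf (nat_lit 0) (nat_lit 26788867895) (nat_lit 152) (nat_lit 1122433445) (nat_lit 0) (nat_lit 22464472103) (nat_lit 4) (nat_lit 5) (nat_lit 6) (nat_lit 4) (nat_lit 4) (nat_lit 4) (nat_lit 285) (nat_lit 223) (nat_lit 212))))))))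
noncomputable def xc17 : XT := (XT.nd (nat_lit 1248) (nat_lit 152) (nat_lit 0) (XT.nd (nat_lit 624) (nat_lit 0) (nat_lit 0) (XT.nd (nat_lit 312) (nat_lit 0) (nat_lit 0) (XT.nd (nat_lit 156) (nat_lit 0) (nat_lit 0) (XT.nd (nat_lit 78) (nat_lit 0) (nat_lit 0) (XT.lf (nat_lit 0) (nat_lit 4461481756) (nat_lit 76) (nat_lit 27168021176) (nat_lit 76) (nat_lit 22603075493) (nat_lit 3) (nat_lit 4) (nat_lit 4) (nat_lit 5) (nat_lit 4) (nat_lit 4) (nat_lit 286) (nat_lit 223) (nat_lit 211)) (XT.lf (nat_lit 0) (nat_lit 10340735933) (nat_lit 76) (nat_lit 26424864764) (nat_lit 76) (nat_lit 21637187701) (nat_lit 3) (nat_lit 4) (nat_lit 4) (nat_lit 5) (nat_lit 4) (nat_lit 4) (nat_lit 287) (nat_lit 223) (nat_lit 210))) (XT.nd (nat_lit 78) (nat_lit 0) (nat_lit 0) (XT.lf (nat_lit 0) (nat_lit 16513056391) (nat_lit 76) (nat_lit 25696437168) (nat_lit 76) (nat_lit 20702527347) (nat_lit 3) (nat_lit 4) (nat_lit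 4) (nat_lit 5) (nat_lit 4) (nat_lit 4) (nat_lit 288) (nat_lit 223) (nat_lit 209)) (XT.lf (nat_lit 0) (nat_lit 23015019845) (nat_lit 76) (nat_lit 24978421780) (nat_lit 76) (nat_lit 19793555701) (nat_lit 3) (nat_lit 4) (nat_lit 4) (nat_lit 5) (nat_lit 4) (nat_lit 4) (nat_lit 289) (nat_lit 223) (nat_lit 208)))) (XT.nd (nat_lit 156) (nat_lit 0) (nat_lit 0) (XT.nd (nat_lit 78) (nat_lit 0) (nat_lit 0) (XT.lf (nat_lit 0) (nat_lit 29885156447) (nat_lit 76) (nat_lit 24266563696) (nat_lit 76) (nat_lit 18904886266) (nat_lit 3) (nat_lit 4) (nat_lit 4) (nat_lit 5) (nat_lit 4) (nat_lit 4) (nat_lit 290) (nat_lit 223) (nat_lit 207)) (XT.lf (nat_lit 0) (nat_lit 37164178119) (nat_lit 76) (nat_lit 23556644495) (nat_lit 76) (nat_lit 18031252852) (nat_lit 3) (nat_lit 4) (nat_lit 4) (nat_lit 5) (nat_lit 4) (nat_lit 4) (nat_lit 291) (nat_lit 223) (nat_lit 206))) (XT.nd (nat_lit 78) (nat_lit 0) (nat_lit 0)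 (XT.lf (nat_lit 0) (nat_lit 44895219804) (nat_lit 76) (nat_lit 22844457250) (nat_lit 76) (nat_lit 17167478373) (nat_lit 3) (nat_lit 4) (nat_lit 4) (nat_lit 5) (nat_lit 4) (nat_lit 4) (nat_lit 292) (nat_lit 223) (nat_lit 205)) (XT.lf (nat_lit 0) (nat_lit 53124095082) (nat_lit 76) (nat_lit 22125781591) (nat_lit 76) (nat_lit 16308444164) (nat_lit 3) (nat_lit 4) (nat_lit 4) (nat_lit 5) (nat_lit 4) (nat_lit 4) (nat_lit 293) (nat_lit 223) (nat_lit 204))))) (XT.nd (nat_lit 312) (nat_lit 0) (nat_lit 0) (XT.nd (nat_lit 156) (nat_lit 0) (nat_lit 0) (XT.nd (nat_lit 78) (nat_lit 0) (nat_lit 0) (XT.lf (nat_lit 0) (nat_lit 61899567659) (nat_lit 76) (nat_lit 21396358701) (nat_lit 76) (nat_lit 15449059653) (nat_lit 3) (nat_lit 4) (nat_lit 4) (nat_lit 5) (nat_lit 4) (nat_lit 4) (nat_lit 294) (nat_lit 223) (nat_lit 203)) (XT.lf (nat_lit 0) (nat_lit 71273640335) (nat_lit 76) (nat_lit 20651866073) (nat_lit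 76) (nat_lit 14584232191) (nat_lit 3) (nat_lit 4) (nat_lit 4) (nat_lit 5) (nat_lit 4) (nat_lit 4) (nat_lit 295) (nat_lit 223) (nat_lit 202))) (XT.nd (nat_lit 78) (nat_lit 0) (nat_lit 0) (XT.lf (nat_lit 0) (nat_lit 81301863170) (nat_lit 76) (nat_lit 19887891898) (nat_lit 76) (nat_lit 13708836873) (nat_lit 3) (nat_lit 4) (nat_lit 4) (nat_lit 5) (nat_lit 4) (nat_lit 4) (nat_lit 296) (nat_lit 223) (nat_lit 201)) (XT.lf (nat_lit 0) (nat_lit 92043662670) (nat_lit 76) (nat_lit 19099908923) (nat_lit 76) (nat_lit 12817686174) (nat_lit 3) (nat_lit 4) (nat_lit 4) (nat_lit 5) (nat_lit 4) (nat_lit 4) (nat_lit 297) (nat_lit 223) (nat_lit 200)))) (XT.nd (nat_lit 156) (nat_lit 0) (nat_lit 0) (XT.nd (nat_lit 78) (nat_lit 0) (nat_lit 0) (XT.lf (nat_lit 0) (nat_lit 103562693943) (nat_lit 76) (nat_lit 18283247619) (nat_lit 76) (nat_lit 11905499199) (nat_lit 3) (nat_lit 4) (nat_lit 4) (nat_lit 5) (nat_lit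 4) (nat_lit 4) (nat_lit 298) (nat_lit 223) (nat_lit 199)) (XT.lf (nat_lit 0) (nat_lit 115927217915) (nat_lit 76) (nat_lit 17433068511) (nat_lit 76) (nat_lit 10966870395) (nat_lit 3) (nat_lit 4) (nat_lit 4) (nat_lit 5) (nat_lit 4) (nat_lit 4) (nat_lit 299) (nat_lit 223) (nat_lit 198))) (XT.nd (nat_lit 78) (nat_lit 0) (nat_lit 0) (XT.lf (nat_lit 0) (nat_lit 129210505840) (nat_lit 76) (nat_lit 16544333501) (nat_lit 76) (nat_lit 9996237519) (nat_lit 3) (nat_lit 4) (nat_lit 4) (nat_lit 5) (nat_lit 4) (nat_lit 4) (nat_lit 300) (nat_lit 223) (nat_lit 197)) (XT.lf (nat_lit 0) (nat_lit 143491273497) (nat_lit 76) (nat_lit 15611776011) (nat_lit 76) (nat_lit 8987848672) (nat_lit 3) (nat_lit 4) (nat_lit 4) (nat_lit 5) (nat_lit 4) (nat_lit 4) (nat_lit 301) (nat_lit 223) (nat_lit 196)))))) (XT.nd (nat_lit 624) (nat_lit 76) (nat_lit 0) (XT.nd (nat_lit 312) (nat_lit 76) (nat_lit 0) (XT.nd (nat_lit 156)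 (nat_lit 0) (nat_lit 0) (XT.nd (nat_lit 78) (nat_lit 0) (nat_lit 0) (XT.lf (nat_lit 0) (nat_lit 158854147658) (nat_lit 76) (nat_lit 14629869775) (nat_lit 76) (nat_lit 7935728216) (nat_lit 3) (nat_lit 4) (nat_lit 4) (nat_lit 5) (nat_lit 4) (nat_lit 4) (nat_lit 302) (nat_lit 223) (nat_lit 195)) (XT.lf (nat_lit 0) (nat_lit 175390167577) (nat_lit 76) (nat_lit 13592796088) (nat_lit 76) (nat_lit 6833641363) (nat_lit 3) (nat_lit 4) (nat_lit 4) (nat_lit 5) (nat_lit 4) (nat_lit 4) (nat_lit 303) (nat_lit 223) (nat_lit 194))) (XT.nd (nat_lit 78) (nat_lit 0) (nat_lit 0) (XT.lf (nat_lit 0) (nat_lit 193197324484) (nat_lit 76) (nat_lit 12494409330) (nat_lit 76) (nat_lit 5675057228) (nat_lit 3) (nat_lit 4) (nat_lit 4) (nat_lit 5) (nat_lit 4) (nat_lit 4) (nat_lit 304) (nat_lit 223) (nat_lit 193)) (XT.lf (nat_lit 0) (nat_lit 212381142271) (nat_lit 76) (nat_lit 11328200541) (nat_lit 76) (nat_lit 4453110127)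 (nat_lit 3) (nat_lit 4) (nat_lit 4) (nat_lit 5) (nat_lit 4) (nat_lit 4) (nat_lit 305) (nat_lit 223) (nat_lit 192)))) (XT.nd (nat_lit 156) (nat_lit 76) (nat_lit 0) (XT.nd (nat_lit 78) (nat_lit 0) (nat_lit 0) (XT.lf (nat_lit 0) (nat_lit 233055302822) (nat_lit 76) (nat_lit 10087258854) (nat_lit 76) (nat_lit 3160558893) (nat_lit 3) (nat_lit 4) (nat_lit 4) (nat_lit 5) (nat_lit 4) (nat_lit 4) (nat_lit 306) (nat_lit 223) (nat_lit 191)) (XT.lf (nat_lit 0) (nat_lit 255342319679) (nat_lit 76) (nat_lit 8764230541) (nat_lit 76) (nat_lit 1789743962) (nat_lit 3) (nat_lit 4) (nat_lit 4) (nat_lit 5) (nat_lit 4) (nat_lit 4) (nat_lit 307) (nat_lit 223) (nat_lit 190))) (XT.nd (nat_lit 78) (nat_lit 76) (nat_lit 0) (XT.lf (nat_lit 0) (nat_lit 279374264055) (nat_lit 76) (nat_lit 7351275435) (nat_lit 76) (nat_lit 332541987) (nat_lit 3) (nat_lit 4) (nat_lit 4) (nat_lit 5) (nat_lit 4) (nat_lit 4) (nat_lit 308)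 (nat_lit 223) (nat_lit 189)) (XT.lf (nat_lit 0) (nat_lit 1180644852) (nat_lit 152) (nat_lit 4639380824) (nat_lit 76) (nat_lit 304092907828) (nat_lit 2) (nat_lit 5) (nat_lit 4) (nat_lit 5) (nat_lit 3) (nat_lit 4) (nat_lit 309) (nat_lit 223) (nat_lit 188))))) (XT.nd (nat_lit 312) (nat_lit 0) (nat_lit 0) (XT.nd (nat_lit 156) (nat_lit 0) (nat_lit 0) (XT.nd (nat_lit 78) (nat_lit 76) (nat_lit 0) (XT.lf (nat_lit 0) (nat_lit 2784073240) (nat_lit 152) (nat_lit 1390287187) (nat_lit 76) (nat_lit 330422542815) (nat_lit 2) (nat_lit 5) (nat_lit 4) (nat_lit 5) (nat_lit 3) (nat_lit 4) (nat_lit 310) (nat_lit 223) (nat_lit 187)) (XT.lf (nat_lit 0) (nat_lit 2156944998) (nat_lit 76) (nat_lit 2374619352) (nat_lit 152) (nat_lit 356723277516) (nat_lit 1) (nat_lit 5) (nat_lit 2) (nat_lit 5) (nat_lit 3) (nat_lit 4) (nat_lit 311) (nat_lit 223) (nat_lit 186))) (XT.nd (nat_lit 78) (nat_lit 0) (nat_lit 0) (XT.lf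 (nat_lit 0) (nat_lit 6008117416) (nat_lit 76) (nat_lit 417932391) (nat_lit 152) (nat_lit 383619043734) (nat_lit 1) (nat_lit 5) (nat_lit 2) (nat_lit 5) (nat_lit 3) (nat_lit 4) (nat_lit 312) (nat_lit 223) (nat_lit 185)) (XT.lf (nat_lit 0) (nat_lit 8482620268) (nat_lit 152) (nat_lit 411025593773) (nat_lit 0) (nat_lit 1629859920) (nat_lit 1) (nat_lit 5) (nat_lit 3) (nat_lit 4) (nat_lit 1) (nat_lit 4) (nat_lit 313) (nat_lit 223) (nat_lit 184)))) (XT.nd (nat_lit 156) (nat_lit 0) (nat_lit 0) (XT.nd (nat_lit 78) (nat_lit 0) (nat_lit 0) (XT.lf (nat_lit 0) (nat_lit 10696002307) (nat_lit 152) (nat_lit 440206221852) (nat_lit 0) (nat_lit 3816686690) (nat_lit 1) (nat_lit 5) (nat_lit 3) (nat_lit 4) (nat_lit 1) (nat_lit 4) (nat_lit 314) (nat_lit 223) (nat_lit 183)) (XT.lf (nat_lit 0) (nat_lit 13072787168) (nat_lit 152) (nat_lit 471745257507) (nat_lit 0) (nat_lit 6168883338) (nat_lit 1) (nat_lit 5)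 (nat_lit 3) (nat_lit 4) (nat_lit 1) (nat_lit 4) (nat_lit 315) (nat_lit 223) (nat_lit 182))) (XT.nd (nat_lit 78) (nat_lit 0) (nat_lit 0) (XT.lf (nat_lit 0) (nat_lit 15627059501) (nat_lit 152) (nat_lit 505829598728) (nat_lit 0) (nat_lit 8700388808) (nat_lit 1) (nat_lit 5) (nat_lit 3) (nat_lit 4) (nat_lit 1) (nat_lit 4) (nat_lit 316) (nat_lit 223) (nat_lit 181)) (XT.nd (nat_lit 78) (nat_lit 0) (nat_lit 0) (XT.lf (nat_lit 0) (nat_lit 18373955735) (nat_lit 152) (nat_lit 542661226794) (nat_lit 0) (nat_lit 11426204613) (nat_lit 1) (nat_lit 5) (nat_lit 3) (nat_lit 4) (nat_lit 1) (nat_lit 4) (nat_lit 317) (nat_lit 223) (nat_lit 180)) (XT.lf (nat_lit 0) (nat_lit 21329753774) (nat_lit 152) (nat_lit 582458403207) (nat_lit 0) (nat_lit 14362483737) (nat_lit 1) (nat_lit 5) (nat_lit 3) (nat_lit 4) (nat_lit 1) (nat_lit 4) (nat_lit 318) (nat_lit 223) (nat_lit 179))))))))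
noncomputable def xc18 : XT := (XT.nd (nat_lit 34866) (nat_lit 0) (nat_lit 152) (XT.nd (nat_lit 34242) (nat_lit 0) (nat_lit 228) (XT.nd (nat_lit 33930) (nat_lit 0) (nat_lit 380) (XT.nd (nat_lit 156) (nat_lit 0) (nat_lit 0) (XT.nd (nat_lit 78) (nat_lit 0) (nat_lit 0) (XT.lf (nat_lit 0) (nat_lit 24511969458) (nat_lit 152) (nat_lit 625456963085) (nat_lit 0) (nat_lit 17526626351) (nat_lit 1) (nat_lit 5) (nat_lit 3) (nat_lit 4) (nat_lit 1) (nat_lit 4) (nat_lit 319) (nat_lit 223) (nat_lit 178)) (XT.lf (nat_lit 0) (nat_lit 27939460361) (nat_lit 152) (nat_lit 671911712710) (nat_lit 0) (nat_lit 20937382930) (nat_lit 1) (nat_lit 5) (nat_lit 3) (nat_lit 4) (nat_lit 1) (nat_lit 4) (nat_lit 320) (nat_lit 223) (nat_lit 177))) (XT.nd (nat_lit 33696) (nat_lit 0) (nat_lit 456) (XT.lf (nat_lit 0) (nat_lit 31632537541) (nat_lit 152) (nat_lit 722097939486) (nat_lit 0) (nat_lit 24614965365) (nat_lit 1)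 (nat_lit 5) (nat_lit 3) (nat_lit 4) (nat_lit 1) (nat_lit 4) (nat_lit 321) (nat_lit 223) (nat_lit 176)) (XT.lf (nat_lit 0) (nat_lit 40112863) (nat_lit 152) (nat_lit 10090069845) (nat_lit 0) (nat_lit 40112863) (nat_lit 7) (nat_lit 5) (nat_lit 9) (nat_lit 4) (nat_lit 7) (nat_lit 4) (nat_lit 272) (nat_lit 224) (nat_lit 224)))) (XT.nd (nat_lit 156) (nat_lit 76) (nat_lit 0) (XT.nd (nat_lit 78) (nat_lit 0) (nat_lit 0) (XT.lf (nat_lit 0) (nat_lit 4551378331) (nat_lit 152) (nat_lit 13228825776) (nat_lit 0) (nat_lit 3915345509) (nat_lit 7) (nat_lit 5) (nat_lit 9) (nat_lit 4) (nat_lit 7) (nat_lit 4) (nat_lit 273) (nat_lit 224) (nat_lit 223)) (XT.lf (nat_lit 0) (nat_lit 9129040959) (nat_lit 152) (nat_lit 6139051105) (nat_lit 0) (nat_lit 7904088857) (nat_lit 7) (nat_lit 5) (nat_lit 9) (nat_lit 4) (nat_lit 7) (nat_lit 4) (nat_lit 274) (nat_lit 224) (nat_lit 222))) (XT.nd (nat_lit 78) (nat_lit 0)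 (nat_lit 0) (XT.lf (nat_lit 0) (nat_lit 1168600311) (nat_lit 76) (nat_lit 12689985314) (nat_lit 76) (nat_lit 10919737584) (nat_lit 6) (nat_lit 4) (nat_lit 7) (nat_lit 5) (nat_lit 7) (nat_lit 4) (nat_lit 275) (nat_lit 224) (nat_lit 221)) (XT.lf (nat_lit 0) (nat_lit 8910185487) (nat_lit 76) (nat_lit 9942123245) (nat_lit 76) (nat_lit 7666972155) (nat_lit 6) (nat_lit 4) (nat_lit 7) (nat_lit 5) (nat_lit 7) (nat_lit 4) (nat_lit 276) (nat_lit 224) (nat_lit 220))))) (XT.nd (nat_lit 312) (nat_lit 0) (nat_lit 0) (XT.nd (nat_lit 156) (nat_lit 152) (nat_lit 0) (XT.nd (nat_lit 78) (nat_lit 0) (nat_lit 0) (XT.lf (nat_lit 0) (nat_lit 16928595727) (nat_lit 76) (nat_lit 7112190032) (nat_lit 76) (nat_lit 4369535830) (nat_lit 6) (nat_lit 4) (nat_lit 7) (nat_lit 5) (nat_lit 7) (nat_lit 4) (nat_lit 277) (nat_lit 224) (nat_lit 219)) (XT.lf (nat_lit 0) (nat_lit 25271347538) (nat_lit 76) (nat_lit 4183415699)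 (nat_lit 76) (nat_lit 1007888246) (nat_lit 6) (nat_lit 4) (nat_lit 7) (nat_lit 5) (nat_lit 7) (nat_lit 4) (nat_lit 278) (nat_lit 224) (nat_lit 218))) (XT.nd (nat_lit 78) (nat_lit 0) (nat_lit 0) (XT.lf (nat_lit 0) (nat_lit 1303091677) (nat_lit 76) (nat_lit 1077116955) (nat_lit 152) (nat_lit 30305303530) (nat_lit 4) (nat_lit 5) (nat_lit 5) (nat_lit 5) (nat_lit 6) (nat_lit 4) (nat_lit 279) (nat_lit 224) (nat_lit 217)) (XT.lf (nat_lit 0) (nat_lit 5960047130) (nat_lit 152) (nat_lit 26927392382) (nat_lit 0) (nat_lit 2200566119) (nat_lit 4) (nat_lit 5) (nat_lit 6) (nat_lit 4) (nat_lit 4) (nat_lit 4) (nat_lit 280) (nat_lit 224) (nat_lit 216)))) (XT.nd (nat_lit 156) (nat_lit 0) (nat_lit 0) (XT.nd (nat_lit 78) (nat_lit 0) (nat_lit 0) (XT.lf (nat_lit 0) (nat_lit 9685231735) (nat_lit 152) (nat_lit 22406432103) (nat_lit 0) (nat_lit 5598485254) (nat_lit 4) (nat_lit 5) (nat_lit 6) (nat_lit 4) (nat_lit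 4) (nat_lit 4) (nat_lit 281) (nat_lit 224) (nat_lit 215)) (XT.lf (nat_lit 0) (nat_lit 13561020800) (nat_lit 152) (nat_lit 17775931959) (nat_lit 0) (nat_lit 9171250736) (nat_lit 4) (nat_lit 5) (nat_lit 6) (nat_lit 4) (nat_lit 4) (nat_lit 4) (nat_lit 282) (nat_lit 224) (nat_lit 214))) (XT.nd (nat_lit 78) (nat_lit 0) (nat_lit 0) (XT.lf (nat_lit 0) (nat_lit 17610381965) (nat_lit 152) (nat_lit 13008451948) (nat_lit 0) (nat_lit 12940034509) (nat_lit 4) (nat_lit 5) (nat_lit 6) (nat_lit 4) (nat_lit 4) (nat_lit 4) (nat_lit 283) (nat_lit 224) (nat_lit 213)) (XT.lf (nat_lit 0) (nat_lit 21857311444) (nat_lit 152) (nat_lit 8075740338) (nat_lit 0) (nat_lit 16927170107) (nat_lit 4) (nat_lit 5) (nat_lit 6) (nat_lit 4) (nat_lit 4) (nat_lit 4) (nat_lit 284) (nat_lit 224) (nat_lit 212)))))) (XT.nd (nat_lit 624) (nat_lit 0) (nat_lit 0) (XT.nd (nat_lit 312) (nat_lit 0) (nat_lit 0) (XT.nd (nat_lit 156) (nat_lit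 0) (nat_lit 0) (XT.nd (nat_lit 78) (nat_lit 76) (nat_lit 0) (XT.lf (nat_lit 0) (nat_lit 26326976225) (nat_lit 152) (nat_lit 2948566243) (nat_lit 0) (nat_lit 21156284998) (nat_lit 4) (nat_lit 5) (nat_lit 6) (nat_lit 4) (nat_lit 4) (nat_lit 4) (nat_lit 285) (nat_lit 224) (nat_lit 211)) (XT.lf (nat_lit 0) (nat_lit 2482922617) (nat_lit 76) (nat_lit 28601705976) (nat_lit 76) (nat_lit 23208283369) (nat_lit 3) (nat_lit 4) (nat_lit 4) (nat_lit 5) (nat_lit 4) (nat_lit 4) (nat_lit 286) (nat_lit 224) (nat_lit 210))) (XT.nd (nat_lit 78) (nat_lit 0) (nat_lit 0) (XT.lf (nat_lit 0) (nat_lit 8276948884) (nat_lit 76) (nat_lit 27894213664) (nat_lit 76) (nat_lit 22294558298) (nat_lit 3) (nat_lit 4) (nat_lit 4) (nat_lit 5) (nat_lit 4) (nat_lit 4) (nat_lit 287) (nat_lit 224) (nat_lit 209)) (XT.lf (nat_lit 0) (nat_lit 14370354611) (nat_lit 76) (nat_lit 27198808384) (nat_lit 76) (nat_lit 21408196760) (nat_lit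 3) (nat_lit 4) (nat_lit 4) (nat_lit 5) (nat_lit 4) (nat_lit 4) (nat_lit 288) (nat_lit 224) (nat_lit 208)))) (XT.nd (nat_lit 156) (nat_lit 0) (nat_lit 0) (XT.nd (nat_lit 78) (nat_lit 0) (nat_lit 0) (XT.lf (nat_lit 0) (nat_lit 20799248869) (nat_lit 76) (nat_lit 26511369214) (nat_lit 76) (nat_lit 20543946240) (nat_lit 3) (nat_lit 4) (nat_lit 4) (nat_lit 5) (nat_lit 4) (nat_lit 4) (nat_lit 289) (nat_lit 224) (nat_lit 207)) (XT.lf (nat_lit 0) (nat_lit 27601728809) (nat_lit 76) (nat_lit 25827822442) (nat_lit 76) (nat_lit 19696685255) (nat_lit 3) (nat_lit 4) (nat_lit 4) (nat_lit 5) (nat_lit 4) (nat_lit 4) (nat_lit 290) (nat_lit 224) (nat_lit 206))) (XT.nd (nat_lit 78) (nat_lit 0) (nat_lit 0) (XT.lf (nat_lit 0) (nat_lit 34818105423) (nat_lit 76) (nat_lit 25144117420) (nat_lit 76) (nat_lit 18861392999) (nat_lit 3) (nat_lit 4) (nat_lit 4) (nat_lit 5) (nat_lit 4) (nat_lit 4) (nat_lit 291) (nat_lit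 224) (nat_lit 205)) (XT.lf (nat_lit 0) (nat_lit 42491142424) (nat_lit 76) (nat_lit 24456202563) (nat_lit 76) (nat_lit 18033119591) (nat_lit 3) (nat_lit 4) (nat_lit 4) (nat_lit 5) (nat_lit 4) (nat_lit 4) (nat_lit 292) (nat_lit 224) (nat_lit 204))))) (XT.nd (nat_lit 312) (nat_lit 0) (nat_lit 0) (XT.nd (nat_lit 156) (nat_lit 0) (nat_lit 0) (XT.nd (nat_lit 78) (nat_lit 0) (nat_lit 0) (XT.lf (nat_lit 0) (nat_lit 50666309662) (nat_lit 76) (nat_lit 23760001338) (nat_lit 76) (nat_lit 17206956745) (nat_lit 3) (nat_lit 4) (nat_lit 4) (nat_lit 5) (nat_lit 4) (nat_lit 4) (nat_lit 293) (nat_lit 224) (nat_lit 203)) (XT.lf (nat_lit 0) (nat_lit 59392052572) (nat_lit 76) (nat_lit 23051388108) (nat_lit 76) (nat_lit 16378008681) (nat_lit 3) (nat_lit 4) (nat_lit 4) (nat_lit 5) (nat_lit 4) (nat_lit 4) (nat_lit 294) (nat_lit 224) (nat_lit 202))) (XT.nd (nat_lit 78) (nat_lit 0) (nat_lit 0) (XT.lf (nat_lit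 0) (nat_lit 68720079260) (nat_lit 76) (nat_lit 22326163683) (nat_lit 76) (nat_lit 15541363114) (nat_lit 3) (nat_lit 4) (nat_lit 4) (nat_lit 5) (nat_lit 4) (nat_lit 4) (nat_lit 295) (nat_lit 224) (nat_lit 201)) (XT.lf (nat_lit 0) (nat_lit 78705666921) (nat_lit 76) (nat_lit 21580030438) (nat_lit 76) (nat_lit 14692062144) (nat_lit 3) (nat_lit 4) (nat_lit 4) (nat_lit 5) (nat_lit 4) (nat_lit 4) (nat_lit 296) (nat_lit 224) (nat_lit 200)))) (XT.nd (nat_lit 156) (nat_lit 0) (nat_lit 0) (XT.nd (nat_lit 78) (nat_lit 0) (nat_lit 0) (XT.lf (nat_lit 0) (nat_lit 89407989408) (nat_lit 76) (nat_lit 20808566843) (nat_lit 76) (nat_lit 13825072877) (nat_lit 3) (nat_lit 4) (nat_lit 4) (nat_lit 5) (nat_lit 4) (nat_lit 4) (nat_lit 297) (nat_lit 224) (nat_lit 199)) (XT.lf (nat_lit 0) (nat_lit 100890467891) (nat_lit 76) (nat_lit 20007201260) (nat_lit 76) (nat_lit 12935257599) (nat_lit 3) (nat_lit 4) (nat_lit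 4) (nat_lit 5) (nat_lit 4) (nat_lit 4) (nat_lit 298) (nat_lit 224) (nat_lit 198))) (XT.nd (nat_lit 78) (nat_lit 0) (nat_lit 0) (XT.lf (nat_lit 0) (nat_lit 113221146687) (nat_lit 76) (nat_lit 19171184857) (nat_lit 76) (nat_lit 12017343330) (nat_lit 3) (nat_lit 4) (nat_lit 4) (nat_lit 5) (nat_lit 4) (nat_lit 4) (nat_lit 299) (nat_lit 224) (nat_lit 197)) (XT.nd (nat_lit 78) (nat_lit 0) (nat_lit 0) (XT.lf (nat_lit 0) (nat_lit 126473096486) (nat_lit 76) (nat_lit 18295563463) (nat_lit 76) (nat_lit 11065890579) (nat_lit 3) (nat_lit 4) (nat_lit 4) (nat_lit 5) (nat_lit 4) (nat_lit 4) (nat_lit 300) (nat_lit 224) (nat_lit 196)) (XT.lf (nat_lit 0) (nat_lit 140724847361) (nat_lit 76) (nat_lit 17375148210) (nat_lit 76) (nat_lit 10075261106) (nat_lit 3) (nat_lit 4) (nat_lit 4) (nat_lit 5) (nat_lit 4) (nat_lit 4) (nat_lit 301) (nat_lit 224) (nat_lit 195))))))))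
noncomputable def xc19 : XT := (XT.nd (nat_lit 1326) (nat_lit 0) (nat_lit 0) (XT.nd (nat_lit 624) (nat_lit 76) (nat_lit 0) (XT.nd (nat_lit 312) (nat_lit 76) (nat_lit 0) (XT.nd (nat_lit 156) (nat_lit 0) (nat_lit 0) (XT.nd (nat_lit 78) (nat_lit 0) (nat_lit 0) (XT.lf (nat_lit 0) (nat_lit 156060854130) (nat_lit 76) (nat_lit 16404484785) (nat_lit 76) (nat_lit 9039584515) (nat_lit 3) (nat_lit 4) (nat_lit 4) (nat_lit 5) (nat_lit 4) (nat_lit 4) (nat_lit 302) (nat_lit 224) (nat_lit 194)) (XT.lf (nat_lit 0) (nat_lit 172571996835) (nat_lit 76) (nat_lit 15377821110) (nat_lit 76) (nat_lit 7952723463) (nat_lit 3) (nat_lit 4) (nat_lit 4) (nat_lit 5) (nat_lit 4) (nat_lit 4) (nat_lit 303) (nat_lit 224) (nat_lit 193))) (XT.nd (nat_lit 78) (nat_lit 0) (nat_lit 0) (XT.lf (nat_lit 0) (nat_lit 190356119284) (nat_lit 76) (nat_lit 14289073250) (nat_lit 76) (nat_lit 6808237292) (nat_lit 3) (nat_lit 4) (nat_lit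 4) (nat_lit 5) (nat_lit 4) (nat_lit 4) (nat_lit 304) (nat_lit 224) (nat_lit 192)) (XT.lf (nat_lit 0) (nat_lit 209518608869) (nat_lit 76) (nat_lit 13131789368) (nat_lit 76) (nat_lit 5599343862) (nat_lit 3) (nat_lit 4) (nat_lit 4) (nat_lit 5) (nat_lit 4) (nat_lit 4) (nat_lit 305) (nat_lit 224) (nat_lit 191)))) (XT.nd (nat_lit 156) (nat_lit 76) (nat_lit 0) (XT.nd (nat_lit 78) (nat_lit 0) (nat_lit 0) (XT.lf (nat_lit 0) (nat_lit 230173021085) (nat_lit 76) (nat_lit 11899111483) (nat_lit 76) (nat_lit 4318879359) (nat_lit 3) (nat_lit 4) (nat_lit 4) (nat_lit 5) (nat_lit 4) (nat_lit 4) (nat_lit 306) (nat_lit 224) (nat_lit 190)) (XT.lf (nat_lit 0) (nat_lit 252441752447) (nat_lit 76) (nat_lit 10583734840) (nat_lit 76) (nat_lit 2959255847) (nat_lit 3) (nat_lit 4) (nat_lit 4) (nat_lit 5) (nat_lit 4) (nat_lit 4) (nat_lit 307) (nat_lit 224) (nat_lit 189))) (XT.nd (nat_lit 78) (nat_lit 76) (nat_lit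 0) (XT.lf (nat_lit 0) (nat_lit 276456765809) (nat_lit 76) (nat_lit 9177864612) (nat_lit 76) (nat_lit 1512416296) (nat_lit 3) (nat_lit 4) (nat_lit 4) (nat_lit 5) (nat_lit 4) (nat_lit 4) (nat_lit 308) (nat_lit 224) (nat_lit 188)) (XT.lf (nat_lit 0) (nat_lit 29246146) (nat_lit 152) (nat_lit 7643428273) (nat_lit 76) (nat_lit 302330630916) (nat_lit 2) (nat_lit 5) (nat_lit 4) (nat_lit 5) (nat_lit 3) (nat_lit 4) (nat_lit 309) (nat_lit 224) (nat_lit 187))))) (XT.nd (nat_lit 312) (nat_lit 0) (nat_lit 0) (XT.nd (nat_lit 156) (nat_lit 76) (nat_lit 0) (XT.nd (nat_lit 78) (nat_lit 0) (nat_lit 0) (XT.lf (nat_lit 0) (nat_lit 1624074772) (nat_lit 152) (nat_lit 4409154180) (nat_lit 76) (nat_lit 328654495691) (nat_lit 2) (nat_lit 5) (nat_lit 4) (nat_lit 5) (nat_lit 3) (nat_lit 4) (nat_lit 310) (nat_lit 224) (nat_lit 186)) (XT.lf (nat_lit 0) (nat_lit 3329927184) (nat_lit 152) (nat_lit 944679505) (nat_lit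 76) (nat_lit 357073156645) (nat_lit 2) (nat_lit 5) (nat_lit 4) (nat_lit 5) (nat_lit 3) (nat_lit 4) (nat_lit 311) (nat_lit 224) (nat_lit 185))) (XT.nd (nat_lit 78) (nat_lit 0) (nat_lit 0) (XT.lf (nat_lit 0) (nat_lit 2862132073) (nat_lit 76) (nat_lit 2339465967) (nat_lit 152) (nat_lit 384937574487) (nat_lit 1) (nat_lit 5) (nat_lit 2) (nat_lit 5) (nat_lit 3) (nat_lit 4) (nat_lit 312) (nat_lit 224) (nat_lit 184)) (XT.lf (nat_lit 0) (nat_lit 6981944101) (nat_lit 76) (nat_lit 242919822) (nat_lit 152) (nat_lit 414008969797) (nat_lit 1) (nat_lit 5) (nat_lit 2) (nat_lit 5) (nat_lit 3) (nat_lit 4) (nat_lit 313) (nat_lit 224) (nat_lit 183)))) (XT.nd (nat_lit 156) (nat_lit 0) (nat_lit 0) (XT.nd (nat_lit 78) (nat_lit 0) (nat_lit 0) (XT.lf (nat_lit 0) (nat_lit 9427882274) (nat_lit 152) (nat_lit 443440242987) (nat_lit 0) (nat_lit 1947077926) (nat_lit 1) (nat_lit 5) (nat_lit 3) (nat_lit 4) (nat_lit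 1) (nat_lit 4) (nat_lit 314) (nat_lit 224) (nat_lit 182)) (XT.lf (nat_lit 0) (nat_lit 11798582848) (nat_lit 152) (nat_lit 474989943407) (nat_lit 0) (nat_lit 4295011636) (nat_lit 1) (nat_lit 5) (nat_lit 3) (nat_lit 4) (nat_lit 1) (nat_lit 4) (nat_lit 315) (nat_lit 224) (nat_lit 181))) (XT.nd (nat_lit 78) (nat_lit 0) (nat_lit 0) (XT.lf (nat_lit 0) (nat_lit 14347221582) (nat_lit 152) (nat_lit 509084159411) (nat_lit 0) (nat_lit 6822569942) (nat_lit 1) (nat_lit 5) (nat_lit 3) (nat_lit 4) (nat_lit 1) (nat_lit 4) (nat_lit 316) (nat_lit 224) (nat_lit 180)) (XT.nd (nat_lit 78) (nat_lit 0) (nat_lit 0) (XT.lf (nat_lit 0) (nat_lit 17088901521) (nat_lit 152) (nat_lit 545924930795) (nat_lit 0) (nat_lit 9544730965) (nat_lit 1) (nat_lit 5) (nat_lit 3) (nat_lit 4) (nat_lit 1) (nat_lit 4) (nat_lit 317) (nat_lit 224) (nat_lit 179)) (XT.lf (nat_lit 0) (nat_lit 20039869657) (nat_lit 152) (nat_lit 585730573243)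 (nat_lit 0) (nat_lit 12477626031) (nat_lit 1) (nat_lit 5) (nat_lit 3) (nat_lit 4) (nat_lit 1) (nat_lit 4) (nat_lit 318) (nat_lit 224) (nat_lit 178))))))) (XT.nd (nat_lit 34086) (nat_lit 0) (nat_lit 228) (XT.nd (nat_lit 33774) (nat_lit 0) (nat_lit 456) (XT.nd (nat_lit 156) (nat_lit 0) (nat_lit 0) (XT.nd (nat_lit 78) (nat_lit 0) (nat_lit 0) (XT.lf (nat_lit 0) (nat_lit 23217613209) (nat_lit 152) (nat_lit 628736972042) (nat_lit 0) (nat_lit 15638635258) (nat_lit 1) (nat_lit 5) (nat_lit 3) (nat_lit 4) (nat_lit 1) (nat_lit 4) (nat_lit 319) (nat_lit 224) (nat_lit 177)) (XT.lf (nat_lit 0) (nat_lit 26640963249) (nat_lit 152) (nat_lit 675198979927) (nat_lit 0) (nat_lit 19046490554) (nat_lit 1) (nat_lit 5) (nat_lit 3) (nat_lit 4) (nat_lit 1) (nat_lit 4) (nat_lit 320) (nat_lit 224) (nat_lit 176))) (XT.nd (nat_lit 33540) (nat_lit 0) (nat_lit 608) (XT.lf (nat_lit 0) (nat_lit 30330206296) (nat_lit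 152) (nat_lit 725391927315) (nat_lit 0) (nat_lit 22721386615) (nat_lit 1) (nat_lit 5) (nat_lit 3) (nat_lit 4) (nat_lit 1) (nat_lit 4) (nat_lit 321) (nat_lit 224) (nat_lit 175)) (XT.lf (nat_lit 0) (nat_lit 1271935056) (nat_lit 152) (nat_lit 3847076884) (nat_lit 152) (nat_lit 3847076884) (nat_lit 9) (nat_lit 4) (nat_lit 11) (nat_lit 5) (nat_lit 11) (nat_lit 4) (nat_lit 270) (nat_lit 225) (nat_lit 225)))) (XT.nd (nat_lit 156) (nat_lit 76) (nat_lit 0) (XT.nd (nat_lit 78) (nat_lit 76) (nat_lit 0) (XT.lf (nat_lit 0) (nat_lit 11279855321) (nat_lit 152) (nat_lit 4264094249) (nat_lit 152) (nat_lit 3542833029) (nat_lit 9) (nat_lit 4) (nat_lit 11) (nat_lit 5) (nat_lit 11) (nat_lit 4) (nat_lit 271) (nat_lit 225) (nat_lit 224)) (XT.lf (nat_lit 0) (nat_lit 648742279) (nat_lit 228) (nat_lit 59174009) (nat_lit 76) (nat_lit 19638967113) (nat_lit 8) (nat_lit 5) (nat_lit 11) (nat_lit 5) (nat_lit 9) (nat_lit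 4) (nat_lit 272) (nat_lit 225) (nat_lit 223))) (XT.nd (nat_lit 78) (nat_lit 0) (nat_lit 0) (XT.lf (nat_lit 0) (nat_lit 4987111594) (nat_lit 152) (nat_lit 13646470131) (nat_lit 0) (nat_lit 3075244045) (nat_lit 7) (nat_lit 5) (nat_lit 9) (nat_lit 4) (nat_lit 7) (nat_lit 4) (nat_lit 273) (nat_lit 225) (nat_lit 222)) (XT.lf (nat_lit 0) (nat_lit 9452958791) (nat_lit 152) (nat_lit 6742612641) (nat_lit 0) (nat_lit 6995795613) (nat_lit 7) (nat_lit 5) (nat_lit 9) (nat_lit 4) (nat_lit 7) (nat_lit 4) (nat_lit 274) (nat_lit 225) (nat_lit 221))))) (XT.nd (nat_lit 312) (nat_lit 152) (nat_lit 0) (XT.nd (nat_lit 156) (nat_lit 0) (nat_lit 0) (XT.nd (nat_lit 78) (nat_lit 0) (nat_lit 0) (XT.lf (nat_lit 0) (nat_lit 367244858) (nat_lit 76) (nat_lit 13699214388) (nat_lit 76) (nat_lit 10737147850) (nat_lit 6) (nat_lit 4) (nat_lit 7) (nat_lit 5) (nat_lit 7) (nat_lit 4) (nat_lit 275) (nat_lit 225) (nat_lit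 220)) (XT.lf (nat_lit 0) (nat_lit 7944165731) (nat_lit 76) (nat_lit 11017582041) (nat_lit 76) (nat_lit 7588012391) (nat_lit 6) (nat_lit 4) (nat_lit 7) (nat_lit 5) (nat_lit 7) (nat_lit 4) (nat_lit 276) (nat_lit 225) (nat_lit 219))) (XT.nd (nat_lit 78) (nat_lit 0) (nat_lit 0) (XT.lf (nat_lit 0) (nat_lit 15810109025) (nat_lit 76) (nat_lit 8248972644) (nat_lit 76) (nat_lit 4386529742) (nat_lit 6) (nat_lit 4) (nat_lit 7) (nat_lit 5) (nat_lit 7) (nat_lit 4) (nat_lit 277) (nat_lit 225) (nat_lit 218)) (XT.lf (nat_lit 0) (nat_lit 24011687737) (nat_lit 76) (nat_lit 5376979622) (nat_lit 76) (nat_lit 1113728155) (nat_lit 6) (nat_lit 4) (nat_lit 7) (nat_lit 5) (nat_lit 7) (nat_lit 4) (nat_lit 278) (nat_lit 225) (nat_lit 217)))) (XT.nd (nat_lit 156) (nat_lit 0) (nat_lit 0) (XT.nd (nat_lit 78) (nat_lit 76) (nat_lit 0) (XT.lf (nat_lit 0) (nat_lit 2177779524) (nat_lit 152) (nat_lit 169922484) (nat_lit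 76) (nat_lit 30382842540) (nat_lit 5) (nat_lit 5) (nat_lit 7) (nat_lit 5) (nat_lit 6) (nat_lit 4) (nat_lit 279) (nat_lit 225) (nat_lit 216)) (XT.lf (nat_lit 0) (nat_lit 5658455047) (nat_lit 152) (nat_lit 28562229312) (nat_lit 0) (nat_lit 917503377) (nat_lit 4) (nat_lit 5) (nat_lit 6) (nat_lit 4) (nat_lit 4) (nat_lit 4) (nat_lit 280) (nat_lit 225) (nat_lit 215))) (XT.nd (nat_lit 78) (nat_lit 0) (nat_lit 0) (XT.lf (nat_lit 0) (nat_lit 9312769311) (nat_lit 152) (nat_lit 24162488724) (nat_lit 0) (nat_lit 4268794059) (nat_lit 4) (nat_lit 5) (nat_lit 6) (nat_lit 4) (nat_lit 4) (nat_lit 4) (nat_lit 281) (nat_lit 225) (nat_lit 214)) (XT.nd (nat_lit 78) (nat_lit 0) (nat_lit 0) (XT.lf (nat_lit 0) (nat_lit 13122937691) (nat_lit 152) (nat_lit 19644229035) (nat_lit 0) (nat_lit 7798385047) (nat_lit 4) (nat_lit 5) (nat_lit 6) (nat_lit 4) (nat_lit 4) (nat_lit 4) (nat_lit 282) (nat_lit 225) (nat_lit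 213)) (XT.lf (nat_lit 0) (nat_lit 17111538962) (nat_lit 152) (nat_lit 14980675370) (nat_lit 0) (nat_lit 11527192436) (nat_lit 4) (nat_lit 5) (nat_lit 6) (nat_lit 4) (nat_lit 4) (nat_lit 4) (nat_lit 283) (nat_lit 225) (nat_lit 212))))))))
noncomputable def xc20 : XT := (XT.nd (nat_lit 1248) (nat_lit 152) (nat_lit 0) (XT.nd (nat_lit 624) (nat_lit 0) (nat_lit 0) (XT.nd (nat_lit 312) (nat_lit 0) (nat_lit 0) (XT.nd (nat_lit 156) (nat_lit 76) (nat_lit 0) (XT.nd (nat_lit 78) (nat_lit 0) (nat_lit 0) (XT.lf (nat_lit 0) (nat_lit 21302209279) (nat_lit 152) (nat_lit 10144191858) (nat_lit 0) (nat_lit 15477312864) (nat_lit 4) (nat_lit 5) (nat_lit 6) (nat_lit 4) (nat_lit 4) (nat_lit 4) (nat_lit 284) (nat_lit 225) (nat_lit 211)) (XT.lf (nat_lit 0) (nat_lit 25719782245) (nat_lit 152) (nat_lit 5106117856) (nat_lit 0) (nat_lit 19672154450) (nat_lit 4) (nat_lit 5) (nat_lit 6) (nat_lit 4) (nat_lit 4) (nat_lit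 4) (nat_lit 285) (nat_lit 225) (nat_lit 210))) (XT.nd (nat_lit 78) (nat_lit 0) (nat_lit 0) (XT.lf (nat_lit 0) (nat_lit 168804695) (nat_lit 76) (nat_lit 30224266889) (nat_lit 76) (nat_lit 23970406335) (nat_lit 3) (nat_lit 4) (nat_lit 4) (nat_lit 5) (nat_lit 4) (nat_lit 4) (nat_lit 286) (nat_lit 225) (nat_lit 209)) (XT.lf (nat_lit 0) (nat_lit 5883916230) (nat_lit 76) (nat_lit 29549796893) (nat_lit 76) (nat_lit 23104980080) (nat_lit 3) (nat_lit 4) (nat_lit 4) (nat_lit 5) (nat_lit 4) (nat_lit 4) (nat_lit 287) (nat_lit 225) (nat_lit 208)))) (XT.nd (nat_lit 156) (nat_lit 0) (nat_lit 0) (XT.nd (nat_lit 78) (nat_lit 0) (nat_lit 0) (XT.lf (nat_lit 0) (nat_lit 11904252761) (nat_lit 76) (nat_lit 28884967830) (nat_lit 76) (nat_lit 22263339668) (nat_lit 3) (nat_lit 4) (nat_lit 4) (nat_lit 5) (nat_lit 4) (nat_lit 4) (nat_lit 288) (nat_lit 225) (nat_lit 207)) (XT.lf (nat_lit 0) (nat_lit 18265490356)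 (nat_lit 76) (nat_lit 28225839974) (nat_lit 76) (nat_lit 21440497598) (nat_lit 3) (nat_lit 4) (nat_lit 4) (nat_lit 5) (nat_lit 4) (nat_lit 4) (nat_lit 289) (nat_lit 225) (nat_lit 206))) (XT.nd (nat_lit 78) (nat_lit 0) (nat_lit 0) (XT.lf (nat_lit 0) (nat_lit 25005325238) (nat_lit 76) (nat_lit 27568507381) (nat_lit 76) (nat_lit 20631577771) (nat_lit 3) (nat_lit 4) (nat_lit 4) (nat_lit 5) (nat_lit 4) (nat_lit 4) (nat_lit 290) (nat_lit 225) (nat_lit 205)) (XT.lf (nat_lit 0) (nat_lit 32163697169) (nat_lit 76) (nat_lit 26909074746) (nat_lit 76) (nat_lit 19831786586) (nat_lit 3) (nat_lit 4) (nat_lit 4) (nat_lit 5) (nat_lit 4) (nat_lit 4) (nat_lit 291) (nat_lit 225) (nat_lit 204))))) (XT.nd (nat_lit 312) (nat_lit 0) (nat_lit 0) (XT.nd (nat_lit 156) (nat_lit 0) (nat_lit 0) (XT.nd (nat_lit 78) (nat_lit 0) (nat_lit 0) (XT.lf (nat_lit 0) (nat_lit 39783026130) (nat_lit 76) (nat_lit 26243634322)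 (nat_lit 76) (nat_lit 19036384541) (nat_lit 3) (nat_lit 4) (nat_lit 4) (nat_lit 5) (nat_lit 4) (nat_lit 4) (nat_lit 292) (nat_lit 225) (nat_lit 203)) (XT.lf (nat_lit 0) (nat_lit 47908463701) (nat_lit 76) (nat_lit 25568242757) (nat_lit 76) (nat_lit 18240658142) (nat_lit 3) (nat_lit 4) (nat_lit 4) (nat_lit 5) (nat_lit 4) (nat_lit 4) (nat_lit 293) (nat_lit 225) (nat_lit 202))) (XT.nd (nat_lit 78) (nat_lit 0) (nat_lit 0) (XT.lf (nat_lit 0) (nat_lit 56588160623) (nat_lit 76) (nat_lit 24878897731) (nat_lit 76) (nat_lit 17439891973) (nat_lit 3) (nat_lit 4) (nat_lit 4) (nat_lit 5) (nat_lit 4) (nat_lit 4) (nat_lit 294) (nat_lit 225) (nat_lit 201)) (XT.lf (nat_lit 0) (nat_lit 65873552137) (nat_lit 76) (nat_lit 24171514236) (nat_lit 76) (nat_lit 16629340753) (nat_lit 3) (nat_lit 4) (nat_lit 4) (nat_lit 5) (nat_lit 4) (nat_lit 4) (nat_lit 295) (nat_lit 225) (nat_lit 200)))) (XT.nd (nat_lit 156)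 (nat_lit 0) (nat_lit 0) (XT.nd (nat_lit 78) (nat_lit 0) (nat_lit 0) (XT.lf (nat_lit 0) (nat_lit 75819662785) (nat_lit 76) (nat_lit 23441900370) (nat_lit 76) (nat_lit 15804201217) (nat_lit 3) (nat_lit 4) (nat_lit 4) (nat_lit 5) (nat_lit 4) (nat_lit 4) (nat_lit 296) (nat_lit 225) (nat_lit 199)) (XT.lf (nat_lit 0) (nat_lit 86485432482) (nat_lit 76) (nat_lit 22685732496) (nat_lit 76) (nat_lit 14959583647) (nat_lit 3) (nat_lit 4) (nat_lit 4) (nat_lit 5) (nat_lit 4) (nat_lit 4) (nat_lit 297) (nat_lit 225) (nat_lit 198))) (XT.nd (nat_lit 78) (nat_lit 0) (nat_lit 0) (XT.lf (nat_lit 0) (nat_lit 97934065790) (nat_lit 76) (nat_lit 21898529618) (nat_lit 76) (nat_lit 14090482903) (nat_lit 3) (nat_lit 4) (nat_lit 4) (nat_lit 5) (nat_lit 4) (nat_lit 4) (nat_lit 298) (nat_lit 225) (nat_lit 197)) (XT.lf (nat_lit 0) (nat_lit 110233406460) (nat_lit 76) (nat_lit 21075626831) (nat_lit 76) (nat_lit 13191748759)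 (nat_lit 3) (nat_lit 4) (nat_lit 4) (nat_lit 5) (nat_lit 4) (nat_lit 4) (nat_lit 299) (nat_lit 225) (nat_lit 196)))))) (XT.nd (nat_lit 624) (nat_lit 152) (nat_lit 0) (XT.nd (nat_lit 312) (nat_lit 0) (nat_lit 0) (XT.nd (nat_lit 156) (nat_lit 0) (nat_lit 0) (XT.nd (nat_lit 78) (nat_lit 0) (nat_lit 0) (XT.lf (nat_lit 0) (nat_lit 123456339476) (nat_lit 76) (nat_lit 20212147674) (nat_lit 76) (nat_lit 12258055382) (nat_lit 3) (nat_lit 4) (nat_lit 4) (nat_lit 5) (nat_lit 4) (nat_lit 4) (nat_lit 300) (nat_lit 225) (nat_lit 195)) (XT.lf (nat_lit 0) (nat_lit 137681222959) (nat_lit 76) (nat_lit 19302975233) (nat_lit 76) (nat_lit 11283869774) (nat_lit 3) (nat_lit 4) (nat_lit 4) (nat_lit 5) (nat_lit 4) (nat_lit 4) (nat_lit 301) (nat_lit 225) (nat_lit 194))) (XT.nd (nat_lit 78) (nat_lit 0) (nat_lit 0) (XT.lf (nat_lit 0) (nat_lit 152992352514) (nat_lit 76) (nat_lit 18342721819) (nat_lit 76) (nat_lit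 10263418984) (nat_lit 3) (nat_lit 4) (nat_lit 4) (nat_lit 5) (nat_lit 4) (nat_lit 4) (nat_lit 302) (nat_lit 225) (nat_lit 193)) (XT.lf (nat_lit 0) (nat_lit 169480460761) (nat_lit 76) (nat_lit 17325697043) (nat_lit 76) (nat_lit 9190655896) (nat_lit 3) (nat_lit 4) (nat_lit 4) (nat_lit 5) (nat_lit 4) (nat_lit 4) (nat_lit 303) (nat_lit 225) (nat_lit 192)))) (XT.nd (nat_lit 156) (nat_lit 0) (nat_lit 0) (XT.nd (nat_lit 78) (nat_lit 0) (nat_lit 0) (XT.lf (nat_lit 0) (nat_lit 187243255008) (nat_lit 76) (nat_lit 16245874090) (nat_lit 76) (nat_lit 8059223396) (nat_lit 3) (nat_lit 4) (nat_lit 4) (nat_lit 5) (nat_lit 4) (nat_lit 4) (nat_lit 304) (nat_lit 225) (nat_lit 191)) (XT.lf (nat_lit 0) (nat_lit 206385996259) (nat_lit 76) (nat_lit 15096854010) (nat_lit 76) (nat_lit 6862416697) (nat_lit 3) (nat_lit 4) (nat_lit 4) (nat_lit 5) (nat_lit 4) (nat_lit 4) (nat_lit 305) (nat_lit 225) (nat_lit 190)))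 (XT.nd (nat_lit 78) (nat_lit 0) (nat_lit 0) (XT.lf (nat_lit 0) (nat_lit 227022122979) (nat_lit 76) (nat_lit 13871827794) (nat_lit 76) (nat_lit 5593143613) (nat_lit 3) (nat_lit 4) (nat_lit 4) (nat_lit 5) (nat_lit 4) (nat_lit 4) (nat_lit 306) (nat_lit 225) (nat_lit 189)) (XT.lf (nat_lit 0) (nat_lit 249273923327) (nat_lit 76) (nat_lit 12563536029) (nat_lit 76) (nat_lit 4243882525) (nat_lit 3) (nat_lit 4) (nat_lit 4) (nat_lit 5) (nat_lit 4) (nat_lit 4) (nat_lit 307) (nat_lit 225) (nat_lit 188))))) (XT.nd (nat_lit 312) (nat_lit 76) (nat_lit 0) (XT.nd (nat_lit 156) (nat_lit 76) (nat_lit 0) (XT.nd (nat_lit 78) (nat_lit 0) (nat_lit 0) (XT.lf (nat_lit 0) (nat_lit 273273259824) (nat_lit 76) (nat_lit 11164225874) (nat_lit 76) (nat_lit 2806637812) (nat_lit 3) (nat_lit 4) (nat_lit 4) (nat_lit 5) (nat_lit 4) (nat_lit 4) (nat_lit 308) (nat_lit 225) (nat_lit 187)) (XT.lf (nat_lit 0) (nat_lit 299162350760)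 (nat_lit 76) (nat_lit 9665605121) (nat_lit 76) (nat_lit 1272892468) (nat_lit 3) (nat_lit 4) (nat_lit 4) (nat_lit 5) (nat_lit 4) (nat_lit 4) (nat_lit 309) (nat_lit 225) (nat_lit 186))) (XT.nd (nat_lit 78) (nat_lit 0) (nat_lit 0) (XT.lf (nat_lit 0) (nat_lit 354713923) (nat_lit 152) (nat_lit 7698071878) (nat_lit 76) (nat_lit 326733891794) (nat_lit 2) (nat_lit 5) (nat_lit 4) (nat_lit 5) (nat_lit 3) (nat_lit 4) (nat_lit 310) (nat_lit 225) (nat_lit 185)) (XT.lf (nat_lit 0) (nat_lit 2053193426) (nat_lit 152) (nat_lit 4246302573) (nat_lit 76) (nat_lit 355147605721) (nat_lit 2) (nat_lit 5) (nat_lit 4) (nat_lit 5) (nat_lit 3) (nat_lit 4) (nat_lit 311) (nat_lit 225) (nat_lit 184)))) (XT.nd (nat_lit 156) (nat_lit 0) (nat_lit 0) (XT.nd (nat_lit 78) (nat_lit 76) (nat_lit 0) (XT.lf (nat_lit 0) (nat_lit 3873351611) (nat_lit 152) (nat_lit 542861327) (nat_lit 76) (nat_lit 385824889153) (nat_lit 2) (nat_lit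 5) (nat_lit 4) (nat_lit 5) (nat_lit 3) (nat_lit 4) (nat_lit 312) (nat_lit 225) (nat_lit 183)) (XT.lf (nat_lit 0) (nat_lit 3547748279) (nat_lit 76) (nat_lit 2333616614) (nat_lit 152) (nat_lit 415455175413) (nat_lit 1) (nat_lit 5) (nat_lit 2) (nat_lit 5) (nat_lit 3) (nat_lit 4) (nat_lit 313) (nat_lit 225) (nat_lit 182))) (XT.nd (nat_lit 78) (nat_lit 0) (nat_lit 0) (XT.lf (nat_lit 0) (nat_lit 7963319666) (nat_lit 76) (nat_lit 83643565) (nat_lit 152) (nat_lit 446872830869) (nat_lit 1) (nat_lit 5) (nat_lit 2) (nat_lit 5) (nat_lit 3) (nat_lit 4) (nat_lit 314) (nat_lit 225) (nat_lit 181)) (XT.nd (nat_lit 78) (nat_lit 0) (nat_lit 0) (XT.lf (nat_lit 0) (nat_lit 10410724297) (nat_lit 152) (nat_lit 478514743728) (nat_lit 0) (nat_lit 2263020096) (nat_lit 1) (nat_lit 5) (nat_lit 3) (nat_lit 4) (nat_lit 1) (nat_lit 4) (nat_lit 315) (nat_lit 225) (nat_lit 180)) (XT.lf (nat_lit 0) (nat_lit 12954146736)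 (nat_lit 152) (nat_lit 512618103049) (nat_lit 0) (nat_lit 4786923620) (nat_lit 1) (nat_lit 5) (nat_lit 3) (nat_lit 4) (nat_lit 1) (nat_lit 4) (nat_lit 316) (nat_lit 225) (nat_lit 179))))))))
noncomputable def xc21 : XT := (XT.nd (nat_lit 34554) (nat_lit 0) (nat_lit 152) (XT.nd (nat_lit 33930) (nat_lit 0) (nat_lit 380) (XT.nd (nat_lit 312) (nat_lit 0) (nat_lit 0) (XT.nd (nat_lit 156) (nat_lit 0) (nat_lit 0) (XT.nd (nat_lit 78) (nat_lit 0) (nat_lit 0) (XT.lf (nat_lit 0) (nat_lit 15690996772) (nat_lit 152) (nat_lit 549467340468) (nat_lit 0) (nat_lit 7505700586) (nat_lit 1) (nat_lit 5) (nat_lit 3) (nat_lit 4) (nat_lit 1) (nat_lit 4) (nat_lit 317) (nat_lit 225) (nat_lit 178)) (XT.lf (nat_lit 0) (nat_lit 18637492776) (nat_lit 152) (nat_lit 589280821837) (nat_lit 0) (nat_lit 10435462265) (nat_lit 1) (nat_lit 5) (nat_lit 3) (nat_lit 4) (nat_lit 1) (nat_lit 4) (nat_lit 318) (nat_lit 225) (nat_lit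 177))) (XT.nd (nat_lit 78) (nat_lit 0) (nat_lit 0) (XT.lf (nat_lit 0) (nat_lit 21811095464) (nat_lit 152) (nat_lit 632294478897) (nat_lit 0) (nat_lit 13593570209) (nat_lit 1) (nat_lit 5) (nat_lit 3) (nat_lit 4) (nat_lit 1) (nat_lit 4) (nat_lit 319) (nat_lit 225) (nat_lit 176)) (XT.lf (nat_lit 0) (nat_lit 25230611371) (nat_lit 152) (nat_lit 678763207393) (nat_lit 0) (nat_lit 16998739130) (nat_lit 1) (nat_lit 5) (nat_lit 3) (nat_lit 4) (nat_lit 1) (nat_lit 4) (nat_lit 320) (nat_lit 225) (nat_lit 175)))) (XT.nd (nat_lit 33462) (nat_lit 0) (nat_lit 608) (XT.nd (nat_lit 33384) (nat_lit 0) (nat_lit 760) (XT.lf (nat_lit 0) (nat_lit 28916304295) (nat_lit 152) (nat_lit 728962377569) (nat_lit 0) (nat_lit 20671147808) (nat_lit 1) (nat_lit 5) (nat_lit 3) (nat_lit 4) (nat_lit 1) (nat_lit 4) (nat_lit 321) (nat_lit 225) (nat_lit 174)) (XT.lf (nat_lit 0) (nat_lit 573355897) (nat_lit 152) (nat_lit 6801098092)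 (nat_lit 0) (nat_lit 573355897) (nat_lit 11) (nat_lit 5) (nat_lit 13) (nat_lit 4) (nat_lit 11) (nat_lit 4) (nat_lit 268) (nat_lit 226) (nat_lit 226))) (XT.nd (nat_lit 78) (nat_lit 152) (nat_lit 0) (XT.lf (nat_lit 0) (nat_lit 5940410094) (nat_lit 152) (nat_lit 5770238137) (nat_lit 0) (nat_lit 5161447976) (nat_lit 11) (nat_lit 5) (nat_lit 13) (nat_lit 4) (nat_lit 11) (nat_lit 4) (nat_lit 269) (nat_lit 226) (nat_lit 225)) (XT.lf (nat_lit 0) (nat_lit 2327858071) (nat_lit 152) (nat_lit 8555815372) (nat_lit 152) (nat_lit 7055592035) (nat_lit 9) (nat_lit 4) (nat_lit 11) (nat_lit 5) (nat_lit 11) (nat_lit 4) (nat_lit 270) (nat_lit 226) (nat_lit 224))))) (XT.nd (nat_lit 312) (nat_lit 76) (nat_lit 0) (XT.nd (nat_lit 156) (nat_lit 76) (nat_lit 0) (XT.nd (nat_lit 78) (nat_lit 76) (nat_lit 0) (XT.lf (nat_lit 0) (nat_lit 10863832131) (nat_lit 152) (nat_lit 5202329451) (nat_lit 152) (nat_lit 3034271651)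 (nat_lit 9) (nat_lit 4) (nat_lit 11) (nat_lit 5) (nat_lit 11) (nat_lit 4) (nat_lit 271) (nat_lit 226) (nat_lit 223)) (XT.lf (nat_lit 0) (nat_lit 1024508432) (nat_lit 228) (nat_lit 686180756) (nat_lit 76) (nat_lit 18655618481) (nat_lit 8) (nat_lit 5) (nat_lit 11) (nat_lit 5) (nat_lit 9) (nat_lit 4) (nat_lit 272) (nat_lit 226) (nat_lit 222))) (XT.nd (nat_lit 78) (nat_lit 0) (nat_lit 0) (XT.lf (nat_lit 0) (nat_lit 5225127422) (nat_lit 152) (nat_lit 14484233771) (nat_lit 0) (nat_lit 2026095560) (nat_lit 7) (nat_lit 5) (nat_lit 9) (nat_lit 4) (nat_lit 7) (nat_lit 4) (nat_lit 273) (nat_lit 226) (nat_lit 221)) (XT.lf (nat_lit 0) (nat_lit 9587441812) (nat_lit 152) (nat_lit 7752521818) (nat_lit 0) (nat_lit 5883506590) (nat_lit 7) (nat_lit 5) (nat_lit 9) (nat_lit 4) (nat_lit 7) (nat_lit 4) (nat_lit 274) (nat_lit 226) (nat_lit 220)))) (XT.nd (nat_lit 156) (nat_lit 0) (nat_lit 0) (XT.nd (nat_lit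 78) (nat_lit 76) (nat_lit 0) (XT.lf (nat_lit 0) (nat_lit 14099344836) (nat_lit 152) (nat_lit 813812464) (nat_lit 0) (nat_lit 9927906503) (nat_lit 7) (nat_lit 5) (nat_lit 9) (nat_lit 4) (nat_lit 7) (nat_lit 4) (nat_lit 275) (nat_lit 226) (nat_lit 219)) (XT.lf (nat_lit 0) (nat_lit 6583733147) (nat_lit 76) (nat_lit 12306631077) (nat_lit 76) (nat_lit 7702319493) (nat_lit 6) (nat_lit 4) (nat_lit 7) (nat_lit 5) (nat_lit 7) (nat_lit 4) (nat_lit 276) (nat_lit 226) (nat_lit 218))) (XT.nd (nat_lit 78) (nat_lit 0) (nat_lit 0) (XT.lf (nat_lit 0) (nat_lit 14308503342) (nat_lit 76) (nat_lit 9594802991) (nat_lit 76) (nat_lit 4589682841) (nat_lit 6) (nat_lit 4) (nat_lit 7) (nat_lit 5) (nat_lit 7) (nat_lit 4) (nat_lit 277) (nat_lit 226) (nat_lit 217)) (XT.lf (nat_lit 0) (nat_lit 22379366221) (nat_lit 76) (nat_lit 6775385258) (nat_lit 76) (nat_lit 1399146065) (nat_lit 6) (nat_lit 4) (nat_lit 7) (nat_lit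 5) (nat_lit 7) (nat_lit 4) (nat_lit 278) (nat_lit 226) (nat_lit 216)))))) (XT.nd (nat_lit 624) (nat_lit 76) (nat_lit 0) (XT.nd (nat_lit 312) (nat_lit 0) (nat_lit 0) (XT.nd (nat_lit 156) (nat_lit 0) (nat_lit 0) (XT.nd (nat_lit 78) (nat_lit 76) (nat_lit 0) (XT.lf (nat_lit 0) (nat_lit 1827763599) (nat_lit 152) (nat_lit 1972952556) (nat_lit 76) (nat_lit 28985431460) (nat_lit 5) (nat_lit 5) (nat_lit 7) (nat_lit 5) (nat_lit 6) (nat_lit 4) (nat_lit 279) (nat_lit 226) (nat_lit 215)) (XT.lf (nat_lit 0) (nat_lit 4610561929) (nat_lit 76) (nat_lit 583879352) (nat_lit 152) (nat_lit 30005226795) (nat_lit 4) (nat_lit 5) (nat_lit 5) (nat_lit 5) (nat_lit 6) (nat_lit 4) (nat_lit 280) (nat_lit 226) (nat_lit 214))) (XT.nd (nat_lit 78) (nat_lit 0) (nat_lit 0) (XT.lf (nat_lit 0) (nat_lit 8774018867) (nat_lit 152) (nat_lit 26292490020) (nat_lit 0) (nat_lit 2742924620) (nat_lit 4) (nat_lit 5) (nat_lit 6) (nat_lit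 4) (nat_lit 4) (nat_lit 4) (nat_lit 281) (nat_lit 226) (nat_lit 213)) (XT.lf (nat_lit 0) (nat_lit 12523427353) (nat_lit 152) (nat_lit 21878156677) (nat_lit 0) (nat_lit 6232539225) (nat_lit 4) (nat_lit 5) (nat_lit 6) (nat_lit 4) (nat_lit 4) (nat_lit 4) (nat_lit 282) (nat_lit 226) (nat_lit 212)))) (XT.nd (nat_lit 156) (nat_lit 0) (nat_lit 0) (XT.nd (nat_lit 78) (nat_lit 0) (nat_lit 0) (XT.lf (nat_lit 0) (nat_lit 16455769463) (nat_lit 152) (nat_lit 17310831112) (nat_lit 0) (nat_lit 9924331445) (nat_lit 4) (nat_lit 5) (nat_lit 6) (nat_lit 4) (nat_lit 4) (nat_lit 4) (nat_lit 283) (nat_lit 226) (nat_lit 211)) (XT.lf (nat_lit 0) (nat_lit 20594347965) (nat_lit 152) (nat_lit 12563447691) (nat_lit 0) (nat_lit 13840178566) (nat_lit 4) (nat_lit 5) (nat_lit 6) (nat_lit 4) (nat_lit 4) (nat_lit 4) (nat_lit 284) (nat_lit 226) (nat_lit 210))) (XT.nd (nat_lit 78) (nat_lit 0) (nat_lit 0) (XT.lf (nat_lit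 0) (nat_lit 24963687768) (nat_lit 152) (nat_lit 7607873773) (nat_lit 0) (nat_lit 18003285611) (nat_lit 4) (nat_lit 5) (nat_lit 6) (nat_lit 4) (nat_lit 4) (nat_lit 4) (nat_lit 285) (nat_lit 226) (nat_lit 209)) (XT.lf (nat_lit 0) (nat_lit 29589681256) (nat_lit 152) (nat_lit 2414742993) (nat_lit 0) (nat_lit 22438322841) (nat_lit 4) (nat_lit 5) (nat_lit 6) (nat_lit 4) (nat_lit 4) (nat_lit 4) (nat_lit 286) (nat_lit 226) (nat_lit 208))))) (XT.nd (nat_lit 312) (nat_lit 0) (nat_lit 0) (XT.nd (nat_lit 156) (nat_lit 0) (nat_lit 0) (XT.nd (nat_lit 78) (nat_lit 0) (nat_lit 0) (XT.lf (nat_lit 0) (nat_lit 3147457037) (nat_lit 76) (nat_lit 31401425313) (nat_lit 76) (nat_lit 24073255547) (nat_lit 3) (nat_lit 4) (nat_lit 4) (nat_lit 5) (nat_lit 4) (nat_lit 4) (nat_lit 287) (nat_lit 226) (nat_lit 207)) (XT.lf (nat_lit 0) (nat_lit 9100136905) (nat_lit 76) (nat_lit 30764907564) (nat_lit 76) (nat_lit 23273023585)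 (nat_lit 3) (nat_lit 4) (nat_lit 4) (nat_lit 5) (nat_lit 4) (nat_lit 4) (nat_lit 288) (nat_lit 226) (nat_lit 206))) (XT.nd (nat_lit 78) (nat_lit 0) (nat_lit 0) (XT.lf (nat_lit 0) (nat_lit 15398729442) (nat_lit 76) (nat_lit 30131993886) (nat_lit 76) (nat_lit 22488522673) (nat_lit 3) (nat_lit 4) (nat_lit 4) (nat_lit 5) (nat_lit 4) (nat_lit 4) (nat_lit 289) (nat_lit 226) (nat_lit 205)) (XT.lf (nat_lit 0) (nat_lit 22080559640) (nat_lit 76) (nat_lit 29498933680) (nat_lit 76) (nat_lit 21715103917) (nat_lit 3) (nat_lit 4) (nat_lit 4) (nat_lit 5) (nat_lit 4) (nat_lit 4) (nat_lit 290) (nat_lit 226) (nat_lit 204)))) (XT.nd (nat_lit 156) (nat_lit 0) (nat_lit 0) (XT.nd (nat_lit 78) (nat_lit 0) (nat_lit 0) (XT.lf (nat_lit 0) (nat_lit 29185223530) (nat_lit 76) (nat_lit 28861975479) (nat_lit 76) (nat_lit 20948184095) (nat_lit 3) (nat_lit 4) (nat_lit 4) (nat_lit 5) (nat_lit 4) (nat_lit 4) (nat_lit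 291) (nat_lit 226) (nat_lit 203)) (XT.lf (nat_lit 0) (nat_lit 36754822825) (nat_lit 76) (nat_lit 28217344715) (nat_lit 76) (nat_lit 20183218497) (nat_lit 3) (nat_lit 4) (nat_lit 4) (nat_lit 5) (nat_lit 4) (nat_lit 4) (nat_lit 292) (nat_lit 226) (nat_lit 202))) (XT.nd (nat_lit 78) (nat_lit 0) (nat_lit 0) (XT.lf (nat_lit 0) (nat_lit 44834214408) (nat_lit 76) (nat_lit 27561221354) (nat_lit 76) (nat_lit 19415673993) (nat_lit 3) (nat_lit 4) (nat_lit 4) (nat_lit 5) (nat_lit 4) (nat_lit 4) (nat_lit 293) (nat_lit 226) (nat_lit 201)) (XT.nd (nat_lit 78) (nat_lit 0) (nat_lit 0) (XT.lf (nat_lit 0) (nat_lit 53471276156) (nat_lit 76) (nat_lit 26889717257) (nat_lit 76) (nat_lit 18641002171) (nat_lit 3) (nat_lit 4) (nat_lit 4) (nat_lit 5) (nat_lit 4) (nat_lit 4) (nat_lit 294) (nat_lit 226) (nat_lit 200)) (XT.lf (nat_lit 0) (nat_lit 62717190657) (nat_lit 76) (nat_lit 26198853141) (nat_lit 76) (nat_lit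 17854612385) (nat_lit 3) (nat_lit 4) (nat_lit 4) (nat_lit 5) (nat_lit 4) (nat_lit 4) (nat_lit 295) (nat_lit 226) (nat_lit 199))))))))
noncomputable def xc22 : XT := (XT.nd (nat_lit 1248) (nat_lit 76) (nat_lit 0) (XT.nd (nat_lit 624) (nat_lit 76) (nat_lit 0) (XT.nd (nat_lit 312) (nat_lit 0) (nat_lit 0) (XT.nd (nat_lit 156) (nat_lit 0) (nat_lit 0) (XT.nd (nat_lit 78) (nat_lit 0) (nat_lit 0) (XT.lf (nat_lit 0) (nat_lit 72626748515) (nat_lit 76) (nat_lit 25484534997) (nat_lit 76) (nat_lit 17051844545) (nat_lit 3) (nat_lit 4) (nat_lit 4) (nat_lit 5) (nat_lit 4) (nat_lit 4) (nat_lit 296) (nat_lit 226) (nat_lit 198)) (XT.lf (nat_lit 0) (nat_lit 83258673037) (nat_lit 76) (nat_lit 24742529828) (nat_lit 76) (nat_lit 16227941510) (nat_lit 3) (nat_lit 4) (nat_lit 4) (nat_lit 5) (nat_lit 4) (nat_lit 4) (nat_lit 297) (nat_lit 226) (nat_lit 197))) (XT.nd (nat_lit 78) (nat_lit 0) (nat_lit 0) (XT.lf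 (nat_lit 0) (nat_lit 94675968219) (nat_lit 76) (nat_lit 23968440566) (nat_lit 76) (nat_lit 15378020891) (nat_lit 3) (nat_lit 4) (nat_lit 4) (nat_lit 5) (nat_lit 4) (nat_lit 4) (nat_lit 298) (nat_lit 226) (nat_lit 196)) (XT.lf (nat_lit 0) (nat_lit 106946292107) (nat_lit 76) (nat_lit 23157680016) (nat_lit 76) (nat_lit 14497046121) (nat_lit 3) (nat_lit 4) (nat_lit 4) (nat_lit 5) (nat_lit 4) (nat_lit 4) (nat_lit 299) (nat_lit 226) (nat_lit 195)))) (XT.nd (nat_lit 156) (nat_lit 0) (nat_lit 0) (XT.nd (nat_lit 78) (nat_lit 0) (nat_lit 0) (XT.lf (nat_lit 0) (nat_lit 120142357731) (nat_lit 76) (nat_lit 22305443670) (nat_lit 76) (nat_lit 13579796609) (nat_lit 3) (nat_lit 4) (nat_lit 4) (nat_lit 5) (nat_lit 4) (nat_lit 4) (nat_lit 300) (nat_lit 226) (nat_lit 194)) (XT.lf (nat_lit 0) (nat_lit 134342363999) (nat_lit 76) (nat_lit 21406681240) (nat_lit 76) (nat_lit 12620836802) (nat_lit 3) (nat_lit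 4) (nat_lit 4) (nat_lit 5) (nat_lit 4) (nat_lit 4) (nat_lit 301) (nat_lit 226) (nat_lit 193))) (XT.nd (nat_lit 78) (nat_lit 0) (nat_lit 0) (XT.lf (nat_lit 0) (nat_lit 149630459096) (nat_lit 76) (nat_lit 20456066726) (nat_lit 76) (nat_lit 11614483976) (nat_lit 3) (nat_lit 4) (nat_lit 4) (nat_lit 5) (nat_lit 4) (nat_lit 4) (nat_lit 302) (nat_lit 226) (nat_lit 192)) (XT.lf (nat_lit 0) (nat_lit 166097239142) (nat_lit 76) (nat_lit 19447966856) (nat_lit 76) (nat_lit 10554774559) (nat_lit 3) (nat_lit 4) (nat_lit 4) (nat_lit 5) (nat_lit 4) (nat_lit 4) (nat_lit 303) (nat_lit 226) (nat_lit 191))))) (XT.nd (nat_lit 312) (nat_lit 76) (nat_lit 0) (XT.nd (nat_lit 156) (nat_lit 0) (nat_lit 0) (XT.nd (nat_lit 78) (nat_lit 0) (nat_lit 0) (XT.lf (nat_lit 0) (nat_lit 183840285054) (nat_lit 76) (nat_lit 18376407705) (nat_lit 76) (nat_lit 9435428790) (nat_lit 3) (nat_lit 4) (nat_lit 4) (nat_lit 5) (nat_lit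 4) (nat_lit 4) (nat_lit 304) (nat_lit 226) (nat_lit 190)) (XT.lf (nat_lit 0) (nat_lit 202964740809) (nat_lit 76) (nat_lit 17235039294) (nat_lit 76) (nat_lit 8249813510) (nat_lit 3) (nat_lit 4) (nat_lit 4) (nat_lit 5) (nat_lit 4) (nat_lit 4) (nat_lit 305) (nat_lit 226) (nat_lit 189))) (XT.nd (nat_lit 78) (nat_lit 0) (nat_lit 0) (XT.lf (nat_lit 0) (nat_lit 223583936515) (nat_lit 76) (nat_lit 16017097957) (nat_lit 76) (nat_lit 6990902850) (nat_lit 3) (nat_lit 4) (nat_lit 4) (nat_lit 5) (nat_lit 4) (nat_lit 4) (nat_lit 306) (nat_lit 226) (nat_lit 188)) (XT.lf (nat_lit 0) (nat_lit 245820059998) (nat_lit 76) (nat_lit 14715366265) (nat_lit 76) (nat_lit 5651236600) (nat_lit 3) (nat_lit 4) (nat_lit 4) (nat_lit 5) (nat_lit 4) (nat_lit 4) (nat_lit 307) (nat_lit 226) (nat_lit 187)))) (XT.nd (nat_lit 156) (nat_lit 76) (nat_lit 0) (XT.nd (nat_lit 78) (nat_lit 0) (nat_lit 0) (XT.lf (nat_lit 0) (nat_lit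 269804880879) (nat_lit 76) (nat_lit 13322130251) (nat_lit 76) (nat_lit 4222875995) (nat_lit 3) (nat_lit 4) (nat_lit 4) (nat_lit 5) (nat_lit 4) (nat_lit 4) (nat_lit 308) (nat_lit 226) (nat_lit 186)) (XT.lf (nat_lit 0) (nat_lit 295680531430) (nat_lit 76) (nat_lit 11829133703) (nat_lit 76) (nat_lit 2697356677) (nat_lit 3) (nat_lit 4) (nat_lit 4) (nat_lit 5) (nat_lit 4) (nat_lit 4) (nat_lit 309) (nat_lit 226) (nat_lit 185))) (XT.nd (nat_lit 78) (nat_lit 76) (nat_lit 0) (XT.lf (nat_lit 0) (nat_lit 323600348840) (nat_lit 76) (nat_lit 10227529234) (nat_lit 76) (nat_lit 1065638532) (nat_lit 3) (nat_lit 4) (nat_lit 4) (nat_lit 5) (nat_lit 4) (nat_lit 4) (nat_lit 310) (nat_lit 226) (nat_lit 184)) (XT.lf (nat_lit 0) (nat_lit 660121289) (nat_lit 152) (nat_lit 7836525090) (nat_lit 76) (nat_lit 353058483114) (nat_lit 2) (nat_lit 5) (nat_lit 4) (nat_lit 5) (nat_lit 3) (nat_lit 4) (nat_lit 311) (nat_lit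 226) (nat_lit 183)))))) (XT.nd (nat_lit 624) (nat_lit 0) (nat_lit 0) (XT.nd (nat_lit 312) (nat_lit 0) (nat_lit 0) (XT.nd (nat_lit 156) (nat_lit 76) (nat_lit 0) (XT.nd (nat_lit 78) (nat_lit 0) (nat_lit 0) (XT.lf (nat_lit 0) (nat_lit 2473958392) (nat_lit 152) (nat_lit 4143976651) (nat_lit 76) (nat_lit 383731525268) (nat_lit 2) (nat_lit 5) (nat_lit 4) (nat_lit 5) (nat_lit 3) (nat_lit 4) (nat_lit 312) (nat_lit 226) (nat_lit 182)) (XT.lf (nat_lit 0) (nat_lit 4420728529) (nat_lit 152) (nat_lit 177003078) (nat_lit 76) (nat_lit 416850242405) (nat_lit 2) (nat_lit 5) (nat_lit 4) (nat_lit 5) (nat_lit 3) (nat_lit 4) (nat_lit 313) (nat_lit 226) (nat_lit 181))) (XT.nd (nat_lit 78) (nat_lit 0) (nat_lit 0) (XT.lf (nat_lit 0) (nat_lit 4223068176) (nat_lit 76) (nat_lit 2354833867) (nat_lit 152) (nat_lit 448453759343) (nat_lit 1) (nat_lit 5) (nat_lit 2) (nat_lit 5) (nat_lit 3) (nat_lit 4) (nat_lit 314)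 (nat_lit 226) (nat_lit 180)) (XT.lf (nat_lit 0) (nat_lit 8900987168) (nat_lit 152) (nat_lit 482340546176) (nat_lit 0) (nat_lit 60867286) (nat_lit 1) (nat_lit 5) (nat_lit 3) (nat_lit 4) (nat_lit 1) (nat_lit 4) (nat_lit 315) (nat_lit 226) (nat_lit 179)))) (XT.nd (nat_lit 156) (nat_lit 0) (nat_lit 0) (XT.nd (nat_lit 78) (nat_lit 0) (nat_lit 0) (XT.lf (nat_lit 0) (nat_lit 11439579704) (nat_lit 152) (nat_lit 516452371531) (nat_lit 0) (nat_lit 2581386753) (nat_lit 1) (nat_lit 5) (nat_lit 3) (nat_lit 4) (nat_lit 1) (nat_lit 4) (nat_lit 316) (nat_lit 226) (nat_lit 178)) (XT.lf (nat_lit 0) (nat_lit 14171957607) (nat_lit 152) (nat_lit 553309447872) (nat_lit 0) (nat_lit 5297030332) (nat_lit 1) (nat_lit 5) (nat_lit 3) (nat_lit 4) (nat_lit 1) (nat_lit 4) (nat_lit 317) (nat_lit 226) (nat_lit 177))) (XT.nd (nat_lit 78) (nat_lit 0) (nat_lit 0) (XT.lf (nat_lit 0) (nat_lit 17114312748) (nat_lit 152)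 (nat_lit 593130187501) (nat_lit 0) (nat_lit 8223890728) (nat_lit 1) (nat_lit 5) (nat_lit 3) (nat_lit 4) (nat_lit 1) (nat_lit 4) (nat_lit 318) (nat_lit 226) (nat_lit 176)) (XT.lf (nat_lit 0) (nat_lit 20284081303) (nat_lit 152) (nat_lit 636150565172) (nat_lit 0) (nat_lit 11379312297) (nat_lit 1) (nat_lit 5) (nat_lit 3) (nat_lit 4) (nat_lit 1) (nat_lit 4) (nat_lit 319) (nat_lit 226) (nat_lit 175))))) (XT.nd (nat_lit 33462) (nat_lit 0) (nat_lit 532) (XT.nd (nat_lit 33306) (nat_lit 0) (nat_lit 912) (XT.nd (nat_lit 78) (nat_lit 0) (nat_lit 0) (XT.lf (nat_lit 0) (nat_lit 23700047087) (nat_lit 152) (nat_lit 682625516457) (nat_lit 0) (nat_lit 14781993836) (nat_lit 1) (nat_lit 5) (nat_lit 3) (nat_lit 4) (nat_lit 1) (nat_lit 4) (nat_lit 320) (nat_lit 226) (nat_lit 174)) (XT.lf (nat_lit 0) (nat_lit 27382452861) (nat_lit 152) (nat_lit 732830448474) (nat_lit 0) (nat_lit 18452099381) (nat_lit 1) (nat_lit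 5) (nat_lit 3) (nat_lit 4) (nat_lit 1) (nat_lit 4) (nat_lit 321) (nat_lit 226) (nat_lit 173))) (XT.nd (nat_lit 78) (nat_lit 152) (nat_lit 0) (XT.lf (nat_lit 0) (nat_lit 3531294808) (nat_lit 152) (nat_lit 20770836) (nat_lit 0) (nat_lit 3531294808) (nat_lit 15) (nat_lit 5) (nat_lit 17) (nat_lit 4) (nat_lit 15) (nat_lit 4) (nat_lit 266) (nat_lit 227) (nat_lit 227)) (XT.lf (nat_lit 0) (nat_lit 8814247156) (nat_lit 152) (nat_lit 3532535028) (nat_lit 152) (nat_lit 2649191987) (nat_lit 13) (nat_lit 4) (nat_lit 15) (nat_lit 5) (nat_lit 15) (nat_lit 4) (nat_lit 267) (nat_lit 227) (nat_lit 226)))) (XT.nd (nat_lit 156) (nat_lit 228) (nat_lit 0) (XT.nd (nat_lit 78) (nat_lit 0) (nat_lit 0) (XT.lf (nat_lit 0) (nat_lit 1847655680) (nat_lit 152) (nat_lit 13828022355) (nat_lit 0) (nat_lit 227414475) (nat_lit 11) (nat_lit 5) (nat_lit 13) (nat_lit 4) (nat_lit 11) (nat_lit 4) (nat_lit 268) (nat_lit 227)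 (nat_lit 225)) (XT.lf (nat_lit 0) (nat_lit 6511413979) (nat_lit 152) (nat_lit 6205162614) (nat_lit 0) (nat_lit 4169911554) (nat_lit 11) (nat_lit 5) (nat_lit 13) (nat_lit 4) (nat_lit 11) (nat_lit 4) (nat_lit 269) (nat_lit 227) (nat_lit 224))) (XT.nd (nat_lit 78) (nat_lit 76) (nat_lit 0) (XT.lf (nat_lit 0) (nat_lit 1678541879) (nat_lit 152) (nat_lit 9645682989) (nat_lit 152) (nat_lit 6636346101) (nat_lit 9) (nat_lit 4) (nat_lit 11) (nat_lit 5) (nat_lit 11) (nat_lit 4) (nat_lit 270) (nat_lit 227) (nat_lit 223)) (XT.nd (nat_lit 78) (nat_lit 76) (nat_lit 0) (XT.lf (nat_lit 0) (nat_lit 10029320431) (nat_lit 152) (nat_lit 6363098548) (nat_lit 152) (nat_lit 2735396417) (nat_lit 9) (nat_lit 4) (nat_lit 11) (nat_lit 5) (nat_lit 11) (nat_lit 4) (nat_lit 271) (nat_lit 227) (nat_lit 222)) (XT.lf (nat_lit 0) (nat_lit 1205930676) (nat_lit 228) (nat_lit 1728104654) (nat_lit 76) (nat_lit 17465134740)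 (nat_lit 8) (nat_lit 5) (nat_lit 11) (nat_lit 5) (nat_lit 9) (nat_lit 4) (nat_lit 272) (nat_lit 227) (nat_lit 221))))))))
noncomputable def xc23 : XT := (XT.nd (nat_lit 1326) (nat_lit 0) (nat_lit 0) (XT.nd (nat_lit 624) (nat_lit 76) (nat_lit 0) (XT.nd (nat_lit 312) (nat_lit 152) (nat_lit 0) (XT.nd (nat_lit 156) (nat_lit 76) (nat_lit 0) (XT.nd (nat_lit 78) (nat_lit 0) (nat_lit 0) (XT.lf (nat_lit 0) (nat_lit 5266836278) (nat_lit 152) (nat_lit 15747081220) (nat_lit 0) (nat_lit 761682878) (nat_lit 7) (nat_lit 5) (nat_lit 9) (nat_lit 4) (nat_lit 7) (nat_lit 4) (nat_lit 273) (nat_lit 227) (nat_lit 220)) (XT.lf (nat_lit 0) (nat_lit 9533286958) (nat_lit 152) (nat_lit 9174763284) (nat_lit 0) (nat_lit 4560630447) (nat_lit 7) (nat_lit 5) (nat_lit 9) (nat_lit 4) (nat_lit 7) (nat_lit 4) (nat_lit 274) (nat_lit 227) (nat_lit 219))) (XT.nd (nat_lit 78) (nat_lit 76) (nat_lit 0) (XT.lf (nat_lit 0) (nat_lit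 13956427289) (nat_lit 152) (nat_lit 2383640982) (nat_lit 0) (nat_lit 8550897526) (nat_lit 7) (nat_lit 5) (nat_lit 9) (nat_lit 4) (nat_lit 7) (nat_lit 4) (nat_lit 275) (nat_lit 227) (nat_lit 218)) (XT.lf (nat_lit 0) (nat_lit 4820825909) (nat_lit 76) (nat_lit 13816909164) (nat_lit 76) (nat_lit 8010570836) (nat_lit 6) (nat_lit 4) (nat_lit 7) (nat_lit 5) (nat_lit 7) (nat_lit 4) (nat_lit 276) (nat_lit 227) (nat_lit 217)))) (XT.nd (nat_lit 156) (nat_lit 152) (nat_lit 0) (XT.nd (nat_lit 78) (nat_lit 0) (nat_lit 0) (XT.lf (nat_lit 0) (nat_lit 12414880272) (nat_lit 76) (nat_lit 11157656367) (nat_lit 76) (nat_lit 4980198996) (nat_lit 6) (nat_lit 4) (nat_lit 7) (nat_lit 5) (nat_lit 7) (nat_lit 4) (nat_lit 277) (nat_lit 227) (nat_lit 216)) (XT.lf (nat_lit 0) (nat_lit 20364709974) (nat_lit 76) (nat_lit 8386919456) (nat_lit 76) (nat_lit 1865833342) (nat_lit 6) (nat_lit 4) (nat_lit 7) (nat_lit 5)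 (nat_lit 7) (nat_lit 4) (nat_lit 278) (nat_lit 227) (nat_lit 215))) (XT.nd (nat_lit 78) (nat_lit 76) (nat_lit 0) (XT.lf (nat_lit 0) (nat_lit 1307741776) (nat_lit 152) (nat_lit 4158390234) (nat_lit 76) (nat_lit 27387536099) (nat_lit 5) (nat_lit 5) (nat_lit 7) (nat_lit 5) (nat_lit 6) (nat_lit 4) (nat_lit 279) (nat_lit 227) (nat_lit 214)) (XT.lf (nat_lit 0) (nat_lit 2243337451) (nat_lit 76) (nat_lit 2330908689) (nat_lit 152) (nat_lit 30698115335) (nat_lit 4) (nat_lit 5) (nat_lit 5) (nat_lit 5) (nat_lit 6) (nat_lit 4) (nat_lit 280) (nat_lit 227) (nat_lit 213))))) (XT.nd (nat_lit 312) (nat_lit 76) (nat_lit 0) (XT.nd (nat_lit 156) (nat_lit 0) (nat_lit 0) (XT.nd (nat_lit 78) (nat_lit 0) (nat_lit 0) (XT.lf (nat_lit 0) (nat_lit 8065787809) (nat_lit 152) (nat_lit 28809058221) (nat_lit 0) (nat_lit 1011834749) (nat_lit 4) (nat_lit 5) (nat_lit 6) (nat_lit 4) (nat_lit 4) (nat_lit 4) (nat_lit 281)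 (nat_lit 227) (nat_lit 212)) (XT.lf (nat_lit 0) (nat_lit 11758937134) (nat_lit 152) (nat_lit 24490952976) (nat_lit 0) (nat_lit 4464434184) (nat_lit 4) (nat_lit 5) (nat_lit 6) (nat_lit 4) (nat_lit 4) (nat_lit 4) (nat_lit 282) (nat_lit 227) (nat_lit 211))) (XT.nd (nat_lit 78) (nat_lit 0) (nat_lit 0) (XT.lf (nat_lit 0) (nat_lit 15639187428) (nat_lit 152) (nat_lit 20012727502) (nat_lit 0) (nat_lit 8121953098) (nat_lit 4) (nat_lit 5) (nat_lit 6) (nat_lit 4) (nat_lit 4) (nat_lit 4) (nat_lit 283) (nat_lit 227) (nat_lit 210)) (XT.lf (nat_lit 0) (nat_lit 19729532766) (nat_lit 152) (nat_lit 15347844166) (nat_lit 0) (nat_lit 12006065678) (nat_lit 4) (nat_lit 5) (nat_lit 6) (nat_lit 4) (nat_lit 4) (nat_lit 4) (nat_lit 284) (nat_lit 227) (nat_lit 209)))) (XT.nd (nat_lit 156) (nat_lit 76) (nat_lit 0) (XT.nd (nat_lit 78) (nat_lit 0) (nat_lit 0) (XT.lf (nat_lit 0) (nat_lit 24054212233) (nat_lit 152)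 (nat_lit 10468659215) (nat_lit 0) (nat_lit 16139788887) (nat_lit 4) (nat_lit 5) (nat_lit 6) (nat_lit 4) (nat_lit 4) (nat_lit 4) (nat_lit 285) (nat_lit 227) (nat_lit 208)) (XT.lf (nat_lit 0) (nat_lit 28638853559) (nat_lit 152) (nat_lit 5346258961) (nat_lit 0) (nat_lit 20547618862) (nat_lit 4) (nat_lit 5) (nat_lit 6) (nat_lit 4) (nat_lit 4) (nat_lit 4) (nat_lit 286) (nat_lit 227) (nat_lit 207))) (XT.nd (nat_lit 78) (nat_lit 0) (nat_lit 0) (XT.lf (nat_lit 0) (nat_lit 51355249) (nat_lit 76) (nat_lit 33460071538) (nat_lit 76) (nat_lit 25205122628) (nat_lit 3) (nat_lit 4) (nat_lit 4) (nat_lit 5) (nat_lit 4) (nat_lit 4) (nat_lit 287) (nat_lit 227) (nat_lit 206)) (XT.nd (nat_lit 78) (nat_lit 0) (nat_lit 0) (XT.lf (nat_lit 0) (nat_lit 5941390060) (nat_lit 76) (nat_lit 32849767967) (nat_lit 76) (nat_lit 24443231823) (nat_lit 3) (nat_lit 4) (nat_lit 4) (nat_lit 5) (nat_lit 4) (nat_lit 4) (nat_lit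 288) (nat_lit 227) (nat_lit 205)) (XT.lf (nat_lit 0) (nat_lit 12181977913) (nat_lit 76) (nat_lit 32241126677) (nat_lit 76) (nat_lit 23694231982) (nat_lit 3) (nat_lit 4) (nat_lit 4) (nat_lit 5) (nat_lit 4) (nat_lit 4) (nat_lit 289) (nat_lit 227) (nat_lit 204))))))) (XT.nd (nat_lit 624) (nat_lit 0) (nat_lit 0) (XT.nd (nat_lit 312) (nat_lit 0) (nat_lit 0) (XT.nd (nat_lit 156) (nat_lit 0) (nat_lit 0) (XT.nd (nat_lit 78) (nat_lit 0) (nat_lit 0) (XT.lf (nat_lit 0) (nat_lit 18810100071) (nat_lit 76) (nat_lit 31630540905) (nat_lit 76) (nat_lit 22953684589) (nat_lit 3) (nat_lit 4) (nat_lit 4) (nat_lit 5) (nat_lit 4) (nat_lit 4) (nat_lit 290) (nat_lit 227) (nat_lit 203)) (XT.lf (nat_lit 0) (nat_lit 25865034294) (nat_lit 76) (nat_lit 31014392364) (nat_lit 76) (nat_lit 22217201214) (nat_lit 3) (nat_lit 4) (nat_lit 4) (nat_lit 5) (nat_lit 4) (nat_lit 4) (nat_lit 291) (nat_lit 227) (nat_lit 202)))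 (XT.nd (nat_lit 78) (nat_lit 0) (nat_lit 0) (XT.lf (nat_lit 0) (nat_lit 33388587601) (nat_lit 76) (nat_lit 30389029803) (nat_lit 76) (nat_lit 21480417511) (nat_lit 3) (nat_lit 4) (nat_lit 4) (nat_lit 5) (nat_lit 4) (nat_lit 4) (nat_lit 292) (nat_lit 227) (nat_lit 201)) (XT.lf (nat_lit 0) (nat_lit 41425344010) (nat_lit 76) (nat_lit 29750747372) (nat_lit 76) (nat_lit 20738967355) (nat_lit 3) (nat_lit 4) (nat_lit 4) (nat_lit 5) (nat_lit 4) (nat_lit 4) (nat_lit 293) (nat_lit 227) (nat_lit 200)))) (XT.nd (nat_lit 156) (nat_lit 0) (nat_lit 0) (XT.nd (nat_lit 78) (nat_lit 0) (nat_lit 0) (XT.lf (nat_lit 0) (nat_lit 50022928745) (nat_lit 76) (nat_lit 29095762654) (nat_lit 76) (nat_lit 19988456966) (nat_lit 3) (nat_lit 4) (nat_lit 4) (nat_lit 5) (nat_lit 4) (nat_lit 4) (nat_lit 294) (nat_lit 227) (nat_lit 199)) (XT.lf (nat_lit 0) (nat_lit 59232290456) (nat_lit 76) (nat_lit 28420194260) (nat_lit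 76) (nat_lit 19224438877) (nat_lit 3) (nat_lit 4) (nat_lit 4) (nat_lit 5) (nat_lit 4) (nat_lit 4) (nat_lit 295) (nat_lit 227) (nat_lit 198))) (XT.nd (nat_lit 78) (nat_lit 0) (nat_lit 0) (XT.lf (nat_lit 0) (nat_lit 69108003139) (nat_lit 76) (nat_lit 27720038821) (nat_lit 76) (nat_lit 18442385571) (nat_lit 3) (nat_lit 4) (nat_lit 4) (nat_lit 5) (nat_lit 4) (nat_lit 4) (nat_lit 296) (nat_lit 227) (nat_lit 197)) (XT.lf (nat_lit 0) (nat_lit 79708589535) (nat_lit 76) (nat_lit 26991147267) (nat_lit 76) (nat_lit 17637662661) (nat_lit 3) (nat_lit 4) (nat_lit 4) (nat_lit 5) (nat_lit 4) (nat_lit 4) (nat_lit 297) (nat_lit 227) (nat_lit 196))))) (XT.nd (nat_lit 312) (nat_lit 0) (nat_lit 0) (XT.nd (nat_lit 156) (nat_lit 0) (nat_lit 0) (XT.nd (nat_lit 78) (nat_lit 0) (nat_lit 0) (XT.lf (nat_lit 0) (nat_lit 91096867934) (nat_lit 76) (nat_lit 26229200242) (nat_lit 76) (nat_lit 16805501416) (nat_lit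 3) (nat_lit 4) (nat_lit 4) (nat_lit 5) (nat_lit 4) (nat_lit 4) (nat_lit 298) (nat_lit 227) (nat_lit 195)) (XT.lf (nat_lit 0) (nat_lit 103340324430) (nat_lit 76) (nat_lit 25429682504) (nat_lit 76) (nat_lit 15940970511) (nat_lit 3) (nat_lit 4) (nat_lit 4) (nat_lit 5) (nat_lit 4) (nat_lit 4) (nat_lit 299) (nat_lit 227) (nat_lit 194))) (XT.nd (nat_lit 78) (nat_lit 0) (nat_lit 0) (XT.lf (nat_lit 0) (nat_lit 116511512840) (nat_lit 76) (nat_lit 24587856170) (nat_lit 76) (nat_lit 15038946800) (nat_lit 3) (nat_lit 4) (nat_lit 4) (nat_lit 5) (nat_lit 4) (nat_lit 4) (nat_lit 300) (nat_lit 227) (nat_lit 193)) (XT.lf (nat_lit 0) (nat_lit 130688484650) (nat_lit 76) (nat_lit 23698732639) (nat_lit 76) (nat_lit 14094084958) (nat_lit 3) (nat_lit 4) (nat_lit 4) (nat_lit 5) (nat_lit 4) (nat_lit 4) (nat_lit 301) (nat_lit 227) (nat_lit 192)))) (XT.nd (nat_lit 156) (nat_lit 0) (nat_lit 0) (XT.nd (nat_lit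 78) (nat_lit 0) (nat_lit 0) (XT.lf (nat_lit 0) (nat_lit 145955251545) (nat_lit 76) (nat_lit 22757043031) (nat_lit 76) (nat_lit 13100785802) (nat_lit 3) (nat_lit 4) (nat_lit 4) (nat_lit 5) (nat_lit 4) (nat_lit 4) (nat_lit 302) (nat_lit 227) (nat_lit 191)) (XT.lf (nat_lit 0) (nat_lit 162402283256) (nat_lit 76) (nat_lit 21757206963) (nat_lit 76) (nat_lit 12053163116) (nat_lit 3) (nat_lit 4) (nat_lit 4) (nat_lit 5) (nat_lit 4) (nat_lit 4) (nat_lit 303) (nat_lit 227) (nat_lit 190))) (XT.nd (nat_lit 78) (nat_lit 0) (nat_lit 0) (XT.lf (nat_lit 0) (nat_lit 180127043673) (nat_lit 76) (nat_lit 20693299482) (nat_lit 76) (nat_lit 10945008766) (nat_lit 3) (nat_lit 4) (nat_lit 4) (nat_lit 5) (nat_lit 4) (nat_lit 4) (nat_lit 304) (nat_lit 227) (nat_lit 189)) (XT.nd (nat_lit 78) (nat_lit 0) (nat_lit 0) (XT.lf (nat_lit 0) (nat_lit 199234568414) (nat_lit 76) (nat_lit 19559015949) (nat_lit 76) (nat_lit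 9769755910) (nat_lit 3) (nat_lit 4) (nat_lit 4) (nat_lit 5) (nat_lit 4) (nat_lit 4) (nat_lit 305) (nat_lit 227) (nat_lit 188)) (XT.lf (nat_lit 0) (nat_lit 219838087254) (nat_lit 76) (nat_lit 18347634685) (nat_lit 76) (nat_lit 8520440088) (nat_lit 3) (nat_lit 4) (nat_lit 4) (nat_lit 5) (nat_lit 4) (nat_lit 4) (nat_lit 306) (nat_lit 227) (nat_lit 187))))))))
noncomputable def xc24 : XT := (XT.nd (nat_lit 34320) (nat_lit 0) (nat_lit 228) (XT.nd (nat_lit 624) (nat_lit 0) (nat_lit 0) (XT.nd (nat_lit 312) (nat_lit 152) (nat_lit 0) (XT.nd (nat_lit 156) (nat_lit 0) (nat_lit 0) (XT.nd (nat_lit 78) (nat_lit 0) (nat_lit 0) (XT.lf (nat_lit 0) (nat_lit 242059695122) (nat_lit 76) (nat_lit 17051977134) (nat_lit 76) (nat_lit 7189657946) (nat_lit 3) (nat_lit 4) (nat_lit 4) (nat_lit 5) (nat_lit 4) (nat_lit 4) (nat_lit 307) (nat_lit 227) (nat_lit 186)) (XT.lf (nat_lit 0) (nat_lit 266031075618) (nat_lit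 76) (nat_lit 15664365326) (nat_lit 76) (nat_lit 5769523368) (nat_lit 3) (nat_lit 4) (nat_lit 4) (nat_lit 5) (nat_lit 4) (nat_lit 4) (nat_lit 308) (nat_lit 227) (nat_lit 185))) (XT.nd (nat_lit 78) (nat_lit 0) (nat_lit 0) (XT.lf (nat_lit 0) (nat_lit 291894281368) (nat_lit 76) (nat_lit 14176576375) (nat_lit 76) (nat_lit 4251620742) (nat_lit 3) (nat_lit 4) (nat_lit 4) (nat_lit 5) (nat_lit 4) (nat_lit 4) (nat_lit 309) (nat_lit 227) (nat_lit 184)) (XT.lf (nat_lit 0) (nat_lit 319802575814) (nat_lit 76) (nat_lit 12579793754) (nat_lit 76) (nat_lit 2626955089) (nat_lit 3) (nat_lit 4) (nat_lit 4) (nat_lit 5) (nat_lit 4) (nat_lit 4) (nat_lit 310) (nat_lit 227) (nat_lit 183)))) (XT.nd (nat_lit 156) (nat_lit 76) (nat_lit 0) (XT.nd (nat_lit 78) (nat_lit 76) (nat_lit 0) (XT.lf (nat_lit 0) (nat_lit 349921341441) (nat_lit 76) (nat_lit 10864555049) (nat_lit 76) (nat_lit 885898761) (nat_lit 3) (nat_lit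 4) (nat_lit 4) (nat_lit 5) (nat_lit 4) (nat_lit 4) (nat_lit 311) (nat_lit 227) (nat_lit 182)) (XT.lf (nat_lit 0) (nat_lit 950439781) (nat_lit 152) (nat_lit 8054159942) (nat_lit 76) (nat_lit 381462523883) (nat_lit 2) (nat_lit 5) (nat_lit 4) (nat_lit 5) (nat_lit 3) (nat_lit 4) (nat_lit 312) (nat_lit 227) (nat_lit 181))) (XT.nd (nat_lit 78) (nat_lit 76) (nat_lit 0) (XT.lf (nat_lit 0) (nat_lit 2891790609) (nat_lit 152) (nat_lit 4096525195) (nat_lit 76) (nat_lit 414577604807) (nat_lit 2) (nat_lit 5) (nat_lit 4) (nat_lit 5) (nat_lit 3) (nat_lit 4) (nat_lit 313) (nat_lit 227) (nat_lit 180)) (XT.lf (nat_lit 0) (nat_lit 165015984) (nat_lit 76) (nat_lit 4815572693) (nat_lit 152) (nat_lit 450172449506) (nat_lit 1) (nat_lit 5) (nat_lit 2) (nat_lit 5) (nat_lit 3) (nat_lit 4) (nat_lit 314) (nat_lit 227) (nat_lit 179))))) (XT.nd (nat_lit 312) (nat_lit 0) (nat_lit 0) (XT.nd (nat_lit 156) (nat_lit 0)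 (nat_lit 0) (XT.nd (nat_lit 78) (nat_lit 0) (nat_lit 0) (XT.lf (nat_lit 0) (nat_lit 4896561808) (nat_lit 76) (nat_lit 2401354941) (nat_lit 152) (nat_lit 484126159110) (nat_lit 1) (nat_lit 5) (nat_lit 2) (nat_lit 5) (nat_lit 3) (nat_lit 4) (nat_lit 315) (nat_lit 227) (nat_lit 178)) (XT.lf (nat_lit 0) (nat_lit 9794545274) (nat_lit 152) (nat_lit 520609686448) (nat_lit 0) (nat_lit 192889492) (nat_lit 1) (nat_lit 5) (nat_lit 3) (nat_lit 4) (nat_lit 1) (nat_lit 4) (nat_lit 316) (nat_lit 227) (nat_lit 177))) (XT.nd (nat_lit 78) (nat_lit 0) (nat_lit 0) (XT.lf (nat_lit 0) (nat_lit 12522782314) (nat_lit 152) (nat_lit 557474021049) (nat_lit 0) (nat_lit 2905631788) (nat_lit 1) (nat_lit 5) (nat_lit 3) (nat_lit 4) (nat_lit 1) (nat_lit 4) (nat_lit 317) (nat_lit 227) (nat_lit 176)) (XT.lf (nat_lit 0) (nat_lit 15461303322) (nat_lit 152) (nat_lit 597301481289) (nat_lit 0) (nat_lit 5829805810) (nat_lit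 1) (nat_lit 5) (nat_lit 3) (nat_lit 4) (nat_lit 1) (nat_lit 4) (nat_lit 318) (nat_lit 227) (nat_lit 175)))) (XT.nd (nat_lit 33228) (nat_lit 0) (nat_lit 1064) (XT.nd (nat_lit 78) (nat_lit 0) (nat_lit 0) (XT.lf (nat_lit 0) (nat_lit 18627521754) (nat_lit 152) (nat_lit 640328081749) (nat_lit 0) (nat_lit 8982739996) (nat_lit 1) (nat_lit 5) (nat_lit 3) (nat_lit 4) (nat_lit 1) (nat_lit 4) (nat_lit 319) (nat_lit 227) (nat_lit 174)) (XT.lf (nat_lit 0) (nat_lit 22040200387) (nat_lit 152) (nat_lit 686808794875) (nat_lit 0) (nat_lit 12383118402) (nat_lit 1) (nat_lit 5) (nat_lit 3) (nat_lit 4) (nat_lit 1) (nat_lit 4) (nat_lit 320) (nat_lit 227) (nat_lit 173))) (XT.nd (nat_lit 78) (nat_lit 152) (nat_lit 0) (XT.lf (nat_lit 0) (nat_lit 4560995217) (nat_lit 152) (nat_lit 895845062) (nat_lit 152) (nat_lit 895845062) (nat_lit 17) (nat_lit 4) (nat_lit 19) (nat_lit 5) (nat_lit 19) (nat_lit 4) (nat_lit 264)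 (nat_lit 228) (nat_lit 228)) (XT.lf (nat_lit 0) (nat_lit 2981348859) (nat_lit 152) (nat_lit 8398326450) (nat_lit 0) (nat_lit 2027338374) (nat_lit 15) (nat_lit 5) (nat_lit 17) (nat_lit 4) (nat_lit 15) (nat_lit 4) (nat_lit 265) (nat_lit 228) (nat_lit 227)))))) (XT.nd (nat_lit 624) (nat_lit 228) (nat_lit 0) (XT.nd (nat_lit 312) (nat_lit 304) (nat_lit 0) (XT.nd (nat_lit 156) (nat_lit 152) (nat_lit 0) (XT.nd (nat_lit 78) (nat_lit 152) (nat_lit 0) (XT.lf (nat_lit 0) (nat_lit 7876458816) (nat_lit 152) (nat_lit 258680944) (nat_lit 0) (nat_lit 6039105290) (nat_lit 15) (nat_lit 5) (nat_lit 17) (nat_lit 4) (nat_lit 15) (nat_lit 4) (nat_lit 266) (nat_lit 228) (nat_lit 226)) (XT.lf (nat_lit 0) (nat_lit 8382225617) (nat_lit 152) (nat_lit 4641920249) (nat_lit 152) (nat_lit 1986656500) (nat_lit 13) (nat_lit 4) (nat_lit 15) (nat_lit 5) (nat_lit 15) (nat_lit 4) (nat_lit 267) (nat_lit 228) (nat_lit 225)))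 (XT.nd (nat_lit 78) (nat_lit 0) (nat_lit 0) (XT.lf (nat_lit 0) (nat_lit 1403208360) (nat_lit 76) (nat_lit 945960610) (nat_lit 152) (nat_lit 13575647582) (nat_lit 11) (nat_lit 5) (nat_lit 12) (nat_lit 5) (nat_lit 13) (nat_lit 4) (nat_lit 268) (nat_lit 228) (nat_lit 224)) (XT.lf (nat_lit 0) (nat_lit 6877843358) (nat_lit 152) (nat_lit 7077588898) (nat_lit 0) (nat_lit 2959925056) (nat_lit 11) (nat_lit 5) (nat_lit 13) (nat_lit 4) (nat_lit 11) (nat_lit 4) (nat_lit 269) (nat_lit 228) (nat_lit 223)))) (XT.nd (nat_lit 156) (nat_lit 152) (nat_lit 0) (XT.nd (nat_lit 78) (nat_lit 0) (nat_lit 0) (XT.lf (nat_lit 0) (nat_lit 592073734) (nat_lit 152) (nat_lit 10970215093) (nat_lit 152) (nat_lit 6433931548) (nat_lit 9) (nat_lit 4) (nat_lit 11) (nat_lit 5) (nat_lit 11) (nat_lit 4) (nat_lit 270) (nat_lit 228) (nat_lit 222)) (XT.lf (nat_lit 0) (nat_lit 8771374964) (nat_lit 152) (nat_lit 7753280170) (nat_lit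 152) (nat_lit 2644436215) (nat_lit 9) (nat_lit 4) (nat_lit 11) (nat_lit 5) (nat_lit 11) (nat_lit 4) (nat_lit 271) (nat_lit 228) (nat_lit 221))) (XT.nd (nat_lit 78) (nat_lit 76) (nat_lit 0) (XT.lf (nat_lit 0) (nat_lit 1194084106) (nat_lit 228) (nat_lit 3191120065) (nat_lit 76) (nat_lit 16060461173) (nat_lit 8) (nat_lit 5) (nat_lit 11) (nat_lit 5) (nat_lit 9) (nat_lit 4) (nat_lit 272) (nat_lit 228) (nat_lit 220)) (XT.lf (nat_lit 0) (nat_lit 4374712039) (nat_lit 76) (nat_lit 749474687) (nat_lit 152) (nat_lit 16704722733) (nat_lit 7) (nat_lit 5) (nat_lit 8) (nat_lit 5) (nat_lit 9) (nat_lit 4) (nat_lit 273) (nat_lit 228) (nat_lit 219))))) (XT.nd (nat_lit 312) (nat_lit 152) (nat_lit 0) (XT.nd (nat_lit 156) (nat_lit 76) (nat_lit 0) (XT.nd (nat_lit 78) (nat_lit 0) (nat_lit 0) (XT.lf (nat_lit 0) (nat_lit 9290173312) (nat_lit 152) (nat_lit 11017765136) (nat_lit 0) (nat_lit 3019327917) (nat_lit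 7) (nat_lit 5) (nat_lit 9) (nat_lit 4) (nat_lit 7) (nat_lit 4) (nat_lit 274) (nat_lit 228) (nat_lit 218)) (XT.lf (nat_lit 0) (nat_lit 13631125963) (nat_lit 152) (nat_lit 4363297511) (nat_lit 0) (nat_lit 6959472002) (nat_lit 7) (nat_lit 5) (nat_lit 9) (nat_lit 4) (nat_lit 7) (nat_lit 4) (nat_lit 275) (nat_lit 228) (nat_lit 217))) (XT.nd (nat_lit 78) (nat_lit 0) (nat_lit 0) (XT.lf (nat_lit 0) (nat_lit 2644997162) (nat_lit 76) (nat_lit 15557366098) (nat_lit 76) (nat_lit 8514593095) (nat_lit 6) (nat_lit 4) (nat_lit 7) (nat_lit 5) (nat_lit 7) (nat_lit 4) (nat_lit 276) (nat_lit 228) (nat_lit 216)) (XT.lf (nat_lit 0) (nat_lit 10118018347) (nat_lit 76) (nat_lit 12946794123) (nat_lit 76) (nat_lit 5560392376) (nat_lit 6) (nat_lit 4) (nat_lit 7) (nat_lit 5) (nat_lit 7) (nat_lit 4) (nat_lit 277) (nat_lit 228) (nat_lit 215)))) (XT.nd (nat_lit 156) (nat_lit 76) (nat_lit 0) (XT.nd (nat_lit 78) (nat_lit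 76) (nat_lit 0) (XT.lf (nat_lit 0) (nat_lit 17955780291) (nat_lit 76) (nat_lit 10221132048) (nat_lit 76) (nat_lit 2516555539) (nat_lit 6) (nat_lit 4) (nat_lit 7) (nat_lit 5) (nat_lit 7) (nat_lit 4) (nat_lit 278) (nat_lit 228) (nat_lit 214)) (XT.lf (nat_lit 0) (nat_lit 614632444) (nat_lit 152) (nat_lit 6739186259) (nat_lit 76) (nat_lit 25579687449) (nat_lit 5) (nat_lit 5) (nat_lit 7) (nat_lit 5) (nat_lit 6) (nat_lit 4) (nat_lit 279) (nat_lit 228) (nat_lit 213))) (XT.nd (nat_lit 78) (nat_lit 76) (nat_lit 0) (XT.lf (nat_lit 0) (nat_lit 3787580256) (nat_lit 152) (nat_lit 507426819) (nat_lit 76) (nat_lit 31062022345) (nat_lit 5) (nat_lit 5) (nat_lit 7) (nat_lit 5) (nat_lit 6) (nat_lit 4) (nat_lit 280) (nat_lit 228) (nat_lit 212)) (XT.nd (nat_lit 78) (nat_lit 0) (nat_lit 0) (XT.lf (nat_lit 0) (nat_lit 6233315175) (nat_lit 76) (nat_lit 965640387) (nat_lit 152) (nat_lit 30776542287) (nat_lit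 4) (nat_lit 5) (nat_lit 5) (nat_lit 5) (nat_lit 6) (nat_lit 4) (nat_lit 281) (nat_lit 228) (nat_lit 211)) (XT.lf (nat_lit 0) (nat_lit 10824936719) (nat_lit 152) (nat_lit 27498101170) (nat_lit 0) (nat_lit 2483592264) (nat_lit 4) (nat_lit 5) (nat_lit 6) (nat_lit 4) (nat_lit 4) (nat_lit 4) (nat_lit 282) (nat_lit 228) (nat_lit 210))))))))
noncomputable def xc25 : XT := (XT.nd (nat_lit 1248) (nat_lit 152) (nat_lit 0) (XT.nd (nat_lit 624) (nat_lit 0) (nat_lit 0) (XT.nd (nat_lit 312) (nat_lit 76) (nat_lit 0) (XT.nd (nat_lit 156) (nat_lit 0) (nat_lit 0) (XT.nd (nat_lit 78) (nat_lit 0) (nat_lit 0) (XT.lf (nat_lit 0) (nat_lit 14656953851) (nat_lit 152) (nat_lit 23102375780) (nat_lit 0) (nat_lit 6109376636) (nat_lit 4) (nat_lit 5) (nat_lit 6) (nat_lit 4) (nat_lit 4) (nat_lit 4) (nat_lit 283) (nat_lit 228) (nat_lit 209)) (XT.lf (nat_lit 0) (nat_lit 18702638853) (nat_lit 152) (nat_lit 18513881412)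 (nat_lit 0) (nat_lit 9964105381) (nat_lit 4) (nat_lit 5) (nat_lit 6) (nat_lit 4) (nat_lit 4) (nat_lit 4) (nat_lit 284) (nat_lit 228) (nat_lit 208))) (XT.nd (nat_lit 78) (nat_lit 0) (nat_lit 0) (XT.lf (nat_lit 0) (nat_lit 22985966158) (nat_lit 152) (nat_lit 13705426986) (nat_lit 0) (nat_lit 14070621335) (nat_lit 4) (nat_lit 5) (nat_lit 6) (nat_lit 4) (nat_lit 4) (nat_lit 4) (nat_lit 285) (nat_lit 228) (nat_lit 207)) (XT.lf (nat_lit 0) (nat_lit 27532318444) (nat_lit 152) (nat_lit 8648517958) (nat_lit 0) (nat_lit 18453259407) (nat_lit 4) (nat_lit 5) (nat_lit 6) (nat_lit 4) (nat_lit 4) (nat_lit 4) (nat_lit 286) (nat_lit 228) (nat_lit 206)))) (XT.nd (nat_lit 156) (nat_lit 0) (nat_lit 0) (XT.nd (nat_lit 78) (nat_lit 76) (nat_lit 0) (XT.lf (nat_lit 0) (nat_lit 32368637058) (nat_lit 152) (nat_lit 3313187461) (nat_lit 0) (nat_lit 23137990788) (nat_lit 4) (nat_lit 5) (nat_lit 6) (nat_lit 4) (nat_lit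 4) (nat_lit 4) (nat_lit 287) (nat_lit 228) (nat_lit 205)) (XT.lf (nat_lit 0) (nat_lit 2409293725) (nat_lit 76) (nat_lit 35151903770) (nat_lit 76) (nat_lit 25780898948) (nat_lit 3) (nat_lit 4) (nat_lit 4) (nat_lit 5) (nat_lit 4) (nat_lit 4) (nat_lit 288) (nat_lit 228) (nat_lit 204))) (XT.nd (nat_lit 78) (nat_lit 0) (nat_lit 0) (XT.lf (nat_lit 0) (nat_lit 8596173538) (nat_lit 76) (nat_lit 34565736913) (nat_lit 76) (nat_lit 25064770471) (nat_lit 3) (nat_lit 4) (nat_lit 4) (nat_lit 5) (nat_lit 4) (nat_lit 4) (nat_lit 289) (nat_lit 228) (nat_lit 203)) (XT.lf (nat_lit 0) (nat_lit 15174566029) (nat_lit 76) (nat_lit 33975960800) (nat_lit 76) (nat_lit 24354659524) (nat_lit 3) (nat_lit 4) (nat_lit 4) (nat_lit 5) (nat_lit 4) (nat_lit 4) (nat_lit 290) (nat_lit 228) (nat_lit 202))))) (XT.nd (nat_lit 312) (nat_lit 0) (nat_lit 0) (XT.nd (nat_lit 156) (nat_lit 0) (nat_lit 0) (XT.nd (nat_lit 78) (nat_lit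 0) (nat_lit 0) (XT.lf (nat_lit 0) (nat_lit 22183454264) (nat_lit 76) (nat_lit 33379080463) (nat_lit 76) (nat_lit 23646358045) (nat_lit 3) (nat_lit 4) (nat_lit 4) (nat_lit 5) (nat_lit 4) (nat_lit 4) (nat_lit 291) (nat_lit 228) (nat_lit 201)) (XT.lf (nat_lit 0) (nat_lit 29664372397) (nat_lit 76) (nat_lit 32771558832) (nat_lit 76) (nat_lit 22935668689) (nat_lit 3) (nat_lit 4) (nat_lit 4) (nat_lit 5) (nat_lit 4) (nat_lit 4) (nat_lit 292) (nat_lit 228) (nat_lit 200))) (XT.nd (nat_lit 78) (nat_lit 0) (nat_lit 0) (XT.lf (nat_lit 0) (nat_lit 37661651793) (nat_lit 76) (nat_lit 32149795780) (nat_lit 76) (nat_lit 22218379966) (nat_lit 3) (nat_lit 4) (nat_lit 4) (nat_lit 5) (nat_lit 4) (nat_lit 4) (nat_lit 293) (nat_lit 228) (nat_lit 199)) (XT.lf (nat_lit 0) (nat_lit 46222683738) (nat_lit 76) (nat_lit 31510106784) (nat_lit 76) (nat_lit 21490241275) (nat_lit 3) (nat_lit 4) (nat_lit 4) (nat_lit 5)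 (nat_lit 4) (nat_lit 4) (nat_lit 294) (nat_lit 228) (nat_lit 198)))) (XT.nd (nat_lit 156) (nat_lit 0) (nat_lit 0) (XT.nd (nat_lit 78) (nat_lit 0) (nat_lit 0) (XT.lf (nat_lit 0) (nat_lit 55398200274) (nat_lit 76) (nat_lit 30848701095) (nat_lit 76) (nat_lit 20746937719) (nat_lit 3) (nat_lit 4) (nat_lit 4) (nat_lit 5) (nat_lit 4) (nat_lit 4) (nat_lit 295) (nat_lit 228) (nat_lit 197)) (XT.lf (nat_lit 0) (nat_lit 65242574831) (nat_lit 76) (nat_lit 30161659271) (nat_lit 76) (nat_lit 19984064539) (nat_lit 3) (nat_lit 4) (nat_lit 4) (nat_lit 5) (nat_lit 4) (nat_lit 4) (nat_lit 296) (nat_lit 228) (nat_lit 196))) (XT.nd (nat_lit 78) (nat_lit 0) (nat_lit 0) (XT.lf (nat_lit 0) (nat_lit 75814144444) (nat_lit 76) (nat_lit 29444909955) (nat_lit 76) (nat_lit 19197101002) (nat_lit 3) (nat_lit 4) (nat_lit 4) (nat_lit 5) (nat_lit 4) (nat_lit 4) (nat_lit 297) (nat_lit 228) (nat_lit 195)) (XT.lf (nat_lit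 0) (nat_lit 87175555451) (nat_lit 76) (nat_lit 28694205742) (nat_lit 76) (nat_lit 18381383622) (nat_lit 3) (nat_lit 4) (nat_lit 4) (nat_lit 5) (nat_lit 4) (nat_lit 4) (nat_lit 298) (nat_lit 228) (nat_lit 194)))))) (XT.nd (nat_lit 624) (nat_lit 152) (nat_lit 0) (XT.nd (nat_lit 312) (nat_lit 0) (nat_lit 0) (XT.nd (nat_lit 156) (nat_lit 0) (nat_lit 0) (XT.nd (nat_lit 78) (nat_lit 0) (nat_lit 0) (XT.lf (nat_lit 0) (nat_lit 99394134733) (nat_lit 76) (nat_lit 27905098014) (nat_lit 76) (nat_lit 17532078519) (nat_lit 3) (nat_lit 4) (nat_lit 4) (nat_lit 5) (nat_lit 4) (nat_lit 4) (nat_lit 299) (nat_lit 228) (nat_lit 193)) (XT.lf (nat_lit 0) (nat_lit 112542288685) (nat_lit 76) (nat_lit 27072910579) (nat_lit 76) (nat_lit 16644152772) (nat_lit 3) (nat_lit 4) (nat_lit 4) (nat_lit 5) (nat_lit 4) (nat_lit 4) (nat_lit 300) (nat_lit 228) (nat_lit 192))) (XT.nd (nat_lit 78) (nat_lit 0) (nat_lit 0) (XT.lf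 (nat_lit 0) (nat_lit 126697932293) (nat_lit 76) (nat_lit 26192711955) (nat_lit 76) (nat_lit 15712344600) (nat_lit 3) (nat_lit 4) (nat_lit 4) (nat_lit 5) (nat_lit 4) (nat_lit 4) (nat_lit 301) (nat_lit 228) (nat_lit 191)) (XT.lf (nat_lit 0) (nat_lit 141944950854) (nat_lit 76) (nat_lit 25259286149) (nat_lit 76) (nat_lit 14731132176) (nat_lit 3) (nat_lit 4) (nat_lit 4) (nat_lit 5) (nat_lit 4) (nat_lit 4) (nat_lit 302) (nat_lit 228) (nat_lit 190)))) (XT.nd (nat_lit 156) (nat_lit 0) (nat_lit 0) (XT.nd (nat_lit 78) (nat_lit 0) (nat_lit 0) (XT.lf (nat_lit 0) (nat_lit 158373697069) (nat_lit 76) (nat_lit 24267101751) (nat_lit 76) (nat_lit 13694700909) (nat_lit 3) (nat_lit 4) (nat_lit 4) (nat_lit 5) (nat_lit 4) (nat_lit 4) (nat_lit 303) (nat_lit 228) (nat_lit 189)) (XT.lf (nat_lit 0) (nat_lit 176081526472) (nat_lit 76) (nat_lit 23210279148) (nat_lit 76) (nat_lit 12596908983) (nat_lit 3) (nat_lit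 4) (nat_lit 4) (nat_lit 5) (nat_lit 4) (nat_lit 4) (nat_lit 304) (nat_lit 228) (nat_lit 188))) (XT.nd (nat_lit 78) (nat_lit 0) (nat_lit 0) (XT.lf (nat_lit 0) (nat_lit 195173374347) (nat_lit 76) (nat_lit 22082555688) (nat_lit 76) (nat_lit 11431250965) (nat_lit 3) (nat_lit 4) (nat_lit 4) (nat_lit 5) (nat_lit 4) (nat_lit 4) (nat_lit 305) (nat_lit 228) (nat_lit 187)) (XT.lf (nat_lit 0) (nat_lit 215762377573) (nat_lit 76) (nat_lit 20877248565) (nat_lit 76) (nat_lit 10190819251) (nat_lit 3) (nat_lit 4) (nat_lit 4) (nat_lit 5) (nat_lit 4) (nat_lit 4) (nat_lit 306) (nat_lit 228) (nat_lit 186))))) (XT.nd (nat_lit 312) (nat_lit 152) (nat_lit 0) (XT.nd (nat_lit 156) (nat_lit 0) (nat_lit 0) (XT.nd (nat_lit 78) (nat_lit 0) (nat_lit 0) (XT.lf (nat_lit 0) (nat_lit 237970545055) (nat_lit 76) (nat_lit 19587215219) (nat_lit 76) (nat_lit 8868263136) (nat_lit 3) (nat_lit 4) (nat_lit 4) (nat_lit 5) (nat_lit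 4) (nat_lit 4) (nat_lit 307) (nat_lit 228) (nat_lit 185)) (XT.lf (nat_lit 0) (nat_lit 261929480751) (nat_lit 76) (nat_lit 18204811008) (nat_lit 76) (nat_lit 7455745249) (nat_lit 3) (nat_lit 4) (nat_lit 4) (nat_lit 5) (nat_lit 4) (nat_lit 4) (nat_lit 308) (nat_lit 228) (nat_lit 184))) (XT.nd (nat_lit 78) (nat_lit 0) (nat_lit 0) (XT.lf (nat_lit 0) (nat_lit 287781163537) (nat_lit 76) (nat_lit 16721843906) (nat_lit 76) (nat_lit 5944895115) (nat_lit 3) (nat_lit 4) (nat_lit 4) (nat_lit 5) (nat_lit 4) (nat_lit 4) (nat_lit 309) (nat_lit 228) (nat_lit 183)) (XT.lf (nat_lit 0) (nat_lit 315678788572) (nat_lit 76) (nat_lit 15129525961) (nat_lit 76) (nat_lit 4326759547) (nat_lit 3) (nat_lit 4) (nat_lit 4) (nat_lit 5) (nat_lit 4) (nat_lit 4) (nat_lit 310) (nat_lit 228) (nat_lit 182)))) (XT.nd (nat_lit 156) (nat_lit 152) (nat_lit 0) (XT.nd (nat_lit 78) (nat_lit 0) (nat_lit 0) (XT.lf (nat_lit 0) (nat_lit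 345787675114) (nat_lit 76) (nat_lit 13418421215) (nat_lit 76) (nat_lit 2591749594) (nat_lit 3) (nat_lit 4) (nat_lit 4) (nat_lit 5) (nat_lit 4) (nat_lit 4) (nat_lit 311) (nat_lit 228) (nat_lit 181)) (XT.lf (nat_lit 0) (nat_lit 378286246196) (nat_lit 76) (nat_lit 11578389786) (nat_lit 76) (nat_lit 729583715) (nat_lit 3) (nat_lit 4) (nat_lit 4) (nat_lit 5) (nat_lit 4) (nat_lit 4) (nat_lit 312) (nat_lit 228) (nat_lit 180))) (XT.nd (nat_lit 78) (nat_lit 76) (nat_lit 0) (XT.lf (nat_lit 0) (nat_lit 1230100469) (nat_lit 152) (nat_lit 8347594970) (nat_lit 76) (nat_lit 412116153125) (nat_lit 2) (nat_lit 5) (nat_lit 4) (nat_lit 5) (nat_lit 3) (nat_lit 4) (nat_lit 313) (nat_lit 228) (nat_lit 179)) (XT.nd (nat_lit 78) (nat_lit 76) (nat_lit 0) (XT.lf (nat_lit 0) (nat_lit 3311675992) (nat_lit 152) (nat_lit 4099341870) (nat_lit 76) (nat_lit 447870319980) (nat_lit 2) (nat_lit 5) (nat_lit 4) (nat_lit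 5) (nat_lit 3) (nat_lit 4) (nat_lit 314) (nat_lit 228) (nat_lit 178)) (XT.lf (nat_lit 0) (nat_lit 489002613) (nat_lit 76) (nat_lit 5069461440) (nat_lit 152) (nat_lit 485997448262) (nat_lit 1) (nat_lit 5) (nat_lit 2) (nat_lit 5) (nat_lit 3) (nat_lit 4) (nat_lit 315) (nat_lit 228) (nat_lit 177))))))))
noncomputable def xc26 : XT := (XT.nd (nat_lit 34164) (nat_lit 0) (nat_lit 152) (XT.nd (nat_lit 33540) (nat_lit 0) (nat_lit 532) (XT.nd (nat_lit 312) (nat_lit 0) (nat_lit 0) (XT.nd (nat_lit 156) (nat_lit 0) (nat_lit 0) (XT.nd (nat_lit 78) (nat_lit 0) (nat_lit 0) (XT.lf (nat_lit 0) (nat_lit 5576050966) (nat_lit 76) (nat_lit 2471836421) (nat_lit 152) (nat_lit 522681439612) (nat_lit 1) (nat_lit 5) (nat_lit 2) (nat_lit 5) (nat_lit 3) (nat_lit 4) (nat_lit 316) (nat_lit 228) (nat_lit 176)) (XT.lf (nat_lit 0) (nat_lit 10733698001) (nat_lit 152) (nat_lit 561985738952) (nat_lit 0) (nat_lit 317333702)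 (nat_lit 1) (nat_lit 5) (nat_lit 3) (nat_lit 4) (nat_lit 1) (nat_lit 4) (nat_lit 317) (nat_lit 228) (nat_lit 175))) (XT.nd (nat_lit 78) (nat_lit 0) (nat_lit 0) (XT.lf (nat_lit 0) (nat_lit 13668668886) (nat_lit 152) (nat_lit 601819421981) (nat_lit 0) (nat_lit 3239020341) (nat_lit 1) (nat_lit 5) (nat_lit 3) (nat_lit 4) (nat_lit 1) (nat_lit 4) (nat_lit 318) (nat_lit 228) (nat_lit 174)) (XT.lf (nat_lit 0) (nat_lit 16831600167) (nat_lit 152) (nat_lit 644851784282) (nat_lit 0) (nat_lit 6389651395) (nat_lit 1) (nat_lit 5) (nat_lit 3) (nat_lit 4) (nat_lit 1) (nat_lit 4) (nat_lit 319) (nat_lit 228) (nat_lit 173)))) (XT.nd (nat_lit 33072) (nat_lit 0) (nat_lit 1216) (XT.nd (nat_lit 32994) (nat_lit 0) (nat_lit 1368) (XT.lf (nat_lit 0) (nat_lit 20241235143) (nat_lit 152) (nat_lit 691337832445) (nat_lit 0) (nat_lit 9787897270) (nat_lit 1) (nat_lit 5) (nat_lit 3) (nat_lit 4) (nat_lit 1) (nat_lit 4)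 (nat_lit 320) (nat_lit 228) (nat_lit 172)) (XT.lf (nat_lit 0) (nat_lit 850859380) (nat_lit 228) (nat_lit 4033369018) (nat_lit 0) (nat_lit 850859380) (nat_lit 19) (nat_lit 5) (nat_lit 22) (nat_lit 4) (nat_lit 19) (nat_lit 4) (nat_lit 262) (nat_lit 229) (nat_lit 229))) (XT.nd (nat_lit 78) (nat_lit 0) (nat_lit 0) (XT.lf (nat_lit 0) (nat_lit 170198632) (nat_lit 152) (nat_lit 6487506108) (nat_lit 152) (nat_lit 5405658218) (nat_lit 17) (nat_lit 4) (nat_lit 19) (nat_lit 5) (nat_lit 19) (nat_lit 4) (nat_lit 263) (nat_lit 229) (nat_lit 228)) (XT.lf (nat_lit 0) (nat_lit 8907027089) (nat_lit 152) (nat_lit 2944836063) (nat_lit 152) (nat_lit 861277165) (nat_lit 17) (nat_lit 4) (nat_lit 19) (nat_lit 5) (nat_lit 19) (nat_lit 4) (nat_lit 264) (nat_lit 229) (nat_lit 227))))) (XT.nd (nat_lit 312) (nat_lit 228) (nat_lit 0) (XT.nd (nat_lit 156) (nat_lit 304) (nat_lit 0) (XT.nd (nat_lit 78) (nat_lit 0)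 (nat_lit 0) (XT.lf (nat_lit 0) (nat_lit 3720186308) (nat_lit 152) (nat_lit 8849976134) (nat_lit 0) (nat_lit 852501459) (nat_lit 15) (nat_lit 5) (nat_lit 17) (nat_lit 4) (nat_lit 15) (nat_lit 4) (nat_lit 265) (nat_lit 229) (nat_lit 226)) (XT.lf (nat_lit 0) (nat_lit 8485535815) (nat_lit 152) (nat_lit 911385509) (nat_lit 0) (nat_lit 4799940742) (nat_lit 15) (nat_lit 5) (nat_lit 17) (nat_lit 4) (nat_lit 15) (nat_lit 4) (nat_lit 266) (nat_lit 229) (nat_lit 225))) (XT.nd (nat_lit 78) (nat_lit 152) (nat_lit 0) (XT.lf (nat_lit 0) (nat_lit 7515622411) (nat_lit 152) (nat_lit 5983921785) (nat_lit 152) (nat_lit 1541002432) (nat_lit 13) (nat_lit 4) (nat_lit 15) (nat_lit 5) (nat_lit 15) (nat_lit 4) (nat_lit 267) (nat_lit 229) (nat_lit 224)) (XT.lf (nat_lit 0) (nat_lit 281699972) (nat_lit 76) (nat_lit 2365053936) (nat_lit 152) (nat_lit 13314540210) (nat_lit 11) (nat_lit 5) (nat_lit 12) (nat_lit 5)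 (nat_lit 13) (nat_lit 4) (nat_lit 268) (nat_lit 229) (nat_lit 223)))) (XT.nd (nat_lit 156) (nat_lit 228) (nat_lit 0) (XT.nd (nat_lit 78) (nat_lit 0) (nat_lit 0) (XT.lf (nat_lit 0) (nat_lit 7041869664) (nat_lit 152) (nat_lit 8392686923) (nat_lit 0) (nat_lit 1524318192) (nat_lit 11) (nat_lit 5) (nat_lit 13) (nat_lit 4) (nat_lit 11) (nat_lit 4) (nat_lit 269) (nat_lit 229) (nat_lit 222)) (XT.lf (nat_lit 0) (nat_lit 11613920641) (nat_lit 152) (nat_lit 907963324) (nat_lit 0) (nat_lit 5523808758) (nat_lit 11) (nat_lit 5) (nat_lit 13) (nat_lit 4) (nat_lit 11) (nat_lit 4) (nat_lit 270) (nat_lit 229) (nat_lit 221))) (XT.nd (nat_lit 78) (nat_lit 76) (nat_lit 0) (XT.lf (nat_lit 0) (nat_lit 7082541239) (nat_lit 152) (nat_lit 9381112432) (nat_lit 152) (nat_lit 2760852021) (nat_lit 9) (nat_lit 4) (nat_lit 11) (nat_lit 5) (nat_lit 11) (nat_lit 4) (nat_lit 271) (nat_lit 229) (nat_lit 220)) (XT.lf (nat_lit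 0) (nat_lit 988898520) (nat_lit 228) (nat_lit 5083896711) (nat_lit 76) (nat_lit 14433273786) (nat_lit 8) (nat_lit 5) (nat_lit 11) (nat_lit 5) (nat_lit 9) (nat_lit 4) (nat_lit 272) (nat_lit 229) (nat_lit 219)))))) (XT.nd (nat_lit 624) (nat_lit 152) (nat_lit 0) (XT.nd (nat_lit 312) (nat_lit 76) (nat_lit 0) (XT.nd (nat_lit 156) (nat_lit 76) (nat_lit 0) (XT.nd (nat_lit 78) (nat_lit 0) (nat_lit 0) (XT.lf (nat_lit 0) (nat_lit 2275539356) (nat_lit 76) (nat_lit 2525043545) (nat_lit 152) (nat_lit 17094904533) (nat_lit 7) (nat_lit 5) (nat_lit 8) (nat_lit 5) (nat_lit 9) (nat_lit 4) (nat_lit 273) (nat_lit 229) (nat_lit 218)) (XT.lf (nat_lit 0) (nat_lit 8856660201) (nat_lit 152) (nat_lit 13292448866) (nat_lit 0) (nat_lit 1250465357) (nat_lit 7) (nat_lit 5) (nat_lit 9) (nat_lit 4) (nat_lit 7) (nat_lit 4) (nat_lit 274) (nat_lit 229) (nat_lit 217))) (XT.nd (nat_lit 78) (nat_lit 76) (nat_lit 0) (XT.lf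 (nat_lit 0) (nat_lit 13121513148) (nat_lit 152) (nat_lit 6764513351) (nat_lit 0) (nat_lit 5144199261) (nat_lit 7) (nat_lit 5) (nat_lit 9) (nat_lit 4) (nat_lit 7) (nat_lit 4) (nat_lit 275) (nat_lit 229) (nat_lit 216)) (XT.lf (nat_lit 0) (nat_lit 43353105) (nat_lit 76) (nat_lit 17538315697) (nat_lit 76) (nat_lit 9217373068) (nat_lit 6) (nat_lit 4) (nat_lit 7) (nat_lit 5) (nat_lit 7) (nat_lit 4) (nat_lit 276) (nat_lit 229) (nat_lit 215)))) (XT.nd (nat_lit 156) (nat_lit 76) (nat_lit 0) (XT.nd (nat_lit 78) (nat_lit 0) (nat_lit 0) (XT.lf (nat_lit 0) (nat_lit 7404306532) (nat_lit 76) (nat_lit 14972818557) (nat_lit 76) (nat_lit 6333701166) (nat_lit 6) (nat_lit 4) (nat_lit 7) (nat_lit 5) (nat_lit 7) (nat_lit 4) (nat_lit 277) (nat_lit 229) (nat_lit 214)) (XT.lf (nat_lit 0) (nat_lit 15138302034) (nat_lit 76) (nat_lit 12288892441) (nat_lit 76) (nat_lit 3355168788) (nat_lit 6) (nat_lit 4) (nat_lit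 7) (nat_lit 5) (nat_lit 7) (nat_lit 4) (nat_lit 278) (nat_lit 229) (nat_lit 213))) (XT.nd (nat_lit 78) (nat_lit 76) (nat_lit 0) (XT.lf (nat_lit 0) (nat_lit 23291170695) (nat_lit 76) (nat_lit 9470632601) (nat_lit 76) (nat_lit 264125372) (nat_lit 6) (nat_lit 4) (nat_lit 7) (nat_lit 5) (nat_lit 7) (nat_lit 4) (nat_lit 279) (nat_lit 229) (nat_lit 212)) (XT.lf (nat_lit 0) (nat_lit 2863080019) (nat_lit 152) (nat_lit 3589770572) (nat_lit 76) (nat_lit 28999658146) (nat_lit 5) (nat_lit 5) (nat_lit 7) (nat_lit 5) (nat_lit 6) (nat_lit 4) (nat_lit 280) (nat_lit 229) (nat_lit 211))))) (XT.nd (nat_lit 312) (nat_lit 76) (nat_lit 0) (XT.nd (nat_lit 156) (nat_lit 0) (nat_lit 0) (XT.nd (nat_lit 78) (nat_lit 0) (nat_lit 0) (XT.lf (nat_lit 0) (nat_lit 2962109661) (nat_lit 76) (nat_lit 3211091423) (nat_lit 152) (nat_lit 31902969176) (nat_lit 4) (nat_lit 5) (nat_lit 5) (nat_lit 5) (nat_lit 6) (nat_lit 4)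 (nat_lit 281) (nat_lit 229) (nat_lit 210)) (XT.lf (nat_lit 0) (nat_lit 9715891294) (nat_lit 152) (nat_lit 30917421394) (nat_lit 0) (nat_lit 278275143) (nat_lit 4) (nat_lit 5) (nat_lit 6) (nat_lit 4) (nat_lit 4) (nat_lit 4) (nat_lit 282) (nat_lit 229) (nat_lit 209))) (XT.nd (nat_lit 78) (nat_lit 0) (nat_lit 0) (XT.lf (nat_lit 0) (nat_lit 13503248089) (nat_lit 152) (nat_lit 26598084972) (nat_lit 0) (nat_lit 3874675680) (nat_lit 4) (nat_lit 5) (nat_lit 6) (nat_lit 4) (nat_lit 4) (nat_lit 4) (nat_lit 283) (nat_lit 229) (nat_lit 208)) (XT.lf (nat_lit 0) (nat_lit 17507580929) (nat_lit 152) (nat_lit 22080321129) (nat_lit 0) (nat_lit 7702197170) (nat_lit 4) (nat_lit 5) (nat_lit 6) (nat_lit 4) (nat_lit 4) (nat_lit 4) (nat_lit 284) (nat_lit 229) (nat_lit 207)))) (XT.nd (nat_lit 156) (nat_lit 76) (nat_lit 0) (XT.nd (nat_lit 78) (nat_lit 0) (nat_lit 0) (XT.lf (nat_lit 0) (nat_lit 21752619193) (nat_lit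 152) (nat_lit 17337357930) (nat_lit 0) (nat_lit 11783521221) (nat_lit 4) (nat_lit 5) (nat_lit 6) (nat_lit 4) (nat_lit 4) (nat_lit 4) (nat_lit 285) (nat_lit 229) (nat_lit 206)) (XT.lf (nat_lit 0) (nat_lit 26263518665) (nat_lit 152) (nat_lit 12341088928) (nat_lit 0) (nat_lit 16142833458) (nat_lit 4) (nat_lit 5) (nat_lit 6) (nat_lit 4) (nat_lit 4) (nat_lit 4) (nat_lit 286) (nat_lit 229) (nat_lit 205))) (XT.nd (nat_lit 78) (nat_lit 76) (nat_lit 0) (XT.lf (nat_lit 0) (nat_lit 31067010599) (nat_lit 152) (nat_lit 7061906602) (nat_lit 0) (nat_lit 20805966842) (nat_lit 4) (nat_lit 5) (nat_lit 6) (nat_lit 4) (nat_lit 4) (nat_lit 4) (nat_lit 287) (nat_lit 229) (nat_lit 204)) (XT.nd (nat_lit 78) (nat_lit 76) (nat_lit 0) (XT.lf (nat_lit 0) (nat_lit 36191560134) (nat_lit 152) (nat_lit 1468526908) (nat_lit 0) (nat_lit 25800554756) (nat_lit 4) (nat_lit 5) (nat_lit 6) (nat_lit 4) (nat_lit 4) (nat_lit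 4) (nat_lit 288) (nat_lit 229) (nat_lit 203)) (XT.lf (nat_lit 0) (nat_lit 4620067105) (nat_lit 76) (nat_lit 37119600060) (nat_lit 76) (nat_lit 26608259848) (nat_lit 3) (nat_lit 4) (nat_lit 4) (nat_lit 5) (nat_lit 4) (nat_lit 4) (nat_lit 289) (nat_lit 229) (nat_lit 202))))))))
noncomputable def xc27 : XT := (XT.nd (nat_lit 1326) (nat_lit 152) (nat_lit 0) (XT.nd (nat_lit 624) (nat_lit 0) (nat_lit 0) (XT.nd (nat_lit 312) (nat_lit 0) (nat_lit 0) (XT.nd (nat_lit 156) (nat_lit 0) (nat_lit 0) (XT.nd (nat_lit 78) (nat_lit 0) (nat_lit 0) (XT.lf (nat_lit 0) (nat_lit 11152413608) (nat_lit 76) (nat_lit 36549092152) (nat_lit 76) (nat_lit 25926330797) (nat_lit 3) (nat_lit 4) (nat_lit 4) (nat_lit 5) (nat_lit 4) (nat_lit 4) (nat_lit 290) (nat_lit 229) (nat_lit 201)) (XT.lf (nat_lit 0) (nat_lit 18118666670) (nat_lit 76) (nat_lit 35970052744) (nat_lit 76) (nat_lit 25244123665) (nat_lit 3) (nat_lit 4)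 (nat_lit 4) (nat_lit 5) (nat_lit 4) (nat_lit 4) (nat_lit 291) (nat_lit 229) (nat_lit 200))) (XT.nd (nat_lit 78) (nat_lit 0) (nat_lit 0) (XT.lf (nat_lit 0) (nat_lit 25560107790) (nat_lit 76) (nat_lit 35379050492) (nat_lit 76) (nat_lit 24557595742) (nat_lit 3) (nat_lit 4) (nat_lit 4) (nat_lit 5) (nat_lit 4) (nat_lit 4) (nat_lit 292) (nat_lit 229) (nat_lit 199)) (XT.lf (nat_lit 0) (nat_lit 33520834396) (nat_lit 76) (nat_lit 34772583161) (nat_lit 76) (nat_lit 23862678716) (nat_lit 3) (nat_lit 4) (nat_lit 4) (nat_lit 5) (nat_lit 4) (nat_lit 4) (nat_lit 293) (nat_lit 229) (nat_lit 198)))) (XT.nd (nat_lit 156) (nat_lit 0) (nat_lit 0) (XT.nd (nat_lit 78) (nat_lit 0) (nat_lit 0) (XT.lf (nat_lit 0) (nat_lit 42048021166) (nat_lit 76) (nat_lit 34147056870) (nat_lit 76) (nat_lit 23155254559) (nat_lit 3) (nat_lit 4) (nat_lit 4) (nat_lit 5) (nat_lit 4) (nat_lit 4) (nat_lit 294) (nat_lit 229) (nat_lit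 197)) (XT.lf (nat_lit 0) (nat_lit 51192199576) (nat_lit 76) (nat_lit 33498764797) (nat_lit 76) (nat_lit 22431131128) (nat_lit 3) (nat_lit 4) (nat_lit 4) (nat_lit 5) (nat_lit 4) (nat_lit 4) (nat_lit 295) (nat_lit 229) (nat_lit 196))) (XT.nd (nat_lit 78) (nat_lit 0) (nat_lit 0) (XT.lf (nat_lit 0) (nat_lit 61007557350) (nat_lit 76) (nat_lit 32823865211) (nat_lit 76) (nat_lit 21686017322) (nat_lit 3) (nat_lit 4) (nat_lit 4) (nat_lit 5) (nat_lit 4) (nat_lit 4) (nat_lit 296) (nat_lit 229) (nat_lit 195)) (XT.lf (nat_lit 0) (nat_lit 71552259571) (nat_lit 76) (nat_lit 32118358706) (nat_lit 76) (nat_lit 20915497651) (nat_lit 3) (nat_lit 4) (nat_lit 4) (nat_lit 5) (nat_lit 4) (nat_lit 4) (nat_lit 297) (nat_lit 229) (nat_lit 194))))) (XT.nd (nat_lit 312) (nat_lit 0) (nat_lit 0) (XT.nd (nat_lit 156) (nat_lit 0) (nat_lit 0) (XT.nd (nat_lit 78) (nat_lit 0) (nat_lit 0) (XT.lf (nat_lit 0) (nat_lit 82888793364)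 (nat_lit 76) (nat_lit 31378064504) (nat_lit 76) (nat_lit 20115006072) (nat_lit 3) (nat_lit 4) (nat_lit 4) (nat_lit 5) (nat_lit 4) (nat_lit 4) (nat_lit 298) (nat_lit 229) (nat_lit 193)) (XT.lf (nat_lit 0) (nat_lit 95084338188) (nat_lit 76) (nat_lit 30598595676) (nat_lit 76) (nat_lit 19279798932) (nat_lit 3) (nat_lit 4) (nat_lit 4) (nat_lit 5) (nat_lit 4) (nat_lit 4) (nat_lit 299) (nat_lit 229) (nat_lit 192))) (XT.nd (nat_lit 78) (nat_lit 0) (nat_lit 0) (XT.lf (nat_lit 0) (nat_lit 108211163938) (nat_lit 76) (nat_lit 29775333147) (nat_lit 76) (nat_lit 18404926856) (nat_lit 3) (nat_lit 4) (nat_lit 4) (nat_lit 5) (nat_lit 4) (nat_lit 4) (nat_lit 300) (nat_lit 229) (nat_lit 191)) (XT.lf (nat_lit 0) (nat_lit 122347059211) (nat_lit 76) (nat_lit 28903398325) (nat_lit 76) (nat_lit 17485205416) (nat_lit 3) (nat_lit 4) (nat_lit 4) (nat_lit 5) (nat_lit 4) (nat_lit 4) (nat_lit 301) (nat_lit 229)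 (nat_lit 190)))) (XT.nd (nat_lit 156) (nat_lit 0) (nat_lit 0) (XT.nd (nat_lit 78) (nat_lit 0) (nat_lit 0) (XT.lf (nat_lit 0) (nat_lit 137575792277) (nat_lit 76) (nat_lit 27977624188) (nat_lit 76) (nat_lit 16515184410) (nat_lit 3) (nat_lit 4) (nat_lit 4) (nat_lit 5) (nat_lit 4) (nat_lit 4) (nat_lit 302) (nat_lit 229) (nat_lit 189)) (XT.lf (nat_lit 0) (nat_lit 153987607477) (nat_lit 76) (nat_lit 26992524668) (nat_lit 76) (nat_lit 15489115567) (nat_lit 3) (nat_lit 4) (nat_lit 4) (nat_lit 5) (nat_lit 4) (nat_lit 4) (nat_lit 303) (nat_lit 229) (nat_lit 188))) (XT.nd (nat_lit 78) (nat_lit 0) (nat_lit 0) (XT.lf (nat_lit 0) (nat_lit 171679760015) (nat_lit 76) (nat_lit 25942262138) (nat_lit 76) (nat_lit 14400918479) (nat_lit 3) (nat_lit 4) (nat_lit 4) (nat_lit 5) (nat_lit 4) (nat_lit 4) (nat_lit 304) (nat_lit 229) (nat_lit 187)) (XT.nd (nat_lit 78) (nat_lit 0) (nat_lit 0) (XT.lf (nat_lit 0)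 (nat_lit 190757092275) (nat_lit 76) (nat_lit 24820612819) (nat_lit 76) (nat_lit 13244144569) (nat_lit 3) (nat_lit 4) (nat_lit 4) (nat_lit 5) (nat_lit 4) (nat_lit 4) (nat_lit 305) (nat_lit 229) (nat_lit 186)) (XT.lf (nat_lit 0) (nat_lit 211332655116) (nat_lit 76) (nat_lit 23620929902) (nat_lit 76) (nat_lit 12011938882) (nat_lit 3) (nat_lit 4) (nat_lit 4) (nat_lit 5) (nat_lit 4) (nat_lit 4) (nat_lit 306) (nat_lit 229) (nat_lit 185))))))) (XT.nd (nat_lit 624) (nat_lit 76) (nat_lit 0) (XT.nd (nat_lit 312) (nat_lit 76) (nat_lit 0) (XT.nd (nat_lit 156) (nat_lit 0) (nat_lit 0) (XT.nd (nat_lit 78) (nat_lit 0) (nat_lit 0) (XT.lf (nat_lit 0) (nat_lit 233528377797) (nat_lit 76) (nat_lit 22336104153) (nat_lit 76) (nat_lit 10696999458) (nat_lit 3) (nat_lit 4) (nat_lit 4) (nat_lit 5) (nat_lit 4) (nat_lit 4) (nat_lit 307) (nat_lit 229) (nat_lit 184)) (XT.lf (nat_lit 0) (nat_lit 257475790529) (nat_lit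 76) (nat_lit 20958521791) (nat_lit 76) (nat_lit 9291534064) (nat_lit 3) (nat_lit 4) (nat_lit 4) (nat_lit 5) (nat_lit 4) (nat_lit 4) (nat_lit 308) (nat_lit 229) (nat_lit 183))) (XT.nd (nat_lit 78) (nat_lit 0) (nat_lit 0) (XT.lf (nat_lit 0) (nat_lit 283316803905) (nat_lit 76) (nat_lit 19480019365) (nat_lit 76) (nat_lit 7787214015) (nat_lit 3) (nat_lit 4) (nat_lit 4) (nat_lit 5) (nat_lit 4) (nat_lit 4) (nat_lit 309) (nat_lit 229) (nat_lit 182)) (XT.lf (nat_lit 0) (nat_lit 311204549855) (nat_lit 76) (nat_lit 17891835379) (nat_lit 76) (nat_lit 6175124822) (nat_lit 3) (nat_lit 4) (nat_lit 4) (nat_lit 5) (nat_lit 4) (nat_lit 4) (nat_lit 310) (nat_lit 229) (nat_lit 181)))) (XT.nd (nat_lit 156) (nat_lit 76) (nat_lit 0) (XT.nd (nat_lit 78) (nat_lit 0) (nat_lit 0) (XT.lf (nat_lit 0) (nat_lit 341304289097) (nat_lit 76) (nat_lit 16184558371) (nat_lit 76) (nat_lit 4445713364) (nat_lit 3) (nat_lit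 4) (nat_lit 4) (nat_lit 5) (nat_lit 4) (nat_lit 4) (nat_lit 311) (nat_lit 229) (nat_lit 180)) (XT.lf (nat_lit 0) (nat_lit 373794390457) (nat_lit 76) (nat_lit 14348071146) (nat_lit 76) (nat_lit 2588731277) (nat_lit 3) (nat_lit 4) (nat_lit 4) (nat_lit 5) (nat_lit 4) (nat_lit 4) (nat_lit 312) (nat_lit 229) (nat_lit 179))) (XT.nd (nat_lit 78) (nat_lit 76) (nat_lit 0) (XT.lf (nat_lit 0) (nat_lit 408867387867) (nat_lit 76) (nat_lit 12371490816) (nat_lit 76) (nat_lit 593174223) (nat_lit 3) (nat_lit 4) (nat_lit 4) (nat_lit 5) (nat_lit 4) (nat_lit 4) (nat_lit 313) (nat_lit 229) (nat_lit 178)) (XT.lf (nat_lit 0) (nat_lit 1503084557) (nat_lit 152) (nat_lit 8714564290) (nat_lit 76) (nat_lit 445202581291) (nat_lit 2) (nat_lit 5) (nat_lit 4) (nat_lit 5) (nat_lit 3) (nat_lit 4) (nat_lit 314) (nat_lit 229) (nat_lit 177))))) (XT.nd (nat_lit 312) (nat_lit 0) (nat_lit 0) (XT.nd (nat_lit 156) (nat_lit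 0) (nat_lit 0) (XT.nd (nat_lit 78) (nat_lit 76) (nat_lit 0) (XT.lf (nat_lit 0) (nat_lit 3738254563) (nat_lit 152) (nat_lit 4148735259) (nat_lit 76) (nat_lit 483808404760) (nat_lit 2) (nat_lit 5) (nat_lit 4) (nat_lit 5) (nat_lit 3) (nat_lit 4) (nat_lit 315) (nat_lit 229) (nat_lit 176)) (XT.lf (nat_lit 0) (nat_lit 794571167) (nat_lit 76) (nat_lit 5362400840) (nat_lit 152) (nat_lit 524715380951) (nat_lit 1) (nat_lit 5) (nat_lit 2) (nat_lit 5) (nat_lit 3) (nat_lit 4) (nat_lit 316) (nat_lit 229) (nat_lit 175))) (XT.nd (nat_lit 78) (nat_lit 0) (nat_lit 0) (XT.lf (nat_lit 0) (nat_lit 6268846474) (nat_lit 76) (nat_lit 2565307858) (nat_lit 152) (nat_lit 564346081474) (nat_lit 1) (nat_lit 5) (nat_lit 2) (nat_lit 5) (nat_lit 3) (nat_lit 4) (nat_lit 317) (nat_lit 229) (nat_lit 174)) (XT.lf (nat_lit 0) (nat_lit 11725786421) (nat_lit 152) (nat_lit 606710782557) (nat_lit 0) (nat_lit 436181519) (nat_lit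 1) (nat_lit 5) (nat_lit 3) (nat_lit 4) (nat_lit 1) (nat_lit 4) (nat_lit 318) (nat_lit 229) (nat_lit 173)))) (XT.nd (nat_lit 32916) (nat_lit 0) (nat_lit 1368) (XT.nd (nat_lit 78) (nat_lit 0) (nat_lit 0) (XT.lf (nat_lit 0) (nat_lit 14885674045) (nat_lit 152) (nat_lit 649748479896) (nat_lit 0) (nat_lit 3584680043) (nat_lit 1) (nat_lit 5) (nat_lit 3) (nat_lit 4) (nat_lit 1) (nat_lit 4) (nat_lit 319) (nat_lit 229) (nat_lit 172)) (XT.lf (nat_lit 0) (nat_lit 18292490818) (nat_lit 152) (nat_lit 696239467910) (nat_lit 0) (nat_lit 6980951353) (nat_lit 1) (nat_lit 5) (nat_lit 3) (nat_lit 4) (nat_lit 1) (nat_lit 4) (nat_lit 320) (nat_lit 229) (nat_lit 171))) (XT.nd (nat_lit 78) (nat_lit 456) (nat_lit 0) (XT.lf (nat_lit 0) (nat_lit 1951574588) (nat_lit 228) (nat_lit 1310676918) (nat_lit 0) (nat_lit 1951574588) (nat_lit 25) (nat_lit 5) (nat_lit 28) (nat_lit 4) (nat_lit 25) (nat_lit 4) (nat_lit 260)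 (nat_lit 230) (nat_lit 230)) (XT.nd (nat_lit 78) (nat_lit 228) (nat_lit 0) (XT.lf (nat_lit 0) (nat_lit 5827393764) (nat_lit 228) (nat_lit 3163937594) (nat_lit 228) (nat_lit 1937122088) (nat_lit 22) (nat_lit 4) (nat_lit 25) (nat_lit 5) (nat_lit 25) (nat_lit 4) (nat_lit 261) (nat_lit 230) (nat_lit 229)) (XT.lf (nat_lit 0) (nat_lit 2718580635) (nat_lit 228) (nat_lit 8291467866) (nat_lit 0) (nat_lit 468337025) (nat_lit 19) (nat_lit 5) (nat_lit 22) (nat_lit 4) (nat_lit 19) (nat_lit 4) (nat_lit 262) (nat_lit 230) (nat_lit 228))))))))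
noncomputable def xc28 : XT := (XT.nd (nat_lit 1248) (nat_lit 228) (nat_lit 0) (XT.nd (nat_lit 624) (nat_lit 380) (nat_lit 0) (XT.nd (nat_lit 312) (nat_lit 304) (nat_lit 0) (XT.nd (nat_lit 156) (nat_lit 152) (nat_lit 0) (XT.nd (nat_lit 78) (nat_lit 152) (nat_lit 0) (XT.lf (nat_lit 0) (nat_lit 7531600221) (nat_lit 228) (nat_lit 268061792) (nat_lit 0) (nat_lit 4279645602) (nat_lit 19) (nat_lit 5) (nat_lit 22) (nat_lit 4) (nat_lit 19) (nat_lit 4) (nat_lit 263) (nat_lit 230) (nat_lit 227)) (XT.lf (nat_lit 0) (nat_lit 8260863195) (nat_lit 152) (nat_lit 4327548437) (nat_lit 152) (nat_lit 148083624) (nat_lit 17) (nat_lit 4) (nat_lit 19) (nat_lit 5) (nat_lit 19) (nat_lit 4) (nat_lit 264) (nat_lit 230) (nat_lit 226))) (XT.nd (nat_lit 78) (nat_lit 0) (nat_lit 0) (XT.lf (nat_lit 0) (nat_lit 3688788521) (nat_lit 76) (nat_lit 568313463) (nat_lit 152) (nat_lit 9196511447) (nat_lit 15) (nat_lit 5)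 (nat_lit 16) (nat_lit 5) (nat_lit 17) (nat_lit 4) (nat_lit 265) (nat_lit 230) (nat_lit 225)) (XT.lf (nat_lit 0) (nat_lit 8893429961) (nat_lit 152) (nat_lit 2003523246) (nat_lit 0) (nat_lit 3337752778) (nat_lit 15) (nat_lit 5) (nat_lit 17) (nat_lit 4) (nat_lit 15) (nat_lit 4) (nat_lit 266) (nat_lit 230) (nat_lit 224)))) (XT.nd (nat_lit 156) (nat_lit 76) (nat_lit 0) (XT.nd (nat_lit 78) (nat_lit 76) (nat_lit 0) (XT.lf (nat_lit 0) (nat_lit 6209302112) (nat_lit 152) (nat_lit 7566492238) (nat_lit 152) (nat_lit 1309588869) (nat_lit 13) (nat_lit 4) (nat_lit 15) (nat_lit 5) (nat_lit 15) (nat_lit 4) (nat_lit 267) (nat_lit 230) (nat_lit 223)) (XT.lf (nat_lit 0) (nat_lit 2758681620) (nat_lit 228) (nat_lit 1250889552) (nat_lit 76) (nat_lit 12002344813) (nat_lit 12) (nat_lit 5) (nat_lit 15) (nat_lit 5) (nat_lit 13) (nat_lit 4) (nat_lit 268) (nat_lit 230) (nat_lit 222))) (XT.nd (nat_lit 78) (nat_lit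 0) (nat_lit 0) (XT.lf (nat_lit 0) (nat_lit 6856585871) (nat_lit 76) (nat_lit 150224458) (nat_lit 152) (nat_lit 10010370828) (nat_lit 11) (nat_lit 5) (nat_lit 12) (nat_lit 5) (nat_lit 13) (nat_lit 4) (nat_lit 269) (nat_lit 230) (nat_lit 221)) (XT.lf (nat_lit 0) (nat_lit 11481006102) (nat_lit 152) (nat_lit 2827219760) (nat_lit 0) (nat_lit 3800976330) (nat_lit 11) (nat_lit 5) (nat_lit 13) (nat_lit 4) (nat_lit 11) (nat_lit 4) (nat_lit 270) (nat_lit 230) (nat_lit 220))))) (XT.nd (nat_lit 312) (nat_lit 76) (nat_lit 0) (XT.nd (nat_lit 156) (nat_lit 76) (nat_lit 0) (XT.nd (nat_lit 78) (nat_lit 76) (nat_lit 0) (XT.lf (nat_lit 0) (nat_lit 4952811352) (nat_lit 152) (nat_lit 11256241746) (nat_lit 152) (nat_lit 3085333707) (nat_lit 9) (nat_lit 4) (nat_lit 11) (nat_lit 5) (nat_lit 11) (nat_lit 4) (nat_lit 271) (nat_lit 230) (nat_lit 219)) (XT.lf (nat_lit 0) (nat_lit 589158003) (nat_lit 228) (nat_lit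 7417651045) (nat_lit 76) (nat_lit 12573929989) (nat_lit 8) (nat_lit 5) (nat_lit 11) (nat_lit 5) (nat_lit 9) (nat_lit 4) (nat_lit 272) (nat_lit 230) (nat_lit 218))) (XT.nd (nat_lit 78) (nat_lit 76) (nat_lit 0) (XT.lf (nat_lit 0) (nat_lit 4286014586) (nat_lit 228) (nat_lit 259944044) (nat_lit 76) (nat_lit 17430174833) (nat_lit 8) (nat_lit 5) (nat_lit 11) (nat_lit 5) (nat_lit 9) (nat_lit 4) (nat_lit 273) (nat_lit 230) (nat_lit 217)) (XT.lf (nat_lit 0) (nat_lit 7460928607) (nat_lit 76) (nat_lit 781450684) (nat_lit 152) (nat_lit 15243044032) (nat_lit 7) (nat_lit 5) (nat_lit 8) (nat_lit 5) (nat_lit 9) (nat_lit 4) (nat_lit 274) (nat_lit 230) (nat_lit 216)))) (XT.nd (nat_lit 156) (nat_lit 76) (nat_lit 0) (XT.nd (nat_lit 78) (nat_lit 0) (nat_lit 0) (XT.lf (nat_lit 0) (nat_lit 12424568915) (nat_lit 152) (nat_lit 9601517927) (nat_lit 0) (nat_lit 3094322132) (nat_lit 7) (nat_lit 5) (nat_lit 9)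 (nat_lit 4) (nat_lit 7) (nat_lit 4) (nat_lit 275) (nat_lit 230) (nat_lit 215)) (XT.lf (nat_lit 0) (nat_lit 16818804476) (nat_lit 152) (nat_lit 2903519930) (nat_lit 0) (nat_lit 7170382931) (nat_lit 7) (nat_lit 5) (nat_lit 9) (nat_lit 4) (nat_lit 7) (nat_lit 4) (nat_lit 276) (nat_lit 230) (nat_lit 214))) (XT.nd (nat_lit 78) (nat_lit 0) (nat_lit 0) (XT.lf (nat_lit 0) (nat_lit 4257663572) (nat_lit 76) (nat_lit 17247735741) (nat_lit 76) (nat_lit 7304707935) (nat_lit 6) (nat_lit 4) (nat_lit 7) (nat_lit 5) (nat_lit 7) (nat_lit 4) (nat_lit 277) (nat_lit 230) (nat_lit 213)) (XT.lf (nat_lit 0) (nat_lit 11895579035) (nat_lit 76) (nat_lit 14602454031) (nat_lit 76) (nat_lit 4386642650) (nat_lit 6) (nat_lit 4) (nat_lit 7) (nat_lit 5) (nat_lit 7) (nat_lit 4) (nat_lit 278) (nat_lit 230) (nat_lit 212)))))) (XT.nd (nat_lit 624) (nat_lit 76) (nat_lit 0) (XT.nd (nat_lit 312) (nat_lit 0) (nat_lit 0) (XT.nd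 (nat_lit 156) (nat_lit 76) (nat_lit 0) (XT.nd (nat_lit 78) (nat_lit 76) (nat_lit 0) (XT.lf (nat_lit 0) (nat_lit 19959484697) (nat_lit 76) (nat_lit 11819976049) (nat_lit 76) (nat_lit 1351587282) (nat_lit 6) (nat_lit 4) (nat_lit 7) (nat_lit 5) (nat_lit 7) (nat_lit 4) (nat_lit 279) (nat_lit 230) (nat_lit 211)) (XT.lf (nat_lit 0) (nat_lit 1760242125) (nat_lit 152) (nat_lit 7093760358) (nat_lit 76) (nat_lit 26707113989) (nat_lit 5) (nat_lit 5) (nat_lit 7) (nat_lit 5) (nat_lit 6) (nat_lit 4) (nat_lit 280) (nat_lit 230) (nat_lit 210))) (XT.nd (nat_lit 78) (nat_lit 76) (nat_lit 0) (XT.lf (nat_lit 0) (nat_lit 4977651952) (nat_lit 152) (nat_lit 714614609) (nat_lit 76) (nat_lit 32497267716) (nat_lit 5) (nat_lit 5) (nat_lit 7) (nat_lit 5) (nat_lit 6) (nat_lit 4) (nat_lit 281) (nat_lit 230) (nat_lit 209)) (XT.lf (nat_lit 0) (nat_lit 6223984704) (nat_lit 76) (nat_lit 2236156704) (nat_lit 152) (nat_lit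 32567932258) (nat_lit 4) (nat_lit 5) (nat_lit 5) (nat_lit 5) (nat_lit 6) (nat_lit 4) (nat_lit 282) (nat_lit 230) (nat_lit 208)))) (XT.nd (nat_lit 156) (nat_lit 0) (nat_lit 0) (XT.nd (nat_lit 78) (nat_lit 0) (nat_lit 0) (XT.lf (nat_lit 0) (nat_lit 12171233367) (nat_lit 152) (nat_lit 30520570392) (nat_lit 0) (nat_lit 1404607557) (nat_lit 4) (nat_lit 5) (nat_lit 6) (nat_lit 4) (nat_lit 4) (nat_lit 4) (nat_lit 283) (nat_lit 230) (nat_lit 207)) (XT.lf (nat_lit 0) (nat_lit 16137277167) (nat_lit 152) (nat_lit 26068297776) (nat_lit 0) (nat_lit 5206937144) (nat_lit 4) (nat_lit 5) (nat_lit 6) (nat_lit 4) (nat_lit 4) (nat_lit 4) (nat_lit 284) (nat_lit 230) (nat_lit 206))) (XT.nd (nat_lit 78) (nat_lit 0) (nat_lit 0) (XT.lf (nat_lit 0) (nat_lit 20346862617) (nat_lit 152) (nat_lit 21385974602) (nat_lit 0) (nat_lit 9264935360) (nat_lit 4) (nat_lit 5) (nat_lit 6) (nat_lit 4) (nat_lit 4) (nat_lit 4)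 (nat_lit 285) (nat_lit 230) (nat_lit 205)) (XT.lf (nat_lit 0) (nat_lit 24824935409) (nat_lit 152) (nat_lit 16445853771) (nat_lit 0) (nat_lit 13602649601) (nat_lit 4) (nat_lit 5) (nat_lit 6) (nat_lit 4) (nat_lit 4) (nat_lit 4) (nat_lit 286) (nat_lit 230) (nat_lit 204))))) (XT.nd (nat_lit 312) (nat_lit 0) (nat_lit 0) (XT.nd (nat_lit 156) (nat_lit 76) (nat_lit 0) (XT.nd (nat_lit 78) (nat_lit 0) (nat_lit 0) (XT.lf (nat_lit 0) (nat_lit 29598032269) (nat_lit 152) (nat_lit 11218660493) (nat_lit 0) (nat_lit 18245784840) (nat_lit 4) (nat_lit 5) (nat_lit 6) (nat_lit 4) (nat_lit 4) (nat_lit 4) (nat_lit 287) (nat_lit 230) (nat_lit 203)) (XT.lf (nat_lit 0) (nat_lit 34694438217) (nat_lit 152) (nat_lit 5673418806) (nat_lit 0) (nat_lit 23221855954) (nat_lit 4) (nat_lit 5) (nat_lit 6) (nat_lit 4) (nat_lit 4) (nat_lit 4) (nat_lit 288) (nat_lit 230) (nat_lit 202))) (XT.nd (nat_lit 78) (nat_lit 0) (nat_lit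 0) (XT.lf (nat_lit 0) (nat_lit 230096504) (nat_lit 76) (nat_lit 39917850123) (nat_lit 76) (nat_lit 28333846718) (nat_lit 3) (nat_lit 4) (nat_lit 4) (nat_lit 5) (nat_lit 4) (nat_lit 4) (nat_lit 289) (nat_lit 230) (nat_lit 201)) (XT.lf (nat_lit 0) (nat_lit 6719807833) (nat_lit 76) (nat_lit 39365183144) (nat_lit 76) (nat_lit 27678012014) (nat_lit 3) (nat_lit 4) (nat_lit 4) (nat_lit 5) (nat_lit 4) (nat_lit 4) (nat_lit 290) (nat_lit 230) (nat_lit 200)))) (XT.nd (nat_lit 156) (nat_lit 0) (nat_lit 0) (XT.nd (nat_lit 78) (nat_lit 0) (nat_lit 0) (XT.lf (nat_lit 0) (nat_lit 13646583881) (nat_lit 76) (nat_lit 38802663116) (nat_lit 76) (nat_lit 27019966315) (nat_lit 3) (nat_lit 4) (nat_lit 4) (nat_lit 5) (nat_lit 4) (nat_lit 4) (nat_lit 291) (nat_lit 230) (nat_lit 199)) (XT.lf (nat_lit 0) (nat_lit 21051472211) (nat_lit 76) (nat_lit 38226956586) (nat_lit 76) (nat_lit 26355810089) (nat_lit 3) (nat_lit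 4) (nat_lit 4) (nat_lit 5) (nat_lit 4) (nat_lit 4) (nat_lit 292) (nat_lit 230) (nat_lit 198))) (XT.nd (nat_lit 78) (nat_lit 0) (nat_lit 0) (XT.lf (nat_lit 0) (nat_lit 28978353642) (nat_lit 76) (nat_lit 37634651960) (nat_lit 76) (nat_lit 25681607597) (nat_lit 3) (nat_lit 4) (nat_lit 4) (nat_lit 5) (nat_lit 4) (nat_lit 4) (nat_lit 293) (nat_lit 230) (nat_lit 197)) (XT.nd (nat_lit 78) (nat_lit 0) (nat_lit 0) (XT.lf (nat_lit 0) (nat_lit 37474202286) (nat_lit 76) (nat_lit 37022239285) (nat_lit 76) (nat_lit 24993363565) (nat_lit 3) (nat_lit 4) (nat_lit 4) (nat_lit 5) (nat_lit 4) (nat_lit 4) (nat_lit 294) (nat_lit 230) (nat_lit 196)) (XT.lf (nat_lit 0) (nat_lit 46589363913) (nat_lit 76) (nat_lit 36386089448) (nat_lit 76) (nat_lit 24286999509) (nat_lit 3) (nat_lit 4) (nat_lit 4) (nat_lit 5) (nat_lit 4) (nat_lit 4) (nat_lit 295) (nat_lit 230) (nat_lit 195))))))))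
noncomputable def xc29 : XT := (XT.nd (nat_lit 1248) (nat_lit 152) (nat_lit 0) (XT.nd (nat_lit 624) (nat_lit 0) (nat_lit 0) (XT.nd (nat_lit 312) (nat_lit 0) (nat_lit 0) (XT.nd (nat_lit 156) (nat_lit 0) (nat_lit 0) (XT.nd (nat_lit 78) (nat_lit 0) (nat_lit 0) (XT.lf (nat_lit 0) (nat_lit 56377854295) (nat_lit 76) (nat_lit 35722432674) (nat_lit 76) (nat_lit 23558329567) (nat_lit 3) (nat_lit 4) (nat_lit 4) (nat_lit 5) (nat_lit 4) (nat_lit 4) (nat_lit 296) (nat_lit 230) (nat_lit 194)) (XT.lf (nat_lit 0) (nat_lit 66897679302) (nat_lit 76) (nat_lit 35027336180) (nat_lit 76) (nat_lit 22803035697) (nat_lit 3) (nat_lit 4) (nat_lit 4) (nat_lit 5) (nat_lit 4) (nat_lit 4) (nat_lit 297) (nat_lit 230) (nat_lit 193))) (XT.nd (nat_lit 78) (nat_lit 0) (nat_lit 0) (XT.lf (nat_lit 0) (nat_lit 78211178637) (nat_lit 76) (nat_lit 34296680877) (nat_lit 76) (nat_lit 22016642083) (nat_lit 3) (nat_lit 4) (nat_lit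 4) (nat_lit 5) (nat_lit 4) (nat_lit 4) (nat_lit 298) (nat_lit 230) (nat_lit 192)) (XT.lf (nat_lit 0) (nat_lit 90385395259) (nat_lit 76) (nat_lit 33526136956) (nat_lit 76) (nat_lit 21194488614) (nat_lit 3) (nat_lit 4) (nat_lit 4) (nat_lit 5) (nat_lit 4) (nat_lit 4) (nat_lit 299) (nat_lit 230) (nat_lit 191)))) (XT.nd (nat_lit 156) (nat_lit 0) (nat_lit 0) (XT.nd (nat_lit 78) (nat_lit 0) (nat_lit 0) (XT.lf (nat_lit 0) (nat_lit 103492472674) (nat_lit 76) (nat_lit 32711138229) (nat_lit 76) (nat_lit 20331703269) (nat_lit 3) (nat_lit 4) (nat_lit 4) (nat_lit 5) (nat_lit 4) (nat_lit 4) (nat_lit 300) (nat_lit 230) (nat_lit 190)) (XT.lf (nat_lit 0) (nat_lit 117610082453) (nat_lit 76) (nat_lit 31846855076) (nat_lit 76) (nat_lit 19423173247) (nat_lit 3) (nat_lit 4) (nat_lit 4) (nat_lit 5) (nat_lit 4) (nat_lit 4) (nat_lit 301) (nat_lit 230) (nat_lit 189))) (XT.nd (nat_lit 78) (nat_lit 0) (nat_lit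 0) (XT.lf (nat_lit 0) (nat_lit 132821884504) (nat_lit 76) (nat_lit 30928165818) (nat_lit 76) (nat_lit 18463514666) (nat_lit 3) (nat_lit 4) (nat_lit 4) (nat_lit 5) (nat_lit 4) (nat_lit 4) (nat_lit 302) (nat_lit 230) (nat_lit 188)) (XT.lf (nat_lit 0) (nat_lit 149218022840) (nat_lit 76) (nat_lit 29949626371) (nat_lit 76) (nat_lit 17447040661) (nat_lit 3) (nat_lit 4) (nat_lit 4) (nat_lit 5) (nat_lit 4) (nat_lit 4) (nat_lit 303) (nat_lit 230) (nat_lit 187))))) (XT.nd (nat_lit 312) (nat_lit 0) (nat_lit 0) (XT.nd (nat_lit 156) (nat_lit 0) (nat_lit 0) (XT.nd (nat_lit 78) (nat_lit 0) (nat_lit 0) (XT.lf (nat_lit 0) (nat_lit 166895659762) (nat_lit 76) (nat_lit 28905437982) (nat_lit 76) (nat_lit 16367727681) (nat_lit 3) (nat_lit 4) (nat_lit 4) (nat_lit 5) (nat_lit 4) (nat_lit 4) (nat_lit 304) (nat_lit 230) (nat_lit 186)) (XT.lf (nat_lit 0) (nat_lit 185959551637) (nat_lit 76) (nat_lit 27789412868)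 (nat_lit 76) (nat_lit 15219179798) (nat_lit 3) (nat_lit 4) (nat_lit 4) (nat_lit 5) (nat_lit 4) (nat_lit 4) (nat_lit 305) (nat_lit 230) (nat_lit 185))) (XT.nd (nat_lit 78) (nat_lit 0) (nat_lit 0) (XT.lf (nat_lit 0) (nat_lit 206522669676) (nat_lit 76) (nat_lit 26594937548) (nat_lit 76) (nat_lit 13994590802) (nat_lit 3) (nat_lit 4) (nat_lit 4) (nat_lit 5) (nat_lit 4) (nat_lit 4) (nat_lit 306) (nat_lit 230) (nat_lit 184)) (XT.lf (nat_lit 0) (nat_lit 228706869394) (nat_lit 76) (nat_lit 25314933649) (nat_lit 76) (nat_lit 12686703870) (nat_lit 3) (nat_lit 4) (nat_lit 4) (nat_lit 5) (nat_lit 4) (nat_lit 4) (nat_lit 307) (nat_lit 230) (nat_lit 183)))) (XT.nd (nat_lit 156) (nat_lit 0) (nat_lit 0) (XT.nd (nat_lit 78) (nat_lit 0) (nat_lit 0) (XT.lf (nat_lit 0) (nat_lit 252643612715) (nat_lit 76) (nat_lit 23941815962) (nat_lit 76) (nat_lit 11287768561) (nat_lit 3) (nat_lit 4) (nat_lit 4) (nat_lit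 5) (nat_lit 4) (nat_lit 4) (nat_lit 308) (nat_lit 230) (nat_lit 182)) (XT.lf (nat_lit 0) (nat_lit 278474747006) (nat_lit 76) (nat_lit 22467447495) (nat_lit 76) (nat_lit 9789494887) (nat_lit 3) (nat_lit 4) (nat_lit 4) (nat_lit 5) (nat_lit 4) (nat_lit 4) (nat_lit 309) (nat_lit 230) (nat_lit 181))) (XT.nd (nat_lit 78) (nat_lit 0) (nat_lit 0) (XT.lf (nat_lit 0) (nat_lit 306353345657) (nat_lit 76) (nat_lit 20883091248) (nat_lit 76) (nat_lit 8183004189) (nat_lit 3) (nat_lit 4) (nat_lit 4) (nat_lit 5) (nat_lit 4) (nat_lit 4) (nat_lit 310) (nat_lit 230) (nat_lit 180)) (XT.lf (nat_lit 0) (nat_lit 336444615177) (nat_lit 76) (nat_lit 19179358443) (nat_lit 76) (nat_lit 6458776524) (nat_lit 3) (nat_lit 4) (nat_lit 4) (nat_lit 5) (nat_lit 4) (nat_lit 4) (nat_lit 311) (nat_lit 230) (nat_lit 179)))))) (XT.nd (nat_lit 624) (nat_lit 0) (nat_lit 0) (XT.nd (nat_lit 312) (nat_lit 76) (nat_lit 0) (XT.nd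 (nat_lit 156) (nat_lit 76) (nat_lit 0) (XT.nd (nat_lit 78) (nat_lit 0) (nat_lit 0) (XT.lf (nat_lit 0) (nat_lit 368926874200) (nat_lit 76) (nat_lit 17346152888) (nat_lit 76) (nat_lit 4606594244) (nat_lit 3) (nat_lit 4) (nat_lit 4) (nat_lit 5) (nat_lit 4) (nat_lit 4) (nat_lit 312) (nat_lit 230) (nat_lit 178)) (XT.lf (nat_lit 0) (nat_lit 403992610189) (nat_lit 76) (nat_lit 15372611140) (nat_lit 76) (nat_lit 2615481457) (nat_lit 3) (nat_lit 4) (nat_lit 4) (nat_lit 5) (nat_lit 4) (nat_lit 4) (nat_lit 313) (nat_lit 230) (nat_lit 177))) (XT.nd (nat_lit 78) (nat_lit 76) (nat_lit 0) (XT.lf (nat_lit 0) (nat_lit 441849620096) (nat_lit 76) (nat_lit 13247038139) (nat_lit 76) (nat_lit 473638973) (nat_lit 3) (nat_lit 4) (nat_lit 4) (nat_lit 5) (nat_lit 4) (nat_lit 4) (nat_lit 314) (nat_lit 230) (nat_lit 176)) (XT.lf (nat_lit 0) (nat_lit 1773002146) (nat_lit 152) (nat_lit 9153809099) (nat_lit 76) (nat_lit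 480919212961) (nat_lit 2) (nat_lit 5) (nat_lit 4) (nat_lit 5) (nat_lit 3) (nat_lit 4) (nat_lit 315) (nat_lit 230) (nat_lit 175)))) (XT.nd (nat_lit 156) (nat_lit 0) (nat_lit 0) (XT.nd (nat_lit 78) (nat_lit 76) (nat_lit 0) (XT.lf (nat_lit 0) (nat_lit 4175899025) (nat_lit 152) (nat_lit 4241818956) (nat_lit 76) (nat_lit 522606063407) (nat_lit 2) (nat_lit 5) (nat_lit 4) (nat_lit 5) (nat_lit 3) (nat_lit 4) (nat_lit 316) (nat_lit 230) (nat_lit 174)) (XT.lf (nat_lit 0) (nat_lit 1086573371) (nat_lit 76) (nat_lit 5694841540) (nat_lit 152) (nat_lit 566553839846) (nat_lit 1) (nat_lit 5) (nat_lit 2) (nat_lit 5) (nat_lit 3) (nat_lit 4) (nat_lit 317) (nat_lit 230) (nat_lit 173))) (XT.nd (nat_lit 78) (nat_lit 0) (nat_lit 0) (XT.lf (nat_lit 0) (nat_lit 6981869479) (nat_lit 76) (nat_lit 2681133072) (nat_lit 152) (nat_lit 609365275787) (nat_lit 1) (nat_lit 5) (nat_lit 2) (nat_lit 5) (nat_lit 3) (nat_lit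 4) (nat_lit 318) (nat_lit 230) (nat_lit 172)) (XT.lf (nat_lit 0) (nat_lit 12778211972) (nat_lit 152) (nat_lit 655047186047) (nat_lit 0) (nat_lit 551203888) (nat_lit 1) (nat_lit 5) (nat_lit 3) (nat_lit 4) (nat_lit 1) (nat_lit 4) (nat_lit 319) (nat_lit 230) (nat_lit 171))))) (XT.nd (nat_lit 32916) (nat_lit 0) (nat_lit 1064) (XT.nd (nat_lit 32760) (nat_lit 0) (nat_lit 1824) (XT.nd (nat_lit 32682) (nat_lit 0) (nat_lit 2052) (XT.lf (nat_lit 0) (nat_lit 16182419299) (nat_lit 152) (nat_lit 701542747996) (nat_lit 0) (nat_lit 3945646897) (nat_lit 1) (nat_lit 5) (nat_lit 3) (nat_lit 4) (nat_lit 1) (nat_lit 4) (nat_lit 320) (nat_lit 230) (nat_lit 170)) (XT.lf (nat_lit 0) (nat_lit 447156173) (nat_lit 228) (nat_lit 2164379637) (nat_lit 228) (nat_lit 2164379637) (nat_lit 28) (nat_lit 4) (nat_lit 31) (nat_lit 5) (nat_lit 31) (nat_lit 4) (nat_lit 258) (nat_lit 231) (nat_lit 231))) (XT.nd (nat_lit 78)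 (nat_lit 152) (nat_lit 0) (XT.lf (nat_lit 0) (nat_lit 335782083) (nat_lit 304) (nat_lit 702855513) (nat_lit 76) (nat_lit 8935745204) (nat_lit 27) (nat_lit 5) (nat_lit 31) (nat_lit 5) (nat_lit 28) (nat_lit 4) (nat_lit 259) (nat_lit 231) (nat_lit 230)) (XT.lf (nat_lit 0) (nat_lit 5075960328) (nat_lit 228) (nat_lit 2835833403) (nat_lit 0) (nat_lit 2524184074) (nat_lit 25) (nat_lit 5) (nat_lit 28) (nat_lit 4) (nat_lit 25) (nat_lit 4) (nat_lit 260) (nat_lit 231) (nat_lit 229)))) (XT.nd (nat_lit 156) (nat_lit 304) (nat_lit 0) (XT.nd (nat_lit 78) (nat_lit 228) (nat_lit 0) (XT.lf (nat_lit 0) (nat_lit 5400663987) (nat_lit 228) (nat_lit 4615936820) (nat_lit 228) (nat_lit 928220282) (nat_lit 22) (nat_lit 4) (nat_lit 25) (nat_lit 5) (nat_lit 25) (nat_lit 4) (nat_lit 261) (nat_lit 231) (nat_lit 228)) (XT.lf (nat_lit 0) (nat_lit 2519327946) (nat_lit 152) (nat_lit 1021570123) (nat_lit 228) (nat_lit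 7961368538) (nat_lit 19) (nat_lit 5) (nat_lit 21) (nat_lit 5) (nat_lit 22) (nat_lit 4) (nat_lit 262) (nat_lit 231) (nat_lit 227))) (XT.nd (nat_lit 78) (nat_lit 304) (nat_lit 0) (XT.lf (nat_lit 0) (nat_lit 8208052233) (nat_lit 228) (nat_lit 1136252623) (nat_lit 0) (nat_lit 2766720043) (nat_lit 19) (nat_lit 5) (nat_lit 22) (nat_lit 4) (nat_lit 19) (nat_lit 4) (nat_lit 263) (nat_lit 231) (nat_lit 226)) (XT.nd (nat_lit 78) (nat_lit 76) (nat_lit 0) (XT.lf (nat_lit 0) (nat_lit 340846890) (nat_lit 228) (nat_lit 5601401799) (nat_lit 76) (nat_lit 6833050336) (nat_lit 16) (nat_lit 5) (nat_lit 19) (nat_lit 5) (nat_lit 17) (nat_lit 4) (nat_lit 264) (nat_lit 231) (nat_lit 225)) (XT.lf (nat_lit 0) (nat_lit 2342687398) (nat_lit 76) (nat_lit 2261222757) (nat_lit 152) (nat_lit 8895703894) (nat_lit 15) (nat_lit 5) (nat_lit 16) (nat_lit 5) (nat_lit 17) (nat_lit 4) (nat_lit 265) (nat_lit 231) (nat_lit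 224))))))))
noncomputable def xc30 : XT := (XT.nd (nat_lit 1248) (nat_lit 152) (nat_lit 0) (XT.nd (nat_lit 624) (nat_lit 228) (nat_lit 0) (XT.nd (nat_lit 312) (nat_lit 228) (nat_lit 0) (XT.nd (nat_lit 156) (nat_lit 152) (nat_lit 0) (XT.nd (nat_lit 78) (nat_lit 152) (nat_lit 0) (XT.lf (nat_lit 0) (nat_lit 9102558402) (nat_lit 152) (nat_lit 3541566082) (nat_lit 0) (nat_lit 1643876578) (nat_lit 15) (nat_lit 5) (nat_lit 17) (nat_lit 4) (nat_lit 15) (nat_lit 4) (nat_lit 266) (nat_lit 231) (nat_lit 223)) (XT.lf (nat_lit 0) (nat_lit 4455523563) (nat_lit 152) (nat_lit 9399009802) (nat_lit 152) (nat_lit 1291044472) (nat_lit 13) (nat_lit 4) (nat_lit 15) (nat_lit 5) (nat_lit 15) (nat_lit 4) (nat_lit 267) (nat_lit 231) (nat_lit 222))) (XT.nd (nat_lit 78) (nat_lit 76) (nat_lit 0) (XT.lf (nat_lit 0) (nat_lit 2676927809) (nat_lit 228) (nat_lit 3221451751) (nat_lit 76) (nat_lit 10179036958) (nat_lit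 12) (nat_lit 5) (nat_lit 15) (nat_lit 5) (nat_lit 13) (nat_lit 4) (nat_lit 268) (nat_lit 231) (nat_lit 221)) (XT.lf (nat_lit 0) (nat_lit 4671361070) (nat_lit 76) (nat_lit 2127258825) (nat_lit 152) (nat_lit 10290693956) (nat_lit 11) (nat_lit 5) (nat_lit 12) (nat_lit 5) (nat_lit 13) (nat_lit 4) (nat_lit 269) (nat_lit 231) (nat_lit 220)))) (XT.nd (nat_lit 156) (nat_lit 76) (nat_lit 0) (XT.nd (nat_lit 78) (nat_lit 152) (nat_lit 0) (XT.lf (nat_lit 0) (nat_lit 11153513639) (nat_lit 152) (nat_lit 5196019002) (nat_lit 0) (nat_lit 1838054690) (nat_lit 11) (nat_lit 5) (nat_lit 13) (nat_lit 4) (nat_lit 11) (nat_lit 4) (nat_lit 270) (nat_lit 231) (nat_lit 219)) (XT.lf (nat_lit 0) (nat_lit 2369564683) (nat_lit 152) (nat_lit 13389779991) (nat_lit 152) (nat_lit 3619804128) (nat_lit 9) (nat_lit 4) (nat_lit 11) (nat_lit 5) (nat_lit 11) (nat_lit 4) (nat_lit 271) (nat_lit 231) (nat_lit 218))) (XT.nd (nat_lit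 78) (nat_lit 76) (nat_lit 0) (XT.lf (nat_lit 0) (nat_lit 10463778048) (nat_lit 152) (nat_lit 10198579325) (nat_lit 152) (nat_lit 7754468) (nat_lit 9) (nat_lit 4) (nat_lit 11) (nat_lit 5) (nat_lit 11) (nat_lit 4) (nat_lit 272) (nat_lit 231) (nat_lit 217)) (XT.lf (nat_lit 0) (nat_lit 3615924148) (nat_lit 228) (nat_lit 3167855348) (nat_lit 76) (nat_lit 15285621373) (nat_lit 8) (nat_lit 5) (nat_lit 11) (nat_lit 5) (nat_lit 9) (nat_lit 4) (nat_lit 273) (nat_lit 231) (nat_lit 216))))) (XT.nd (nat_lit 312) (nat_lit 76) (nat_lit 0) (XT.nd (nat_lit 156) (nat_lit 76) (nat_lit 0) (XT.nd (nat_lit 78) (nat_lit 0) (nat_lit 0) (XT.lf (nat_lit 0) (nat_lit 4342705787) (nat_lit 76) (nat_lit 3112911685) (nat_lit 152) (nat_lit 16129107975) (nat_lit 7) (nat_lit 5) (nat_lit 8) (nat_lit 5) (nat_lit 9) (nat_lit 4) (nat_lit 274) (nat_lit 231) (nat_lit 215)) (XT.lf (nat_lit 0) (nat_lit 11536163226) (nat_lit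 152) (nat_lit 12891123120) (nat_lit 0) (nat_lit 797693195) (nat_lit 7) (nat_lit 5) (nat_lit 9) (nat_lit 4) (nat_lit 7) (nat_lit 4) (nat_lit 275) (nat_lit 231) (nat_lit 214))) (XT.nd (nat_lit 78) (nat_lit 76) (nat_lit 0) (XT.lf (nat_lit 0) (nat_lit 15869988388) (nat_lit 152) (nat_lit 6293570391) (nat_lit 0) (nat_lit 4836912096) (nat_lit 7) (nat_lit 5) (nat_lit 9) (nat_lit 4) (nat_lit 7) (nat_lit 4) (nat_lit 276) (nat_lit 231) (nat_lit 213)) (XT.lf (nat_lit 0) (nat_lit 659442695) (nat_lit 76) (nat_lit 19785026665) (nat_lit 76) (nat_lit 8479166797) (nat_lit 6) (nat_lit 4) (nat_lit 7) (nat_lit 5) (nat_lit 7) (nat_lit 4) (nat_lit 277) (nat_lit 231) (nat_lit 212)))) (XT.nd (nat_lit 156) (nat_lit 76) (nat_lit 0) (XT.nd (nat_lit 78) (nat_lit 0) (nat_lit 0) (XT.lf (nat_lit 0) (nat_lit 8208395159) (nat_lit 76) (nat_lit 17175526813) (nat_lit 76) (nat_lit 5617089561) (nat_lit 6) (nat_lit 4) (nat_lit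 7) (nat_lit 5) (nat_lit 7) (nat_lit 4) (nat_lit 278) (nat_lit 231) (nat_lit 211)) (XT.lf (nat_lit 0) (nat_lit 16189927674) (nat_lit 76) (nat_lit 14426180180) (nat_lit 76) (nat_lit 2633874979) (nat_lit 6) (nat_lit 4) (nat_lit 7) (nat_lit 5) (nat_lit 7) (nat_lit 4) (nat_lit 279) (nat_lit 231) (nat_lit 210))) (XT.nd (nat_lit 78) (nat_lit 0) (nat_lit 0) (XT.lf (nat_lit 0) (nat_lit 472531238) (nat_lit 152) (nat_lit 11040160559) (nat_lit 76) (nat_lit 24170804426) (nat_lit 5) (nat_lit 5) (nat_lit 7) (nat_lit 5) (nat_lit 6) (nat_lit 4) (nat_lit 280) (nat_lit 231) (nat_lit 209)) (XT.lf (nat_lit 0) (nat_lit 3646918468) (nat_lit 152) (nat_lit 4733170808) (nat_lit 76) (nat_lit 29934087662) (nat_lit 5) (nat_lit 5) (nat_lit 7) (nat_lit 5) (nat_lit 6) (nat_lit 4) (nat_lit 281) (nat_lit 231) (nat_lit 208)))))) (XT.nd (nat_lit 624) (nat_lit 76) (nat_lit 0) (XT.nd (nat_lit 312) (nat_lit 0) (nat_lit 0)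 (XT.nd (nat_lit 156) (nat_lit 0) (nat_lit 0) (XT.nd (nat_lit 78) (nat_lit 0) (nat_lit 0) (XT.lf (nat_lit 0) (nat_lit 2003536703) (nat_lit 76) (nat_lit 5020142462) (nat_lit 152) (nat_lit 34134427098) (nat_lit 4) (nat_lit 5) (nat_lit 5) (nat_lit 5) (nat_lit 6) (nat_lit 4) (nat_lit 282) (nat_lit 231) (nat_lit 207)) (XT.lf (nat_lit 0) (nat_lit 9315273053) (nat_lit 76) (nat_lit 1358960392) (nat_lit 152) (nat_lit 33555333186) (nat_lit 4) (nat_lit 5) (nat_lit 5) (nat_lit 5) (nat_lit 6) (nat_lit 4) (nat_lit 283) (nat_lit 231) (nat_lit 206))) (XT.nd (nat_lit 78) (nat_lit 0) (nat_lit 0) (XT.lf (nat_lit 0) (nat_lit 14583607251) (nat_lit 152) (nat_lit 30501443807) (nat_lit 0) (nat_lit 2463538578) (nat_lit 4) (nat_lit 5) (nat_lit 6) (nat_lit 4) (nat_lit 4) (nat_lit 4) (nat_lit 284) (nat_lit 231) (nat_lit 205)) (XT.lf (nat_lit 0) (nat_lit 18760366021) (nat_lit 152) (nat_lit 25875268804) (nat_lit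 0) (nat_lit 6499938798) (nat_lit 4) (nat_lit 5) (nat_lit 6) (nat_lit 4) (nat_lit 4) (nat_lit 4) (nat_lit 285) (nat_lit 231) (nat_lit 204)))) (XT.nd (nat_lit 156) (nat_lit 0) (nat_lit 0) (XT.nd (nat_lit 78) (nat_lit 0) (nat_lit 0) (XT.lf (nat_lit 0) (nat_lit 23208043738) (nat_lit 152) (nat_lit 20987137021) (nat_lit 0) (nat_lit 10817654894) (nat_lit 4) (nat_lit 5) (nat_lit 6) (nat_lit 4) (nat_lit 4) (nat_lit 4) (nat_lit 286) (nat_lit 231) (nat_lit 203)) (XT.lf (nat_lit 0) (nat_lit 27952997011) (nat_lit 152) (nat_lit 15808081749) (nat_lit 0) (nat_lit 15442273333) (nat_lit 4) (nat_lit 5) (nat_lit 6) (nat_lit 4) (nat_lit 4) (nat_lit 4) (nat_lit 287) (nat_lit 231) (nat_lit 202))) (XT.nd (nat_lit 78) (nat_lit 0) (nat_lit 0) (XT.lf (nat_lit 0) (nat_lit 33023344082) (nat_lit 152) (nat_lit 10307412292) (nat_lit 0) (nat_lit 20401199261) (nat_lit 4) (nat_lit 5) (nat_lit 6) (nat_lit 4) (nat_lit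 4) (nat_lit 4) (nat_lit 288) (nat_lit 231) (nat_lit 201)) (XT.lf (nat_lit 0) (nat_lit 38449131451) (nat_lit 152) (nat_lit 4452532088) (nat_lit 0) (nat_lit 25723818906) (nat_lit 4) (nat_lit 5) (nat_lit 6) (nat_lit 4) (nat_lit 4) (nat_lit 4) (nat_lit 289) (nat_lit 231) (nat_lit 200))))) (XT.nd (nat_lit 312) (nat_lit 0) (nat_lit 0) (XT.nd (nat_lit 156) (nat_lit 0) (nat_lit 0) (XT.nd (nat_lit 78) (nat_lit 0) (nat_lit 0) (XT.lf (nat_lit 0) (nat_lit 1850481408) (nat_lit 76) (nat_lit 42440921725) (nat_lit 76) (nat_lit 29620083509) (nat_lit 3) (nat_lit 4) (nat_lit 4) (nat_lit 5) (nat_lit 4) (nat_lit 4) (nat_lit 290) (nat_lit 231) (nat_lit 199)) (XT.lf (nat_lit 0) (nat_lit 8740704667) (nat_lit 76) (nat_lit 41893697418) (nat_lit 76) (nat_lit 28984409507) (nat_lit 3) (nat_lit 4) (nat_lit 4) (nat_lit 5) (nat_lit 4) (nat_lit 4) (nat_lit 291) (nat_lit 231) (nat_lit 198))) (XT.nd (nat_lit 78) (nat_lit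 0) (nat_lit 0) (XT.lf (nat_lit 0) (nat_lit 16111747821) (nat_lit 76) (nat_lit 41332153593) (nat_lit 76) (nat_lit 28340967816) (nat_lit 3) (nat_lit 4) (nat_lit 4) (nat_lit 5) (nat_lit 4) (nat_lit 4) (nat_lit 292) (nat_lit 231) (nat_lit 197)) (XT.lf (nat_lit 0) (nat_lit 24007291126) (nat_lit 76) (nat_lit 40752962583) (nat_lit 76) (nat_lit 27685945448) (nat_lit 3) (nat_lit 4) (nat_lit 4) (nat_lit 5) (nat_lit 4) (nat_lit 4) (nat_lit 293) (nat_lit 231) (nat_lit 196)))) (XT.nd (nat_lit 156) (nat_lit 0) (nat_lit 0) (XT.nd (nat_lit 78) (nat_lit 0) (nat_lit 0) (XT.lf (nat_lit 0) (nat_lit 32474122987) (nat_lit 76) (nat_lit 40152692145) (nat_lit 76) (nat_lit 27015460790) (nat_lit 3) (nat_lit 4) (nat_lit 4) (nat_lit 5) (nat_lit 4) (nat_lit 4) (nat_lit 294) (nat_lit 231) (nat_lit 195)) (XT.lf (nat_lit 0) (nat_lit 41562417223) (nat_lit 76) (nat_lit 39527785120) (nat_lit 76) (nat_lit 26325540599)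 (nat_lit 3) (nat_lit 4) (nat_lit 4) (nat_lit 5) (nat_lit 4) (nat_lit 4) (nat_lit 295) (nat_lit 231) (nat_lit 194))) (XT.nd (nat_lit 78) (nat_lit 0) (nat_lit 0) (XT.lf (nat_lit 0) (nat_lit 51326030390) (nat_lit 76) (nat_lit 38874538357) (nat_lit 76) (nat_lit 25612096459) (nat_lit 3) (nat_lit 4) (nat_lit 4) (nat_lit 5) (nat_lit 4) (nat_lit 4) (nat_lit 296) (nat_lit 231) (nat_lit 193)) (XT.nd (nat_lit 78) (nat_lit 0) (nat_lit 0) (XT.lf (nat_lit 0) (nat_lit 61822820939) (nat_lit 76) (nat_lit 38189080762) (nat_lit 76) (nat_lit 24870900553) (nat_lit 3) (nat_lit 4) (nat_lit 4) (nat_lit 5) (nat_lit 4) (nat_lit 4) (nat_lit 297) (nat_lit 231) (nat_lit 192)) (XT.lf (nat_lit 0) (nat_lit 73114992073) (nat_lit 76) (nat_lit 37467350366) (nat_lit 76) (nat_lit 24097560609) (nat_lit 3) (nat_lit 4) (nat_lit 4) (nat_lit 5) (nat_lit 4) (nat_lit 4) (nat_lit 298) (nat_lit 231) (nat_lit 191))))))))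
noncomputable def xc31 : XT := (XT.nd (nat_lit 1326) (nat_lit 152) (nat_lit 0) (XT.nd (nat_lit 624) (nat_lit 0) (nat_lit 0) (XT.nd (nat_lit 312) (nat_lit 0) (nat_lit 0) (XT.nd (nat_lit 156) (nat_lit 0) (nat_lit 0) (XT.nd (nat_lit 78) (nat_lit 0) (nat_lit 0) (XT.lf (nat_lit 0) (nat_lit 85269460360) (nat_lit 76) (nat_lit 36705070247) (nat_lit 76) (nat_lit 23287493871) (nat_lit 3) (nat_lit 4) (nat_lit 4) (nat_lit 5) (nat_lit 4) (nat_lit 4) (nat_lit 299) (nat_lit 231) (nat_lit 190)) (XT.lf (nat_lit 0) (nat_lit 98358252280) (nat_lit 76) (nat_lit 35897723189) (nat_lit 76) (nat_lit 22435899945) (nat_lit 3) (nat_lit 4) (nat_lit 4) (nat_lit 5) (nat_lit 4) (nat_lit 4) (nat_lit 300) (nat_lit 231) (nat_lit 189))) (XT.nd (nat_lit 78) (nat_lit 0) (nat_lit 0) (XT.lf (nat_lit 0) (nat_lit 112458931044) (nat_lit 76) (nat_lit 35040524915) (nat_lit 76) (nat_lit 21537732348) (nat_lit 3) (nat_lit 4) (nat_lit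 4) (nat_lit 5) (nat_lit 4) (nat_lit 4) (nat_lit 301) (nat_lit 231) (nat_lit 188)) (XT.lf (nat_lit 0) (nat_lit 127655056230) (nat_lit 76) (nat_lit 34128395729) (nat_lit 76) (nat_lit 20587668604) (nat_lit 3) (nat_lit 4) (nat_lit 4) (nat_lit 5) (nat_lit 4) (nat_lit 4) (nat_lit 302) (nat_lit 231) (nat_lit 187)))) (XT.nd (nat_lit 156) (nat_lit 0) (nat_lit 0) (XT.nd (nat_lit 78) (nat_lit 0) (nat_lit 0) (XT.lf (nat_lit 0) (nat_lit 144036678950) (nat_lit 76) (nat_lit 33155930424) (nat_lit 76) (nat_lit 19580078707) (nat_lit 3) (nat_lit 4) (nat_lit 4) (nat_lit 5) (nat_lit 4) (nat_lit 4) (nat_lit 303) (nat_lit 231) (nat_lit 186)) (XT.lf (nat_lit 0) (nat_lit 161700875487) (nat_lit 76) (nat_lit 32117366240) (nat_lit 76) (nat_lit 18508991754) (nat_lit 3) (nat_lit 4) (nat_lit 4) (nat_lit 5) (nat_lit 4) (nat_lit 4) (nat_lit 304) (nat_lit 231) (nat_lit 185))) (XT.nd (nat_lit 78) (nat_lit 0) (nat_lit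 0) (XT.lf (nat_lit 0) (nat_lit 180752322562) (nat_lit 76) (nat_lit 31006548724) (nat_lit 76) (nat_lit 17368060563) (nat_lit 3) (nat_lit 4) (nat_lit 4) (nat_lit 5) (nat_lit 4) (nat_lit 4) (nat_lit 305) (nat_lit 231) (nat_lit 184)) (XT.lf (nat_lit 0) (nat_lit 201303917637) (nat_lit 76) (nat_lit 29816895253) (nat_lit 76) (nat_lit 16150524059) (nat_lit 3) (nat_lit 4) (nat_lit 4) (nat_lit 5) (nat_lit 4) (nat_lit 4) (nat_lit 306) (nat_lit 231) (nat_lit 183))))) (XT.nd (nat_lit 312) (nat_lit 0) (nat_lit 0) (XT.nd (nat_lit 156) (nat_lit 0) (nat_lit 0) (XT.nd (nat_lit 78) (nat_lit 0) (nat_lit 0) (XT.lf (nat_lit 0) (nat_lit 223477447944) (nat_lit 76) (nat_lit 28541356029) (nat_lit 76) (nat_lit 14849167212) (nat_lit 3) (nat_lit 4) (nat_lit 4) (nat_lit 5) (nat_lit 4) (nat_lit 4) (nat_lit 307) (nat_lit 231) (nat_lit 182)) (XT.lf (nat_lit 0) (nat_lit 247404312181) (nat_lit 76) (nat_lit 27172372301)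 (nat_lit 76) (nat_lit 13456278278) (nat_lit 3) (nat_lit 4) (nat_lit 4) (nat_lit 5) (nat_lit 4) (nat_lit 4) (nat_lit 308) (nat_lit 231) (nat_lit 181))) (XT.nd (nat_lit 78) (nat_lit 0) (nat_lit 0) (XT.lf (nat_lit 0) (nat_lit 273226299172) (nat_lit 76) (nat_lit 25701831572) (nat_lit 76) (nat_lit 11963603099) (nat_lit 3) (nat_lit 4) (nat_lit 4) (nat_lit 5) (nat_lit 4) (nat_lit 4) (nat_lit 309) (nat_lit 231) (nat_lit 180)) (XT.lf (nat_lit 0) (nat_lit 301096428100) (nat_lit 76) (nat_lit 24121019529) (nat_lit 76) (nat_lit 10362296194) (nat_lit 3) (nat_lit 4) (nat_lit 4) (nat_lit 5) (nat_lit 4) (nat_lit 4) (nat_lit 310) (nat_lit 231) (nat_lit 179)))) (XT.nd (nat_lit 156) (nat_lit 0) (nat_lit 0) (XT.nd (nat_lit 78) (nat_lit 0) (nat_lit 0) (XT.lf (nat_lit 0) (nat_lit 331179855285) (nat_lit 76) (nat_lit 22420568394) (nat_lit 76) (nat_lit 8642868336) (nat_lit 3) (nat_lit 4) (nat_lit 4) (nat_lit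 5) (nat_lit 4) (nat_lit 4) (nat_lit 311) (nat_lit 231) (nat_lit 178)) (XT.lf (nat_lit 0) (nat_lit 363654852886) (nat_lit 76) (nat_lit 20590401421) (nat_lit 76) (nat_lit 6795130323) (nat_lit 3) (nat_lit 4) (nat_lit 4) (nat_lit 5) (nat_lit 4) (nat_lit 4) (nat_lit 312) (nat_lit 231) (nat_lit 177))) (XT.nd (nat_lit 78) (nat_lit 0) (nat_lit 0) (XT.lf (nat_lit 0) (nat_lit 398713865336) (nat_lit 76) (nat_lit 18619673177) (nat_lit 76) (nat_lit 4808132596) (nat_lit 3) (nat_lit 4) (nat_lit 4) (nat_lit 5) (nat_lit 4) (nat_lit 4) (nat_lit 313) (nat_lit 231) (nat_lit 176)) (XT.nd (nat_lit 78) (nat_lit 0) (nat_lit 0) (XT.lf (nat_lit 0) (nat_lit 436564649744) (nat_lit 76) (nat_lit 16496705270) (nat_lit 76) (nat_lit 2670100355) (nat_lit 3) (nat_lit 4) (nat_lit 4) (nat_lit 5) (nat_lit 4) (nat_lit 4) (nat_lit 314) (nat_lit 231) (nat_lit 175)) (XT.lf (nat_lit 0) (nat_lit 477431507055) (nat_lit 76) (nat_lit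 14208917152) (nat_lit 76) (nat_lit 368363778) (nat_lit 3) (nat_lit 4) (nat_lit 4) (nat_lit 5) (nat_lit 4) (nat_lit 4) (nat_lit 315) (nat_lit 231) (nat_lit 174))))))) (XT.nd (nat_lit 33072) (nat_lit 0) (nat_lit 912) (XT.nd (nat_lit 312) (nat_lit 0) (nat_lit 0) (XT.nd (nat_lit 156) (nat_lit 76) (nat_lit 0) (XT.nd (nat_lit 78) (nat_lit 0) (nat_lit 0) (XT.lf (nat_lit 0) (nat_lit 2043160927) (nat_lit 152) (nat_lit 9664988712) (nat_lit 76) (nat_lit 519478848393) (nat_lit 2) (nat_lit 5) (nat_lit 4) (nat_lit 5) (nat_lit 3) (nat_lit 4) (nat_lit 316) (nat_lit 231) (nat_lit 173)) (XT.lf (nat_lit 0) (nat_lit 4628784474) (nat_lit 152) (nat_lit 4376418996) (nat_lit 76) (nat_lit 564494269215) (nat_lit 2) (nat_lit 5) (nat_lit 4) (nat_lit 5) (nat_lit 3) (nat_lit 4) (nat_lit 317) (nat_lit 231) (nat_lit 172))) (XT.nd (nat_lit 78) (nat_lit 0) (nat_lit 0) (XT.lf (nat_lit 0) (nat_lit 1369346728) (nat_lit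 76) (nat_lit 6067651628) (nat_lit 152) (nat_lit 611759172770) (nat_lit 1) (nat_lit 5) (nat_lit 2) (nat_lit 5) (nat_lit 3) (nat_lit 4) (nat_lit 318) (nat_lit 231) (nat_lit 171)) (XT.lf (nat_lit 0) (nat_lit 7721759304) (nat_lit 76) (nat_lit 2818978130) (nat_lit 152) (nat_lit 658004336494) (nat_lit 1) (nat_lit 5) (nat_lit 2) (nat_lit 5) (nat_lit 3) (nat_lit 4) (nat_lit 319) (nat_lit 231) (nat_lit 170)))) (XT.nd (nat_lit 32604) (nat_lit 0) (nat_lit 2052) (XT.nd (nat_lit 32526) (nat_lit 0) (nat_lit 2584) (XT.lf (nat_lit 0) (nat_lit 13898516459) (nat_lit 152) (nat_lit 707279099550) (nat_lit 0) (nat_lit 663996912) (nat_lit 1) (nat_lit 5) (nat_lit 3) (nat_lit 4) (nat_lit 1) (nat_lit 4) (nat_lit 320) (nat_lit 231) (nat_lit 169)) (XT.lf (nat_lit 0) (nat_lit 1586549258) (nat_lit 228) (nat_lit 1411160472) (nat_lit 228) (nat_lit 1411160472) (nat_lit 35) (nat_lit 4) (nat_lit 38) (nat_lit 5) (nat_lit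 38) (nat_lit 4) (nat_lit 256) (nat_lit 232) (nat_lit 232))) (XT.nd (nat_lit 78) (nat_lit 228) (nat_lit 0) (XT.lf (nat_lit 0) (nat_lit 1816850226) (nat_lit 304) (nat_lit 7040098071) (nat_lit 0) (nat_lit 314344739) (nat_lit 31) (nat_lit 5) (nat_lit 35) (nat_lit 4) (nat_lit 31) (nat_lit 4) (nat_lit 257) (nat_lit 232) (nat_lit 231)) (XT.lf (nat_lit 0) (nat_lit 683898255) (nat_lit 228) (nat_lit 5885144011) (nat_lit 228) (nat_lit 2991429739) (nat_lit 28) (nat_lit 4) (nat_lit 31) (nat_lit 5) (nat_lit 31) (nat_lit 4) (nat_lit 258) (nat_lit 232) (nat_lit 230))))) (XT.nd (nat_lit 312) (nat_lit 456) (nat_lit 0) (XT.nd (nat_lit 156) (nat_lit 456) (nat_lit 0) (XT.nd (nat_lit 78) (nat_lit 152) (nat_lit 0) (XT.lf (nat_lit 0) (nat_lit 1482263085) (nat_lit 304) (nat_lit 1143231229) (nat_lit 76) (nat_lit 7364606039) (nat_lit 27) (nat_lit 5) (nat_lit 31) (nat_lit 5) (nat_lit 28) (nat_lit 4) (nat_lit 259)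 (nat_lit 232) (nat_lit 229)) (XT.lf (nat_lit 0) (nat_lit 6049567519) (nat_lit 228) (nat_lit 3480543096) (nat_lit 0) (nat_lit 930893374) (nat_lit 25) (nat_lit 5) (nat_lit 28) (nat_lit 4) (nat_lit 25) (nat_lit 4) (nat_lit 260) (nat_lit 232) (nat_lit 228))) (XT.nd (nat_lit 78) (nat_lit 228) (nat_lit 0) (XT.lf (nat_lit 0) (nat_lit 4544675663) (nat_lit 228) (nat_lit 6301724203) (nat_lit 228) (nat_lit 131253499) (nat_lit 22) (nat_lit 4) (nat_lit 25) (nat_lit 5) (nat_lit 25) (nat_lit 4) (nat_lit 261) (nat_lit 232) (nat_lit 227)) (XT.lf (nat_lit 0) (nat_lit 1401690176) (nat_lit 152) (nat_lit 2767113035) (nat_lit 228) (nat_lit 7373394148) (nat_lit 19) (nat_lit 5) (nat_lit 21) (nat_lit 5) (nat_lit 22) (nat_lit 4) (nat_lit 262) (nat_lit 232) (nat_lit 226)))) (XT.nd (nat_lit 156) (nat_lit 228) (nat_lit 0) (XT.nd (nat_lit 78) (nat_lit 228) (nat_lit 0) (XT.lf (nat_lit 0) (nat_lit 8688412106) (nat_lit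 228) (nat_lit 2444966112) (nat_lit 0) (nat_lit 1025457412) (nat_lit 19) (nat_lit 5) (nat_lit 22) (nat_lit 4) (nat_lit 19) (nat_lit 4) (nat_lit 263) (nat_lit 232) (nat_lit 225)) (XT.lf (nat_lit 0) (nat_lit 621731106) (nat_lit 228) (nat_lit 7183596420) (nat_lit 76) (nat_lit 5024778909) (nat_lit 16) (nat_lit 5) (nat_lit 19) (nat_lit 5) (nat_lit 17) (nat_lit 4) (nat_lit 264) (nat_lit 232) (nat_lit 224))) (XT.nd (nat_lit 78) (nat_lit 152) (nat_lit 0) (XT.lf (nat_lit 0) (nat_lit 540845028) (nat_lit 76) (nat_lit 4208070928) (nat_lit 152) (nat_lit 8812709896) (nat_lit 15) (nat_lit 5) (nat_lit 16) (nat_lit 5) (nat_lit 17) (nat_lit 4) (nat_lit 265) (nat_lit 232) (nat_lit 223)) (XT.nd (nat_lit 78) (nat_lit 152) (nat_lit 0) (XT.lf (nat_lit 0) (nat_lit 8817494263) (nat_lit 76) (nat_lit 301371409) (nat_lit 152) (nat_lit 5237962190) (nat_lit 15) (nat_lit 5) (nat_lit 16) (nat_lit 5) (nat_lit 17) (nat_lit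 4) (nat_lit 266) (nat_lit 232) (nat_lit 222)) (XT.lf (nat_lit 0) (nat_lit 2243894002) (nat_lit 152) (nat_lit 11492333841) (nat_lit 152) (nat_lit 1485259348) (nat_lit 13) (nat_lit 4) (nat_lit 15) (nat_lit 5) (nat_lit 15) (nat_lit 4) (nat_lit 267) (nat_lit 232) (nat_lit 221))))))))
noncomputable def xc32 : XT := (XT.nd (nat_lit 1248) (nat_lit 76) (nat_lit 0) (XT.nd (nat_lit 624) (nat_lit 228) (nat_lit 0) (XT.nd (nat_lit 312) (nat_lit 304) (nat_lit 0) (XT.nd (nat_lit 156) (nat_lit 0) (nat_lit 0) (XT.nd (nat_lit 78) (nat_lit 76) (nat_lit 0) (XT.lf (nat_lit 0) (nat_lit 2396609882) (nat_lit 228) (nat_lit 5650680189) (nat_lit 76) (nat_lit 8111113701) (nat_lit 12) (nat_lit 5) (nat_lit 15) (nat_lit 5) (nat_lit 13) (nat_lit 4) (nat_lit 268) (nat_lit 232) (nat_lit 220)) (XT.lf (nat_lit 0) (nat_lit 2023379040) (nat_lit 76) (nat_lit 4368099822) (nat_lit 152) (nat_lit 10785450742) (nat_lit 11) (nat_lit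 5) (nat_lit 12) (nat_lit 5) (nat_lit 13) (nat_lit 4) (nat_lit 269) (nat_lit 232) (nat_lit 219))) (XT.nd (nat_lit 78) (nat_lit 0) (nat_lit 0) (XT.lf (nat_lit 0) (nat_lit 10246536563) (nat_lit 76) (nat_lit 389039998) (nat_lit 152) (nat_lit 7645432384) (nat_lit 11) (nat_lit 5) (nat_lit 12) (nat_lit 5) (nat_lit 13) (nat_lit 4) (nat_lit 270) (nat_lit 232) (nat_lit 218)) (XT.lf (nat_lit 0) (nat_lit 15122519303) (nat_lit 152) (nat_lit 660662414) (nat_lit 0) (nat_lit 3695579463) (nat_lit 11) (nat_lit 5) (nat_lit 13) (nat_lit 4) (nat_lit 11) (nat_lit 4) (nat_lit 271) (nat_lit 232) (nat_lit 217)))) (XT.nd (nat_lit 156) (nat_lit 76) (nat_lit 0) (XT.nd (nat_lit 78) (nat_lit 76) (nat_lit 0) (XT.lf (nat_lit 0) (nat_lit 7295001883) (nat_lit 152) (nat_lit 12647849649) (nat_lit 152) (nat_lit 831234814) (nat_lit 9) (nat_lit 4) (nat_lit 11) (nat_lit 5) (nat_lit 11) (nat_lit 4) (nat_lit 272) (nat_lit 232)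 (nat_lit 216)) (XT.lf (nat_lit 0) (nat_lit 2750813132) (nat_lit 228) (nat_lit 6538258093) (nat_lit 76) (nat_lit 12888547498) (nat_lit 8) (nat_lit 5) (nat_lit 11) (nat_lit 5) (nat_lit 9) (nat_lit 4) (nat_lit 273) (nat_lit 232) (nat_lit 215))) (XT.nd (nat_lit 78) (nat_lit 0) (nat_lit 0) (XT.lf (nat_lit 0) (nat_lit 755155976) (nat_lit 76) (nat_lit 5716387677) (nat_lit 152) (nat_lit 17227534036) (nat_lit 7) (nat_lit 5) (nat_lit 8) (nat_lit 5) (nat_lit 9) (nat_lit 4) (nat_lit 274) (nat_lit 232) (nat_lit 214)) (XT.lf (nat_lit 0) (nat_lit 8661939700) (nat_lit 76) (nat_lit 1817467514) (nat_lit 152) (nat_lit 14863731132) (nat_lit 7) (nat_lit 5) (nat_lit 8) (nat_lit 5) (nat_lit 9) (nat_lit 4) (nat_lit 275) (nat_lit 232) (nat_lit 213))))) (XT.nd (nat_lit 312) (nat_lit 152) (nat_lit 0) (XT.nd (nat_lit 156) (nat_lit 76) (nat_lit 0) (XT.nd (nat_lit 78) (nat_lit 0) (nat_lit 0) (XT.lf (nat_lit 0) (nat_lit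 14728921061) (nat_lit 152) (nat_lit 10148275033) (nat_lit 0) (nat_lit 2245808829) (nat_lit 7) (nat_lit 5) (nat_lit 9) (nat_lit 4) (nat_lit 7) (nat_lit 4) (nat_lit 276) (nat_lit 232) (nat_lit 212)) (XT.lf (nat_lit 0) (nat_lit 19241314105) (nat_lit 152) (nat_lit 3302483859) (nat_lit 0) (nat_lit 6505624489) (nat_lit 7) (nat_lit 5) (nat_lit 9) (nat_lit 4) (nat_lit 7) (nat_lit 4) (nat_lit 277) (nat_lit 232) (nat_lit 211))) (XT.nd (nat_lit 78) (nat_lit 0) (nat_lit 0) (XT.lf (nat_lit 0) (nat_lit 4054900426) (nat_lit 76) (nat_lit 20023358624) (nat_lit 76) (nat_lit 7053801059) (nat_lit 6) (nat_lit 4) (nat_lit 7) (nat_lit 5) (nat_lit 7) (nat_lit 4) (nat_lit 278) (nat_lit 232) (nat_lit 210)) (XT.lf (nat_lit 0) (nat_lit 11960161508) (nat_lit 76) (nat_lit 17304689167) (nat_lit 76) (nat_lit 4118587205) (nat_lit 6) (nat_lit 4) (nat_lit 7) (nat_lit 5) (nat_lit 7) (nat_lit 4) (nat_lit 279) (nat_lit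 232) (nat_lit 209)))) (XT.nd (nat_lit 156) (nat_lit 76) (nat_lit 0) (XT.nd (nat_lit 78) (nat_lit 76) (nat_lit 0) (XT.lf (nat_lit 0) (nat_lit 20350950347) (nat_lit 76) (nat_lit 14427608122) (nat_lit 76) (nat_lit 1041002088) (nat_lit 6) (nat_lit 4) (nat_lit 7) (nat_lit 5) (nat_lit 7) (nat_lit 4) (nat_lit 280) (nat_lit 232) (nat_lit 208)) (XT.lf (nat_lit 0) (nat_lit 2126867971) (nat_lit 152) (nat_lit 9212178608) (nat_lit 76) (nat_lit 27114102626) (nat_lit 5) (nat_lit 5) (nat_lit 7) (nat_lit 5) (nat_lit 6) (nat_lit 4) (nat_lit 281) (nat_lit 232) (nat_lit 207))) (XT.nd (nat_lit 78) (nat_lit 76) (nat_lit 0) (XT.lf (nat_lit 0) (nat_lit 5435462904) (nat_lit 152) (nat_lit 2601458921) (nat_lit 76) (nat_lit 33263660828) (nat_lit 5) (nat_lit 5) (nat_lit 7) (nat_lit 5) (nat_lit 6) (nat_lit 4) (nat_lit 282) (nat_lit 232) (nat_lit 206)) (XT.lf (nat_lit 0) (nat_lit 4565087763) (nat_lit 76) (nat_lit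 4443893814) (nat_lit 152) (nat_lit 35367001958) (nat_lit 4) (nat_lit 5) (nat_lit 5) (nat_lit 5) (nat_lit 6) (nat_lit 4) (nat_lit 283) (nat_lit 232) (nat_lit 205)))))) (XT.nd (nat_lit 624) (nat_lit 0) (nat_lit 0) (XT.nd (nat_lit 312) (nat_lit 76) (nat_lit 0) (XT.nd (nat_lit 156) (nat_lit 0) (nat_lit 0) (XT.nd (nat_lit 78) (nat_lit 0) (nat_lit 0) (XT.lf (nat_lit 0) (nat_lit 12283891308) (nat_lit 76) (nat_lit 562251256) (nat_lit 152) (nat_lit 34852556778) (nat_lit 4) (nat_lit 5) (nat_lit 5) (nat_lit 5) (nat_lit 6) (nat_lit 4) (nat_lit 284) (nat_lit 232) (nat_lit 204)) (XT.lf (nat_lit 0) (nat_lit 16983727942) (nat_lit 152) (nat_lit 30831843762) (nat_lit 0) (nat_lit 3472146370) (nat_lit 4) (nat_lit 5) (nat_lit 6) (nat_lit 4) (nat_lit 4) (nat_lit 4) (nat_lit 285) (nat_lit 232) (nat_lit 203))) (XT.nd (nat_lit 78) (nat_lit 0) (nat_lit 0) (XT.lf (nat_lit 0) (nat_lit 21403262072) (nat_lit 152)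 (nat_lit 25991849985) (nat_lit 0) (nat_lit 7771345666) (nat_lit 4) (nat_lit 5) (nat_lit 6) (nat_lit 4) (nat_lit 4) (nat_lit 4) (nat_lit 286) (nat_lit 232) (nat_lit 202)) (XT.lf (nat_lit 0) (nat_lit 26122156468) (nat_lit 152) (nat_lit 20857366942) (nat_lit 0) (nat_lit 12378818919) (nat_lit 4) (nat_lit 5) (nat_lit 6) (nat_lit 4) (nat_lit 4) (nat_lit 4) (nat_lit 287) (nat_lit 232) (nat_lit 201)))) (XT.nd (nat_lit 156) (nat_lit 76) (nat_lit 0) (XT.nd (nat_lit 78) (nat_lit 0) (nat_lit 0) (XT.lf (nat_lit 0) (nat_lit 31168374949) (nat_lit 152) (nat_lit 15397968067) (nat_lit 0) (nat_lit 17321869675) (nat_lit 4) (nat_lit 5) (nat_lit 6) (nat_lit 4) (nat_lit 4) (nat_lit 4) (nat_lit 288) (nat_lit 232) (nat_lit 200)) (XT.lf (nat_lit 0) (nat_lit 36571821031) (nat_lit 152) (nat_lit 9581301365) (nat_lit 0) (nat_lit 22629790087) (nat_lit 4) (nat_lit 5) (nat_lit 6) (nat_lit 4) (nat_lit 4) (nat_lit 4)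 (nat_lit 289) (nat_lit 232) (nat_lit 199))) (XT.nd (nat_lit 78) (nat_lit 76) (nat_lit 0) (XT.lf (nat_lit 0) (nat_lit 42364515137) (nat_lit 152) (nat_lit 3372897702) (nat_lit 0) (nat_lit 28334034497) (nat_lit 4) (nat_lit 5) (nat_lit 6) (nat_lit 4) (nat_lit 4) (nat_lit 4) (nat_lit 290) (nat_lit 232) (nat_lit 198)) (XT.lf (nat_lit 0) (nat_lit 3371957150) (nat_lit 76) (nat_lit 45261472892) (nat_lit 76) (nat_lit 31149094386) (nat_lit 3) (nat_lit 4) (nat_lit 4) (nat_lit 5) (nat_lit 4) (nat_lit 4) (nat_lit 291) (nat_lit 232) (nat_lit 197))))) (XT.nd (nat_lit 312) (nat_lit 0) (nat_lit 0) (XT.nd (nat_lit 156) (nat_lit 0) (nat_lit 0) (XT.nd (nat_lit 78) (nat_lit 0) (nat_lit 0) (XT.lf (nat_lit 0) (nat_lit 10711662179) (nat_lit 76) (nat_lit 44713042682) (nat_lit 76) (nat_lit 30524832819) (nat_lit 3) (nat_lit 4) (nat_lit 4) (nat_lit 5) (nat_lit 4) (nat_lit 4) (nat_lit 292) (nat_lit 232) (nat_lit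 196)) (XT.lf (nat_lit 0) (nat_lit 18578188701) (nat_lit 76) (nat_lit 44145993909) (nat_lit 76) (nat_lit 29887569826) (nat_lit 3) (nat_lit 4) (nat_lit 4) (nat_lit 5) (nat_lit 4) (nat_lit 4) (nat_lit 293) (nat_lit 232) (nat_lit 195))) (XT.nd (nat_lit 78) (nat_lit 0) (nat_lit 0) (XT.lf (nat_lit 0) (nat_lit 27018153170) (nat_lit 76) (nat_lit 43556966283) (nat_lit 76) (nat_lit 29233529033) (nat_lit 3) (nat_lit 4) (nat_lit 4) (nat_lit 5) (nat_lit 4) (nat_lit 4) (nat_lit 294) (nat_lit 232) (nat_lit 194)) (XT.lf (nat_lit 0) (nat_lit 36081570191) (nat_lit 76) (nat_lit 42942469269) (nat_lit 76) (nat_lit 28558834643) (nat_lit 3) (nat_lit 4) (nat_lit 4) (nat_lit 5) (nat_lit 4) (nat_lit 4) (nat_lit 295) (nat_lit 232) (nat_lit 193)))) (XT.nd (nat_lit 156) (nat_lit 0) (nat_lit 0) (XT.nd (nat_lit 78) (nat_lit 0) (nat_lit 0) (XT.lf (nat_lit 0) (nat_lit 45822148901) (nat_lit 76) (nat_lit 42298861405)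 (nat_lit 76) (nat_lit 27859488467) (nat_lit 3) (nat_lit 4) (nat_lit 4) (nat_lit 5) (nat_lit 4) (nat_lit 4) (nat_lit 296) (nat_lit 232) (nat_lit 192)) (XT.lf (nat_lit 0) (nat_lit 56297611248) (nat_lit 76) (nat_lit 41622328717) (nat_lit 76) (nat_lit 27131346232) (nat_lit 3) (nat_lit 4) (nat_lit 4) (nat_lit 5) (nat_lit 4) (nat_lit 4) (nat_lit 297) (nat_lit 232) (nat_lit 191))) (XT.nd (nat_lit 78) (nat_lit 0) (nat_lit 0) (XT.lf (nat_lit 0) (nat_lit 67570034046) (nat_lit 76) (nat_lit 40908862123) (nat_lit 76) (nat_lit 26370093019) (nat_lit 3) (nat_lit 4) (nat_lit 4) (nat_lit 5) (nat_lit 4) (nat_lit 4) (nat_lit 298) (nat_lit 232) (nat_lit 190)) (XT.nd (nat_lit 78) (nat_lit 0) (nat_lit 0) (XT.lf (nat_lit 0) (nat_lit 79706216838) (nat_lit 76) (nat_lit 40154233672) (nat_lit 76) (nat_lit 25571217700) (nat_lit 3) (nat_lit 4) (nat_lit 4) (nat_lit 5) (nat_lit 4) (nat_lit 4) (nat_lit 299) (nat_lit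 232) (nat_lit 189)) (XT.lf (nat_lit 0) (nat_lit 92778077744) (nat_lit 76) (nat_lit 39353971494) (nat_lit 76) (nat_lit 24729986198) (nat_lit 3) (nat_lit 4) (nat_lit 4) (nat_lit 5) (nat_lit 4) (nat_lit 4) (nat_lit 300) (nat_lit 232) (nat_lit 188))))))))
noncomputable def xc33 : XT := (XT.nd (nat_lit 1248) (nat_lit 152) (nat_lit 0) (XT.nd (nat_lit 624) (nat_lit 0) (nat_lit 0) (XT.nd (nat_lit 312) (nat_lit 0) (nat_lit 0) (XT.nd (nat_lit 156) (nat_lit 0) (nat_lit 0) (XT.nd (nat_lit 78) (nat_lit 0) (nat_lit 0) (XT.lf (nat_lit 0) (nat_lit 106863079643) (nat_lit 76) (nat_lit 38503333292) (nat_lit 76) (nat_lit 23841413438) (nat_lit 3) (nat_lit 4) (nat_lit 4) (nat_lit 5) (nat_lit 4) (nat_lit 4) (nat_lit 301) (nat_lit 232) (nat_lit 187)) (XT.lf (nat_lit 0) (nat_lit 122044689213) (nat_lit 76) (nat_lit 37597278248) (nat_lit 76) (nat_lit 22900233804) (nat_lit 3) (nat_lit 4) (nat_lit 4) (nat_lit 5)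 (nat_lit 4) (nat_lit 4) (nat_lit 302) (nat_lit 232) (nat_lit 186))) (XT.nd (nat_lit 78) (nat_lit 0) (nat_lit 0) (XT.lf (nat_lit 0) (nat_lit 138412871549) (nat_lit 76) (nat_lit 36630437147) (nat_lit 76) (nat_lit 21900869933) (nat_lit 3) (nat_lit 4) (nat_lit 4) (nat_lit 5) (nat_lit 4) (nat_lit 4) (nat_lit 303) (nat_lit 232) (nat_lit 185)) (XT.lf (nat_lit 0) (nat_lit 156064623285) (nat_lit 76) (nat_lit 35597080561) (nat_lit 76) (nat_lit 20837399671) (nat_lit 3) (nat_lit 4) (nat_lit 4) (nat_lit 5) (nat_lit 4) (nat_lit 4) (nat_lit 304) (nat_lit 232) (nat_lit 184)))) (XT.nd (nat_lit 156) (nat_lit 0) (nat_lit 0) (XT.nd (nat_lit 78) (nat_lit 0) (nat_lit 0) (XT.lf (nat_lit 0) (nat_lit 175104547396) (nat_lit 76) (nat_lit 34491084894) (nat_lit 76) (nat_lit 19703520972) (nat_lit 3) (nat_lit 4) (nat_lit 4) (nat_lit 5) (nat_lit 4) (nat_lit 4) (nat_lit 305) (nat_lit 232) (nat_lit 183)) (XT.lf (nat_lit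 0) (nat_lit 195645473060) (nat_lit 76) (nat_lit 33305896098) (nat_lit 76) (nat_lit 18492514553) (nat_lit 3) (nat_lit 4) (nat_lit 4) (nat_lit 5) (nat_lit 4) (nat_lit 4) (nat_lit 306) (nat_lit 232) (nat_lit 182))) (XT.nd (nat_lit 78) (nat_lit 0) (nat_lit 0) (XT.lf (nat_lit 0) (nat_lit 217809124283) (nat_lit 76) (nat_lit 32034490833) (nat_lit 76) (nat_lit 17197204081) (nat_lit 3) (nat_lit 4) (nat_lit 4) (nat_lit 5) (nat_lit 4) (nat_lit 4) (nat_lit 307) (nat_lit 232) (nat_lit 181)) (XT.lf (nat_lit 0) (nat_lit 241726841220) (nat_lit 76) (nat_lit 30669334844) (nat_lit 76) (nat_lit 15809913642) (nat_lit 3) (nat_lit 4) (nat_lit 4) (nat_lit 5) (nat_lit 4) (nat_lit 4) (nat_lit 308) (nat_lit 232) (nat_lit 180))))) (XT.nd (nat_lit 312) (nat_lit 0) (nat_lit 0) (XT.nd (nat_lit 156) (nat_lit 0) (nat_lit 0) (XT.nd (nat_lit 78) (nat_lit 0) (nat_lit 0) (XT.lf (nat_lit 0) (nat_lit 267540358489) (nat_lit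 76) (nat_lit 29202338319) (nat_lit 76) (nat_lit 14322422256) (nat_lit 3) (nat_lit 4) (nat_lit 4) (nat_lit 5) (nat_lit 4) (nat_lit 4) (nat_lit 309) (nat_lit 232) (nat_lit 179)) (XT.lf (nat_lit 0) (nat_lit 295402645081) (nat_lit 76) (nat_lit 27624807945) (nat_lit 76) (nat_lit 12725915158) (nat_lit 3) (nat_lit 4) (nat_lit 4) (nat_lit 5) (nat_lit 4) (nat_lit 4) (nat_lit 310) (nat_lit 232) (nat_lit 178))) (XT.nd (nat_lit 78) (nat_lit 0) (nat_lit 0) (XT.lf (nat_lit 0) (nat_lit 325478810844) (nat_lit 76) (nat_lit 25927395393) (nat_lit 76) (nat_lit 11010931566) (nat_lit 3) (nat_lit 4) (nat_lit 4) (nat_lit 5) (nat_lit 4) (nat_lit 4) (nat_lit 311) (nat_lit 232) (nat_lit 177)) (XT.lf (nat_lit 0) (nat_lit 357947084907) (nat_lit 76) (nat_lit 24100041923) (nat_lit 76) (nat_lit 9167308615) (nat_lit 3) (nat_lit 4) (nat_lit 4) (nat_lit 5) (nat_lit 4) (nat_lit 4) (nat_lit 312) (nat_lit 232) (nat_lit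 176)))) (XT.nd (nat_lit 156) (nat_lit 0) (nat_lit 0) (XT.nd (nat_lit 78) (nat_lit 0) (nat_lit 0) (XT.lf (nat_lit 0) (nat_lit 392999871858) (nat_lit 76) (nat_lit 22131918774) (nat_lit 76) (nat_lit 7184121130) (nat_lit 3) (nat_lit 4) (nat_lit 4) (nat_lit 5) (nat_lit 4) (nat_lit 4) (nat_lit 313) (nat_lit 232) (nat_lit 175)) (XT.lf (nat_lit 0) (nat_lit 430844891915) (nat_lit 76) (nat_lit 20011362993) (nat_lit 76) (nat_lit 5049616890) (nat_lit 3) (nat_lit 4) (nat_lit 4) (nat_lit 5) (nat_lit 4) (nat_lit 4) (nat_lit 314) (nat_lit 232) (nat_lit 174))) (XT.nd (nat_lit 78) (nat_lit 0) (nat_lit 0) (XT.lf (nat_lit 0) (nat_lit 471706411865) (nat_lit 76) (nat_lit 17725808323) (nat_lit 76) (nat_lit 2751146982) (nat_lit 3) (nat_lit 4) (nat_lit 4) (nat_lit 5) (nat_lit 4) (nat_lit 4) (nat_lit 315) (nat_lit 232) (nat_lit 173)) (XT.lf (nat_lit 0) (nat_lit 515826574047) (nat_lit 76) (nat_lit 15261710738)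 (nat_lit 76) (nat_lit 275090842) (nat_lit 3) (nat_lit 4) (nat_lit 4) (nat_lit 5) (nat_lit 4) (nat_lit 4) (nat_lit 316) (nat_lit 232) (nat_lit 172)))))) (XT.nd (nat_lit 32916) (nat_lit 0) (nat_lit 1064) (XT.nd (nat_lit 32604) (nat_lit 0) (nat_lit 2280) (XT.nd (nat_lit 156) (nat_lit 76) (nat_lit 0) (XT.nd (nat_lit 78) (nat_lit 0) (nat_lit 0) (XT.lf (nat_lit 0) (nat_lit 2316626325) (nat_lit 152) (nat_lit 10248608664) (nat_lit 76) (nat_lit 561110971760) (nat_lit 2) (nat_lit 5) (nat_lit 4) (nat_lit 5) (nat_lit 3) (nat_lit 4) (nat_lit 317) (nat_lit 232) (nat_lit 171)) (XT.lf (nat_lit 0) (nat_lit 5100950680) (nat_lit 152) (nat_lit 4550996270) (nat_lit 76) (nat_lit 609722158434) (nat_lit 2) (nat_lit 5) (nat_lit 4) (nat_lit 5) (nat_lit 3) (nat_lit 4) (nat_lit 318) (nat_lit 232) (nat_lit 170))) (XT.nd (nat_lit 78) (nat_lit 0) (nat_lit 0) (XT.lf (nat_lit 0) (nat_lit 1646802121) (nat_lit 76) (nat_lit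 6482095621) (nat_lit 152) (nat_lit 660597905337) (nat_lit 1) (nat_lit 5) (nat_lit 2) (nat_lit 5) (nat_lit 3) (nat_lit 4) (nat_lit 319) (nat_lit 232) (nat_lit 169)) (XT.lf (nat_lit 0) (nat_lit 8494970098) (nat_lit 76) (nat_lit 2978785142) (nat_lit 152) (nat_lit 710550237808) (nat_lit 1) (nat_lit 5) (nat_lit 2) (nat_lit 5) (nat_lit 3) (nat_lit 4) (nat_lit 320) (nat_lit 232) (nat_lit 168)))) (XT.nd (nat_lit 156) (nat_lit 532) (nat_lit 0) (XT.nd (nat_lit 78) (nat_lit 304) (nat_lit 0) (XT.lf (nat_lit 0) (nat_lit 2332962118) (nat_lit 304) (nat_lit 885427334) (nat_lit 304) (nat_lit 885427334) (nat_lit 42) (nat_lit 4) (nat_lit 46) (nat_lit 5) (nat_lit 46) (nat_lit 4) (nat_lit 254) (nat_lit 233) (nat_lit 233)) (XT.lf (nat_lit 0) (nat_lit 2823618238) (nat_lit 304) (nat_lit 4557192007) (nat_lit 0) (nat_lit 1119777016) (nat_lit 38) (nat_lit 5) (nat_lit 42) (nat_lit 4) (nat_lit 38) (nat_lit 4) (nat_lit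 255) (nat_lit 233) (nat_lit 232))) (XT.nd (nat_lit 78) (nat_lit 304) (nat_lit 0) (XT.lf (nat_lit 0) (nat_lit 2974502996) (nat_lit 228) (nat_lit 4566766228) (nat_lit 228) (nat_lit 1285294244) (nat_lit 35) (nat_lit 4) (nat_lit 38) (nat_lit 5) (nat_lit 38) (nat_lit 4) (nat_lit 256) (nat_lit 233) (nat_lit 231)) (XT.lf (nat_lit 0) (nat_lit 1701537843) (nat_lit 228) (nat_lit 1441769011) (nat_lit 304) (nat_lit 6044492529) (nat_lit 31) (nat_lit 5) (nat_lit 34) (nat_lit 5) (nat_lit 35) (nat_lit 4) (nat_lit 257) (nat_lit 233) (nat_lit 230))))) (XT.nd (nat_lit 312) (nat_lit 456) (nat_lit 0) (XT.nd (nat_lit 156) (nat_lit 456) (nat_lit 0) (XT.nd (nat_lit 78) (nat_lit 76) (nat_lit 0) (XT.lf (nat_lit 0) (nat_lit 51409084) (nat_lit 228) (nat_lit 7669806966) (nat_lit 228) (nat_lit 1865230485) (nat_lit 28) (nat_lit 4) (nat_lit 31) (nat_lit 5) (nat_lit 31) (nat_lit 4) (nat_lit 258) (nat_lit 233) (nat_lit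 229)) (XT.lf (nat_lit 0) (nat_lit 2435337634) (nat_lit 304) (nat_lit 2004871627) (nat_lit 76) (nat_lit 5582505372) (nat_lit 27) (nat_lit 5) (nat_lit 31) (nat_lit 5) (nat_lit 28) (nat_lit 4) (nat_lit 259) (nat_lit 233) (nat_lit 228))) (XT.nd (nat_lit 78) (nat_lit 304) (nat_lit 0) (XT.lf (nat_lit 0) (nat_lit 5928568003) (nat_lit 152) (nat_lit 915465249) (nat_lit 228) (nat_lit 3658131143) (nat_lit 25) (nat_lit 5) (nat_lit 27) (nat_lit 5) (nat_lit 28) (nat_lit 4) (nat_lit 260) (nat_lit 233) (nat_lit 227)) (XT.lf (nat_lit 0) (nat_lit 443826130) (nat_lit 304) (nat_lit 7779947055) (nat_lit 76) (nat_lit 2803013728) (nat_lit 21) (nat_lit 5) (nat_lit 25) (nat_lit 5) (nat_lit 22) (nat_lit 4) (nat_lit 261) (nat_lit 233) (nat_lit 226)))) (XT.nd (nat_lit 156) (nat_lit 304) (nat_lit 0) (XT.nd (nat_lit 78) (nat_lit 152) (nat_lit 0) (XT.lf (nat_lit 0) (nat_lit 4601034385) (nat_lit 304) (nat_lit 159416154)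 (nat_lit 76) (nat_lit 6838212999) (nat_lit 21) (nat_lit 5) (nat_lit 25) (nat_lit 5) (nat_lit 22) (nat_lit 4) (nat_lit 262) (nat_lit 233) (nat_lit 225)) (XT.lf (nat_lit 0) (nat_lit 8004901273) (nat_lit 152) (nat_lit 986019671) (nat_lit 228) (nat_lit 3231332458) (nat_lit 19) (nat_lit 5) (nat_lit 21) (nat_lit 5) (nat_lit 22) (nat_lit 4) (nat_lit 263) (nat_lit 233) (nat_lit 224))) (XT.nd (nat_lit 78) (nat_lit 76) (nat_lit 0) (XT.lf (nat_lit 0) (nat_lit 700973122) (nat_lit 228) (nat_lit 9229279894) (nat_lit 76) (nat_lit 2971104854) (nat_lit 16) (nat_lit 5) (nat_lit 19) (nat_lit 5) (nat_lit 17) (nat_lit 4) (nat_lit 264) (nat_lit 233) (nat_lit 223)) (XT.nd (nat_lit 78) (nat_lit 76) (nat_lit 0) (XT.lf (nat_lit 0) (nat_lit 4719948492) (nat_lit 228) (nat_lit 1672128066) (nat_lit 76) (nat_lit 7246591272) (nat_lit 16) (nat_lit 5) (nat_lit 19) (nat_lit 5) (nat_lit 17) (nat_lit 4) (nat_lit 265) (nat_lit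 233) (nat_lit 222)) (XT.lf (nat_lit 0) (nat_lit 6405771773) (nat_lit 76) (nat_lit 2562541447) (nat_lit 152) (nat_lit 5471987784) (nat_lit 15) (nat_lit 5) (nat_lit 16) (nat_lit 5) (nat_lit 17) (nat_lit 4) (nat_lit 266) (nat_lit 233) (nat_lit 221))))))))
noncomputable def xc34 : XT := (XT.nd (nat_lit 1248) (nat_lit 152) (nat_lit 0) (XT.nd (nat_lit 624) (nat_lit 228) (nat_lit 0) (XT.nd (nat_lit 312) (nat_lit 228) (nat_lit 0) (XT.nd (nat_lit 156) (nat_lit 76) (nat_lit 0) (XT.nd (nat_lit 78) (nat_lit 228) (nat_lit 0) (XT.lf (nat_lit 0) (nat_lit 13427025934) (nat_lit 152) (nat_lit 424651624) (nat_lit 0) (nat_lit 1461541095) (nat_lit 15) (nat_lit 5) (nat_lit 17) (nat_lit 4) (nat_lit 15) (nat_lit 4) (nat_lit 267) (nat_lit 233) (nat_lit 220)) (XT.lf (nat_lit 0) (nat_lit 1916066695) (nat_lit 228) (nat_lit 8552970293) (nat_lit 76) (nat_lit 5786320683) (nat_lit 12) (nat_lit 5) (nat_lit 15) (nat_lit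 5) (nat_lit 13) (nat_lit 4) (nat_lit 268) (nat_lit 233) (nat_lit 219))) (XT.nd (nat_lit 78) (nat_lit 76) (nat_lit 0) (XT.lf (nat_lit 0) (nat_lit 5800196275) (nat_lit 228) (nat_lit 1067747413) (nat_lit 76) (nat_lit 10411742844) (nat_lit 12) (nat_lit 5) (nat_lit 15) (nat_lit 5) (nat_lit 13) (nat_lit 4) (nat_lit 269) (nat_lit 233) (nat_lit 218)) (XT.lf (nat_lit 0) (nat_lit 7001422147) (nat_lit 76) (nat_lit 2950511203) (nat_lit 152) (nat_lit 8436696904) (nat_lit 11) (nat_lit 5) (nat_lit 12) (nat_lit 5) (nat_lit 13) (nat_lit 4) (nat_lit 270) (nat_lit 233) (nat_lit 217)))) (XT.nd (nat_lit 156) (nat_lit 76) (nat_lit 0) (XT.nd (nat_lit 78) (nat_lit 152) (nat_lit 0) (XT.lf (nat_lit 0) (nat_lit 14328681810) (nat_lit 152) (nat_lit 4086375704) (nat_lit 0) (nat_lit 1177062794) (nat_lit 11) (nat_lit 5) (nat_lit 13) (nat_lit 4) (nat_lit 11) (nat_lit 4) (nat_lit 271) (nat_lit 233) (nat_lit 216)) (XT.lf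 (nat_lit 0) (nat_lit 3647959240) (nat_lit 152) (nat_lit 15379111890) (nat_lit 152) (nat_lit 1866682693) (nat_lit 9) (nat_lit 4) (nat_lit 11) (nat_lit 5) (nat_lit 11) (nat_lit 4) (nat_lit 272) (nat_lit 233) (nat_lit 215))) (XT.nd (nat_lit 78) (nat_lit 0) (nat_lit 0) (XT.lf (nat_lit 0) (nat_lit 1685554955) (nat_lit 228) (nat_lit 10391125037) (nat_lit 76) (nat_lit 10224748324) (nat_lit 8) (nat_lit 5) (nat_lit 11) (nat_lit 5) (nat_lit 9) (nat_lit 4) (nat_lit 273) (nat_lit 233) (nat_lit 214)) (XT.lf (nat_lit 0) (nat_lit 5336207325) (nat_lit 228) (nat_lit 3216624254) (nat_lit 76) (nat_lit 15273732065) (nat_lit 8) (nat_lit 5) (nat_lit 11) (nat_lit 5) (nat_lit 9) (nat_lit 4) (nat_lit 274) (nat_lit 233) (nat_lit 213))))) (XT.nd (nat_lit 312) (nat_lit 152) (nat_lit 0) (XT.nd (nat_lit 156) (nat_lit 0) (nat_lit 0) (XT.nd (nat_lit 78) (nat_lit 0) (nat_lit 0) (XT.lf (nat_lit 0) (nat_lit 4493177204)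 (nat_lit 76) (nat_lit 4743627297) (nat_lit 152) (nat_lit 16239342795) (nat_lit 7) (nat_lit 5) (nat_lit 8) (nat_lit 5) (nat_lit 9) (nat_lit 4) (nat_lit 275) (nat_lit 233) (nat_lit 212)) (XT.lf (nat_lit 0) (nat_lit 12760088162) (nat_lit 76) (nat_lit 638724735) (nat_lit 152) (nat_lit 13861724100) (nat_lit 7) (nat_lit 5) (nat_lit 8) (nat_lit 5) (nat_lit 9) (nat_lit 4) (nat_lit 276) (nat_lit 233) (nat_lit 211))) (XT.nd (nat_lit 78) (nat_lit 0) (nat_lit 0) (XT.lf (nat_lit 0) (nat_lit 17853277937) (nat_lit 152) (nat_lit 7724422070) (nat_lit 0) (nat_lit 3612287818) (nat_lit 7) (nat_lit 5) (nat_lit 9) (nat_lit 4) (nat_lit 7) (nat_lit 4) (nat_lit 277) (nat_lit 233) (nat_lit 210)) (XT.lf (nat_lit 0) (nat_lit 22582511077) (nat_lit 152) (nat_lit 570650192) (nat_lit 0) (nat_lit 8124976561) (nat_lit 7) (nat_lit 5) (nat_lit 9) (nat_lit 4) (nat_lit 7) (nat_lit 4) (nat_lit 278) (nat_lit 233) (nat_lit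 209)))) (XT.nd (nat_lit 156) (nat_lit 76) (nat_lit 0) (XT.nd (nat_lit 78) (nat_lit 0) (nat_lit 0) (XT.lf (nat_lit 0) (nat_lit 7245120920) (nat_lit 76) (nat_lit 20472560842) (nat_lit 76) (nat_lit 5814522254) (nat_lit 6) (nat_lit 4) (nat_lit 7) (nat_lit 5) (nat_lit 7) (nat_lit 4) (nat_lit 279) (nat_lit 233) (nat_lit 208)) (XT.lf (nat_lit 0) (nat_lit 15570519299) (nat_lit 76) (nat_lit 17621780530) (nat_lit 76) (nat_lit 2778090025) (nat_lit 6) (nat_lit 4) (nat_lit 7) (nat_lit 5) (nat_lit 7) (nat_lit 4) (nat_lit 280) (nat_lit 233) (nat_lit 207))) (XT.nd (nat_lit 78) (nat_lit 0) (nat_lit 0) (XT.lf (nat_lit 0) (nat_lit 408492755) (nat_lit 152) (nat_lit 14178180279) (nat_lit 76) (nat_lit 24020601588) (nat_lit 5) (nat_lit 5) (nat_lit 7) (nat_lit 5) (nat_lit 6) (nat_lit 4) (nat_lit 281) (nat_lit 233) (nat_lit 206)) (XT.lf (nat_lit 0) (nat_lit 3682934963) (nat_lit 152) (nat_lit 7624740350) (nat_lit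 76) (nat_lit 30148829127) (nat_lit 5) (nat_lit 5) (nat_lit 7) (nat_lit 5) (nat_lit 6) (nat_lit 4) (nat_lit 282) (nat_lit 233) (nat_lit 205)))))) (XT.nd (nat_lit 624) (nat_lit 76) (nat_lit 0) (XT.nd (nat_lit 312) (nat_lit 0) (nat_lit 0) (XT.nd (nat_lit 156) (nat_lit 0) (nat_lit 0) (XT.nd (nat_lit 78) (nat_lit 76) (nat_lit 0) (XT.lf (nat_lit 0) (nat_lit 7153556930) (nat_lit 152) (nat_lit 657341795) (nat_lit 76) (nat_lit 36726233593) (nat_lit 5) (nat_lit 5) (nat_lit 7) (nat_lit 5) (nat_lit 6) (nat_lit 4) (nat_lit 283) (nat_lit 233) (nat_lit 204)) (XT.lf (nat_lit 0) (nat_lit 6988995164) (nat_lit 76) (nat_lit 3961047942) (nat_lit 152) (nat_lit 36911914834) (nat_lit 4) (nat_lit 5) (nat_lit 5) (nat_lit 5) (nat_lit 6) (nat_lit 4) (nat_lit 284) (nat_lit 233) (nat_lit 203))) (XT.nd (nat_lit 78) (nat_lit 0) (nat_lit 0) (XT.lf (nat_lit 0) (nat_lit 15006420156) (nat_lit 152) (nat_lit 36285071770)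 (nat_lit 0) (nat_lit 163615603) (nat_lit 4) (nat_lit 5) (nat_lit 6) (nat_lit 4) (nat_lit 4) (nat_lit 4) (nat_lit 285) (nat_lit 233) (nat_lit 202)) (XT.lf (nat_lit 0) (nat_lit 19399895409) (nat_lit 152) (nat_lit 31489650222) (nat_lit 0) (nat_lit 4445669713) (nat_lit 4) (nat_lit 5) (nat_lit 6) (nat_lit 4) (nat_lit 4) (nat_lit 4) (nat_lit 286) (nat_lit 233) (nat_lit 201)))) (XT.nd (nat_lit 156) (nat_lit 0) (nat_lit 0) (XT.nd (nat_lit 78) (nat_lit 0) (nat_lit 0) (XT.lf (nat_lit 0) (nat_lit 24094661215) (nat_lit 152) (nat_lit 26396437761) (nat_lit 0) (nat_lit 9037267795) (nat_lit 4) (nat_lit 5) (nat_lit 6) (nat_lit 4) (nat_lit 4) (nat_lit 4) (nat_lit 287) (nat_lit 233) (nat_lit 200)) (XT.lf (nat_lit 0) (nat_lit 29118538409) (nat_lit 152) (nat_lit 20975252388) (nat_lit 0) (nat_lit 13965619318) (nat_lit 4) (nat_lit 5) (nat_lit 6) (nat_lit 4) (nat_lit 4) (nat_lit 4) (nat_lit 288) (nat_lit 233)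 (nat_lit 199))) (XT.nd (nat_lit 78) (nat_lit 0) (nat_lit 0) (XT.lf (nat_lit 0) (nat_lit 34501298114) (nat_lit 152) (nat_lit 15193968558) (nat_lit 0) (nat_lit 19259929328) (nat_lit 4) (nat_lit 5) (nat_lit 6) (nat_lit 4) (nat_lit 4) (nat_lit 4) (nat_lit 289) (nat_lit 233) (nat_lit 198)) (XT.lf (nat_lit 0) (nat_lit 40274838167) (nat_lit 152) (nat_lit 9018326814) (nat_lit 0) (nat_lit 24951571515) (nat_lit 4) (nat_lit 5) (nat_lit 6) (nat_lit 4) (nat_lit 4) (nat_lit 4) (nat_lit 290) (nat_lit 233) (nat_lit 197))))) (XT.nd (nat_lit 312) (nat_lit 0) (nat_lit 0) (XT.nd (nat_lit 156) (nat_lit 0) (nat_lit 0) (XT.nd (nat_lit 78) (nat_lit 76) (nat_lit 0) (XT.lf (nat_lit 0) (nat_lit 46473372138) (nat_lit 152) (nat_lit 2411730758) (nat_lit 0) (nat_lit 31074274128) (nat_lit 4) (nat_lit 5) (nat_lit 6) (nat_lit 4) (nat_lit 4) (nat_lit 4) (nat_lit 291) (nat_lit 233) (nat_lit 196)) (XT.lf (nat_lit 0) (nat_lit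 4819214776) (nat_lit 76) (nat_lit 48389658751) (nat_lit 76) (nat_lit 32920346522) (nat_lit 3) (nat_lit 4) (nat_lit 4) (nat_lit 5) (nat_lit 4) (nat_lit 4) (nat_lit 292) (nat_lit 233) (nat_lit 195))) (XT.nd (nat_lit 78) (nat_lit 0) (nat_lit 0) (XT.lf (nat_lit 0) (nat_lit 12658873907) (nat_lit 76) (nat_lit 47833852790) (nat_lit 76) (nat_lit 32299527394) (nat_lit 3) (nat_lit 4) (nat_lit 4) (nat_lit 5) (nat_lit 4) (nat_lit 4) (nat_lit 293) (nat_lit 233) (nat_lit 194)) (XT.lf (nat_lit 0) (nat_lit 21073961161) (nat_lit 76) (nat_lit 47255235174) (nat_lit 76) (nat_lit 31660712402) (nat_lit 3) (nat_lit 4) (nat_lit 4) (nat_lit 5) (nat_lit 4) (nat_lit 4) (nat_lit 294) (nat_lit 233) (nat_lit 193)))) (XT.nd (nat_lit 156) (nat_lit 0) (nat_lit 0) (XT.nd (nat_lit 78) (nat_lit 0) (nat_lit 0) (XT.lf (nat_lit 0) (nat_lit 30114343724) (nat_lit 76) (nat_lit 46650377060) (nat_lit 76) (nat_lit 31000115976)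 (nat_lit 3) (nat_lit 4) (nat_lit 4) (nat_lit 5) (nat_lit 4) (nat_lit 4) (nat_lit 295) (nat_lit 233) (nat_lit 192)) (XT.lf (nat_lit 0) (nat_lit 39833594233) (nat_lit 76) (nat_lit 46015694102) (nat_lit 76) (nat_lit 30313823470) (nat_lit 3) (nat_lit 4) (nat_lit 4) (nat_lit 5) (nat_lit 4) (nat_lit 4) (nat_lit 296) (nat_lit 233) (nat_lit 191))) (XT.nd (nat_lit 78) (nat_lit 0) (nat_lit 0) (XT.lf (nat_lit 0) (nat_lit 50289308245) (nat_lit 76) (nat_lit 45347425217) (nat_lit 76) (nat_lit 29597767967) (nat_lit 3) (nat_lit 4) (nat_lit 4) (nat_lit 5) (nat_lit 4) (nat_lit 4) (nat_lit 297) (nat_lit 233) (nat_lit 190)) (XT.nd (nat_lit 78) (nat_lit 0) (nat_lit 0) (XT.lf (nat_lit 0) (nat_lit 61543445548) (nat_lit 76) (nat_lit 44641610291) (nat_lit 76) (nat_lit 28847706173) (nat_lit 3) (nat_lit 4) (nat_lit 4) (nat_lit 5) (nat_lit 4) (nat_lit 4) (nat_lit 298) (nat_lit 233) (nat_lit 189)) (XT.lf (nat_lit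 0) (nat_lit 73662697325) (nat_lit 76) (nat_lit 43894066720) (nat_lit 76) (nat_lit 28059193278) (nat_lit 3) (nat_lit 4) (nat_lit 4) (nat_lit 5) (nat_lit 4) (nat_lit 4) (nat_lit 299) (nat_lit 233) (nat_lit 188))))))))
noncomputable def xc35 : XT := (XT.nd (nat_lit 1248) (nat_lit 152) (nat_lit 0) (XT.nd (nat_lit 624) (nat_lit 0) (nat_lit 0) (XT.nd (nat_lit 312) (nat_lit 0) (nat_lit 0) (XT.nd (nat_lit 156) (nat_lit 0) (nat_lit 0) (XT.nd (nat_lit 78) (nat_lit 0) (nat_lit 0) (XT.lf (nat_lit 0) (nat_lit 86718881366) (nat_lit 76) (nat_lit 43100364614) (nat_lit 76) (nat_lit 27227556614) (nat_lit 3) (nat_lit 4) (nat_lit 4) (nat_lit 5) (nat_lit 4) (nat_lit 4) (nat_lit 300) (nat_lit 233) (nat_lit 187)) (XT.lf (nat_lit 0) (nat_lit 100789367650) (nat_lit 76) (nat_lit 42255800553) (nat_lit 76) (nat_lit 26347867962) (nat_lit 3) (nat_lit 4) (nat_lit 4) (nat_lit 5) (nat_lit 4) (nat_lit 4) (nat_lit 301)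 (nat_lit 233) (nat_lit 186))) (XT.nd (nat_lit 78) (nat_lit 0) (nat_lit 0) (XT.lf (nat_lit 0) (nat_lit 115957536835) (nat_lit 76) (nat_lit 41355369714) (nat_lit 76) (nat_lit 25414914354) (nat_lit 3) (nat_lit 4) (nat_lit 4) (nat_lit 5) (nat_lit 4) (nat_lit 4) (nat_lit 302) (nat_lit 233) (nat_lit 185)) (XT.lf (nat_lit 0) (nat_lit 132313274369) (nat_lit 76) (nat_lit 40393736211) (nat_lit 76) (nat_lit 24423167175) (nat_lit 3) (nat_lit 4) (nat_lit 4) (nat_lit 5) (nat_lit 4) (nat_lit 4) (nat_lit 303) (nat_lit 233) (nat_lit 184)))) (XT.nd (nat_lit 156) (nat_lit 0) (nat_lit 0) (XT.nd (nat_lit 78) (nat_lit 0) (nat_lit 0) (XT.lf (nat_lit 0) (nat_lit 149953503142) (nat_lit 76) (nat_lit 39365201474) (nat_lit 76) (nat_lit 23366749405) (nat_lit 3) (nat_lit 4) (nat_lit 4) (nat_lit 5) (nat_lit 4) (nat_lit 4) (nat_lit 304) (nat_lit 233) (nat_lit 183)) (XT.lf (nat_lit 0) (nat_lit 168982757842) (nat_lit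 76) (nat_lit 38263670482) (nat_lit 76) (nat_lit 22239400791) (nat_lit 3) (nat_lit 4) (nat_lit 4) (nat_lit 5) (nat_lit 4) (nat_lit 4) (nat_lit 305) (nat_lit 233) (nat_lit 182))) (XT.nd (nat_lit 78) (nat_lit 0) (nat_lit 0) (XT.lf (nat_lit 0) (nat_lit 189513804422) (nat_lit 76) (nat_lit 37082615645) (nat_lit 76) (nat_lit 21034440747) (nat_lit 3) (nat_lit 4) (nat_lit 4) (nat_lit 5) (nat_lit 4) (nat_lit 4) (nat_lit 306) (nat_lit 233) (nat_lit 181)) (XT.lf (nat_lit 0) (nat_lit 211668308345) (nat_lit 76) (nat_lit 35815038119) (nat_lit 76) (nat_lit 19744728771) (nat_lit 3) (nat_lit 4) (nat_lit 4) (nat_lit 5) (nat_lit 4) (nat_lit 4) (nat_lit 307) (nat_lit 233) (nat_lit 180))))) (XT.nd (nat_lit 312) (nat_lit 0) (nat_lit 0) (XT.nd (nat_lit 156) (nat_lit 0) (nat_lit 0) (XT.nd (nat_lit 78) (nat_lit 0) (nat_lit 0) (XT.lf (nat_lit 0) (nat_lit 235577555559) (nat_lit 76) (nat_lit 34453426334) (nat_lit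 76) (nat_lit 18362622124) (nat_lit 3) (nat_lit 4) (nat_lit 4) (nat_lit 5) (nat_lit 4) (nat_lit 4) (nat_lit 308) (nat_lit 233) (nat_lit 179)) (XT.lf (nat_lit 0) (nat_lit 261383230493) (nat_lit 76) (nat_lit 32989711478) (nat_lit 76) (nat_lit 16879930545) (nat_lit 3) (nat_lit 4) (nat_lit 4) (nat_lit 5) (nat_lit 4) (nat_lit 4) (nat_lit 309) (nat_lit 233) (nat_lit 178))) (XT.nd (nat_lit 78) (nat_lit 0) (nat_lit 0) (XT.lf (nat_lit 0) (nat_lit 289238255663) (nat_lit 76) (nat_lit 31415219687) (nat_lit 76) (nat_lit 15287867714) (nat_lit 3) (nat_lit 4) (nat_lit 4) (nat_lit 5) (nat_lit 4) (nat_lit 4) (nat_lit 310) (nat_lit 233) (nat_lit 177)) (XT.lf (nat_lit 0) (nat_lit 319307697887) (nat_lit 76) (nat_lit 29720620638) (nat_lit 76) (nat_lit 13576999183) (nat_lit 3) (nat_lit 4) (nat_lit 4) (nat_lit 5) (nat_lit 4) (nat_lit 4) (nat_lit 311) (nat_lit 233) (nat_lit 176)))) (XT.nd (nat_lit 156) (nat_lit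 0) (nat_lit 0) (XT.nd (nat_lit 78) (nat_lit 0) (nat_lit 0) (XT.lf (nat_lit 0) (nat_lit 351769746452) (nat_lit 76) (nat_lit 27895872264) (nat_lit 76) (nat_lit 11737186473) (nat_lit 3) (nat_lit 4) (nat_lit 4) (nat_lit 5) (nat_lit 4) (nat_lit 4) (nat_lit 312) (nat_lit 233) (nat_lit 175)) (XT.lf (nat_lit 0) (nat_lit 386816769052) (nat_lit 76) (nat_lit 25930161239) (nat_lit 76) (nat_lit 9757526990) (nat_lit 3) (nat_lit 4) (nat_lit 4) (nat_lit 5) (nat_lit 4) (nat_lit 4) (nat_lit 313) (nat_lit 233) (nat_lit 174))) (XT.nd (nat_lit 78) (nat_lit 0) (nat_lit 0) (XT.lf (nat_lit 0) (nat_lit 424656451747) (nat_lit 76) (nat_lit 23811838907) (nat_lit 76) (nat_lit 7626289419) (nat_lit 3) (nat_lit 4) (nat_lit 4) (nat_lit 5) (nat_lit 4) (nat_lit 4) (nat_lit 314) (nat_lit 233) (nat_lit 173)) (XT.lf (nat_lit 0) (nat_lit 465513029695) (nat_lit 76) (nat_lit 21528352246) (nat_lit 76) (nat_lit 5330844204) (nat_lit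 3) (nat_lit 4) (nat_lit 4) (nat_lit 5) (nat_lit 4) (nat_lit 4) (nat_lit 315) (nat_lit 233) (nat_lit 172)))))) (XT.nd (nat_lit 32760) (nat_lit 0) (nat_lit 1368) (XT.nd (nat_lit 312) (nat_lit 76) (nat_lit 0) (XT.nd (nat_lit 156) (nat_lit 76) (nat_lit 0) (XT.nd (nat_lit 78) (nat_lit 0) (nat_lit 0) (XT.lf (nat_lit 0) (nat_lit 509628615950) (nat_lit 76) (nat_lit 19066169484) (nat_lit 76) (nat_lit 2857588705) (nat_lit 3) (nat_lit 4) (nat_lit 4) (nat_lit 5) (nat_lit 4) (nat_lit 4) (nat_lit 316) (nat_lit 233) (nat_lit 171)) (XT.lf (nat_lit 0) (nat_lit 557264636207) (nat_lit 76) (nat_lit 16410699907) (nat_lit 76) (nat_lit 191866595) (nat_lit 3) (nat_lit 4) (nat_lit 4) (nat_lit 5) (nat_lit 4) (nat_lit 4) (nat_lit 317) (nat_lit 233) (nat_lit 170))) (XT.nd (nat_lit 78) (nat_lit 0) (nat_lit 0) (XT.lf (nat_lit 0) (nat_lit 2596274439) (nat_lit 152) (nat_lit 10905963796) (nat_lit 76) (nat_lit 606063134392)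 (nat_lit 2) (nat_lit 5) (nat_lit 4) (nat_lit 5) (nat_lit 3) (nat_lit 4) (nat_lit 318) (nat_lit 233) (nat_lit 169)) (XT.lf (nat_lit 0) (nat_lit 5596358223) (nat_lit 152) (nat_lit 4764581934) (nat_lit 76) (nat_lit 658558528229) (nat_lit 2) (nat_lit 5) (nat_lit 4) (nat_lit 5) (nat_lit 3) (nat_lit 4) (nat_lit 319) (nat_lit 233) (nat_lit 168)))) (XT.nd (nat_lit 32292) (nat_lit 0) (nat_lit 3116) (XT.nd (nat_lit 32214) (nat_lit 0) (nat_lit 3800) (XT.lf (nat_lit 0) (nat_lit 1922500041) (nat_lit 76) (nat_lit 6939819532) (nat_lit 152) (nat_lit 713358288128) (nat_lit 1) (nat_lit 5) (nat_lit 2) (nat_lit 5) (nat_lit 3) (nat_lit 4) (nat_lit 320) (nat_lit 233) (nat_lit 167)) (XT.lf (nat_lit 0) (nat_lit 2893831268) (nat_lit 456) (nat_lit 479560230) (nat_lit 456) (nat_lit 479560230) (nat_lit 51) (nat_lit 4) (nat_lit 57) (nat_lit 5) (nat_lit 57) (nat_lit 4) (nat_lit 252) (nat_lit 234) (nat_lit 234)))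 (XT.nd (nat_lit 78) (nat_lit 304) (nat_lit 0) (XT.lf (nat_lit 0) (nat_lit 3563924963) (nat_lit 380) (nat_lit 2750147674) (nat_lit 0) (nat_lit 1631769016) (nat_lit 46) (nat_lit 5) (nat_lit 51) (nat_lit 4) (nat_lit 46) (nat_lit 4) (nat_lit 253) (nat_lit 234) (nat_lit 233)) (XT.lf (nat_lit 0) (nat_lit 4479914361) (nat_lit 304) (nat_lit 3728978881) (nat_lit 304) (nat_lit 7789650) (nat_lit 42) (nat_lit 4) (nat_lit 46) (nat_lit 5) (nat_lit 46) (nat_lit 4) (nat_lit 254) (nat_lit 234) (nat_lit 232))))) (XT.nd (nat_lit 312) (nat_lit 912) (nat_lit 0) (XT.nd (nat_lit 156) (nat_lit 228) (nat_lit 0) (XT.nd (nat_lit 78) (nat_lit 304) (nat_lit 0) (XT.lf (nat_lit 0) (nat_lit 3548357048) (nat_lit 228) (nat_lit 805817868) (nat_lit 304) (nat_lit 4163812800) (nat_lit 38) (nat_lit 5) (nat_lit 41) (nat_lit 5) (nat_lit 42) (nat_lit 4) (nat_lit 255) (nat_lit 234) (nat_lit 231)) (XT.lf (nat_lit 0) (nat_lit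 51712334) (nat_lit 304) (nat_lit 6476379443) (nat_lit 76) (nat_lit 2324951465) (nat_lit 34) (nat_lit 5) (nat_lit 38) (nat_lit 5) (nat_lit 35) (nat_lit 4) (nat_lit 256) (nat_lit 234) (nat_lit 230))) (XT.nd (nat_lit 78) (nat_lit 0) (nat_lit 0) (XT.lf (nat_lit 0) (nat_lit 854444432) (nat_lit 228) (nat_lit 3433066912) (nat_lit 304) (nat_lit 4934101734) (nat_lit 31) (nat_lit 5) (nat_lit 34) (nat_lit 5) (nat_lit 35) (nat_lit 4) (nat_lit 257) (nat_lit 234) (nat_lit 229)) (XT.lf (nat_lit 0) (nat_lit 8653638591) (nat_lit 228) (nat_lit 49271935) (nat_lit 304) (nat_lit 926173395) (nat_lit 31) (nat_lit 5) (nat_lit 34) (nat_lit 5) (nat_lit 35) (nat_lit 4) (nat_lit 258) (nat_lit 234) (nat_lit 228)))) (XT.nd (nat_lit 156) (nat_lit 456) (nat_lit 0) (XT.nd (nat_lit 78) (nat_lit 152) (nat_lit 0) (XT.lf (nat_lit 0) (nat_lit 3200653581) (nat_lit 304) (nat_lit 3292882724) (nat_lit 76) (nat_lit 3578882606)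 (nat_lit 27) (nat_lit 5) (nat_lit 31) (nat_lit 5) (nat_lit 28) (nat_lit 4) (nat_lit 259) (nat_lit 234) (nat_lit 227)) (XT.lf (nat_lit 0) (nat_lit 4433591758) (nat_lit 152) (nat_lit 3034893272) (nat_lit 228) (nat_lit 3090996932) (nat_lit 25) (nat_lit 5) (nat_lit 27) (nat_lit 5) (nat_lit 28) (nat_lit 4) (nat_lit 260) (nat_lit 234) (nat_lit 226))) (XT.nd (nat_lit 78) (nat_lit 152) (nat_lit 0) (XT.lf (nat_lit 0) (nat_lit 817507642) (nat_lit 304) (nat_lit 9584714929) (nat_lit 76) (nat_lit 690706938) (nat_lit 21) (nat_lit 5) (nat_lit 25) (nat_lit 5) (nat_lit 22) (nat_lit 4) (nat_lit 261) (nat_lit 234) (nat_lit 225)) (XT.nd (nat_lit 78) (nat_lit 152) (nat_lit 0) (XT.lf (nat_lit 0) (nat_lit 4866601812) (nat_lit 304) (nat_lit 2119021902) (nat_lit 76) (nat_lit 4685053602) (nat_lit 21) (nat_lit 5) (nat_lit 25) (nat_lit 5) (nat_lit 22) (nat_lit 4) (nat_lit 262) (nat_lit 234) (nat_lit 224)) (XT.lf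 (nat_lit 0) (nat_lit 5832393301) (nat_lit 152) (nat_lit 3290070498) (nat_lit 228) (nat_lit 3178935608) (nat_lit 19) (nat_lit 5) (nat_lit 21) (nat_lit 5) (nat_lit 22) (nat_lit 4) (nat_lit 263) (nat_lit 234) (nat_lit 223))))))))
noncomputable def xc36 : XT := (XT.nd (nat_lit 1248) (nat_lit 228) (nat_lit 0) (XT.nd (nat_lit 624) (nat_lit 380) (nat_lit 0) (XT.nd (nat_lit 312) (nat_lit 304) (nat_lit 0) (XT.nd (nat_lit 156) (nat_lit 76) (nat_lit 0) (XT.nd (nat_lit 78) (nat_lit 0) (nat_lit 0) (XT.lf (nat_lit 0) (nat_lit 579042520) (nat_lit 228) (nat_lit 11750574788) (nat_lit 76) (nat_lit 659858253) (nat_lit 16) (nat_lit 5) (nat_lit 19) (nat_lit 5) (nat_lit 17) (nat_lit 4) (nat_lit 264) (nat_lit 234) (nat_lit 222)) (XT.lf (nat_lit 0) (nat_lit 4505642543) (nat_lit 228) (nat_lit 4332292593) (nat_lit 76) (nat_lit 4893821067) (nat_lit 16) (nat_lit 5) (nat_lit 19) (nat_lit 5) (nat_lit 17) (nat_lit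 4) (nat_lit 265) (nat_lit 234) (nat_lit 221))) (XT.nd (nat_lit 78) (nat_lit 0) (nat_lit 0) (XT.lf (nat_lit 0) (nat_lit 3524815665) (nat_lit 76) (nat_lit 5098679078) (nat_lit 152) (nat_lit 5916746107) (nat_lit 15) (nat_lit 5) (nat_lit 16) (nat_lit 5) (nat_lit 17) (nat_lit 4) (nat_lit 266) (nat_lit 234) (nat_lit 220)) (XT.lf (nat_lit 0) (nat_lit 11909367896) (nat_lit 76) (nat_lit 1068149052) (nat_lit 152) (nat_lit 2441177789) (nat_lit 15) (nat_lit 5) (nat_lit 16) (nat_lit 5) (nat_lit 17) (nat_lit 4) (nat_lit 267) (nat_lit 234) (nat_lit 219)))) (XT.nd (nat_lit 156) (nat_lit 76) (nat_lit 0) (XT.nd (nat_lit 78) (nat_lit 0) (nat_lit 0) (XT.lf (nat_lit 0) (nat_lit 1232450585) (nat_lit 228) (nat_lit 11945520820) (nat_lit 76) (nat_lit 3190881353) (nat_lit 12) (nat_lit 5) (nat_lit 15) (nat_lit 5) (nat_lit 13) (nat_lit 4) (nat_lit 268) (nat_lit 234) (nat_lit 218)) (XT.lf (nat_lit 0) (nat_lit 5043294255)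 (nat_lit 228) (nat_lit 4575182739) (nat_lit 76) (nat_lit 7778615270) (nat_lit 12) (nat_lit 5) (nat_lit 15) (nat_lit 5) (nat_lit 13) (nat_lit 4) (nat_lit 269) (nat_lit 234) (nat_lit 217))) (XT.nd (nat_lit 78) (nat_lit 0) (nat_lit 0) (XT.lf (nat_lit 0) (nat_lit 3268123122) (nat_lit 76) (nat_lit 5800763624) (nat_lit 152) (nat_lit 9443684573) (nat_lit 11) (nat_lit 5) (nat_lit 12) (nat_lit 5) (nat_lit 13) (nat_lit 4) (nat_lit 270) (nat_lit 234) (nat_lit 216)) (XT.lf (nat_lit 0) (nat_lit 11690627812) (nat_lit 76) (nat_lit 1671603022) (nat_lit 152) (nat_lit 6358211963) (nat_lit 11) (nat_lit 5) (nat_lit 12) (nat_lit 5) (nat_lit 13) (nat_lit 4) (nat_lit 271) (nat_lit 234) (nat_lit 215))))) (XT.nd (nat_lit 312) (nat_lit 152) (nat_lit 0) (XT.nd (nat_lit 156) (nat_lit 0) (nat_lit 0) (XT.nd (nat_lit 78) (nat_lit 228) (nat_lit 0) (XT.lf (nat_lit 0) (nat_lit 17917379517) (nat_lit 152) (nat_lit 482992084)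 (nat_lit 0) (nat_lit 2629062304) (nat_lit 11) (nat_lit 5) (nat_lit 13) (nat_lit 4) (nat_lit 11) (nat_lit 4) (nat_lit 272) (nat_lit 234) (nat_lit 214)) (XT.lf (nat_lit 0) (nat_lit 413836977) (nat_lit 228) (nat_lit 14749287983) (nat_lit 76) (nat_lit 7278438376) (nat_lit 8) (nat_lit 5) (nat_lit 11) (nat_lit 5) (nat_lit 9) (nat_lit 4) (nat_lit 273) (nat_lit 234) (nat_lit 213))) (XT.nd (nat_lit 78) (nat_lit 0) (nat_lit 0) (XT.lf (nat_lit 0) (nat_lit 4010518928) (nat_lit 228) (nat_lit 7662512738) (nat_lit 76) (nat_lit 12296525196) (nat_lit 8) (nat_lit 5) (nat_lit 11) (nat_lit 5) (nat_lit 9) (nat_lit 4) (nat_lit 274) (nat_lit 234) (nat_lit 212)) (XT.lf (nat_lit 0) (nat_lit 7790992407) (nat_lit 228) (nat_lit 177748359) (nat_lit 76) (nat_lit 17656553784) (nat_lit 8) (nat_lit 5) (nat_lit 11) (nat_lit 5) (nat_lit 9) (nat_lit 4) (nat_lit 275) (nat_lit 234) (nat_lit 211)))) (XT.nd (nat_lit 156)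 (nat_lit 76) (nat_lit 0) (XT.nd (nat_lit 78) (nat_lit 0) (nat_lit 0) (XT.lf (nat_lit 0) (nat_lit 8005588127) (nat_lit 76) (nat_lit 3897061759) (nat_lit 152) (nat_lit 15509688809) (nat_lit 7) (nat_lit 5) (nat_lit 8) (nat_lit 5) (nat_lit 9) (nat_lit 4) (nat_lit 276) (nat_lit 234) (nat_lit 210)) (XT.lf (nat_lit 0) (nat_lit 16261839707) (nat_lit 152) (nat_lit 12653682301) (nat_lit 0) (nat_lit 431158033) (nat_lit 7) (nat_lit 5) (nat_lit 9) (nat_lit 4) (nat_lit 7) (nat_lit 4) (nat_lit 277) (nat_lit 234) (nat_lit 209))) (XT.nd (nat_lit 78) (nat_lit 76) (nat_lit 0) (XT.lf (nat_lit 0) (nat_lit 20949958545) (nat_lit 152) (nat_lit 5568271784) (nat_lit 0) (nat_lit 4918772800) (nat_lit 7) (nat_lit 5) (nat_lit 9) (nat_lit 4) (nat_lit 7) (nat_lit 4) (nat_lit 278) (nat_lit 234) (nat_lit 208)) (XT.lf (nat_lit 0) (nat_lit 2016864928) (nat_lit 76) (nat_lit 23948567776) (nat_lit 76) (nat_lit 7731730113)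 (nat_lit 6) (nat_lit 4) (nat_lit 7) (nat_lit 5) (nat_lit 7) (nat_lit 4) (nat_lit 279) (nat_lit 234) (nat_lit 207)))))) (XT.nd (nat_lit 624) (nat_lit 76) (nat_lit 0) (XT.nd (nat_lit 312) (nat_lit 76) (nat_lit 0) (XT.nd (nat_lit 156) (nat_lit 76) (nat_lit 0) (XT.nd (nat_lit 78) (nat_lit 0) (nat_lit 0) (XT.lf (nat_lit 0) (nat_lit 10281716584) (nat_lit 76) (nat_lit 21122139995) (nat_lit 76) (nat_lit 4733402408) (nat_lit 6) (nat_lit 4) (nat_lit 7) (nat_lit 5) (nat_lit 7) (nat_lit 4) (nat_lit 280) (nat_lit 234) (nat_lit 206)) (XT.lf (nat_lit 0) (nat_lit 19091147872) (nat_lit 76) (nat_lit 18116499163) (nat_lit 76) (nat_lit 1568594980) (nat_lit 6) (nat_lit 4) (nat_lit 7) (nat_lit 5) (nat_lit 7) (nat_lit 4) (nat_lit 281) (nat_lit 234) (nat_lit 205))) (XT.nd (nat_lit 78) (nat_lit 0) (nat_lit 0) (XT.lf (nat_lit 0) (nat_lit 1724429170) (nat_lit 152) (nat_lit 13160200862) (nat_lit 76) (nat_lit 26743729614)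 (nat_lit 5) (nat_lit 5) (nat_lit 7) (nat_lit 5) (nat_lit 6) (nat_lit 4) (nat_lit 282) (nat_lit 234) (nat_lit 204)) (XT.lf (nat_lit 0) (nat_lit 5165770680) (nat_lit 152) (nat_lit 6241910466) (nat_lit 76) (nat_lit 33302846475) (nat_lit 5) (nat_lit 5) (nat_lit 7) (nat_lit 5) (nat_lit 6) (nat_lit 4) (nat_lit 283) (nat_lit 234) (nat_lit 203)))) (XT.nd (nat_lit 156) (nat_lit 0) (nat_lit 0) (XT.nd (nat_lit 78) (nat_lit 0) (nat_lit 0) (XT.lf (nat_lit 0) (nat_lit 1172801453) (nat_lit 76) (nat_lit 7671536786) (nat_lit 152) (nat_lit 39196981376) (nat_lit 4) (nat_lit 5) (nat_lit 5) (nat_lit 5) (nat_lit 6) (nat_lit 4) (nat_lit 284) (nat_lit 234) (nat_lit 202)) (XT.lf (nat_lit 0) (nat_lit 9313118533) (nat_lit 76) (nat_lit 3559175452) (nat_lit 152) (nat_lit 38763661505) (nat_lit 4) (nat_lit 5) (nat_lit 5) (nat_lit 5) (nat_lit 6) (nat_lit 4) (nat_lit 285) (nat_lit 234) (nat_lit 201))) (XT.nd (nat_lit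 78) (nat_lit 0) (nat_lit 0) (XT.lf (nat_lit 0) (nat_lit 17186071945) (nat_lit 152) (nat_lit 37513117289) (nat_lit 0) (nat_lit 820919327) (nat_lit 4) (nat_lit 5) (nat_lit 6) (nat_lit 4) (nat_lit 4) (nat_lit 4) (nat_lit 286) (nat_lit 234) (nat_lit 200)) (XT.lf (nat_lit 0) (nat_lit 21858496464) (nat_lit 152) (nat_lit 32458118330) (nat_lit 0) (nat_lit 5397818175) (nat_lit 4) (nat_lit 5) (nat_lit 6) (nat_lit 4) (nat_lit 4) (nat_lit 4) (nat_lit 287) (nat_lit 234) (nat_lit 199))))) (XT.nd (nat_lit 312) (nat_lit 76) (nat_lit 0) (XT.nd (nat_lit 156) (nat_lit 0) (nat_lit 0) (XT.nd (nat_lit 78) (nat_lit 0) (nat_lit 0) (XT.lf (nat_lit 0) (nat_lit 26861687281) (nat_lit 152) (nat_lit 27072315829) (nat_lit 0) (nat_lit 10312559297) (nat_lit 4) (nat_lit 5) (nat_lit 6) (nat_lit 4) (nat_lit 4) (nat_lit 4) (nat_lit 288) (nat_lit 234) (nat_lit 198)) (XT.lf (nat_lit 0) (nat_lit 32225292935) (nat_lit 152)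 (nat_lit 21323793918) (nat_lit 0) (nat_lit 15594267084) (nat_lit 4) (nat_lit 5) (nat_lit 6) (nat_lit 4) (nat_lit 4) (nat_lit 4) (nat_lit 289) (nat_lit 234) (nat_lit 197))) (XT.nd (nat_lit 78) (nat_lit 0) (nat_lit 0) (XT.lf (nat_lit 0) (nat_lit 37981097753) (nat_lit 152) (nat_lit 15178487283) (nat_lit 0) (nat_lit 21274240545) (nat_lit 4) (nat_lit 5) (nat_lit 6) (nat_lit 4) (nat_lit 4) (nat_lit 4) (nat_lit 290) (nat_lit 234) (nat_lit 196)) (XT.lf (nat_lit 0) (nat_lit 44163210211) (nat_lit 152) (nat_lit 8599979292) (nat_lit 0) (nat_lit 27386138783) (nat_lit 4) (nat_lit 5) (nat_lit 6) (nat_lit 4) (nat_lit 4) (nat_lit 4) (nat_lit 291) (nat_lit 234) (nat_lit 195)))) (XT.nd (nat_lit 156) (nat_lit 0) (nat_lit 0) (XT.nd (nat_lit 78) (nat_lit 76) (nat_lit 0) (XT.lf (nat_lit 0) (nat_lit 50808265048) (nat_lit 152) (nat_lit 1549286194) (nat_lit 0) (nat_lit 33966180454) (nat_lit 4) (nat_lit 5) (nat_lit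 6) (nat_lit 4) (nat_lit 4) (nat_lit 4) (nat_lit 292) (nat_lit 234) (nat_lit 194)) (XT.lf (nat_lit 0) (nat_lit 6214269323) (nat_lit 76) (nat_lit 51838393204) (nat_lit 76) (nat_lit 34936111233) (nat_lit 3) (nat_lit 4) (nat_lit 4) (nat_lit 5) (nat_lit 4) (nat_lit 4) (nat_lit 293) (nat_lit 234) (nat_lit 193))) (XT.nd (nat_lit 78) (nat_lit 0) (nat_lit 0) (XT.lf (nat_lit 0) (nat_lit 14606322120) (nat_lit 76) (nat_lit 51269414488) (nat_lit 76) (nat_lit 34311394205) (nat_lit 3) (nat_lit 4) (nat_lit 4) (nat_lit 5) (nat_lit 4) (nat_lit 4) (nat_lit 294) (nat_lit 234) (nat_lit 192)) (XT.nd (nat_lit 78) (nat_lit 0) (nat_lit 0) (XT.lf (nat_lit 0) (nat_lit 23625376481) (nat_lit 76) (nat_lit 50673481280) (nat_lit 76) (nat_lit 33663851450) (nat_lit 3) (nat_lit 4) (nat_lit 4) (nat_lit 5) (nat_lit 4) (nat_lit 4) (nat_lit 295) (nat_lit 234) (nat_lit 191)) (XT.lf (nat_lit 0) (nat_lit 33324878654) (nat_lit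 76) (nat_lit 50047062124) (nat_lit 76) (nat_lit 32989645676) (nat_lit 3) (nat_lit 4) (nat_lit 4) (nat_lit 5) (nat_lit 4) (nat_lit 4) (nat_lit 296) (nat_lit 234) (nat_lit 190))))))))
noncomputable def xc37 : XT := (XT.nd (nat_lit 1248) (nat_lit 76) (nat_lit 0) (XT.nd (nat_lit 624) (nat_lit 0) (nat_lit 0) (XT.nd (nat_lit 312) (nat_lit 0) (nat_lit 0) (XT.nd (nat_lit 156) (nat_lit 0) (nat_lit 0) (XT.nd (nat_lit 78) (nat_lit 0) (nat_lit 0) (XT.lf (nat_lit 0) (nat_lit 43762307171) (nat_lit 76) (nat_lit 49386444908) (nat_lit 76) (nat_lit 32284781591) (nat_lit 3) (nat_lit 4) (nat_lit 4) (nat_lit 5) (nat_lit 4) (nat_lit 4) (nat_lit 297) (nat_lit 234) (nat_lit 189)) (XT.lf (nat_lit 0) (nat_lit 54999513460) (nat_lit 76) (nat_lit 48687714861) (nat_lit 76) (nat_lit 31545082221) (nat_lit 3) (nat_lit 4) (nat_lit 4) (nat_lit 5) (nat_lit 4) (nat_lit 4) (nat_lit 298) (nat_lit 234) (nat_lit 188))) (XT.nd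 (nat_lit 78) (nat_lit 0) (nat_lit 0) (XT.lf (nat_lit 0) (nat_lit 67103088373) (nat_lit 76) (nat_lit 47946731362) (nat_lit 76) (nat_lit 30766164164) (nat_lit 3) (nat_lit 4) (nat_lit 4) (nat_lit 5) (nat_lit 4) (nat_lit 4) (nat_lit 299) (nat_lit 234) (nat_lit 187)) (XT.lf (nat_lit 0) (nat_lit 80144756798) (nat_lit 76) (nat_lit 47159103397) (nat_lit 76) (nat_lit 29943411608) (nat_lit 3) (nat_lit 4) (nat_lit 4) (nat_lit 5) (nat_lit 4) (nat_lit 4) (nat_lit 300) (nat_lit 234) (nat_lit 186)))) (XT.nd (nat_lit 156) (nat_lit 0) (nat_lit 0) (XT.nd (nat_lit 78) (nat_lit 0) (nat_lit 0) (XT.lf (nat_lit 0) (nat_lit 94201802696) (nat_lit 76) (nat_lit 46320163542) (nat_lit 76) (nat_lit 29071948983) (nat_lit 3) (nat_lit 4) (nat_lit 4) (nat_lit 5) (nat_lit 4) (nat_lit 4) (nat_lit 301) (nat_lit 234) (nat_lit 185)) (XT.lf (nat_lit 0) (nat_lit 109357527081) (nat_lit 76) (nat_lit 45424940300) (nat_lit 76)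 (nat_lit 28146612067) (nat_lit 3) (nat_lit 4) (nat_lit 4) (nat_lit 5) (nat_lit 4) (nat_lit 4) (nat_lit 302) (nat_lit 234) (nat_lit 184))) (XT.nd (nat_lit 78) (nat_lit 0) (nat_lit 0) (XT.lf (nat_lit 0) (nat_lit 125701741651) (nat_lit 76) (nat_lit 44468128646) (nat_lit 76) (nat_lit 27161917380) (nat_lit 3) (nat_lit 4) (nat_lit 4) (nat_lit 5) (nat_lit 4) (nat_lit 4) (nat_lit 303) (nat_lit 234) (nat_lit 183)) (XT.lf (nat_lit 0) (nat_lit 143331301013) (nat_lit 76) (nat_lit 43444058584) (nat_lit 76) (nat_lit 26112029695) (nat_lit 3) (nat_lit 4) (nat_lit 4) (nat_lit 5) (nat_lit 4) (nat_lit 4) (nat_lit 304) (nat_lit 234) (nat_lit 182))))) (XT.nd (nat_lit 312) (nat_lit 0) (nat_lit 0) (XT.nd (nat_lit 156) (nat_lit 0) (nat_lit 0) (XT.nd (nat_lit 78) (nat_lit 0) (nat_lit 0) (XT.lf (nat_lit 0) (nat_lit 162350676628) (nat_lit 76) (nat_lit 42346661551) (nat_lit 76) (nat_lit 24990727455) (nat_lit 3)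 (nat_lit 4) (nat_lit 4) (nat_lit 5) (nat_lit 4) (nat_lit 4) (nat_lit 305) (nat_lit 234) (nat_lit 181)) (XT.lf (nat_lit 0) (nat_lit 182872575909) (nat_lit 76) (nat_lit 41169434454) (nat_lit 76) (nat_lit 23791365907) (nat_lit 3) (nat_lit 4) (nat_lit 4) (nat_lit 5) (nat_lit 4) (nat_lit 4) (nat_lit 306) (nat_lit 234) (nat_lit 180))) (XT.nd (nat_lit 78) (nat_lit 0) (nat_lit 0) (XT.lf (nat_lit 0) (nat_lit 205018610109) (nat_lit 76) (nat_lit 39905401131) (nat_lit 76) (nat_lit 22506837723) (nat_lit 3) (nat_lit 4) (nat_lit 4) (nat_lit 5) (nat_lit 4) (nat_lit 4) (nat_lit 307) (nat_lit 234) (nat_lit 179)) (XT.lf (nat_lit 0) (nat_lit 228920014988) (nat_lit 76) (nat_lit 38547071015) (nat_lit 76) (nat_lit 21129530884) (nat_lit 3) (nat_lit 4) (nat_lit 4) (nat_lit 5) (nat_lit 4) (nat_lit 4) (nat_lit 308) (nat_lit 234) (nat_lit 178)))) (XT.nd (nat_lit 156) (nat_lit 0) (nat_lit 0) (XT.nd (nat_lit 78)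 (nat_lit 0) (nat_lit 0) (XT.lf (nat_lit 0) (nat_lit 254718428499) (nat_lit 76) (nat_lit 37086394743) (nat_lit 76) (nat_lit 19651283571) (nat_lit 3) (nat_lit 4) (nat_lit 4) (nat_lit 5) (nat_lit 4) (nat_lit 4) (nat_lit 309) (nat_lit 234) (nat_lit 177)) (XT.lf (nat_lit 0) (nat_lit 282566730132) (nat_lit 76) (nat_lit 35514716454) (nat_lit 76) (nat_lit 18063335801) (nat_lit 3) (nat_lit 4) (nat_lit 4) (nat_lit 5) (nat_lit 4) (nat_lit 4) (nat_lit 310) (nat_lit 234) (nat_lit 176))) (XT.nd (nat_lit 78) (nat_lit 0) (nat_lit 0) (XT.lf (nat_lit 0) (nat_lit 312629946857) (nat_lit 76) (nat_lit 33822722501) (nat_lit 76) (nat_lit 16356277512) (nat_lit 3) (nat_lit 4) (nat_lit 4) (nat_lit 5) (nat_lit 4) (nat_lit 4) (nat_lit 311) (nat_lit 234) (nat_lit 175)) (XT.lf (nat_lit 0) (nat_lit 345086231070) (nat_lit 76) (nat_lit 32000386251) (nat_lit 76) (nat_lit 14519992804) (nat_lit 3) (nat_lit 4) (nat_lit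 4) (nat_lit 5) (nat_lit 4) (nat_lit 4) (nat_lit 312) (nat_lit 234) (nat_lit 174)))))) (XT.nd (nat_lit 32604) (nat_lit 0) (nat_lit 2204) (XT.nd (nat_lit 312) (nat_lit 76) (nat_lit 0) (XT.nd (nat_lit 156) (nat_lit 0) (nat_lit 0) (XT.nd (nat_lit 78) (nat_lit 0) (nat_lit 0) (XT.lf (nat_lit 0) (nat_lit 380127916309) (nat_lit 76) (nat_lit 30036908676) (nat_lit 76) (nat_lit 12543599990) (nat_lit 3) (nat_lit 4) (nat_lit 4) (nat_lit 5) (nat_lit 4) (nat_lit 4) (nat_lit 313) (nat_lit 234) (nat_lit 173)) (XT.lf (nat_lit 0) (nat_lit 417962657003) (nat_lit 76) (nat_lit 27920654352) (nat_lit 76) (nat_lit 10415387112) (nat_lit 3) (nat_lit 4) (nat_lit 4) (nat_lit 5) (nat_lit 4) (nat_lit 4) (nat_lit 314) (nat_lit 234) (nat_lit 172))) (XT.nd (nat_lit 78) (nat_lit 0) (nat_lit 0) (XT.lf (nat_lit 0) (nat_lit 458814659023) (nat_lit 76) (nat_lit 25639082514) (nat_lit 76) (nat_lit 8122742537) (nat_lit 3) (nat_lit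 4) (nat_lit 4) (nat_lit 5) (nat_lit 4) (nat_lit 4) (nat_lit 315) (nat_lit 234) (nat_lit 171)) (XT.lf (nat_lit 0) (nat_lit 502926008308) (nat_lit 76) (nat_lit 23178672736) (nat_lit 76) (nat_lit 5652080226) (nat_lit 3) (nat_lit 4) (nat_lit 4) (nat_lit 5) (nat_lit 4) (nat_lit 4) (nat_lit 316) (nat_lit 234) (nat_lit 170)))) (XT.nd (nat_lit 156) (nat_lit 76) (nat_lit 0) (XT.nd (nat_lit 78) (nat_lit 0) (nat_lit 0) (XT.lf (nat_lit 0) (nat_lit 550558105445) (nat_lit 76) (nat_lit 20524844811) (nat_lit 76) (nat_lit 2988759214) (nat_lit 3) (nat_lit 4) (nat_lit 4) (nat_lit 5) (nat_lit 4) (nat_lit 4) (nat_lit 317) (nat_lit 234) (nat_lit 169)) (XT.lf (nat_lit 0) (nat_lit 601993214714) (nat_lit 76) (nat_lit 17661872352) (nat_lit 76) (nat_lit 116996860) (nat_lit 3) (nat_lit 4) (nat_lit 4) (nat_lit 5) (nat_lit 4) (nat_lit 4) (nat_lit 318) (nat_lit 234) (nat_lit 168))) (XT.nd (nat_lit 78) (nat_lit 0)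 (nat_lit 0) (XT.lf (nat_lit 0) (nat_lit 2884838884) (nat_lit 152) (nat_lit 11639094568) (nat_lit 76) (nat_lit 654602441736) (nat_lit 2) (nat_lit 5) (nat_lit 4) (nat_lit 5) (nat_lit 3) (nat_lit 4) (nat_lit 319) (nat_lit 234) (nat_lit 167)) (XT.lf (nat_lit 0) (nat_lit 6118939557) (nat_lit 152) (nat_lit 5016724107) (nat_lit 76) (nat_lit 711293448074) (nat_lit 2) (nat_lit 5) (nat_lit 4) (nat_lit 5) (nat_lit 3) (nat_lit 4) (nat_lit 320) (nat_lit 234) (nat_lit 166))))) (XT.nd (nat_lit 312) (nat_lit 1140) (nat_lit 0) (XT.nd (nat_lit 156) (nat_lit 836) (nat_lit 0) (XT.nd (nat_lit 78) (nat_lit 684) (nat_lit 0) (XT.lf (nat_lit 0) (nat_lit 3430495927) (nat_lit 532) (nat_lit 109853449) (nat_lit 532) (nat_lit 109853449) (nat_lit 66) (nat_lit 4) (nat_lit 73) (nat_lit 5) (nat_lit 73) (nat_lit 4) (nat_lit 250) (nat_lit 235) (nat_lit 235)) (XT.lf (nat_lit 0) (nat_lit 4220759999) (nat_lit 684) (nat_lit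 1242666540) (nat_lit 0) (nat_lit 2029695156) (nat_lit 57) (nat_lit 5) (nat_lit 66) (nat_lit 4) (nat_lit 57) (nat_lit 4) (nat_lit 251) (nat_lit 235) (nat_lit 234))) (XT.nd (nat_lit 78) (nat_lit 304) (nat_lit 0) (XT.lf (nat_lit 0) (nat_lit 1025940068) (nat_lit 532) (nat_lit 2116651446) (nat_lit 76) (nat_lit 4571809976) (nat_lit 50) (nat_lit 5) (nat_lit 57) (nat_lit 5) (nat_lit 51) (nat_lit 4) (nat_lit 252) (nat_lit 235) (nat_lit 233)) (XT.lf (nat_lit 0) (nat_lit 4831498587) (nat_lit 304) (nat_lit 500117082) (nat_lit 380) (nat_lit 2632356128) (nat_lit 46) (nat_lit 5) (nat_lit 50) (nat_lit 5) (nat_lit 51) (nat_lit 4) (nat_lit 253) (nat_lit 235) (nat_lit 232)))) (XT.nd (nat_lit 156) (nat_lit 532) (nat_lit 0) (XT.nd (nat_lit 78) (nat_lit 228) (nat_lit 0) (XT.lf (nat_lit 0) (nat_lit 1520392909) (nat_lit 380) (nat_lit 4347624488) (nat_lit 76) (nat_lit 2374640956) (nat_lit 41) (nat_lit 5) (nat_lit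 46) (nat_lit 5) (nat_lit 42) (nat_lit 4) (nat_lit 254) (nat_lit 235) (nat_lit 231)) (XT.lf (nat_lit 0) (nat_lit 2746754733) (nat_lit 228) (nat_lit 2982509837) (nat_lit 304) (nat_lit 2823189788) (nat_lit 38) (nat_lit 5) (nat_lit 41) (nat_lit 5) (nat_lit 42) (nat_lit 4) (nat_lit 255) (nat_lit 235) (nat_lit 230))) (XT.nd (nat_lit 78) (nat_lit 228) (nat_lit 0) (XT.lf (nat_lit 0) (nat_lit 1163297583) (nat_lit 304) (nat_lit 7537554180) (nat_lit 76) (nat_lit 195672093) (nat_lit 34) (nat_lit 5) (nat_lit 38) (nat_lit 5) (nat_lit 35) (nat_lit 4) (nat_lit 256) (nat_lit 235) (nat_lit 229)) (XT.nd (nat_lit 78) (nat_lit 228) (nat_lit 0) (XT.lf (nat_lit 0) (nat_lit 5257571930) (nat_lit 304) (nat_lit 396665932) (nat_lit 76) (nat_lit 3618630252) (nat_lit 34) (nat_lit 5) (nat_lit 38) (nat_lit 5) (nat_lit 35) (nat_lit 4) (nat_lit 257) (nat_lit 235) (nat_lit 228)) (XT.lf (nat_lit 0) (nat_lit 7233890469)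 (nat_lit 228) (nat_lit 2311565416) (nat_lit 304) (nat_lit 141905302) (nat_lit 31) (nat_lit 5) (nat_lit 34) (nat_lit 5) (nat_lit 35) (nat_lit 4) (nat_lit 258) (nat_lit 235) (nat_lit 227))))))))
noncomputable def xc38 : XT := (XT.nd (nat_lit 1248) (nat_lit 304) (nat_lit 0) (XT.nd (nat_lit 624) (nat_lit 532) (nat_lit 0) (XT.nd (nat_lit 312) (nat_lit 456) (nat_lit 0) (XT.nd (nat_lit 156) (nat_lit 304) (nat_lit 0) (XT.nd (nat_lit 78) (nat_lit 152) (nat_lit 0) (XT.lf (nat_lit 0) (nat_lit 3782746130) (nat_lit 304) (nat_lit 5014897179) (nat_lit 76) (nat_lit 1341864421) (nat_lit 27) (nat_lit 5) (nat_lit 31) (nat_lit 5) (nat_lit 28) (nat_lit 4) (nat_lit 259) (nat_lit 235) (nat_lit 226)) (XT.lf (nat_lit 0) (nat_lit 2502438169) (nat_lit 152) (nat_lit 5409170727) (nat_lit 228) (nat_lit 2722438169) (nat_lit 25) (nat_lit 5) (nat_lit 27) (nat_lit 5) (nat_lit 28) (nat_lit 4) (nat_lit 260) (nat_lit 235)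 (nat_lit 225))) (XT.nd (nat_lit 78) (nat_lit 228) (nat_lit 0) (XT.lf (nat_lit 0) (nat_lit 1034281118) (nat_lit 228) (nat_lit 685076110) (nat_lit 76) (nat_lit 9455314606) (nat_lit 24) (nat_lit 5) (nat_lit 27) (nat_lit 5) (nat_lit 25) (nat_lit 5) (nat_lit 261) (nat_lit 235) (nat_lit 224)) (XT.lf (nat_lit 0) (nat_lit 4945194912) (nat_lit 304) (nat_lit 4533602385) (nat_lit 76) (nat_lit 2280962359) (nat_lit 21) (nat_lit 5) (nat_lit 25) (nat_lit 5) (nat_lit 22) (nat_lit 4) (nat_lit 262) (nat_lit 235) (nat_lit 223)))) (XT.nd (nat_lit 156) (nat_lit 228) (nat_lit 0) (XT.nd (nat_lit 78) (nat_lit 76) (nat_lit 0) (XT.lf (nat_lit 0) (nat_lit 3200838096) (nat_lit 152) (nat_lit 5866442448) (nat_lit 228) (nat_lit 3330289093) (nat_lit 19) (nat_lit 5) (nat_lit 21) (nat_lit 5) (nat_lit 22) (nat_lit 4) (nat_lit 263) (nat_lit 235) (nat_lit 222)) (XT.lf (nat_lit 0) (nat_lit 312769136) (nat_lit 228) (nat_lit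 1645590885) (nat_lit 76) (nat_lit 11133744047) (nat_lit 18) (nat_lit 5) (nat_lit 21) (nat_lit 5) (nat_lit 19) (nat_lit 5) (nat_lit 264) (nat_lit 235) (nat_lit 221))) (XT.nd (nat_lit 78) (nat_lit 76) (nat_lit 0) (XT.lf (nat_lit 0) (nat_lit 4096284043) (nat_lit 228) (nat_lit 7472722908) (nat_lit 76) (nat_lit 2272857862) (nat_lit 16) (nat_lit 5) (nat_lit 19) (nat_lit 5) (nat_lit 17) (nat_lit 4) (nat_lit 265) (nat_lit 235) (nat_lit 220)) (XT.lf (nat_lit 0) (nat_lit 157553609) (nat_lit 76) (nat_lit 7924813266) (nat_lit 152) (nat_lit 6574872764) (nat_lit 15) (nat_lit 5) (nat_lit 16) (nat_lit 5) (nat_lit 17) (nat_lit 4) (nat_lit 266) (nat_lit 235) (nat_lit 219))))) (XT.nd (nat_lit 312) (nat_lit 304) (nat_lit 0) (XT.nd (nat_lit 156) (nat_lit 0) (nat_lit 0) (XT.nd (nat_lit 78) (nat_lit 228) (nat_lit 0) (XT.lf (nat_lit 0) (nat_lit 8428221642) (nat_lit 76) (nat_lit 3933058858) (nat_lit 152) (nat_lit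 3178447816) (nat_lit 15) (nat_lit 5) (nat_lit 16) (nat_lit 5) (nat_lit 17) (nat_lit 4) (nat_lit 267) (nat_lit 235) (nat_lit 218)) (XT.lf (nat_lit 0) (nat_lit 341710493) (nat_lit 228) (nat_lit 15848435773) (nat_lit 76) (nat_lit 309415330) (nat_lit 12) (nat_lit 5) (nat_lit 15) (nat_lit 5) (nat_lit 13) (nat_lit 4) (nat_lit 268) (nat_lit 235) (nat_lit 217))) (XT.nd (nat_lit 78) (nat_lit 0) (nat_lit 0) (XT.lf (nat_lit 0) (nat_lit 4084696840) (nat_lit 228) (nat_lit 8584472507) (nat_lit 76) (nat_lit 4862252725) (nat_lit 12) (nat_lit 5) (nat_lit 15) (nat_lit 5) (nat_lit 13) (nat_lit 4) (nat_lit 269) (nat_lit 235) (nat_lit 216)) (XT.lf (nat_lit 0) (nat_lit 7996433915) (nat_lit 228) (nat_lit 944262193) (nat_lit 76) (nat_lit 9712108995) (nat_lit 12) (nat_lit 5) (nat_lit 15) (nat_lit 5) (nat_lit 13) (nat_lit 4) (nat_lit 270) (nat_lit 235) (nat_lit 215)))) (XT.nd (nat_lit 156) (nat_lit 228) (nat_lit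 0) (XT.nd (nat_lit 78) (nat_lit 0) (nat_lit 0) (XT.lf (nat_lit 0) (nat_lit 7352806206) (nat_lit 76) (nat_lit 4862094086) (nat_lit 152) (nat_lit 7649715734) (nat_lit 11) (nat_lit 5) (nat_lit 12) (nat_lit 5) (nat_lit 13) (nat_lit 4) (nat_lit 271) (nat_lit 235) (nat_lit 214)) (XT.lf (nat_lit 0) (nat_lit 16165908809) (nat_lit 76) (nat_lit 506506608) (nat_lit 152) (nat_lit 4506254471) (nat_lit 11) (nat_lit 5) (nat_lit 12) (nat_lit 5) (nat_lit 13) (nat_lit 4) (nat_lit 272) (nat_lit 235) (nat_lit 213))) (XT.nd (nat_lit 78) (nat_lit 76) (nat_lit 0) (XT.lf (nat_lit 0) (nat_lit 2942128375) (nat_lit 152) (nat_lit 18548543419) (nat_lit 152) (nat_lit 1107318000) (nat_lit 9) (nat_lit 4) (nat_lit 11) (nat_lit 5) (nat_lit 11) (nat_lit 4) (nat_lit 273) (nat_lit 235) (nat_lit 212)) (XT.lf (nat_lit 0) (nat_lit 2474832431) (nat_lit 228) (nat_lit 12633025186) (nat_lit 76) (nat_lit 9021636600) (nat_lit 8)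 (nat_lit 5) (nat_lit 11) (nat_lit 5) (nat_lit 9) (nat_lit 4) (nat_lit 274) (nat_lit 235) (nat_lit 211)))))) (XT.nd (nat_lit 624) (nat_lit 152) (nat_lit 0) (XT.nd (nat_lit 312) (nat_lit 76) (nat_lit 0) (XT.nd (nat_lit 156) (nat_lit 0) (nat_lit 0) (XT.nd (nat_lit 78) (nat_lit 76) (nat_lit 0) (XT.lf (nat_lit 0) (nat_lit 6209034976) (nat_lit 228) (nat_lit 5223471316) (nat_lit 76) (nat_lit 14355176059) (nat_lit 8) (nat_lit 5) (nat_lit 11) (nat_lit 5) (nat_lit 9) (nat_lit 4) (nat_lit 275) (nat_lit 235) (nat_lit 210)) (XT.lf (nat_lit 0) (nat_lit 2721088830) (nat_lit 76) (nat_lit 7474254323) (nat_lit 152) (nat_lit 17385777566) (nat_lit 7) (nat_lit 5) (nat_lit 8) (nat_lit 5) (nat_lit 9) (nat_lit 4) (nat_lit 276) (nat_lit 235) (nat_lit 209))) (XT.nd (nat_lit 78) (nat_lit 0) (nat_lit 0) (XT.lf (nat_lit 0) (nat_lit 11349187395) (nat_lit 76) (nat_lit 3157681533) (nat_lit 152) (nat_lit 15011093707)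 (nat_lit 7) (nat_lit 5) (nat_lit 8) (nat_lit 5) (nat_lit 9) (nat_lit 4) (nat_lit 277) (nat_lit 235) (nat_lit 208)) (XT.lf (nat_lit 0) (nat_lit 19107618711) (nat_lit 152) (nat_lit 11097362023) (nat_lit 0) (nat_lit 1407782117) (nat_lit 7) (nat_lit 5) (nat_lit 9) (nat_lit 4) (nat_lit 7) (nat_lit 4) (nat_lit 278) (nat_lit 235) (nat_lit 207)))) (XT.nd (nat_lit 156) (nat_lit 0) (nat_lit 0) (XT.nd (nat_lit 78) (nat_lit 76) (nat_lit 0) (XT.lf (nat_lit 0) (nat_lit 24056355069) (nat_lit 152) (nat_lit 3635386432) (nat_lit 0) (nat_lit 6184618551) (nat_lit 7) (nat_lit 5) (nat_lit 9) (nat_lit 4) (nat_lit 7) (nat_lit 4) (nat_lit 279) (nat_lit 235) (nat_lit 206)) (XT.lf (nat_lit 0) (nat_lit 4453201150) (nat_lit 76) (nat_lit 24949429389) (nat_lit 76) (nat_lit 6918526275) (nat_lit 6) (nat_lit 4) (nat_lit 7) (nat_lit 5) (nat_lit 7) (nat_lit 4) (nat_lit 280) (nat_lit 235) (nat_lit 205))) (XT.nd (nat_lit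 78) (nat_lit 0) (nat_lit 0) (XT.lf (nat_lit 0) (nat_lit 13210723382) (nat_lit 76) (nat_lit 21964666927) (nat_lit 76) (nat_lit 3786387335) (nat_lit 6) (nat_lit 4) (nat_lit 7) (nat_lit 5) (nat_lit 7) (nat_lit 4) (nat_lit 281) (nat_lit 235) (nat_lit 204)) (XT.lf (nat_lit 0) (nat_lit 22568874397) (nat_lit 76) (nat_lit 18781333663) (nat_lit 76) (nat_lit 466594369) (nat_lit 6) (nat_lit 4) (nat_lit 7) (nat_lit 5) (nat_lit 7) (nat_lit 4) (nat_lit 282) (nat_lit 235) (nat_lit 203))))) (XT.nd (nat_lit 312) (nat_lit 0) (nat_lit 0) (XT.nd (nat_lit 156) (nat_lit 76) (nat_lit 0) (XT.nd (nat_lit 78) (nat_lit 0) (nat_lit 0) (XT.lf (nat_lit 0) (nat_lit 2962569541) (nat_lit 152) (nat_lit 12367823309) (nat_lit 76) (nat_lit 29570367814) (nat_lit 5) (nat_lit 5) (nat_lit 7) (nat_lit 5) (nat_lit 6) (nat_lit 4) (nat_lit 283) (nat_lit 235) (nat_lit 202)) (XT.lf (nat_lit 0) (nat_lit 6597723110) (nat_lit 152)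 (nat_lit 5032750691) (nat_lit 76) (nat_lit 36603314777) (nat_lit 5) (nat_lit 5) (nat_lit 7) (nat_lit 5) (nat_lit 6) (nat_lit 4) (nat_lit 284) (nat_lit 235) (nat_lit 201))) (XT.nd (nat_lit 78) (nat_lit 0) (nat_lit 0) (XT.lf (nat_lit 0) (nat_lit 2900888306) (nat_lit 76) (nat_lit 7619744613) (nat_lit 152) (nat_lit 41313104223) (nat_lit 4) (nat_lit 5) (nat_lit 5) (nat_lit 5) (nat_lit 6) (nat_lit 4) (nat_lit 285) (nat_lit 235) (nat_lit 200)) (XT.lf (nat_lit 0) (nat_lit 11571374253) (nat_lit 76) (nat_lit 3227691789) (nat_lit 152) (nat_lit 40920647330) (nat_lit 4) (nat_lit 5) (nat_lit 5) (nat_lit 5) (nat_lit 6) (nat_lit 4) (nat_lit 286) (nat_lit 235) (nat_lit 199)))) (XT.nd (nat_lit 156) (nat_lit 0) (nat_lit 0) (XT.nd (nat_lit 78) (nat_lit 0) (nat_lit 0) (XT.lf (nat_lit 0) (nat_lit 19400410870) (nat_lit 152) (nat_lit 39078329719) (nat_lit 0) (nat_lit 1438902952) (nat_lit 4) (nat_lit 5) (nat_lit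 6) (nat_lit 4) (nat_lit 4) (nat_lit 4) (nat_lit 287) (nat_lit 235) (nat_lit 198)) (XT.lf (nat_lit 0) (nat_lit 24384447635) (nat_lit 152) (nat_lit 33725289136) (nat_lit 0) (nat_lit 6341041850) (nat_lit 4) (nat_lit 5) (nat_lit 6) (nat_lit 4) (nat_lit 4) (nat_lit 4) (nat_lit 288) (nat_lit 235) (nat_lit 197))) (XT.nd (nat_lit 78) (nat_lit 0) (nat_lit 0) (XT.lf (nat_lit 0) (nat_lit 29730318054) (nat_lit 152) (nat_lit 28007102335) (nat_lit 0) (nat_lit 11611080912) (nat_lit 4) (nat_lit 5) (nat_lit 6) (nat_lit 4) (nat_lit 4) (nat_lit 4) (nat_lit 289) (nat_lit 235) (nat_lit 196)) (XT.nd (nat_lit 78) (nat_lit 0) (nat_lit 0) (XT.lf (nat_lit 0) (nat_lit 35469701360) (nat_lit 152) (nat_lit 21889883765) (nat_lit 0) (nat_lit 17280249998) (nat_lit 4) (nat_lit 5) (nat_lit 6) (nat_lit 4) (nat_lit 4) (nat_lit 4) (nat_lit 290) (nat_lit 235) (nat_lit 195)) (XT.lf (nat_lit 0) (nat_lit 41636608713) (nat_lit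 152) (nat_lit 15337383241) (nat_lit 0) (nat_lit 23382144185) (nat_lit 4) (nat_lit 5) (nat_lit 6) (nat_lit 4) (nat_lit 4) (nat_lit 4) (nat_lit 291) (nat_lit 235) (nat_lit 194))))))))
noncomputable def xc39 : XT := (XT.nd (nat_lit 1326) (nat_lit 76) (nat_lit 0) (XT.nd (nat_lit 624) (nat_lit 0) (nat_lit 0) (XT.nd (nat_lit 312) (nat_lit 0) (nat_lit 0) (XT.nd (nat_lit 156) (nat_lit 76) (nat_lit 0) (XT.nd (nat_lit 78) (nat_lit 0) (nat_lit 0) (XT.lf (nat_lit 0) (nat_lit 48267584750) (nat_lit 152) (nat_lit 8310771131) (nat_lit 0) (nat_lit 29952922845) (nat_lit 4) (nat_lit 5) (nat_lit 6) (nat_lit 4) (nat_lit 4) (nat_lit 4) (nat_lit 292) (nat_lit 235) (nat_lit 193)) (XT.lf (nat_lit 0) (nat_lit 55401924143) (nat_lit 152) (nat_lit 768408252) (nat_lit 0) (nat_lit 37031523926) (nat_lit 4) (nat_lit 5) (nat_lit 6) (nat_lit 4) (nat_lit 4) (nat_lit 4) (nat_lit 293) (nat_lit 235) (nat_lit 192))) (XT.nd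 (nat_lit 78) (nat_lit 0) (nat_lit 0) (XT.lf (nat_lit 0) (nat_lit 7576909295) (nat_lit 76) (nat_lit 55623291952) (nat_lit 76) (nat_lit 37201282187) (nat_lit 3) (nat_lit 4) (nat_lit 4) (nat_lit 5) (nat_lit 4) (nat_lit 4) (nat_lit 294) (nat_lit 235) (nat_lit 191)) (XT.lf (nat_lit 0) (nat_lit 16576215321) (nat_lit 76) (nat_lit 55035622546) (nat_lit 76) (nat_lit 36565826164) (nat_lit 3) (nat_lit 4) (nat_lit 4) (nat_lit 5) (nat_lit 4) (nat_lit 4) (nat_lit 295) (nat_lit 235) (nat_lit 190)))) (XT.nd (nat_lit 156) (nat_lit 0) (nat_lit 0) (XT.nd (nat_lit 78) (nat_lit 0) (nat_lit 0) (XT.lf (nat_lit 0) (nat_lit 26257431999) (nat_lit 76) (nat_lit 54416855059) (nat_lit 76) (nat_lit 35902811808) (nat_lit 3) (nat_lit 4) (nat_lit 4) (nat_lit 5) (nat_lit 4) (nat_lit 4) (nat_lit 296) (nat_lit 235) (nat_lit 189)) (XT.lf (nat_lit 0) (nat_lit 36677929502) (nat_lit 76) (nat_lit 53763322721) (nat_lit 76) (nat_lit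 35208310147) (nat_lit 3) (nat_lit 4) (nat_lit 4) (nat_lit 5) (nat_lit 4) (nat_lit 4) (nat_lit 297) (nat_lit 235) (nat_lit 188))) (XT.nd (nat_lit 78) (nat_lit 0) (nat_lit 0) (XT.lf (nat_lit 0) (nat_lit 47899458926) (nat_lit 76) (nat_lit 53071152747) (nat_lit 76) (nat_lit 34478205615) (nat_lit 3) (nat_lit 4) (nat_lit 4) (nat_lit 5) (nat_lit 4) (nat_lit 4) (nat_lit 298) (nat_lit 235) (nat_lit 187)) (XT.lf (nat_lit 0) (nat_lit 59988518223) (nat_lit 76) (nat_lit 52336243390) (nat_lit 76) (nat_lit 33708171667) (nat_lit 3) (nat_lit 4) (nat_lit 4) (nat_lit 5) (nat_lit 4) (nat_lit 4) (nat_lit 299) (nat_lit 235) (nat_lit 186))))) (XT.nd (nat_lit 312) (nat_lit 0) (nat_lit 0) (XT.nd (nat_lit 156) (nat_lit 0) (nat_lit 0) (XT.nd (nat_lit 78) (nat_lit 0) (nat_lit 0) (XT.lf (nat_lit 0) (nat_lit 73016746263) (nat_lit 76) (nat_lit 51554239630) (nat_lit 76) (nat_lit 32893645138) (nat_lit 3) (nat_lit 4)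 (nat_lit 4) (nat_lit 5) (nat_lit 4) (nat_lit 4) (nat_lit 300) (nat_lit 235) (nat_lit 185)) (XT.lf (nat_lit 0) (nat_lit 87061347360) (nat_lit 76) (nat_lit 50720507372) (nat_lit 76) (nat_lit 32029799204) (nat_lit 3) (nat_lit 4) (nat_lit 4) (nat_lit 5) (nat_lit 4) (nat_lit 4) (nat_lit 301) (nat_lit 235) (nat_lit 184))) (XT.nd (nat_lit 78) (nat_lit 0) (nat_lit 0) (XT.lf (nat_lit 0) (nat_lit 102205548781) (nat_lit 76) (nat_lit 49830105980) (nat_lit 76) (nat_lit 31111514779) (nat_lit 3) (nat_lit 4) (nat_lit 4) (nat_lit 5) (nat_lit 4) (nat_lit 4) (nat_lit 302) (nat_lit 235) (nat_lit 183)) (XT.lf (nat_lit 0) (nat_lit 118539093941) (nat_lit 76) (nat_lit 48877759001) (nat_lit 76) (nat_lit 30133350177) (nat_lit 3) (nat_lit 4) (nat_lit 4) (nat_lit 5) (nat_lit 4) (nat_lit 4) (nat_lit 303) (nat_lit 235) (nat_lit 182)))) (XT.nd (nat_lit 156) (nat_lit 0) (nat_lit 0) (XT.nd (nat_lit 78) (nat_lit 0)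 (nat_lit 0) (XT.lf (nat_lit 0) (nat_lit 136158774218) (nat_lit 76) (nat_lit 47857822898) (nat_lit 76) (nat_lit 29089508868) (nat_lit 3) (nat_lit 4) (nat_lit 4) (nat_lit 5) (nat_lit 4) (nat_lit 4) (nat_lit 304) (nat_lit 235) (nat_lit 181)) (XT.lf (nat_lit 0) (nat_lit 155169002534) (nat_lit 76) (nat_lit 46764253604) (nat_lit 76) (nat_lit 27973805124) (nat_lit 3) (nat_lit 4) (nat_lit 4) (nat_lit 5) (nat_lit 4) (nat_lit 4) (nat_lit 305) (nat_lit 235) (nat_lit 180))) (XT.nd (nat_lit 78) (nat_lit 0) (nat_lit 0) (XT.lf (nat_lit 0) (nat_lit 175682432092) (nat_lit 76) (nat_lit 45590570710) (nat_lit 76) (nat_lit 26779627368) (nat_lit 3) (nat_lit 4) (nat_lit 4) (nat_lit 5) (nat_lit 4) (nat_lit 4) (nat_lit 306) (nat_lit 235) (nat_lit 179)) (XT.nd (nat_lit 78) (nat_lit 0) (nat_lit 0) (XT.lf (nat_lit 0) (nat_lit 197820623957) (nat_lit 76) (nat_lit 44329819057) (nat_lit 76) (nat_lit 25499898991) (nat_lit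 3) (nat_lit 4) (nat_lit 4) (nat_lit 5) (nat_lit 4) (nat_lit 4) (nat_lit 307) (nat_lit 235) (nat_lit 178)) (XT.lf (nat_lit 0) (nat_lit 221714767414) (nat_lit 76) (nat_lit 42974527524) (nat_lit 76) (nat_lit 24127036418) (nat_lit 3) (nat_lit 4) (nat_lit 4) (nat_lit 5) (nat_lit 4) (nat_lit 4) (nat_lit 308) (nat_lit 235) (nat_lit 177))))))) (XT.nd (nat_lit 624) (nat_lit 76) (nat_lit 0) (XT.nd (nat_lit 312) (nat_lit 0) (nat_lit 0) (XT.nd (nat_lit 156) (nat_lit 0) (nat_lit 0) (XT.nd (nat_lit 78) (nat_lit 0) (nat_lit 0) (XT.lf (nat_lit 0) (nat_lit 247506457387) (nat_lit 76) (nat_lit 41516664754) (nat_lit 76) (nat_lit 22652904167) (nat_lit 3) (nat_lit 4) (nat_lit 4) (nat_lit 5) (nat_lit 4) (nat_lit 4) (nat_lit 309) (nat_lit 235) (nat_lit 176)) (XT.lf (nat_lit 0) (nat_lit 275348533520) (nat_lit 76) (nat_lit 39947591561) (nat_lit 76) (nat_lit 21068766638) (nat_lit 3) (nat_lit 4) (nat_lit 4) (nat_lit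 5) (nat_lit 4) (nat_lit 4) (nat_lit 310) (nat_lit 235) (nat_lit 175))) (XT.nd (nat_lit 78) (nat_lit 0) (nat_lit 0) (XT.lf (nat_lit 0) (nat_lit 305405985894) (nat_lit 76) (nat_lit 38258009733) (nat_lit 76) (nat_lit 19365236352) (nat_lit 3) (nat_lit 4) (nat_lit 4) (nat_lit 5) (nat_lit 4) (nat_lit 4) (nat_lit 311) (nat_lit 235) (nat_lit 174)) (XT.lf (nat_lit 0) (nat_lit 337856932746) (nat_lit 76) (nat_lit 36437906932) (nat_lit 76) (nat_lit 17532218312) (nat_lit 3) (nat_lit 4) (nat_lit 4) (nat_lit 5) (nat_lit 4) (nat_lit 4) (nat_lit 312) (nat_lit 235) (nat_lit 173)))) (XT.nd (nat_lit 156) (nat_lit 0) (nat_lit 0) (XT.nd (nat_lit 78) (nat_lit 0) (nat_lit 0) (XT.lf (nat_lit 0) (nat_lit 372893675983) (nat_lit 76) (nat_lit 34476497365) (nat_lit 76) (nat_lit 15558850190) (nat_lit 3) (nat_lit 4) (nat_lit 4) (nat_lit 5) (nat_lit 4) (nat_lit 4) (nat_lit 313) (nat_lit 235) (nat_lit 172)) (XT.lf (nat_lit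 0) (nat_lit 410723840749) (nat_lit 76) (nat_lit 32362157865) (nat_lit 76) (nat_lit 13433437954) (nat_lit 3) (nat_lit 4) (nat_lit 4) (nat_lit 5) (nat_lit 4) (nat_lit 4) (nat_lit 314) (nat_lit 235) (nat_lit 171))) (XT.nd (nat_lit 78) (nat_lit 0) (nat_lit 0) (XT.lf (nat_lit 0) (nat_lit 451571605800) (nat_lit 76) (nat_lit 30082359010) (nat_lit 76) (nat_lit 11143386566) (nat_lit 3) (nat_lit 4) (nat_lit 4) (nat_lit 5) (nat_lit 4) (nat_lit 4) (nat_lit 315) (nat_lit 235) (nat_lit 170)) (XT.lf (nat_lit 0) (nat_lit 495679031964) (nat_lit 76) (nat_lit 27623590884) (nat_lit 76) (nat_lit 8675125353) (nat_lit 3) (nat_lit 4) (nat_lit 4) (nat_lit 5) (nat_lit 4) (nat_lit 4) (nat_lit 316) (nat_lit 235) (nat_lit 169))))) (XT.nd (nat_lit 32136) (nat_lit 0) (nat_lit 3648) (XT.nd (nat_lit 156) (nat_lit 76) (nat_lit 0) (XT.nd (nat_lit 78) (nat_lit 0) (nat_lit 0) (XT.lf (nat_lit 0) (nat_lit 543307496583) (nat_lit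 76) (nat_lit 24971283007) (nat_lit 76) (nat_lit 6014027581) (nat_lit 3) (nat_lit 4) (nat_lit 4) (nat_lit 5) (nat_lit 4) (nat_lit 4) (nat_lit 317) (nat_lit 235) (nat_lit 168)) (XT.lf (nat_lit 0) (nat_lit 594739242409) (nat_lit 76) (nat_lit 22109718000) (nat_lit 76) (nat_lit 3144323783) (nat_lit 3) (nat_lit 4) (nat_lit 4) (nat_lit 5) (nat_lit 4) (nat_lit 4) (nat_lit 318) (nat_lit 235) (nat_lit 167))) (XT.nd (nat_lit 78) (nat_lit 76) (nat_lit 0) (XT.lf (nat_lit 0) (nat_lit 650279050159) (nat_lit 76) (nat_lit 19021938440) (nat_lit 76) (nat_lit 49008305) (nat_lit 3) (nat_lit 4) (nat_lit 4) (nat_lit 5) (nat_lit 4) (nat_lit 4) (nat_lit 319) (nat_lit 235) (nat_lit 166)) (XT.lf (nat_lit 0) (nat_lit 3184952547) (nat_lit 152) (nat_lit 12450755115) (nat_lit 76) (nat_lit 707017153359) (nat_lit 2) (nat_lit 5) (nat_lit 4) (nat_lit 5) (nat_lit 3) (nat_lit 4) (nat_lit 320) (nat_lit 235) (nat_lit 165))))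 (XT.nd (nat_lit 156) (nat_lit 1216) (nat_lit 0) (XT.nd (nat_lit 78) (nat_lit 532) (nat_lit 0) (XT.lf (nat_lit 0) (nat_lit 294335932) (nat_lit 532) (nat_lit 2901324188) (nat_lit 0) (nat_lit 294335932) (nat_lit 73) (nat_lit 5) (nat_lit 80) (nat_lit 4) (nat_lit 73) (nat_lit 4) (nat_lit 248) (nat_lit 236) (nat_lit 236)) (XT.lf (nat_lit 0) (nat_lit 268080911) (nat_lit 532) (nat_lit 4674019474) (nat_lit 532) (nat_lit 2189351942) (nat_lit 66) (nat_lit 4) (nat_lit 73) (nat_lit 5) (nat_lit 73) (nat_lit 4) (nat_lit 249) (nat_lit 236) (nat_lit 235))) (XT.nd (nat_lit 78) (nat_lit 1140) (nat_lit 0) (XT.lf (nat_lit 0) (nat_lit 2022221400) (nat_lit 608) (nat_lit 639731746) (nat_lit 76) (nat_lit 4646479277) (nat_lit 65) (nat_lit 5) (nat_lit 73) (nat_lit 5) (nat_lit 66) (nat_lit 4) (nat_lit 250) (nat_lit 236) (nat_lit 234)) (XT.nd (nat_lit 78) (nat_lit 532) (nat_lit 0) (XT.lf (nat_lit 0) (nat_lit 5916557202)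 (nat_lit 608) (nat_lit 342976822) (nat_lit 684) (nat_lit 1252436614) (nat_lit 57) (nat_lit 5) (nat_lit 65) (nat_lit 5) (nat_lit 66) (nat_lit 4) (nat_lit 251) (nat_lit 236) (nat_lit 233)) (XT.lf (nat_lit 0) (nat_lit 2815841811) (nat_lit 532) (nat_lit 2692187852) (nat_lit 76) (nat_lit 2232959831) (nat_lit 50) (nat_lit 5) (nat_lit 57) (nat_lit 5) (nat_lit 51) (nat_lit 4) (nat_lit 252) (nat_lit 236) (nat_lit 232))))))))
noncomputable def xc40 : XT := (XT.nd (nat_lit 1248) (nat_lit 760) (nat_lit 0) (XT.nd (nat_lit 624) (nat_lit 760) (nat_lit 0) (XT.nd (nat_lit 312) (nat_lit 912) (nat_lit 0) (XT.nd (nat_lit 156) (nat_lit 304) (nat_lit 0) (XT.nd (nat_lit 78) (nat_lit 380) (nat_lit 0) (XT.lf (nat_lit 0) (nat_lit 4078238243) (nat_lit 304) (nat_lit 2888707963) (nat_lit 380) (nat_lit 1032311820) (nat_lit 46) (nat_lit 5) (nat_lit 50) (nat_lit 5) (nat_lit 51) (nat_lit 4) (nat_lit 253) (nat_lit 236)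 (nat_lit 231)) (XT.lf (nat_lit 0) (nat_lit 2878677886) (nat_lit 380) (nat_lit 5350614666) (nat_lit 76) (nat_lit 57785453) (nat_lit 41) (nat_lit 5) (nat_lit 46) (nat_lit 5) (nat_lit 42) (nat_lit 4) (nat_lit 254) (nat_lit 236) (nat_lit 230))) (XT.nd (nat_lit 78) (nat_lit 76) (nat_lit 0) (XT.lf (nat_lit 0) (nat_lit 1552802040) (nat_lit 228) (nat_lit 5386172923) (nat_lit 304) (nat_lit 1666119522) (nat_lit 38) (nat_lit 5) (nat_lit 41) (nat_lit 5) (nat_lit 42) (nat_lit 4) (nat_lit 255) (nat_lit 236) (nat_lit 229)) (XT.lf (nat_lit 0) (nat_lit 2133599887) (nat_lit 304) (nat_lit 96927819) (nat_lit 76) (nat_lit 6725917933) (nat_lit 37) (nat_lit 5) (nat_lit 41) (nat_lit 5) (nat_lit 38) (nat_lit 5) (nat_lit 256) (nat_lit 236) (nat_lit 228)))) (XT.nd (nat_lit 156) (nat_lit 380) (nat_lit 0) (XT.nd (nat_lit 78) (nat_lit 304) (nat_lit 0) (XT.lf (nat_lit 0) (nat_lit 6072771214) (nat_lit 304) (nat_lit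 2031462341) (nat_lit 76) (nat_lit 1236957963) (nat_lit 34) (nat_lit 5) (nat_lit 38) (nat_lit 5) (nat_lit 35) (nat_lit 4) (nat_lit 257) (nat_lit 236) (nat_lit 227)) (XT.lf (nat_lit 0) (nat_lit 444244189) (nat_lit 304) (nat_lit 4369335796) (nat_lit 76) (nat_lit 4949270599) (nat_lit 30) (nat_lit 5) (nat_lit 34) (nat_lit 5) (nat_lit 31) (nat_lit 5) (nat_lit 258) (nat_lit 236) (nat_lit 226))) (XT.nd (nat_lit 78) (nat_lit 152) (nat_lit 0) (XT.lf (nat_lit 0) (nat_lit 3023922102) (nat_lit 228) (nat_lit 1179558836) (nat_lit 304) (nat_lit 6019976904) (nat_lit 27) (nat_lit 5) (nat_lit 30) (nat_lit 5) (nat_lit 31) (nat_lit 5) (nat_lit 259) (nat_lit 236) (nat_lit 225)) (XT.lf (nat_lit 0) (nat_lit 123663363) (nat_lit 152) (nat_lit 8052367408) (nat_lit 228) (nat_lit 2550270805) (nat_lit 25) (nat_lit 5) (nat_lit 27) (nat_lit 5) (nat_lit 28) (nat_lit 4) (nat_lit 260) (nat_lit 236) (nat_lit 224)))))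 (XT.nd (nat_lit 312) (nat_lit 304) (nat_lit 0) (XT.nd (nat_lit 156) (nat_lit 152) (nat_lit 0) (XT.nd (nat_lit 78) (nat_lit 228) (nat_lit 0) (XT.lf (nat_lit 0) (nat_lit 1103606030) (nat_lit 228) (nat_lit 3292930981) (nat_lit 76) (nat_lit 6875552532) (nat_lit 24) (nat_lit 5) (nat_lit 27) (nat_lit 5) (nat_lit 25) (nat_lit 5) (nat_lit 261) (nat_lit 236) (nat_lit 223)) (XT.lf (nat_lit 0) (nat_lit 4442396058) (nat_lit 228) (nat_lit 401146384) (nat_lit 304) (nat_lit 7022582864) (nat_lit 21) (nat_lit 5) (nat_lit 24) (nat_lit 5) (nat_lit 25) (nat_lit 5) (nat_lit 262) (nat_lit 236) (nat_lit 222))) (XT.nd (nat_lit 78) (nat_lit 0) (nat_lit 0) (XT.lf (nat_lit 0) (nat_lit 94641259) (nat_lit 152) (nat_lit 8730402912) (nat_lit 228) (nat_lit 3686289821) (nat_lit 19) (nat_lit 5) (nat_lit 21) (nat_lit 5) (nat_lit 22) (nat_lit 4) (nat_lit 263) (nat_lit 236) (nat_lit 221)) (XT.lf (nat_lit 0) (nat_lit 8228039695)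 (nat_lit 152) (nat_lit 4863888196) (nat_lit 228) (nat_lit 118600041) (nat_lit 19) (nat_lit 5) (nat_lit 21) (nat_lit 5) (nat_lit 22) (nat_lit 4) (nat_lit 264) (nat_lit 236) (nat_lit 220)))) (XT.nd (nat_lit 156) (nat_lit 76) (nat_lit 0) (XT.nd (nat_lit 78) (nat_lit 0) (nat_lit 0) (XT.lf (nat_lit 0) (nat_lit 2846916840) (nat_lit 152) (nat_lit 652721129) (nat_lit 228) (nat_lit 10469498644) (nat_lit 16) (nat_lit 5) (nat_lit 18) (nat_lit 5) (nat_lit 19) (nat_lit 5) (nat_lit 265) (nat_lit 236) (nat_lit 219)) (XT.lf (nat_lit 0) (nat_lit 7399739614) (nat_lit 228) (nat_lit 3597034341) (nat_lit 76) (nat_lit 3792315905) (nat_lit 16) (nat_lit 5) (nat_lit 19) (nat_lit 5) (nat_lit 17) (nat_lit 4) (nat_lit 266) (nat_lit 236) (nat_lit 218))) (XT.nd (nat_lit 78) (nat_lit 0) (nat_lit 0) (XT.lf (nat_lit 0) (nat_lit 4449251160) (nat_lit 76) (nat_lit 7101840414) (nat_lit 152) (nat_lit 4127123715) (nat_lit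 15) (nat_lit 5) (nat_lit 16) (nat_lit 5) (nat_lit 17) (nat_lit 4) (nat_lit 267) (nat_lit 236) (nat_lit 217)) (XT.lf (nat_lit 0) (nat_lit 13064602764) (nat_lit 76) (nat_lit 2898668461) (nat_lit 152) (nat_lit 679261724) (nat_lit 15) (nat_lit 5) (nat_lit 16) (nat_lit 5) (nat_lit 17) (nat_lit 4) (nat_lit 268) (nat_lit 236) (nat_lit 216)))))) (XT.nd (nat_lit 624) (nat_lit 228) (nat_lit 0) (XT.nd (nat_lit 312) (nat_lit 228) (nat_lit 0) (XT.nd (nat_lit 156) (nat_lit 76) (nat_lit 0) (XT.nd (nat_lit 78) (nat_lit 0) (nat_lit 0) (XT.lf (nat_lit 0) (nat_lit 2918723452) (nat_lit 228) (nat_lit 13119375469) (nat_lit 76) (nat_lit 1645373059) (nat_lit 12) (nat_lit 5) (nat_lit 15) (nat_lit 5) (nat_lit 13) (nat_lit 4) (nat_lit 269) (nat_lit 236) (nat_lit 215)) (XT.lf (nat_lit 0) (nat_lit 6772283808) (nat_lit 228) (nat_lit 5570364413) (nat_lit 76) (nat_lit 6465311186) (nat_lit 12) (nat_lit 5) (nat_lit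 15) (nat_lit 5) (nat_lit 13) (nat_lit 4) (nat_lit 270) (nat_lit 236) (nat_lit 214))) (XT.nd (nat_lit 78) (nat_lit 0) (nat_lit 0) (XT.lf (nat_lit 0) (nat_lit 2486508304) (nat_lit 76) (nat_lit 8374398002) (nat_lit 152) (nat_lit 9165537294) (nat_lit 11) (nat_lit 5) (nat_lit 12) (nat_lit 5) (nat_lit 13) (nat_lit 4) (nat_lit 271) (nat_lit 236) (nat_lit 213)) (XT.lf (nat_lit 0) (nat_lit 11218836973) (nat_lit 76) (nat_lit 4048446192) (nat_lit 152) (nat_lit 6075938873) (nat_lit 11) (nat_lit 5) (nat_lit 12) (nat_lit 5) (nat_lit 13) (nat_lit 4) (nat_lit 272) (nat_lit 236) (nat_lit 212)))) (XT.nd (nat_lit 156) (nat_lit 0) (nat_lit 0) (XT.nd (nat_lit 78) (nat_lit 228) (nat_lit 0) (XT.lf (nat_lit 0) (nat_lit 19936526401) (nat_lit 152) (nat_lit 2285247502) (nat_lit 0) (nat_lit 548373941) (nat_lit 11) (nat_lit 5) (nat_lit 13) (nat_lit 4) (nat_lit 11) (nat_lit 4) (nat_lit 273) (nat_lit 236) (nat_lit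 211)) (XT.lf (nat_lit 0) (nat_lit 720047471) (nat_lit 228) (nat_lit 18157616489) (nat_lit 76) (nat_lit 5429659528) (nat_lit 8) (nat_lit 5) (nat_lit 11) (nat_lit 5) (nat_lit 9) (nat_lit 4) (nat_lit 274) (nat_lit 236) (nat_lit 210))) (XT.nd (nat_lit 78) (nat_lit 0) (nat_lit 0) (XT.lf (nat_lit 0) (nat_lit 4411406557) (nat_lit 228) (nat_lit 10817701979) (nat_lit 76) (nat_lit 10738672016) (nat_lit 8) (nat_lit 5) (nat_lit 11) (nat_lit 5) (nat_lit 9) (nat_lit 4) (nat_lit 275) (nat_lit 236) (nat_lit 209)) (XT.lf (nat_lit 0) (nat_lit 8315561044) (nat_lit 228) (nat_lit 3024714556) (nat_lit 76) (nat_lit 16425168373) (nat_lit 8) (nat_lit 5) (nat_lit 11) (nat_lit 5) (nat_lit 9) (nat_lit 4) (nat_lit 276) (nat_lit 236) (nat_lit 208))))) (XT.nd (nat_lit 312) (nat_lit 152) (nat_lit 0) (XT.nd (nat_lit 156) (nat_lit 0) (nat_lit 0) (XT.nd (nat_lit 78) (nat_lit 0) (nat_lit 0) (XT.lf (nat_lit 0) (nat_lit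 5441694657) (nat_lit 76) (nat_lit 7098912107) (nat_lit 152) (nat_lit 17166111802) (nat_lit 7) (nat_lit 5) (nat_lit 8) (nat_lit 5) (nat_lit 9) (nat_lit 4) (nat_lit 277) (nat_lit 236) (nat_lit 207)) (XT.lf (nat_lit 0) (nat_lit 14574639721) (nat_lit 76) (nat_lit 2509108499) (nat_lit 152) (nat_lit 14720751602) (nat_lit 7) (nat_lit 5) (nat_lit 8) (nat_lit 5) (nat_lit 9) (nat_lit 4) (nat_lit 278) (nat_lit 236) (nat_lit 206))) (XT.nd (nat_lit 78) (nat_lit 0) (nat_lit 0) (XT.lf (nat_lit 0) (nat_lit 21960672504) (nat_lit 152) (nat_lit 9782977748) (nat_lit 0) (nat_lit 2328130545) (nat_lit 7) (nat_lit 5) (nat_lit 9) (nat_lit 4) (nat_lit 7) (nat_lit 4) (nat_lit 279) (nat_lit 236) (nat_lit 205)) (XT.lf (nat_lit 0) (nat_lit 27207200786) (nat_lit 152) (nat_lit 1887168054) (nat_lit 0) (nat_lit 7427282349) (nat_lit 7) (nat_lit 5) (nat_lit 9) (nat_lit 4) (nat_lit 7) (nat_lit 4) (nat_lit 280) (nat_lit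 236) (nat_lit 204)))) (XT.nd (nat_lit 156) (nat_lit 76) (nat_lit 0) (XT.nd (nat_lit 78) (nat_lit 0) (nat_lit 0) (XT.lf (nat_lit 0) (nat_lit 6759891938) (nat_lit 76) (nat_lit 26160898307) (nat_lit 76) (nat_lit 6244520168) (nat_lit 6) (nat_lit 4) (nat_lit 7) (nat_lit 5) (nat_lit 7) (nat_lit 4) (nat_lit 281) (nat_lit 236) (nat_lit 203)) (XT.lf (nat_lit 0) (nat_lit 16073539304) (nat_lit 76) (nat_lit 22995464880) (nat_lit 76) (nat_lit 2952735165) (nat_lit 6) (nat_lit 4) (nat_lit 7) (nat_lit 5) (nat_lit 7) (nat_lit 4) (nat_lit 282) (nat_lit 236) (nat_lit 202))) (XT.nd (nat_lit 78) (nat_lit 0) (nat_lit 0) (XT.lf (nat_lit 0) (nat_lit 530897504) (nat_lit 152) (nat_lit 19071382029) (nat_lit 76) (nat_lit 25506679218) (nat_lit 5) (nat_lit 5) (nat_lit 7) (nat_lit 5) (nat_lit 6) (nat_lit 4) (nat_lit 283) (nat_lit 236) (nat_lit 201)) (XT.nd (nat_lit 78) (nat_lit 0) (nat_lit 0) (XT.lf (nat_lit 0) (nat_lit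 4142807303) (nat_lit 152) (nat_lit 11775293051) (nat_lit 76) (nat_lit 32525108891) (nat_lit 5) (nat_lit 5) (nat_lit 7) (nat_lit 5) (nat_lit 6) (nat_lit 4) (nat_lit 284) (nat_lit 236) (nat_lit 200)) (XT.lf (nat_lit 0) (nat_lit 7998904107) (nat_lit 152) (nat_lit 3970596559) (nat_lit 76) (nat_lit 40077053711) (nat_lit 5) (nat_lit 5) (nat_lit 7) (nat_lit 5) (nat_lit 6) (nat_lit 4) (nat_lit 285) (nat_lit 236) (nat_lit 199))))))))
noncomputable def xc41 : XT := (XT.nd (nat_lit 1248) (nat_lit 0) (nat_lit 0) (XT.nd (nat_lit 624) (nat_lit 76) (nat_lit 0) (XT.nd (nat_lit 312) (nat_lit 0) (nat_lit 0) (XT.nd (nat_lit 156) (nat_lit 0) (nat_lit 0) (XT.nd (nat_lit 78) (nat_lit 0) (nat_lit 0) (XT.lf (nat_lit 0) (nat_lit 4534076256) (nat_lit 76) (nat_lit 7658752238) (nat_lit 152) (nat_lit 43743979324) (nat_lit 4) (nat_lit 5) (nat_lit 5) (nat_lit 5) (nat_lit 6) (nat_lit 4) (nat_lit 286) (nat_lit 236)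 (nat_lit 198)) (XT.lf (nat_lit 0) (nat_lit 13794414643) (nat_lit 76) (nat_lit 2957599777) (nat_lit 152) (nat_lit 43384879453) (nat_lit 4) (nat_lit 5) (nat_lit 5) (nat_lit 5) (nat_lit 6) (nat_lit 4) (nat_lit 287) (nat_lit 236) (nat_lit 197))) (XT.nd (nat_lit 78) (nat_lit 0) (nat_lit 0) (XT.lf (nat_lit 0) (nat_lit 21672139530) (nat_lit 152) (nat_lit 40973597336) (nat_lit 0) (nat_lit 2027532059) (nat_lit 4) (nat_lit 5) (nat_lit 6) (nat_lit 4) (nat_lit 4) (nat_lit 4) (nat_lit 288) (nat_lit 236) (nat_lit 196)) (XT.lf (nat_lit 0) (nat_lit 27001588436) (nat_lit 152) (nat_lit 35283498600) (nat_lit 0) (nat_lit 7286766746) (nat_lit 4) (nat_lit 5) (nat_lit 6) (nat_lit 4) (nat_lit 4) (nat_lit 4) (nat_lit 289) (nat_lit 236) (nat_lit 195)))) (XT.nd (nat_lit 156) (nat_lit 0) (nat_lit 0) (XT.nd (nat_lit 78) (nat_lit 0) (nat_lit 0) (XT.lf (nat_lit 0) (nat_lit 32725766638) (nat_lit 152) (nat_lit 29192287497)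 (nat_lit 0) (nat_lit 12945931781) (nat_lit 4) (nat_lit 5) (nat_lit 6) (nat_lit 4) (nat_lit 4) (nat_lit 4) (nat_lit 290) (nat_lit 236) (nat_lit 194)) (XT.lf (nat_lit 0) (nat_lit 38878595191) (nat_lit 152) (nat_lit 22663867962) (nat_lit 0) (nat_lit 19038562957) (nat_lit 4) (nat_lit 5) (nat_lit 6) (nat_lit 4) (nat_lit 4) (nat_lit 4) (nat_lit 291) (nat_lit 236) (nat_lit 193))) (XT.nd (nat_lit 78) (nat_lit 0) (nat_lit 0) (XT.lf (nat_lit 0) (nat_lit 45496535301) (nat_lit 152) (nat_lit 15659553063) (nat_lit 0) (nat_lit 25600764756) (nat_lit 4) (nat_lit 5) (nat_lit 6) (nat_lit 4) (nat_lit 4) (nat_lit 4) (nat_lit 292) (nat_lit 236) (nat_lit 192)) (XT.lf (nat_lit 0) (nat_lit 52618804392) (nat_lit 152) (nat_lit 8137835750) (nat_lit 0) (nat_lit 32671424299) (nat_lit 4) (nat_lit 5) (nat_lit 6) (nat_lit 4) (nat_lit 4) (nat_lit 4) (nat_lit 293) (nat_lit 236) (nat_lit 191))))) (XT.nd (nat_lit 312)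 (nat_lit 0) (nat_lit 0) (XT.nd (nat_lit 156) (nat_lit 0) (nat_lit 0) (XT.nd (nat_lit 78) (nat_lit 76) (nat_lit 0) (XT.lf (nat_lit 0) (nat_lit 60287608502) (nat_lit 152) (nat_lit 54142883) (nat_lit 0) (nat_lit 40292441791) (nat_lit 4) (nat_lit 5) (nat_lit 6) (nat_lit 4) (nat_lit 4) (nat_lit 4) (nat_lit 294) (nat_lit 236) (nat_lit 190)) (XT.lf (nat_lit 0) (nat_lit 8925087438) (nat_lit 76) (nat_lit 59762650585) (nat_lit 76) (nat_lit 39723237005) (nat_lit 3) (nat_lit 4) (nat_lit 4) (nat_lit 5) (nat_lit 4) (nat_lit 4) (nat_lit 295) (nat_lit 236) (nat_lit 189))) (XT.nd (nat_lit 78) (nat_lit 0) (nat_lit 0) (XT.lf (nat_lit 0) (nat_lit 18589373102) (nat_lit 76) (nat_lit 59150967977) (nat_lit 76) (nat_lit 39070585074) (nat_lit 3) (nat_lit 4) (nat_lit 4) (nat_lit 5) (nat_lit 4) (nat_lit 4) (nat_lit 296) (nat_lit 236) (nat_lit 188)) (XT.lf (nat_lit 0) (nat_lit 28994193740) (nat_lit 76) (nat_lit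 58503995711) (nat_lit 76) (nat_lit 38385678250) (nat_lit 3) (nat_lit 4) (nat_lit 4) (nat_lit 5) (nat_lit 4) (nat_lit 4) (nat_lit 297) (nat_lit 236) (nat_lit 187)))) (XT.nd (nat_lit 156) (nat_lit 0) (nat_lit 0) (XT.nd (nat_lit 78) (nat_lit 0) (nat_lit 0) (XT.lf (nat_lit 0) (nat_lit 40201207548) (nat_lit 76) (nat_lit 57817899879) (nat_lit 76) (nat_lit 37664457827) (nat_lit 3) (nat_lit 4) (nat_lit 4) (nat_lit 5) (nat_lit 4) (nat_lit 4) (nat_lit 298) (nat_lit 236) (nat_lit 186)) (XT.lf (nat_lit 0) (nat_lit 52276826460) (nat_lit 76) (nat_lit 57088614727) (nat_lit 76) (nat_lit 36902649905) (nat_lit 3) (nat_lit 4) (nat_lit 4) (nat_lit 5) (nat_lit 4) (nat_lit 4) (nat_lit 299) (nat_lit 236) (nat_lit 185))) (XT.nd (nat_lit 78) (nat_lit 0) (nat_lit 0) (XT.lf (nat_lit 0) (nat_lit 65292609699) (nat_lit 76) (nat_lit 56311818564) (nat_lit 76) (nat_lit 36095740067) (nat_lit 3) (nat_lit 4) (nat_lit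 4) (nat_lit 5) (nat_lit 4) (nat_lit 4) (nat_lit 300) (nat_lit 236) (nat_lit 184)) (XT.lf (nat_lit 0) (nat_lit 79325687833) (nat_lit 76) (nat_lit 55482908155) (nat_lit 76) (nat_lit 35238946626) (nat_lit 3) (nat_lit 4) (nat_lit 4) (nat_lit 5) (nat_lit 4) (nat_lit 4) (nat_lit 301) (nat_lit 236) (nat_lit 183)))))) (XT.nd (nat_lit 624) (nat_lit 0) (nat_lit 0) (XT.nd (nat_lit 312) (nat_lit 0) (nat_lit 0) (XT.nd (nat_lit 156) (nat_lit 0) (nat_lit 0) (XT.nd (nat_lit 78) (nat_lit 0) (nat_lit 0) (XT.lf (nat_lit 0) (nat_lit 94459219843) (nat_lit 76) (nat_lit 54596971439) (nat_lit 76) (nat_lit 34327192286) (nat_lit 3) (nat_lit 4) (nat_lit 4) (nat_lit 5) (nat_lit 4) (nat_lit 4) (nat_lit 302) (nat_lit 236) (nat_lit 182)) (XT.lf (nat_lit 0) (nat_lit 110782885919) (nat_lit 76) (nat_lit 53648758418) (nat_lit 76) (nat_lit 33355074059) (nat_lit 3) (nat_lit 4) (nat_lit 4) (nat_lit 5) (nat_lit 4) (nat_lit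 4) (nat_lit 303) (nat_lit 236) (nat_lit 181))) (XT.nd (nat_lit 78) (nat_lit 0) (nat_lit 0) (XT.lf (nat_lit 0) (nat_lit 128393418896) (nat_lit 76) (nat_lit 52632650054) (nat_lit 76) (nat_lit 32316831245) (nat_lit 3) (nat_lit 4) (nat_lit 4) (nat_lit 5) (nat_lit 4) (nat_lit 4) (nat_lit 304) (nat_lit 236) (nat_lit 180)) (XT.lf (nat_lit 0) (nat_lit 147395177489) (nat_lit 76) (nat_lit 51542624964) (nat_lit 76) (nat_lit 31206311293) (nat_lit 3) (nat_lit 4) (nat_lit 4) (nat_lit 5) (nat_lit 4) (nat_lit 4) (nat_lit 305) (nat_lit 236) (nat_lit 179)))) (XT.nd (nat_lit 156) (nat_lit 0) (nat_lit 0) (XT.nd (nat_lit 78) (nat_lit 0) (nat_lit 0) (XT.lf (nat_lit 0) (nat_lit 167900764712) (nat_lit 76) (nat_lit 50372223739) (nat_lit 76) (nat_lit 30016933345) (nat_lit 3) (nat_lit 4) (nat_lit 4) (nat_lit 5) (nat_lit 4) (nat_lit 4) (nat_lit 306) (nat_lit 236) (nat_lit 178)) (XT.lf (nat_lit 0) (nat_lit 190031695155)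 (nat_lit 76) (nat_lit 49114510669) (nat_lit 76) (nat_lit 28741649234) (nat_lit 3) (nat_lit 4) (nat_lit 4) (nat_lit 5) (nat_lit 4) (nat_lit 4) (nat_lit 307) (nat_lit 236) (nat_lit 177))) (XT.nd (nat_lit 78) (nat_lit 0) (nat_lit 0) (XT.lf (nat_lit 0) (nat_lit 213919115073) (nat_lit 76) (nat_lit 47762032639) (nat_lit 76) (nat_lit 27372901723) (nat_lit 3) (nat_lit 4) (nat_lit 4) (nat_lit 5) (nat_lit 4) (nat_lit 4) (nat_lit 308) (nat_lit 236) (nat_lit 176)) (XT.lf (nat_lit 0) (nat_lit 239704579547) (nat_lit 76) (nat_lit 46306774965) (nat_lit 76) (nat_lit 25902579713) (nat_lit 3) (nat_lit 4) (nat_lit 4) (nat_lit 5) (nat_lit 4) (nat_lit 4) (nat_lit 309) (nat_lit 236) (nat_lit 175))))) (XT.nd (nat_lit 312) (nat_lit 0) (nat_lit 0) (XT.nd (nat_lit 156) (nat_lit 0) (nat_lit 0) (XT.nd (nat_lit 78) (nat_lit 0) (nat_lit 0) (XT.lf (nat_lit 0) (nat_lit 267540891330) (nat_lit 76) (nat_lit 44740113896)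 (nat_lit 76) (nat_lit 24321970187) (nat_lit 3) (nat_lit 4) (nat_lit 4) (nat_lit 5) (nat_lit 4) (nat_lit 4) (nat_lit 310) (nat_lit 236) (nat_lit 174)) (XT.lf (nat_lit 0) (nat_lit 297593006342) (nat_lit 76) (nat_lit 43052765517) (nat_lit 76) (nat_lit 22621706568) (nat_lit 3) (nat_lit 4) (nat_lit 4) (nat_lit 5) (nat_lit 4) (nat_lit 4) (nat_lit 311) (nat_lit 236) (nat_lit 173))) (XT.nd (nat_lit 78) (nat_lit 0) (nat_lit 0) (XT.lf (nat_lit 0) (nat_lit 330039011193) (nat_lit 76) (nat_lit 41234730725) (nat_lit 76) (nat_lit 20791713222) (nat_lit 3) (nat_lit 4) (nat_lit 4) (nat_lit 5) (nat_lit 4) (nat_lit 4) (nat_lit 312) (nat_lit 236) (nat_lit 172)) (XT.lf (nat_lit 0) (nat_lit 365071178502) (nat_lit 76) (nat_lit 39275235981) (nat_lit 76) (nat_lit 18821145742) (nat_lit 3) (nat_lit 4) (nat_lit 4) (nat_lit 5) (nat_lit 4) (nat_lit 4) (nat_lit 313) (nat_lit 236) (nat_lit 171)))) (XT.nd (nat_lit 156)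 (nat_lit 0) (nat_lit 0) (XT.nd (nat_lit 78) (nat_lit 0) (nat_lit 0) (XT.lf (nat_lit 0) (nat_lit 402897106298) (nat_lit 76) (nat_lit 37162669465) (nat_lit 76) (nat_lit 16698326691) (nat_lit 3) (nat_lit 4) (nat_lit 4) (nat_lit 5) (nat_lit 4) (nat_lit 4) (nat_lit 314) (nat_lit 236) (nat_lit 170)) (XT.lf (nat_lit 0) (nat_lit 443740948229) (nat_lit 76) (nat_lit 34884512262) (nat_lit 76) (nat_lit 14410676403) (nat_lit 3) (nat_lit 4) (nat_lit 4) (nat_lit 5) (nat_lit 4) (nat_lit 4) (nat_lit 315) (nat_lit 236) (nat_lit 169))) (XT.nd (nat_lit 78) (nat_lit 0) (nat_lit 0) (XT.lf (nat_lit 0) (nat_lit 487844741874) (nat_lit 76) (nat_lit 32427264184) (nat_lit 76) (nat_lit 11944638429) (nat_lit 3) (nat_lit 4) (nat_lit 4) (nat_lit 5) (nat_lit 4) (nat_lit 4) (nat_lit 316) (nat_lit 236) (nat_lit 168)) (XT.nd (nat_lit 78) (nat_lit 0) (nat_lit 0) (XT.lf (nat_lit 0) (nat_lit 535469843050) (nat_lit 76) (nat_lit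 29776363758) (nat_lit 76) (nat_lit 9285599213) (nat_lit 3) (nat_lit 4) (nat_lit 4) (nat_lit 5) (nat_lit 4) (nat_lit 4) (nat_lit 317) (nat_lit 236) (nat_lit 167)) (XT.lf (nat_lit 0) (nat_lit 586898474577) (nat_lit 76) (nat_lit 26916101947) (nat_lit 76) (nat_lit 6417801484) (nat_lit 3) (nat_lit 4) (nat_lit 4) (nat_lit 5) (nat_lit 4) (nat_lit 4) (nat_lit 318) (nat_lit 236) (nat_lit 166))))))))
noncomputable def xc42 : XT := (XT.nd (nat_lit 32916) (nat_lit 0) (nat_lit 456) (XT.nd (nat_lit 32292) (nat_lit 0) (nat_lit 1900) (XT.nd (nat_lit 31980) (nat_lit 0) (nat_lit 4104) (XT.nd (nat_lit 31824) (nat_lit 0) (nat_lit 5928) (XT.nd (nat_lit 78) (nat_lit 76) (nat_lit 0) (XT.lf (nat_lit 0) (nat_lit 642435398716) (nat_lit 76) (nat_lit 23829529051) (nat_lit 76) (nat_lit 3324250885) (nat_lit 3) (nat_lit 4) (nat_lit 4) (nat_lit 5) (nat_lit 4) (nat_lit 4) (nat_lit 319) (nat_lit 236) (nat_lit 165))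 (XT.lf (nat_lit 0) (nat_lit 12956339) (nat_lit 152) (nat_lit 20485178505) (nat_lit 76) (nat_lit 702396547404) (nat_lit 2) (nat_lit 5) (nat_lit 4) (nat_lit 5) (nat_lit 3) (nat_lit 4) (nat_lit 320) (nat_lit 236) (nat_lit 164))) (XT.nd (nat_lit 78) (nat_lit 380) (nat_lit 0) (XT.lf (nat_lit 0) (nat_lit 784274300) (nat_lit 380) (nat_lit 1800636135) (nat_lit 0) (nat_lit 784274300) (nat_lit 85) (nat_lit 5) (nat_lit 90) (nat_lit 4) (nat_lit 85) (nat_lit 4) (nat_lit 246) (nat_lit 237) (nat_lit 237)) (XT.lf (nat_lit 0) (nat_lit 2055765086) (nat_lit 380) (nat_lit 3806780723) (nat_lit 380) (nat_lit 989167741) (nat_lit 80) (nat_lit 4) (nat_lit 85) (nat_lit 5) (nat_lit 85) (nat_lit 4) (nat_lit 247) (nat_lit 237) (nat_lit 236)))) (XT.nd (nat_lit 156) (nat_lit 1216) (nat_lit 0) (XT.nd (nat_lit 78) (nat_lit 76) (nat_lit 0) (XT.lf (nat_lit 0) (nat_lit 987311711) (nat_lit 456) (nat_lit 2141383704) (nat_lit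 532) (nat_lit 3859921999) (nat_lit 73) (nat_lit 5) (nat_lit 79) (nat_lit 5) (nat_lit 80) (nat_lit 4) (nat_lit 248) (nat_lit 237) (nat_lit 235)) (XT.lf (nat_lit 0) (nat_lit 128206600) (nat_lit 532) (nat_lit 63808812) (nat_lit 76) (nat_lit 6959222387) (nat_lit 72) (nat_lit 5) (nat_lit 79) (nat_lit 5) (nat_lit 73) (nat_lit 5) (nat_lit 249) (nat_lit 237) (nat_lit 234))) (XT.nd (nat_lit 78) (nat_lit 684) (nat_lit 0) (XT.lf (nat_lit 0) (nat_lit 4108027556) (nat_lit 608) (nat_lit 1177471993) (nat_lit 76) (nat_lit 2050280792) (nat_lit 65) (nat_lit 5) (nat_lit 73) (nat_lit 5) (nat_lit 66) (nat_lit 4) (nat_lit 250) (nat_lit 237) (nat_lit 233)) (XT.lf (nat_lit 0) (nat_lit 619674099) (nat_lit 684) (nat_lit 2343320607) (nat_lit 76) (nat_lit 4584769367) (nat_lit 56) (nat_lit 5) (nat_lit 65) (nat_lit 5) (nat_lit 57) (nat_lit 5) (nat_lit 251) (nat_lit 237) (nat_lit 232))))) (XT.nd (nat_lit 312) (nat_lit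 1064) (nat_lit 0) (XT.nd (nat_lit 156) (nat_lit 304) (nat_lit 0) (XT.nd (nat_lit 78) (nat_lit 380) (nat_lit 0) (XT.lf (nat_lit 0) (nat_lit 4148230624) (nat_lit 456) (nat_lit 308474972) (nat_lit 532) (nat_lit 3329627353) (nat_lit 50) (nat_lit 5) (nat_lit 56) (nat_lit 5) (nat_lit 57) (nat_lit 5) (nat_lit 252) (nat_lit 237) (nat_lit 231)) (XT.lf (nat_lit 0) (nat_lit 387258657) (nat_lit 380) (nat_lit 5100387515) (nat_lit 76) (nat_lit 2565266914) (nat_lit 45) (nat_lit 5) (nat_lit 50) (nat_lit 5) (nat_lit 46) (nat_lit 5) (nat_lit 253) (nat_lit 237) (nat_lit 230))) (XT.nd (nat_lit 78) (nat_lit 0) (nat_lit 0) (XT.lf (nat_lit 0) (nat_lit 1556705723) (nat_lit 304) (nat_lit 2558604965) (nat_lit 380) (nat_lit 4232903118) (nat_lit 41) (nat_lit 5) (nat_lit 45) (nat_lit 5) (nat_lit 46) (nat_lit 5) (nat_lit 254) (nat_lit 237) (nat_lit 229)) (XT.lf (nat_lit 0) (nat_lit 7991108256) (nat_lit 380) (nat_lit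 39277612) (nat_lit 76) (nat_lit 645802492) (nat_lit 41) (nat_lit 5) (nat_lit 46) (nat_lit 5) (nat_lit 42) (nat_lit 4) (nat_lit 255) (nat_lit 237) (nat_lit 228)))) (XT.nd (nat_lit 156) (nat_lit 532) (nat_lit 0) (XT.nd (nat_lit 78) (nat_lit 228) (nat_lit 0) (XT.lf (nat_lit 0) (nat_lit 2966568779) (nat_lit 304) (nat_lit 1916508282) (nat_lit 76) (nat_lit 4150176641) (nat_lit 37) (nat_lit 5) (nat_lit 41) (nat_lit 5) (nat_lit 38) (nat_lit 5) (nat_lit 256) (nat_lit 237) (nat_lit 227)) (XT.lf (nat_lit 0) (nat_lit 5317237714) (nat_lit 228) (nat_lit 1429683383) (nat_lit 304) (nat_lit 2679618017) (nat_lit 34) (nat_lit 5) (nat_lit 37) (nat_lit 5) (nat_lit 38) (nat_lit 5) (nat_lit 257) (nat_lit 237) (nat_lit 226))) (XT.nd (nat_lit 78) (nat_lit 228) (nat_lit 0) (XT.lf (nat_lit 0) (nat_lit 851739409) (nat_lit 304) (nat_lit 6726593421) (nat_lit 76) (nat_lit 2278056645) (nat_lit 30) (nat_lit 5) (nat_lit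 34) (nat_lit 5) (nat_lit 31) (nat_lit 5) (nat_lit 258) (nat_lit 237) (nat_lit 225)) (XT.lf (nat_lit 0) (nat_lit 457322387) (nat_lit 228) (nat_lit 4015362128) (nat_lit 304) (nat_lit 5851715552) (nat_lit 27) (nat_lit 5) (nat_lit 30) (nat_lit 5) (nat_lit 31) (nat_lit 5) (nat_lit 259) (nat_lit 237) (nat_lit 224)))))) (XT.nd (nat_lit 624) (nat_lit 608) (nat_lit 0) (XT.nd (nat_lit 312) (nat_lit 380) (nat_lit 0) (XT.nd (nat_lit 156) (nat_lit 228) (nat_lit 0) (XT.nd (nat_lit 78) (nat_lit 228) (nat_lit 0) (XT.lf (nat_lit 0) (nat_lit 8203088295) (nat_lit 228) (nat_lit 104274638) (nat_lit 304) (nat_lit 2527226985) (nat_lit 27) (nat_lit 5) (nat_lit 30) (nat_lit 5) (nat_lit 31) (nat_lit 5) (nat_lit 260) (nat_lit 237) (nat_lit 223)) (XT.lf (nat_lit 0) (nat_lit 991022672) (nat_lit 228) (nat_lit 6367753206) (nat_lit 76) (nat_lit 4028727572) (nat_lit 24) (nat_lit 5) (nat_lit 27) (nat_lit 5) (nat_lit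 25) (nat_lit 5) (nat_lit 261) (nat_lit 237) (nat_lit 222))) (XT.nd (nat_lit 78) (nat_lit 0) (nat_lit 0) (XT.lf (nat_lit 0) (nat_lit 1147102541) (nat_lit 228) (nat_lit 3448961255) (nat_lit 304) (nat_lit 7392589692) (nat_lit 21) (nat_lit 5) (nat_lit 24) (nat_lit 5) (nat_lit 25) (nat_lit 5) (nat_lit 262) (nat_lit 237) (nat_lit 221)) (XT.lf (nat_lit 0) (nat_lit 8449035899) (nat_lit 304) (nat_lit 3392435079) (nat_lit 76) (nat_lit 799159819) (nat_lit 21) (nat_lit 5) (nat_lit 25) (nat_lit 5) (nat_lit 22) (nat_lit 4) (nat_lit 263) (nat_lit 237) (nat_lit 220)))) (XT.nd (nat_lit 156) (nat_lit 152) (nat_lit 0) (XT.nd (nat_lit 78) (nat_lit 76) (nat_lit 0) (XT.lf (nat_lit 0) (nat_lit 4519929736) (nat_lit 152) (nat_lit 8065992879) (nat_lit 228) (nat_lit 760718766) (nat_lit 19) (nat_lit 5) (nat_lit 21) (nat_lit 5) (nat_lit 22) (nat_lit 4) (nat_lit 264) (nat_lit 237) (nat_lit 219)) (XT.lf (nat_lit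 0) (nat_lit 2762492084) (nat_lit 228) (nat_lit 1181832040) (nat_lit 76) (nat_lit 10167485513) (nat_lit 18) (nat_lit 5) (nat_lit 21) (nat_lit 5) (nat_lit 19) (nat_lit 5) (nat_lit 265) (nat_lit 237) (nat_lit 218))) (XT.nd (nat_lit 78) (nat_lit 0) (nat_lit 0) (XT.lf (nat_lit 0) (nat_lit 6523929648) (nat_lit 228) (nat_lit 7858855731) (nat_lit 76) (nat_lit 556169378) (nat_lit 16) (nat_lit 5) (nat_lit 19) (nat_lit 5) (nat_lit 17) (nat_lit 4) (nat_lit 266) (nat_lit 237) (nat_lit 217)) (XT.lf (nat_lit 0) (nat_lit 10542947220) (nat_lit 228) (nat_lit 49486390) (nat_lit 76) (nat_lit 5242502802) (nat_lit 16) (nat_lit 5) (nat_lit 19) (nat_lit 5) (nat_lit 17) (nat_lit 4) (nat_lit 267) (nat_lit 237) (nat_lit 216))))) (XT.nd (nat_lit 312) (nat_lit 304) (nat_lit 0) (XT.nd (nat_lit 156) (nat_lit 152) (nat_lit 0) (XT.nd (nat_lit 78) (nat_lit 76) (nat_lit 0) (XT.lf (nat_lit 0) (nat_lit 8473824022) (nat_lit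 76) (nat_lit 6420881069) (nat_lit 152) (nat_lit 1907791837) (nat_lit 15) (nat_lit 5) (nat_lit 16) (nat_lit 5) (nat_lit 17) (nat_lit 4) (nat_lit 268) (nat_lit 237) (nat_lit 215)) (XT.lf (nat_lit 0) (nat_lit 1574971459) (nat_lit 152) (nat_lit 372337409) (nat_lit 76) (nat_lit 15905008816) (nat_lit 14) (nat_lit 5) (nat_lit 16) (nat_lit 5) (nat_lit 15) (nat_lit 5) (nat_lit 269) (nat_lit 237) (nat_lit 214))) (XT.nd (nat_lit 78) (nat_lit 0) (nat_lit 0) (XT.lf (nat_lit 0) (nat_lit 5338157644) (nat_lit 228) (nat_lit 10742197827) (nat_lit 76) (nat_lit 2901149426) (nat_lit 12) (nat_lit 5) (nat_lit 15) (nat_lit 5) (nat_lit 13) (nat_lit 4) (nat_lit 270) (nat_lit 237) (nat_lit 213)) (XT.lf (nat_lit 0) (nat_lit 9338081620) (nat_lit 228) (nat_lit 2843097567) (nat_lit 76) (nat_lit 8023412490) (nat_lit 12) (nat_lit 5) (nat_lit 15) (nat_lit 5) (nat_lit 13) (nat_lit 4) (nat_lit 271) (nat_lit 237) (nat_lit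 212)))) (XT.nd (nat_lit 156) (nat_lit 228) (nat_lit 0) (XT.nd (nat_lit 78) (nat_lit 0) (nat_lit 0) (XT.lf (nat_lit 0) (nat_lit 5720434775) (nat_lit 76) (nat_lit 7930817044) (nat_lit 152) (nat_lit 7874933871) (nat_lit 11) (nat_lit 5) (nat_lit 12) (nat_lit 5) (nat_lit 13) (nat_lit 4) (nat_lit 272) (nat_lit 237) (nat_lit 211)) (XT.lf (nat_lit 0) (nat_lit 14926534492) (nat_lit 76) (nat_lit 3341273001) (nat_lit 152) (nat_lit 4688082125) (nat_lit 11) (nat_lit 5) (nat_lit 12) (nat_lit 5) (nat_lit 13) (nat_lit 4) (nat_lit 273) (nat_lit 237) (nat_lit 210))) (XT.nd (nat_lit 78) (nat_lit 76) (nat_lit 0) (XT.lf (nat_lit 0) (nat_lit 213663085) (nat_lit 152) (nat_lit 22983379860) (nat_lit 152) (nat_lit 1306035986) (nat_lit 9) (nat_lit 4) (nat_lit 11) (nat_lit 5) (nat_lit 11) (nat_lit 4) (nat_lit 274) (nat_lit 237) (nat_lit 209)) (XT.nd (nat_lit 78) (nat_lit 0) (nat_lit 0) (XT.lf (nat_lit 0) (nat_lit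 2387454538) (nat_lit 228) (nat_lit 16993591343) (nat_lit 76) (nat_lit 6785610519) (nat_lit 8) (nat_lit 5) (nat_lit 11) (nat_lit 5) (nat_lit 9) (nat_lit 4) (nat_lit 275) (nat_lit 237) (nat_lit 208)) (XT.lf (nat_lit 0) (nat_lit 6254877665) (nat_lit 228) (nat_lit 9260308447) (nat_lit 76) (nat_lit 12451078952) (nat_lit 8) (nat_lit 5) (nat_lit 11) (nat_lit 5) (nat_lit 9) (nat_lit 4) (nat_lit 276) (nat_lit 237) (nat_lit 207))))))))
noncomputable def xc43 : XT := (XT.nd (nat_lit 1326) (nat_lit 76) (nat_lit 0) (XT.nd (nat_lit 624) (nat_lit 76) (nat_lit 0) (XT.nd (nat_lit 312) (nat_lit 152) (nat_lit 0) (XT.nd (nat_lit 156) (nat_lit 0) (nat_lit 0) (XT.nd (nat_lit 78) (nat_lit 76) (nat_lit 0) (XT.lf (nat_lit 0) (nat_lit 10360952763) (nat_lit 228) (nat_lit 1023349415) (nat_lit 76) (nat_lit 18529286634) (nat_lit 8) (nat_lit 5) (nat_lit 11) (nat_lit 5) (nat_lit 9) (nat_lit 4) (nat_lit 277) (nat_lit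 237) (nat_lit 206)) (XT.lf (nat_lit 0) (nat_lit 8022879612) (nat_lit 76) (nat_lit 6832392153) (nat_lit 152) (nat_lit 17158632597) (nat_lit 7) (nat_lit 5) (nat_lit 8) (nat_lit 5) (nat_lit 9) (nat_lit 4) (nat_lit 278) (nat_lit 237) (nat_lit 205))) (XT.nd (nat_lit 78) (nat_lit 0) (nat_lit 0) (XT.lf (nat_lit 0) (nat_lit 17727508475) (nat_lit 76) (nat_lit 1937214102) (nat_lit 152) (nat_lit 14619922703) (nat_lit 7) (nat_lit 5) (nat_lit 8) (nat_lit 5) (nat_lit 9) (nat_lit 4) (nat_lit 279) (nat_lit 237) (nat_lit 204)) (XT.lf (nat_lit 0) (nat_lit 24853023815) (nat_lit 152) (nat_lit 8677607364) (nat_lit 0) (nat_lit 3206875723) (nat_lit 7) (nat_lit 5) (nat_lit 9) (nat_lit 4) (nat_lit 7) (nat_lit 4) (nat_lit 280) (nat_lit 237) (nat_lit 203)))) (XT.nd (nat_lit 156) (nat_lit 76) (nat_lit 0) (XT.nd (nat_lit 78) (nat_lit 76) (nat_lit 0) (XT.lf (nat_lit 0) (nat_lit 30435163432) (nat_lit 152) (nat_lit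 289985383) (nat_lit 0) (nat_lit 8662663765) (nat_lit 7) (nat_lit 5) (nat_lit 9) (nat_lit 4) (nat_lit 7) (nat_lit 4) (nat_lit 281) (nat_lit 237) (nat_lit 202)) (XT.lf (nat_lit 0) (nat_lit 8972866674) (nat_lit 76) (nat_lit 27581200356) (nat_lit 76) (nat_lit 5691708488) (nat_lit 6) (nat_lit 4) (nat_lit 7) (nat_lit 5) (nat_lit 7) (nat_lit 4) (nat_lit 282) (nat_lit 237) (nat_lit 201))) (XT.nd (nat_lit 78) (nat_lit 76) (nat_lit 0) (XT.lf (nat_lit 0) (nat_lit 18907740393) (nat_lit 76) (nat_lit 24212352241) (nat_lit 76) (nat_lit 2214534263) (nat_lit 6) (nat_lit 4) (nat_lit 7) (nat_lit 5) (nat_lit 7) (nat_lit 4) (nat_lit 283) (nat_lit 237) (nat_lit 200)) (XT.lf (nat_lit 0) (nat_lit 1446732452) (nat_lit 152) (nat_lit 19132318404) (nat_lit 76) (nat_lit 28092687308) (nat_lit 5) (nat_lit 5) (nat_lit 7) (nat_lit 5) (nat_lit 6) (nat_lit 4) (nat_lit 284) (nat_lit 237) (nat_lit 199))))) (XT.nd (nat_lit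 312) (nat_lit 0) (nat_lit 0) (XT.nd (nat_lit 156) (nat_lit 76) (nat_lit 0) (XT.nd (nat_lit 78) (nat_lit 0) (nat_lit 0) (XT.lf (nat_lit 0) (nat_lit 5282901469) (nat_lit 152) (nat_lit 11361044100) (nat_lit 76) (nat_lit 35632185891) (nat_lit 5) (nat_lit 5) (nat_lit 7) (nat_lit 5) (nat_lit 6) (nat_lit 4) (nat_lit 285) (nat_lit 237) (nat_lit 198)) (XT.lf (nat_lit 0) (nat_lit 9387584566) (nat_lit 152) (nat_lit 3032436510) (nat_lit 76) (nat_lit 43750873831) (nat_lit 5) (nat_lit 5) (nat_lit 7) (nat_lit 5) (nat_lit 6) (nat_lit 4) (nat_lit 286) (nat_lit 237) (nat_lit 197))) (XT.nd (nat_lit 78) (nat_lit 0) (nat_lit 0) (XT.lf (nat_lit 0) (nat_lit 6098034256) (nat_lit 76) (nat_lit 7782278940) (nat_lit 152) (nat_lit 46494035019) (nat_lit 4) (nat_lit 5) (nat_lit 5) (nat_lit 5) (nat_lit 6) (nat_lit 4) (nat_lit 287) (nat_lit 237) (nat_lit 196)) (XT.lf (nat_lit 0) (nat_lit 16010219573) (nat_lit 76) (nat_lit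 2741269354) (nat_lit 152) (nat_lit 46161722910) (nat_lit 4) (nat_lit 5) (nat_lit 5) (nat_lit 5) (nat_lit 6) (nat_lit 4) (nat_lit 288) (nat_lit 237) (nat_lit 195)))) (XT.nd (nat_lit 156) (nat_lit 0) (nat_lit 0) (XT.nd (nat_lit 78) (nat_lit 0) (nat_lit 0) (XT.lf (nat_lit 0) (nat_lit 24022933832) (nat_lit 152) (nat_lit 43196102099) (nat_lit 0) (nat_lit 2595699020) (nat_lit 4) (nat_lit 5) (nat_lit 6) (nat_lit 4) (nat_lit 4) (nat_lit 4) (nat_lit 289) (nat_lit 237) (nat_lit 194)) (XT.lf (nat_lit 0) (nat_lit 29733033233) (nat_lit 152) (nat_lit 37128971984) (nat_lit 0) (nat_lit 8245601044) (nat_lit 4) (nat_lit 5) (nat_lit 6) (nat_lit 4) (nat_lit 4) (nat_lit 4) (nat_lit 290) (nat_lit 237) (nat_lit 193))) (XT.nd (nat_lit 78) (nat_lit 0) (nat_lit 0) (XT.lf (nat_lit 0) (nat_lit 35872825860) (nat_lit 152) (nat_lit 30622849660) (nat_lit 0) (nat_lit 14329655359) (nat_lit 4) (nat_lit 5) (nat_lit 6)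 (nat_lit 4) (nat_lit 4) (nat_lit 4) (nat_lit 291) (nat_lit 237) (nat_lit 192)) (XT.nd (nat_lit 78) (nat_lit 0) (nat_lit 0) (XT.lf (nat_lit 0) (nat_lit 42478695668) (nat_lit 152) (nat_lit 23639180328) (nat_lit 0) (nat_lit 20883915620) (nat_lit 4) (nat_lit 5) (nat_lit 6) (nat_lit 4) (nat_lit 4) (nat_lit 4) (nat_lit 292) (nat_lit 237) (nat_lit 191)) (XT.lf (nat_lit 0) (nat_lit 49589788553) (nat_lit 152) (nat_lit 16136579279) (nat_lit 0) (nat_lit 27947221886) (nat_lit 4) (nat_lit 5) (nat_lit 6) (nat_lit 4) (nat_lit 4) (nat_lit 4) (nat_lit 293) (nat_lit 237) (nat_lit 190))))))) (XT.nd (nat_lit 624) (nat_lit 0) (nat_lit 0) (XT.nd (nat_lit 312) (nat_lit 0) (nat_lit 0) (XT.nd (nat_lit 156) (nat_lit 0) (nat_lit 0) (XT.nd (nat_lit 78) (nat_lit 76) (nat_lit 0) (XT.lf (nat_lit 0) (nat_lit 57248244324) (nat_lit 152) (nat_lit 8070586658) (nat_lit 0) (nat_lit 35561430789) (nat_lit 4) (nat_lit 5) (nat_lit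 6) (nat_lit 4) (nat_lit 4) (nat_lit 4) (nat_lit 294) (nat_lit 237) (nat_lit 189)) (XT.lf (nat_lit 0) (nat_lit 626652815) (nat_lit 76) (nat_lit 64882577414) (nat_lit 76) (nat_lit 43154794556) (nat_lit 3) (nat_lit 4) (nat_lit 4) (nat_lit 5) (nat_lit 4) (nat_lit 4) (nat_lit 295) (nat_lit 237) (nat_lit 188))) (XT.nd (nat_lit 78) (nat_lit 0) (nat_lit 0) (XT.lf (nat_lit 0) (nat_lit 10275261614) (nat_lit 76) (nat_lit 64277454879) (nat_lit 76) (nat_lit 42511737463) (nat_lit 3) (nat_lit 4) (nat_lit 4) (nat_lit 5) (nat_lit 4) (nat_lit 4) (nat_lit 296) (nat_lit 237) (nat_lit 187)) (XT.lf (nat_lit 0) (nat_lit 20665566636) (nat_lit 76) (nat_lit 63636556755) (nat_lit 76) (nat_lit 41835714748) (nat_lit 3) (nat_lit 4) (nat_lit 4) (nat_lit 5) (nat_lit 4) (nat_lit 4) (nat_lit 297) (nat_lit 237) (nat_lit 186)))) (XT.nd (nat_lit 156) (nat_lit 0) (nat_lit 0) (XT.nd (nat_lit 78) (nat_lit 0) (nat_lit 0) (XT.lf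 (nat_lit 0) (nat_lit 31859140059) (nat_lit 76) (nat_lit 62956085128) (nat_lit 76) (nat_lit 41122720351) (nat_lit 3) (nat_lit 4) (nat_lit 4) (nat_lit 5) (nat_lit 4) (nat_lit 4) (nat_lit 298) (nat_lit 237) (nat_lit 185)) (XT.lf (nat_lit 0) (nat_lit 43922314171) (nat_lit 76) (nat_lit 62232007573) (nat_lit 76) (nat_lit 40368529121) (nat_lit 3) (nat_lit 4) (nat_lit 4) (nat_lit 5) (nat_lit 4) (nat_lit 4) (nat_lit 299) (nat_lit 237) (nat_lit 184))) (XT.nd (nat_lit 78) (nat_lit 0) (nat_lit 0) (XT.lf (nat_lit 0) (nat_lit 56926574446) (nat_lit 76) (nat_lit 61460033259) (nat_lit 76) (nat_lit 39568671775) (nat_lit 3) (nat_lit 4) (nat_lit 4) (nat_lit 5) (nat_lit 4) (nat_lit 4) (nat_lit 300) (nat_lit 237) (nat_lit 183)) (XT.lf (nat_lit 0) (nat_lit 70948983169) (nat_lit 76) (nat_lit 60635587526) (nat_lit 76) (nat_lit 38718408418) (nat_lit 3) (nat_lit 4) (nat_lit 4) (nat_lit 5) (nat_lit 4) (nat_lit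 4) (nat_lit 301) (nat_lit 237) (nat_lit 182))))) (XT.nd (nat_lit 312) (nat_lit 0) (nat_lit 0) (XT.nd (nat_lit 156) (nat_lit 0) (nat_lit 0) (XT.nd (nat_lit 78) (nat_lit 0) (nat_lit 0) (XT.lf (nat_lit 0) (nat_lit 86072636095) (nat_lit 76) (nat_lit 59753784768) (nat_lit 76) (nat_lit 37812700454) (nat_lit 3) (nat_lit 4) (nat_lit 4) (nat_lit 5) (nat_lit 4) (nat_lit 4) (nat_lit 302) (nat_lit 237) (nat_lit 181)) (XT.lf (nat_lit 0) (nat_lit 102387154870) (nat_lit 76) (nat_lit 58809399487) (nat_lit 76) (nat_lit 36846180722) (nat_lit 3) (nat_lit 4) (nat_lit 4) (nat_lit 5) (nat_lit 4) (nat_lit 4) (nat_lit 303) (nat_lit 237) (nat_lit 180))) (XT.nd (nat_lit 78) (nat_lit 0) (nat_lit 0) (XT.lf (nat_lit 0) (nat_lit 119989218125) (nat_lit 76) (nat_lit 57796835326) (nat_lit 76) (nat_lit 35813121700) (nat_lit 3) (nat_lit 4) (nat_lit 4) (nat_lit 5) (nat_lit 4) (nat_lit 4) (nat_lit 304) (nat_lit 237) (nat_lit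 179)) (XT.lf (nat_lit 0) (nat_lit 138983134383) (nat_lit 76) (nat_lit 56710091905) (nat_lit 76) (nat_lit 34707401556) (nat_lit 3) (nat_lit 4) (nat_lit 4) (nat_lit 5) (nat_lit 4) (nat_lit 4) (nat_lit 305) (nat_lit 237) (nat_lit 178)))) (XT.nd (nat_lit 156) (nat_lit 0) (nat_lit 0) (XT.nd (nat_lit 78) (nat_lit 0) (nat_lit 0) (XT.lf (nat_lit 0) (nat_lit 159481460184) (nat_lit 76) (nat_lit 55542729264) (nat_lit 76) (nat_lit 33522467874) (nat_lit 3) (nat_lit 4) (nat_lit 4) (nat_lit 5) (nat_lit 4) (nat_lit 4) (nat_lit 306) (nat_lit 237) (nat_lit 177)) (XT.lf (nat_lit 0) (nat_lit 181605667088) (nat_lit 76) (nat_lit 54287829696) (nat_lit 76) (nat_lit 32251298825) (nat_lit 3) (nat_lit 4) (nat_lit 4) (nat_lit 5) (nat_lit 4) (nat_lit 4) (nat_lit 307) (nat_lit 237) (nat_lit 176))) (XT.nd (nat_lit 78) (nat_lit 0) (nat_lit 0) (XT.lf (nat_lit 0) (nat_lit 205486861508) (nat_lit 76) (nat_lit 52937956761)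 (nat_lit 76) (nat_lit 30886361555) (nat_lit 3) (nat_lit 4) (nat_lit 4) (nat_lit 5) (nat_lit 4) (nat_lit 4) (nat_lit 308) (nat_lit 237) (nat_lit 175)) (XT.nd (nat_lit 78) (nat_lit 0) (nat_lit 0) (XT.lf (nat_lit 0) (nat_lit 231266561631) (nat_lit 76) (nat_lit 51485111212) (nat_lit 76) (nat_lit 29419567547) (nat_lit 3) (nat_lit 4) (nat_lit 4) (nat_lit 5) (nat_lit 4) (nat_lit 4) (nat_lit 309) (nat_lit 237) (nat_lit 174)) (XT.lf (nat_lit 0) (nat_lit 259097536052) (nat_lit 76) (nat_lit 49920683593) (nat_lit 76) (nat_lit 27842224689) (nat_lit 3) (nat_lit 4) (nat_lit 4) (nat_lit 5) (nat_lit 4) (nat_lit 4) (nat_lit 310) (nat_lit 237) (nat_lit 173))))))))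
noncomputable def xc44 : XT := (XT.nd (nat_lit 32760) (nat_lit 0) (nat_lit 988) (XT.nd (nat_lit 624) (nat_lit 0) (nat_lit 0) (XT.nd (nat_lit 312) (nat_lit 0) (nat_lit 0) (XT.nd (nat_lit 156) (nat_lit 0) (nat_lit 0) (XT.nd (nat_lit 78) (nat_lit 0) (nat_lit 0) (XT.lf (nat_lit 0) (nat_lit 289144709063) (nat_lit 76) (nat_lit 48235403222) (nat_lit 76) (nat_lit 26144985763) (nat_lit 3) (nat_lit 4) (nat_lit 4) (nat_lit 5) (nat_lit 4) (nat_lit 4) (nat_lit 311) (nat_lit 237) (nat_lit 172)) (XT.lf (nat_lit 0) (nat_lit 321586137986) (nat_lit 76) (nat_lit 46419283253) (nat_lit 76) (nat_lit 24317793058) (nat_lit 3) (nat_lit 4) (nat_lit 4) (nat_lit 5) (nat_lit 4) (nat_lit 4) (nat_lit 312) (nat_lit 237) (nat_lit 171))) (XT.nd (nat_lit 78) (nat_lit 0) (nat_lit 0) (XT.lf (nat_lit 0) (nat_lit 356614068325) (nat_lit 76) (nat_lit 44461561493) (nat_lit 76) (nat_lit 22349818765) (nat_lit 3) (nat_lit 4) (nat_lit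 4) (nat_lit 5) (nat_lit 4) (nat_lit 4) (nat_lit 313) (nat_lit 237) (nat_lit 170)) (XT.lf (nat_lit 0) (nat_lit 394436073001) (nat_lit 76) (nat_lit 42350636628) (nat_lit 76) (nat_lit 20229400814) (nat_lit 3) (nat_lit 4) (nat_lit 4) (nat_lit 5) (nat_lit 4) (nat_lit 4) (nat_lit 314) (nat_lit 237) (nat_lit 169)))) (XT.nd (nat_lit 156) (nat_lit 0) (nat_lit 0) (XT.nd (nat_lit 78) (nat_lit 0) (nat_lit 0) (XT.lf (nat_lit 0) (nat_lit 435276282413) (nat_lit 76) (nat_lit 40073999474) (nat_lit 76) (nat_lit 17943973765) (nat_lit 3) (nat_lit 4) (nat_lit 4) (nat_lit 5) (nat_lit 4) (nat_lit 4) (nat_lit 315) (nat_lit 237) (nat_lit 168)) (XT.lf (nat_lit 0) (nat_lit 479376712615) (nat_lit 76) (nat_lit 37618158847) (nat_lit 76) (nat_lit 15479994346) (nat_lit 3) (nat_lit 4) (nat_lit 4) (nat_lit 5) (nat_lit 4) (nat_lit 4) (nat_lit 316) (nat_lit 237) (nat_lit 167))) (XT.nd (nat_lit 78) (nat_lit 0) (nat_lit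 0) (XT.lf (nat_lit 0) (nat_lit 526998699491) (nat_lit 76) (nat_lit 34968561618) (nat_lit 76) (nat_lit 12822861199) (nat_lit 3) (nat_lit 4) (nat_lit 4) (nat_lit 5) (nat_lit 4) (nat_lit 4) (nat_lit 317) (nat_lit 237) (nat_lit 166)) (XT.lf (nat_lit 0) (nat_lit 578424447408) (nat_lit 76) (nat_lit 32109506470) (nat_lit 76) (nat_lit 9956828349) (nat_lit 3) (nat_lit 4) (nat_lit 4) (nat_lit 5) (nat_lit 4) (nat_lit 4) (nat_lit 318) (nat_lit 237) (nat_lit 165))))) (XT.nd (nat_lit 31824) (nat_lit 0) (nat_lit 5244) (XT.nd (nat_lit 31668) (nat_lit 0) (nat_lit 6536) (XT.nd (nat_lit 78) (nat_lit 0) (nat_lit 0) (XT.lf (nat_lit 0) (nat_lit 633958701537) (nat_lit 76) (nat_lit 29024050854) (nat_lit 76) (nat_lit 6864911898) (nat_lit 3) (nat_lit 4) (nat_lit 4) (nat_lit 5) (nat_lit 4) (nat_lit 4) (nat_lit 319) (nat_lit 237) (nat_lit 164)) (XT.lf (nat_lit 0) (nat_lit 693930553756) (nat_lit 76) (nat_lit 25693910588)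 (nat_lit 76) (nat_lit 3528789378) (nat_lit 3) (nat_lit 4) (nat_lit 4) (nat_lit 5) (nat_lit 4) (nat_lit 4) (nat_lit 320) (nat_lit 237) (nat_lit 163))) (XT.nd (nat_lit 78) (nat_lit 304) (nat_lit 0) (XT.lf (nat_lit 0) (nat_lit 1402447287) (nat_lit 228) (nat_lit 480639125) (nat_lit 0) (nat_lit 1402447287) (nat_lit 93) (nat_lit 5) (nat_lit 96) (nat_lit 4) (nat_lit 93) (nat_lit 4) (nat_lit 244) (nat_lit 238) (nat_lit 238)) (XT.lf (nat_lit 0) (nat_lit 397694452) (nat_lit 304) (nat_lit 2379899494) (nat_lit 76) (nat_lit 3870901439) (nat_lit 89) (nat_lit 5) (nat_lit 93) (nat_lit 5) (nat_lit 90) (nat_lit 4) (nat_lit 245) (nat_lit 238) (nat_lit 237)))) (XT.nd (nat_lit 156) (nat_lit 532) (nat_lit 0) (XT.nd (nat_lit 78) (nat_lit 456) (nat_lit 0) (XT.lf (nat_lit 0) (nat_lit 2974758667) (nat_lit 304) (nat_lit 1478131781) (nat_lit 380) (nat_lit 2295062365) (nat_lit 85) (nat_lit 5) (nat_lit 89) (nat_lit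 5) (nat_lit 90) (nat_lit 4) (nat_lit 246) (nat_lit 238) (nat_lit 236)) (XT.lf (nat_lit 0) (nat_lit 1624552983) (nat_lit 456) (nat_lit 5139202294) (nat_lit 76) (nat_lit 107558443) (nat_lit 79) (nat_lit 5) (nat_lit 85) (nat_lit 5) (nat_lit 80) (nat_lit 4) (nat_lit 247) (nat_lit 238) (nat_lit 235))) (XT.nd (nat_lit 78) (nat_lit 76) (nat_lit 0) (XT.lf (nat_lit 0) (nat_lit 473646550) (nat_lit 456) (nat_lit 5067246840) (nat_lit 532) (nat_lit 1476391872) (nat_lit 73) (nat_lit 5) (nat_lit 79) (nat_lit 5) (nat_lit 80) (nat_lit 4) (nat_lit 248) (nat_lit 238) (nat_lit 234)) (XT.lf (nat_lit 0) (nat_lit 2279827432) (nat_lit 532) (nat_lit 782195460) (nat_lit 76) (nat_lit 4124990718) (nat_lit 72) (nat_lit 5) (nat_lit 79) (nat_lit 5) (nat_lit 73) (nat_lit 5) (nat_lit 249) (nat_lit 238) (nat_lit 233)))))) (XT.nd (nat_lit 624) (nat_lit 1368) (nat_lit 0) (XT.nd (nat_lit 312) (nat_lit 836) (nat_lit 0)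 (XT.nd (nat_lit 156) (nat_lit 836) (nat_lit 0) (XT.nd (nat_lit 78) (nat_lit 684) (nat_lit 0) (XT.lf (nat_lit 0) (nat_lit 5318084858) (nat_lit 532) (nat_lit 750740195) (nat_lit 608) (nat_lit 1313371868) (nat_lit 65) (nat_lit 5) (nat_lit 72) (nat_lit 5) (nat_lit 73) (nat_lit 5) (nat_lit 250) (nat_lit 238) (nat_lit 232)) (XT.lf (nat_lit 0) (nat_lit 2306031831) (nat_lit 684) (nat_lit 3465233675) (nat_lit 76) (nat_lit 1830727921) (nat_lit 56) (nat_lit 5) (nat_lit 65) (nat_lit 5) (nat_lit 57) (nat_lit 5) (nat_lit 251) (nat_lit 238) (nat_lit 231))) (XT.nd (nat_lit 78) (nat_lit 380) (nat_lit 0) (XT.lf (nat_lit 0) (nat_lit 2854453223) (nat_lit 456) (nat_lit 3138322836) (nat_lit 532) (nat_lit 1856198446) (nat_lit 50) (nat_lit 5) (nat_lit 56) (nat_lit 5) (nat_lit 57) (nat_lit 5) (nat_lit 252) (nat_lit 238) (nat_lit 230)) (XT.lf (nat_lit 0) (nat_lit 1436929541) (nat_lit 304) (nat_lit 185671653)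 (nat_lit 380) (nat_lit 6502141347) (nat_lit 45) (nat_lit 5) (nat_lit 49) (nat_lit 5) (nat_lit 50) (nat_lit 5) (nat_lit 253) (nat_lit 238) (nat_lit 229)))) (XT.nd (nat_lit 156) (nat_lit 456) (nat_lit 0) (XT.nd (nat_lit 78) (nat_lit 380) (nat_lit 0) (XT.lf (nat_lit 0) (nat_lit 5205479403) (nat_lit 380) (nat_lit 208255440) (nat_lit 76) (nat_lit 3014300208) (nat_lit 45) (nat_lit 5) (nat_lit 50) (nat_lit 5) (nat_lit 46) (nat_lit 5) (nat_lit 254) (nat_lit 238) (nat_lit 228)) (XT.lf (nat_lit 0) (nat_lit 187193647) (nat_lit 380) (nat_lit 2014888899) (nat_lit 76) (nat_lit 6560702767) (nat_lit 40) (nat_lit 5) (nat_lit 45) (nat_lit 5) (nat_lit 41) (nat_lit 5) (nat_lit 255) (nat_lit 238) (nat_lit 227))) (XT.nd (nat_lit 78) (nat_lit 228) (nat_lit 0) (XT.lf (nat_lit 0) (nat_lit 3642715306) (nat_lit 304) (nat_lit 4150842187) (nat_lit 76) (nat_lit 1335066964) (nat_lit 37) (nat_lit 5) (nat_lit 41) (nat_lit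 5) (nat_lit 38) (nat_lit 5) (nat_lit 256) (nat_lit 238) (nat_lit 226)) (XT.lf (nat_lit 0) (nat_lit 2885234107) (nat_lit 228) (nat_lit 4400388465) (nat_lit 304) (nat_lit 2243713794) (nat_lit 34) (nat_lit 5) (nat_lit 37) (nat_lit 5) (nat_lit 38) (nat_lit 5) (nat_lit 257) (nat_lit 238) (nat_lit 225))))) (XT.nd (nat_lit 312) (nat_lit 608) (nat_lit 0) (XT.nd (nat_lit 156) (nat_lit 456) (nat_lit 0) (XT.nd (nat_lit 78) (nat_lit 0) (nat_lit 0) (XT.lf (nat_lit 0) (nat_lit 420538123) (nat_lit 228) (nat_lit 677577765) (nat_lit 304) (nat_lit 8869998110) (nat_lit 30) (nat_lit 5) (nat_lit 33) (nat_lit 5) (nat_lit 34) (nat_lit 5) (nat_lit 258) (nat_lit 238) (nat_lit 224)) (XT.lf (nat_lit 0) (nat_lit 4610397735) (nat_lit 304) (nat_lit 2485491380) (nat_lit 76) (nat_lit 3346121184) (nat_lit 30) (nat_lit 5) (nat_lit 34) (nat_lit 5) (nat_lit 31) (nat_lit 5) (nat_lit 259) (nat_lit 238) (nat_lit 223))) (XT.nd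 (nat_lit 78) (nat_lit 228) (nat_lit 0) (XT.lf (nat_lit 0) (nat_lit 5065438201) (nat_lit 228) (nat_lit 3253582853) (nat_lit 304) (nat_lit 2639900879) (nat_lit 27) (nat_lit 5) (nat_lit 30) (nat_lit 5) (nat_lit 31) (nat_lit 5) (nat_lit 260) (nat_lit 238) (nat_lit 222)) (XT.lf (nat_lit 0) (nat_lit 695863882) (nat_lit 228) (nat_lit 9927763954) (nat_lit 76) (nat_lit 897969654) (nat_lit 24) (nat_lit 5) (nat_lit 27) (nat_lit 5) (nat_lit 25) (nat_lit 5) (nat_lit 261) (nat_lit 238) (nat_lit 221)))) (XT.nd (nat_lit 156) (nat_lit 380) (nat_lit 0) (XT.nd (nat_lit 78) (nat_lit 228) (nat_lit 0) (XT.lf (nat_lit 0) (nat_lit 4205730225) (nat_lit 228) (nat_lit 2556105355) (nat_lit 76) (nat_lit 5366012828) (nat_lit 24) (nat_lit 5) (nat_lit 27) (nat_lit 5) (nat_lit 25) (nat_lit 5) (nat_lit 262) (nat_lit 238) (nat_lit 220)) (XT.lf (nat_lit 0) (nat_lit 5372150498) (nat_lit 228) (nat_lit 2559302464) (nat_lit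 304) (nat_lit 4855052018) (nat_lit 21) (nat_lit 5) (nat_lit 24) (nat_lit 5) (nat_lit 25) (nat_lit 5) (nat_lit 263) (nat_lit 238) (nat_lit 219))) (XT.nd (nat_lit 78) (nat_lit 228) (nat_lit 0) (XT.lf (nat_lit 0) (nat_lit 305506219) (nat_lit 152) (nat_lit 11588946400) (nat_lit 228) (nat_lit 1607050629) (nat_lit 19) (nat_lit 5) (nat_lit 21) (nat_lit 5) (nat_lit 22) (nat_lit 4) (nat_lit 264) (nat_lit 238) (nat_lit 218)) (XT.nd (nat_lit 78) (nat_lit 152) (nat_lit 0) (XT.lf (nat_lit 0) (nat_lit 1877386443) (nat_lit 228) (nat_lit 5633673837) (nat_lit 76) (nat_lit 6759823657) (nat_lit 18) (nat_lit 5) (nat_lit 21) (nat_lit 5) (nat_lit 19) (nat_lit 5) (nat_lit 265) (nat_lit 238) (nat_lit 217)) (XT.lf (nat_lit 0) (nat_lit 2398870255) (nat_lit 152) (nat_lit 3096766079) (nat_lit 228) (nat_lit 9609791613) (nat_lit 16) (nat_lit 5) (nat_lit 18) (nat_lit 5) (nat_lit 19) (nat_lit 5) (nat_lit 266) (nat_lit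 238) (nat_lit 216))))))))
noncomputable def xc45 : XT := (XT.nd (nat_lit 1248) (nat_lit 228) (nat_lit 0) (XT.nd (nat_lit 624) (nat_lit 380) (nat_lit 0) (XT.nd (nat_lit 312) (nat_lit 76) (nat_lit 0) (XT.nd (nat_lit 156) (nat_lit 228) (nat_lit 0) (XT.nd (nat_lit 78) (nat_lit 76) (nat_lit 0) (XT.lf (nat_lit 0) (nat_lit 9408092572) (nat_lit 228) (nat_lit 4936350579) (nat_lit 76) (nat_lit 1662516284) (nat_lit 16) (nat_lit 5) (nat_lit 19) (nat_lit 5) (nat_lit 17) (nat_lit 4) (nat_lit 267) (nat_lit 238) (nat_lit 215)) (XT.lf (nat_lit 0) (nat_lit 3341669748) (nat_lit 76) (nat_lit 10284153256) (nat_lit 152) (nat_lit 3355603658) (nat_lit 15) (nat_lit 5) (nat_lit 16) (nat_lit 5) (nat_lit 17) (nat_lit 4) (nat_lit 268) (nat_lit 238) (nat_lit 214))) (XT.nd (nat_lit 78) (nat_lit 152) (nat_lit 0) (XT.lf (nat_lit 0) (nat_lit 121358983) (nat_lit 152) (nat_lit 5740229737) (nat_lit 76) (nat_lit 12173576978)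 (nat_lit 14) (nat_lit 5) (nat_lit 16) (nat_lit 5) (nat_lit 15) (nat_lit 5) (nat_lit 269) (nat_lit 238) (nat_lit 213)) (XT.lf (nat_lit 0) (nat_lit 2667098810) (nat_lit 152) (nat_lit 1034611266) (nat_lit 228) (nat_lit 15471952250) (nat_lit 12) (nat_lit 5) (nat_lit 14) (nat_lit 5) (nat_lit 15) (nat_lit 5) (nat_lit 270) (nat_lit 238) (nat_lit 212)))) (XT.nd (nat_lit 156) (nat_lit 76) (nat_lit 0) (XT.nd (nat_lit 78) (nat_lit 0) (nat_lit 0) (XT.lf (nat_lit 0) (nat_lit 7639298317) (nat_lit 228) (nat_lit 8663706987) (nat_lit 76) (nat_lit 4097015833) (nat_lit 12) (nat_lit 5) (nat_lit 15) (nat_lit 5) (nat_lit 13) (nat_lit 4) (nat_lit 271) (nat_lit 238) (nat_lit 211)) (XT.lf (nat_lit 0) (nat_lit 11820394874) (nat_lit 228) (nat_lit 350298459) (nat_lit 76) (nat_lit 9557669242) (nat_lit 12) (nat_lit 5) (nat_lit 15) (nat_lit 5) (nat_lit 13) (nat_lit 4) (nat_lit 272) (nat_lit 238) (nat_lit 210))) (XT.nd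 (nat_lit 78) (nat_lit 0) (nat_lit 0) (XT.lf (nat_lit 0) (nat_lit 8780097855) (nat_lit 76) (nat_lit 7610607513) (nat_lit 152) (nat_lit 6769806490) (nat_lit 11) (nat_lit 5) (nat_lit 12) (nat_lit 5) (nat_lit 13) (nat_lit 4) (nat_lit 273) (nat_lit 238) (nat_lit 209)) (XT.lf (nat_lit 0) (nat_lit 18529942712) (nat_lit 76) (nat_lit 2724616604) (nat_lit 152) (nat_lit 3456534166) (nat_lit 11) (nat_lit 5) (nat_lit 12) (nat_lit 5) (nat_lit 13) (nat_lit 4) (nat_lit 274) (nat_lit 238) (nat_lit 208))))) (XT.nd (nat_lit 312) (nat_lit 76) (nat_lit 0) (XT.nd (nat_lit 156) (nat_lit 76) (nat_lit 0) (XT.nd (nat_lit 78) (nat_lit 0) (nat_lit 0) (XT.lf (nat_lit 0) (nat_lit 125185129) (nat_lit 228) (nat_lit 23787737272) (nat_lit 76) (nat_lit 2472566021) (nat_lit 8) (nat_lit 5) (nat_lit 11) (nat_lit 5) (nat_lit 9) (nat_lit 4) (nat_lit 275) (nat_lit 238) (nat_lit 207)) (XT.lf (nat_lit 0) (nat_lit 3958597738)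 (nat_lit 228) (nat_lit 16109736345) (nat_lit 76) (nat_lit 8118564153) (nat_lit 8) (nat_lit 5) (nat_lit 11) (nat_lit 5) (nat_lit 9) (nat_lit 4) (nat_lit 276) (nat_lit 238) (nat_lit 206))) (XT.nd (nat_lit 78) (nat_lit 76) (nat_lit 0) (XT.lf (nat_lit 0) (nat_lit 8033181615) (nat_lit 228) (nat_lit 7923964321) (nat_lit 76) (nat_lit 14178743779) (nat_lit 8) (nat_lit 5) (nat_lit 11) (nat_lit 5) (nat_lit 9) (nat_lit 4) (nat_lit 277) (nat_lit 238) (nat_lit 205)) (XT.lf (nat_lit 0) (nat_lit 845136730) (nat_lit 76) (nat_lit 11541140667) (nat_lit 152) (nat_lit 19857075298) (nat_lit 7) (nat_lit 5) (nat_lit 8) (nat_lit 5) (nat_lit 9) (nat_lit 4) (nat_lit 278) (nat_lit 238) (nat_lit 204)))) (XT.nd (nat_lit 156) (nat_lit 76) (nat_lit 0) (XT.nd (nat_lit 78) (nat_lit 0) (nat_lit 0) (XT.lf (nat_lit 0) (nat_lit 10504429960) (nat_lit 76) (nat_lit 6663591787) (nat_lit 152) (nat_lit 17347537068) (nat_lit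 7) (nat_lit 5) (nat_lit 8) (nat_lit 5) (nat_lit 9) (nat_lit 4) (nat_lit 279) (nat_lit 238) (nat_lit 203)) (XT.lf (nat_lit 0) (nat_lit 20849153578) (nat_lit 76) (nat_lit 1429791473) (nat_lit 152) (nat_lit 14693418245) (nat_lit 7) (nat_lit 5) (nat_lit 8) (nat_lit 5) (nat_lit 9) (nat_lit 4) (nat_lit 280) (nat_lit 238) (nat_lit 202))) (XT.nd (nat_lit 78) (nat_lit 76) (nat_lit 0) (XT.lf (nat_lit 0) (nat_lit 27814771816) (nat_lit 152) (nat_lit 7753152884) (nat_lit 0) (nat_lit 4057128400) (nat_lit 7) (nat_lit 5) (nat_lit 9) (nat_lit 4) (nat_lit 7) (nat_lit 4) (nat_lit 281) (nat_lit 238) (nat_lit 201)) (XT.lf (nat_lit 0) (nat_lit 1224778446) (nat_lit 76) (nat_lit 32565714818) (nat_lit 76) (nat_lit 8699745291) (nat_lit 6) (nat_lit 4) (nat_lit 7) (nat_lit 5) (nat_lit 7) (nat_lit 4) (nat_lit 282) (nat_lit 238) (nat_lit 200)))))) (XT.nd (nat_lit 624) (nat_lit 76) (nat_lit 0) (XT.nd (nat_lit 312)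 (nat_lit 76) (nat_lit 0) (XT.nd (nat_lit 156) (nat_lit 76) (nat_lit 0) (XT.nd (nat_lit 78) (nat_lit 0) (nat_lit 0) (XT.lf (nat_lit 0) (nat_lit 11124323735) (nat_lit 76) (nat_lit 29211076172) (nat_lit 76) (nat_lit 5244804690) (nat_lit 6) (nat_lit 4) (nat_lit 7) (nat_lit 5) (nat_lit 7) (nat_lit 4) (nat_lit 283) (nat_lit 238) (nat_lit 199)) (XT.lf (nat_lit 0) (nat_lit 21747792706) (nat_lit 76) (nat_lit 25615432816) (nat_lit 76) (nat_lit 1556289154) (nat_lit 6) (nat_lit 4) (nat_lit 7) (nat_lit 5) (nat_lit 7) (nat_lit 4) (nat_lit 284) (nat_lit 238) (nat_lit 198))) (XT.nd (nat_lit 78) (nat_lit 0) (nat_lit 0) (XT.lf (nat_lit 0) (nat_lit 2311239179) (nat_lit 152) (nat_lit 19407096102) (nat_lit 76) (nat_lit 30807758115) (nat_lit 5) (nat_lit 5) (nat_lit 7) (nat_lit 5) (nat_lit 6) (nat_lit 4) (nat_lit 285) (nat_lit 238) (nat_lit 197)) (XT.lf (nat_lit 0) (nat_lit 6398837411) (nat_lit 152) (nat_lit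 11107142652) (nat_lit 76) (nat_lit 38915775413) (nat_lit 5) (nat_lit 5) (nat_lit 7) (nat_lit 5) (nat_lit 6) (nat_lit 4) (nat_lit 286) (nat_lit 238) (nat_lit 196)))) (XT.nd (nat_lit 156) (nat_lit 0) (nat_lit 0) (XT.nd (nat_lit 78) (nat_lit 76) (nat_lit 0) (XT.lf (nat_lit 0) (nat_lit 10780539317) (nat_lit 152) (nat_lit 2198378675) (nat_lit 76) (nat_lit 47651883229) (nat_lit 5) (nat_lit 5) (nat_lit 7) (nat_lit 5) (nat_lit 6) (nat_lit 4) (nat_lit 287) (nat_lit 238) (nat_lit 195)) (XT.lf (nat_lit 0) (nat_lit 7615739735) (nat_lit 76) (nat_lit 7985473843) (nat_lit 152) (nat_lit 49571014395) (nat_lit 4) (nat_lit 5) (nat_lit 5) (nat_lit 5) (nat_lit 6) (nat_lit 4) (nat_lit 288) (nat_lit 238) (nat_lit 194))) (XT.nd (nat_lit 78) (nat_lit 0) (nat_lit 0) (XT.lf (nat_lit 0) (nat_lit 18244613749) (nat_lit 76) (nat_lit 2572249224) (nat_lit 152) (nat_lit 49259713127) (nat_lit 4) (nat_lit 5) (nat_lit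 5) (nat_lit 5) (nat_lit 6) (nat_lit 4) (nat_lit 289) (nat_lit 238) (nat_lit 193)) (XT.lf (nat_lit 0) (nat_lit 26473766429) (nat_lit 152) (nat_lit 45746969429) (nat_lit 0) (nat_lit 3151403977) (nat_lit 4) (nat_lit 5) (nat_lit 6) (nat_lit 4) (nat_lit 4) (nat_lit 4) (nat_lit 290) (nat_lit 238) (nat_lit 192))))) (XT.nd (nat_lit 312) (nat_lit 76) (nat_lit 0) (XT.nd (nat_lit 156) (nat_lit 0) (nat_lit 0) (XT.nd (nat_lit 78) (nat_lit 0) (nat_lit 0) (XT.lf (nat_lit 0) (nat_lit 32601488753) (nat_lit 152) (nat_lit 39261492671) (nat_lit 0) (nat_lit 9227516754) (nat_lit 4) (nat_lit 5) (nat_lit 6) (nat_lit 4) (nat_lit 4) (nat_lit 4) (nat_lit 291) (nat_lit 238) (nat_lit 191)) (XT.lf (nat_lit 0) (nat_lit 39196182356) (nat_lit 152) (nat_lit 32296939604) (nat_lit 0) (nat_lit 15774423738) (nat_lit 4) (nat_lit 5) (nat_lit 6) (nat_lit 4) (nat_lit 4) (nat_lit 4) (nat_lit 292) (nat_lit 238) (nat_lit 190)))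 (XT.nd (nat_lit 78) (nat_lit 0) (nat_lit 0) (XT.lf (nat_lit 0) (nat_lit 46296926902) (nat_lit 152) (nat_lit 24812038801) (nat_lit 0) (nat_lit 22830921416) (nat_lit 4) (nat_lit 5) (nat_lit 6) (nat_lit 4) (nat_lit 4) (nat_lit 4) (nat_lit 293) (nat_lit 238) (nat_lit 189)) (XT.lf (nat_lit 0) (nat_lit 53945800879) (nat_lit 152) (nat_lit 16762435295) (nat_lit 0) (nat_lit 30438826069) (nat_lit 4) (nat_lit 5) (nat_lit 6) (nat_lit 4) (nat_lit 4) (nat_lit 4) (nat_lit 294) (nat_lit 238) (nat_lit 188)))) (XT.nd (nat_lit 156) (nat_lit 0) (nat_lit 0) (XT.nd (nat_lit 78) (nat_lit 76) (nat_lit 0) (XT.lf (nat_lit 0) (nat_lit 62188130946) (nat_lit 152) (nat_lit 8100427732) (nat_lit 0) (nat_lit 38643221578) (nat_lit 4) (nat_lit 5) (nat_lit 6) (nat_lit 4) (nat_lit 4) (nat_lit 4) (nat_lit 295) (nat_lit 238) (nat_lit 187)) (XT.lf (nat_lit 0) (nat_lit 1265828727) (nat_lit 76) (nat_lit 69826694948) (nat_lit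 76) (nat_lit 46246660989) (nat_lit 3) (nat_lit 4) (nat_lit 4) (nat_lit 5) (nat_lit 4) (nat_lit 4) (nat_lit 296) (nat_lit 238) (nat_lit 186))) (XT.nd (nat_lit 78) (nat_lit 0) (nat_lit 0) (XT.lf (nat_lit 0) (nat_lit 11642693364) (nat_lit 76) (nat_lit 69191421029) (nat_lit 76) (nat_lit 45578864301) (nat_lit 3) (nat_lit 4) (nat_lit 4) (nat_lit 5) (nat_lit 4) (nat_lit 4) (nat_lit 297) (nat_lit 238) (nat_lit 185)) (XT.nd (nat_lit 78) (nat_lit 0) (nat_lit 0) (XT.lf (nat_lit 0) (nat_lit 22823821986) (nat_lit 76) (nat_lit 68516156999) (nat_lit 76) (nat_lit 44873486595) (nat_lit 3) (nat_lit 4) (nat_lit 4) (nat_lit 5) (nat_lit 4) (nat_lit 4) (nat_lit 298) (nat_lit 238) (nat_lit 184)) (XT.lf (nat_lit 0) (nat_lit 34875473134) (nat_lit 76) (nat_lit 67796901293) (nat_lit 76) (nat_lit 44126347856) (nat_lit 3) (nat_lit 4) (nat_lit 4) (nat_lit 5) (nat_lit 4) (nat_lit 4) (nat_lit 299) (nat_lit 238) (nat_lit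 183))))))))
noncomputable def xc46 : XT := (XT.nd (nat_lit 1248) (nat_lit 0) (nat_lit 0) (XT.nd (nat_lit 624) (nat_lit 0) (nat_lit 0) (XT.nd (nat_lit 312) (nat_lit 0) (nat_lit 0) (XT.nd (nat_lit 156) (nat_lit 0) (nat_lit 0) (XT.nd (nat_lit 78) (nat_lit 0) (nat_lit 0) (XT.lf (nat_lit 0) (nat_lit 47869063998) (nat_lit 76) (nat_lit 67029391655) (nat_lit 76) (nat_lit 43333020596) (nat_lit 3) (nat_lit 4) (nat_lit 4) (nat_lit 5) (nat_lit 4) (nat_lit 4) (nat_lit 300) (nat_lit 238) (nat_lit 182)) (XT.lf (nat_lit 0) (nat_lit 61881593637) (nat_lit 76) (nat_lit 66209079880) (nat_lit 76) (nat_lit 42488803615) (nat_lit 3) (nat_lit 4) (nat_lit 4) (nat_lit 5) (nat_lit 4) (nat_lit 4) (nat_lit 301) (nat_lit 238) (nat_lit 181))) (XT.nd (nat_lit 78) (nat_lit 0) (nat_lit 0) (XT.lf (nat_lit 0) (nat_lit 76996099263) (nat_lit 76) (nat_lit 65331104861) (nat_lit 76) (nat_lit 41588694145) (nat_lit 3) (nat_lit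 4) (nat_lit 4) (nat_lit 5) (nat_lit 4) (nat_lit 4) (nat_lit 302) (nat_lit 238) (nat_lit 180)) (XT.lf (nat_lit 0) (nat_lit 93302148316) (nat_lit 76) (nat_lit 64390263784) (nat_lit 76) (nat_lit 40627358206) (nat_lit 3) (nat_lit 4) (nat_lit 4) (nat_lit 5) (nat_lit 4) (nat_lit 4) (nat_lit 303) (nat_lit 238) (nat_lit 179)))) (XT.nd (nat_lit 156) (nat_lit 0) (nat_lit 0) (XT.nd (nat_lit 78) (nat_lit 0) (nat_lit 0) (XT.lf (nat_lit 0) (nat_lit 110896369235) (nat_lit 76) (nat_lit 63380981292) (nat_lit 76) (nat_lit 39599098992) (nat_lit 3) (nat_lit 4) (nat_lit 4) (nat_lit 5) (nat_lit 4) (nat_lit 4) (nat_lit 304) (nat_lit 238) (nat_lit 178)) (XT.lf (nat_lit 0) (nat_lit 129883024071) (nat_lit 76) (nat_lit 62297276455) (nat_lit 76) (nat_lit 38497823113) (nat_lit 3) (nat_lit 4) (nat_lit 4) (nat_lit 5) (nat_lit 4) (nat_lit 4) (nat_lit 305) (nat_lit 238) (nat_lit 177))) (XT.nd (nat_lit 78) (nat_lit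 0) (nat_lit 0) (XT.lf (nat_lit 0) (nat_lit 150374626333) (nat_lit 76) (nat_lit 61132727316) (nat_lit 76) (nat_lit 37317004493) (nat_lit 3) (nat_lit 4) (nat_lit 4) (nat_lit 5) (nat_lit 4) (nat_lit 4) (nat_lit 306) (nat_lit 238) (nat_lit 176)) (XT.lf (nat_lit 0) (nat_lit 172492607739) (nat_lit 76) (nat_lit 59880432844) (nat_lit 76) (nat_lit 36049645685) (nat_lit 3) (nat_lit 4) (nat_lit 4) (nat_lit 5) (nat_lit 4) (nat_lit 4) (nat_lit 307) (nat_lit 238) (nat_lit 175))))) (XT.nd (nat_lit 312) (nat_lit 0) (nat_lit 0) (XT.nd (nat_lit 156) (nat_lit 0) (nat_lit 0) (XT.nd (nat_lit 78) (nat_lit 0) (nat_lit 0) (XT.lf (nat_lit 0) (nat_lit 196368037807) (nat_lit 76) (nat_lit 58532972034) (nat_lit 76) (nat_lit 34688236417) (nat_lit 3) (nat_lit 4) (nat_lit 4) (nat_lit 5) (nat_lit 4) (nat_lit 4) (nat_lit 308) (nat_lit 238) (nat_lit 174)) (XT.lf (nat_lit 0) (nat_lit 222142400569) (nat_lit 76) (nat_lit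 57082359934) (nat_lit 76) (nat_lit 33224709078) (nat_lit 3) (nat_lit 4) (nat_lit 4) (nat_lit 5) (nat_lit 4) (nat_lit 4) (nat_lit 309) (nat_lit 238) (nat_lit 173))) (XT.nd (nat_lit 78) (nat_lit 0) (nat_lit 0) (XT.lf (nat_lit 0) (nat_lit 249968432988) (nat_lit 76) (nat_lit 55520000323) (nat_lit 76) (nat_lit 31650390913) (nat_lit 3) (nat_lit 4) (nat_lit 4) (nat_lit 5) (nat_lit 4) (nat_lit 4) (nat_lit 310) (nat_lit 238) (nat_lit 172)) (XT.lf (nat_lit 0) (nat_lit 280011030072) (nat_lit 76) (nat_lit 53836634775) (nat_lit 76) (nat_lit 29955952629) (nat_lit 3) (nat_lit 4) (nat_lit 4) (nat_lit 5) (nat_lit 4) (nat_lit 4) (nat_lit 311) (nat_lit 238) (nat_lit 171)))) (XT.nd (nat_lit 156) (nat_lit 0) (nat_lit 0) (XT.nd (nat_lit 78) (nat_lit 0) (nat_lit 0) (XT.lf (nat_lit 0) (nat_lit 312448222025) (nat_lit 76) (nat_lit 52022287790) (nat_lit 76) (nat_lit 28131353110) (nat_lit 3) (nat_lit 4) (nat_lit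 4) (nat_lit 5) (nat_lit 4) (nat_lit 4) (nat_lit 312) (nat_lit 238) (nat_lit 170)) (XT.lf (nat_lit 0) (nat_lit 347472229244) (nat_lit 76) (nat_lit 50066207682) (nat_lit 76) (nat_lit 26165779916) (nat_lit 3) (nat_lit 4) (nat_lit 4) (nat_lit 5) (nat_lit 4) (nat_lit 4) (nat_lit 313) (nat_lit 238) (nat_lit 169))) (XT.nd (nat_lit 78) (nat_lit 0) (nat_lit 0) (XT.lf (nat_lit 0) (nat_lit 385290601402) (nat_lit 76) (nat_lit 47956802865) (nat_lit 76) (nat_lit 24047585204) (nat_lit 3) (nat_lit 4) (nat_lit 4) (nat_lit 5) (nat_lit 4) (nat_lit 4) (nat_lit 314) (nat_lit 238) (nat_lit 168)) (XT.lf (nat_lit 0) (nat_lit 426127447370) (nat_lit 76) (nat_lit 45681573162) (nat_lit 76) (nat_lit 21764216710) (nat_lit 3) (nat_lit 4) (nat_lit 4) (nat_lit 5) (nat_lit 4) (nat_lit 4) (nat_lit 315) (nat_lit 238) (nat_lit 167)))))) (XT.nd (nat_lit 32058) (nat_lit 0) (nat_lit 3192) (XT.nd (nat_lit 31746) (nat_lit 0)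 (nat_lit 6536) (XT.nd (nat_lit 156) (nat_lit 0) (nat_lit 0) (XT.nd (nat_lit 78) (nat_lit 0) (nat_lit 0) (XT.lf (nat_lit 0) (nat_lit 470224763273) (nat_lit 76) (nat_lit 43227035732) (nat_lit 76) (nat_lit 19302143361) (nat_lit 3) (nat_lit 4) (nat_lit 4) (nat_lit 5) (nat_lit 4) (nat_lit 4) (nat_lit 316) (nat_lit 238) (nat_lit 166)) (XT.lf (nat_lit 0) (nat_lit 517843866538) (nat_lit 76) (nat_lit 40578645166) (nat_lit 76) (nat_lit 16646775094) (nat_lit 3) (nat_lit 4) (nat_lit 4) (nat_lit 5) (nat_lit 4) (nat_lit 4) (nat_lit 317) (nat_lit 238) (nat_lit 165))) (XT.nd (nat_lit 78) (nat_lit 0) (nat_lit 0) (XT.lf (nat_lit 0) (nat_lit 569266944445) (nat_lit 76) (nat_lit 37720707299) (nat_lit 76) (nat_lit 13782376391) (nat_lit 3) (nat_lit 4) (nat_lit 4) (nat_lit 5) (nat_lit 4) (nat_lit 4) (nat_lit 318) (nat_lit 238) (nat_lit 164)) (XT.lf (nat_lit 0) (nat_lit 624798726343) (nat_lit 76) (nat_lit 34636286202)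 (nat_lit 76) (nat_lit 10691973040) (nat_lit 3) (nat_lit 4) (nat_lit 4) (nat_lit 5) (nat_lit 4) (nat_lit 4) (nat_lit 319) (nat_lit 238) (nat_lit 163)))) (XT.nd (nat_lit 156) (nat_lit 304) (nat_lit 0) (XT.nd (nat_lit 78) (nat_lit 228) (nat_lit 0) (XT.lf (nat_lit 0) (nat_lit 1173646938) (nat_lit 76) (nat_lit 1031394567) (nat_lit 76) (nat_lit 1031394567) (nat_lit 96) (nat_lit 4) (nat_lit 97) (nat_lit 5) (nat_lit 97) (nat_lit 4) (nat_lit 242) (nat_lit 239) (nat_lit 239)) (XT.lf (nat_lit 0) (nat_lit 557681144) (nat_lit 152) (nat_lit 1481834691) (nat_lit 228) (nat_lit 4476992566) (nat_lit 93) (nat_lit 5) (nat_lit 95) (nat_lit 5) (nat_lit 96) (nat_lit 4) (nat_lit 243) (nat_lit 239) (nat_lit 238))) (XT.nd (nat_lit 78) (nat_lit 304) (nat_lit 0) (XT.lf (nat_lit 0) (nat_lit 5480201323) (nat_lit 152) (nat_lit 597095954) (nat_lit 228) (nat_lit 504559680) (nat_lit 93) (nat_lit 5) (nat_lit 95) (nat_lit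 5) (nat_lit 96) (nat_lit 4) (nat_lit 244) (nat_lit 239) (nat_lit 237)) (XT.lf (nat_lit 0) (nat_lit 3362974688) (nat_lit 304) (nat_lit 2710355611) (nat_lit 76) (nat_lit 594654878) (nat_lit 89) (nat_lit 5) (nat_lit 93) (nat_lit 5) (nat_lit 90) (nat_lit 4) (nat_lit 245) (nat_lit 239) (nat_lit 236))))) (XT.nd (nat_lit 312) (nat_lit 2052) (nat_lit 0) (XT.nd (nat_lit 156) (nat_lit 532) (nat_lit 0) (XT.nd (nat_lit 78) (nat_lit 380) (nat_lit 0) (XT.lf (nat_lit 0) (nat_lit 451289210) (nat_lit 380) (nat_lit 4278778493) (nat_lit 76) (nat_lit 2047251933) (nat_lit 84) (nat_lit 5) (nat_lit 89) (nat_lit 5) (nat_lit 85) (nat_lit 5) (nat_lit 246) (nat_lit 239) (nat_lit 235)) (XT.lf (nat_lit 0) (nat_lit 1046081041) (nat_lit 380) (nat_lit 3078528087) (nat_lit 456) (nat_lit 2784268456) (nat_lit 79) (nat_lit 5) (nat_lit 84) (nat_lit 5) (nat_lit 85) (nat_lit 5) (nat_lit 247) (nat_lit 239) (nat_lit 234)))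 (XT.nd (nat_lit 78) (nat_lit 456) (nat_lit 0) (XT.lf (nat_lit 0) (nat_lit 762923576) (nat_lit 456) (nat_lit 375591131) (nat_lit 76) (nat_lit 5926332972) (nat_lit 78) (nat_lit 5) (nat_lit 84) (nat_lit 5) (nat_lit 79) (nat_lit 5) (nat_lit 248) (nat_lit 239) (nat_lit 233)) (XT.lf (nat_lit 0) (nat_lit 4303862553) (nat_lit 532) (nat_lit 1825448698) (nat_lit 76) (nat_lit 1113613173) (nat_lit 72) (nat_lit 5) (nat_lit 79) (nat_lit 5) (nat_lit 73) (nat_lit 5) (nat_lit 249) (nat_lit 239) (nat_lit 232)))) (XT.nd (nat_lit 156) (nat_lit 836) (nat_lit 0) (XT.nd (nat_lit 78) (nat_lit 608) (nat_lit 0) (XT.lf (nat_lit 0) (nat_lit 478149312) (nat_lit 608) (nat_lit 3337078092) (nat_lit 76) (nat_lit 3631121218) (nat_lit 64) (nat_lit 5) (nat_lit 72) (nat_lit 5) (nat_lit 65) (nat_lit 5) (nat_lit 250) (nat_lit 239) (nat_lit 231)) (XT.lf (nat_lit 0) (nat_lit 2708590550) (nat_lit 608) (nat_lit 1166334808) (nat_lit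 684) (nat_lit 3800121917) (nat_lit 56) (nat_lit 5) (nat_lit 64) (nat_lit 5) (nat_lit 65) (nat_lit 5) (nat_lit 251) (nat_lit 239) (nat_lit 230))) (XT.nd (nat_lit 78) (nat_lit 380) (nat_lit 0) (XT.lf (nat_lit 0) (nat_lit 1197618866) (nat_lit 456) (nat_lit 6199521491) (nat_lit 532) (nat_lit 533945789) (nat_lit 50) (nat_lit 5) (nat_lit 56) (nat_lit 5) (nat_lit 57) (nat_lit 5) (nat_lit 252) (nat_lit 239) (nat_lit 229)) (XT.nd (nat_lit 78) (nat_lit 304) (nat_lit 0) (XT.lf (nat_lit 0) (nat_lit 2764162730) (nat_lit 532) (nat_lit 488760260) (nat_lit 76) (nat_lit 4960550625) (nat_lit 49) (nat_lit 5) (nat_lit 56) (nat_lit 5) (nat_lit 50) (nat_lit 5) (nat_lit 253) (nat_lit 239) (nat_lit 228)) (XT.lf (nat_lit 0) (nat_lit 6181908206) (nat_lit 380) (nat_lit 2312148873) (nat_lit 76) (nat_lit 31644476) (nat_lit 45) (nat_lit 5) (nat_lit 50) (nat_lit 5) (nat_lit 46) (nat_lit 5) (nat_lit 254) (nat_lit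 239) (nat_lit 227))))))))
noncomputable def xc47 : XT := (XT.nd (nat_lit 1326) (nat_lit 532) (nat_lit 0) (XT.nd (nat_lit 624) (nat_lit 912) (nat_lit 0) (XT.nd (nat_lit 312) (nat_lit 684) (nat_lit 0) (XT.nd (nat_lit 156) (nat_lit 304) (nat_lit 0) (XT.nd (nat_lit 78) (nat_lit 228) (nat_lit 0) (XT.lf (nat_lit 0) (nat_lit 898097247) (nat_lit 380) (nat_lit 4420631471) (nat_lit 76) (nat_lit 3548622327) (nat_lit 40) (nat_lit 5) (nat_lit 45) (nat_lit 5) (nat_lit 41) (nat_lit 5) (nat_lit 255) (nat_lit 239) (nat_lit 226)) (XT.lf (nat_lit 0) (nat_lit 2400551454) (nat_lit 228) (nat_lit 1793496312) (nat_lit 304) (nat_lit 5047675224) (nat_lit 37) (nat_lit 5) (nat_lit 40) (nat_lit 5) (nat_lit 41) (nat_lit 5) (nat_lit 256) (nat_lit 239) (nat_lit 225))) (XT.nd (nat_lit 78) (nat_lit 76) (nat_lit 0) (XT.lf (nat_lit 0) (nat_lit 20254965) (nat_lit 228) (nat_lit 7651862043) (nat_lit 304) (nat_lit 1979072980)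 (nat_lit 34) (nat_lit 5) (nat_lit 37) (nat_lit 5) (nat_lit 38) (nat_lit 5) (nat_lit 257) (nat_lit 239) (nat_lit 224)) (XT.lf (nat_lit 0) (nat_lit 1258895037) (nat_lit 304) (nat_lit 2693407941) (nat_lit 76) (nat_lit 6142680175) (nat_lit 33) (nat_lit 5) (nat_lit 37) (nat_lit 5) (nat_lit 34) (nat_lit 5) (nat_lit 258) (nat_lit 239) (nat_lit 223)))) (XT.nd (nat_lit 156) (nat_lit 228) (nat_lit 0) (XT.nd (nat_lit 78) (nat_lit 228) (nat_lit 0) (XT.lf (nat_lit 0) (nat_lit 4591687344) (nat_lit 304) (nat_lit 5874744233) (nat_lit 76) (nat_lit 111841381) (nat_lit 30) (nat_lit 5) (nat_lit 34) (nat_lit 5) (nat_lit 31) (nat_lit 5) (nat_lit 259) (nat_lit 239) (nat_lit 222)) (XT.lf (nat_lit 0) (nat_lit 1459811382) (nat_lit 228) (nat_lit 6706235272) (nat_lit 304) (nat_lit 2936239123) (nat_lit 27) (nat_lit 5) (nat_lit 30) (nat_lit 5) (nat_lit 31) (nat_lit 5) (nat_lit 260) (nat_lit 239) (nat_lit 221)))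 (XT.nd (nat_lit 78) (nat_lit 152) (nat_lit 0) (XT.lf (nat_lit 0) (nat_lit 294146862) (nat_lit 304) (nat_lit 2286236087) (nat_lit 76) (nat_lit 9090895032) (nat_lit 26) (nat_lit 5) (nat_lit 30) (nat_lit 5) (nat_lit 27) (nat_lit 5) (nat_lit 261) (nat_lit 239) (nat_lit 220)) (XT.lf (nat_lit 0) (nat_lit 3654704974) (nat_lit 228) (nat_lit 6720996082) (nat_lit 76) (nat_lit 1909610050) (nat_lit 24) (nat_lit 5) (nat_lit 27) (nat_lit 5) (nat_lit 25) (nat_lit 5) (nat_lit 262) (nat_lit 239) (nat_lit 219))))) (XT.nd (nat_lit 312) (nat_lit 456) (nat_lit 0) (XT.nd (nat_lit 156) (nat_lit 228) (nat_lit 0) (XT.nd (nat_lit 78) (nat_lit 0) (nat_lit 0) (XT.lf (nat_lit 0) (nat_lit 975239401) (nat_lit 228) (nat_lit 6270297666) (nat_lit 304) (nat_lit 5705468473) (nat_lit 21) (nat_lit 5) (nat_lit 24) (nat_lit 5) (nat_lit 25) (nat_lit 5) (nat_lit 263) (nat_lit 239) (nat_lit 218)) (XT.lf (nat_lit 0) (nat_lit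 9345543725) (nat_lit 228) (nat_lit 1764753372) (nat_lit 304) (nat_lit 2560890294) (nat_lit 21) (nat_lit 5) (nat_lit 24) (nat_lit 5) (nat_lit 25) (nat_lit 5) (nat_lit 264) (nat_lit 239) (nat_lit 217))) (XT.nd (nat_lit 78) (nat_lit 0) (nat_lit 0) (XT.lf (nat_lit 0) (nat_lit 794627626) (nat_lit 228) (nat_lit 10626108952) (nat_lit 76) (nat_lit 3028788014) (nat_lit 18) (nat_lit 5) (nat_lit 21) (nat_lit 5) (nat_lit 19) (nat_lit 5) (nat_lit 265) (nat_lit 239) (nat_lit 216)) (XT.lf (nat_lit 0) (nat_lit 4318958651) (nat_lit 228) (nat_lit 2752451049) (nat_lit 76) (nat_lit 8217576612) (nat_lit 18) (nat_lit 5) (nat_lit 21) (nat_lit 5) (nat_lit 19) (nat_lit 5) (nat_lit 266) (nat_lit 239) (nat_lit 215)))) (XT.nd (nat_lit 156) (nat_lit 304) (nat_lit 0) (XT.nd (nat_lit 78) (nat_lit 0) (nat_lit 0) (XT.lf (nat_lit 0) (nat_lit 5777895531) (nat_lit 152) (nat_lit 2328800862) (nat_lit 228) (nat_lit 8090262670)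 (nat_lit 16) (nat_lit 5) (nat_lit 18) (nat_lit 5) (nat_lit 19) (nat_lit 5) (nat_lit 267) (nat_lit 239) (nat_lit 214)) (XT.lf (nat_lit 0) (nat_lit 12185987364) (nat_lit 228) (nat_lit 2286665339) (nat_lit 76) (nat_lit 2705885690) (nat_lit 16) (nat_lit 5) (nat_lit 19) (nat_lit 5) (nat_lit 17) (nat_lit 4) (nat_lit 268) (nat_lit 239) (nat_lit 213))) (XT.nd (nat_lit 78) (nat_lit 228) (nat_lit 0) (XT.lf (nat_lit 0) (nat_lit 6521282301) (nat_lit 76) (nat_lit 10115304442) (nat_lit 152) (nat_lit 1600175243) (nat_lit 15) (nat_lit 5) (nat_lit 16) (nat_lit 5) (nat_lit 17) (nat_lit 4) (nat_lit 269) (nat_lit 239) (nat_lit 212)) (XT.nd (nat_lit 78) (nat_lit 152) (nat_lit 0) (XT.lf (nat_lit 0) (nat_lit 1945049196) (nat_lit 152) (nat_lit 3436615343) (nat_lit 76) (nat_lit 13999315592) (nat_lit 14) (nat_lit 5) (nat_lit 16) (nat_lit 5) (nat_lit 15) (nat_lit 5) (nat_lit 270) (nat_lit 239) (nat_lit 211))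 (XT.lf (nat_lit 0) (nat_lit 5523230142) (nat_lit 152) (nat_lit 195490178) (nat_lit 228) (nat_lit 14896958220) (nat_lit 12) (nat_lit 5) (nat_lit 14) (nat_lit 5) (nat_lit 15) (nat_lit 5) (nat_lit 271) (nat_lit 239) (nat_lit 210))))))) (XT.nd (nat_lit 624) (nat_lit 152) (nat_lit 0) (XT.nd (nat_lit 312) (nat_lit 304) (nat_lit 0) (XT.nd (nat_lit 156) (nat_lit 0) (nat_lit 0) (XT.nd (nat_lit 78) (nat_lit 76) (nat_lit 0) (XT.lf (nat_lit 0) (nat_lit 9857170631) (nat_lit 228) (nat_lit 6838056404) (nat_lit 76) (nat_lit 5251058352) (nat_lit 12) (nat_lit 5) (nat_lit 15) (nat_lit 5) (nat_lit 13) (nat_lit 4) (nat_lit 272) (nat_lit 239) (nat_lit 209)) (XT.lf (nat_lit 0) (nat_lit 2018454079) (nat_lit 76) (nat_lit 12266797636) (nat_lit 152) (nat_lit 9100417661) (nat_lit 11) (nat_lit 5) (nat_lit 12) (nat_lit 5) (nat_lit 13) (nat_lit 4) (nat_lit 273) (nat_lit 239) (nat_lit 208))) (XT.nd (nat_lit 78) (nat_lit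 0) (nat_lit 0) (XT.lf (nat_lit 0) (nat_lit 11713325554) (nat_lit 76) (nat_lit 7400976265) (nat_lit 152) (nat_lit 5823803482) (nat_lit 11) (nat_lit 5) (nat_lit 12) (nat_lit 5) (nat_lit 13) (nat_lit 4) (nat_lit 274) (nat_lit 239) (nat_lit 207)) (XT.lf (nat_lit 0) (nat_lit 22077912084) (nat_lit 76) (nat_lit 2184734221) (nat_lit 152) (nat_lit 2355661041) (nat_lit 11) (nat_lit 5) (nat_lit 12) (nat_lit 5) (nat_lit 13) (nat_lit 4) (nat_lit 275) (nat_lit 239) (nat_lit 206)))) (XT.nd (nat_lit 156) (nat_lit 76) (nat_lit 0) (XT.nd (nat_lit 78) (nat_lit 0) (nat_lit 0) (XT.lf (nat_lit 0) (nat_lit 1413113677) (nat_lit 228) (nat_lit 23613587452) (nat_lit 76) (nat_lit 3401949813) (nat_lit 8) (nat_lit 5) (nat_lit 11) (nat_lit 5) (nat_lit 9) (nat_lit 4) (nat_lit 276) (nat_lit 239) (nat_lit 205)) (XT.lf (nat_lit 0) (nat_lit 5458539017) (nat_lit 228) (nat_lit 15475210806) (nat_lit 76) (nat_lit 9445436795)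 (nat_lit 8) (nat_lit 5) (nat_lit 11) (nat_lit 5) (nat_lit 9) (nat_lit 4) (nat_lit 277) (nat_lit 239) (nat_lit 204))) (XT.nd (nat_lit 78) (nat_lit 76) (nat_lit 0) (XT.lf (nat_lit 0) (nat_lit 9771441201) (nat_lit 228) (nat_lit 6777044017) (nat_lit 76) (nat_lit 15940253939) (nat_lit 8) (nat_lit 5) (nat_lit 11) (nat_lit 5) (nat_lit 9) (nat_lit 4) (nat_lit 278) (nat_lit 239) (nat_lit 203)) (XT.lf (nat_lit 0) (nat_lit 2616192093) (nat_lit 76) (nat_lit 11802032163) (nat_lit 152) (nat_lit 20349543047) (nat_lit 7) (nat_lit 5) (nat_lit 8) (nat_lit 5) (nat_lit 9) (nat_lit 4) (nat_lit 279) (nat_lit 239) (nat_lit 202))))) (XT.nd (nat_lit 312) (nat_lit 76) (nat_lit 0) (XT.nd (nat_lit 156) (nat_lit 76) (nat_lit 0) (XT.nd (nat_lit 78) (nat_lit 0) (nat_lit 0) (XT.lf (nat_lit 0) (nat_lit 12922047713) (nat_lit 76) (nat_lit 6583346021) (nat_lit 152) (nat_lit 17720434224) (nat_lit 7) (nat_lit 5) (nat_lit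 8) (nat_lit 5) (nat_lit 9) (nat_lit 4) (nat_lit 280) (nat_lit 239) (nat_lit 201)) (XT.lf (nat_lit 0) (nat_lit 23977514898) (nat_lit 76) (nat_lit 976273764) (nat_lit 152) (nat_lit 14929164103) (nat_lit 7) (nat_lit 5) (nat_lit 8) (nat_lit 5) (nat_lit 9) (nat_lit 4) (nat_lit 281) (nat_lit 239) (nat_lit 200))) (XT.nd (nat_lit 78) (nat_lit 76) (nat_lit 0) (XT.lf (nat_lit 0) (nat_lit 30874578130) (nat_lit 152) (nat_lit 6985662428) (nat_lit 0) (nat_lit 4890702975) (nat_lit 7) (nat_lit 5) (nat_lit 9) (nat_lit 4) (nat_lit 7) (nat_lit 4) (nat_lit 282) (nat_lit 239) (nat_lit 199)) (XT.lf (nat_lit 0) (nat_lit 2650193802) (nat_lit 76) (nat_lit 34637064400) (nat_lit 76) (nat_lit 8560317065) (nat_lit 6) (nat_lit 4) (nat_lit 7) (nat_lit 5) (nat_lit 7) (nat_lit 4) (nat_lit 283) (nat_lit 239) (nat_lit 198)))) (XT.nd (nat_lit 156) (nat_lit 76) (nat_lit 0) (XT.nd (nat_lit 78) (nat_lit 0) (nat_lit 0) (XT.lf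 (nat_lit 0) (nat_lit 13243374338) (nat_lit 76) (nat_lit 31053603373) (nat_lit 76) (nat_lit 4890863279) (nat_lit 6) (nat_lit 4) (nat_lit 7) (nat_lit 5) (nat_lit 7) (nat_lit 4) (nat_lit 284) (nat_lit 239) (nat_lit 197)) (XT.lf (nat_lit 0) (nat_lit 24625676033) (nat_lit 76) (nat_lit 27206927726) (nat_lit 76) (nat_lit 964564707) (nat_lit 6) (nat_lit 4) (nat_lit 7) (nat_lit 5) (nat_lit 7) (nat_lit 4) (nat_lit 285) (nat_lit 239) (nat_lit 196))) (XT.nd (nat_lit 78) (nat_lit 0) (nat_lit 0) (XT.lf (nat_lit 0) (nat_lit 3138086299) (nat_lit 152) (nat_lit 19883011035) (nat_lit 76) (nat_lit 33673318256) (nat_lit 5) (nat_lit 5) (nat_lit 7) (nat_lit 5) (nat_lit 6) (nat_lit 4) (nat_lit 286) (nat_lit 239) (nat_lit 195)) (XT.nd (nat_lit 78) (nat_lit 0) (nat_lit 0) (XT.lf (nat_lit 0) (nat_lit 7505140687) (nat_lit 152) (nat_lit 10998813364) (nat_lit 76) (nat_lit 42400277716) (nat_lit 5) (nat_lit 5) (nat_lit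 7) (nat_lit 5) (nat_lit 6) (nat_lit 4) (nat_lit 287) (nat_lit 239) (nat_lit 194)) (XT.lf (nat_lit 0) (nat_lit 12193349392) (nat_lit 152) (nat_lit 1451192766) (nat_lit 76) (nat_lit 51807774878) (nat_lit 5) (nat_lit 5) (nat_lit 7) (nat_lit 5) (nat_lit 6) (nat_lit 4) (nat_lit 288) (nat_lit 239) (nat_lit 193))))))))
noncomputable def xc48 : XT := (XT.nd (nat_lit 1248) (nat_lit 0) (nat_lit 0) (XT.nd (nat_lit 624) (nat_lit 76) (nat_lit 0) (XT.nd (nat_lit 312) (nat_lit 0) (nat_lit 0) (XT.nd (nat_lit 156) (nat_lit 0) (nat_lit 0) (XT.nd (nat_lit 78) (nat_lit 0) (nat_lit 0) (XT.lf (nat_lit 0) (nat_lit 9107940219) (nat_lit 76) (nat_lit 8264754642) (nat_lit 152) (nat_lit 52985818124) (nat_lit 4) (nat_lit 5) (nat_lit 5) (nat_lit 5) (nat_lit 6) (nat_lit 4) (nat_lit 289) (nat_lit 239) (nat_lit 192)) (XT.lf (nat_lit 0) (nat_lit 20521721094) (nat_lit 76) (nat_lit 2445105913) (nat_lit 152) (nat_lit 52690418490)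 (nat_lit 4) (nat_lit 5) (nat_lit 5) (nat_lit 5) (nat_lit 6) (nat_lit 4) (nat_lit 290) (nat_lit 239) (nat_lit 191))) (XT.nd (nat_lit 78) (nat_lit 0) (nat_lit 0) (XT.lf (nat_lit 0) (nat_lit 29045198171) (nat_lit 152) (nat_lit 48630988954) (nat_lit 0) (nat_lit 3701912246) (nat_lit 4) (nat_lit 5) (nat_lit 6) (nat_lit 4) (nat_lit 4) (nat_lit 4) (nat_lit 291) (nat_lit 239) (nat_lit 190)) (XT.lf (nat_lit 0) (nat_lit 35629543435) (nat_lit 152) (nat_lit 41684136132) (nat_lit 0) (nat_lit 10242010641) (nat_lit 4) (nat_lit 5) (nat_lit 6) (nat_lit 4) (nat_lit 4) (nat_lit 4) (nat_lit 292) (nat_lit 239) (nat_lit 189)))) (XT.nd (nat_lit 156) (nat_lit 0) (nat_lit 0) (XT.nd (nat_lit 78) (nat_lit 0) (nat_lit 0) (XT.lf (nat_lit 0) (nat_lit 42720706186) (nat_lit 152) (nat_lit 34215624445) (nat_lit 0) (nat_lit 17292204069) (nat_lit 4) (nat_lit 5) (nat_lit 6) (nat_lit 4) (nat_lit 4) (nat_lit 4) (nat_lit 293)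 (nat_lit 239) (nat_lit 188)) (XT.lf (nat_lit 0) (nat_lit 50360708130) (nat_lit 152) (nat_lit 26181196047) (nat_lit 0) (nat_lit 24894271455) (nat_lit 4) (nat_lit 5) (nat_lit 6) (nat_lit 4) (nat_lit 4) (nat_lit 4) (nat_lit 294) (nat_lit 239) (nat_lit 187))) (XT.nd (nat_lit 78) (nat_lit 0) (nat_lit 0) (XT.lf (nat_lit 0) (nat_lit 58594823352) (nat_lit 152) (nat_lit 17533239509) (nat_lit 0) (nat_lit 33093262086) (nat_lit 4) (nat_lit 5) (nat_lit 6) (nat_lit 4) (nat_lit 4) (nat_lit 4) (nat_lit 295) (nat_lit 239) (nat_lit 186)) (XT.lf (nat_lit 0) (nat_lit 67471846610) (nat_lit 152) (nat_lit 8220507683) (nat_lit 0) (nat_lit 41937762574) (nat_lit 4) (nat_lit 5) (nat_lit 6) (nat_lit 4) (nat_lit 4) (nat_lit 4) (nat_lit 296) (nat_lit 239) (nat_lit 185))))) (XT.nd (nat_lit 312) (nat_lit 0) (nat_lit 0) (XT.nd (nat_lit 156) (nat_lit 0) (nat_lit 0) (XT.nd (nat_lit 78) (nat_lit 0) (nat_lit 0) (XT.lf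 (nat_lit 0) (nat_lit 1872105044) (nat_lit 76) (nat_lit 75201506246) (nat_lit 76) (nat_lit 49637308535) (nat_lit 3) (nat_lit 4) (nat_lit 4) (nat_lit 5) (nat_lit 4) (nat_lit 4) (nat_lit 297) (nat_lit 239) (nat_lit 184)) (XT.lf (nat_lit 0) (nat_lit 13041710702) (nat_lit 76) (nat_lit 74531064066) (nat_lit 76) (nat_lit 48938983322) (nat_lit 3) (nat_lit 4) (nat_lit 4) (nat_lit 5) (nat_lit 4) (nat_lit 4) (nat_lit 298) (nat_lit 239) (nat_lit 183))) (XT.nd (nat_lit 78) (nat_lit 0) (nat_lit 0) (XT.lf (nat_lit 0) (nat_lit 25082692439) (nat_lit 76) (nat_lit 73816273035) (nat_lit 76) (nat_lit 48198374668) (nat_lit 3) (nat_lit 4) (nat_lit 4) (nat_lit 5) (nat_lit 4) (nat_lit 4) (nat_lit 299) (nat_lit 239) (nat_lit 182)) (XT.lf (nat_lit 0) (nat_lit 38066404219) (nat_lit 76) (nat_lit 73052897356) (nat_lit 76) (nat_lit 47411093783) (nat_lit 3) (nat_lit 4) (nat_lit 4) (nat_lit 5) (nat_lit 4) (nat_lit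 4) (nat_lit 300) (nat_lit 239) (nat_lit 181)))) (XT.nd (nat_lit 156) (nat_lit 0) (nat_lit 0) (XT.nd (nat_lit 78) (nat_lit 0) (nat_lit 0) (XT.lf (nat_lit 0) (nat_lit 52069786558) (nat_lit 76) (nat_lit 72236413321) (nat_lit 76) (nat_lit 46572475297) (nat_lit 3) (nat_lit 4) (nat_lit 4) (nat_lit 5) (nat_lit 4) (nat_lit 4) (nat_lit 301) (nat_lit 239) (nat_lit 180)) (XT.lf (nat_lit 0) (nat_lit 67175822461) (nat_lit 76) (nat_lit 71361982505) (nat_lit 76) (nat_lit 45677549620) (nat_lit 3) (nat_lit 4) (nat_lit 4) (nat_lit 5) (nat_lit 4) (nat_lit 4) (nat_lit 302) (nat_lit 239) (nat_lit 179))) (XT.nd (nat_lit 78) (nat_lit 0) (nat_lit 0) (XT.lf (nat_lit 0) (nat_lit 83474029179) (nat_lit 76) (nat_lit 70424423097) (nat_lit 76) (nat_lit 44721013488) (nat_lit 3) (nat_lit 4) (nat_lit 4) (nat_lit 5) (nat_lit 4) (nat_lit 4) (nat_lit 303) (nat_lit 239) (nat_lit 178)) (XT.lf (nat_lit 0) (nat_lit 101060988676)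 (nat_lit 76) (nat_lit 69418179189) (nat_lit 76) (nat_lit 43697198540) (nat_lit 3) (nat_lit 4) (nat_lit 4) (nat_lit 5) (nat_lit 4) (nat_lit 4) (nat_lit 304) (nat_lit 239) (nat_lit 177)))))) (XT.nd (nat_lit 624) (nat_lit 0) (nat_lit 0) (XT.nd (nat_lit 312) (nat_lit 0) (nat_lit 0) (XT.nd (nat_lit 156) (nat_lit 0) (nat_lit 0) (XT.nd (nat_lit 78) (nat_lit 0) (nat_lit 0) (XT.lf (nat_lit 0) (nat_lit 120040919974) (nat_lit 76) (nat_lit 68337287854) (nat_lit 76) (nat_lit 42600037723) (nat_lit 3) (nat_lit 4) (nat_lit 4) (nat_lit 5) (nat_lit 4) (nat_lit 4) (nat_lit 305) (nat_lit 239) (nat_lit 176)) (XT.lf (nat_lit 0) (nat_lit 140526296737) (nat_lit 76) (nat_lit 67175343810) (nat_lit 76) (nat_lit 41423029344) (nat_lit 3) (nat_lit 4) (nat_lit 4) (nat_lit 5) (nat_lit 4) (nat_lit 4) (nat_lit 306) (nat_lit 239) (nat_lit 175))) (XT.nd (nat_lit 78) (nat_lit 0) (nat_lit 0) (XT.lf (nat_lit 0) (nat_lit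 162638513792) (nat_lit 76) (nat_lit 65925461463) (nat_lit 76) (nat_lit 40159198539) (nat_lit 3) (nat_lit 4) (nat_lit 4) (nat_lit 5) (nat_lit 4) (nat_lit 4) (nat_lit 307) (nat_lit 239) (nat_lit 174)) (XT.lf (nat_lit 0) (nat_lit 186508606499) (nat_lit 76) (nat_lit 64580234102) (nat_lit 76) (nat_lit 38801055939) (nat_lit 3) (nat_lit 4) (nat_lit 4) (nat_lit 5) (nat_lit 4) (nat_lit 4) (nat_lit 308) (nat_lit 239) (nat_lit 173)))) (XT.nd (nat_lit 156) (nat_lit 0) (nat_lit 0) (XT.nd (nat_lit 78) (nat_lit 0) (nat_lit 0) (XT.lf (nat_lit 0) (nat_lit 212278027259) (nat_lit 76) (nat_lit 63131690011) (nat_lit 76) (nat_lit 37340553293) (nat_lit 3) (nat_lit 4) (nat_lit 4) (nat_lit 5) (nat_lit 4) (nat_lit 4) (nat_lit 309) (nat_lit 239) (nat_lit 172)) (XT.lf (nat_lit 0) (nat_lit 240099483750) (nat_lit 76) (nat_lit 61571245223) (nat_lit 76) (nat_lit 35769035769) (nat_lit 3) (nat_lit 4) (nat_lit 4) (nat_lit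 5) (nat_lit 4) (nat_lit 4) (nat_lit 310) (nat_lit 239) (nat_lit 171))) (XT.nd (nat_lit 78) (nat_lit 0) (nat_lit 0) (XT.lf (nat_lit 0) (nat_lit 270137843864) (nat_lit 76) (nat_lit 59889652659) (nat_lit 76) (nat_lit 34077190672) (nat_lit 3) (nat_lit 4) (nat_lit 4) (nat_lit 5) (nat_lit 4) (nat_lit 4) (nat_lit 311) (nat_lit 239) (nat_lit 170)) (XT.lf (nat_lit 0) (nat_lit 302571112697) (nat_lit 76) (nat_lit 58076947326) (nat_lit 76) (nat_lit 32254992252) (nat_lit 3) (nat_lit 4) (nat_lit 4) (nat_lit 5) (nat_lit 4) (nat_lit 4) (nat_lit 312) (nat_lit 239) (nat_lit 169))))) (XT.nd (nat_lit 312) (nat_lit 0) (nat_lit 0) (XT.nd (nat_lit 156) (nat_lit 0) (nat_lit 0) (XT.nd (nat_lit 78) (nat_lit 0) (nat_lit 0) (XT.lf (nat_lit 0) (nat_lit 337591487397) (nat_lit 76) (nat_lit 56122387265) (nat_lit 76) (nat_lit 30291642297) (nat_lit 3) (nat_lit 4) (nat_lit 4) (nat_lit 5) (nat_lit 4) (nat_lit 4) (nat_lit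 313) (nat_lit 239) (nat_lit 168)) (XT.lf (nat_lit 0) (nat_lit 375406496112) (nat_lit 76) (nat_lit 54014389900) (nat_lit 76) (nat_lit 28175506140) (nat_lit 3) (nat_lit 4) (nat_lit 4) (nat_lit 5) (nat_lit 4) (nat_lit 4) (nat_lit 314) (nat_lit 239) (nat_lit 167))) (XT.nd (nat_lit 78) (nat_lit 0) (nat_lit 0) (XT.lf (nat_lit 0) (nat_lit 416240227781) (nat_lit 76) (nat_lit 51740463394) (nat_lit 76) (nat_lit 25894043716) (nat_lit 3) (nat_lit 4) (nat_lit 4) (nat_lit 5) (nat_lit 4) (nat_lit 4) (nat_lit 315) (nat_lit 239) (nat_lit 166)) (XT.lf (nat_lit 0) (nat_lit 460334660073) (nat_lit 76) (nat_lit 49287132626) (nat_lit 76) (nat_lit 23433735247) (nat_lit 3) (nat_lit 4) (nat_lit 4) (nat_lit 5) (nat_lit 4) (nat_lit 4) (nat_lit 316) (nat_lit 239) (nat_lit 165)))) (XT.nd (nat_lit 156) (nat_lit 0) (nat_lit 0) (XT.nd (nat_lit 78) (nat_lit 0) (nat_lit 0) (XT.lf (nat_lit 0) (nat_lit 507951093329) (nat_lit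 76) (nat_lit 46639859341) (nat_lit 76) (nat_lit 20780001126) (nat_lit 3) (nat_lit 4) (nat_lit 4) (nat_lit 5) (nat_lit 4) (nat_lit 4) (nat_lit 317) (nat_lit 239) (nat_lit 164)) (XT.lf (nat_lit 0) (nat_lit 559371699004) (nat_lit 76) (nat_lit 43782955993) (nat_lit 76) (nat_lit 17917115523) (nat_lit 3) (nat_lit 4) (nat_lit 4) (nat_lit 5) (nat_lit 4) (nat_lit 4) (nat_lit 318) (nat_lit 239) (nat_lit 163))) (XT.nd (nat_lit 31356) (nat_lit 0) (nat_lit 7144) (XT.lf (nat_lit 0) (nat_lit 614901191799) (nat_lit 76) (nat_lit 40699492784) (nat_lit 76) (nat_lit 14828113190) (nat_lit 3) (nat_lit 4) (nat_lit 4) (nat_lit 5) (nat_lit 4) (nat_lit 4) (nat_lit 319) (nat_lit 239) (nat_lit 162)) (XT.nd (nat_lit 78) (nat_lit 76) (nat_lit 0) (XT.lf (nat_lit 0) (nat_lit 1073741823) (nat_lit 0) (nat_lit 0) (nat_lit 0) (nat_lit 0) (nat_lit 98) (nat_lit 0) (nat_lit 1) (nat_lit 0) (nat_lit 1) (nat_lit 0) (nat_lit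 240) (nat_lit 240) (nat_lit 240)) (XT.lf (nat_lit 0) (nat_lit 4085116289) (nat_lit 76) (nat_lit 2194758016) (nat_lit 0) (nat_lit 171923863) (nat_lit 97) (nat_lit 5) (nat_lit 98) (nat_lit 0) (nat_lit 97) (nat_lit 4) (nat_lit 241) (nat_lit 240) (nat_lit 239))))))))
noncomputable def xc49 : XT := (XT.nd (nat_lit 1248) (nat_lit 1976) (nat_lit 0) (XT.nd (nat_lit 624) (nat_lit 2660) (nat_lit 0) (XT.nd (nat_lit 312) (nat_lit 1292) (nat_lit 0) (XT.nd (nat_lit 156) (nat_lit 304) (nat_lit 0) (XT.nd (nat_lit 78) (nat_lit 152) (nat_lit 0) (XT.lf (nat_lit 0) (nat_lit 1589273435) (nat_lit 152) (nat_lit 4278508201) (nat_lit 76) (nat_lit 615761251) (nat_lit 95) (nat_lit 5) (nat_lit 97) (nat_lit 5) (nat_lit 96) (nat_lit 4) (nat_lit 242) (nat_lit 240) (nat_lit 238)) (XT.lf (nat_lit 0) (nat_lit 247774537) (nat_lit 152) (nat_lit 5185993784) (nat_lit 228) (nat_lit 1103260270) (nat_lit 93) (nat_lit 5) (nat_lit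 95) (nat_lit 5) (nat_lit 96) (nat_lit 4) (nat_lit 243) (nat_lit 240) (nat_lit 237))) (XT.nd (nat_lit 78) (nat_lit 228) (nat_lit 0) (XT.lf (nat_lit 0) (nat_lit 2597982392) (nat_lit 228) (nat_lit 1594318491) (nat_lit 76) (nat_lit 2418453747) (nat_lit 92) (nat_lit 5) (nat_lit 95) (nat_lit 5) (nat_lit 93) (nat_lit 5) (nat_lit 244) (nat_lit 240) (nat_lit 236)) (XT.lf (nat_lit 0) (nat_lit 3338273337) (nat_lit 228) (nat_lit 2925603091) (nat_lit 304) (nat_lit 443414267) (nat_lit 89) (nat_lit 5) (nat_lit 92) (nat_lit 5) (nat_lit 93) (nat_lit 5) (nat_lit 245) (nat_lit 240) (nat_lit 235)))) (XT.nd (nat_lit 156) (nat_lit 532) (nat_lit 0) (XT.nd (nat_lit 78) (nat_lit 380) (nat_lit 0) (XT.lf (nat_lit 0) (nat_lit 1682259343) (nat_lit 304) (nat_lit 1343168169) (nat_lit 380) (nat_lit 3800103917) (nat_lit 84) (nat_lit 5) (nat_lit 88) (nat_lit 5) (nat_lit 89) (nat_lit 5) (nat_lit 246) (nat_lit 240) (nat_lit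 234)) (XT.lf (nat_lit 0) (nat_lit 55654835) (nat_lit 380) (nat_lit 6458172543) (nat_lit 456) (nat_lit 453754949) (nat_lit 79) (nat_lit 5) (nat_lit 84) (nat_lit 5) (nat_lit 85) (nat_lit 5) (nat_lit 247) (nat_lit 240) (nat_lit 233))) (XT.nd (nat_lit 78) (nat_lit 456) (nat_lit 0) (XT.lf (nat_lit 0) (nat_lit 2876238763) (nat_lit 456) (nat_lit 1577119579) (nat_lit 76) (nat_lit 2676604754) (nat_lit 78) (nat_lit 5) (nat_lit 84) (nat_lit 5) (nat_lit 79) (nat_lit 5) (nat_lit 248) (nat_lit 240) (nat_lit 232)) (XT.lf (nat_lit 0) (nat_lit 4084108973) (nat_lit 456) (nat_lit 2161951394) (nat_lit 532) (nat_lit 1071553494) (nat_lit 72) (nat_lit 5) (nat_lit 78) (nat_lit 5) (nat_lit 79) (nat_lit 5) (nat_lit 249) (nat_lit 240) (nat_lit 231))))) (XT.nd (nat_lit 312) (nat_lit 912) (nat_lit 0) (XT.nd (nat_lit 156) (nat_lit 532) (nat_lit 0) (XT.nd (nat_lit 78) (nat_lit 608) (nat_lit 0) (XT.lf (nat_lit 0)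 (nat_lit 2100766856) (nat_lit 608) (nat_lit 4981545916) (nat_lit 76) (nat_lit 447421218) (nat_lit 64) (nat_lit 5) (nat_lit 72) (nat_lit 5) (nat_lit 65) (nat_lit 5) (nat_lit 250) (nat_lit 240) (nat_lit 230)) (XT.lf (nat_lit 0) (nat_lit 895921403) (nat_lit 608) (nat_lit 4454541121) (nat_lit 684) (nat_lit 2416155470) (nat_lit 56) (nat_lit 5) (nat_lit 64) (nat_lit 5) (nat_lit 65) (nat_lit 5) (nat_lit 251) (nat_lit 240) (nat_lit 229))) (XT.nd (nat_lit 78) (nat_lit 456) (nat_lit 0) (XT.lf (nat_lit 0) (nat_lit 661528559) (nat_lit 684) (nat_lit 839742401) (nat_lit 76) (nat_lit 6529519748) (nat_lit 55) (nat_lit 5) (nat_lit 64) (nat_lit 5) (nat_lit 56) (nat_lit 5) (nat_lit 252) (nat_lit 240) (nat_lit 228)) (XT.lf (nat_lit 0) (nat_lit 3797993755) (nat_lit 532) (nat_lit 2750156335) (nat_lit 76) (nat_lit 1772517747) (nat_lit 49) (nat_lit 5) (nat_lit 56) (nat_lit 5) (nat_lit 50) (nat_lit 5) (nat_lit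 253) (nat_lit 240) (nat_lit 227)))) (XT.nd (nat_lit 156) (nat_lit 228) (nat_lit 0) (XT.nd (nat_lit 78) (nat_lit 380) (nat_lit 0) (XT.lf (nat_lit 0) (nat_lit 3771541644) (nat_lit 304) (nat_lit 3306155514) (nat_lit 380) (nat_lit 1562729236) (nat_lit 45) (nat_lit 5) (nat_lit 49) (nat_lit 5) (nat_lit 50) (nat_lit 5) (nat_lit 254) (nat_lit 240) (nat_lit 226)) (XT.lf (nat_lit 0) (nat_lit 1463183374) (nat_lit 380) (nat_lit 7249478632) (nat_lit 76) (nat_lit 278907344) (nat_lit 40) (nat_lit 5) (nat_lit 45) (nat_lit 5) (nat_lit 41) (nat_lit 5) (nat_lit 255) (nat_lit 240) (nat_lit 225))) (XT.nd (nat_lit 78) (nat_lit 228) (nat_lit 0) (XT.lf (nat_lit 0) (nat_lit 4631425853) (nat_lit 380) (nat_lit 607801592) (nat_lit 76) (nat_lit 4133612441) (nat_lit 40) (nat_lit 5) (nat_lit 45) (nat_lit 5) (nat_lit 41) (nat_lit 5) (nat_lit 256) (nat_lit 240) (nat_lit 224)) (XT.lf (nat_lit 0) (nat_lit 6578005806)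 (nat_lit 228) (nat_lit 1404049228) (nat_lit 304) (nat_lit 1807099029) (nat_lit 37) (nat_lit 5) (nat_lit 40) (nat_lit 5) (nat_lit 41) (nat_lit 5) (nat_lit 257) (nat_lit 240) (nat_lit 223)))))) (XT.nd (nat_lit 624) (nat_lit 760) (nat_lit 0) (XT.nd (nat_lit 312) (nat_lit 456) (nat_lit 0) (XT.nd (nat_lit 156) (nat_lit 228) (nat_lit 0) (XT.nd (nat_lit 78) (nat_lit 228) (nat_lit 0) (XT.lf (nat_lit 0) (nat_lit 1268555785) (nat_lit 304) (nat_lit 6252863683) (nat_lit 76) (nat_lit 2719652984) (nat_lit 33) (nat_lit 5) (nat_lit 37) (nat_lit 5) (nat_lit 34) (nat_lit 5) (nat_lit 258) (nat_lit 240) (nat_lit 222)) (XT.lf (nat_lit 0) (nat_lit 931273545) (nat_lit 228) (nat_lit 3533191861) (nat_lit 304) (nat_lit 6267128971) (nat_lit 30) (nat_lit 5) (nat_lit 33) (nat_lit 5) (nat_lit 34) (nat_lit 5) (nat_lit 259) (nat_lit 240) (nat_lit 221))) (XT.nd (nat_lit 78) (nat_lit 228) (nat_lit 0) (XT.lf (nat_lit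 0) (nat_lit 7888675437) (nat_lit 304) (nat_lit 2550817297) (nat_lit 76) (nat_lit 823981173) (nat_lit 30) (nat_lit 5) (nat_lit 34) (nat_lit 5) (nat_lit 31) (nat_lit 5) (nat_lit 260) (nat_lit 240) (nat_lit 220)) (XT.lf (nat_lit 0) (nat_lit 5205624216) (nat_lit 228) (nat_lit 6383007231) (nat_lit 304) (nat_lit 249873775) (nat_lit 27) (nat_lit 5) (nat_lit 30) (nat_lit 5) (nat_lit 31) (nat_lit 5) (nat_lit 261) (nat_lit 240) (nat_lit 219)))) (XT.nd (nat_lit 156) (nat_lit 228) (nat_lit 0) (XT.nd (nat_lit 78) (nat_lit 0) (nat_lit 0) (XT.lf (nat_lit 0) (nat_lit 1022271327) (nat_lit 152) (nat_lit 1929669443) (nat_lit 228) (nat_lit 9509423023) (nat_lit 24) (nat_lit 5) (nat_lit 26) (nat_lit 5) (nat_lit 27) (nat_lit 5) (nat_lit 262) (nat_lit 240) (nat_lit 218)) (XT.lf (nat_lit 0) (nat_lit 6436083413) (nat_lit 228) (nat_lit 3828472589) (nat_lit 76) (nat_lit 2868108299) (nat_lit 24) (nat_lit 5) (nat_lit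 27) (nat_lit 5) (nat_lit 25) (nat_lit 5) (nat_lit 263) (nat_lit 240) (nat_lit 217))) (XT.nd (nat_lit 78) (nat_lit 0) (nat_lit 0) (XT.lf (nat_lit 0) (nat_lit 4334389282) (nat_lit 228) (nat_lit 5846649916) (nat_lit 304) (nat_lit 3678048649) (nat_lit 21) (nat_lit 5) (nat_lit 24) (nat_lit 5) (nat_lit 25) (nat_lit 5) (nat_lit 264) (nat_lit 240) (nat_lit 216)) (XT.lf (nat_lit 0) (nat_lit 13131271232) (nat_lit 228) (nat_lit 1049200713) (nat_lit 304) (nat_lit 465893646) (nat_lit 21) (nat_lit 5) (nat_lit 24) (nat_lit 5) (nat_lit 25) (nat_lit 5) (nat_lit 265) (nat_lit 240) (nat_lit 215))))) (XT.nd (nat_lit 312) (nat_lit 304) (nat_lit 0) (XT.nd (nat_lit 156) (nat_lit 228) (nat_lit 0) (XT.nd (nat_lit 78) (nat_lit 0) (nat_lit 0) (XT.lf (nat_lit 0) (nat_lit 2979847181) (nat_lit 228) (nat_lit 8391089618) (nat_lit 76) (nat_lit 4120134631) (nat_lit 18) (nat_lit 5) (nat_lit 21) (nat_lit 5) (nat_lit 19)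 (nat_lit 5) (nat_lit 266) (nat_lit 240) (nat_lit 214)) (XT.lf (nat_lit 0) (nat_lit 6628965478) (nat_lit 228) (nat_lit 116065605) (nat_lit 76) (nat_lit 9661134200) (nat_lit 18) (nat_lit 5) (nat_lit 21) (nat_lit 5) (nat_lit 19) (nat_lit 5) (nat_lit 267) (nat_lit 240) (nat_lit 213))) (XT.nd (nat_lit 78) (nat_lit 76) (nat_lit 0) (XT.lf (nat_lit 0) (nat_lit 8972565150) (nat_lit 152) (nat_lit 1644300317) (nat_lit 228) (nat_lit 6775624740) (nat_lit 16) (nat_lit 5) (nat_lit 18) (nat_lit 5) (nat_lit 19) (nat_lit 5) (nat_lit 268) (nat_lit 240) (nat_lit 212)) (XT.lf (nat_lit 0) (nat_lit 145299956) (nat_lit 76) (nat_lit 14754158142) (nat_lit 152) (nat_lit 3559819044) (nat_lit 15) (nat_lit 5) (nat_lit 16) (nat_lit 5) (nat_lit 17) (nat_lit 4) (nat_lit 269) (nat_lit 240) (nat_lit 211)))) (XT.nd (nat_lit 156) (nat_lit 228) (nat_lit 0) (XT.nd (nat_lit 78) (nat_lit 0) (nat_lit 0) (XT.lf (nat_lit 0) (nat_lit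 6736080) (nat_lit 152) (nat_lit 10067557689) (nat_lit 76) (nat_lit 9532944545) (nat_lit 14) (nat_lit 5) (nat_lit 16) (nat_lit 5) (nat_lit 15) (nat_lit 5) (nat_lit 270) (nat_lit 240) (nat_lit 210)) (XT.lf (nat_lit 0) (nat_lit 3655849886) (nat_lit 152) (nat_lit 1342860780) (nat_lit 76) (nat_lit 15849587019) (nat_lit 14) (nat_lit 5) (nat_lit 16) (nat_lit 5) (nat_lit 15) (nat_lit 5) (nat_lit 271) (nat_lit 240) (nat_lit 209))) (XT.nd (nat_lit 78) (nat_lit 76) (nat_lit 0) (XT.lf (nat_lit 0) (nat_lit 7660633151) (nat_lit 228) (nat_lit 13964374670) (nat_lit 76) (nat_lit 560703300) (nat_lit 12) (nat_lit 5) (nat_lit 15) (nat_lit 5) (nat_lit 13) (nat_lit 4) (nat_lit 272) (nat_lit 240) (nat_lit 208)) (XT.nd (nat_lit 78) (nat_lit 76) (nat_lit 0) (XT.lf (nat_lit 0) (nat_lit 12023254954) (nat_lit 228) (nat_lit 5225681213) (nat_lit 76) (nat_lit 6379546014) (nat_lit 12) (nat_lit 5) (nat_lit 15) (nat_lit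 5) (nat_lit 13) (nat_lit 4) (nat_lit 273) (nat_lit 240) (nat_lit 207)) (XT.lf (nat_lit 0) (nat_lit 4245504360) (nat_lit 76) (nat_lit 12490289735) (nat_lit 152) (nat_lit 8451055216) (nat_lit 11) (nat_lit 5) (nat_lit 12) (nat_lit 5) (nat_lit 13) (nat_lit 4) (nat_lit 274) (nat_lit 240) (nat_lit 206))))))))
noncomputable def xc50 : XT := (XT.nd (nat_lit 1248) (nat_lit 76) (nat_lit 0) (XT.nd (nat_lit 624) (nat_lit 228) (nat_lit 0) (XT.nd (nat_lit 312) (nat_lit 76) (nat_lit 0) (XT.nd (nat_lit 156) (nat_lit 228) (nat_lit 0) (XT.nd (nat_lit 78) (nat_lit 0) (nat_lit 0) (XT.lf (nat_lit 0) (nat_lit 14562960075) (nat_lit 76) (nat_lit 7291339819) (nat_lit 152) (nat_lit 5014341226) (nat_lit 11) (nat_lit 5) (nat_lit 12) (nat_lit 5) (nat_lit 13) (nat_lit 4) (nat_lit 275) (nat_lit 240) (nat_lit 205)) (XT.lf (nat_lit 0) (nat_lit 25615041788) (nat_lit 76) (nat_lit 1709777267) (nat_lit 152) (nat_lit 1363218985)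 (nat_lit 11) (nat_lit 5) (nat_lit 12) (nat_lit 5) (nat_lit 13) (nat_lit 4) (nat_lit 276) (nat_lit 240) (nat_lit 204))) (XT.nd (nat_lit 78) (nat_lit 0) (nat_lit 0) (XT.lf (nat_lit 0) (nat_lit 2621767827) (nat_lit 228) (nat_lit 23721836998) (nat_lit 76) (nat_lit 4301316456) (nat_lit 8) (nat_lit 5) (nat_lit 11) (nat_lit 5) (nat_lit 9) (nat_lit 4) (nat_lit 277) (nat_lit 240) (nat_lit 203)) (XT.lf (nat_lit 0) (nat_lit 6909671264) (nat_lit 228) (nat_lit 15064304106) (nat_lit 76) (nat_lit 10781822348) (nat_lit 8) (nat_lit 5) (nat_lit 11) (nat_lit 5) (nat_lit 9) (nat_lit 4) (nat_lit 278) (nat_lit 240) (nat_lit 202)))) (XT.nd (nat_lit 156) (nat_lit 0) (nat_lit 0) (XT.nd (nat_lit 78) (nat_lit 76) (nat_lit 0) (XT.lf (nat_lit 0) (nat_lit 11492461243) (nat_lit 228) (nat_lit 5792426460) (nat_lit 76) (nat_lit 17753206299) (nat_lit 8) (nat_lit 5) (nat_lit 11) (nat_lit 5) (nat_lit 9) (nat_lit 4) (nat_lit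 279) (nat_lit 240) (nat_lit 201)) (XT.lf (nat_lit 0) (nat_lit 4285916494) (nat_lit 76) (nat_lit 12178293710) (nat_lit 152) (nat_lit 21037778889) (nat_lit 7) (nat_lit 5) (nat_lit 8) (nat_lit 5) (nat_lit 9) (nat_lit 4) (nat_lit 280) (nat_lit 240) (nat_lit 200))) (XT.nd (nat_lit 78) (nat_lit 0) (nat_lit 0) (XT.lf (nat_lit 0) (nat_lit 15308060635) (nat_lit 76) (nat_lit 6584179419) (nat_lit 152) (nat_lit 18267950813) (nat_lit 7) (nat_lit 5) (nat_lit 8) (nat_lit 5) (nat_lit 9) (nat_lit 4) (nat_lit 281) (nat_lit 240) (nat_lit 199)) (XT.lf (nat_lit 0) (nat_lit 27147798594) (nat_lit 76) (nat_lit 567492069) (nat_lit 152) (nat_lit 15317832278) (nat_lit 7) (nat_lit 5) (nat_lit 8) (nat_lit 5) (nat_lit 9) (nat_lit 4) (nat_lit 282) (nat_lit 240) (nat_lit 198))))) (XT.nd (nat_lit 312) (nat_lit 152) (nat_lit 0) (XT.nd (nat_lit 156) (nat_lit 0) (nat_lit 0) (XT.nd (nat_lit 78) (nat_lit 76) (nat_lit 0)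 (XT.lf (nat_lit 0) (nat_lit 34060100423) (nat_lit 152) (nat_lit 6354749744) (nat_lit 0) (nat_lit 5718348361) (nat_lit 7) (nat_lit 5) (nat_lit 9) (nat_lit 4) (nat_lit 7) (nat_lit 4) (nat_lit 283) (nat_lit 240) (nat_lit 197)) (XT.lf (nat_lit 0) (nat_lit 4000269217) (nat_lit 76) (nat_lit 36950289836) (nat_lit 76) (nat_lit 8528914850) (nat_lit 6) (nat_lit 4) (nat_lit 7) (nat_lit 5) (nat_lit 7) (nat_lit 4) (nat_lit 284) (nat_lit 240) (nat_lit 196))) (XT.nd (nat_lit 78) (nat_lit 0) (nat_lit 0) (XT.lf (nat_lit 0) (nat_lit 15356603462) (nat_lit 76) (nat_lit 33114058573) (nat_lit 76) (nat_lit 4618958655) (nat_lit 6) (nat_lit 4) (nat_lit 7) (nat_lit 5) (nat_lit 7) (nat_lit 4) (nat_lit 285) (nat_lit 240) (nat_lit 195)) (XT.lf (nat_lit 0) (nat_lit 27571433058) (nat_lit 76) (nat_lit 28991043917) (nat_lit 76) (nat_lit 427680174) (nat_lit 6) (nat_lit 4) (nat_lit 7) (nat_lit 5) (nat_lit 7) (nat_lit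 4) (nat_lit 286) (nat_lit 240) (nat_lit 194)))) (XT.nd (nat_lit 156) (nat_lit 76) (nat_lit 0) (XT.nd (nat_lit 78) (nat_lit 0) (nat_lit 0) (XT.lf (nat_lit 0) (nat_lit 3939500132) (nat_lit 152) (nat_lit 20550595715) (nat_lit 76) (nat_lit 36710924707) (nat_lit 5) (nat_lit 5) (nat_lit 7) (nat_lit 5) (nat_lit 6) (nat_lit 4) (nat_lit 287) (nat_lit 240) (nat_lit 193)) (XT.lf (nat_lit 0) (nat_lit 8615150951) (nat_lit 152) (nat_lit 11024036764) (nat_lit 76) (nat_lit 46110578628) (nat_lit 5) (nat_lit 5) (nat_lit 7) (nat_lit 5) (nat_lit 6) (nat_lit 4) (nat_lit 288) (nat_lit 240) (nat_lit 192))) (XT.nd (nat_lit 78) (nat_lit 76) (nat_lit 0) (XT.lf (nat_lit 0) (nat_lit 13640668277) (nat_lit 152) (nat_lit 775916271) (nat_lit 76) (nat_lit 56247099363) (nat_lit 5) (nat_lit 5) (nat_lit 7) (nat_lit 5) (nat_lit 6) (nat_lit 4) (nat_lit 289) (nat_lit 240) (nat_lit 191)) (XT.lf (nat_lit 0) (nat_lit 10593555294)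 (nat_lit 76) (nat_lit 8617672745) (nat_lit 152) (nat_lit 56752394975) (nat_lit 4) (nat_lit 5) (nat_lit 5) (nat_lit 5) (nat_lit 6) (nat_lit 4) (nat_lit 290) (nat_lit 240) (nat_lit 190)))))) (XT.nd (nat_lit 624) (nat_lit 0) (nat_lit 0) (XT.nd (nat_lit 312) (nat_lit 76) (nat_lit 0) (XT.nd (nat_lit 156) (nat_lit 0) (nat_lit 0) (XT.nd (nat_lit 78) (nat_lit 0) (nat_lit 0) (XT.lf (nat_lit 0) (nat_lit 22864366057) (nat_lit 76) (nat_lit 2355286360) (nat_lit 152) (nat_lit 56468347710) (nat_lit 4) (nat_lit 5) (nat_lit 5) (nat_lit 5) (nat_lit 6) (nat_lit 4) (nat_lit 291) (nat_lit 240) (nat_lit 189)) (XT.lf (nat_lit 0) (nat_lit 31757643266) (nat_lit 152) (nat_lit 51856397744) (nat_lit 0) (nat_lit 4253891657) (nat_lit 4) (nat_lit 5) (nat_lit 6) (nat_lit 4) (nat_lit 4) (nat_lit 4) (nat_lit 292) (nat_lit 240) (nat_lit 188))) (XT.nd (nat_lit 78) (nat_lit 0) (nat_lit 0) (XT.lf (nat_lit 0) (nat_lit 38839933985)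 (nat_lit 152) (nat_lit 44403061165) (nat_lit 0) (nat_lit 11298247818) (nat_lit 4) (nat_lit 5) (nat_lit 6) (nat_lit 4) (nat_lit 4) (nat_lit 4) (nat_lit 293) (nat_lit 240) (nat_lit 187)) (XT.lf (nat_lit 0) (nat_lit 46471721084) (nat_lit 152) (nat_lit 36382683791) (nat_lit 0) (nat_lit 18894910326) (nat_lit 4) (nat_lit 5) (nat_lit 6) (nat_lit 4) (nat_lit 4) (nat_lit 4) (nat_lit 294) (nat_lit 240) (nat_lit 186)))) (XT.nd (nat_lit 156) (nat_lit 76) (nat_lit 0) (XT.nd (nat_lit 78) (nat_lit 0) (nat_lit 0) (XT.lf (nat_lit 0) (nat_lit 54698229969) (nat_lit 152) (nat_lit 27747737463) (nat_lit 0) (nat_lit 27088896441) (nat_lit 4) (nat_lit 5) (nat_lit 6) (nat_lit 4) (nat_lit 4) (nat_lit 4) (nat_lit 295) (nat_lit 240) (nat_lit 185)) (XT.lf (nat_lit 0) (nat_lit 63568210321) (nat_lit 152) (nat_lit 18447052126) (nat_lit 0) (nat_lit 35928763117) (nat_lit 4) (nat_lit 5) (nat_lit 6) (nat_lit 4) (nat_lit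 4) (nat_lit 4) (nat_lit 296) (nat_lit 240) (nat_lit 184))) (XT.nd (nat_lit 78) (nat_lit 76) (nat_lit 0) (XT.lf (nat_lit 0) (nat_lit 73134224987) (nat_lit 152) (nat_lit 8425512608) (nat_lit 0) (nat_lit 45466894751) (nat_lit 4) (nat_lit 5) (nat_lit 6) (nat_lit 4) (nat_lit 4) (nat_lit 4) (nat_lit 297) (nat_lit 240) (nat_lit 183)) (XT.lf (nat_lit 0) (nat_lit 2454838141) (nat_lit 76) (nat_lit 81036450223) (nat_lit 76) (nat_lit 53343302364) (nat_lit 3) (nat_lit 4) (nat_lit 4) (nat_lit 5) (nat_lit 4) (nat_lit 4) (nat_lit 298) (nat_lit 240) (nat_lit 182))))) (XT.nd (nat_lit 312) (nat_lit 0) (nat_lit 0) (XT.nd (nat_lit 156) (nat_lit 0) (nat_lit 0) (XT.nd (nat_lit 78) (nat_lit 0) (nat_lit 0) (XT.lf (nat_lit 0) (nat_lit 14485940794) (nat_lit 76) (nat_lit 80325793151) (nat_lit 76) (nat_lit 52608740085) (nat_lit 3) (nat_lit 4) (nat_lit 4) (nat_lit 5) (nat_lit 4) (nat_lit 4) (nat_lit 299) (nat_lit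 240) (nat_lit 181)) (XT.lf (nat_lit 0) (nat_lit 27460505274) (nat_lit 76) (nat_lit 79566245211) (nat_lit 76) (nat_lit 51827057695) (nat_lit 3) (nat_lit 4) (nat_lit 4) (nat_lit 5) (nat_lit 4) (nat_lit 4) (nat_lit 300) (nat_lit 240) (nat_lit 180))) (XT.nd (nat_lit 78) (nat_lit 0) (nat_lit 0) (XT.lf (nat_lit 0) (nat_lit 41455417890) (nat_lit 76) (nat_lit 78753305379) (nat_lit 76) (nat_lit 50993623002) (nat_lit 3) (nat_lit 4) (nat_lit 4) (nat_lit 5) (nat_lit 4) (nat_lit 4) (nat_lit 301) (nat_lit 240) (nat_lit 179)) (XT.lf (nat_lit 0) (nat_lit 56553611458) (nat_lit 76) (nat_lit 77882156233) (nat_lit 76) (nat_lit 50103497132) (nat_lit 3) (nat_lit 4) (nat_lit 4) (nat_lit 5) (nat_lit 4) (nat_lit 4) (nat_lit 302) (nat_lit 240) (nat_lit 178)))) (XT.nd (nat_lit 156) (nat_lit 0) (nat_lit 0) (XT.nd (nat_lit 78) (nat_lit 0) (nat_lit 0) (XT.lf (nat_lit 0) (nat_lit 72844556754) (nat_lit 76) (nat_lit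 76947635408) (nat_lit 76) (nat_lit 49151405267) (nat_lit 3) (nat_lit 4) (nat_lit 4) (nat_lit 5) (nat_lit 4) (nat_lit 4) (nat_lit 303) (nat_lit 240) (nat_lit 177)) (XT.lf (nat_lit 0) (nat_lit 90424792713) (nat_lit 76) (nat_lit 75944205002) (nat_lit 76) (nat_lit 48131705379) (nat_lit 3) (nat_lit 4) (nat_lit 4) (nat_lit 5) (nat_lit 4) (nat_lit 4) (nat_lit 304) (nat_lit 240) (nat_lit 176))) (XT.nd (nat_lit 78) (nat_lit 0) (nat_lit 0) (XT.lf (nat_lit 0) (nat_lit 109398498511) (nat_lit 76) (nat_lit 74865918763) (nat_lit 76) (nat_lit 47038354805) (nat_lit 3) (nat_lit 4) (nat_lit 4) (nat_lit 5) (nat_lit 4) (nat_lit 4) (nat_lit 305) (nat_lit 240) (nat_lit 175)) (XT.nd (nat_lit 78) (nat_lit 0) (nat_lit 0) (XT.lf (nat_lit 0) (nat_lit 129878110924) (nat_lit 76) (nat_lit 73706386844) (nat_lit 76) (nat_lit 45864874427) (nat_lit 3) (nat_lit 4) (nat_lit 4) (nat_lit 5) (nat_lit 4) (nat_lit 4) (nat_lit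 306) (nat_lit 240) (nat_lit 174)) (XT.lf (nat_lit 0) (nat_lit 151984990617) (nat_lit 76) (nat_lit 72458737946) (nat_lit 76) (nat_lit 44604310290) (nat_lit 3) (nat_lit 4) (nat_lit 4) (nat_lit 5) (nat_lit 4) (nat_lit 4) (nat_lit 307) (nat_lit 240) (nat_lit 173))))))))
noncomputable def xc51 : XT := (XT.nd (nat_lit 32682) (nat_lit 0) (nat_lit 1748) (XT.nd (nat_lit 624) (nat_lit 0) (nat_lit 0) (XT.nd (nat_lit 312) (nat_lit 0) (nat_lit 0) (XT.nd (nat_lit 156) (nat_lit 0) (nat_lit 0) (XT.nd (nat_lit 78) (nat_lit 0) (nat_lit 0) (XT.lf (nat_lit 0) (nat_lit 175850141322) (nat_lit 76) (nat_lit 71115578594) (nat_lit 76) (nat_lit 43249192384) (nat_lit 3) (nat_lit 4) (nat_lit 4) (nat_lit 5) (nat_lit 4) (nat_lit 4) (nat_lit 308) (nat_lit 240) (nat_lit 172)) (XT.lf (nat_lit 0) (nat_lit 201614986155) (nat_lit 76) (nat_lit 69668949325) (nat_lit 76) (nat_lit 41791490379) (nat_lit 3) (nat_lit 4) (nat_lit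 4) (nat_lit 5) (nat_lit 4) (nat_lit 4) (nat_lit 309) (nat_lit 240) (nat_lit 171))) (XT.nd (nat_lit 78) (nat_lit 0) (nat_lit 0) (XT.lf (nat_lit 0) (nat_lit 229432205676) (nat_lit 76) (nat_lit 68110277521) (nat_lit 76) (nat_lit 40222566042) (nat_lit 3) (nat_lit 4) (nat_lit 4) (nat_lit 5) (nat_lit 4) (nat_lit 4) (nat_lit 310) (nat_lit 240) (nat_lit 170)) (XT.lf (nat_lit 0) (nat_lit 259466642670) (nat_lit 76) (nat_lit 66430326609) (nat_lit 76) (nat_lit 38533122043) (nat_lit 3) (nat_lit 4) (nat_lit 4) (nat_lit 5) (nat_lit 4) (nat_lit 4) (nat_lit 311) (nat_lit 240) (nat_lit 169)))) (XT.nd (nat_lit 156) (nat_lit 0) (nat_lit 0) (XT.nd (nat_lit 78) (nat_lit 0) (nat_lit 0) (XT.lf (nat_lit 0) (nat_lit 291896278984) (nat_lit 76) (nat_lit 64619141324) (nat_lit 76) (nat_lit 36713146863) (nat_lit 3) (nat_lit 4) (nat_lit 4) (nat_lit 5) (nat_lit 4) (nat_lit 4) (nat_lit 312) (nat_lit 240) (nat_lit 168))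 (XT.lf (nat_lit 0) (nat_lit 326913290241) (nat_lit 76) (nat_lit 62665988716) (nat_lit 76) (nat_lit 34751855463) (nat_lit 3) (nat_lit 4) (nat_lit 4) (nat_lit 5) (nat_lit 4) (nat_lit 4) (nat_lit 313) (nat_lit 240) (nat_lit 167))) (XT.nd (nat_lit 78) (nat_lit 0) (nat_lit 0) (XT.lf (nat_lit 0) (nat_lit 364725184656) (nat_lit 76) (nat_lit 60559294547) (nat_lit 76) (nat_lit 32637625376) (nat_lit 3) (nat_lit 4) (nat_lit 4) (nat_lit 5) (nat_lit 4) (nat_lit 4) (nat_lit 314) (nat_lit 240) (nat_lit 166)) (XT.lf (nat_lit 0) (nat_lit 405556032714) (nat_lit 76) (nat_lit 58286574703) (nat_lit 76) (nat_lit 30357927831) (nat_lit 3) (nat_lit 4) (nat_lit 4) (nat_lit 5) (nat_lit 4) (nat_lit 4) (nat_lit 315) (nat_lit 240) (nat_lit 165))))) (XT.nd (nat_lit 31668) (nat_lit 0) (nat_lit 6460) (XT.nd (nat_lit 156) (nat_lit 0) (nat_lit 0) (XT.nd (nat_lit 78) (nat_lit 0) (nat_lit 0) (XT.lf (nat_lit 0) (nat_lit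 449647794997) (nat_lit 76) (nat_lit 55834361216) (nat_lit 76) (nat_lit 27899253509) (nat_lit 3) (nat_lit 4) (nat_lit 4) (nat_lit 5) (nat_lit 4) (nat_lit 4) (nat_lit 316) (nat_lit 240) (nat_lit 164)) (XT.lf (nat_lit 0) (nat_lit 497261756022) (nat_lit 76) (nat_lit 53188122450) (nat_lit 76) (nat_lit 25247032488) (nat_lit 3) (nat_lit 4) (nat_lit 4) (nat_lit 5) (nat_lit 4) (nat_lit 4) (nat_lit 317) (nat_lit 240) (nat_lit 163))) (XT.nd (nat_lit 78) (nat_lit 0) (nat_lit 0) (XT.lf (nat_lit 0) (nat_lit 548680072594) (nat_lit 76) (nat_lit 50332176990) (nat_lit 76) (nat_lit 22385547904) (nat_lit 3) (nat_lit 4) (nat_lit 4) (nat_lit 5) (nat_lit 4) (nat_lit 4) (nat_lit 318) (nat_lit 240) (nat_lit 162)) (XT.lf (nat_lit 0) (nat_lit 604207445850) (nat_lit 76) (nat_lit 47249600715) (nat_lit 76) (nat_lit 19297842809) (nat_lit 3) (nat_lit 4) (nat_lit 4) (nat_lit 5) (nat_lit 4) (nat_lit 4) (nat_lit 319)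 (nat_lit 240) (nat_lit 161)))) (XT.nd (nat_lit 156) (nat_lit 456) (nat_lit 0) (XT.nd (nat_lit 78) (nat_lit 0) (nat_lit 0) (XT.lf (nat_lit 0) (nat_lit 723557921) (nat_lit 228) (nat_lit 1256269709) (nat_lit 228) (nat_lit 1256269709) (nat_lit 94) (nat_lit 3) (nat_lit 97) (nat_lit 3) (nat_lit 97) (nat_lit 5) (nat_lit 241) (nat_lit 241) (nat_lit 238)) (XT.lf (nat_lit 76) (nat_lit 1743867306) (nat_lit 0) (nat_lit 3382281865) (nat_lit 228) (nat_lit 1387871714) (nat_lit 95) (nat_lit 5) (nat_lit 94) (nat_lit 3) (nat_lit 97) (nat_lit 5) (nat_lit 242) (nat_lit 241) (nat_lit 237))) (XT.nd (nat_lit 78) (nat_lit 228) (nat_lit 0) (XT.lf (nat_lit 0) (nat_lit 2131419854) (nat_lit 228) (nat_lit 379482065) (nat_lit 304) (nat_lit 4066118128) (nat_lit 91) (nat_lit 5) (nat_lit 94) (nat_lit 3) (nat_lit 95) (nat_lit 5) (nat_lit 243) (nat_lit 241) (nat_lit 236)) (XT.nd (nat_lit 78) (nat_lit 228) (nat_lit 0)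 (XT.lf (nat_lit 76) (nat_lit 4279142167) (nat_lit 0) (nat_lit 1327437980) (nat_lit 304) (nat_lit 1054370410) (nat_lit 92) (nat_lit 5) (nat_lit 91) (nat_lit 5) (nat_lit 95) (nat_lit 5) (nat_lit 244) (nat_lit 241) (nat_lit 235)) (XT.lf (nat_lit 0) (nat_lit 2241546098) (nat_lit 304) (nat_lit 4362338454) (nat_lit 76) (nat_lit 162632782) (nat_lit 88) (nat_lit 5) (nat_lit 92) (nat_lit 5) (nat_lit 89) (nat_lit 5) (nat_lit 245) (nat_lit 241) (nat_lit 234))))))) (XT.nd (nat_lit 624) (nat_lit 1748) (nat_lit 0) (XT.nd (nat_lit 312) (nat_lit 1672) (nat_lit 0) (XT.nd (nat_lit 156) (nat_lit 912) (nat_lit 0) (XT.nd (nat_lit 78) (nat_lit 76) (nat_lit 0) (XT.lf (nat_lit 0) (nat_lit 543121079) (nat_lit 304) (nat_lit 4987779024) (nat_lit 380) (nat_lit 1363023552) (nat_lit 84) (nat_lit 5) (nat_lit 88) (nat_lit 5) (nat_lit 89) (nat_lit 5) (nat_lit 246) (nat_lit 241) (nat_lit 233)) (XT.lf (nat_lit 0) (nat_lit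 1769131236) (nat_lit 380) (nat_lit 1280032330) (nat_lit 76) (nat_lit 3993898094) (nat_lit 83) (nat_lit 5) (nat_lit 88) (nat_lit 5) (nat_lit 84) (nat_lit 5) (nat_lit 247) (nat_lit 241) (nat_lit 232))) (XT.nd (nat_lit 78) (nat_lit 532) (nat_lit 0) (XT.lf (nat_lit 0) (nat_lit 4104964816) (nat_lit 380) (nat_lit 791358513) (nat_lit 456) (nat_lit 2319196963) (nat_lit 78) (nat_lit 5) (nat_lit 83) (nat_lit 5) (nat_lit 84) (nat_lit 5) (nat_lit 248) (nat_lit 241) (nat_lit 231)) (XT.lf (nat_lit 0) (nat_lit 671049524) (nat_lit 532) (nat_lit 5012990284) (nat_lit 76) (nat_lit 1727570602) (nat_lit 71) (nat_lit 5) (nat_lit 78) (nat_lit 5) (nat_lit 72) (nat_lit 5) (nat_lit 249) (nat_lit 241) (nat_lit 230)))) (XT.nd (nat_lit 156) (nat_lit 1140) (nat_lit 0) (XT.nd (nat_lit 78) (nat_lit 0) (nat_lit 0) (XT.lf (nat_lit 0) (nat_lit 597004966) (nat_lit 532) (nat_lit 3056853459) (nat_lit 608) (nat_lit 3977627702)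 (nat_lit 64) (nat_lit 5) (nat_lit 71) (nat_lit 5) (nat_lit 72) (nat_lit 5) (nat_lit 250) (nat_lit 241) (nat_lit 229)) (XT.lf (nat_lit 0) (nat_lit 6636145018) (nat_lit 532) (nat_lit 97232201) (nat_lit 608) (nat_lit 1144271507) (nat_lit 64) (nat_lit 5) (nat_lit 71) (nat_lit 5) (nat_lit 72) (nat_lit 5) (nat_lit 251) (nat_lit 241) (nat_lit 228))) (XT.nd (nat_lit 78) (nat_lit 456) (nat_lit 0) (XT.lf (nat_lit 0) (nat_lit 1765091449) (nat_lit 684) (nat_lit 3250024611) (nat_lit 76) (nat_lit 3132771932) (nat_lit 55) (nat_lit 5) (nat_lit 64) (nat_lit 5) (nat_lit 56) (nat_lit 5) (nat_lit 252) (nat_lit 241) (nat_lit 227)) (XT.lf (nat_lit 0) (nat_lit 3013211373) (nat_lit 456) (nat_lit 1721451485) (nat_lit 532) (nat_lit 3712075465) (nat_lit 49) (nat_lit 5) (nat_lit 55) (nat_lit 5) (nat_lit 56) (nat_lit 5) (nat_lit 253) (nat_lit 241) (nat_lit 226))))) (XT.nd (nat_lit 312) (nat_lit 836) (nat_lit 0)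 (XT.nd (nat_lit 156) (nat_lit 532) (nat_lit 0) (XT.nd (nat_lit 78) (nat_lit 76) (nat_lit 0) (XT.lf (nat_lit 0) (nat_lit 928713032) (nat_lit 304) (nat_lit 6922358067) (nat_lit 380) (nat_lit 924172495) (nat_lit 45) (nat_lit 5) (nat_lit 49) (nat_lit 5) (nat_lit 50) (nat_lit 5) (nat_lit 254) (nat_lit 241) (nat_lit 225)) (XT.lf (nat_lit 0) (nat_lit 1960948644) (nat_lit 380) (nat_lit 1391355180) (nat_lit 76) (nat_lit 5780115115) (nat_lit 44) (nat_lit 5) (nat_lit 49) (nat_lit 5) (nat_lit 45) (nat_lit 5) (nat_lit 255) (nat_lit 241) (nat_lit 224))) (XT.nd (nat_lit 78) (nat_lit 228) (nat_lit 0) (XT.lf (nat_lit 0) (nat_lit 4970498068) (nat_lit 380) (nat_lit 3971584703) (nat_lit 76) (nat_lit 580016532) (nat_lit 40) (nat_lit 5) (nat_lit 45) (nat_lit 5) (nat_lit 41) (nat_lit 5) (nat_lit 256) (nat_lit 241) (nat_lit 223)) (XT.lf (nat_lit 0) (nat_lit 3012064544) (nat_lit 228) (nat_lit 5176031798) (nat_lit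 304) (nat_lit 1757408661) (nat_lit 37) (nat_lit 5) (nat_lit 40) (nat_lit 5) (nat_lit 41) (nat_lit 5) (nat_lit 257) (nat_lit 241) (nat_lit 222)))) (XT.nd (nat_lit 156) (nat_lit 532) (nat_lit 0) (XT.nd (nat_lit 78) (nat_lit 0) (nat_lit 0) (XT.lf (nat_lit 0) (nat_lit 98167015) (nat_lit 228) (nat_lit 1038638649) (nat_lit 304) (nat_lit 9269959429) (nat_lit 33) (nat_lit 5) (nat_lit 36) (nat_lit 5) (nat_lit 37) (nat_lit 5) (nat_lit 258) (nat_lit 241) (nat_lit 221)) (XT.lf (nat_lit 0) (nat_lit 4231446708) (nat_lit 304) (nat_lit 3224993191) (nat_lit 76) (nat_lit 3446269793) (nat_lit 33) (nat_lit 5) (nat_lit 37) (nat_lit 5) (nat_lit 34) (nat_lit 5) (nat_lit 259) (nat_lit 241) (nat_lit 220))) (XT.nd (nat_lit 78) (nat_lit 304) (nat_lit 0) (XT.lf (nat_lit 0) (nat_lit 4380548106) (nat_lit 228) (nat_lit 3143214617) (nat_lit 304) (nat_lit 3917753836) (nat_lit 30) (nat_lit 5) (nat_lit 33) (nat_lit 5)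 (nat_lit 34) (nat_lit 5) (nat_lit 260) (nat_lit 241) (nat_lit 219)) (XT.nd (nat_lit 78) (nat_lit 76) (nat_lit 0) (XT.lf (nat_lit 0) (nat_lit 514239496) (nat_lit 228) (nat_lit 10525264033) (nat_lit 304) (nat_lit 986563103) (nat_lit 27) (nat_lit 5) (nat_lit 30) (nat_lit 5) (nat_lit 31) (nat_lit 5) (nat_lit 261) (nat_lit 241) (nat_lit 218)) (XT.lf (nat_lit 0) (nat_lit 2163127015) (nat_lit 304) (nat_lit 3956809978) (nat_lit 76) (nat_lit 6533620054) (nat_lit 26) (nat_lit 5) (nat_lit 30) (nat_lit 5) (nat_lit 27) (nat_lit 5) (nat_lit 262) (nat_lit 241) (nat_lit 217))))))))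
noncomputable def xc52 : XT := (XT.nd (nat_lit 1248) (nat_lit 304) (nat_lit 0) (XT.nd (nat_lit 624) (nat_lit 532) (nat_lit 0) (XT.nd (nat_lit 312) (nat_lit 228) (nat_lit 0) (XT.nd (nat_lit 156) (nat_lit 456) (nat_lit 0) (XT.nd (nat_lit 78) (nat_lit 0) (nat_lit 0) (XT.lf (nat_lit 0) (nat_lit 4167364981) (nat_lit 152) (nat_lit 1313329574) (nat_lit 228) (nat_lit 7852743238) (nat_lit 24) (nat_lit 5) (nat_lit 26) (nat_lit 5) (nat_lit 27) (nat_lit 5) (nat_lit 263) (nat_lit 241) (nat_lit 216)) (XT.lf (nat_lit 0) (nat_lit 9084888160) (nat_lit 228) (nat_lit 1193904049) (nat_lit 76) (nat_lit 3788340094) (nat_lit 24) (nat_lit 5) (nat_lit 27) (nat_lit 5) (nat_lit 25) (nat_lit 5) (nat_lit 264) (nat_lit 241) (nat_lit 215))) (XT.nd (nat_lit 78) (nat_lit 228) (nat_lit 0) (XT.lf (nat_lit 0) (nat_lit 7494181174) (nat_lit 228) (nat_lit 5521110679) (nat_lit 304) (nat_lit 1842785252) (nat_lit 21) (nat_lit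 5) (nat_lit 24) (nat_lit 5) (nat_lit 25) (nat_lit 5) (nat_lit 265) (nat_lit 241) (nat_lit 214)) (XT.lf (nat_lit 0) (nat_lit 1081665576) (nat_lit 152) (nat_lit 356818724) (nat_lit 228) (nat_lit 14275990650) (nat_lit 18) (nat_lit 5) (nat_lit 20) (nat_lit 5) (nat_lit 21) (nat_lit 5) (nat_lit 266) (nat_lit 241) (nat_lit 213)))) (XT.nd (nat_lit 156) (nat_lit 76) (nat_lit 0) (XT.nd (nat_lit 78) (nat_lit 152) (nat_lit 0) (XT.lf (nat_lit 0) (nat_lit 5037207303) (nat_lit 228) (nat_lit 6417393891) (nat_lit 76) (nat_lit 5177663419) (nat_lit 18) (nat_lit 5) (nat_lit 21) (nat_lit 5) (nat_lit 19) (nat_lit 5) (nat_lit 267) (nat_lit 241) (nat_lit 212)) (XT.lf (nat_lit 0) (nat_lit 2400539643) (nat_lit 152) (nat_lit 6480455879) (nat_lit 228) (nat_lit 8744962608) (nat_lit 16) (nat_lit 5) (nat_lit 18) (nat_lit 5) (nat_lit 19) (nat_lit 5) (nat_lit 268) (nat_lit 241) (nat_lit 211))) (XT.nd (nat_lit 78) (nat_lit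 76) (nat_lit 0) (XT.lf (nat_lit 0) (nat_lit 12032995513) (nat_lit 152) (nat_lit 1029269741) (nat_lit 228) (nat_lit 5635696887) (nat_lit 16) (nat_lit 5) (nat_lit 18) (nat_lit 5) (nat_lit 19) (nat_lit 5) (nat_lit 269) (nat_lit 241) (nat_lit 210)) (XT.lf (nat_lit 0) (nat_lit 2468784896) (nat_lit 76) (nat_lit 15147341767) (nat_lit 152) (nat_lit 2237985985) (nat_lit 15) (nat_lit 5) (nat_lit 16) (nat_lit 5) (nat_lit 17) (nat_lit 4) (nat_lit 270) (nat_lit 241) (nat_lit 209))))) (XT.nd (nat_lit 312) (nat_lit 304) (nat_lit 0) (XT.nd (nat_lit 156) (nat_lit 0) (nat_lit 0) (XT.nd (nat_lit 78) (nat_lit 152) (nat_lit 0) (XT.lf (nat_lit 0) (nat_lit 1447271961) (nat_lit 152) (nat_lit 8679736573) (nat_lit 76) (nat_lit 10971808053) (nat_lit 14) (nat_lit 5) (nat_lit 16) (nat_lit 5) (nat_lit 15) (nat_lit 5) (nat_lit 271) (nat_lit 241) (nat_lit 208)) (XT.lf (nat_lit 0) (nat_lit 599668045) (nat_lit 152)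 (nat_lit 4691342880) (nat_lit 228) (nat_lit 17153385419) (nat_lit 12) (nat_lit 5) (nat_lit 14) (nat_lit 5) (nat_lit 15) (nat_lit 5) (nat_lit 272) (nat_lit 241) (nat_lit 207))) (XT.nd (nat_lit 78) (nat_lit 0) (nat_lit 0) (XT.lf (nat_lit 0) (nat_lit 9548956648) (nat_lit 228) (nat_lit 13082061955) (nat_lit 76) (nat_lit 1261488262) (nat_lit 12) (nat_lit 5) (nat_lit 15) (nat_lit 5) (nat_lit 13) (nat_lit 4) (nat_lit 273) (nat_lit 241) (nat_lit 206)) (XT.lf (nat_lit 0) (nat_lit 14166108726) (nat_lit 228) (nat_lit 3792381369) (nat_lit 76) (nat_lit 7497251083) (nat_lit 12) (nat_lit 5) (nat_lit 15) (nat_lit 5) (nat_lit 13) (nat_lit 4) (nat_lit 274) (nat_lit 241) (nat_lit 205)))) (XT.nd (nat_lit 156) (nat_lit 228) (nat_lit 0) (XT.nd (nat_lit 78) (nat_lit 0) (nat_lit 0) (XT.lf (nat_lit 0) (nat_lit 6356041446) (nat_lit 76) (nat_lit 12839777222) (nat_lit 152) (nat_lit 7946244693) (nat_lit 11) (nat_lit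 5) (nat_lit 12) (nat_lit 5) (nat_lit 13) (nat_lit 4) (nat_lit 275) (nat_lit 241) (nat_lit 204)) (XT.lf (nat_lit 0) (nat_lit 17367716082) (nat_lit 76) (nat_lit 7273039882) (nat_lit 152) (nat_lit 4322067283) (nat_lit 11) (nat_lit 5) (nat_lit 12) (nat_lit 5) (nat_lit 13) (nat_lit 4) (nat_lit 276) (nat_lit 241) (nat_lit 203))) (XT.nd (nat_lit 78) (nat_lit 228) (nat_lit 0) (XT.lf (nat_lit 0) (nat_lit 29182503651) (nat_lit 76) (nat_lit 1289515816) (nat_lit 152) (nat_lit 459849429) (nat_lit 11) (nat_lit 5) (nat_lit 12) (nat_lit 5) (nat_lit 13) (nat_lit 4) (nat_lit 277) (nat_lit 241) (nat_lit 202)) (XT.lf (nat_lit 0) (nat_lit 3770813999) (nat_lit 228) (nat_lit 24092802879) (nat_lit 76) (nat_lit 5183153817) (nat_lit 8) (nat_lit 5) (nat_lit 11) (nat_lit 5) (nat_lit 9) (nat_lit 4) (nat_lit 278) (nat_lit 241) (nat_lit 201)))))) (XT.nd (nat_lit 624) (nat_lit 152) (nat_lit 0) (XT.nd (nat_lit 312)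 (nat_lit 76) (nat_lit 0) (XT.nd (nat_lit 156) (nat_lit 76) (nat_lit 0) (XT.nd (nat_lit 78) (nat_lit 0) (nat_lit 0) (XT.lf (nat_lit 0) (nat_lit 8332171582) (nat_lit 228) (nat_lit 14855762251) (nat_lit 76) (nat_lit 12142268177) (nat_lit 8) (nat_lit 5) (nat_lit 11) (nat_lit 5) (nat_lit 9) (nat_lit 4) (nat_lit 279) (nat_lit 241) (nat_lit 200)) (XT.lf (nat_lit 0) (nat_lit 13217160565) (nat_lit 228) (nat_lit 4946851888) (nat_lit 76) (nat_lit 19634481361) (nat_lit 8) (nat_lit 5) (nat_lit 11) (nat_lit 5) (nat_lit 9) (nat_lit 4) (nat_lit 280) (nat_lit 241) (nat_lit 199))) (XT.nd (nat_lit 78) (nat_lit 0) (nat_lit 0) (XT.lf (nat_lit 0) (nat_lit 5880872318) (nat_lit 76) (nat_lit 12665673611) (nat_lit 152) (nat_lit 21915136247) (nat_lit 7) (nat_lit 5) (nat_lit 8) (nat_lit 5) (nat_lit 9) (nat_lit 4) (nat_lit 281) (nat_lit 241) (nat_lit 198)) (XT.lf (nat_lit 0) (nat_lit 17692041138) (nat_lit 76) (nat_lit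 6660095628) (nat_lit 152) (nat_lit 18983400810) (nat_lit 7) (nat_lit 5) (nat_lit 8) (nat_lit 5) (nat_lit 9) (nat_lit 4) (nat_lit 282) (nat_lit 241) (nat_lit 197)))) (XT.nd (nat_lit 156) (nat_lit 76) (nat_lit 0) (XT.nd (nat_lit 78) (nat_lit 0) (nat_lit 0) (XT.lf (nat_lit 0) (nat_lit 30393081419) (nat_lit 76) (nat_lit 195467227) (nat_lit 152) (nat_lit 15852531020) (nat_lit 7) (nat_lit 5) (nat_lit 8) (nat_lit 5) (nat_lit 9) (nat_lit 4) (nat_lit 283) (nat_lit 241) (nat_lit 196)) (XT.lf (nat_lit 0) (nat_lit 37398382430) (nat_lit 152) (nat_lit 5843097421) (nat_lit 0) (nat_lit 6549949588) (nat_lit 7) (nat_lit 5) (nat_lit 9) (nat_lit 4) (nat_lit 7) (nat_lit 4) (nat_lit 284) (nat_lit 241) (nat_lit 195))) (XT.nd (nat_lit 78) (nat_lit 0) (nat_lit 0) (XT.lf (nat_lit 0) (nat_lit 5295993697) (nat_lit 76) (nat_lit 39513874995) (nat_lit 76) (nat_lit 8597178329) (nat_lit 6) (nat_lit 4) (nat_lit 7) (nat_lit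 5) (nat_lit 7) (nat_lit 4) (nat_lit 285) (nat_lit 241) (nat_lit 194)) (XT.lf (nat_lit 0) (nat_lit 17488560389) (nat_lit 76) (nat_lit 35399814714) (nat_lit 76) (nat_lit 4419910803) (nat_lit 6) (nat_lit 4) (nat_lit 7) (nat_lit 5) (nat_lit 7) (nat_lit 4) (nat_lit 286) (nat_lit 241) (nat_lit 193))))) (XT.nd (nat_lit 312) (nat_lit 76) (nat_lit 0) (XT.nd (nat_lit 156) (nat_lit 0) (nat_lit 0) (XT.nd (nat_lit 78) (nat_lit 0) (nat_lit 0) (XT.lf (nat_lit 0) (nat_lit 62487930) (nat_lit 152) (nat_lit 30910328880) (nat_lit 76) (nat_lit 30550109517) (nat_lit 5) (nat_lit 5) (nat_lit 7) (nat_lit 5) (nat_lit 6) (nat_lit 4) (nat_lit 287) (nat_lit 241) (nat_lit 192)) (XT.lf (nat_lit 0) (nat_lit 4726511077) (nat_lit 152) (nat_lit 21403271455) (nat_lit 76) (nat_lit 39942501179) (nat_lit 5) (nat_lit 5) (nat_lit 7) (nat_lit 5) (nat_lit 6) (nat_lit 4) (nat_lit 288) (nat_lit 241) (nat_lit 191))) (XT.nd (nat_lit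 78) (nat_lit 0) (nat_lit 0) (XT.lf (nat_lit 0) (nat_lit 9741262039) (nat_lit 152) (nat_lit 11173207931) (nat_lit 76) (nat_lit 50072297600) (nat_lit 5) (nat_lit 5) (nat_lit 7) (nat_lit 5) (nat_lit 6) (nat_lit 4) (nat_lit 289) (nat_lit 241) (nat_lit 190)) (XT.lf (nat_lit 0) (nat_lit 15136457862) (nat_lit 152) (nat_lit 159515707) (nat_lit 76) (nat_lit 60999527202) (nat_lit 5) (nat_lit 5) (nat_lit 7) (nat_lit 5) (nat_lit 6) (nat_lit 4) (nat_lit 290) (nat_lit 241) (nat_lit 189)))) (XT.nd (nat_lit 156) (nat_lit 0) (nat_lit 0) (XT.nd (nat_lit 78) (nat_lit 0) (nat_lit 0) (XT.lf (nat_lit 0) (nat_lit 12090027936) (nat_lit 76) (nat_lit 9042801356) (nat_lit 152) (nat_lit 60887675222) (nat_lit 4) (nat_lit 5) (nat_lit 5) (nat_lit 5) (nat_lit 6) (nat_lit 4) (nat_lit 291) (nat_lit 241) (nat_lit 188)) (XT.lf (nat_lit 0) (nat_lit 25294430359) (nat_lit 76) (nat_lit 2299000743) (nat_lit 152) (nat_lit 60610897610)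 (nat_lit 4) (nat_lit 5) (nat_lit 5) (nat_lit 5) (nat_lit 6) (nat_lit 4) (nat_lit 292) (nat_lit 241) (nat_lit 187))) (XT.nd (nat_lit 78) (nat_lit 0) (nat_lit 0) (XT.lf (nat_lit 0) (nat_lit 34631613131) (nat_lit 152) (nat_lit 55434718954) (nat_lit 0) (nat_lit 4813532921) (nat_lit 4) (nat_lit 5) (nat_lit 6) (nat_lit 4) (nat_lit 4) (nat_lit 4) (nat_lit 293) (nat_lit 241) (nat_lit 186)) (XT.nd (nat_lit 78) (nat_lit 0) (nat_lit 0) (XT.lf (nat_lit 0) (nat_lit 42255793892) (nat_lit 152) (nat_lit 47427351790) (nat_lit 0) (nat_lit 12405190913) (nat_lit 4) (nat_lit 5) (nat_lit 6) (nat_lit 4) (nat_lit 4) (nat_lit 4) (nat_lit 294) (nat_lit 241) (nat_lit 185)) (XT.lf (nat_lit 0) (nat_lit 50475259871) (nat_lit 152) (nat_lit 38804451950) (nat_lit 0) (nat_lit 20594543216) (nat_lit 4) (nat_lit 5) (nat_lit 6) (nat_lit 4) (nat_lit 4) (nat_lit 4) (nat_lit 295) (nat_lit 241) (nat_lit 184))))))))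
noncomputable def xc53 : XT := (XT.nd (nat_lit 1248) (nat_lit 0) (nat_lit 0) (XT.nd (nat_lit 624) (nat_lit 0) (nat_lit 0) (XT.nd (nat_lit 312) (nat_lit 0) (nat_lit 0) (XT.nd (nat_lit 156) (nat_lit 76) (nat_lit 0) (XT.nd (nat_lit 78) (nat_lit 0) (nat_lit 0) (XT.lf (nat_lit 0) (nat_lit 59338719015) (nat_lit 152) (nat_lit 29514920770) (nat_lit 0) (nat_lit 29430119327) (nat_lit 4) (nat_lit 5) (nat_lit 6) (nat_lit 4) (nat_lit 4) (nat_lit 4) (nat_lit 296) (nat_lit 241) (nat_lit 183)) (XT.lf (nat_lit 0) (nat_lit 68898695525) (nat_lit 152) (nat_lit 19503709176) (nat_lit 0) (nat_lit 38964278214) (nat_lit 4) (nat_lit 5) (nat_lit 6) (nat_lit 4) (nat_lit 4) (nat_lit 4) (nat_lit 297) (nat_lit 241) (nat_lit 182))) (XT.nd (nat_lit 78) (nat_lit 76) (nat_lit 0) (XT.lf (nat_lit 0) (nat_lit 79211841114) (nat_lit 152) (nat_lit 8711491469) (nat_lit 0) (nat_lit 49253518597) (nat_lit 4) (nat_lit 5) (nat_lit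 6) (nat_lit 4) (nat_lit 4) (nat_lit 4) (nat_lit 298) (nat_lit 241) (nat_lit 181)) (XT.lf (nat_lit 0) (nat_lit 3022422632) (nat_lit 76) (nat_lit 87364036574) (nat_lit 76) (nat_lit 57383579606) (nat_lit 3) (nat_lit 4) (nat_lit 4) (nat_lit 5) (nat_lit 4) (nat_lit 4) (nat_lit 299) (nat_lit 241) (nat_lit 180)))) (XT.nd (nat_lit 156) (nat_lit 0) (nat_lit 0) (XT.nd (nat_lit 78) (nat_lit 0) (nat_lit 0) (XT.lf (nat_lit 0) (nat_lit 15988517390) (nat_lit 76) (nat_lit 86608032837) (nat_lit 76) (nat_lit 56607081008) (nat_lit 3) (nat_lit 4) (nat_lit 4) (nat_lit 5) (nat_lit 4) (nat_lit 4) (nat_lit 300) (nat_lit 241) (nat_lit 179)) (XT.lf (nat_lit 0) (nat_lit 29975587671) (nat_lit 76) (nat_lit 85798374675) (nat_lit 76) (nat_lit 55778446122) (nat_lit 3) (nat_lit 4) (nat_lit 4) (nat_lit 5) (nat_lit 4) (nat_lit 4) (nat_lit 301) (nat_lit 241) (nat_lit 178))) (XT.nd (nat_lit 78) (nat_lit 0) (nat_lit 0)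 (XT.lf (nat_lit 0) (nat_lit 45066519817) (nat_lit 76) (nat_lit 84930264112) (nat_lit 76) (nat_lit 54892764519) (nat_lit 3) (nat_lit 4) (nat_lit 4) (nat_lit 5) (nat_lit 4) (nat_lit 4) (nat_lit 302) (nat_lit 241) (nat_lit 177)) (XT.lf (nat_lit 0) (nat_lit 61350741574) (nat_lit 76) (nat_lit 83998556789) (nat_lit 76) (nat_lit 53944787715) (nat_lit 3) (nat_lit 4) (nat_lit 4) (nat_lit 5) (nat_lit 4) (nat_lit 4) (nat_lit 303) (nat_lit 241) (nat_lit 176))))) (XT.nd (nat_lit 312) (nat_lit 0) (nat_lit 0) (XT.nd (nat_lit 156) (nat_lit 0) (nat_lit 0) (XT.nd (nat_lit 78) (nat_lit 0) (nat_lit 0) (XT.lf (nat_lit 0) (nat_lit 78924752034) (nat_lit 76) (nat_lit 82997731479) (nat_lit 76) (nat_lit 52928898069) (nat_lit 3) (nat_lit 4) (nat_lit 4) (nat_lit 5) (nat_lit 4) (nat_lit 4) (nat_lit 304) (nat_lit 241) (nat_lit 175)) (XT.lf (nat_lit 0) (nat_lit 97892693482) (nat_lit 76) (nat_lit 81921857364) (nat_lit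 76) (nat_lit 51839075496) (nat_lit 3) (nat_lit 4) (nat_lit 4) (nat_lit 5) (nat_lit 4) (nat_lit 4) (nat_lit 305) (nat_lit 241) (nat_lit 174))) (XT.nd (nat_lit 78) (nat_lit 0) (nat_lit 0) (XT.lf (nat_lit 0) (nat_lit 118366968533) (nat_lit 76) (nat_lit 80764558895) (nat_lit 76) (nat_lit 50668861788) (nat_lit 3) (nat_lit 4) (nat_lit 4) (nat_lit 5) (nat_lit 4) (nat_lit 4) (nat_lit 306) (nat_lit 241) (nat_lit 173)) (XT.lf (nat_lit 0) (nat_lit 140468906224) (nat_lit 76) (nat_lit 79518978006) (nat_lit 76) (nat_lit 49411322344) (nat_lit 3) (nat_lit 4) (nat_lit 4) (nat_lit 5) (nat_lit 4) (nat_lit 4) (nat_lit 307) (nat_lit 241) (nat_lit 172)))) (XT.nd (nat_lit 156) (nat_lit 0) (nat_lit 0) (XT.nd (nat_lit 78) (nat_lit 0) (nat_lit 0) (XT.lf (nat_lit 0) (nat_lit 164329481002) (nat_lit 76) (nat_lit 78177733476) (nat_lit 76) (nat_lit 48059005078) (nat_lit 3) (nat_lit 4) (nat_lit 4) (nat_lit 5) (nat_lit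 4) (nat_lit 4) (nat_lit 308) (nat_lit 241) (nat_lit 171)) (XT.lf (nat_lit 0) (nat_lit 190090088865) (nat_lit 76) (nat_lit 76732877191) (nat_lit 76) (nat_lit 46603896260) (nat_lit 3) (nat_lit 4) (nat_lit 4) (nat_lit 5) (nat_lit 4) (nat_lit 4) (nat_lit 309) (nat_lit 241) (nat_lit 170))) (XT.nd (nat_lit 78) (nat_lit 0) (nat_lit 0) (XT.lf (nat_lit 0) (nat_lit 217903385266) (nat_lit 76) (nat_lit 75175847039) (nat_lit 76) (nat_lit 45037373022) (nat_lit 3) (nat_lit 4) (nat_lit 4) (nat_lit 5) (nat_lit 4) (nat_lit 4) (nat_lit 310) (nat_lit 241) (nat_lit 169)) (XT.lf (nat_lit 0) (nat_lit 247934189741) (nat_lit 76) (nat_lit 73497416175) (nat_lit 76) (nat_lit 43350152263) (nat_lit 3) (nat_lit 4) (nat_lit 4) (nat_lit 5) (nat_lit 4) (nat_lit 4) (nat_lit 311) (nat_lit 241) (nat_lit 168)))))) (XT.nd (nat_lit 32058) (nat_lit 0) (nat_lit 5168) (XT.nd (nat_lit 312) (nat_lit 0) (nat_lit 0) (XT.nd (nat_lit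 156) (nat_lit 0) (nat_lit 0) (XT.nd (nat_lit 78) (nat_lit 0) (nat_lit 0) (XT.lf (nat_lit 0) (nat_lit 280360462612) (nat_lit 76) (nat_lit 71687638342) (nat_lit 76) (nat_lit 41532235638) (nat_lit 3) (nat_lit 4) (nat_lit 4) (nat_lit 5) (nat_lit 4) (nat_lit 4) (nat_lit 312) (nat_lit 241) (nat_lit 167)) (XT.lf (nat_lit 0) (nat_lit 315374359570) (nat_lit 76) (nat_lit 69735788930) (nat_lit 76) (nat_lit 39572850308) (nat_lit 3) (nat_lit 4) (nat_lit 4) (nat_lit 5) (nat_lit 4) (nat_lit 4) (nat_lit 313) (nat_lit 241) (nat_lit 166))) (XT.nd (nat_lit 78) (nat_lit 0) (nat_lit 0) (XT.lf (nat_lit 0) (nat_lit 353183370374) (nat_lit 76) (nat_lit 67630301424) (nat_lit 76) (nat_lit 37460385100) (nat_lit 3) (nat_lit 4) (nat_lit 4) (nat_lit 5) (nat_lit 4) (nat_lit 4) (nat_lit 314) (nat_lit 241) (nat_lit 165)) (XT.lf (nat_lit 0) (nat_lit 394011548423) (nat_lit 76) (nat_lit 65358698861) (nat_lit 76) (nat_lit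 35182321702) (nat_lit 3) (nat_lit 4) (nat_lit 4) (nat_lit 5) (nat_lit 4) (nat_lit 4) (nat_lit 315) (nat_lit 241) (nat_lit 164)))) (XT.nd (nat_lit 156) (nat_lit 0) (nat_lit 0) (XT.nd (nat_lit 78) (nat_lit 0) (nat_lit 0) (XT.lf (nat_lit 0) (nat_lit 438100838475) (nat_lit 76) (nat_lit 62907519893) (nat_lit 76) (nat_lit 32725160480) (nat_lit 3) (nat_lit 4) (nat_lit 4) (nat_lit 5) (nat_lit 4) (nat_lit 4) (nat_lit 316) (nat_lit 241) (nat_lit 163)) (XT.lf (nat_lit 0) (nat_lit 485712510396) (nat_lit 76) (nat_lit 60262239015) (nat_lit 76) (nat_lit 30074340477) (nat_lit 3) (nat_lit 4) (nat_lit 4) (nat_lit 5) (nat_lit 4) (nat_lit 4) (nat_lit 317) (nat_lit 241) (nat_lit 162))) (XT.nd (nat_lit 78) (nat_lit 0) (nat_lit 0) (XT.lf (nat_lit 0) (nat_lit 537128707429) (nat_lit 76) (nat_lit 57407180489) (nat_lit 76) (nat_lit 27214153131) (nat_lit 3) (nat_lit 4) (nat_lit 4) (nat_lit 5) (nat_lit 4) (nat_lit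 4) (nat_lit 318) (nat_lit 241) (nat_lit 161)) (XT.lf (nat_lit 0) (nat_lit 592654118147) (nat_lit 76) (nat_lit 54325425448) (nat_lit 76) (nat_lit 24127649184) (nat_lit 3) (nat_lit 4) (nat_lit 4) (nat_lit 5) (nat_lit 4) (nat_lit 4) (nat_lit 319) (nat_lit 241) (nat_lit 160))))) (XT.nd (nat_lit 312) (nat_lit 1216) (nat_lit 0) (XT.nd (nat_lit 156) (nat_lit 304) (nat_lit 0) (XT.nd (nat_lit 78) (nat_lit 0) (nat_lit 0) (XT.lf (nat_lit 0) (nat_lit 494128634) (nat_lit 0) (nat_lit 494128634) (nat_lit 228) (nat_lit 2294633686) (nat_lit 91) (nat_lit 5) (nat_lit 91) (nat_lit 3) (nat_lit 94) (nat_lit 3) (nat_lit 242) (nat_lit 242) (nat_lit 236)) (XT.lf (nat_lit 0) (nat_lit 5270326369) (nat_lit 228) (nat_lit 1287735605) (nat_lit 304) (nat_lit 80215790) (nat_lit 91) (nat_lit 5) (nat_lit 94) (nat_lit 3) (nat_lit 95) (nat_lit 5) (nat_lit 243) (nat_lit 242) (nat_lit 235))) (XT.nd (nat_lit 78) (nat_lit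 0) (nat_lit 0) (XT.lf (nat_lit 0) (nat_lit 1784951104) (nat_lit 304) (nat_lit 3510555648) (nat_lit 380) (nat_lit 1435147258) (nat_lit 87) (nat_lit 5) (nat_lit 91) (nat_lit 5) (nat_lit 92) (nat_lit 5) (nat_lit 244) (nat_lit 242) (nat_lit 234)) (XT.lf (nat_lit 76) (nat_lit 1130955625) (nat_lit 0) (nat_lit 3746694617) (nat_lit 380) (nat_lit 1967467955) (nat_lit 88) (nat_lit 5) (nat_lit 87) (nat_lit 5) (nat_lit 92) (nat_lit 5) (nat_lit 245) (nat_lit 242) (nat_lit 233)))) (XT.nd (nat_lit 156) (nat_lit 836) (nat_lit 0) (XT.nd (nat_lit 78) (nat_lit 0) (nat_lit 76) (XT.lf (nat_lit 0) (nat_lit 978431415) (nat_lit 380) (nat_lit 907928056) (nat_lit 456) (nat_lit 5095223065) (nat_lit 82) (nat_lit 5) (nat_lit 87) (nat_lit 5) (nat_lit 88) (nat_lit 5) (nat_lit 246) (nat_lit 242) (nat_lit 232)) (XT.lf (nat_lit 0) (nat_lit 3891611188) (nat_lit 380) (nat_lit 2937157022) (nat_lit 76) (nat_lit 310673936)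 (nat_lit 83) (nat_lit 5) (nat_lit 88) (nat_lit 5) (nat_lit 84) (nat_lit 5) (nat_lit 247) (nat_lit 242) (nat_lit 231))) (XT.nd (nat_lit 78) (nat_lit 532) (nat_lit 0) (XT.lf (nat_lit 0) (nat_lit 2301148325) (nat_lit 380) (nat_lit 4568182764) (nat_lit 456) (nat_lit 450986029) (nat_lit 78) (nat_lit 5) (nat_lit 83) (nat_lit 5) (nat_lit 84) (nat_lit 5) (nat_lit 248) (nat_lit 242) (nat_lit 230)) (XT.nd (nat_lit 78) (nat_lit 0) (nat_lit 0) (XT.lf (nat_lit 0) (nat_lit 333284893) (nat_lit 456) (nat_lit 1969254338) (nat_lit 532) (nat_lit 5222087280) (nat_lit 71) (nat_lit 5) (nat_lit 77) (nat_lit 5) (nat_lit 78) (nat_lit 5) (nat_lit 249) (nat_lit 242) (nat_lit 229)) (XT.lf (nat_lit 0) (nat_lit 5136562341) (nat_lit 532) (nat_lit 1662164683) (nat_lit 76) (nat_lit 953984244) (nat_lit 71) (nat_lit 5) (nat_lit 78) (nat_lit 5) (nat_lit 72) (nat_lit 5) (nat_lit 250) (nat_lit 242) (nat_lit 228))))))))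
noncomputable def xc54 : XT := (XT.nd (nat_lit 1248) (nat_lit 1064) (nat_lit 0) (XT.nd (nat_lit 624) (nat_lit 1140) (nat_lit 0) (XT.nd (nat_lit 312) (nat_lit 988) (nat_lit 0) (XT.nd (nat_lit 156) (nat_lit 456) (nat_lit 0) (XT.nd (nat_lit 78) (nat_lit 608) (nat_lit 0) (XT.lf (nat_lit 0) (nat_lit 78597081) (nat_lit 608) (nat_lit 3773718376) (nat_lit 76) (nat_lit 4153650553) (nat_lit 63) (nat_lit 5) (nat_lit 71) (nat_lit 5) (nat_lit 64) (nat_lit 5) (nat_lit 251) (nat_lit 242) (nat_lit 227)) (XT.lf (nat_lit 0) (nat_lit 2227975186) (nat_lit 608) (nat_lit 533644112) (nat_lit 684) (nat_lit 5523807071) (nat_lit 55) (nat_lit 5) (nat_lit 63) (nat_lit 5) (nat_lit 64) (nat_lit 5) (nat_lit 252) (nat_lit 242) (nat_lit 226))) (XT.nd (nat_lit 78) (nat_lit 0) (nat_lit 0) (XT.lf (nat_lit 0) (nat_lit 31434698) (nat_lit 456) (nat_lit 5554213500) (nat_lit 532) (nat_lit 3006487585) (nat_lit 49) (nat_lit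 5) (nat_lit 55) (nat_lit 5) (nat_lit 56) (nat_lit 5) (nat_lit 253) (nat_lit 242) (nat_lit 225)) (XT.lf (nat_lit 0) (nat_lit 6640859588) (nat_lit 456) (nat_lit 1931801082) (nat_lit 532) (nat_lit 354989020) (nat_lit 49) (nat_lit 5) (nat_lit 55) (nat_lit 5) (nat_lit 56) (nat_lit 5) (nat_lit 254) (nat_lit 242) (nat_lit 224)))) (XT.nd (nat_lit 156) (nat_lit 304) (nat_lit 0) (XT.nd (nat_lit 78) (nat_lit 304) (nat_lit 0) (XT.lf (nat_lit 0) (nat_lit 2362244671) (nat_lit 380) (nat_lit 4902475437) (nat_lit 76) (nat_lit 2027619276) (nat_lit 44) (nat_lit 5) (nat_lit 49) (nat_lit 5) (nat_lit 45) (nat_lit 5) (nat_lit 255) (nat_lit 242) (nat_lit 223)) (XT.lf (nat_lit 0) (nat_lit 1849298022) (nat_lit 304) (nat_lit 3379256026) (nat_lit 380) (nat_lit 4461067677) (nat_lit 40) (nat_lit 5) (nat_lit 44) (nat_lit 5) (nat_lit 45) (nat_lit 5) (nat_lit 256) (nat_lit 242) (nat_lit 222))) (XT.nd (nat_lit 78) (nat_lit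 304) (nat_lit 0) (XT.lf (nat_lit 0) (nat_lit 8274739443) (nat_lit 380) (nat_lit 981825009) (nat_lit 76) (nat_lit 865441003) (nat_lit 40) (nat_lit 5) (nat_lit 45) (nat_lit 5) (nat_lit 41) (nat_lit 5) (nat_lit 257) (nat_lit 242) (nat_lit 221)) (XT.lf (nat_lit 0) (nat_lit 963185822) (nat_lit 304) (nat_lit 4187562034) (nat_lit 76) (nat_lit 5437279006) (nat_lit 36) (nat_lit 5) (nat_lit 40) (nat_lit 5) (nat_lit 37) (nat_lit 5) (nat_lit 258) (nat_lit 242) (nat_lit 220))))) (XT.nd (nat_lit 312) (nat_lit 380) (nat_lit 0) (XT.nd (nat_lit 156) (nat_lit 532) (nat_lit 0) (XT.nd (nat_lit 78) (nat_lit 0) (nat_lit 0) (XT.lf (nat_lit 0) (nat_lit 3234790697) (nat_lit 228) (nat_lit 634807626) (nat_lit 304) (nat_lit 7224117202) (nat_lit 33) (nat_lit 5) (nat_lit 36) (nat_lit 5) (nat_lit 37) (nat_lit 5) (nat_lit 259) (nat_lit 242) (nat_lit 219)) (XT.lf (nat_lit 0) (nat_lit 7023157282) (nat_lit 304) (nat_lit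 458215909) (nat_lit 76) (nat_lit 4158395049) (nat_lit 33) (nat_lit 5) (nat_lit 37) (nat_lit 5) (nat_lit 34) (nat_lit 5) (nat_lit 260) (nat_lit 242) (nat_lit 218))) (XT.nd (nat_lit 78) (nat_lit 304) (nat_lit 0) (XT.lf (nat_lit 0) (nat_lit 7624315581) (nat_lit 228) (nat_lit 2817997752) (nat_lit 304) (nat_lit 1787119399) (nat_lit 30) (nat_lit 5) (nat_lit 33) (nat_lit 5) (nat_lit 34) (nat_lit 5) (nat_lit 261) (nat_lit 242) (nat_lit 217)) (XT.lf (nat_lit 0) (nat_lit 1213385762) (nat_lit 304) (nat_lit 9450871216) (nat_lit 76) (nat_lit 2202282987) (nat_lit 26) (nat_lit 5) (nat_lit 30) (nat_lit 5) (nat_lit 27) (nat_lit 5) (nat_lit 262) (nat_lit 242) (nat_lit 216)))) (XT.nd (nat_lit 156) (nat_lit 228) (nat_lit 0) (XT.nd (nat_lit 78) (nat_lit 152) (nat_lit 0) (XT.lf (nat_lit 0) (nat_lit 4414669434) (nat_lit 304) (nat_lit 1527737337) (nat_lit 76) (nat_lit 7610060988) (nat_lit 26) (nat_lit 5) (nat_lit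 30) (nat_lit 5) (nat_lit 27) (nat_lit 5) (nat_lit 263) (nat_lit 242) (nat_lit 215)) (XT.lf (nat_lit 0) (nat_lit 7127050431) (nat_lit 152) (nat_lit 757633402) (nat_lit 228) (nat_lit 6408403003) (nat_lit 24) (nat_lit 5) (nat_lit 26) (nat_lit 5) (nat_lit 27) (nat_lit 5) (nat_lit 264) (nat_lit 242) (nat_lit 214))) (XT.nd (nat_lit 78) (nat_lit 0) (nat_lit 0) (XT.lf (nat_lit 0) (nat_lit 1272617057) (nat_lit 228) (nat_lit 10388422078) (nat_lit 304) (nat_lit 3430894557) (nat_lit 21) (nat_lit 5) (nat_lit 24) (nat_lit 5) (nat_lit 25) (nat_lit 5) (nat_lit 265) (nat_lit 242) (nat_lit 213)) (XT.lf (nat_lit 0) (nat_lit 10505444704) (nat_lit 228) (nat_lit 5282697312) (nat_lit 304) (nat_lit 164498806) (nat_lit 21) (nat_lit 5) (nat_lit 24) (nat_lit 5) (nat_lit 25) (nat_lit 5) (nat_lit 266) (nat_lit 242) (nat_lit 212)))))) (XT.nd (nat_lit 624) (nat_lit 380) (nat_lit 0) (XT.nd (nat_lit 312) (nat_lit 304)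 (nat_lit 0) (XT.nd (nat_lit 156) (nat_lit 152) (nat_lit 0) (XT.nd (nat_lit 78) (nat_lit 0) (nat_lit 0) (XT.lf (nat_lit 0) (nat_lit 3231780084) (nat_lit 228) (nat_lit 13348359272) (nat_lit 76) (nat_lit 300968003) (nat_lit 18) (nat_lit 5) (nat_lit 21) (nat_lit 5) (nat_lit 19) (nat_lit 5) (nat_lit 267) (nat_lit 242) (nat_lit 211)) (XT.lf (nat_lit 0) (nat_lit 6999659493) (nat_lit 228) (nat_lit 4663138886) (nat_lit 76) (nat_lit 6215948868) (nat_lit 18) (nat_lit 5) (nat_lit 21) (nat_lit 5) (nat_lit 19) (nat_lit 5) (nat_lit 268) (nat_lit 242) (nat_lit 210))) (XT.nd (nat_lit 78) (nat_lit 0) (nat_lit 0) (XT.lf (nat_lit 0) (nat_lit 4761680177) (nat_lit 152) (nat_lit 6307619570) (nat_lit 228) (nat_lit 7887172735) (nat_lit 16) (nat_lit 5) (nat_lit 18) (nat_lit 5) (nat_lit 19) (nat_lit 5) (nat_lit 269) (nat_lit 242) (nat_lit 209)) (XT.lf (nat_lit 0) (nat_lit 15004058638) (nat_lit 152) (nat_lit 471543932)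 (nat_lit 228) (nat_lit 4644527747) (nat_lit 16) (nat_lit 5) (nat_lit 18) (nat_lit 5) (nat_lit 19) (nat_lit 5) (nat_lit 270) (nat_lit 242) (nat_lit 208)))) (XT.nd (nat_lit 156) (nat_lit 152) (nat_lit 0) (XT.nd (nat_lit 78) (nat_lit 76) (nat_lit 0) (XT.lf (nat_lit 0) (nat_lit 4648335821) (nat_lit 76) (nat_lit 15684275690) (nat_lit 152) (nat_lit 1039608384) (nat_lit 15) (nat_lit 5) (nat_lit 16) (nat_lit 5) (nat_lit 17) (nat_lit 4) (nat_lit 271) (nat_lit 242) (nat_lit 207)) (XT.lf (nat_lit 0) (nat_lit 2797619042) (nat_lit 152) (nat_lit 7493777937) (nat_lit 76) (nat_lit 12429309165) (nat_lit 14) (nat_lit 5) (nat_lit 16) (nat_lit 5) (nat_lit 15) (nat_lit 5) (nat_lit 272) (nat_lit 242) (nat_lit 206))) (XT.nd (nat_lit 78) (nat_lit 0) (nat_lit 0) (XT.lf (nat_lit 0) (nat_lit 2446261872) (nat_lit 152) (nat_lit 4439227474) (nat_lit 228) (nat_lit 17291928920) (nat_lit 12) (nat_lit 5) (nat_lit 14)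 (nat_lit 5) (nat_lit 15) (nat_lit 5) (nat_lit 273) (nat_lit 242) (nat_lit 205)) (XT.lf (nat_lit 0) (nat_lit 11406385564) (nat_lit 228) (nat_lit 12414409929) (nat_lit 76) (nat_lit 1924760459) (nat_lit 12) (nat_lit 5) (nat_lit 15) (nat_lit 5) (nat_lit 13) (nat_lit 4) (nat_lit 274) (nat_lit 242) (nat_lit 204))))) (XT.nd (nat_lit 312) (nat_lit 228) (nat_lit 0) (XT.nd (nat_lit 156) (nat_lit 76) (nat_lit 0) (XT.nd (nat_lit 78) (nat_lit 76) (nat_lit 0) (XT.lf (nat_lit 0) (nat_lit 16311908890) (nat_lit 228) (nat_lit 2508533932) (nat_lit 76) (nat_lit 8617728518) (nat_lit 12) (nat_lit 5) (nat_lit 15) (nat_lit 5) (nat_lit 13) (nat_lit 4) (nat_lit 275) (nat_lit 242) (nat_lit 203)) (XT.lf (nat_lit 0) (nat_lit 8382783282) (nat_lit 76) (nat_lit 13309915768) (nat_lit 152) (nat_lit 7569517194) (nat_lit 11) (nat_lit 5) (nat_lit 12) (nat_lit 5) (nat_lit 13) (nat_lit 4) (nat_lit 276) (nat_lit 242) (nat_lit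 202))) (XT.nd (nat_lit 78) (nat_lit 76) (nat_lit 0) (XT.lf (nat_lit 0) (nat_lit 20162928294) (nat_lit 76) (nat_lit 7339101932) (nat_lit 152) (nat_lit 3730400189) (nat_lit 11) (nat_lit 5) (nat_lit 12) (nat_lit 5) (nat_lit 13) (nat_lit 4) (nat_lit 277) (nat_lit 242) (nat_lit 201)) (XT.lf (nat_lit 0) (nat_lit 359469950) (nat_lit 152) (nat_lit 549544203) (nat_lit 76) (nat_lit 32453208163) (nat_lit 10) (nat_lit 5) (nat_lit 12) (nat_lit 5) (nat_lit 11) (nat_lit 5) (nat_lit 278) (nat_lit 242) (nat_lit 200)))) (XT.nd (nat_lit 156) (nat_lit 76) (nat_lit 0) (XT.nd (nat_lit 78) (nat_lit 0) (nat_lit 0) (XT.lf (nat_lit 0) (nat_lit 4877781542) (nat_lit 228) (nat_lit 24711258421) (nat_lit 76) (nat_lit 6058824680) (nat_lit 8) (nat_lit 5) (nat_lit 11) (nat_lit 5) (nat_lit 9) (nat_lit 4) (nat_lit 279) (nat_lit 242) (nat_lit 199)) (XT.lf (nat_lit 0) (nat_lit 9744395700) (nat_lit 228) (nat_lit 14832215186)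 (nat_lit 76) (nat_lit 13540518666) (nat_lit 8) (nat_lit 5) (nat_lit 11) (nat_lit 5) (nat_lit 9) (nat_lit 4) (nat_lit 280) (nat_lit 242) (nat_lit 198))) (XT.nd (nat_lit 78) (nat_lit 76) (nat_lit 0) (XT.lf (nat_lit 0) (nat_lit 14964950440) (nat_lit 228) (nat_lit 4220370368) (nat_lit 76) (nat_lit 21600488976) (nat_lit 8) (nat_lit 5) (nat_lit 11) (nat_lit 5) (nat_lit 9) (nat_lit 4) (nat_lit 281) (nat_lit 242) (nat_lit 197)) (XT.nd (nat_lit 78) (nat_lit 0) (nat_lit 0) (XT.lf (nat_lit 0) (nat_lit 7424801041) (nat_lit 76) (nat_lit 13261503291) (nat_lit 152) (nat_lit 22977619307) (nat_lit 7) (nat_lit 5) (nat_lit 8) (nat_lit 5) (nat_lit 9) (nat_lit 4) (nat_lit 282) (nat_lit 242) (nat_lit 196)) (XT.lf (nat_lit 0) (nat_lit 20101347890) (nat_lit 76) (nat_lit 6806399382) (nat_lit 152) (nat_lit 19862510059) (nat_lit 7) (nat_lit 5) (nat_lit 8) (nat_lit 5) (nat_lit 9) (nat_lit 4) (nat_lit 283) (nat_lit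 242) (nat_lit 195))))))))
noncomputable def xc55 : XT := (XT.nd (nat_lit 1326) (nat_lit 0) (nat_lit 0) (XT.nd (nat_lit 624) (nat_lit 76) (nat_lit 0) (XT.nd (nat_lit 312) (nat_lit 152) (nat_lit 0) (XT.nd (nat_lit 156) (nat_lit 76) (nat_lit 0) (XT.nd (nat_lit 78) (nat_lit 0) (nat_lit 0) (XT.lf (nat_lit 0) (nat_lit 33600368060) (nat_lit 152) (nat_lit 16384067818) (nat_lit 0) (nat_lit 142071836) (nat_lit 7) (nat_lit 5) (nat_lit 9) (nat_lit 4) (nat_lit 7) (nat_lit 4) (nat_lit 284) (nat_lit 242) (nat_lit 194)) (XT.lf (nat_lit 0) (nat_lit 40916208077) (nat_lit 152) (nat_lit 5436031924) (nat_lit 0) (nat_lit 7394704607) (nat_lit 7) (nat_lit 5) (nat_lit 9) (nat_lit 4) (nat_lit 7) (nat_lit 4) (nat_lit 285) (nat_lit 242) (nat_lit 193))) (XT.nd (nat_lit 78) (nat_lit 0) (nat_lit 0) (XT.lf (nat_lit 0) (nat_lit 6556181202) (nat_lit 76) (nat_lit 42338532639) (nat_lit 76) (nat_lit 8758503942) (nat_lit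 6) (nat_lit 4) (nat_lit 7) (nat_lit 5) (nat_lit 7) (nat_lit 4) (nat_lit 286) (nat_lit 242) (nat_lit 192)) (XT.lf (nat_lit 0) (nat_lit 19662189673) (nat_lit 76) (nat_lit 37920269933) (nat_lit 76) (nat_lit 4286051211) (nat_lit 6) (nat_lit 4) (nat_lit 7) (nat_lit 5) (nat_lit 7) (nat_lit 4) (nat_lit 287) (nat_lit 242) (nat_lit 191)))) (XT.nd (nat_lit 156) (nat_lit 76) (nat_lit 0) (XT.nd (nat_lit 78) (nat_lit 0) (nat_lit 0) (XT.lf (nat_lit 0) (nat_lit 504385977) (nat_lit 152) (nat_lit 32650403416) (nat_lit 76) (nat_lit 33266990960) (nat_lit 5) (nat_lit 5) (nat_lit 7) (nat_lit 5) (nat_lit 6) (nat_lit 4) (nat_lit 288) (nat_lit 242) (nat_lit 190)) (XT.lf (nat_lit 0) (nat_lit 5509168085) (nat_lit 152) (nat_lit 22437059307) (nat_lit 76) (nat_lit 43390561163) (nat_lit 5) (nat_lit 5) (nat_lit 7) (nat_lit 5) (nat_lit 6) (nat_lit 4) (nat_lit 289) (nat_lit 242) (nat_lit 189))) (XT.nd (nat_lit 78)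 (nat_lit 76) (nat_lit 0) (XT.lf (nat_lit 0) (nat_lit 10895133487) (nat_lit 152) (nat_lit 11438848023) (nat_lit 76) (nat_lit 54312025750) (nat_lit 5) (nat_lit 5) (nat_lit 7) (nat_lit 5) (nat_lit 6) (nat_lit 4) (nat_lit 290) (nat_lit 242) (nat_lit 188)) (XT.lf (nat_lit 0) (nat_lit 422941797) (nat_lit 76) (nat_lit 16277860522) (nat_lit 152) (nat_lit 65679766019) (nat_lit 4) (nat_lit 5) (nat_lit 5) (nat_lit 5) (nat_lit 6) (nat_lit 4) (nat_lit 291) (nat_lit 242) (nat_lit 187))))) (XT.nd (nat_lit 312) (nat_lit 76) (nat_lit 0) (XT.nd (nat_lit 156) (nat_lit 0) (nat_lit 0) (XT.nd (nat_lit 78) (nat_lit 0) (nat_lit 0) (XT.lf (nat_lit 0) (nat_lit 13613632964) (nat_lit 76) (nat_lit 9539643495) (nat_lit 152) (nat_lit 65411543020) (nat_lit 4) (nat_lit 5) (nat_lit 5) (nat_lit 5) (nat_lit 6) (nat_lit 4) (nat_lit 292) (nat_lit 242) (nat_lit 186)) (XT.lf (nat_lit 0) (nat_lit 27833172559) (nat_lit 76)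 (nat_lit 2273122682) (nat_lit 152) (nat_lit 65138337734) (nat_lit 4) (nat_lit 5) (nat_lit 5) (nat_lit 5) (nat_lit 6) (nat_lit 4) (nat_lit 293) (nat_lit 242) (nat_lit 185))) (XT.nd (nat_lit 78) (nat_lit 0) (nat_lit 0) (XT.lf (nat_lit 0) (nat_lit 37687943282) (nat_lit 152) (nat_lit 59380649926) (nat_lit 0) (nat_lit 5386655619) (nat_lit 4) (nat_lit 5) (nat_lit 6) (nat_lit 4) (nat_lit 4) (nat_lit 4) (nat_lit 294) (nat_lit 242) (nat_lit 184)) (XT.lf (nat_lit 0) (nat_lit 45900888052) (nat_lit 152) (nat_lit 50768904244) (nat_lit 0) (nat_lit 13571717357) (nat_lit 4) (nat_lit 5) (nat_lit 6) (nat_lit 4) (nat_lit 4) (nat_lit 4) (nat_lit 295) (nat_lit 242) (nat_lit 183)))) (XT.nd (nat_lit 156) (nat_lit 76) (nat_lit 0) (XT.nd (nat_lit 78) (nat_lit 0) (nat_lit 0) (XT.lf (nat_lit 0) (nat_lit 54758309039) (nat_lit 152) (nat_lit 41489700987) (nat_lit 0) (nat_lit 22403320721) (nat_lit 4) (nat_lit 5)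 (nat_lit 6) (nat_lit 4) (nat_lit 4) (nat_lit 4) (nat_lit 296) (nat_lit 242) (nat_lit 182)) (XT.lf (nat_lit 0) (nat_lit 64312694664) (nat_lit 152) (nat_lit 31488052284) (nat_lit 0) (nat_lit 31933801139) (nat_lit 4) (nat_lit 5) (nat_lit 6) (nat_lit 4) (nat_lit 4) (nat_lit 4) (nat_lit 297) (nat_lit 242) (nat_lit 181))) (XT.nd (nat_lit 78) (nat_lit 76) (nat_lit 0) (XT.lf (nat_lit 0) (nat_lit 74620663507) (nat_lit 152) (nat_lit 20704689106) (nat_lit 0) (nat_lit 42219635532) (nat_lit 4) (nat_lit 5) (nat_lit 6) (nat_lit 4) (nat_lit 4) (nat_lit 4) (nat_lit 298) (nat_lit 242) (nat_lit 180)) (XT.nd (nat_lit 78) (nat_lit 76) (nat_lit 0) (XT.lf (nat_lit 0) (nat_lit 85743299829) (nat_lit 152) (nat_lit 9075710042) (nat_lit 0) (nat_lit 53321776993) (nat_lit 4) (nat_lit 5) (nat_lit 6) (nat_lit 4) (nat_lit 4) (nat_lit 4) (nat_lit 299) (nat_lit 242) (nat_lit 179)) (XT.lf (nat_lit 0) (nat_lit 3582458418)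 (nat_lit 76) (nat_lit 94219989346) (nat_lit 76) (nat_lit 61779489786) (nat_lit 3) (nat_lit 4) (nat_lit 4) (nat_lit 5) (nat_lit 4) (nat_lit 4) (nat_lit 300) (nat_lit 242) (nat_lit 178))))))) (XT.nd (nat_lit 624) (nat_lit 0) (nat_lit 0) (XT.nd (nat_lit 312) (nat_lit 0) (nat_lit 0) (XT.nd (nat_lit 156) (nat_lit 0) (nat_lit 0) (XT.nd (nat_lit 78) (nat_lit 0) (nat_lit 0) (XT.lf (nat_lit 0) (nat_lit 17562267277) (nat_lit 76) (nat_lit 93413369767) (nat_lit 76) (nat_lit 60955299166) (nat_lit 3) (nat_lit 4) (nat_lit 4) (nat_lit 5) (nat_lit 4) (nat_lit 4) (nat_lit 301) (nat_lit 242) (nat_lit 177)) (XT.lf (nat_lit 0) (nat_lit 32646475884) (nat_lit 76) (nat_lit 92548072706) (nat_lit 76) (nat_lit 60073732624) (nat_lit 3) (nat_lit 4) (nat_lit 4) (nat_lit 5) (nat_lit 4) (nat_lit 4) (nat_lit 302) (nat_lit 242) (nat_lit 176))) (XT.nd (nat_lit 78) (nat_lit 0) (nat_lit 0) (XT.lf (nat_lit 0) (nat_lit 48924472143)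 (nat_lit 76) (nat_lit 91618970479) (nat_lit 76) (nat_lit 59129566062) (nat_lit 3) (nat_lit 4) (nat_lit 4) (nat_lit 5) (nat_lit 4) (nat_lit 4) (nat_lit 303) (nat_lit 242) (nat_lit 175)) (XT.lf (nat_lit 0) (nat_lit 66492718252) (nat_lit 76) (nat_lit 90620557294) (nat_lit 76) (nat_lit 58117204418) (nat_lit 3) (nat_lit 4) (nat_lit 4) (nat_lit 5) (nat_lit 4) (nat_lit 4) (nat_lit 304) (nat_lit 242) (nat_lit 174)))) (XT.nd (nat_lit 156) (nat_lit 0) (nat_lit 0) (XT.nd (nat_lit 78) (nat_lit 0) (nat_lit 0) (XT.lf (nat_lit 0) (nat_lit 85455322338) (nat_lit 76) (nat_lit 89546916629) (nat_lit 76) (nat_lit 57030648514) (nat_lit 3) (nat_lit 4) (nat_lit 4) (nat_lit 5) (nat_lit 4) (nat_lit 4) (nat_lit 305) (nat_lit 242) (nat_lit 173)) (XT.lf (nat_lit 0) (nat_lit 105924655387) (nat_lit 76) (nat_lit 88391686168) (nat_lit 76) (nat_lit 55863459498) (nat_lit 3) (nat_lit 4) (nat_lit 4) (nat_lit 5) (nat_lit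 4) (nat_lit 4) (nat_lit 306) (nat_lit 242) (nat_lit 172))) (XT.nd (nat_lit 78) (nat_lit 0) (nat_lit 0) (XT.lf (nat_lit 0) (nat_lit 128022017151) (nat_lit 76) (nat_lit 87148020101) (nat_lit 76) (nat_lit 54608720695) (nat_lit 3) (nat_lit 4) (nat_lit 4) (nat_lit 5) (nat_lit 4) (nat_lit 4) (nat_lit 307) (nat_lit 242) (nat_lit 171)) (XT.lf (nat_lit 0) (nat_lit 151878354959) (nat_lit 76) (nat_lit 85808548556) (nat_lit 76) (nat_lit 53258996617) (nat_lit 3) (nat_lit 4) (nat_lit 4) (nat_lit 5) (nat_lit 4) (nat_lit 4) (nat_lit 308) (nat_lit 242) (nat_lit 170))))) (XT.nd (nat_lit 312) (nat_lit 0) (nat_lit 0) (XT.nd (nat_lit 156) (nat_lit 0) (nat_lit 0) (XT.nd (nat_lit 78) (nat_lit 0) (nat_lit 0) (XT.lf (nat_lit 0) (nat_lit 177635039702) (nat_lit 76) (nat_lit 84365333923) (nat_lit 76) (nat_lit 51806288897) (nat_lit 3) (nat_lit 4) (nat_lit 4) (nat_lit 5) (nat_lit 4) (nat_lit 4) (nat_lit 309) (nat_lit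 242) (nat_lit 169)) (XT.lf (nat_lit 0) (nat_lit 205444703585) (nat_lit 76) (nat_lit 82809823819) (nat_lit 76) (nat_lit 50241988899) (nat_lit 3) (nat_lit 4) (nat_lit 4) (nat_lit 5) (nat_lit 4) (nat_lit 4) (nat_lit 310) (nat_lit 242) (nat_lit 168))) (XT.nd (nat_lit 78) (nat_lit 0) (nat_lit 0) (XT.lf (nat_lit 0) (nat_lit 235472144616) (nat_lit 76) (nat_lit 81132800407) (nat_lit 76) (nat_lit 48556826695) (nat_lit 3) (nat_lit 4) (nat_lit 4) (nat_lit 5) (nat_lit 4) (nat_lit 4) (nat_lit 311) (nat_lit 242) (nat_lit 167)) (XT.lf (nat_lit 0) (nat_lit 267895303187) (nat_lit 76) (nat_lit 79324325769) (nat_lit 76) (nat_lit 46740816139) (nat_lit 3) (nat_lit 4) (nat_lit 4) (nat_lit 5) (nat_lit 4) (nat_lit 4) (nat_lit 312) (nat_lit 242) (nat_lit 166)))) (XT.nd (nat_lit 156) (nat_lit 0) (nat_lit 0) (XT.nd (nat_lit 78) (nat_lit 0) (nat_lit 0) (XT.lf (nat_lit 0) (nat_lit 302906316535) (nat_lit 76) (nat_lit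 77373683020) (nat_lit 76) (nat_lit 44783195689) (nat_lit 3) (nat_lit 4) (nat_lit 4) (nat_lit 5) (nat_lit 4) (nat_lit 4) (nat_lit 313) (nat_lit 242) (nat_lit 165)) (XT.lf (nat_lit 0) (nat_lit 340712657329) (nat_lit 76) (nat_lit 75269312795) (nat_lit 76) (nat_lit 42672364628) (nat_lit 3) (nat_lit 4) (nat_lit 4) (nat_lit 5) (nat_lit 4) (nat_lit 4) (nat_lit 314) (nat_lit 242) (nat_lit 164))) (XT.nd (nat_lit 78) (nat_lit 0) (nat_lit 0) (XT.lf (nat_lit 0) (nat_lit 381538363147) (nat_lit 76) (nat_lit 72998744752) (nat_lit 76) (nat_lit 40395814330) (nat_lit 3) (nat_lit 4) (nat_lit 4) (nat_lit 5) (nat_lit 4) (nat_lit 4) (nat_lit 315) (nat_lit 242) (nat_lit 163)) (XT.nd (nat_lit 78) (nat_lit 0) (nat_lit 0) (XT.lf (nat_lit 0) (nat_lit 425625364096) (nat_lit 76) (nat_lit 70548523672) (nat_lit 76) (nat_lit 37940054126) (nat_lit 3) (nat_lit 4) (nat_lit 4) (nat_lit 5) (nat_lit 4) (nat_lit 4) (nat_lit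 316) (nat_lit 242) (nat_lit 162)) (XT.lf (nat_lit 0) (nat_lit 473234916477) (nat_lit 76) (nat_lit 67904129727) (nat_lit 76) (nat_lit 35290531362) (nat_lit 3) (nat_lit 4) (nat_lit 4) (nat_lit 5) (nat_lit 4) (nat_lit 4) (nat_lit 317) (nat_lit 242) (nat_lit 161))))))))
noncomputable def xc56 : XT := (XT.nd (nat_lit 32760) (nat_lit 0) (nat_lit 836) (XT.nd (nat_lit 32136) (nat_lit 0) (nat_lit 3116) (XT.nd (nat_lit 31824) (nat_lit 0) (nat_lit 5548) (XT.nd (nat_lit 31668) (nat_lit 0) (nat_lit 6308) (XT.nd (nat_lit 78) (nat_lit 0) (nat_lit 0) (XT.lf (nat_lit 0) (nat_lit 524649150973) (nat_lit 76) (nat_lit 65049892435) (nat_lit 76) (nat_lit 32431545163) (nat_lit 3) (nat_lit 4) (nat_lit 4) (nat_lit 5) (nat_lit 4) (nat_lit 4) (nat_lit 318) (nat_lit 242) (nat_lit 160)) (XT.lf (nat_lit 0) (nat_lit 580172744528) (nat_lit 76) (nat_lit 61968897797) (nat_lit 76) (nat_lit 29346153389) (nat_lit 3) (nat_lit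 4) (nat_lit 4) (nat_lit 5) (nat_lit 4) (nat_lit 4) (nat_lit 319) (nat_lit 242) (nat_lit 159))) (XT.nd (nat_lit 78) (nat_lit 0) (nat_lit 0) (XT.lf (nat_lit 0) (nat_lit 816472591) (nat_lit 380) (nat_lit 1271445834) (nat_lit 380) (nat_lit 1271445834) (nat_lit 86) (nat_lit 3) (nat_lit 91) (nat_lit 3) (nat_lit 91) (nat_lit 5) (nat_lit 243) (nat_lit 243) (nat_lit 234)) (XT.lf (nat_lit 76) (nat_lit 1844098585) (nat_lit 0) (nat_lit 2707539304) (nat_lit 380) (nat_lit 2269167288) (nat_lit 87) (nat_lit 5) (nat_lit 86) (nat_lit 3) (nat_lit 91) (nat_lit 5) (nat_lit 244) (nat_lit 243) (nat_lit 233)))) (XT.nd (nat_lit 156) (nat_lit 380) (nat_lit 0) (XT.nd (nat_lit 78) (nat_lit 0) (nat_lit 76) (XT.lf (nat_lit 0) (nat_lit 501062608) (nat_lit 380) (nat_lit 435220735) (nat_lit 456) (nat_lit 6008797617) (nat_lit 81) (nat_lit 5) (nat_lit 86) (nat_lit 3) (nat_lit 87) (nat_lit 5) (nat_lit 245) (nat_lit 243)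 (nat_lit 232)) (XT.lf (nat_lit 0) (nat_lit 3231908594) (nat_lit 380) (nat_lit 2689769740) (nat_lit 456) (nat_lit 1166953336) (nat_lit 82) (nat_lit 5) (nat_lit 87) (nat_lit 5) (nat_lit 88) (nat_lit 5) (nat_lit 246) (nat_lit 243) (nat_lit 231))) (XT.nd (nat_lit 78) (nat_lit 456) (nat_lit 0) (XT.lf (nat_lit 76) (nat_lit 2285505494) (nat_lit 0) (nat_lit 3703888231) (nat_lit 456) (nat_lit 1265825017) (nat_lit 83) (nat_lit 5) (nat_lit 82) (nat_lit 5) (nat_lit 88) (nat_lit 5) (nat_lit 247) (nat_lit 243) (nat_lit 230)) (XT.lf (nat_lit 76) (nat_lit 135481199) (nat_lit 0) (nat_lit 1157092999) (nat_lit 532) (nat_lit 6152627848) (nat_lit 77) (nat_lit 5) (nat_lit 76) (nat_lit 5) (nat_lit 83) (nat_lit 5) (nat_lit 248) (nat_lit 243) (nat_lit 229))))) (XT.nd (nat_lit 312) (nat_lit 1444) (nat_lit 0) (XT.nd (nat_lit 156) (nat_lit 608) (nat_lit 0) (XT.nd (nat_lit 78) (nat_lit 456) (nat_lit 0) (XT.lf (nat_lit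 0) (nat_lit 3900655087) (nat_lit 456) (nat_lit 2040031449) (nat_lit 76) (nat_lit 1715793097) (nat_lit 77) (nat_lit 5) (nat_lit 83) (nat_lit 5) (nat_lit 78) (nat_lit 5) (nat_lit 249) (nat_lit 243) (nat_lit 228)) (XT.lf (nat_lit 0) (nat_lit 3586424730) (nat_lit 456) (nat_lit 2998961322) (nat_lit 532) (nat_lit 1307355680) (nat_lit 71) (nat_lit 5) (nat_lit 77) (nat_lit 5) (nat_lit 78) (nat_lit 5) (nat_lit 250) (nat_lit 243) (nat_lit 227))) (XT.nd (nat_lit 78) (nat_lit 0) (nat_lit 0) (XT.lf (nat_lit 0) (nat_lit 1158656271) (nat_lit 608) (nat_lit 6706085818) (nat_lit 76) (nat_lit 290203425) (nat_lit 63) (nat_lit 5) (nat_lit 71) (nat_lit 5) (nat_lit 64) (nat_lit 5) (nat_lit 251) (nat_lit 243) (nat_lit 226)) (XT.lf (nat_lit 0) (nat_lit 3717379154) (nat_lit 608) (nat_lit 855064397) (nat_lit 76) (nat_lit 3868759246) (nat_lit 63) (nat_lit 5) (nat_lit 71) (nat_lit 5) (nat_lit 64) (nat_lit 5) (nat_lit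 252) (nat_lit 243) (nat_lit 225)))) (XT.nd (nat_lit 156) (nat_lit 304) (nat_lit 0) (XT.nd (nat_lit 78) (nat_lit 532) (nat_lit 0) (XT.lf (nat_lit 0) (nat_lit 5486803409) (nat_lit 608) (nat_lit 907262734) (nat_lit 684) (nat_lit 2361752010) (nat_lit 55) (nat_lit 5) (nat_lit 63) (nat_lit 5) (nat_lit 64) (nat_lit 5) (nat_lit 253) (nat_lit 243) (nat_lit 224)) (XT.lf (nat_lit 0) (nat_lit 132010473) (nat_lit 532) (nat_lit 5931557665) (nat_lit 76) (nat_lit 3035436028) (nat_lit 48) (nat_lit 5) (nat_lit 55) (nat_lit 5) (nat_lit 49) (nat_lit 5) (nat_lit 254) (nat_lit 243) (nat_lit 223))) (XT.nd (nat_lit 78) (nat_lit 0) (nat_lit 0) (XT.lf (nat_lit 0) (nat_lit 576275223) (nat_lit 304) (nat_lit 2094097847) (nat_lit 380) (nat_lit 6801859110) (nat_lit 44) (nat_lit 5) (nat_lit 48) (nat_lit 5) (nat_lit 49) (nat_lit 5) (nat_lit 255) (nat_lit 243) (nat_lit 222)) (XT.lf (nat_lit 0) (nat_lit 5404795345) (nat_lit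 380) (nat_lit 2245810016) (nat_lit 76) (nat_lit 2225910902) (nat_lit 44) (nat_lit 5) (nat_lit 49) (nat_lit 5) (nat_lit 45) (nat_lit 5) (nat_lit 256) (nat_lit 243) (nat_lit 221)))))) (XT.nd (nat_lit 624) (nat_lit 760) (nat_lit 0) (XT.nd (nat_lit 312) (nat_lit 684) (nat_lit 0) (XT.nd (nat_lit 156) (nat_lit 228) (nat_lit 0) (XT.nd (nat_lit 78) (nat_lit 304) (nat_lit 0) (XT.lf (nat_lit 0) (nat_lit 4913605429) (nat_lit 304) (nat_lit 3420961015) (nat_lit 380) (nat_lit 1980531471) (nat_lit 40) (nat_lit 5) (nat_lit 44) (nat_lit 5) (nat_lit 45) (nat_lit 5) (nat_lit 257) (nat_lit 243) (nat_lit 220)) (XT.lf (nat_lit 0) (nat_lit 644422880) (nat_lit 304) (nat_lit 8967993912) (nat_lit 76) (nat_lit 1178627339) (nat_lit 36) (nat_lit 5) (nat_lit 40) (nat_lit 5) (nat_lit 37) (nat_lit 5) (nat_lit 258) (nat_lit 243) (nat_lit 219))) (XT.nd (nat_lit 78) (nat_lit 228) (nat_lit 0) (XT.lf (nat_lit 0) (nat_lit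 3441165997) (nat_lit 304) (nat_lit 1718279838) (nat_lit 76) (nat_lit 6143078425) (nat_lit 36) (nat_lit 5) (nat_lit 40) (nat_lit 5) (nat_lit 37) (nat_lit 5) (nat_lit 259) (nat_lit 243) (nat_lit 218)) (XT.lf (nat_lit 0) (nat_lit 6175990208) (nat_lit 228) (nat_lit 268135005) (nat_lit 304) (nat_lit 5412266931) (nat_lit 33) (nat_lit 5) (nat_lit 36) (nat_lit 5) (nat_lit 37) (nat_lit 5) (nat_lit 260) (nat_lit 243) (nat_lit 217)))) (XT.nd (nat_lit 156) (nat_lit 380) (nat_lit 0) (XT.nd (nat_lit 78) (nat_lit 76) (nat_lit 0) (XT.lf (nat_lit 0) (nat_lit 2167767432) (nat_lit 228) (nat_lit 7554306526) (nat_lit 304) (nat_lit 2731307101) (nat_lit 30) (nat_lit 5) (nat_lit 33) (nat_lit 5) (nat_lit 34) (nat_lit 5) (nat_lit 261) (nat_lit 243) (nat_lit 216)) (XT.lf (nat_lit 0) (nat_lit 160003616) (nat_lit 304) (nat_lit 2386319181) (nat_lit 76) (nat_lit 10552106137) (nat_lit 29) (nat_lit 5) (nat_lit 33)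 (nat_lit 5) (nat_lit 30) (nat_lit 5) (nat_lit 262) (nat_lit 243) (nat_lit 215))) (XT.nd (nat_lit 78) (nat_lit 152) (nat_lit 0) (XT.lf (nat_lit 0) (nat_lit 3234986491) (nat_lit 304) (nat_lit 7664702544) (nat_lit 76) (nat_lit 2891198339) (nat_lit 26) (nat_lit 5) (nat_lit 30) (nat_lit 5) (nat_lit 27) (nat_lit 5) (nat_lit 263) (nat_lit 243) (nat_lit 214)) (XT.lf (nat_lit 0) (nat_lit 727244456) (nat_lit 152) (nat_lit 5833924957) (nat_lit 228) (nat_lit 7977728247) (nat_lit 24) (nat_lit 5) (nat_lit 26) (nat_lit 5) (nat_lit 27) (nat_lit 5) (nat_lit 264) (nat_lit 243) (nat_lit 213))))) (XT.nd (nat_lit 312) (nat_lit 304) (nat_lit 0) (XT.nd (nat_lit 156) (nat_lit 228) (nat_lit 0) (XT.nd (nat_lit 78) (nat_lit 228) (nat_lit 0) (XT.lf (nat_lit 0) (nat_lit 9948840196) (nat_lit 152) (nat_lit 251746699) (nat_lit 228) (nat_lit 5144189360) (nat_lit 24) (nat_lit 5) (nat_lit 26) (nat_lit 5) (nat_lit 27)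 (nat_lit 5) (nat_lit 265) (nat_lit 243) (nat_lit 212)) (XT.lf (nat_lit 0) (nat_lit 3607508864) (nat_lit 228) (nat_lit 10589771565) (nat_lit 304) (nat_lit 2014894579) (nat_lit 21) (nat_lit 5) (nat_lit 24) (nat_lit 5) (nat_lit 25) (nat_lit 5) (nat_lit 266) (nat_lit 243) (nat_lit 211))) (XT.nd (nat_lit 78) (nat_lit 152) (nat_lit 0) (XT.lf (nat_lit 0) (nat_lit 1343181085) (nat_lit 304) (nat_lit 3756306554) (nat_lit 76) (nat_lit 12047620701) (nat_lit 20) (nat_lit 5) (nat_lit 24) (nat_lit 5) (nat_lit 21) (nat_lit 5) (nat_lit 267) (nat_lit 243) (nat_lit 210)) (XT.lf (nat_lit 0) (nat_lit 4934281386) (nat_lit 228) (nat_lit 12316555313) (nat_lit 76) (nat_lit 902890235) (nat_lit 18) (nat_lit 5) (nat_lit 21) (nat_lit 5) (nat_lit 19) (nat_lit 5) (nat_lit 268) (nat_lit 243) (nat_lit 209)))) (XT.nd (nat_lit 156) (nat_lit 152) (nat_lit 0) (XT.nd (nat_lit 78) (nat_lit 152) (nat_lit 0) (XT.lf (nat_lit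 0) (nat_lit 8896631229) (nat_lit 228) (nat_lit 3092048608) (nat_lit 76) (nat_lit 7248266251) (nat_lit 18) (nat_lit 5) (nat_lit 21) (nat_lit 5) (nat_lit 19) (nat_lit 5) (nat_lit 269) (nat_lit 243) (nat_lit 208)) (XT.lf (nat_lit 0) (nat_lit 7002265965) (nat_lit 152) (nat_lit 6219574147) (nat_lit 228) (nat_lit 7182938321) (nat_lit 16) (nat_lit 5) (nat_lit 18) (nat_lit 5) (nat_lit 19) (nat_lit 5) (nat_lit 270) (nat_lit 243) (nat_lit 207))) (XT.nd (nat_lit 78) (nat_lit 152) (nat_lit 0) (XT.lf (nat_lit 0) (nat_lit 17887412082) (nat_lit 228) (nat_lit 3740915382) (nat_lit 76) (nat_lit 38223335) (nat_lit 16) (nat_lit 5) (nat_lit 19) (nat_lit 5) (nat_lit 17) (nat_lit 4) (nat_lit 271) (nat_lit 243) (nat_lit 206)) (XT.nd (nat_lit 78) (nat_lit 0) (nat_lit 0) (XT.lf (nat_lit 0) (nat_lit 56274863) (nat_lit 152) (nat_lit 16303211807) (nat_lit 76) (nat_lit 6662261591) (nat_lit 14) (nat_lit 5) (nat_lit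 16) (nat_lit 5) (nat_lit 15) (nat_lit 5) (nat_lit 272) (nat_lit 243) (nat_lit 205)) (XT.lf (nat_lit 0) (nat_lit 4079869345) (nat_lit 152) (nat_lit 6481193785) (nat_lit 76) (nat_lit 13920701625) (nat_lit 14) (nat_lit 5) (nat_lit 16) (nat_lit 5) (nat_lit 15) (nat_lit 5) (nat_lit 273) (nat_lit 243) (nat_lit 204))))))))
noncomputable def xc57 : XT := (XT.nd (nat_lit 1248) (nat_lit 152) (nat_lit 0) (XT.nd (nat_lit 624) (nat_lit 228) (nat_lit 0) (XT.nd (nat_lit 312) (nat_lit 228) (nat_lit 0) (XT.nd (nat_lit 156) (nat_lit 76) (nat_lit 0) (XT.nd (nat_lit 78) (nat_lit 0) (nat_lit 0) (XT.lf (nat_lit 0) (nat_lit 4183989898) (nat_lit 152) (nat_lit 4256451718) (nat_lit 228) (nat_lit 17617560897) (nat_lit 12) (nat_lit 5) (nat_lit 14) (nat_lit 5) (nat_lit 15) (nat_lit 5) (nat_lit 274) (nat_lit 243) (nat_lit 203)) (XT.lf (nat_lit 0) (nat_lit 13256407027) (nat_lit 228) (nat_lit 11937897958) (nat_lit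 76) (nat_lit 2560868471) (nat_lit 12) (nat_lit 5) (nat_lit 15) (nat_lit 5) (nat_lit 13) (nat_lit 4) (nat_lit 275) (nat_lit 243) (nat_lit 202))) (XT.nd (nat_lit 78) (nat_lit 76) (nat_lit 0) (XT.lf (nat_lit 0) (nat_lit 18484926988) (nat_lit 228) (nat_lit 1348415938) (nat_lit 76) (nat_lit 9753560850) (nat_lit 12) (nat_lit 5) (nat_lit 15) (nat_lit 5) (nat_lit 13) (nat_lit 4) (nat_lit 276) (nat_lit 243) (nat_lit 201)) (XT.lf (nat_lit 0) (nat_lit 10355067913) (nat_lit 76) (nat_lit 13897133899) (nat_lit 152) (nat_lit 7307085535) (nat_lit 11) (nat_lit 5) (nat_lit 12) (nat_lit 5) (nat_lit 13) (nat_lit 4) (nat_lit 277) (nat_lit 243) (nat_lit 200)))) (XT.nd (nat_lit 156) (nat_lit 0) (nat_lit 0) (XT.nd (nat_lit 78) (nat_lit 228) (nat_lit 0) (XT.lf (nat_lit 0) (nat_lit 22981205121) (nat_lit 76) (nat_lit 7484030892) (nat_lit 152) (nat_lit 3225134950) (nat_lit 11) (nat_lit 5) (nat_lit 12) (nat_lit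 5) (nat_lit 13) (nat_lit 4) (nat_lit 278) (nat_lit 243) (nat_lit 199)) (XT.lf (nat_lit 0) (nat_lit 566616873) (nat_lit 152) (nat_lit 550803374) (nat_lit 228) (nat_lit 34875114120) (nat_lit 8) (nat_lit 5) (nat_lit 10) (nat_lit 5) (nat_lit 11) (nat_lit 5) (nat_lit 279) (nat_lit 243) (nat_lit 198))) (XT.nd (nat_lit 78) (nat_lit 0) (nat_lit 0) (XT.lf (nat_lit 0) (nat_lit 5958421095) (nat_lit 228) (nat_lit 25565929423) (nat_lit 76) (nat_lit 6938779761) (nat_lit 8) (nat_lit 5) (nat_lit 11) (nat_lit 5) (nat_lit 9) (nat_lit 4) (nat_lit 280) (nat_lit 243) (nat_lit 197)) (XT.lf (nat_lit 0) (nat_lit 11163222384) (nat_lit 228) (nat_lit 14979690853) (nat_lit 76) (nat_lit 14989731554) (nat_lit 8) (nat_lit 5) (nat_lit 11) (nat_lit 5) (nat_lit 9) (nat_lit 4) (nat_lit 281) (nat_lit 243) (nat_lit 196))))) (XT.nd (nat_lit 312) (nat_lit 152) (nat_lit 0) (XT.nd (nat_lit 156) (nat_lit 0) (nat_lit 0) (XT.nd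 (nat_lit 78) (nat_lit 76) (nat_lit 0) (XT.lf (nat_lit 0) (nat_lit 16754067796) (nat_lit 228) (nat_lit 3595868935) (nat_lit 76) (nat_lit 23667390496) (nat_lit 8) (nat_lit 5) (nat_lit 11) (nat_lit 5) (nat_lit 9) (nat_lit 4) (nat_lit 282) (nat_lit 243) (nat_lit 195)) (XT.lf (nat_lit 0) (nat_lit 8939103143) (nat_lit 76) (nat_lit 13964549577) (nat_lit 152) (nat_lit 24223641059) (nat_lit 7) (nat_lit 5) (nat_lit 8) (nat_lit 5) (nat_lit 9) (nat_lit 4) (nat_lit 283) (nat_lit 243) (nat_lit 194))) (XT.nd (nat_lit 78) (nat_lit 0) (nat_lit 0) (XT.lf (nat_lit 0) (nat_lit 22561602035) (nat_lit 76) (nat_lit 7019546538) (nat_lit 152) (nat_lit 20903188834) (nat_lit 7) (nat_lit 5) (nat_lit 8) (nat_lit 5) (nat_lit 9) (nat_lit 4) (nat_lit 284) (nat_lit 243) (nat_lit 193)) (XT.lf (nat_lit 0) (nat_lit 36775392924) (nat_lit 152) (nat_lit 16885058715) (nat_lit 0) (nat_lit 450436704) (nat_lit 7) (nat_lit 5)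 (nat_lit 9) (nat_lit 4) (nat_lit 7) (nat_lit 4) (nat_lit 285) (nat_lit 243) (nat_lit 192)))) (XT.nd (nat_lit 156) (nat_lit 76) (nat_lit 0) (XT.nd (nat_lit 78) (nat_lit 76) (nat_lit 0) (XT.lf (nat_lit 0) (nat_lit 44640426407) (nat_lit 152) (nat_lit 5121160285) (nat_lit 0) (nat_lit 8261280162) (nat_lit 7) (nat_lit 5) (nat_lit 9) (nat_lit 4) (nat_lit 7) (nat_lit 4) (nat_lit 286) (nat_lit 243) (nat_lit 191)) (XT.lf (nat_lit 0) (nat_lit 7797846487) (nat_lit 76) (nat_lit 45437161585) (nat_lit 76) (nat_lit 9007839391) (nat_lit 6) (nat_lit 4) (nat_lit 7) (nat_lit 5) (nat_lit 7) (nat_lit 4) (nat_lit 287) (nat_lit 243) (nat_lit 190))) (XT.nd (nat_lit 78) (nat_lit 76) (nat_lit 0) (XT.lf (nat_lit 0) (nat_lit 21899211874) (nat_lit 76) (nat_lit 40686804800) (nat_lit 76) (nat_lit 4211023394) (nat_lit 6) (nat_lit 4) (nat_lit 7) (nat_lit 5) (nat_lit 7) (nat_lit 4) (nat_lit 288) (nat_lit 243) (nat_lit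 189)) (XT.lf (nat_lit 0) (nat_lit 919307339) (nat_lit 152) (nat_lit 34634219148) (nat_lit 76) (nat_lit 36162294579) (nat_lit 5) (nat_lit 5) (nat_lit 7) (nat_lit 5) (nat_lit 6) (nat_lit 4) (nat_lit 289) (nat_lit 243) (nat_lit 188)))))) (XT.nd (nat_lit 624) (nat_lit 76) (nat_lit 0) (XT.nd (nat_lit 312) (nat_lit 0) (nat_lit 0) (XT.nd (nat_lit 156) (nat_lit 76) (nat_lit 0) (XT.nd (nat_lit 78) (nat_lit 0) (nat_lit 0) (XT.lf (nat_lit 0) (nat_lit 6296726055) (nat_lit 152) (nat_lit 23650342068) (nat_lit 76) (nat_lit 47078421188) (nat_lit 5) (nat_lit 5) (nat_lit 7) (nat_lit 5) (nat_lit 6) (nat_lit 4) (nat_lit 290) (nat_lit 243) (nat_lit 187)) (XT.lf (nat_lit 0) (nat_lit 12087877982) (nat_lit 152) (nat_lit 11815361436) (nat_lit 76) (nat_lit 58857557376) (nat_lit 5) (nat_lit 5) (nat_lit 7) (nat_lit 5) (nat_lit 6) (nat_lit 4) (nat_lit 291) (nat_lit 243) (nat_lit 186))) (XT.nd (nat_lit 78) (nat_lit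 0) (nat_lit 0) (XT.lf (nat_lit 0) (nat_lit 971964912) (nat_lit 76) (nat_lit 17370291244) (nat_lit 152) (nat_lit 70612715616) (nat_lit 4) (nat_lit 5) (nat_lit 5) (nat_lit 5) (nat_lit 6) (nat_lit 4) (nat_lit 292) (nat_lit 243) (nat_lit 185)) (XT.lf (nat_lit 0) (nat_lit 15179749315) (nat_lit 76) (nat_lit 10108557457) (nat_lit 152) (nat_lit 70346844532) (nat_lit 4) (nat_lit 5) (nat_lit 5) (nat_lit 5) (nat_lit 6) (nat_lit 4) (nat_lit 293) (nat_lit 243) (nat_lit 184)))) (XT.nd (nat_lit 156) (nat_lit 0) (nat_lit 0) (XT.nd (nat_lit 78) (nat_lit 0) (nat_lit 0) (XT.lf (nat_lit 0) (nat_lit 30501516839) (nat_lit 76) (nat_lit 2275104424) (nat_lit 152) (nat_lit 70073828891) (nat_lit 4) (nat_lit 5) (nat_lit 5) (nat_lit 5) (nat_lit 6) (nat_lit 4) (nat_lit 294) (nat_lit 243) (nat_lit 183)) (XT.lf (nat_lit 0) (nat_lit 40948007123) (nat_lit 152) (nat_lit 63711994800) (nat_lit 0) (nat_lit 5978802116) (nat_lit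 4) (nat_lit 5) (nat_lit 6) (nat_lit 4) (nat_lit 4) (nat_lit 4) (nat_lit 295) (nat_lit 243) (nat_lit 182))) (XT.nd (nat_lit 78) (nat_lit 0) (nat_lit 0) (XT.lf (nat_lit 0) (nat_lit 49799837224) (nat_lit 152) (nat_lit 54442354435) (nat_lit 0) (nat_lit 14806727011) (nat_lit 4) (nat_lit 5) (nat_lit 6) (nat_lit 4) (nat_lit 4) (nat_lit 4) (nat_lit 296) (nat_lit 243) (nat_lit 181)) (XT.lf (nat_lit 0) (nat_lit 59349046103) (nat_lit 152) (nat_lit 44449560262) (nat_lit 0) (nat_lit 24333801439) (nat_lit 4) (nat_lit 5) (nat_lit 6) (nat_lit 4) (nat_lit 4) (nat_lit 4) (nat_lit 297) (nat_lit 243) (nat_lit 180))))) (XT.nd (nat_lit 312) (nat_lit 0) (nat_lit 0) (XT.nd (nat_lit 156) (nat_lit 76) (nat_lit 0) (XT.nd (nat_lit 78) (nat_lit 0) (nat_lit 0) (XT.lf (nat_lit 0) (nat_lit 69652221663) (nat_lit 152) (nat_lit 33674395723) (nat_lit 0) (nat_lit 34616482138) (nat_lit 4) (nat_lit 5) (nat_lit 6) (nat_lit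 4) (nat_lit 4) (nat_lit 4) (nat_lit 298) (nat_lit 243) (nat_lit 179)) (XT.lf (nat_lit 0) (nat_lit 80770419761) (nat_lit 152) (nat_lit 22053007990) (nat_lit 0) (nat_lit 45715703512) (nat_lit 4) (nat_lit 5) (nat_lit 6) (nat_lit 4) (nat_lit 4) (nat_lit 4) (nat_lit 299) (nat_lit 243) (nat_lit 178))) (XT.nd (nat_lit 78) (nat_lit 76) (nat_lit 0) (XT.lf (nat_lit 0) (nat_lit 92769526013) (nat_lit 152) (nat_lit 9516529582) (nat_lit 0) (nat_lit 57697238724) (nat_lit 4) (nat_lit 5) (nat_lit 6) (nat_lit 4) (nat_lit 4) (nat_lit 4) (nat_lit 300) (nat_lit 243) (nat_lit 177)) (XT.lf (nat_lit 0) (nat_lit 4141896291) (nat_lit 76) (nat_lit 101643416552) (nat_lit 76) (nat_lit 66554859781) (nat_lit 3) (nat_lit 4) (nat_lit 4) (nat_lit 5) (nat_lit 4) (nat_lit 4) (nat_lit 301) (nat_lit 243) (nat_lit 176)))) (XT.nd (nat_lit 156) (nat_lit 0) (nat_lit 0) (XT.nd (nat_lit 78) (nat_lit 0) (nat_lit 0) (XT.lf (nat_lit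 0) (nat_lit 19219879400) (nat_lit 76) (nat_lit 100780724587) (nat_lit 76) (nat_lit 65677103481) (nat_lit 3) (nat_lit 4) (nat_lit 4) (nat_lit 5) (nat_lit 4) (nat_lit 4) (nat_lit 302) (nat_lit 243) (nat_lit 175)) (XT.lf (nat_lit 0) (nat_lit 35492111307) (nat_lit 76) (nat_lit 99854034485) (nat_lit 76) (nat_lit 64736464921) (nat_lit 3) (nat_lit 4) (nat_lit 4) (nat_lit 5) (nat_lit 4) (nat_lit 4) (nat_lit 303) (nat_lit 243) (nat_lit 174))) (XT.nd (nat_lit 78) (nat_lit 0) (nat_lit 0) (XT.lf (nat_lit 0) (nat_lit 53055020055) (nat_lit 76) (nat_lit 98857854749) (nat_lit 76) (nat_lit 63727369946) (nat_lit 3) (nat_lit 4) (nat_lit 4) (nat_lit 5) (nat_lit 4) (nat_lit 4) (nat_lit 304) (nat_lit 243) (nat_lit 173)) (XT.nd (nat_lit 78) (nat_lit 0) (nat_lit 0) (XT.lf (nat_lit 0) (nat_lit 72012682139) (nat_lit 76) (nat_lit 97786282092) (nat_lit 76) (nat_lit 62643838734) (nat_lit 3) (nat_lit 4) (nat_lit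 4) (nat_lit 5) (nat_lit 4) (nat_lit 4) (nat_lit 305) (nat_lit 243) (nat_lit 172)) (XT.lf (nat_lit 0) (nat_lit 92477439261) (nat_lit 76) (nat_lit 96632966454) (nat_lit 76) (nat_lit 61479450360) (nat_lit 3) (nat_lit 4) (nat_lit 4) (nat_lit 5) (nat_lit 4) (nat_lit 4) (nat_lit 306) (nat_lit 243) (nat_lit 171))))))))
noncomputable def xc58 : XT := (XT.nd (nat_lit 32838) (nat_lit 0) (nat_lit 1976) (XT.nd (nat_lit 624) (nat_lit 0) (nat_lit 0) (XT.nd (nat_lit 312) (nat_lit 0) (nat_lit 0) (XT.nd (nat_lit 156) (nat_lit 0) (nat_lit 0) (XT.nd (nat_lit 78) (nat_lit 0) (nat_lit 0) (XT.lf (nat_lit 0) (nat_lit 114570564055) (nat_lit 76) (nat_lit 95391073371) (nat_lit 76) (nat_lit 60227304744) (nat_lit 3) (nat_lit 4) (nat_lit 4) (nat_lit 5) (nat_lit 4) (nat_lit 4) (nat_lit 307) (nat_lit 243) (nat_lit 170)) (XT.lf (nat_lit 0) (nat_lit 138422978743) (nat_lit 76) (nat_lit 94053243478) (nat_lit 76) (nat_lit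 58879981764) (nat_lit 3) (nat_lit 4) (nat_lit 4) (nat_lit 5) (nat_lit 4) (nat_lit 4) (nat_lit 308) (nat_lit 243) (nat_lit 169))) (XT.nd (nat_lit 78) (nat_lit 0) (nat_lit 0) (XT.lf (nat_lit 0) (nat_lit 164176030967) (nat_lit 76) (nat_lit 92611548893) (nat_lit 76) (nat_lit 57429497284) (nat_lit 3) (nat_lit 4) (nat_lit 4) (nat_lit 5) (nat_lit 4) (nat_lit 4) (nat_lit 309) (nat_lit 243) (nat_lit 168)) (XT.lf (nat_lit 0) (nat_lit 191982331406) (nat_lit 76) (nat_lit 91057446241) (nat_lit 76) (nat_lit 55867255840) (nat_lit 3) (nat_lit 4) (nat_lit 4) (nat_lit 5) (nat_lit 4) (nat_lit 4) (nat_lit 310) (nat_lit 243) (nat_lit 167)))) (XT.nd (nat_lit 156) (nat_lit 0) (nat_lit 0) (XT.nd (nat_lit 78) (nat_lit 0) (nat_lit 0) (XT.lf (nat_lit 0) (nat_lit 222006658138) (nat_lit 76) (nat_lit 89381726024) (nat_lit 76) (nat_lit 54183999706) (nat_lit 3) (nat_lit 4) (nat_lit 4) (nat_lit 5) (nat_lit 4) (nat_lit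 4) (nat_lit 311) (nat_lit 243) (nat_lit 166)) (XT.lf (nat_lit 0) (nat_lit 254426933099) (nat_lit 76) (nat_lit 87574458050) (nat_lit 76) (nat_lit 52369754030) (nat_lit 3) (nat_lit 4) (nat_lit 4) (nat_lit 5) (nat_lit 4) (nat_lit 4) (nat_lit 312) (nat_lit 243) (nat_lit 165))) (XT.nd (nat_lit 78) (nat_lit 0) (nat_lit 0) (XT.lf (nat_lit 0) (nat_lit 289435276437) (nat_lit 76) (nat_lit 85624932582) (nat_lit 76) (nat_lit 50413767727) (nat_lit 3) (nat_lit 4) (nat_lit 4) (nat_lit 5) (nat_lit 4) (nat_lit 4) (nat_lit 313) (nat_lit 243) (nat_lit 164)) (XT.lf (nat_lit 0) (nat_lit 327239145000) (nat_lit 76) (nat_lit 83521596876) (nat_lit 76) (nat_lit 48304449766) (nat_lit 3) (nat_lit 4) (nat_lit 4) (nat_lit 5) (nat_lit 4) (nat_lit 4) (nat_lit 314) (nat_lit 243) (nat_lit 163))))) (XT.nd (nat_lit 312) (nat_lit 0) (nat_lit 0) (XT.nd (nat_lit 156) (nat_lit 0) (nat_lit 0) (XT.nd (nat_lit 78) (nat_lit 0)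 (nat_lit 0) (XT.lf (nat_lit 0) (nat_lit 368062561715) (nat_lit 76) (nat_lit 81251986720) (nat_lit 76) (nat_lit 46029300486) (nat_lit 3) (nat_lit 4) (nat_lit 4) (nat_lit 5) (nat_lit 4) (nat_lit 4) (nat_lit 315) (nat_lit 243) (nat_lit 162)) (XT.lf (nat_lit 0) (nat_lit 412147443124) (nat_lit 76) (nat_lit 78802652574) (nat_lit 76) (nat_lit 43574837520) (nat_lit 3) (nat_lit 4) (nat_lit 4) (nat_lit 5) (nat_lit 4) (nat_lit 4) (nat_lit 316) (nat_lit 243) (nat_lit 161))) (XT.nd (nat_lit 78) (nat_lit 0) (nat_lit 0) (XT.lf (nat_lit 0) (nat_lit 459755032969) (nat_lit 76) (nat_lit 76159079864) (nat_lit 76) (nat_lit 40926515904) (nat_lit 3) (nat_lit 4) (nat_lit 4) (nat_lit 5) (nat_lit 4) (nat_lit 4) (nat_lit 317) (nat_lit 243) (nat_lit 160)) (XT.lf (nat_lit 0) (nat_lit 511167450301) (nat_lit 76) (nat_lit 73305602974) (nat_lit 76) (nat_lit 38068641878) (nat_lit 3) (nat_lit 4) (nat_lit 4) (nat_lit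 5) (nat_lit 4) (nat_lit 4) (nat_lit 318) (nat_lit 243) (nat_lit 159)))) (XT.nd (nat_lit 31746) (nat_lit 0) (nat_lit 5928) (XT.nd (nat_lit 31668) (nat_lit 0) (nat_lit 5928) (XT.lf (nat_lit 0) (nat_lit 566689361296) (nat_lit 76) (nat_lit 70225312412) (nat_lit 76) (nat_lit 34984279894) (nat_lit 3) (nat_lit 4) (nat_lit 4) (nat_lit 5) (nat_lit 4) (nat_lit 4) (nat_lit 319) (nat_lit 243) (nat_lit 158)) (XT.lf (nat_lit 0) (nat_lit 84410276) (nat_lit 0) (nat_lit 84410276) (nat_lit 380) (nat_lit 3297763631) (nat_lit 81) (nat_lit 5) (nat_lit 81) (nat_lit 3) (nat_lit 86) (nat_lit 3) (nat_lit 244) (nat_lit 244) (nat_lit 232))) (XT.nd (nat_lit 78) (nat_lit 0) (nat_lit 0) (XT.lf (nat_lit 0) (nat_lit 2902620446) (nat_lit 380) (nat_lit 2329750615) (nat_lit 456) (nat_lit 1830950987) (nat_lit 81) (nat_lit 5) (nat_lit 86) (nat_lit 3) (nat_lit 87) (nat_lit 5) (nat_lit 245) (nat_lit 244) (nat_lit 231)) (XT.lf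 (nat_lit 76) (nat_lit 2390577035) (nat_lit 0) (nat_lit 3072045476) (nat_lit 456) (nat_lit 1753735174) (nat_lit 82) (nat_lit 5) (nat_lit 81) (nat_lit 5) (nat_lit 87) (nat_lit 5) (nat_lit 246) (nat_lit 244) (nat_lit 230)))))) (XT.nd (nat_lit 624) (nat_lit 1900) (nat_lit 0) (XT.nd (nat_lit 312) (nat_lit 1292) (nat_lit 0) (XT.nd (nat_lit 156) (nat_lit 304) (nat_lit 0) (XT.nd (nat_lit 78) (nat_lit 0) (nat_lit 76) (XT.lf (nat_lit 76) (nat_lit 33158037) (nat_lit 0) (nat_lit 587800366) (nat_lit 532) (nat_lit 6771634667) (nat_lit 76) (nat_lit 5) (nat_lit 75) (nat_lit 5) (nat_lit 82) (nat_lit 5) (nat_lit 247) (nat_lit 244) (nat_lit 229)) (XT.lf (nat_lit 0) (nat_lit 3020506936) (nat_lit 456) (nat_lit 2343159410) (nat_lit 532) (nat_lit 2224608444) (nat_lit 76) (nat_lit 5) (nat_lit 82) (nat_lit 5) (nat_lit 83) (nat_lit 5) (nat_lit 248) (nat_lit 244) (nat_lit 228))) (XT.nd (nat_lit 78) (nat_lit 380)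 (nat_lit 0) (XT.lf (nat_lit 76) (nat_lit 3018609019) (nat_lit 0) (nat_lit 2444291995) (nat_lit 532) (nat_lit 2345648436) (nat_lit 77) (nat_lit 5) (nat_lit 76) (nat_lit 5) (nat_lit 83) (nat_lit 5) (nat_lit 249) (nat_lit 244) (nat_lit 227)) (XT.lf (nat_lit 0) (nat_lit 711395915) (nat_lit 456) (nat_lit 7260815994) (nat_lit 532) (nat_lit 82030581) (nat_lit 71) (nat_lit 5) (nat_lit 77) (nat_lit 5) (nat_lit 78) (nat_lit 5) (nat_lit 250) (nat_lit 244) (nat_lit 226)))) (XT.nd (nat_lit 156) (nat_lit 684) (nat_lit 0) (XT.nd (nat_lit 78) (nat_lit 532) (nat_lit 0) (XT.lf (nat_lit 0) (nat_lit 2228781507) (nat_lit 532) (nat_lit 1720093543) (nat_lit 76) (nat_lit 4372995731) (nat_lit 70) (nat_lit 5) (nat_lit 77) (nat_lit 5) (nat_lit 71) (nat_lit 5) (nat_lit 251) (nat_lit 244) (nat_lit 225)) (XT.lf (nat_lit 0) (nat_lit 4352352920) (nat_lit 532) (nat_lit 266578544) (nat_lit 608) (nat_lit 3998164095)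 (nat_lit 63) (nat_lit 5) (nat_lit 70) (nat_lit 5) (nat_lit 71) (nat_lit 5) (nat_lit 252) (nat_lit 244) (nat_lit 224))) (XT.nd (nat_lit 78) (nat_lit 76) (nat_lit 0) (XT.lf (nat_lit 0) (nat_lit 1898394717) (nat_lit 608) (nat_lit 5260292414) (nat_lit 684) (nat_lit 1780369285) (nat_lit 55) (nat_lit 5) (nat_lit 63) (nat_lit 5) (nat_lit 64) (nat_lit 5) (nat_lit 253) (nat_lit 244) (nat_lit 223)) (XT.lf (nat_lit 0) (nat_lit 521867042) (nat_lit 684) (nat_lit 732855283) (nat_lit 76) (nat_lit 8036152143) (nat_lit 54) (nat_lit 5) (nat_lit 63) (nat_lit 5) (nat_lit 55) (nat_lit 5) (nat_lit 254) (nat_lit 244) (nat_lit 222))))) (XT.nd (nat_lit 312) (nat_lit 760) (nat_lit 0) (XT.nd (nat_lit 156) (nat_lit 380) (nat_lit 0) (XT.nd (nat_lit 78) (nat_lit 304) (nat_lit 0) (XT.lf (nat_lit 0) (nat_lit 2950435318) (nat_lit 532) (nat_lit 3608324533) (nat_lit 76) (nat_lit 3111239733) (nat_lit 48) (nat_lit 5) (nat_lit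 55) (nat_lit 5) (nat_lit 49) (nat_lit 5) (nat_lit 255) (nat_lit 244) (nat_lit 221)) (XT.lf (nat_lit 0) (nat_lit 3298547845) (nat_lit 304) (nat_lit 2227111674) (nat_lit 380) (nat_lit 4556961261) (nat_lit 44) (nat_lit 5) (nat_lit 48) (nat_lit 5) (nat_lit 49) (nat_lit 5) (nat_lit 256) (nat_lit 244) (nat_lit 220))) (XT.nd (nat_lit 78) (nat_lit 76) (nat_lit 0) (XT.lf (nat_lit 0) (nat_lit 194664664) (nat_lit 304) (nat_lit 8092030850) (nat_lit 380) (nat_lit 2243292941) (nat_lit 40) (nat_lit 5) (nat_lit 44) (nat_lit 5) (nat_lit 45) (nat_lit 5) (nat_lit 257) (nat_lit 244) (nat_lit 219)) (XT.lf (nat_lit 0) (nat_lit 284258833) (nat_lit 380) (nat_lit 3209546917) (nat_lit 76) (nat_lit 7517932668) (nat_lit 39) (nat_lit 5) (nat_lit 44) (nat_lit 5) (nat_lit 40) (nat_lit 5) (nat_lit 258) (nat_lit 244) (nat_lit 218)))) (XT.nd (nat_lit 156) (nat_lit 304) (nat_lit 0) (XT.nd (nat_lit 78) (nat_lit 228) (nat_lit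 0) (XT.lf (nat_lit 0) (nat_lit 2919055700) (nat_lit 304) (nat_lit 7088871241) (nat_lit 76) (nat_lit 1523674100) (nat_lit 36) (nat_lit 5) (nat_lit 40) (nat_lit 5) (nat_lit 37) (nat_lit 5) (nat_lit 259) (nat_lit 244) (nat_lit 217)) (XT.lf (nat_lit 0) (nat_lit 566617310) (nat_lit 228) (nat_lit 5217094922) (nat_lit 304) (nat_lit 6308935885) (nat_lit 33) (nat_lit 5) (nat_lit 36) (nat_lit 5) (nat_lit 37) (nat_lit 5) (nat_lit 260) (nat_lit 244) (nat_lit 216))) (XT.nd (nat_lit 78) (nat_lit 304) (nat_lit 0) (XT.lf (nat_lit 0) (nat_lit 8902559141) (nat_lit 304) (nat_lit 3729147550) (nat_lit 76) (nat_lit 66129929) (nat_lit 33) (nat_lit 5) (nat_lit 37) (nat_lit 5) (nat_lit 34) (nat_lit 5) (nat_lit 261) (nat_lit 244) (nat_lit 215)) (XT.nd (nat_lit 78) (nat_lit 76) (nat_lit 0) (XT.lf (nat_lit 0) (nat_lit 4638002405) (nat_lit 228) (nat_lit 7700868607) (nat_lit 304) (nat_lit 1009642215) (nat_lit 30)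 (nat_lit 5) (nat_lit 33) (nat_lit 5) (nat_lit 34) (nat_lit 5) (nat_lit 262) (nat_lit 244) (nat_lit 214)) (XT.lf (nat_lit 0) (nat_lit 1911759382) (nat_lit 304) (nat_lit 384946556) (nat_lit 76) (nat_lit 11754548338) (nat_lit 29) (nat_lit 5) (nat_lit 33) (nat_lit 5) (nat_lit 30) (nat_lit 5) (nat_lit 263) (nat_lit 244) (nat_lit 213))))))))
noncomputable def xc59 : XT := (XT.nd (nat_lit 1326) (nat_lit 304) (nat_lit 0) (XT.nd (nat_lit 624) (nat_lit 608) (nat_lit 0) (XT.nd (nat_lit 312) (nat_lit 380) (nat_lit 0) (XT.nd (nat_lit 156) (nat_lit 228) (nat_lit 0) (XT.nd (nat_lit 78) (nat_lit 152) (nat_lit 0) (XT.lf (nat_lit 0) (nat_lit 5143759578) (nat_lit 304) (nat_lit 6098319102) (nat_lit 76) (nat_lit 3562079866) (nat_lit 26) (nat_lit 5) (nat_lit 30) (nat_lit 5) (nat_lit 27) (nat_lit 5) (nat_lit 264) (nat_lit 244) (nat_lit 212)) (XT.lf (nat_lit 0) (nat_lit 2870262652) (nat_lit 152) (nat_lit 5776104347)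 (nat_lit 228) (nat_lit 6970681800) (nat_lit 24) (nat_lit 5) (nat_lit 26) (nat_lit 5) (nat_lit 27) (nat_lit 5) (nat_lit 265) (nat_lit 244) (nat_lit 211))) (XT.nd (nat_lit 78) (nat_lit 228) (nat_lit 0) (XT.lf (nat_lit 0) (nat_lit 12464697723) (nat_lit 228) (nat_lit 3821875426) (nat_lit 76) (nat_lit 206951020) (nat_lit 24) (nat_lit 5) (nat_lit 27) (nat_lit 5) (nat_lit 25) (nat_lit 5) (nat_lit 266) (nat_lit 244) (nat_lit 210)) (XT.lf (nat_lit 0) (nat_lit 5810617839) (nat_lit 228) (nat_lit 10897066220) (nat_lit 304) (nat_lit 726779266) (nat_lit 21) (nat_lit 5) (nat_lit 24) (nat_lit 5) (nat_lit 25) (nat_lit 5) (nat_lit 267) (nat_lit 244) (nat_lit 209)))) (XT.nd (nat_lit 156) (nat_lit 152) (nat_lit 0) (XT.nd (nat_lit 78) (nat_lit 152) (nat_lit 0) (XT.lf (nat_lit 0) (nat_lit 2749635579) (nat_lit 304) (nat_lit 2235916442) (nat_lit 76) (nat_lit 13463123996) (nat_lit 20) (nat_lit 5) (nat_lit 24)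 (nat_lit 5) (nat_lit 21) (nat_lit 5) (nat_lit 268) (nat_lit 244) (nat_lit 208)) (XT.lf (nat_lit 0) (nat_lit 6566985912) (nat_lit 228) (nat_lit 11501748822) (nat_lit 76) (nat_lit 1470530225) (nat_lit 18) (nat_lit 5) (nat_lit 21) (nat_lit 5) (nat_lit 19) (nat_lit 5) (nat_lit 269) (nat_lit 244) (nat_lit 207))) (XT.nd (nat_lit 78) (nat_lit 152) (nat_lit 0) (XT.lf (nat_lit 0) (nat_lit 10754622852) (nat_lit 228) (nat_lit 1672624612) (nat_lit 76) (nat_lit 8286839376) (nat_lit 18) (nat_lit 5) (nat_lit 21) (nat_lit 5) (nat_lit 19) (nat_lit 5) (nat_lit 270) (nat_lit 244) (nat_lit 206)) (XT.lf (nat_lit 0) (nat_lit 9156798557) (nat_lit 152) (nat_lit 6209033950) (nat_lit 228) (nat_lit 6612847537) (nat_lit 16) (nat_lit 5) (nat_lit 18) (nat_lit 5) (nat_lit 19) (nat_lit 5) (nat_lit 271) (nat_lit 244) (nat_lit 205))))) (XT.nd (nat_lit 312) (nat_lit 304) (nat_lit 0) (XT.nd (nat_lit 156) (nat_lit 152)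 (nat_lit 0) (XT.nd (nat_lit 78) (nat_lit 152) (nat_lit 0) (XT.lf (nat_lit 0) (nat_lit 20331532962) (nat_lit 228) (nat_lit 2517133965) (nat_lit 76) (nat_lit 496691905) (nat_lit 16) (nat_lit 5) (nat_lit 19) (nat_lit 5) (nat_lit 17) (nat_lit 4) (nat_lit 272) (nat_lit 244) (nat_lit 204)) (XT.lf (nat_lit 0) (nat_lit 1040814610) (nat_lit 152) (nat_lit 16114796171) (nat_lit 76) (nat_lit 7655471894) (nat_lit 14) (nat_lit 5) (nat_lit 16) (nat_lit 5) (nat_lit 15) (nat_lit 5) (nat_lit 273) (nat_lit 244) (nat_lit 203))) (XT.nd (nat_lit 78) (nat_lit 152) (nat_lit 0) (XT.lf (nat_lit 0) (nat_lit 5313701261) (nat_lit 152) (nat_lit 5617585047) (nat_lit 76) (nat_lit 15460496066) (nat_lit 14) (nat_lit 5) (nat_lit 16) (nat_lit 5) (nat_lit 15) (nat_lit 5) (nat_lit 274) (nat_lit 244) (nat_lit 202)) (XT.lf (nat_lit 0) (nat_lit 5840748765) (nat_lit 152) (nat_lit 4135793340) (nat_lit 228) (nat_lit 18120139348)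 (nat_lit 12) (nat_lit 5) (nat_lit 14) (nat_lit 5) (nat_lit 15) (nat_lit 5) (nat_lit 275) (nat_lit 244) (nat_lit 201)))) (XT.nd (nat_lit 156) (nat_lit 304) (nat_lit 0) (XT.nd (nat_lit 78) (nat_lit 0) (nat_lit 0) (XT.lf (nat_lit 0) (nat_lit 15120683836) (nat_lit 228) (nat_lit 11632929138) (nat_lit 76) (nat_lit 3179084292) (nat_lit 12) (nat_lit 5) (nat_lit 15) (nat_lit 5) (nat_lit 13) (nat_lit 4) (nat_lit 276) (nat_lit 244) (nat_lit 200)) (XT.lf (nat_lit 0) (nat_lit 20707947302) (nat_lit 228) (nat_lit 289621939) (nat_lit 76) (nat_lit 10916573813) (nat_lit 12) (nat_lit 5) (nat_lit 15) (nat_lit 5) (nat_lit 13) (nat_lit 4) (nat_lit 277) (nat_lit 244) (nat_lit 199))) (XT.nd (nat_lit 78) (nat_lit 228) (nat_lit 0) (XT.lf (nat_lit 0) (nat_lit 12299438682) (nat_lit 76) (nat_lit 14599460912) (nat_lit 152) (nat_lit 7147488254) (nat_lit 11) (nat_lit 5) (nat_lit 12) (nat_lit 5) (nat_lit 13) (nat_lit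 4) (nat_lit 278) (nat_lit 244) (nat_lit 198)) (XT.nd (nat_lit 78) (nat_lit 228) (nat_lit 0) (XT.lf (nat_lit 0) (nat_lit 25853002768) (nat_lit 76) (nat_lit 7703638828) (nat_lit 152) (nat_lit 2794104891) (nat_lit 11) (nat_lit 5) (nat_lit 12) (nat_lit 5) (nat_lit 13) (nat_lit 4) (nat_lit 279) (nat_lit 244) (nat_lit 197)) (XT.lf (nat_lit 0) (nat_lit 1623390547) (nat_lit 152) (nat_lit 216795583) (nat_lit 228) (nat_lit 36998190999) (nat_lit 8) (nat_lit 5) (nat_lit 10) (nat_lit 5) (nat_lit 11) (nat_lit 5) (nat_lit 280) (nat_lit 244) (nat_lit 196))))))) (XT.nd (nat_lit 624) (nat_lit 152) (nat_lit 0) (XT.nd (nat_lit 312) (nat_lit 76) (nat_lit 0) (XT.nd (nat_lit 156) (nat_lit 76) (nat_lit 0) (XT.nd (nat_lit 78) (nat_lit 0) (nat_lit 0) (XT.lf (nat_lit 0) (nat_lit 7027016104) (nat_lit 228) (nat_lit 26649072715) (nat_lit 76) (nat_lit 7832744544) (nat_lit 8) (nat_lit 5) (nat_lit 11) (nat_lit 5) (nat_lit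 9) (nat_lit 4) (nat_lit 281) (nat_lit 244) (nat_lit 195)) (XT.lf (nat_lit 0) (nat_lit 12604355472) (nat_lit 228) (nat_lit 15287204027) (nat_lit 76) (nat_lit 16502671562) (nat_lit 8) (nat_lit 5) (nat_lit 11) (nat_lit 5) (nat_lit 9) (nat_lit 4) (nat_lit 282) (nat_lit 244) (nat_lit 194))) (XT.nd (nat_lit 78) (nat_lit 76) (nat_lit 0) (XT.lf (nat_lit 0) (nat_lit 18601870347) (nat_lit 228) (nat_lit 3058666139) (nat_lit 76) (nat_lit 25851301628) (nat_lit 8) (nat_lit 5) (nat_lit 11) (nat_lit 5) (nat_lit 9) (nat_lit 4) (nat_lit 283) (nat_lit 244) (nat_lit 193)) (XT.lf (nat_lit 0) (nat_lit 10443255760) (nat_lit 76) (nat_lit 14774894289) (nat_lit 152) (nat_lit 25653826761) (nat_lit 7) (nat_lit 5) (nat_lit 8) (nat_lit 5) (nat_lit 9) (nat_lit 4) (nat_lit 284) (nat_lit 244) (nat_lit 192)))) (XT.nd (nat_lit 156) (nat_lit 76) (nat_lit 0) (XT.nd (nat_lit 78) (nat_lit 0) (nat_lit 0) (XT.lf (nat_lit 0)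 (nat_lit 25097108314) (nat_lit 76) (nat_lit 7297018360) (nat_lit 152) (nat_lit 22105346179) (nat_lit 7) (nat_lit 5) (nat_lit 8) (nat_lit 5) (nat_lit 9) (nat_lit 4) (nat_lit 285) (nat_lit 244) (nat_lit 191)) (XT.lf (nat_lit 0) (nat_lit 40134944436) (nat_lit 152) (nat_lit 17541646567) (nat_lit 0) (nat_lit 741100518) (nat_lit 7) (nat_lit 5) (nat_lit 9) (nat_lit 4) (nat_lit 7) (nat_lit 4) (nat_lit 286) (nat_lit 244) (nat_lit 190))) (XT.nd (nat_lit 78) (nat_lit 76) (nat_lit 0) (XT.lf (nat_lit 0) (nat_lit 48598253185) (nat_lit 152) (nat_lit 4888059732) (nat_lit 0) (nat_lit 9157950054) (nat_lit 7) (nat_lit 5) (nat_lit 9) (nat_lit 4) (nat_lit 7) (nat_lit 4) (nat_lit 287) (nat_lit 244) (nat_lit 189)) (XT.lf (nat_lit 0) (nat_lit 9036532565) (nat_lit 76) (nat_lit 48824831986) (nat_lit 76) (nat_lit 9341511066) (nat_lit 6) (nat_lit 4) (nat_lit 7) (nat_lit 5) (nat_lit 7) (nat_lit 4) (nat_lit 288)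 (nat_lit 244) (nat_lit 188))))) (XT.nd (nat_lit 312) (nat_lit 76) (nat_lit 0) (XT.nd (nat_lit 156) (nat_lit 0) (nat_lit 0) (XT.nd (nat_lit 78) (nat_lit 76) (nat_lit 0) (XT.lf (nat_lit 0) (nat_lit 24220462119) (nat_lit 76) (nat_lit 43712765364) (nat_lit 76) (nat_lit 4189613158) (nat_lit 6) (nat_lit 4) (nat_lit 7) (nat_lit 5) (nat_lit 7) (nat_lit 4) (nat_lit 289) (nat_lit 244) (nat_lit 187)) (XT.lf (nat_lit 0) (nat_lit 1313985744) (nat_lit 152) (nat_lit 36866362251) (nat_lit 76) (nat_lit 39255847712) (nat_lit 5) (nat_lit 5) (nat_lit 7) (nat_lit 5) (nat_lit 6) (nat_lit 4) (nat_lit 290) (nat_lit 244) (nat_lit 186))) (XT.nd (nat_lit 78) (nat_lit 0) (nat_lit 0) (XT.lf (nat_lit 0) (nat_lit 7097810266) (nat_lit 152) (nat_lit 25043670888) (nat_lit 76) (nat_lit 51030407445) (nat_lit 5) (nat_lit 5) (nat_lit 7) (nat_lit 5) (nat_lit 6) (nat_lit 4) (nat_lit 291) (nat_lit 244) (nat_lit 185)) (XT.lf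 (nat_lit 0) (nat_lit 13330228709) (nat_lit 152) (nat_lit 12298832439) (nat_lit 76) (nat_lit 63738118042) (nat_lit 5) (nat_lit 5) (nat_lit 7) (nat_lit 5) (nat_lit 6) (nat_lit 4) (nat_lit 292) (nat_lit 244) (nat_lit 184)))) (XT.nd (nat_lit 156) (nat_lit 0) (nat_lit 0) (XT.nd (nat_lit 78) (nat_lit 0) (nat_lit 0) (XT.lf (nat_lit 0) (nat_lit 1491412582) (nat_lit 76) (nat_lit 18580046471) (nat_lit 152) (nat_lit 75986157004) (nat_lit 4) (nat_lit 5) (nat_lit 5) (nat_lit 5) (nat_lit 6) (nat_lit 4) (nat_lit 293) (nat_lit 244) (nat_lit 183)) (XT.lf (nat_lit 0) (nat_lit 16803101923) (nat_lit 76) (nat_lit 10750697542) (nat_lit 152) (nat_lit 75719429259) (nat_lit 4) (nat_lit 5) (nat_lit 5) (nat_lit 5) (nat_lit 6) (nat_lit 4) (nat_lit 294) (nat_lit 244) (nat_lit 182))) (XT.nd (nat_lit 78) (nat_lit 0) (nat_lit 0) (XT.lf (nat_lit 0) (nat_lit 33320316578) (nat_lit 76) (nat_lit 2302904897) (nat_lit 152)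 (nat_lit 75443473318) (nat_lit 4) (nat_lit 5) (nat_lit 5) (nat_lit 5) (nat_lit 6) (nat_lit 4) (nat_lit 295) (nat_lit 244) (nat_lit 181)) (XT.nd (nat_lit 78) (nat_lit 0) (nat_lit 0) (XT.lf (nat_lit 0) (nat_lit 44433920033) (nat_lit 152) (nat_lit 68449637581) (nat_lit 0) (nat_lit 6595321346) (nat_lit 4) (nat_lit 5) (nat_lit 6) (nat_lit 4) (nat_lit 4) (nat_lit 4) (nat_lit 296) (nat_lit 244) (nat_lit 180)) (XT.lf (nat_lit 0) (nat_lit 53978335629) (nat_lit 152) (nat_lit 58465042046) (nat_lit 0) (nat_lit 16119242080) (nat_lit 4) (nat_lit 5) (nat_lit 6) (nat_lit 4) (nat_lit 4) (nat_lit 4) (nat_lit 297) (nat_lit 244) (nat_lit 179))))))))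
noncomputable def xc60 : XT := (XT.nd (nat_lit 1248) (nat_lit 0) (nat_lit 0) (XT.nd (nat_lit 624) (nat_lit 0) (nat_lit 0) (XT.nd (nat_lit 312) (nat_lit 76) (nat_lit 0) (XT.nd (nat_lit 156) (nat_lit 0) (nat_lit 0) (XT.nd (nat_lit 78) (nat_lit 0) (nat_lit 0) (XT.lf (nat_lit 0) (nat_lit 64277072964) (nat_lit 152) (nat_lit 47697468839) (nat_lit 0) (nat_lit 26399002692) (nat_lit 4) (nat_lit 5) (nat_lit 6) (nat_lit 4) (nat_lit 4) (nat_lit 4) (nat_lit 298) (nat_lit 244) (nat_lit 178)) (XT.lf (nat_lit 0) (nat_lit 75391161594) (nat_lit 152) (nat_lit 36083110117) (nat_lit 0) (nat_lit 37495520281) (nat_lit 4) (nat_lit 5) (nat_lit 6) (nat_lit 4) (nat_lit 4) (nat_lit 4) (nat_lit 299) (nat_lit 244) (nat_lit 177))) (XT.nd (nat_lit 78) (nat_lit 0) (nat_lit 0) (XT.lf (nat_lit 0) (nat_lit 87386462783) (nat_lit 152) (nat_lit 23553140053) (nat_lit 0) (nat_lit 49474551989) (nat_lit 4) (nat_lit 5) (nat_lit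 6) (nat_lit 4) (nat_lit 4) (nat_lit 4) (nat_lit 300) (nat_lit 244) (nat_lit 176)) (XT.lf (nat_lit 0) (nat_lit 100334059799) (nat_lit 152) (nat_lit 10033306970) (nat_lit 0) (nat_lit 62407084670) (nat_lit 4) (nat_lit 5) (nat_lit 6) (nat_lit 4) (nat_lit 4) (nat_lit 4) (nat_lit 301) (nat_lit 244) (nat_lit 175)))) (XT.nd (nat_lit 156) (nat_lit 0) (nat_lit 0) (XT.nd (nat_lit 78) (nat_lit 0) (nat_lit 0) (XT.lf (nat_lit 0) (nat_lit 4707165347) (nat_lit 76) (nat_lit 109677005838) (nat_lit 76) (nat_lit 71736082250) (nat_lit 3) (nat_lit 4) (nat_lit 4) (nat_lit 5) (nat_lit 4) (nat_lit 4) (nat_lit 302) (nat_lit 244) (nat_lit 174)) (XT.lf (nat_lit 0) (nat_lit 20974059892) (nat_lit 76) (nat_lit 108752549185) (nat_lit 76) (nat_lit 70798710358) (nat_lit 3) (nat_lit 4) (nat_lit 4) (nat_lit 5) (nat_lit 4) (nat_lit 4) (nat_lit 303) (nat_lit 244) (nat_lit 173))) (XT.nd (nat_lit 78) (nat_lit 0) (nat_lit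 0) (XT.lf (nat_lit 0) (nat_lit 38532026639) (nat_lit 76) (nat_lit 107758437458) (nat_lit 76) (nat_lit 69792640076) (nat_lit 3) (nat_lit 4) (nat_lit 4) (nat_lit 5) (nat_lit 4) (nat_lit 4) (nat_lit 304) (nat_lit 244) (nat_lit 172)) (XT.lf (nat_lit 0) (nat_lit 57485112795) (nat_lit 76) (nat_lit 106688779624) (nat_lit 76) (nat_lit 68711909506) (nat_lit 3) (nat_lit 4) (nat_lit 4) (nat_lit 5) (nat_lit 4) (nat_lit 4) (nat_lit 305) (nat_lit 244) (nat_lit 171))))) (XT.nd (nat_lit 312) (nat_lit 0) (nat_lit 0) (XT.nd (nat_lit 156) (nat_lit 0) (nat_lit 0) (XT.nd (nat_lit 78) (nat_lit 0) (nat_lit 0) (XT.lf (nat_lit 0) (nat_lit 77945632947) (nat_lit 76) (nat_lit 105537236969) (nat_lit 76) (nat_lit 67550114318) (nat_lit 3) (nat_lit 4) (nat_lit 4) (nat_lit 5) (nat_lit 4) (nat_lit 4) (nat_lit 306) (nat_lit 244) (nat_lit 170)) (XT.lf (nat_lit 0) (nat_lit 100034834621) (nat_lit 76) (nat_lit 104296985538)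 (nat_lit 76) (nat_lit 66300369801) (nat_lit 3) (nat_lit 4) (nat_lit 4) (nat_lit 5) (nat_lit 4) (nat_lit 4) (nat_lit 307) (nat_lit 244) (nat_lit 169))) (XT.nd (nat_lit 78) (nat_lit 0) (nat_lit 0) (XT.lf (nat_lit 0) (nat_lit 123883616790) (nat_lit 76) (nat_lit 102960675693) (nat_lit 76) (nat_lit 64955270061) (nat_lit 3) (nat_lit 4) (nat_lit 4) (nat_lit 5) (nat_lit 4) (nat_lit 4) (nat_lit 308) (nat_lit 244) (nat_lit 168)) (XT.lf (nat_lit 0) (nat_lit 149633305571) (nat_lit 76) (nat_lit 101520388560) (nat_lit 76) (nat_lit 63506844136) (nat_lit 3) (nat_lit 4) (nat_lit 4) (nat_lit 5) (nat_lit 4) (nat_lit 4) (nat_lit 309) (nat_lit 244) (nat_lit 167)))) (XT.nd (nat_lit 156) (nat_lit 0) (nat_lit 0) (XT.nd (nat_lit 78) (nat_lit 0) (nat_lit 0) (XT.lf (nat_lit 0) (nat_lit 177436491711) (nat_lit 76) (nat_lit 99967589104) (nat_lit 76) (nat_lit 61946508762) (nat_lit 3) (nat_lit 4) (nat_lit 4) (nat_lit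 5) (nat_lit 4) (nat_lit 4) (nat_lit 310) (nat_lit 244) (nat_lit 166)) (XT.lf (nat_lit 0) (nat_lit 207457934832) (nat_lit 76) (nat_lit 98293075551) (nat_lit 76) (nat_lit 60265017507) (nat_lit 3) (nat_lit 4) (nat_lit 4) (nat_lit 5) (nat_lit 4) (nat_lit 4) (nat_lit 311) (nat_lit 244) (nat_lit 165))) (XT.nd (nat_lit 78) (nat_lit 0) (nat_lit 0) (XT.lf (nat_lit 0) (nat_lit 239875539784) (nat_lit 76) (nat_lit 96486924857) (nat_lit 76) (nat_lit 58452405979) (nat_lit 3) (nat_lit 4) (nat_lit 4) (nat_lit 5) (nat_lit 4) (nat_lit 4) (nat_lit 312) (nat_lit 244) (nat_lit 164)) (XT.lf (nat_lit 0) (nat_lit 274881410890) (nat_lit 76) (nat_lit 94538433908) (nat_lit 76) (nat_lit 56497932775) (nat_lit 3) (nat_lit 4) (nat_lit 4) (nat_lit 5) (nat_lit 4) (nat_lit 4) (nat_lit 313) (nat_lit 244) (nat_lit 163)))))) (XT.nd (nat_lit 32292) (nat_lit 0) (nat_lit 3420) (XT.nd (nat_lit 312) (nat_lit 0) (nat_lit 0)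 (XT.nd (nat_lit 156) (nat_lit 0) (nat_lit 0) (XT.nd (nat_lit 78) (nat_lit 0) (nat_lit 0) (XT.lf (nat_lit 0) (nat_lit 312682990351) (nat_lit 76) (nat_lit 92436056090) (nat_lit 76) (nat_lit 54390015832) (nat_lit 3) (nat_lit 4) (nat_lit 4) (nat_lit 5) (nat_lit 4) (nat_lit 4) (nat_lit 314) (nat_lit 244) (nat_lit 162)) (XT.lf (nat_lit 0) (nat_lit 353504287525) (nat_lit 76) (nat_lit 90167332868) (nat_lit 76) (nat_lit 52116163791) (nat_lit 3) (nat_lit 4) (nat_lit 4) (nat_lit 5) (nat_lit 4) (nat_lit 4) (nat_lit 315) (nat_lit 244) (nat_lit 161))) (XT.nd (nat_lit 78) (nat_lit 0) (nat_lit 0) (XT.lf (nat_lit 0) (nat_lit 397587206397) (nat_lit 76) (nat_lit 87718819956) (nat_lit 76) (nat_lit 49662901973) (nat_lit 3) (nat_lit 4) (nat_lit 4) (nat_lit 5) (nat_lit 4) (nat_lit 4) (nat_lit 316) (nat_lit 244) (nat_lit 160)) (XT.lf (nat_lit 0) (nat_lit 445192979079) (nat_lit 76) (nat_lit 85076007649) (nat_lit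 76) (nat_lit 47015692529) (nat_lit 3) (nat_lit 4) (nat_lit 4) (nat_lit 5) (nat_lit 4) (nat_lit 4) (nat_lit 317) (nat_lit 244) (nat_lit 159)))) (XT.nd (nat_lit 31824) (nat_lit 0) (nat_lit 5396) (XT.nd (nat_lit 78) (nat_lit 0) (nat_lit 0) (XT.lf (nat_lit 0) (nat_lit 496603713851) (nat_lit 76) (nat_lit 82223234836) (nat_lit 76) (nat_lit 44158848294) (nat_lit 3) (nat_lit 4) (nat_lit 4) (nat_lit 5) (nat_lit 4) (nat_lit 4) (nat_lit 318) (nat_lit 244) (nat_lit 158)) (XT.lf (nat_lit 0) (nat_lit 552124066922) (nat_lit 76) (nat_lit 79143596196) (nat_lit 76) (nat_lit 41075439819) (nat_lit 3) (nat_lit 4) (nat_lit 4) (nat_lit 5) (nat_lit 4) (nat_lit 4) (nat_lit 319) (nat_lit 244) (nat_lit 157))) (XT.nd (nat_lit 78) (nat_lit 532) (nat_lit 0) (XT.lf (nat_lit 0) (nat_lit 1321807827) (nat_lit 0) (nat_lit 1321807827) (nat_lit 380) (nat_lit 958102788) (nat_lit 81) (nat_lit 5) (nat_lit 81) (nat_lit 3)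 (nat_lit 86) (nat_lit 3) (nat_lit 245) (nat_lit 245) (nat_lit 230)) (XT.lf (nat_lit 76) (nat_lit 55228556) (nat_lit 0) (nat_lit 230433377) (nat_lit 532) (nat_lit 7080728388) (nat_lit 75) (nat_lit 5) (nat_lit 74) (nat_lit 3) (nat_lit 81) (nat_lit 5) (nat_lit 246) (nat_lit 245) (nat_lit 229))))) (XT.nd (nat_lit 312) (nat_lit 1596) (nat_lit 0) (XT.nd (nat_lit 156) (nat_lit 456) (nat_lit 0) (XT.nd (nat_lit 78) (nat_lit 0) (nat_lit 0) (XT.lf (nat_lit 0) (nat_lit 2493483305) (nat_lit 456) (nat_lit 2542127587) (nat_lit 532) (nat_lit 2511952615) (nat_lit 75) (nat_lit 5) (nat_lit 81) (nat_lit 5) (nat_lit 82) (nat_lit 5) (nat_lit 247) (nat_lit 245) (nat_lit 228)) (XT.lf (nat_lit 76) (nat_lit 2561217561) (nat_lit 0) (nat_lit 2155231727) (nat_lit 532) (nat_lit 3036337800) (nat_lit 76) (nat_lit 5) (nat_lit 75) (nat_lit 5) (nat_lit 82) (nat_lit 5) (nat_lit 248) (nat_lit 245) (nat_lit 227))) (XT.nd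 (nat_lit 78) (nat_lit 532) (nat_lit 0) (XT.lf (nat_lit 76) (nat_lit 45241521) (nat_lit 0) (nat_lit 6941757126) (nat_lit 532) (nat_lit 995315275) (nat_lit 77) (nat_lit 5) (nat_lit 76) (nat_lit 5) (nat_lit 83) (nat_lit 5) (nat_lit 249) (nat_lit 245) (nat_lit 226)) (XT.lf (nat_lit 0) (nat_lit 1115672685) (nat_lit 532) (nat_lit 2529472222) (nat_lit 608) (nat_lit 4588055738) (nat_lit 69) (nat_lit 5) (nat_lit 76) (nat_lit 5) (nat_lit 77) (nat_lit 5) (nat_lit 250) (nat_lit 245) (nat_lit 225)))) (XT.nd (nat_lit 156) (nat_lit 1140) (nat_lit 0) (XT.nd (nat_lit 78) (nat_lit 532) (nat_lit 0) (XT.lf (nat_lit 0) (nat_lit 3243441216) (nat_lit 532) (nat_lit 5235664807) (nat_lit 76) (nat_lit 31218629) (nat_lit 70) (nat_lit 5) (nat_lit 77) (nat_lit 5) (nat_lit 71) (nat_lit 5) (nat_lit 251) (nat_lit 245) (nat_lit 224)) (XT.lf (nat_lit 0) (nat_lit 657056962) (nat_lit 532) (nat_lit 4842876967) (nat_lit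 608) (nat_lit 3312797296) (nat_lit 63) (nat_lit 5) (nat_lit 70) (nat_lit 5) (nat_lit 71) (nat_lit 5) (nat_lit 252) (nat_lit 245) (nat_lit 223))) (XT.nd (nat_lit 78) (nat_lit 1140) (nat_lit 0) (XT.lf (nat_lit 0) (nat_lit 7085894835) (nat_lit 532) (nat_lit 794044500) (nat_lit 608) (nat_lit 1263202235) (nat_lit 63) (nat_lit 5) (nat_lit 70) (nat_lit 5) (nat_lit 71) (nat_lit 5) (nat_lit 253) (nat_lit 245) (nat_lit 222)) (XT.nd (nat_lit 78) (nat_lit 456) (nat_lit 0) (XT.lf (nat_lit 0) (nat_lit 908114163) (nat_lit 684) (nat_lit 5020322886) (nat_lit 76) (nat_lit 3572244606) (nat_lit 54) (nat_lit 5) (nat_lit 63) (nat_lit 5) (nat_lit 55) (nat_lit 5) (nat_lit 254) (nat_lit 245) (nat_lit 221)) (XT.lf (nat_lit 0) (nat_lit 1624942633) (nat_lit 456) (nat_lit 1528276477) (nat_lit 532) (nat_lit 6736138036) (nat_lit 48) (nat_lit 5) (nat_lit 54) (nat_lit 5) (nat_lit 55) (nat_lit 5) (nat_lit 255) (nat_lit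 245) (nat_lit 220))))))))
noncomputable def xc61 : XT := (XT.nd (nat_lit 1248) (nat_lit 836) (nat_lit 0) (XT.nd (nat_lit 624) (nat_lit 836) (nat_lit 0) (XT.nd (nat_lit 312) (nat_lit 760) (nat_lit 0) (XT.nd (nat_lit 156) (nat_lit 380) (nat_lit 0) (XT.nd (nat_lit 78) (nat_lit 304) (nat_lit 0) (XT.lf (nat_lit 0) (nat_lit 5593760958) (nat_lit 532) (nat_lit 1498364170) (nat_lit 76) (nat_lit 3216936599) (nat_lit 48) (nat_lit 5) (nat_lit 55) (nat_lit 5) (nat_lit 49) (nat_lit 5) (nat_lit 256) (nat_lit 245) (nat_lit 219)) (XT.lf (nat_lit 0) (nat_lit 5856816621) (nat_lit 304) (nat_lit 2375690416) (nat_lit 380) (nat_lit 2530360259) (nat_lit 44) (nat_lit 5) (nat_lit 48) (nat_lit 5) (nat_lit 49) (nat_lit 5) (nat_lit 257) (nat_lit 245) (nat_lit 218))) (XT.nd (nat_lit 78) (nat_lit 76) (nat_lit 0) (XT.lf (nat_lit 0) (nat_lit 2525341262) (nat_lit 304) (nat_lit 8557895092) (nat_lit 380) (nat_lit 170319613)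 (nat_lit 40) (nat_lit 5) (nat_lit 44) (nat_lit 5) (nat_lit 45) (nat_lit 5) (nat_lit 258) (nat_lit 245) (nat_lit 217)) (XT.lf (nat_lit 0) (nat_lit 2325837244) (nat_lit 380) (nat_lit 1245229061) (nat_lit 76) (nat_lit 8209953866) (nat_lit 39) (nat_lit 5) (nat_lit 44) (nat_lit 5) (nat_lit 40) (nat_lit 5) (nat_lit 259) (nat_lit 245) (nat_lit 216)))) (XT.nd (nat_lit 156) (nat_lit 304) (nat_lit 0) (XT.nd (nat_lit 78) (nat_lit 228) (nat_lit 0) (XT.lf (nat_lit 0) (nat_lit 5058512075) (nat_lit 304) (nat_lit 5429847381) (nat_lit 76) (nat_lit 1860551372) (nat_lit 36) (nat_lit 5) (nat_lit 40) (nat_lit 5) (nat_lit 37) (nat_lit 5) (nat_lit 260) (nat_lit 245) (nat_lit 215)) (XT.lf (nat_lit 0) (nat_lit 2741335203) (nat_lit 228) (nat_lit 5303071506) (nat_lit 304) (nat_lit 4916566623) (nat_lit 33) (nat_lit 5) (nat_lit 36) (nat_lit 5) (nat_lit 37) (nat_lit 5) (nat_lit 261) (nat_lit 245) (nat_lit 214)))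 (XT.nd (nat_lit 78) (nat_lit 304) (nat_lit 0) (XT.lf (nat_lit 0) (nat_lit 11284367059) (nat_lit 304) (nat_lit 1968867132) (nat_lit 76) (nat_lit 368442942) (nat_lit 33) (nat_lit 5) (nat_lit 37) (nat_lit 5) (nat_lit 34) (nat_lit 5) (nat_lit 262) (nat_lit 245) (nat_lit 213)) (XT.lf (nat_lit 0) (nat_lit 554630412) (nat_lit 304) (nat_lit 7360440091) (nat_lit 76) (nat_lit 6414166695) (nat_lit 29) (nat_lit 5) (nat_lit 33) (nat_lit 5) (nat_lit 30) (nat_lit 5) (nat_lit 263) (nat_lit 245) (nat_lit 212))))) (XT.nd (nat_lit 312) (nat_lit 456) (nat_lit 0) (XT.nd (nat_lit 156) (nat_lit 152) (nat_lit 0) (XT.nd (nat_lit 78) (nat_lit 0) (nat_lit 0) (XT.lf (nat_lit 0) (nat_lit 1512182163) (nat_lit 228) (nat_lit 2067001408) (nat_lit 304) (nat_lit 11513501403) (nat_lit 26) (nat_lit 5) (nat_lit 29) (nat_lit 5) (nat_lit 30) (nat_lit 5) (nat_lit 264) (nat_lit 245) (nat_lit 211)) (XT.lf (nat_lit 0) (nat_lit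 6969847250) (nat_lit 304) (nat_lit 4717563536) (nat_lit 76) (nat_lit 4223920105) (nat_lit 26) (nat_lit 5) (nat_lit 30) (nat_lit 5) (nat_lit 27) (nat_lit 5) (nat_lit 265) (nat_lit 245) (nat_lit 210))) (XT.nd (nat_lit 78) (nat_lit 0) (nat_lit 0) (XT.lf (nat_lit 0) (nat_lit 4887296763) (nat_lit 152) (nat_lit 5788488814) (nat_lit 228) (nat_lit 6117787042) (nat_lit 24) (nat_lit 5) (nat_lit 26) (nat_lit 5) (nat_lit 27) (nat_lit 5) (nat_lit 266) (nat_lit 245) (nat_lit 209)) (XT.lf (nat_lit 0) (nat_lit 14706994241) (nat_lit 228) (nat_lit 2411669863) (nat_lit 76) (nat_lit 626572424) (nat_lit 24) (nat_lit 5) (nat_lit 27) (nat_lit 5) (nat_lit 25) (nat_lit 5) (nat_lit 267) (nat_lit 245) (nat_lit 208)))) (XT.nd (nat_lit 156) (nat_lit 152) (nat_lit 0) (XT.nd (nat_lit 78) (nat_lit 0) (nat_lit 0) (XT.lf (nat_lit 0) (nat_lit 442978569) (nat_lit 304) (nat_lit 10855484747) (nat_lit 76) (nat_lit 7466368899)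 (nat_lit 20) (nat_lit 5) (nat_lit 24) (nat_lit 5) (nat_lit 21) (nat_lit 5) (nat_lit 268) (nat_lit 245) (nat_lit 207)) (XT.lf (nat_lit 0) (nat_lit 4083289559) (nat_lit 304) (nat_lit 853666098) (nat_lit 76) (nat_lit 14927428407) (nat_lit 20) (nat_lit 5) (nat_lit 24) (nat_lit 5) (nat_lit 21) (nat_lit 5) (nat_lit 269) (nat_lit 245) (nat_lit 206))) (XT.nd (nat_lit 78) (nat_lit 0) (nat_lit 0) (XT.lf (nat_lit 0) (nat_lit 8153697678) (nat_lit 228) (nat_lit 10878566613) (nat_lit 76) (nat_lit 2012905815) (nat_lit 18) (nat_lit 5) (nat_lit 21) (nat_lit 5) (nat_lit 19) (nat_lit 5) (nat_lit 270) (nat_lit 245) (nat_lit 205)) (XT.lf (nat_lit 0) (nat_lit 12597726841) (nat_lit 228) (nat_lit 377432622) (nat_lit 76) (nat_lit 9343057982) (nat_lit 18) (nat_lit 5) (nat_lit 21) (nat_lit 5) (nat_lit 19) (nat_lit 5) (nat_lit 271) (nat_lit 245) (nat_lit 204)))))) (XT.nd (nat_lit 624) (nat_lit 304) (nat_lit 0)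 (XT.nd (nat_lit 312) (nat_lit 228) (nat_lit 0) (XT.nd (nat_lit 156) (nat_lit 152) (nat_lit 0) (XT.nd (nat_lit 78) (nat_lit 0) (nat_lit 0) (XT.lf (nat_lit 0) (nat_lit 11256241716) (nat_lit 152) (nat_lit 6270137557) (nat_lit 228) (nat_lit 6160457429) (nat_lit 16) (nat_lit 5) (nat_lit 18) (nat_lit 5) (nat_lit 19) (nat_lit 5) (nat_lit 272) (nat_lit 245) (nat_lit 203)) (XT.lf (nat_lit 0) (nat_lit 22826649490) (nat_lit 228) (nat_lit 1412730808) (nat_lit 76) (nat_lit 926868533) (nat_lit 16) (nat_lit 5) (nat_lit 19) (nat_lit 5) (nat_lit 17) (nat_lit 4) (nat_lit 273) (nat_lit 245) (nat_lit 202))) (XT.nd (nat_lit 78) (nat_lit 0) (nat_lit 0) (XT.lf (nat_lit 0) (nat_lit 1964304195) (nat_lit 152) (nat_lit 16124253716) (nat_lit 76) (nat_lit 8662482156) (nat_lit 14) (nat_lit 5) (nat_lit 16) (nat_lit 5) (nat_lit 15) (nat_lit 5) (nat_lit 274) (nat_lit 245) (nat_lit 201)) (XT.lf (nat_lit 0) (nat_lit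 6516782932) (nat_lit 152) (nat_lit 4882060231) (nat_lit 76) (nat_lit 17062680669) (nat_lit 14) (nat_lit 5) (nat_lit 16) (nat_lit 5) (nat_lit 15) (nat_lit 5) (nat_lit 275) (nat_lit 245) (nat_lit 200)))) (XT.nd (nat_lit 156) (nat_lit 76) (nat_lit 0) (XT.nd (nat_lit 78) (nat_lit 0) (nat_lit 0) (XT.lf (nat_lit 0) (nat_lit 7441444602) (nat_lit 152) (nat_lit 4071273992) (nat_lit 228) (nat_lit 18792293003) (nat_lit 12) (nat_lit 5) (nat_lit 14) (nat_lit 5) (nat_lit 15) (nat_lit 5) (nat_lit 276) (nat_lit 245) (nat_lit 199)) (XT.lf (nat_lit 0) (nat_lit 17019436834) (nat_lit 228) (nat_lit 11483315993) (nat_lit 76) (nat_lit 3787788901) (nat_lit 12) (nat_lit 5) (nat_lit 15) (nat_lit 5) (nat_lit 13) (nat_lit 4) (nat_lit 277) (nat_lit 245) (nat_lit 198))) (XT.nd (nat_lit 78) (nat_lit 0) (nat_lit 0) (XT.lf (nat_lit 0) (nat_lit 710167237) (nat_lit 76) (nat_lit 22303557523) (nat_lit 152) (nat_lit 11418947836)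 (nat_lit 11) (nat_lit 5) (nat_lit 12) (nat_lit 5) (nat_lit 13) (nat_lit 4) (nat_lit 278) (nat_lit 245) (nat_lit 197)) (XT.lf (nat_lit 0) (nat_lit 14240154181) (nat_lit 76) (nat_lit 15416385807) (nat_lit 152) (nat_lit 7081286523) (nat_lit 11) (nat_lit 5) (nat_lit 12) (nat_lit 5) (nat_lit 13) (nat_lit 4) (nat_lit 279) (nat_lit 245) (nat_lit 196))))) (XT.nd (nat_lit 312) (nat_lit 76) (nat_lit 0) (XT.nd (nat_lit 156) (nat_lit 0) (nat_lit 0) (XT.nd (nat_lit 78) (nat_lit 228) (nat_lit 0) (XT.lf (nat_lit 0) (nat_lit 28807132253) (nat_lit 76) (nat_lit 7994900325) (nat_lit 152) (nat_lit 2426891809) (nat_lit 11) (nat_lit 5) (nat_lit 12) (nat_lit 5) (nat_lit 13) (nat_lit 4) (nat_lit 280) (nat_lit 245) (nat_lit 195)) (XT.lf (nat_lit 0) (nat_lit 2531820749) (nat_lit 228) (nat_lit 39297667845) (nat_lit 76) (nat_lit 87116171) (nat_lit 8) (nat_lit 5) (nat_lit 11) (nat_lit 5) (nat_lit 9) (nat_lit 4)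 (nat_lit 281) (nat_lit 245) (nat_lit 194))) (XT.nd (nat_lit 78) (nat_lit 0) (nat_lit 0) (XT.lf (nat_lit 0) (nat_lit 8096654520) (nat_lit 228) (nat_lit 27956126222) (nat_lit 76) (nat_lit 8749884000) (nat_lit 8) (nat_lit 5) (nat_lit 11) (nat_lit 5) (nat_lit 9) (nat_lit 4) (nat_lit 282) (nat_lit 245) (nat_lit 193)) (XT.lf (nat_lit 0) (nat_lit 14082590139) (nat_lit 228) (nat_lit 15746409691) (nat_lit 76) (nat_lit 18091885187) (nat_lit 8) (nat_lit 5) (nat_lit 11) (nat_lit 5) (nat_lit 9) (nat_lit 4) (nat_lit 283) (nat_lit 245) (nat_lit 192)))) (XT.nd (nat_lit 156) (nat_lit 0) (nat_lit 0) (XT.nd (nat_lit 78) (nat_lit 76) (nat_lit 0) (XT.lf (nat_lit 0) (nat_lit 20525099817) (nat_lit 228) (nat_lit 2596164377) (nat_lit 76) (nat_lit 28168479740) (nat_lit 8) (nat_lit 5) (nat_lit 11) (nat_lit 5) (nat_lit 9) (nat_lit 4) (nat_lit 284) (nat_lit 245) (nat_lit 191)) (XT.lf (nat_lit 0) (nat_lit 11955177439)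 (nat_lit 76) (nat_lit 15693837775) (nat_lit 152) (nat_lit 27270857196) (nat_lit 7) (nat_lit 5) (nat_lit 8) (nat_lit 5) (nat_lit 9) (nat_lit 4) (nat_lit 285) (nat_lit 245) (nat_lit 190))) (XT.nd (nat_lit 78) (nat_lit 0) (nat_lit 0) (XT.lf (nat_lit 0) (nat_lit 27731229958) (nat_lit 76) (nat_lit 7637216812) (nat_lit 152) (nat_lit 23470740813) (nat_lit 7) (nat_lit 5) (nat_lit 8) (nat_lit 5) (nat_lit 9) (nat_lit 4) (nat_lit 286) (nat_lit 245) (nat_lit 189)) (XT.nd (nat_lit 78) (nat_lit 0) (nat_lit 0) (XT.lf (nat_lit 0) (nat_lit 43703696162) (nat_lit 152) (nat_lit 18349799241) (nat_lit 0) (nat_lit 1018691780) (nat_lit 7) (nat_lit 5) (nat_lit 9) (nat_lit 4) (nat_lit 7) (nat_lit 4) (nat_lit 287) (nat_lit 245) (nat_lit 188)) (XT.lf (nat_lit 0) (nat_lit 52817554339) (nat_lit 152) (nat_lit 4728012796) (nat_lit 0) (nat_lit 10092718670) (nat_lit 7) (nat_lit 5) (nat_lit 9) (nat_lit 4) (nat_lit 7)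 (nat_lit 4) (nat_lit 288) (nat_lit 245) (nat_lit 187))))))))
noncomputable def xc62 : XT := (XT.nd (nat_lit 1248) (nat_lit 0) (nat_lit 0) (XT.nd (nat_lit 624) (nat_lit 76) (nat_lit 0) (XT.nd (nat_lit 312) (nat_lit 76) (nat_lit 0) (XT.nd (nat_lit 156) (nat_lit 76) (nat_lit 0) (XT.nd (nat_lit 78) (nat_lit 0) (nat_lit 0) (XT.lf (nat_lit 0) (nat_lit 10286597110) (nat_lit 76) (nat_lit 52518796490) (nat_lit 76) (nat_lit 9757080001) (nat_lit 6) (nat_lit 4) (nat_lit 7) (nat_lit 5) (nat_lit 7) (nat_lit 4) (nat_lit 289) (nat_lit 245) (nat_lit 186)) (XT.lf (nat_lit 0) (nat_lit 26646193477) (nat_lit 76) (nat_lit 47013469875) (nat_lit 76) (nat_lit 4217604478) (nat_lit 6) (nat_lit 4) (nat_lit 7) (nat_lit 5) (nat_lit 7) (nat_lit 4) (nat_lit 290) (nat_lit 245) (nat_lit 185))) (XT.nd (nat_lit 78) (nat_lit 0) (nat_lit 0) (XT.lf (nat_lit 0) (nat_lit 1694425091) (nat_lit 152) (nat_lit 39353913318) (nat_lit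 76) (nat_lit 42568271604) (nat_lit 5) (nat_lit 5) (nat_lit 7) (nat_lit 5) (nat_lit 6) (nat_lit 4) (nat_lit 291) (nat_lit 245) (nat_lit 184)) (XT.lf (nat_lit 0) (nat_lit 7920561465) (nat_lit 152) (nat_lit 26619610937) (nat_lit 76) (nat_lit 55272058629) (nat_lit 5) (nat_lit 5) (nat_lit 7) (nat_lit 5) (nat_lit 6) (nat_lit 4) (nat_lit 292) (nat_lit 245) (nat_lit 183)))) (XT.nd (nat_lit 156) (nat_lit 0) (nat_lit 0) (XT.nd (nat_lit 78) (nat_lit 76) (nat_lit 0) (XT.lf (nat_lit 0) (nat_lit 14632689948) (nat_lit 152) (nat_lit 12886856050) (nat_lit 76) (nat_lit 68984592104) (nat_lit 5) (nat_lit 5) (nat_lit 7) (nat_lit 5) (nat_lit 6) (nat_lit 4) (nat_lit 293) (nat_lit 245) (nat_lit 182)) (XT.lf (nat_lit 0) (nat_lit 1989403980) (nat_lit 76) (nat_lit 19912242308) (nat_lit 152) (nat_lit 81828787680) (nat_lit 4) (nat_lit 5) (nat_lit 5) (nat_lit 5) (nat_lit 6) (nat_lit 4) (nat_lit 294) (nat_lit 245)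 (nat_lit 181))) (XT.nd (nat_lit 78) (nat_lit 0) (nat_lit 0) (XT.lf (nat_lit 0) (nat_lit 18497978218) (nat_lit 76) (nat_lit 11467968270) (nat_lit 152) (nat_lit 81558222596) (nat_lit 4) (nat_lit 5) (nat_lit 5) (nat_lit 5) (nat_lit 6) (nat_lit 4) (nat_lit 295) (nat_lit 245) (nat_lit 180)) (XT.lf (nat_lit 0) (nat_lit 36310597590) (nat_lit 76) (nat_lit 2354928886) (nat_lit 152) (nat_lit 81276394699) (nat_lit 4) (nat_lit 5) (nat_lit 5) (nat_lit 5) (nat_lit 6) (nat_lit 4) (nat_lit 296) (nat_lit 245) (nat_lit 179))))) (XT.nd (nat_lit 312) (nat_lit 76) (nat_lit 0) (XT.nd (nat_lit 156) (nat_lit 0) (nat_lit 0) (XT.nd (nat_lit 78) (nat_lit 0) (nat_lit 0) (XT.lf (nat_lit 0) (nat_lit 48168736808) (nat_lit 152) (nat_lit 73617552343) (nat_lit 0) (nat_lit 7241444191) (nat_lit 4) (nat_lit 5) (nat_lit 6) (nat_lit 4) (nat_lit 4) (nat_lit 4) (nat_lit 297) (nat_lit 245) (nat_lit 178)) (XT.lf (nat_lit 0)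 (nat_lit 58463364676) (nat_lit 152) (nat_lit 62857008146) (nat_lit 0) (nat_lit 17518501018) (nat_lit 4) (nat_lit 5) (nat_lit 6) (nat_lit 4) (nat_lit 4) (nat_lit 4) (nat_lit 298) (nat_lit 245) (nat_lit 177))) (XT.nd (nat_lit 78) (nat_lit 0) (nat_lit 0) (XT.lf (nat_lit 0) (nat_lit 69573648243) (nat_lit 152) (nat_lit 51249157768) (nat_lit 0) (nat_lit 28612515103) (nat_lit 4) (nat_lit 5) (nat_lit 6) (nat_lit 4) (nat_lit 4) (nat_lit 4) (nat_lit 299) (nat_lit 245) (nat_lit 176)) (XT.lf (nat_lit 0) (nat_lit 81565426226) (nat_lit 152) (nat_lit 38725213948) (nat_lit 0) (nat_lit 40589228752) (nat_lit 4) (nat_lit 5) (nat_lit 6) (nat_lit 4) (nat_lit 4) (nat_lit 4) (nat_lit 300) (nat_lit 245) (nat_lit 175)))) (XT.nd (nat_lit 156) (nat_lit 76) (nat_lit 0) (XT.nd (nat_lit 78) (nat_lit 0) (nat_lit 0) (XT.lf (nat_lit 0) (nat_lit 94509761014) (nat_lit 152) (nat_lit 25210960721) (nat_lit 0) (nat_lit 53519615081)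 (nat_lit 4) (nat_lit 5) (nat_lit 6) (nat_lit 4) (nat_lit 4) (nat_lit 4) (nat_lit 301) (nat_lit 245) (nat_lit 174)) (XT.lf (nat_lit 0) (nat_lit 108483359776) (nat_lit 152) (nat_lit 10626313624) (nat_lit 0) (nat_lit 67480298604) (nat_lit 4) (nat_lit 5) (nat_lit 6) (nat_lit 4) (nat_lit 4) (nat_lit 4) (nat_lit 302) (nat_lit 245) (nat_lit 173))) (XT.nd (nat_lit 78) (nat_lit 0) (nat_lit 0) (XT.lf (nat_lit 0) (nat_lit 5284285001) (nat_lit 76) (nat_lit 118367246519) (nat_lit 76) (nat_lit 77352226792) (nat_lit 3) (nat_lit 4) (nat_lit 4) (nat_lit 5) (nat_lit 4) (nat_lit 4) (nat_lit 303) (nat_lit 245) (nat_lit 172)) (XT.lf (nat_lit 0) (nat_lit 22837675820) (nat_lit 76) (nat_lit 117375049615) (nat_lit 76) (nat_lit 76348957151) (nat_lit 3) (nat_lit 4) (nat_lit 4) (nat_lit 5) (nat_lit 4) (nat_lit 4) (nat_lit 304) (nat_lit 245) (nat_lit 171)))))) (XT.nd (nat_lit 624) (nat_lit 0) (nat_lit 0) (XT.nd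 (nat_lit 312) (nat_lit 0) (nat_lit 0) (XT.nd (nat_lit 156) (nat_lit 0) (nat_lit 0) (XT.nd (nat_lit 78) (nat_lit 0) (nat_lit 0) (XT.lf (nat_lit 0) (nat_lit 41786525007) (nat_lit 76) (nat_lit 116307164764) (nat_lit 76) (nat_lit 75270819768) (nat_lit 3) (nat_lit 4) (nat_lit 4) (nat_lit 5) (nat_lit 4) (nat_lit 4) (nat_lit 305) (nat_lit 245) (nat_lit 170)) (XT.lf (nat_lit 0) (nat_lit 62243122038) (nat_lit 76) (nat_lit 115157263762) (nat_lit 76) (nat_lit 74111425679) (nat_lit 3) (nat_lit 4) (nat_lit 4) (nat_lit 5) (nat_lit 4) (nat_lit 4) (nat_lit 306) (nat_lit 245) (nat_lit 169))) (XT.nd (nat_lit 78) (nat_lit 0) (nat_lit 0) (XT.lf (nat_lit 0) (nat_lit 84328691194) (nat_lit 76) (nat_lit 113918532379) (nat_lit 76) (nat_lit 72863904401) (nat_lit 3) (nat_lit 4) (nat_lit 4) (nat_lit 5) (nat_lit 4) (nat_lit 4) (nat_lit 307) (nat_lit 245) (nat_lit 168)) (XT.lf (nat_lit 0) (nat_lit 108174109919)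 (nat_lit 76) (nat_lit 112583629985) (nat_lit 76) (nat_lit 71520863216) (nat_lit 3) (nat_lit 4) (nat_lit 4) (nat_lit 5) (nat_lit 4) (nat_lit 4) (nat_lit 308) (nat_lit 245) (nat_lit 167)))) (XT.nd (nat_lit 156) (nat_lit 0) (nat_lit 0) (XT.nd (nat_lit 78) (nat_lit 0) (nat_lit 0) (XT.lf (nat_lit 0) (nat_lit 133920684400) (nat_lit 76) (nat_lit 111144646048) (nat_lit 76) (nat_lit 70074343361) (nat_lit 3) (nat_lit 4) (nat_lit 4) (nat_lit 5) (nat_lit 4) (nat_lit 4) (nat_lit 309) (nat_lit 245) (nat_lit 166)) (XT.lf (nat_lit 0) (nat_lit 161720986930) (nat_lit 76) (nat_lit 109593053256) (nat_lit 76) (nat_lit 68515772867) (nat_lit 3) (nat_lit 4) (nat_lit 4) (nat_lit 5) (nat_lit 4) (nat_lit 4) (nat_lit 310) (nat_lit 245) (nat_lit 165))) (XT.nd (nat_lit 78) (nat_lit 0) (nat_lit 0) (XT.lf (nat_lit 0) (nat_lit 191739760042) (nat_lit 76) (nat_lit 107919656983) (nat_lit 76) (nat_lit 66835915759) (nat_lit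 3) (nat_lit 4) (nat_lit 4) (nat_lit 5) (nat_lit 4) (nat_lit 4) (nat_lit 311) (nat_lit 245) (nat_lit 164)) (XT.lf (nat_lit 0) (nat_lit 224154892762) (nat_lit 76) (nat_lit 106114540809) (nat_lit 76) (nat_lit 65024817330) (nat_lit 3) (nat_lit 4) (nat_lit 4) (nat_lit 5) (nat_lit 4) (nat_lit 4) (nat_lit 312) (nat_lit 245) (nat_lit 163))))) (XT.nd (nat_lit 312) (nat_lit 0) (nat_lit 0) (XT.nd (nat_lit 156) (nat_lit 0) (nat_lit 0) (XT.nd (nat_lit 78) (nat_lit 0) (nat_lit 0) (XT.lf (nat_lit 0) (nat_lit 259158474765) (nat_lit 76) (nat_lit 104167007748) (nat_lit 76) (nat_lit 63071745144) (nat_lit 3) (nat_lit 4) (nat_lit 4) (nat_lit 5) (nat_lit 4) (nat_lit 4) (nat_lit 313) (nat_lit 245) (nat_lit 162)) (XT.lf (nat_lit 0) (nat_lit 296957934686) (nat_lit 76) (nat_lit 102065516863) (nat_lit 76) (nat_lit 60965125440) (nat_lit 3) (nat_lit 4) (nat_lit 4) (nat_lit 5) (nat_lit 4) (nat_lit 4) (nat_lit 314)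 (nat_lit 245) (nat_lit 161))) (XT.nd (nat_lit 78) (nat_lit 0) (nat_lit 0) (XT.lf (nat_lit 0) (nat_lit 337777269324) (nat_lit 76) (nat_lit 99797614876) (nat_lit 76) (nat_lit 58692474546) (nat_lit 3) (nat_lit 4) (nat_lit 4) (nat_lit 5) (nat_lit 4) (nat_lit 4) (nat_lit 315) (nat_lit 245) (nat_lit 160)) (XT.lf (nat_lit 0) (nat_lit 381858371032) (nat_lit 76) (nat_lit 97349862366) (nat_lit 76) (nat_lit 56240324901) (nat_lit 3) (nat_lit 4) (nat_lit 4) (nat_lit 5) (nat_lit 4) (nat_lit 4) (nat_lit 316) (nat_lit 245) (nat_lit 159)))) (XT.nd (nat_lit 156) (nat_lit 0) (nat_lit 0) (XT.nd (nat_lit 78) (nat_lit 0) (nat_lit 0) (XT.lf (nat_lit 0) (nat_lit 429462461154) (nat_lit 76) (nat_lit 94707754135) (nat_lit 76) (nat_lit 53594145248) (nat_lit 3) (nat_lit 4) (nat_lit 4) (nat_lit 5) (nat_lit 4) (nat_lit 4) (nat_lit 317) (nat_lit 245) (nat_lit 158)) (XT.lf (nat_lit 0) (nat_lit 480871638002) (nat_lit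 76) (nat_lit 91855633244) (nat_lit 76) (nat_lit 50738254522) (nat_lit 3) (nat_lit 4) (nat_lit 4) (nat_lit 5) (nat_lit 4) (nat_lit 4) (nat_lit 318) (nat_lit 245) (nat_lit 157))) (XT.nd (nat_lit 31824) (nat_lit 0) (nat_lit 5396) (XT.lf (nat_lit 0) (nat_lit 536390548550) (nat_lit 76) (nat_lit 88776598237) (nat_lit 76) (nat_lit 47655728927) (nat_lit 3) (nat_lit 4) (nat_lit 4) (nat_lit 5) (nat_lit 4) (nat_lit 4) (nat_lit 319) (nat_lit 245) (nat_lit 156)) (XT.nd (nat_lit 78) (nat_lit 0) (nat_lit 0) (XT.lf (nat_lit 0) (nat_lit 1158993557) (nat_lit 532) (nat_lit 1304010279) (nat_lit 532) (nat_lit 1304010279) (nat_lit 74) (nat_lit 3) (nat_lit 81) (nat_lit 3) (nat_lit 81) (nat_lit 5) (nat_lit 246) (nat_lit 246) (nat_lit 228)) (XT.lf (nat_lit 76) (nat_lit 2244650649) (nat_lit 0) (nat_lit 2099137668) (nat_lit 532) (nat_lit 3381226843) (nat_lit 75) (nat_lit 5) (nat_lit 74) (nat_lit 3) (nat_lit 81)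 (nat_lit 5) (nat_lit 247) (nat_lit 246) (nat_lit 227))))))))
noncomputable def xc63 : XT := (XT.nd (nat_lit 1326) (nat_lit 1368) (nat_lit 0) (XT.nd (nat_lit 624) (nat_lit 1900) (nat_lit 0) (XT.nd (nat_lit 312) (nat_lit 1064) (nat_lit 0) (XT.nd (nat_lit 156) (nat_lit 0) (nat_lit 76) (XT.nd (nat_lit 78) (nat_lit 532) (nat_lit 0) (XT.lf (nat_lit 0) (nat_lit 6402578206) (nat_lit 456) (nat_lit 481999562) (nat_lit 532) (nat_lit 1054529716) (nat_lit 75) (nat_lit 5) (nat_lit 81) (nat_lit 5) (nat_lit 82) (nat_lit 5) (nat_lit 248) (nat_lit 246) (nat_lit 226)) (XT.lf (nat_lit 0) (nat_lit 375210842) (nat_lit 532) (nat_lit 3249589275) (nat_lit 608) (nat_lit 4549679103) (nat_lit 68) (nat_lit 5) (nat_lit 75) (nat_lit 5) (nat_lit 76) (nat_lit 5) (nat_lit 249) (nat_lit 246) (nat_lit 225))) (XT.nd (nat_lit 78) (nat_lit 0) (nat_lit 0) (XT.lf (nat_lit 0) (nat_lit 2263067613) (nat_lit 532) (nat_lit 6144040984)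 (nat_lit 608) (nat_lit 27582956) (nat_lit 69) (nat_lit 5) (nat_lit 76) (nat_lit 5) (nat_lit 77) (nat_lit 5) (nat_lit 250) (nat_lit 246) (nat_lit 224)) (XT.lf (nat_lit 0) (nat_lit 4263818446) (nat_lit 532) (nat_lit 499224096) (nat_lit 608) (nat_lit 3955622835) (nat_lit 69) (nat_lit 5) (nat_lit 76) (nat_lit 5) (nat_lit 77) (nat_lit 5) (nat_lit 251) (nat_lit 246) (nat_lit 223)))) (XT.nd (nat_lit 156) (nat_lit 684) (nat_lit 0) (XT.nd (nat_lit 78) (nat_lit 456) (nat_lit 0) (XT.lf (nat_lit 76) (nat_lit 5672783204) (nat_lit 0) (nat_lit 695239240) (nat_lit 608) (nat_lit 2661125918) (nat_lit 70) (nat_lit 5) (nat_lit 69) (nat_lit 5) (nat_lit 77) (nat_lit 5) (nat_lit 252) (nat_lit 246) (nat_lit 222)) (XT.lf (nat_lit 0) (nat_lit 2918282336) (nat_lit 532) (nat_lit 5698954970) (nat_lit 608) (nat_lit 749288683) (nat_lit 63) (nat_lit 5) (nat_lit 70) (nat_lit 5) (nat_lit 71) (nat_lit 5) (nat_lit 253)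 (nat_lit 246) (nat_lit 221))) (XT.nd (nat_lit 78) (nat_lit 608) (nat_lit 0) (XT.lf (nat_lit 0) (nat_lit 1214593130) (nat_lit 608) (nat_lit 56338398) (nat_lit 76) (nat_lit 8462659881) (nat_lit 62) (nat_lit 5) (nat_lit 70) (nat_lit 5) (nat_lit 63) (nat_lit 5) (nat_lit 254) (nat_lit 246) (nat_lit 220)) (XT.lf (nat_lit 0) (nat_lit 3355052923) (nat_lit 684) (nat_lit 3232672765) (nat_lit 76) (nat_lit 3540122736) (nat_lit 54) (nat_lit 5) (nat_lit 63) (nat_lit 5) (nat_lit 55) (nat_lit 5) (nat_lit 255) (nat_lit 246) (nat_lit 219))))) (XT.nd (nat_lit 312) (nat_lit 760) (nat_lit 0) (XT.nd (nat_lit 156) (nat_lit 380) (nat_lit 0) (XT.nd (nat_lit 78) (nat_lit 304) (nat_lit 0) (XT.lf (nat_lit 0) (nat_lit 3849070731) (nat_lit 456) (nat_lit 1787517510) (nat_lit 532) (nat_lit 4919238488) (nat_lit 48) (nat_lit 5) (nat_lit 54) (nat_lit 5) (nat_lit 55) (nat_lit 5) (nat_lit 256) (nat_lit 246) (nat_lit 218))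 (XT.lf (nat_lit 0) (nat_lit 452691101) (nat_lit 304) (nat_lit 7659502377) (nat_lit 380) (nat_lit 2905895301) (nat_lit 44) (nat_lit 5) (nat_lit 48) (nat_lit 5) (nat_lit 49) (nat_lit 5) (nat_lit 257) (nat_lit 246) (nat_lit 217))) (XT.nd (nat_lit 78) (nat_lit 380) (nat_lit 0) (XT.lf (nat_lit 0) (nat_lit 8292427235) (nat_lit 304) (nat_lit 2540376828) (nat_lit 380) (nat_lit 682756584) (nat_lit 44) (nat_lit 5) (nat_lit 48) (nat_lit 5) (nat_lit 49) (nat_lit 5) (nat_lit 258) (nat_lit 246) (nat_lit 216)) (XT.lf (nat_lit 0) (nat_lit 1691236382) (nat_lit 380) (nat_lit 7367042935) (nat_lit 76) (nat_lit 2992318313) (nat_lit 39) (nat_lit 5) (nat_lit 44) (nat_lit 5) (nat_lit 40) (nat_lit 5) (nat_lit 259) (nat_lit 246) (nat_lit 215)))) (XT.nd (nat_lit 156) (nat_lit 532) (nat_lit 0) (XT.nd (nat_lit 78) (nat_lit 0) (nat_lit 0) (XT.lf (nat_lit 0) (nat_lit 577867469) (nat_lit 228) (nat_lit 3673886820)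 (nat_lit 304) (nat_lit 8375568232) (nat_lit 36) (nat_lit 5) (nat_lit 39) (nat_lit 5) (nat_lit 40) (nat_lit 5) (nat_lit 260) (nat_lit 246) (nat_lit 214)) (XT.lf (nat_lit 0) (nat_lit 7097222463) (nat_lit 304) (nat_lit 3955684452) (nat_lit 76) (nat_lit 2193709049) (nat_lit 36) (nat_lit 5) (nat_lit 40) (nat_lit 5) (nat_lit 37) (nat_lit 5) (nat_lit 261) (nat_lit 246) (nat_lit 213))) (XT.nd (nat_lit 78) (nat_lit 304) (nat_lit 0) (XT.lf (nat_lit 0) (nat_lit 4786249450) (nat_lit 228) (nat_lit 5443202850) (nat_lit 304) (nat_lit 3683448080) (nat_lit 33) (nat_lit 5) (nat_lit 36) (nat_lit 5) (nat_lit 37) (nat_lit 5) (nat_lit 262) (nat_lit 246) (nat_lit 212)) (XT.nd (nat_lit 78) (nat_lit 304) (nat_lit 0) (XT.lf (nat_lit 0) (nat_lit 13618532049) (nat_lit 304) (nat_lit 361448328) (nat_lit 76) (nat_lit 652567398) (nat_lit 33) (nat_lit 5) (nat_lit 37) (nat_lit 5) (nat_lit 34) (nat_lit 5) (nat_lit 263)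 (nat_lit 246) (nat_lit 211)) (XT.lf (nat_lit 0) (nat_lit 1979439768) (nat_lit 304) (nat_lit 6208974214) (nat_lit 76) (nat_lit 7211709252) (nat_lit 29) (nat_lit 5) (nat_lit 33) (nat_lit 5) (nat_lit 30) (nat_lit 5) (nat_lit 264) (nat_lit 246) (nat_lit 210))))))) (XT.nd (nat_lit 624) (nat_lit 380) (nat_lit 0) (XT.nd (nat_lit 312) (nat_lit 608) (nat_lit 0) (XT.nd (nat_lit 156) (nat_lit 152) (nat_lit 0) (XT.nd (nat_lit 78) (nat_lit 0) (nat_lit 0) (XT.lf (nat_lit 0) (nat_lit 3297826456) (nat_lit 228) (nat_lit 1871866149) (nat_lit 304) (nat_lit 11059243827) (nat_lit 26) (nat_lit 5) (nat_lit 29) (nat_lit 5) (nat_lit 30) (nat_lit 5) (nat_lit 265) (nat_lit 246) (nat_lit 209)) (XT.lf (nat_lit 0) (nat_lit 8740215299) (nat_lit 304) (nat_lit 3492927214) (nat_lit 76) (nat_lit 4884942296) (nat_lit 26) (nat_lit 5) (nat_lit 30) (nat_lit 5) (nat_lit 27) (nat_lit 5) (nat_lit 266) (nat_lit 246) (nat_lit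 208))) (XT.nd (nat_lit 78) (nat_lit 0) (nat_lit 0) (XT.lf (nat_lit 0) (nat_lit 6810699142) (nat_lit 152) (nat_lit 5866019324) (nat_lit 228) (nat_lit 5397891330) (nat_lit 24) (nat_lit 5) (nat_lit 26) (nat_lit 5) (nat_lit 27) (nat_lit 5) (nat_lit 267) (nat_lit 246) (nat_lit 207)) (XT.lf (nat_lit 0) (nat_lit 16951044092) (nat_lit 228) (nat_lit 1133448104) (nat_lit 76) (nat_lit 1022261766) (nat_lit 24) (nat_lit 5) (nat_lit 27) (nat_lit 5) (nat_lit 25) (nat_lit 5) (nat_lit 268) (nat_lit 246) (nat_lit 206)))) (XT.nd (nat_lit 156) (nat_lit 152) (nat_lit 0) (XT.nd (nat_lit 78) (nat_lit 152) (nat_lit 0) (XT.lf (nat_lit 0) (nat_lit 1509604941) (nat_lit 304) (nat_lit 10278438658) (nat_lit 76) (nat_lit 8422247384) (nat_lit 20) (nat_lit 5) (nat_lit 24) (nat_lit 5) (nat_lit 21) (nat_lit 5) (nat_lit 269) (nat_lit 246) (nat_lit 205)) (XT.lf (nat_lit 0) (nat_lit 430222331) (nat_lit 152) (nat_lit 4941251152)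 (nat_lit 228) (nat_lit 16030125633) (nat_lit 18) (nat_lit 5) (nat_lit 20) (nat_lit 5) (nat_lit 21) (nat_lit 5) (nat_lit 270) (nat_lit 246) (nat_lit 204))) (XT.nd (nat_lit 78) (nat_lit 152) (nat_lit 0) (XT.lf (nat_lit 0) (nat_lit 9715932530) (nat_lit 228) (nat_lit 10425701980) (nat_lit 76) (nat_lit 2538078517) (nat_lit 18) (nat_lit 5) (nat_lit 21) (nat_lit 5) (nat_lit 19) (nat_lit 5) (nat_lit 271) (nat_lit 246) (nat_lit 203)) (XT.lf (nat_lit 0) (nat_lit 844542247) (nat_lit 152) (nat_lit 13616724558) (nat_lit 228) (nat_lit 9596312930) (nat_lit 16) (nat_lit 5) (nat_lit 18) (nat_lit 5) (nat_lit 19) (nat_lit 5) (nat_lit 272) (nat_lit 246) (nat_lit 202))))) (XT.nd (nat_lit 312) (nat_lit 228) (nat_lit 0) (XT.nd (nat_lit 156) (nat_lit 152) (nat_lit 0) (XT.nd (nat_lit 78) (nat_lit 0) (nat_lit 0) (XT.lf (nat_lit 0) (nat_lit 13328636866) (nat_lit 152) (nat_lit 6398275388) (nat_lit 228) (nat_lit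 5811886350) (nat_lit 16) (nat_lit 5) (nat_lit 18) (nat_lit 5) (nat_lit 19) (nat_lit 5) (nat_lit 273) (nat_lit 246) (nat_lit 201)) (XT.lf (nat_lit 0) (nat_lit 25397460710) (nat_lit 228) (nat_lit 406258640) (nat_lit 76) (nat_lit 1335758478) (nat_lit 16) (nat_lit 5) (nat_lit 19) (nat_lit 5) (nat_lit 17) (nat_lit 4) (nat_lit 274) (nat_lit 246) (nat_lit 200))) (XT.nd (nat_lit 78) (nat_lit 0) (nat_lit 0) (XT.lf (nat_lit 0) (nat_lit 2841805540) (nat_lit 152) (nat_lit 16317035106) (nat_lit 76) (nat_lit 9693763060) (nat_lit 14) (nat_lit 5) (nat_lit 16) (nat_lit 5) (nat_lit 15) (nat_lit 5) (nat_lit 275) (nat_lit 246) (nat_lit 199)) (XT.lf (nat_lit 0) (nat_lit 7705122797) (nat_lit 152) (nat_lit 4256737173) (nat_lit 76) (nat_lit 18740919503) (nat_lit 14) (nat_lit 5) (nat_lit 16) (nat_lit 5) (nat_lit 15) (nat_lit 5) (nat_lit 276) (nat_lit 246) (nat_lit 198)))) (XT.nd (nat_lit 156) (nat_lit 76) (nat_lit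 0) (XT.nd (nat_lit 78) (nat_lit 0) (nat_lit 0) (XT.lf (nat_lit 0) (nat_lit 9008498798) (nat_lit 152) (nat_lit 4057998876) (nat_lit 228) (nat_lit 19629131953) (nat_lit 12) (nat_lit 5) (nat_lit 14) (nat_lit 5) (nat_lit 15) (nat_lit 5) (nat_lit 277) (nat_lit 246) (nat_lit 197)) (XT.lf (nat_lit 0) (nat_lit 18971782497) (nat_lit 228) (nat_lit 11475843176) (nat_lit 76) (nat_lit 4394633915) (nat_lit 12) (nat_lit 5) (nat_lit 15) (nat_lit 5) (nat_lit 13) (nat_lit 4) (nat_lit 278) (nat_lit 246) (nat_lit 196))) (XT.nd (nat_lit 78) (nat_lit 0) (nat_lit 0) (XT.lf (nat_lit 0) (nat_lit 1652869879) (nat_lit 76) (nat_lit 23762812516) (nat_lit 152) (nat_lit 11741722189) (nat_lit 11) (nat_lit 5) (nat_lit 12) (nat_lit 5) (nat_lit 13) (nat_lit 4) (nat_lit 279) (nat_lit 246) (nat_lit 195)) (XT.nd (nat_lit 78) (nat_lit 0) (nat_lit 0) (XT.lf (nat_lit 0) (nat_lit 16199634353) (nat_lit 76) (nat_lit 16348743330)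 (nat_lit 152) (nat_lit 7100806598) (nat_lit 11) (nat_lit 5) (nat_lit 12) (nat_lit 5) (nat_lit 13) (nat_lit 4) (nat_lit 280) (nat_lit 246) (nat_lit 194)) (XT.lf (nat_lit 0) (nat_lit 31871210090) (nat_lit 76) (nat_lit 8355831849) (nat_lit 152) (nat_lit 2114577555) (nat_lit 11) (nat_lit 5) (nat_lit 12) (nat_lit 5) (nat_lit 13) (nat_lit 4) (nat_lit 281) (nat_lit 246) (nat_lit 193))))))))
noncomputable def xc64 : XT := (XT.nd (nat_lit 1248) (nat_lit 76) (nat_lit 0) (XT.nd (nat_lit 624) (nat_lit 228) (nat_lit 0) (XT.nd (nat_lit 312) (nat_lit 76) (nat_lit 0) (XT.nd (nat_lit 156) (nat_lit 0) (nat_lit 0) (XT.nd (nat_lit 78) (nat_lit 0) (nat_lit 0) (XT.lf (nat_lit 0) (nat_lit 3204252638) (nat_lit 228) (nat_lit 41677710615) (nat_lit 76) (nat_lit 363085365) (nat_lit 8) (nat_lit 5) (nat_lit 11) (nat_lit 5) (nat_lit 9) (nat_lit 4) (nat_lit 282) (nat_lit 246) (nat_lit 192)) (XT.lf (nat_lit 0) (nat_lit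 9179466723) (nat_lit 228) (nat_lit 29485421266) (nat_lit 76) (nat_lit 9698948701) (nat_lit 8) (nat_lit 5) (nat_lit 11) (nat_lit 5) (nat_lit 9) (nat_lit 4) (nat_lit 283) (nat_lit 246) (nat_lit 191))) (XT.nd (nat_lit 78) (nat_lit 0) (nat_lit 0) (XT.lf (nat_lit 0) (nat_lit 15612049055) (nat_lit 228) (nat_lit 16351312232) (nat_lit 76) (nat_lit 19769860059) (nat_lit 8) (nat_lit 5) (nat_lit 11) (nat_lit 5) (nat_lit 9) (nat_lit 4) (nat_lit 284) (nat_lit 246) (nat_lit 190)) (XT.lf (nat_lit 0) (nat_lit 22540118641) (nat_lit 228) (nat_lit 2197551755) (nat_lit 76) (nat_lit 30635498913) (nat_lit 8) (nat_lit 5) (nat_lit 11) (nat_lit 5) (nat_lit 9) (nat_lit 4) (nat_lit 285) (nat_lit 246) (nat_lit 189)))) (XT.nd (nat_lit 156) (nat_lit 0) (nat_lit 0) (XT.nd (nat_lit 78) (nat_lit 0) (nat_lit 0) (XT.lf (nat_lit 0) (nat_lit 13491548096) (nat_lit 76) (nat_lit 16723823485) (nat_lit 152) (nat_lit 29079347012)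 (nat_lit 7) (nat_lit 5) (nat_lit 8) (nat_lit 5) (nat_lit 9) (nat_lit 4) (nat_lit 286) (nat_lit 246) (nat_lit 188)) (XT.lf (nat_lit 0) (nat_lit 30486725080) (nat_lit 76) (nat_lit 8039378128) (nat_lit 152) (nat_lit 25002864189) (nat_lit 7) (nat_lit 5) (nat_lit 8) (nat_lit 5) (nat_lit 9) (nat_lit 4) (nat_lit 287) (nat_lit 246) (nat_lit 187))) (XT.nd (nat_lit 78) (nat_lit 0) (nat_lit 0) (XT.lf (nat_lit 0) (nat_lit 47506881577) (nat_lit 152) (nat_lit 19307513074) (nat_lit 0) (nat_lit 1287346948) (nat_lit 7) (nat_lit 5) (nat_lit 9) (nat_lit 4) (nat_lit 7) (nat_lit 4) (nat_lit 288) (nat_lit 246) (nat_lit 186)) (XT.lf (nat_lit 0) (nat_lit 57327115835) (nat_lit 152) (nat_lit 4633781500) (nat_lit 0) (nat_lit 11073432299) (nat_lit 7) (nat_lit 5) (nat_lit 9) (nat_lit 4) (nat_lit 7) (nat_lit 4) (nat_lit 289) (nat_lit 246) (nat_lit 185))))) (XT.nd (nat_lit 312) (nat_lit 76) (nat_lit 0) (XT.nd (nat_lit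 156) (nat_lit 76) (nat_lit 0) (XT.nd (nat_lit 78) (nat_lit 0) (nat_lit 0) (XT.lf (nat_lit 0) (nat_lit 11561464128) (nat_lit 76) (nat_lit 56538525470) (nat_lit 76) (nat_lit 10253222574) (nat_lit 6) (nat_lit 4) (nat_lit 7) (nat_lit 5) (nat_lit 7) (nat_lit 4) (nat_lit 290) (nat_lit 246) (nat_lit 184)) (XT.lf (nat_lit 0) (nat_lit 29196351223) (nat_lit 76) (nat_lit 50606237522) (nat_lit 76) (nat_lit 4291657442) (nat_lit 6) (nat_lit 4) (nat_lit 7) (nat_lit 5) (nat_lit 7) (nat_lit 4) (nat_lit 291) (nat_lit 246) (nat_lit 183))) (XT.nd (nat_lit 78) (nat_lit 0) (nat_lit 0) (XT.lf (nat_lit 0) (nat_lit 2066022040) (nat_lit 152) (nat_lit 42106343400) (nat_lit 76) (nat_lit 46121157952) (nat_lit 5) (nat_lit 5) (nat_lit 7) (nat_lit 5) (nat_lit 6) (nat_lit 4) (nat_lit 292) (nat_lit 246) (nat_lit 182)) (XT.lf (nat_lit 0) (nat_lit 8772764661) (nat_lit 152) (nat_lit 28382621493) (nat_lit 76) (nat_lit 59830327596)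 (nat_lit 5) (nat_lit 5) (nat_lit 7) (nat_lit 5) (nat_lit 6) (nat_lit 4) (nat_lit 293) (nat_lit 246) (nat_lit 181)))) (XT.nd (nat_lit 156) (nat_lit 0) (nat_lit 0) (XT.nd (nat_lit 78) (nat_lit 76) (nat_lit 0) (XT.lf (nat_lit 0) (nat_lit 16005673921) (nat_lit 152) (nat_lit 13578398684) (nat_lit 76) (nat_lit 74629752322) (nat_lit 5) (nat_lit 5) (nat_lit 7) (nat_lit 5) (nat_lit 6) (nat_lit 4) (nat_lit 294) (nat_lit 246) (nat_lit 180)) (XT.lf (nat_lit 0) (nat_lit 2473211984) (nat_lit 76) (nat_lit 21373013290) (nat_lit 152) (nat_lit 88172534209) (nat_lit 4) (nat_lit 5) (nat_lit 5) (nat_lit 5) (nat_lit 6) (nat_lit 4) (nat_lit 295) (nat_lit 246) (nat_lit 179))) (XT.nd (nat_lit 78) (nat_lit 0) (nat_lit 0) (XT.lf (nat_lit 0) (nat_lit 20278423591) (nat_lit 76) (nat_lit 12262990544) (nat_lit 152) (nat_lit 87895328103) (nat_lit 4) (nat_lit 5) (nat_lit 5) (nat_lit 5) (nat_lit 6) (nat_lit 4) (nat_lit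 296) (nat_lit 246) (nat_lit 178)) (XT.lf (nat_lit 0) (nat_lit 39493785320) (nat_lit 76) (nat_lit 2429975801) (nat_lit 152) (nat_lit 87604846737) (nat_lit 4) (nat_lit 5) (nat_lit 5) (nat_lit 5) (nat_lit 6) (nat_lit 4) (nat_lit 297) (nat_lit 246) (nat_lit 177)))))) (XT.nd (nat_lit 624) (nat_lit 0) (nat_lit 0) (XT.nd (nat_lit 312) (nat_lit 76) (nat_lit 0) (XT.nd (nat_lit 156) (nat_lit 0) (nat_lit 0) (XT.nd (nat_lit 78) (nat_lit 0) (nat_lit 0) (XT.lf (nat_lit 0) (nat_lit 52176645195) (nat_lit 152) (nat_lit 79242847953) (nat_lit 0) (nat_lit 7922351922) (nat_lit 4) (nat_lit 5) (nat_lit 6) (nat_lit 4) (nat_lit 4) (nat_lit 4) (nat_lit 298) (nat_lit 246) (nat_lit 176)) (XT.lf (nat_lit 0) (nat_lit 63283405555) (nat_lit 152) (nat_lit 67641023819) (nat_lit 0) (nat_lit 19014047948) (nat_lit 4) (nat_lit 5) (nat_lit 6) (nat_lit 4) (nat_lit 4) (nat_lit 4) (nat_lit 299) (nat_lit 246) (nat_lit 175)))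 (XT.nd (nat_lit 78) (nat_lit 0) (nat_lit 0) (XT.lf (nat_lit 0) (nat_lit 75271921311) (nat_lit 152) (nat_lit 55122659854) (nat_lit 0) (nat_lit 30988615245) (nat_lit 4) (nat_lit 5) (nat_lit 6) (nat_lit 4) (nat_lit 4) (nat_lit 4) (nat_lit 300) (nat_lit 246) (nat_lit 174)) (XT.lf (nat_lit 0) (nat_lit 88213235518) (nat_lit 152) (nat_lit 41613573160) (nat_lit 0) (nat_lit 43917014212) (nat_lit 4) (nat_lit 5) (nat_lit 6) (nat_lit 4) (nat_lit 4) (nat_lit 4) (nat_lit 301) (nat_lit 246) (nat_lit 173)))) (XT.nd (nat_lit 156) (nat_lit 76) (nat_lit 0) (XT.nd (nat_lit 78) (nat_lit 0) (nat_lit 0) (XT.lf (nat_lit 0) (nat_lit 102184037445) (nat_lit 152) (nat_lit 27033709890) (nat_lit 0) (nat_lit 57875857585) (nat_lit 4) (nat_lit 5) (nat_lit 6) (nat_lit 4) (nat_lit 4) (nat_lit 4) (nat_lit 302) (nat_lit 246) (nat_lit 172)) (XT.lf (nat_lit 0) (nat_lit 117267117030) (nat_lit 152) (nat_lit 11296670854) (nat_lit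 0) (nat_lit 72947864434) (nat_lit 4) (nat_lit 5) (nat_lit 6) (nat_lit 4) (nat_lit 4) (nat_lit 4) (nat_lit 303) (nat_lit 246) (nat_lit 171))) (XT.nd (nat_lit 78) (nat_lit 0) (nat_lit 0) (XT.lf (nat_lit 0) (nat_lit 5878964038) (nat_lit 76) (nat_lit 127764678551) (nat_lit 76) (nat_lit 83435173421) (nat_lit 3) (nat_lit 4) (nat_lit 4) (nat_lit 5) (nat_lit 4) (nat_lit 4) (nat_lit 304) (nat_lit 246) (nat_lit 170)) (XT.lf (nat_lit 0) (nat_lit 24823890105) (nat_lit 76) (nat_lit 126698435352) (nat_lit 76) (nat_lit 82359437136) (nat_lit 3) (nat_lit 4) (nat_lit 4) (nat_lit 5) (nat_lit 4) (nat_lit 4) (nat_lit 305) (nat_lit 246) (nat_lit 169))))) (XT.nd (nat_lit 312) (nat_lit 0) (nat_lit 0) (XT.nd (nat_lit 156) (nat_lit 0) (nat_lit 0) (XT.nd (nat_lit 78) (nat_lit 0) (nat_lit 0) (XT.lf (nat_lit 0) (nat_lit 45276854618) (nat_lit 76) (nat_lit 125550054398) (nat_lit 76) (nat_lit 81202266287) (nat_lit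 3) (nat_lit 4) (nat_lit 4) (nat_lit 5) (nat_lit 4) (nat_lit 4) (nat_lit 306) (nat_lit 246) (nat_lit 168)) (XT.lf (nat_lit 0) (nat_lit 67359060330) (nat_lit 76) (nat_lit 124312730467) (nat_lit 76) (nat_lit 79956803565) (nat_lit 3) (nat_lit 4) (nat_lit 4) (nat_lit 5) (nat_lit 4) (nat_lit 4) (nat_lit 307) (nat_lit 246) (nat_lit 167))) (XT.nd (nat_lit 78) (nat_lit 0) (nat_lit 0) (XT.lf (nat_lit 0) (nat_lit 91201364756) (nat_lit 76) (nat_lit 122979131269) (nat_lit 76) (nat_lit 78615668449) (nat_lit 3) (nat_lit 4) (nat_lit 4) (nat_lit 5) (nat_lit 4) (nat_lit 4) (nat_lit 308) (nat_lit 246) (nat_lit 166)) (XT.lf (nat_lit 0) (nat_lit 116945055627) (nat_lit 76) (nat_lit 121541353995) (nat_lit 76) (nat_lit 77170913473) (nat_lit 3) (nat_lit 4) (nat_lit 4) (nat_lit 5) (nat_lit 4) (nat_lit 4) (nat_lit 309) (nat_lit 246) (nat_lit 165)))) (XT.nd (nat_lit 156) (nat_lit 0) (nat_lit 0) (XT.nd (nat_lit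 78) (nat_lit 0) (nat_lit 0) (XT.lf (nat_lit 0) (nat_lit 144742688147) (nat_lit 76) (nat_lit 119990878483) (nat_lit 76) (nat_lit 75613977126) (nat_lit 3) (nat_lit 4) (nat_lit 4) (nat_lit 5) (nat_lit 4) (nat_lit 4) (nat_lit 310) (nat_lit 246) (nat_lit 164)) (XT.lf (nat_lit 0) (nat_lit 174758989027) (nat_lit 76) (nat_lit 118318516730) (nat_lit 76) (nat_lit 73935633118) (nat_lit 3) (nat_lit 4) (nat_lit 4) (nat_lit 5) (nat_lit 4) (nat_lit 4) (nat_lit 311) (nat_lit 246) (nat_lit 163))) (XT.nd (nat_lit 78) (nat_lit 0) (nat_lit 0) (XT.lf (nat_lit 0) (nat_lit 207171832644) (nat_lit 76) (nat_lit 116514358443) (nat_lit 76) (nat_lit 72125935707) (nat_lit 3) (nat_lit 4) (nat_lit 4) (nat_lit 5) (nat_lit 4) (nat_lit 4) (nat_lit 312) (nat_lit 246) (nat_lit 162)) (XT.nd (nat_lit 78) (nat_lit 0) (nat_lit 0) (XT.lf (nat_lit 0) (nat_lit 242173295108) (nat_lit 76) (nat_lit 114567712316) (nat_lit 76) (nat_lit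 70174160760) (nat_lit 3) (nat_lit 4) (nat_lit 4) (nat_lit 5) (nat_lit 4) (nat_lit 4) (nat_lit 313) (nat_lit 246) (nat_lit 161)) (XT.lf (nat_lit 0) (nat_lit 279970792492) (nat_lit 76) (nat_lit 112467042666) (nat_lit 76) (nat_lit 68068742204) (nat_lit 3) (nat_lit 4) (nat_lit 4) (nat_lit 5) (nat_lit 4) (nat_lit 4) (nat_lit 314) (nat_lit 246) (nat_lit 160))))))))
noncomputable def xc65 : XT := (XT.nd (nat_lit 33150) (nat_lit 0) (nat_lit 912) (XT.nd (nat_lit 32526) (nat_lit 0) (nat_lit 3116) (XT.nd (nat_lit 32214) (nat_lit 0) (nat_lit 4864) (XT.nd (nat_lit 156) (nat_lit 0) (nat_lit 0) (XT.nd (nat_lit 78) (nat_lit 0) (nat_lit 0) (XT.lf (nat_lit 0) (nat_lit 320788309966) (nat_lit 76) (nat_lit 110199901081) (nat_lit 76) (nat_lit 65797203483) (nat_lit 3) (nat_lit 4) (nat_lit 4) (nat_lit 5) (nat_lit 4) (nat_lit 4) (nat_lit 315) (nat_lit 246) (nat_lit 159)) (XT.lf (nat_lit 0) (nat_lit 364867729115)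 (nat_lit 76) (nat_lit 107752852648) (nat_lit 76) (nat_lit 63346083628) (nat_lit 3) (nat_lit 4) (nat_lit 4) (nat_lit 5) (nat_lit 4) (nat_lit 4) (nat_lit 316) (nat_lit 246) (nat_lit 158))) (XT.nd (nat_lit 78) (nat_lit 0) (nat_lit 0) (XT.lf (nat_lit 0) (nat_lit 412470261312) (nat_lit 76) (nat_lit 105111396339) (nat_lit 76) (nat_lit 60700857484) (nat_lit 3) (nat_lit 4) (nat_lit 4) (nat_lit 5) (nat_lit 4) (nat_lit 4) (nat_lit 317) (nat_lit 246) (nat_lit 157)) (XT.lf (nat_lit 0) (nat_lit 463877995637) (nat_lit 76) (nat_lit 102259879081) (nat_lit 76) (nat_lit 57845849637) (nat_lit 3) (nat_lit 4) (nat_lit 4) (nat_lit 5) (nat_lit 4) (nat_lit 4) (nat_lit 318) (nat_lit 246) (nat_lit 156)))) (XT.nd (nat_lit 156) (nat_lit 0) (nat_lit 0) (XT.nd (nat_lit 78) (nat_lit 532) (nat_lit 0) (XT.lf (nat_lit 0) (nat_lit 3104101651) (nat_lit 532) (nat_lit 429132008) (nat_lit 532) (nat_lit 429132008) (nat_lit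 74) (nat_lit 3) (nat_lit 81) (nat_lit 3) (nat_lit 81) (nat_lit 5) (nat_lit 247) (nat_lit 247) (nat_lit 226)) (XT.lf (nat_lit 0) (nat_lit 5467195) (nat_lit 532) (nat_lit 3847816870) (nat_lit 608) (nat_lit 4291951503) (nat_lit 67) (nat_lit 5) (nat_lit 74) (nat_lit 3) (nat_lit 75) (nat_lit 5) (nat_lit 248) (nat_lit 247) (nat_lit 225))) (XT.nd (nat_lit 78) (nat_lit 0) (nat_lit 76) (XT.lf (nat_lit 76) (nat_lit 1434720217) (nat_lit 0) (nat_lit 240739303) (nat_lit 608) (nat_lit 6714115619) (nat_lit 68) (nat_lit 5) (nat_lit 67) (nat_lit 5) (nat_lit 75) (nat_lit 5) (nat_lit 249) (nat_lit 247) (nat_lit 224)) (XT.lf (nat_lit 0) (nat_lit 3448351298) (nat_lit 532) (nat_lit 1532440836) (nat_lit 608) (nat_lit 3675242521) (nat_lit 68) (nat_lit 5) (nat_lit 75) (nat_lit 5) (nat_lit 76) (nat_lit 5) (nat_lit 250) (nat_lit 247) (nat_lit 223))))) (XT.nd (nat_lit 312) (nat_lit 1368) (nat_lit 0) (XT.nd (nat_lit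 156) (nat_lit 456) (nat_lit 0) (XT.nd (nat_lit 78) (nat_lit 0) (nat_lit 76) (XT.lf (nat_lit 76) (nat_lit 4365599662) (nat_lit 0) (nat_lit 925266723) (nat_lit 608) (nat_lit 3657515857) (nat_lit 69) (nat_lit 5) (nat_lit 68) (nat_lit 5) (nat_lit 76) (nat_lit 5) (nat_lit 251) (nat_lit 247) (nat_lit 222)) (XT.lf (nat_lit 76) (nat_lit 1420399337) (nat_lit 0) (nat_lit 5829207812) (nat_lit 608) (nat_lit 2016958995) (nat_lit 70) (nat_lit 5) (nat_lit 69) (nat_lit 5) (nat_lit 77) (nat_lit 5) (nat_lit 252) (nat_lit 247) (nat_lit 221))) (XT.nd (nat_lit 78) (nat_lit 532) (nat_lit 0) (XT.lf (nat_lit 76) (nat_lit 7957521132) (nat_lit 0) (nat_lit 1376775875) (nat_lit 608) (nat_lit 278269084) (nat_lit 70) (nat_lit 5) (nat_lit 69) (nat_lit 5) (nat_lit 77) (nat_lit 5) (nat_lit 253) (nat_lit 247) (nat_lit 220)) (XT.lf (nat_lit 0) (nat_lit 1564063836) (nat_lit 608) (nat_lit 4966109345) (nat_lit 76) (nat_lit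 3454763567) (nat_lit 62) (nat_lit 5) (nat_lit 70) (nat_lit 5) (nat_lit 63) (nat_lit 5) (nat_lit 254) (nat_lit 247) (nat_lit 219)))) (XT.nd (nat_lit 156) (nat_lit 760) (nat_lit 0) (XT.nd (nat_lit 78) (nat_lit 0) (nat_lit 0) (XT.lf (nat_lit 0) (nat_lit 1836220827) (nat_lit 608) (nat_lit 1677722327) (nat_lit 684) (nat_lit 6875103029) (nat_lit 54) (nat_lit 5) (nat_lit 62) (nat_lit 5) (nat_lit 63) (nat_lit 5) (nat_lit 255) (nat_lit 247) (nat_lit 218)) (XT.lf (nat_lit 0) (nat_lit 5659027825) (nat_lit 684) (nat_lit 1614335325) (nat_lit 76) (nat_lit 3550783310) (nat_lit 54) (nat_lit 5) (nat_lit 63) (nat_lit 5) (nat_lit 55) (nat_lit 5) (nat_lit 256) (nat_lit 247) (nat_lit 217))) (XT.nd (nat_lit 78) (nat_lit 304) (nat_lit 0) (XT.lf (nat_lit 0) (nat_lit 5952377637) (nat_lit 456) (nat_lit 2047956251) (nat_lit 532) (nat_lit 3293066841) (nat_lit 48) (nat_lit 5) (nat_lit 54) (nat_lit 5) (nat_lit 55)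 (nat_lit 5) (nat_lit 257) (nat_lit 247) (nat_lit 216)) (XT.lf (nat_lit 0) (nat_lit 2310263135) (nat_lit 304) (nat_lit 8248772918) (nat_lit 380) (nat_lit 1240188688) (nat_lit 44) (nat_lit 5) (nat_lit 48) (nat_lit 5) (nat_lit 49) (nat_lit 5) (nat_lit 258) (nat_lit 247) (nat_lit 215)))))) (XT.nd (nat_lit 624) (nat_lit 836) (nat_lit 0) (XT.nd (nat_lit 312) (nat_lit 760) (nat_lit 0) (XT.nd (nat_lit 156) (nat_lit 228) (nat_lit 0) (XT.nd (nat_lit 78) (nat_lit 304) (nat_lit 0) (XT.lf (nat_lit 0) (nat_lit 987542708) (nat_lit 380) (nat_lit 1717590078) (nat_lit 76) (nat_lit 9637995623) (nat_lit 43) (nat_lit 5) (nat_lit 48) (nat_lit 5) (nat_lit 44) (nat_lit 5) (nat_lit 259) (nat_lit 247) (nat_lit 214)) (XT.lf (nat_lit 0) (nat_lit 3429153751) (nat_lit 380) (nat_lit 6193240178) (nat_lit 76) (nat_lit 3303614330) (nat_lit 39) (nat_lit 5) (nat_lit 44) (nat_lit 5) (nat_lit 40) (nat_lit 5) (nat_lit 260)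 (nat_lit 247) (nat_lit 213))) (XT.nd (nat_lit 78) (nat_lit 0) (nat_lit 0) (XT.lf (nat_lit 0) (nat_lit 2310638004) (nat_lit 228) (nat_lit 3791494241) (nat_lit 304) (nat_lit 7451988031) (nat_lit 36) (nat_lit 5) (nat_lit 39) (nat_lit 5) (nat_lit 40) (nat_lit 5) (nat_lit 261) (nat_lit 247) (nat_lit 212)) (XT.lf (nat_lit 0) (nat_lit 9065917118) (nat_lit 304) (nat_lit 2635864586) (nat_lit 76) (nat_lit 2527224950) (nat_lit 36) (nat_lit 5) (nat_lit 40) (nat_lit 5) (nat_lit 37) (nat_lit 5) (nat_lit 262) (nat_lit 247) (nat_lit 211)))) (XT.nd (nat_lit 156) (nat_lit 228) (nat_lit 0) (XT.nd (nat_lit 78) (nat_lit 304) (nat_lit 0) (XT.lf (nat_lit 0) (nat_lit 6734313528) (nat_lit 228) (nat_lit 5635076793) (nat_lit 304) (nat_lit 2583710456) (nat_lit 33) (nat_lit 5) (nat_lit 36) (nat_lit 5) (nat_lit 37) (nat_lit 5) (nat_lit 263) (nat_lit 247) (nat_lit 210)) (XT.lf (nat_lit 0) (nat_lit 211699012) (nat_lit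 304) (nat_lit 14578146540) (nat_lit 76) (nat_lit 944617092) (nat_lit 29) (nat_lit 5) (nat_lit 33) (nat_lit 5) (nat_lit 30) (nat_lit 5) (nat_lit 264) (nat_lit 247) (nat_lit 209))) (XT.nd (nat_lit 78) (nat_lit 228) (nat_lit 0) (XT.lf (nat_lit 0) (nat_lit 3321298827) (nat_lit 304) (nat_lit 5213664473) (nat_lit 76) (nat_lit 8032481060) (nat_lit 29) (nat_lit 5) (nat_lit 33) (nat_lit 5) (nat_lit 30) (nat_lit 5) (nat_lit 265) (nat_lit 247) (nat_lit 208)) (XT.lf (nat_lit 0) (nat_lit 4988838546) (nat_lit 228) (nat_lit 1712548764) (nat_lit 304) (nat_lit 10764852942) (nat_lit 26) (nat_lit 5) (nat_lit 29) (nat_lit 5) (nat_lit 30) (nat_lit 5) (nat_lit 266) (nat_lit 247) (nat_lit 207))))) (XT.nd (nat_lit 312) (nat_lit 380) (nat_lit 0) (XT.nd (nat_lit 156) (nat_lit 304) (nat_lit 0) (XT.nd (nat_lit 78) (nat_lit 152) (nat_lit 0) (XT.lf (nat_lit 0) (nat_lit 10479196129) (nat_lit 304) (nat_lit 2398869103)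 (nat_lit 76) (nat_lit 5552751211) (nat_lit 26) (nat_lit 5) (nat_lit 30) (nat_lit 5) (nat_lit 27) (nat_lit 5) (nat_lit 267) (nat_lit 247) (nat_lit 206)) (XT.lf (nat_lit 0) (nat_lit 8669357061) (nat_lit 152) (nat_lit 6004755093) (nat_lit 228) (nat_lit 4792926790) (nat_lit 24) (nat_lit 5) (nat_lit 26) (nat_lit 5) (nat_lit 27) (nat_lit 5) (nat_lit 268) (nat_lit 247) (nat_lit 205))) (XT.nd (nat_lit 78) (nat_lit 76) (nat_lit 0) (XT.lf (nat_lit 0) (nat_lit 38383137) (nat_lit 228) (nat_lit 19184544636) (nat_lit 304) (nat_lit 1362523883) (nat_lit 21) (nat_lit 5) (nat_lit 24) (nat_lit 5) (nat_lit 25) (nat_lit 5) (nat_lit 269) (nat_lit 247) (nat_lit 204)) (XT.lf (nat_lit 0) (nat_lit 2514450914) (nat_lit 304) (nat_lit 9861443457) (nat_lit 76) (nat_lit 9403442275) (nat_lit 20) (nat_lit 5) (nat_lit 24) (nat_lit 5) (nat_lit 21) (nat_lit 5) (nat_lit 270) (nat_lit 247) (nat_lit 203)))) (XT.nd (nat_lit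 156) (nat_lit 228) (nat_lit 0) (XT.nd (nat_lit 78) (nat_lit 0) (nat_lit 0) (XT.lf (nat_lit 0) (nat_lit 1650053233) (nat_lit 152) (nat_lit 4988236099) (nat_lit 228) (nat_lit 16430273800) (nat_lit 18) (nat_lit 5) (nat_lit 20) (nat_lit 5) (nat_lit 21) (nat_lit 5) (nat_lit 271) (nat_lit 247) (nat_lit 202)) (XT.lf (nat_lit 0) (nat_lit 11273333194) (nat_lit 228) (nat_lit 10125370310) (nat_lit 76) (nat_lit 3053316359) (nat_lit 18) (nat_lit 5) (nat_lit 21) (nat_lit 5) (nat_lit 19) (nat_lit 5) (nat_lit 272) (nat_lit 247) (nat_lit 201))) (XT.nd (nat_lit 78) (nat_lit 76) (nat_lit 0) (XT.lf (nat_lit 0) (nat_lit 1997194342) (nat_lit 152) (nat_lit 14360254029) (nat_lit 228) (nat_lit 9584936785) (nat_lit 16) (nat_lit 5) (nat_lit 18) (nat_lit 5) (nat_lit 19) (nat_lit 5) (nat_lit 273) (nat_lit 247) (nat_lit 200)) (XT.nd (nat_lit 78) (nat_lit 76) (nat_lit 0) (XT.lf (nat_lit 0) (nat_lit 15399639588) (nat_lit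 152) (nat_lit 6589944370) (nat_lit 228) (nat_lit 5555465796) (nat_lit 16) (nat_lit 5) (nat_lit 18) (nat_lit 5) (nat_lit 19) (nat_lit 5) (nat_lit 274) (nat_lit 247) (nat_lit 199)) (XT.lf (nat_lit 0) (nat_lit 538250835) (nat_lit 76) (nat_lit 27537852774) (nat_lit 152) (nat_lit 1199757917) (nat_lit 15) (nat_lit 5) (nat_lit 16) (nat_lit 5) (nat_lit 17) (nat_lit 4) (nat_lit 275) (nat_lit 247) (nat_lit 198))))))))
noncomputable def xc66 : XT := (XT.nd (nat_lit 1248) (nat_lit 228) (nat_lit 0) (XT.nd (nat_lit 624) (nat_lit 152) (nat_lit 0) (XT.nd (nat_lit 312) (nat_lit 304) (nat_lit 0) (XT.nd (nat_lit 156) (nat_lit 152) (nat_lit 0) (XT.nd (nat_lit 78) (nat_lit 0) (nat_lit 0) (XT.lf (nat_lit 0) (nat_lit 3686740011) (nat_lit 152) (nat_lit 16681760992) (nat_lit 76) (nat_lit 10759286679) (nat_lit 14) (nat_lit 5) (nat_lit 16) (nat_lit 5) (nat_lit 15) (nat_lit 5) (nat_lit 276) (nat_lit 247) (nat_lit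 197)) (XT.lf (nat_lit 0) (nat_lit 8893375240) (nat_lit 152) (nat_lit 3726316033) (nat_lit 76) (nat_lit 20508732483) (nat_lit 14) (nat_lit 5) (nat_lit 16) (nat_lit 5) (nat_lit 15) (nat_lit 5) (nat_lit 277) (nat_lit 247) (nat_lit 196))) (XT.nd (nat_lit 78) (nat_lit 0) (nat_lit 0) (XT.lf (nat_lit 0) (nat_lit 10562287950) (nat_lit 152) (nat_lit 4092020614) (nat_lit 228) (nat_lit 20628008042) (nat_lit 12) (nat_lit 5) (nat_lit 14) (nat_lit 5) (nat_lit 15) (nat_lit 5) (nat_lit 278) (nat_lit 247) (nat_lit 195)) (XT.lf (nat_lit 0) (nat_lit 20996032912) (nat_lit 228) (nat_lit 11599896487) (nat_lit 76) (nat_lit 5006682939) (nat_lit 12) (nat_lit 5) (nat_lit 15) (nat_lit 5) (nat_lit 13) (nat_lit 4) (nat_lit 279) (nat_lit 247) (nat_lit 194)))) (XT.nd (nat_lit 156) (nat_lit 228) (nat_lit 0) (XT.nd (nat_lit 78) (nat_lit 0) (nat_lit 0) (XT.lf (nat_lit 0) (nat_lit 2544606726) (nat_lit 76) (nat_lit 25385177016)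 (nat_lit 152) (nat_lit 12174594366) (nat_lit 11) (nat_lit 5) (nat_lit 12) (nat_lit 5) (nat_lit 13) (nat_lit 4) (nat_lit 280) (nat_lit 247) (nat_lit 193)) (XT.lf (nat_lit 0) (nat_lit 18198852561) (nat_lit 76) (nat_lit 17398623814) (nat_lit 152) (nat_lit 7199921498) (nat_lit 11) (nat_lit 5) (nat_lit 12) (nat_lit 5) (nat_lit 13) (nat_lit 4) (nat_lit 281) (nat_lit 247) (nat_lit 192))) (XT.nd (nat_lit 78) (nat_lit 228) (nat_lit 0) (XT.lf (nat_lit 0) (nat_lit 35072061953) (nat_lit 76) (nat_lit 8785391932) (nat_lit 152) (nat_lit 1849531141) (nat_lit 11) (nat_lit 5) (nat_lit 12) (nat_lit 5) (nat_lit 13) (nat_lit 4) (nat_lit 282) (nat_lit 247) (nat_lit 191)) (XT.lf (nat_lit 0) (nat_lit 3863444554) (nat_lit 228) (nat_lit 44357117229) (nat_lit 76) (nat_lit 622756251) (nat_lit 8) (nat_lit 5) (nat_lit 11) (nat_lit 5) (nat_lit 9) (nat_lit 4) (nat_lit 283) (nat_lit 247) (nat_lit 190))))) (XT.nd (nat_lit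 312) (nat_lit 76) (nat_lit 0) (XT.nd (nat_lit 156) (nat_lit 76) (nat_lit 0) (XT.nd (nat_lit 78) (nat_lit 0) (nat_lit 0) (XT.lf (nat_lit 0) (nat_lit 10286834899) (nat_lit 228) (nat_lit 31237949195) (nat_lit 76) (nat_lit 10688405391) (nat_lit 8) (nat_lit 5) (nat_lit 11) (nat_lit 5) (nat_lit 9) (nat_lit 4) (nat_lit 284) (nat_lit 247) (nat_lit 189)) (XT.lf (nat_lit 0) (nat_lit 17206393386) (nat_lit 228) (nat_lit 17098022977) (nat_lit 76) (nat_lit 21549171821) (nat_lit 8) (nat_lit 5) (nat_lit 11) (nat_lit 5) (nat_lit 9) (nat_lit 4) (nat_lit 285) (nat_lit 247) (nat_lit 188))) (XT.nd (nat_lit 78) (nat_lit 76) (nat_lit 0) (XT.lf (nat_lit 0) (nat_lit 24663124804) (nat_lit 228) (nat_lit 1853546419) (nat_lit 76) (nat_lit 33269415638) (nat_lit 8) (nat_lit 5) (nat_lit 11) (nat_lit 5) (nat_lit 9) (nat_lit 4) (nat_lit 286) (nat_lit 247) (nat_lit 187)) (XT.lf (nat_lit 0) (nat_lit 15068091134) (nat_lit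 76) (nat_lit 17868381189) (nat_lit 152) (nat_lit 31085754135) (nat_lit 7) (nat_lit 5) (nat_lit 8) (nat_lit 5) (nat_lit 9) (nat_lit 4) (nat_lit 287) (nat_lit 247) (nat_lit 186)))) (XT.nd (nat_lit 156) (nat_lit 76) (nat_lit 0) (XT.nd (nat_lit 78) (nat_lit 0) (nat_lit 0) (XT.lf (nat_lit 0) (nat_lit 33386051225) (nat_lit 76) (nat_lit 8503502291) (nat_lit 152) (nat_lit 26706851993) (nat_lit 7) (nat_lit 5) (nat_lit 8) (nat_lit 5) (nat_lit 9) (nat_lit 4) (nat_lit 288) (nat_lit 247) (nat_lit 185)) (XT.lf (nat_lit 0) (nat_lit 51570540575) (nat_lit 152) (nat_lit 20414639750) (nat_lit 0) (nat_lit 1550794088) (nat_lit 7) (nat_lit 5) (nat_lit 9) (nat_lit 4) (nat_lit 7) (nat_lit 4) (nat_lit 289) (nat_lit 247) (nat_lit 184))) (XT.nd (nat_lit 78) (nat_lit 76) (nat_lit 0) (XT.lf (nat_lit 0) (nat_lit 62156904058) (nat_lit 152) (nat_lit 4599415158) (nat_lit 0) (nat_lit 12107880387) (nat_lit 7) (nat_lit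 5) (nat_lit 9) (nat_lit 4) (nat_lit 7) (nat_lit 4) (nat_lit 290) (nat_lit 247) (nat_lit 183)) (XT.lf (nat_lit 0) (nat_lit 12873846321) (nat_lit 76) (nat_lit 60905764967) (nat_lit 76) (nat_lit 10829632792) (nat_lit 6) (nat_lit 4) (nat_lit 7) (nat_lit 5) (nat_lit 7) (nat_lit 4) (nat_lit 291) (nat_lit 247) (nat_lit 182)))))) (XT.nd (nat_lit 624) (nat_lit 76) (nat_lit 0) (XT.nd (nat_lit 312) (nat_lit 76) (nat_lit 0) (XT.nd (nat_lit 156) (nat_lit 0) (nat_lit 0) (XT.nd (nat_lit 78) (nat_lit 76) (nat_lit 0) (XT.lf (nat_lit 0) (nat_lit 31890823268) (nat_lit 76) (nat_lit 54510437875) (nat_lit 76) (nat_lit 4409205233) (nat_lit 6) (nat_lit 4) (nat_lit 7) (nat_lit 5) (nat_lit 7) (nat_lit 4) (nat_lit 292) (nat_lit 247) (nat_lit 181)) (XT.lf (nat_lit 0) (nat_lit 2433672581) (nat_lit 152) (nat_lit 45135445022) (nat_lit 76) (nat_lit 49937243437) (nat_lit 5) (nat_lit 5) (nat_lit 7) (nat_lit 5) (nat_lit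 6) (nat_lit 4) (nat_lit 293) (nat_lit 247) (nat_lit 180))) (XT.nd (nat_lit 78) (nat_lit 0) (nat_lit 0) (XT.lf (nat_lit 0) (nat_lit 9661964332) (nat_lit 152) (nat_lit 30338966537) (nat_lit 76) (nat_lit 64733784219) (nat_lit 5) (nat_lit 5) (nat_lit 7) (nat_lit 5) (nat_lit 6) (nat_lit 4) (nat_lit 294) (nat_lit 247) (nat_lit 179)) (XT.lf (nat_lit 0) (nat_lit 17459626444) (nat_lit 152) (nat_lit 14373684767) (nat_lit 76) (nat_lit 80708494003) (nat_lit 5) (nat_lit 5) (nat_lit 7) (nat_lit 5) (nat_lit 6) (nat_lit 4) (nat_lit 295) (nat_lit 247) (nat_lit 178)))) (XT.nd (nat_lit 156) (nat_lit 0) (nat_lit 0) (XT.nd (nat_lit 78) (nat_lit 0) (nat_lit 0) (XT.lf (nat_lit 0) (nat_lit 2949408865) (nat_lit 76) (nat_lit 22969506957) (nat_lit 152) (nat_lit 95052677408) (nat_lit 4) (nat_lit 5) (nat_lit 5) (nat_lit 5) (nat_lit 6) (nat_lit 4) (nat_lit 296) (nat_lit 247) (nat_lit 177)) (XT.lf (nat_lit 0) (nat_lit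 22158419629) (nat_lit 76) (nat_lit 13139078495) (nat_lit 152) (nat_lit 94766158483) (nat_lit 4) (nat_lit 5) (nat_lit 5) (nat_lit 5) (nat_lit 6) (nat_lit 4) (nat_lit 297) (nat_lit 247) (nat_lit 176))) (XT.nd (nat_lit 78) (nat_lit 0) (nat_lit 0) (XT.lf (nat_lit 0) (nat_lit 42891919767) (nat_lit 76) (nat_lit 2527196743) (nat_lit 152) (nat_lit 94464349413) (nat_lit 4) (nat_lit 5) (nat_lit 5) (nat_lit 5) (nat_lit 6) (nat_lit 4) (nat_lit 298) (nat_lit 247) (nat_lit 175)) (XT.lf (nat_lit 0) (nat_lit 56483158019) (nat_lit 152) (nat_lit 85355845253) (nat_lit 0) (nat_lit 8643239009) (nat_lit 4) (nat_lit 5) (nat_lit 6) (nat_lit 4) (nat_lit 4) (nat_lit 4) (nat_lit 299) (nat_lit 247) (nat_lit 174))))) (XT.nd (nat_lit 312) (nat_lit 76) (nat_lit 0) (XT.nd (nat_lit 156) (nat_lit 0) (nat_lit 0) (XT.nd (nat_lit 78) (nat_lit 0) (nat_lit 0) (XT.lf (nat_lit 0) (nat_lit 68468653193) (nat_lit 152) (nat_lit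 72842647821) (nat_lit 0) (nat_lit 20615818944) (nat_lit 4) (nat_lit 5) (nat_lit 6) (nat_lit 4) (nat_lit 4) (nat_lit 4) (nat_lit 300) (nat_lit 247) (nat_lit 173)) (XT.lf (nat_lit 0) (nat_lit 81407170565) (nat_lit 152) (nat_lit 59338344954) (nat_lit 0) (nat_lit 33542377761) (nat_lit 4) (nat_lit 5) (nat_lit 6) (nat_lit 4) (nat_lit 4) (nat_lit 4) (nat_lit 301) (nat_lit 247) (nat_lit 172))) (XT.nd (nat_lit 78) (nat_lit 0) (nat_lit 0) (XT.lf (nat_lit 0) (nat_lit 95375382830) (nat_lit 152) (nat_lit 44762911153) (nat_lit 0) (nat_lit 47499517291) (nat_lit 4) (nat_lit 5) (nat_lit 6) (nat_lit 4) (nat_lit 4) (nat_lit 4) (nat_lit 302) (nat_lit 247) (nat_lit 171)) (XT.lf (nat_lit 0) (nat_lit 110456064580) (nat_lit 152) (nat_lit 29029973477) (nat_lit 0) (nat_lit 62569946508) (nat_lit 4) (nat_lit 5) (nat_lit 6) (nat_lit 4) (nat_lit 4) (nat_lit 4) (nat_lit 303) (nat_lit 247) (nat_lit 170)))) (XT.nd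 (nat_lit 156) (nat_lit 0) (nat_lit 0) (XT.nd (nat_lit 78) (nat_lit 76) (nat_lit 0) (XT.lf (nat_lit 0) (nat_lit 126738582818) (nat_lit 152) (nat_lit 12046299704) (nat_lit 0) (nat_lit 78842971659) (nat_lit 4) (nat_lit 5) (nat_lit 6) (nat_lit 4) (nat_lit 4) (nat_lit 4) (nat_lit 304) (nat_lit 247) (nat_lit 169)) (XT.lf (nat_lit 0) (nat_lit 6496688772) (nat_lit 76) (nat_lit 137924169287) (nat_lit 76) (nat_lit 90019768233) (nat_lit 3) (nat_lit 4) (nat_lit 4) (nat_lit 5) (nat_lit 4) (nat_lit 4) (nat_lit 305) (nat_lit 247) (nat_lit 168))) (XT.nd (nat_lit 78) (nat_lit 0) (nat_lit 0) (XT.lf (nat_lit 0) (nat_lit 26946289841) (nat_lit 76) (nat_lit 136777195784) (nat_lit 76) (nat_lit 88864655939) (nat_lit 3) (nat_lit 4) (nat_lit 4) (nat_lit 5) (nat_lit 4) (nat_lit 4) (nat_lit 306) (nat_lit 247) (nat_lit 167)) (XT.nd (nat_lit 78) (nat_lit 0) (nat_lit 0) (XT.lf (nat_lit 0) (nat_lit 49025381254) (nat_lit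 76) (nat_lit 135541175049) (nat_lit 76) (nat_lit 87621099286) (nat_lit 3) (nat_lit 4) (nat_lit 4) (nat_lit 5) (nat_lit 4) (nat_lit 4) (nat_lit 307) (nat_lit 247) (nat_lit 166)) (XT.lf (nat_lit 0) (nat_lit 72864802070) (nat_lit 76) (nat_lit 134208782515) (nat_lit 76) (nat_lit 86281729050) (nat_lit 3) (nat_lit 4) (nat_lit 4) (nat_lit 5) (nat_lit 4) (nat_lit 4) (nat_lit 308) (nat_lit 247) (nat_lit 165))))))))
noncomputable def xc67 : XT := (XT.nd (nat_lit 33228) (nat_lit 0) (nat_lit 1368) (XT.nd (nat_lit 624) (nat_lit 0) (nat_lit 0) (XT.nd (nat_lit 312) (nat_lit 0) (nat_lit 0) (XT.nd (nat_lit 156) (nat_lit 0) (nat_lit 0) (XT.nd (nat_lit 78) (nat_lit 0) (nat_lit 0) (XT.lf (nat_lit 0) (nat_lit 98605822931) (nat_lit 76) (nat_lit 132772122522) (nat_lit 76) (nat_lit 84838608221) (nat_lit 3) (nat_lit 4) (nat_lit 4) (nat_lit 5) (nat_lit 4) (nat_lit 4) (nat_lit 309) (nat_lit 247) (nat_lit 164))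 (XT.lf (nat_lit 0) (nat_lit 126400983220) (nat_lit 76) (nat_lit 131222681529) (nat_lit 76) (nat_lit 83283184973) (nat_lit 3) (nat_lit 4) (nat_lit 4) (nat_lit 5) (nat_lit 4) (nat_lit 4) (nat_lit 310) (nat_lit 247) (nat_lit 163))) (XT.nd (nat_lit 78) (nat_lit 0) (nat_lit 0) (XT.lf (nat_lit 0) (nat_lit 156414994997) (nat_lit 76) (nat_lit 129551277663) (nat_lit 76) (nat_lit 81606241984) (nat_lit 3) (nat_lit 4) (nat_lit 4) (nat_lit 5) (nat_lit 4) (nat_lit 4) (nat_lit 311) (nat_lit 247) (nat_lit 162)) (XT.lf (nat_lit 0) (nat_lit 188825719075) (nat_lit 76) (nat_lit 127748006311) (nat_lit 76) (nat_lit 79797841811) (nat_lit 3) (nat_lit 4) (nat_lit 4) (nat_lit 5) (nat_lit 4) (nat_lit 4) (nat_lit 312) (nat_lit 247) (nat_lit 161)))) (XT.nd (nat_lit 156) (nat_lit 0) (nat_lit 0) (XT.nd (nat_lit 78) (nat_lit 0) (nat_lit 0) (XT.lf (nat_lit 0) (nat_lit 223825219001) (nat_lit 76) (nat_lit 125802181417)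 (nat_lit 76) (nat_lit 77847268012) (nat_lit 3) (nat_lit 4) (nat_lit 4) (nat_lit 5) (nat_lit 4) (nat_lit 4) (nat_lit 313) (nat_lit 247) (nat_lit 160)) (XT.lf (nat_lit 0) (nat_lit 261620899221) (nat_lit 76) (nat_lit 123702272170) (nat_lit 76) (nat_lit 75742961628) (nat_lit 3) (nat_lit 4) (nat_lit 4) (nat_lit 5) (nat_lit 4) (nat_lit 4) (nat_lit 314) (nat_lit 247) (nat_lit 159))) (XT.nd (nat_lit 78) (nat_lit 0) (nat_lit 0) (XT.lf (nat_lit 0) (nat_lit 302436734137) (nat_lit 76) (nat_lit 121435834661) (nat_lit 76) (nat_lit 73472452698) (nat_lit 3) (nat_lit 4) (nat_lit 4) (nat_lit 5) (nat_lit 4) (nat_lit 4) (nat_lit 315) (nat_lit 247) (nat_lit 158)) (XT.lf (nat_lit 0) (nat_lit 346514595361) (nat_lit 76) (nat_lit 118989438151) (nat_lit 76) (nat_lit 71022286352) (nat_lit 3) (nat_lit 4) (nat_lit 4) (nat_lit 5) (nat_lit 4) (nat_lit 4) (nat_lit 316) (nat_lit 247) (nat_lit 157))))) (XT.nd (nat_lit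 32292) (nat_lit 0) (nat_lit 4408) (XT.nd (nat_lit 32136) (nat_lit 0) (nat_lit 4864) (XT.nd (nat_lit 78) (nat_lit 0) (nat_lit 0) (XT.lf (nat_lit 0) (nat_lit 394115685035) (nat_lit 76) (nat_lit 116348585474) (nat_lit 76) (nat_lit 68377943087) (nat_lit 3) (nat_lit 4) (nat_lit 4) (nat_lit 5) (nat_lit 4) (nat_lit 4) (nat_lit 317) (nat_lit 247) (nat_lit 156)) (XT.lf (nat_lit 0) (nat_lit 445522083690) (nat_lit 76) (nat_lit 113497627134) (nat_lit 76) (nat_lit 65523752721) (nat_lit 3) (nat_lit 4) (nat_lit 4) (nat_lit 5) (nat_lit 4) (nat_lit 4) (nat_lit 318) (nat_lit 247) (nat_lit 155))) (XT.nd (nat_lit 78) (nat_lit 0) (nat_lit 0) (XT.lf (nat_lit 0) (nat_lit 369977618) (nat_lit 0) (nat_lit 369977618) (nat_lit 532) (nat_lit 3447329400) (nat_lit 67) (nat_lit 5) (nat_lit 67) (nat_lit 3) (nat_lit 74) (nat_lit 3) (nat_lit 248) (nat_lit 248) (nat_lit 224)) (XT.lf (nat_lit 0) (nat_lit 3041153354) (nat_lit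 532) (nat_lit 2428993436) (nat_lit 608) (nat_lit 3154698460) (nat_lit 67) (nat_lit 5) (nat_lit 74) (nat_lit 3) (nat_lit 75) (nat_lit 5) (nat_lit 249) (nat_lit 248) (nat_lit 223)))) (XT.nd (nat_lit 156) (nat_lit 456) (nat_lit 0) (XT.nd (nat_lit 78) (nat_lit 0) (nat_lit 76) (XT.lf (nat_lit 76) (nat_lit 3201108566) (nat_lit 0) (nat_lit 1444589529) (nat_lit 608) (nat_lit 4254485999) (nat_lit 68) (nat_lit 5) (nat_lit 67) (nat_lit 5) (nat_lit 75) (nat_lit 5) (nat_lit 250) (nat_lit 248) (nat_lit 222)) (XT.lf (nat_lit 76) (nat_lit 41345139) (nat_lit 0) (nat_lit 6292507763) (nat_lit 608) (nat_lit 2866824549) (nat_lit 69) (nat_lit 5) (nat_lit 68) (nat_lit 5) (nat_lit 76) (nat_lit 5) (nat_lit 251) (nat_lit 248) (nat_lit 221))) (XT.nd (nat_lit 78) (nat_lit 532) (nat_lit 0) (XT.lf (nat_lit 76) (nat_lit 6336240423) (nat_lit 0) (nat_lit 1818939377) (nat_lit 608) (nat_lit 1370948315) (nat_lit 69) (nat_lit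 5) (nat_lit 68) (nat_lit 5) (nat_lit 76) (nat_lit 5) (nat_lit 252) (nat_lit 248) (nat_lit 220)) (XT.lf (nat_lit 0) (nat_lit 217947320) (nat_lit 608) (nat_lit 6653459310) (nat_lit 684) (nat_lit 3007684838) (nat_lit 61) (nat_lit 5) (nat_lit 69) (nat_lit 5) (nat_lit 70) (nat_lit 5) (nat_lit 253) (nat_lit 248) (nat_lit 219)))))) (XT.nd (nat_lit 624) (nat_lit 1368) (nat_lit 0) (XT.nd (nat_lit 312) (nat_lit 1140) (nat_lit 0) (XT.nd (nat_lit 156) (nat_lit 532) (nat_lit 0) (XT.nd (nat_lit 78) (nat_lit 0) (nat_lit 76) (XT.lf (nat_lit 0) (nat_lit 1863295032) (nat_lit 608) (nat_lit 128690478) (nat_lit 684) (nat_lit 8268986726) (nat_lit 61) (nat_lit 5) (nat_lit 69) (nat_lit 5) (nat_lit 70) (nat_lit 5) (nat_lit 254) (nat_lit 248) (nat_lit 218)) (XT.lf (nat_lit 0) (nat_lit 3701701926) (nat_lit 608) (nat_lit 3661272385) (nat_lit 76) (nat_lit 3307980423) (nat_lit 62) (nat_lit 5) (nat_lit 70) (nat_lit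 5) (nat_lit 63) (nat_lit 5) (nat_lit 255) (nat_lit 248) (nat_lit 217))) (XT.nd (nat_lit 78) (nat_lit 0) (nat_lit 0) (XT.lf (nat_lit 0) (nat_lit 3611271892) (nat_lit 608) (nat_lit 2072644700) (nat_lit 684) (nat_lit 5430559179) (nat_lit 54) (nat_lit 5) (nat_lit 62) (nat_lit 5) (nat_lit 63) (nat_lit 5) (nat_lit 256) (nat_lit 248) (nat_lit 216)) (XT.lf (nat_lit 0) (nat_lit 7856923806) (nat_lit 684) (nat_lit 134298970) (nat_lit 76) (nat_lit 3601178928) (nat_lit 54) (nat_lit 5) (nat_lit 63) (nat_lit 5) (nat_lit 55) (nat_lit 5) (nat_lit 257) (nat_lit 248) (nat_lit 215)))) (XT.nd (nat_lit 156) (nat_lit 304) (nat_lit 0) (XT.nd (nat_lit 78) (nat_lit 380) (nat_lit 0) (XT.lf (nat_lit 0) (nat_lit 7967817889) (nat_lit 456) (nat_lit 2312476343) (nat_lit 532) (nat_lit 1824935777) (nat_lit 48) (nat_lit 5) (nat_lit 54) (nat_lit 5) (nat_lit 55) (nat_lit 5) (nat_lit 258) (nat_lit 248) (nat_lit 214)) (XT.lf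 (nat_lit 0) (nat_lit 278761008) (nat_lit 380) (nat_lit 8605054202) (nat_lit 76) (nat_lit 3773122068) (nat_lit 43) (nat_lit 5) (nat_lit 48) (nat_lit 5) (nat_lit 44) (nat_lit 5) (nat_lit 259) (nat_lit 248) (nat_lit 213))) (XT.nd (nat_lit 78) (nat_lit 304) (nat_lit 0) (XT.lf (nat_lit 0) (nat_lit 2525153075) (nat_lit 380) (nat_lit 353041279) (nat_lit 76) (nat_lit 10371577814) (nat_lit 43) (nat_lit 5) (nat_lit 48) (nat_lit 5) (nat_lit 44) (nat_lit 5) (nat_lit 260) (nat_lit 248) (nat_lit 212)) (XT.lf (nat_lit 0) (nat_lit 5077473070) (nat_lit 380) (nat_lit 5177068569) (nat_lit 76) (nat_lit 3629555184) (nat_lit 39) (nat_lit 5) (nat_lit 44) (nat_lit 5) (nat_lit 40) (nat_lit 5) (nat_lit 261) (nat_lit 248) (nat_lit 211))))) (XT.nd (nat_lit 312) (nat_lit 608) (nat_lit 0) (XT.nd (nat_lit 156) (nat_lit 532) (nat_lit 0) (XT.nd (nat_lit 78) (nat_lit 0) (nat_lit 0) (XT.lf (nat_lit 0) (nat_lit 3941426234)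 (nat_lit 228) (nat_lit 3943661925) (nat_lit 304) (nat_lit 6681869930) (nat_lit 36) (nat_lit 5) (nat_lit 39) (nat_lit 5) (nat_lit 40) (nat_lit 5) (nat_lit 262) (nat_lit 248) (nat_lit 210)) (XT.lf (nat_lit 0) (nat_lit 10992250893) (nat_lit 304) (nat_lit 1443891998) (nat_lit 76) (nat_lit 2864878920) (nat_lit 36) (nat_lit 5) (nat_lit 40) (nat_lit 5) (nat_lit 37) (nat_lit 5) (nat_lit 263) (nat_lit 248) (nat_lit 209))) (XT.nd (nat_lit 78) (nat_lit 304) (nat_lit 0) (XT.lf (nat_lit 0) (nat_lit 8614934572) (nat_lit 228) (nat_lit 5877050388) (nat_lit 304) (nat_lit 1594922492) (nat_lit 33) (nat_lit 5) (nat_lit 36) (nat_lit 5) (nat_lit 37) (nat_lit 5) (nat_lit 264) (nat_lit 248) (nat_lit 208)) (XT.lf (nat_lit 0) (nat_lit 1324471857) (nat_lit 304) (nat_lit 14362891153) (nat_lit 76) (nat_lit 1245959669) (nat_lit 29) (nat_lit 5) (nat_lit 33) (nat_lit 5) (nat_lit 30) (nat_lit 5) (nat_lit 265) (nat_lit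 248) (nat_lit 207)))) (XT.nd (nat_lit 156) (nat_lit 380) (nat_lit 0) (XT.nd (nat_lit 78) (nat_lit 228) (nat_lit 0) (XT.lf (nat_lit 0) (nat_lit 4601666552) (nat_lit 304) (nat_lit 4351584381) (nat_lit 76) (nat_lit 8884128813) (nat_lit 29) (nat_lit 5) (nat_lit 33) (nat_lit 5) (nat_lit 30) (nat_lit 5) (nat_lit 266) (nat_lit 248) (nat_lit 206)) (XT.lf (nat_lit 0) (nat_lit 6611527569) (nat_lit 228) (nat_lit 1584577804) (nat_lit 304) (nat_lit 10615126919) (nat_lit 26) (nat_lit 5) (nat_lit 29) (nat_lit 5) (nat_lit 30) (nat_lit 5) (nat_lit 267) (nat_lit 248) (nat_lit 205))) (XT.nd (nat_lit 78) (nat_lit 380) (nat_lit 0) (XT.lf (nat_lit 0) (nat_lit 12208961522) (nat_lit 304) (nat_lit 1413230373) (nat_lit 76) (nat_lit 6234465761) (nat_lit 26) (nat_lit 5) (nat_lit 30) (nat_lit 5) (nat_lit 27) (nat_lit 5) (nat_lit 268) (nat_lit 248) (nat_lit 204)) (XT.nd (nat_lit 78) (nat_lit 228) (nat_lit 0) (XT.lf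 (nat_lit 0) (nat_lit 10489279071) (nat_lit 152) (nat_lit 6201745774) (nat_lit 228) (nat_lit 4287475606) (nat_lit 24) (nat_lit 5) (nat_lit 26) (nat_lit 5) (nat_lit 27) (nat_lit 5) (nat_lit 269) (nat_lit 248) (nat_lit 203)) (XT.lf (nat_lit 0) (nat_lit 1158550973) (nat_lit 228) (nat_lit 20404289287) (nat_lit 304) (nat_lit 625869150) (nat_lit 21) (nat_lit 5) (nat_lit 24) (nat_lit 5) (nat_lit 25) (nat_lit 5) (nat_lit 270) (nat_lit 248) (nat_lit 202))))))))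
noncomputable def xc68 : XT := (XT.nd (nat_lit 1248) (nat_lit 304) (nat_lit 0) (XT.nd (nat_lit 624) (nat_lit 456) (nat_lit 0) (XT.nd (nat_lit 312) (nat_lit 152) (nat_lit 0) (XT.nd (nat_lit 156) (nat_lit 152) (nat_lit 0) (XT.nd (nat_lit 78) (nat_lit 152) (nat_lit 0) (XT.lf (nat_lit 0) (nat_lit 3473561015) (nat_lit 304) (nat_lit 9587884403) (nat_lit 76) (nat_lit 10419276557) (nat_lit 20) (nat_lit 5) (nat_lit 24) (nat_lit 5) (nat_lit 21) (nat_lit 5) (nat_lit 271) (nat_lit 248) (nat_lit 201)) (XT.lf (nat_lit 0) (nat_lit 2798358174) (nat_lit 152) (nat_lit 5088670891) (nat_lit 228) (nat_lit 16988298341) (nat_lit 18) (nat_lit 5) (nat_lit 20) (nat_lit 5) (nat_lit 21) (nat_lit 5) (nat_lit 272) (nat_lit 248) (nat_lit 200))) (XT.nd (nat_lit 78) (nat_lit 152) (nat_lit 0) (XT.lf (nat_lit 0) (nat_lit 12844032207) (nat_lit 228) (nat_lit 9962845213) (nat_lit 76) (nat_lit 3565235613) (nat_lit 18) (nat_lit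 5) (nat_lit 21) (nat_lit 5) (nat_lit 19) (nat_lit 5) (nat_lit 273) (nat_lit 248) (nat_lit 199)) (XT.lf (nat_lit 0) (nat_lit 3087258568) (nat_lit 152) (nat_lit 15212599306) (nat_lit 228) (nat_lit 9683795189) (nat_lit 16) (nat_lit 5) (nat_lit 18) (nat_lit 5) (nat_lit 19) (nat_lit 5) (nat_lit 274) (nat_lit 248) (nat_lit 198)))) (XT.nd (nat_lit 156) (nat_lit 76) (nat_lit 0) (XT.nd (nat_lit 78) (nat_lit 76) (nat_lit 0) (XT.lf (nat_lit 0) (nat_lit 17492989162) (nat_lit 152) (nat_lit 6842625988) (nat_lit 228) (nat_lit 5381443301) (nat_lit 16) (nat_lit 5) (nat_lit 18) (nat_lit 5) (nat_lit 19) (nat_lit 5) (nat_lit 275) (nat_lit 248) (nat_lit 197)) (XT.lf (nat_lit 0) (nat_lit 1431377373) (nat_lit 76) (nat_lit 29451447933) (nat_lit 152) (nat_lit 704988232) (nat_lit 15) (nat_lit 5) (nat_lit 16) (nat_lit 5) (nat_lit 17) (nat_lit 4) (nat_lit 276) (nat_lit 248) (nat_lit 196))) (XT.nd (nat_lit 78)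 (nat_lit 0) (nat_lit 0) (XT.lf (nat_lit 0) (nat_lit 4511163119) (nat_lit 152) (nat_lit 17209857321) (nat_lit 76) (nat_lit 11868677225) (nat_lit 14) (nat_lit 5) (nat_lit 16) (nat_lit 5) (nat_lit 15) (nat_lit 5) (nat_lit 277) (nat_lit 248) (nat_lit 195)) (XT.lf (nat_lit 0) (nat_lit 10095108136) (nat_lit 152) (nat_lit 3277713399) (nat_lit 76) (nat_lit 22379660352) (nat_lit 14) (nat_lit 5) (nat_lit 16) (nat_lit 5) (nat_lit 15) (nat_lit 5) (nat_lit 278) (nat_lit 248) (nat_lit 194))))) (XT.nd (nat_lit 312) (nat_lit 228) (nat_lit 0) (XT.nd (nat_lit 156) (nat_lit 76) (nat_lit 0) (XT.nd (nat_lit 78) (nat_lit 0) (nat_lit 0) (XT.lf (nat_lit 0) (nat_lit 12121527887) (nat_lit 152) (nat_lit 4170224022) (nat_lit 228) (nat_lit 21788318587) (nat_lit 12) (nat_lit 5) (nat_lit 14) (nat_lit 5) (nat_lit 15) (nat_lit 5) (nat_lit 279) (nat_lit 248) (nat_lit 193)) (XT.lf (nat_lit 0) (nat_lit 23109964358) (nat_lit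 228) (nat_lit 11847149057) (nat_lit 76) (nat_lit 5630535742) (nat_lit 12) (nat_lit 5) (nat_lit 15) (nat_lit 5) (nat_lit 13) (nat_lit 4) (nat_lit 280) (nat_lit 248) (nat_lit 192))) (XT.nd (nat_lit 78) (nat_lit 0) (nat_lit 0) (XT.lf (nat_lit 0) (nat_lit 3399330319) (nat_lit 76) (nat_lit 27177084711) (nat_lit 152) (nat_lit 12714349296) (nat_lit 11) (nat_lit 5) (nat_lit 12) (nat_lit 5) (nat_lit 13) (nat_lit 4) (nat_lit 281) (nat_lit 248) (nat_lit 191)) (XT.lf (nat_lit 0) (nat_lit 20257682113) (nat_lit 76) (nat_lit 18569304029) (nat_lit 152) (nat_lit 7373866497) (nat_lit 11) (nat_lit 5) (nat_lit 12) (nat_lit 5) (nat_lit 13) (nat_lit 4) (nat_lit 282) (nat_lit 248) (nat_lit 190)))) (XT.nd (nat_lit 156) (nat_lit 0) (nat_lit 0) (XT.nd (nat_lit 78) (nat_lit 228) (nat_lit 0) (XT.lf (nat_lit 0) (nat_lit 38436087416) (nat_lit 76) (nat_lit 9283399499) (nat_lit 152) (nat_lit 1625226298) (nat_lit 11)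 (nat_lit 5) (nat_lit 12) (nat_lit 5) (nat_lit 13) (nat_lit 4) (nat_lit 283) (nat_lit 248) (nat_lit 189)) (XT.lf (nat_lit 0) (nat_lit 4517900524) (nat_lit 228) (nat_lit 47344292374) (nat_lit 76) (nat_lit 870299708) (nat_lit 8) (nat_lit 5) (nat_lit 11) (nat_lit 5) (nat_lit 9) (nat_lit 4) (nat_lit 284) (nat_lit 248) (nat_lit 188))) (XT.nd (nat_lit 78) (nat_lit 0) (nat_lit 0) (XT.lf (nat_lit 0) (nat_lit 11429578363) (nat_lit 228) (nat_lit 33217175655) (nat_lit 76) (nat_lit 11726554634) (nat_lit 8) (nat_lit 5) (nat_lit 11) (nat_lit 5) (nat_lit 9) (nat_lit 4) (nat_lit 285) (nat_lit 248) (nat_lit 187)) (XT.lf (nat_lit 0) (nat_lit 18879012886) (nat_lit 228) (nat_lit 17984559745) (nat_lit 76) (nat_lit 23442621133) (nat_lit 8) (nat_lit 5) (nat_lit 11) (nat_lit 5) (nat_lit 9) (nat_lit 4) (nat_lit 286) (nat_lit 248) (nat_lit 186)))))) (XT.nd (nat_lit 624) (nat_lit 76) (nat_lit 0) (XT.nd (nat_lit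 312) (nat_lit 152) (nat_lit 0) (XT.nd (nat_lit 156) (nat_lit 0) (nat_lit 0) (XT.nd (nat_lit 78) (nat_lit 76) (nat_lit 0) (XT.lf (nat_lit 0) (nat_lit 26910348890) (nat_lit 228) (nat_lit 1556177290) (nat_lit 76) (nat_lit 36087927747) (nat_lit 8) (nat_lit 5) (nat_lit 11) (nat_lit 5) (nat_lit 9) (nat_lit 4) (nat_lit 287) (nat_lit 248) (nat_lit 185)) (XT.lf (nat_lit 0) (nat_lit 16699823738) (nat_lit 76) (nat_lit 19132086788) (nat_lit 152) (nat_lit 33298316937) (nat_lit 7) (nat_lit 5) (nat_lit 8) (nat_lit 5) (nat_lit 9) (nat_lit 4) (nat_lit 288) (nat_lit 248) (nat_lit 184))) (XT.nd (nat_lit 78) (nat_lit 0) (nat_lit 0) (XT.lf (nat_lit 0) (nat_lit 36451643946) (nat_lit 76) (nat_lit 9030296459) (nat_lit 152) (nat_lit 28589420959) (nat_lit 7) (nat_lit 5) (nat_lit 8) (nat_lit 5) (nat_lit 9) (nat_lit 4) (nat_lit 289) (nat_lit 248) (nat_lit 183)) (XT.lf (nat_lit 0) (nat_lit 55921756928) (nat_lit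 152) (nat_lit 21672747169) (nat_lit 0) (nat_lit 1812425675) (nat_lit 7) (nat_lit 5) (nat_lit 9) (nat_lit 4) (nat_lit 7) (nat_lit 4) (nat_lit 290) (nat_lit 248) (nat_lit 182)))) (XT.nd (nat_lit 156) (nat_lit 76) (nat_lit 0) (XT.nd (nat_lit 78) (nat_lit 76) (nat_lit 0) (XT.lf (nat_lit 0) (nat_lit 67338320370) (nat_lit 152) (nat_lit 4620087111) (nat_lit 0) (nat_lit 13203888650) (nat_lit 7) (nat_lit 5) (nat_lit 9) (nat_lit 4) (nat_lit 7) (nat_lit 4) (nat_lit 291) (nat_lit 248) (nat_lit 181)) (XT.lf (nat_lit 0) (nat_lit 14235942866) (nat_lit 76) (nat_lit 65644616305) (nat_lit 76) (nat_lit 11486943413) (nat_lit 6) (nat_lit 4) (nat_lit 7) (nat_lit 5) (nat_lit 7) (nat_lit 4) (nat_lit 292) (nat_lit 248) (nat_lit 180))) (XT.nd (nat_lit 78) (nat_lit 76) (nat_lit 0) (XT.lf (nat_lit 0) (nat_lit 34749671388) (nat_lit 76) (nat_lit 58747560072) (nat_lit 76) (nat_lit 4568367575) (nat_lit 6) (nat_lit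 4) (nat_lit 7) (nat_lit 5) (nat_lit 7) (nat_lit 4) (nat_lit 293) (nat_lit 248) (nat_lit 179)) (XT.lf (nat_lit 0) (nat_lit 2801864997) (nat_lit 152) (nat_lit 48455294812) (nat_lit 76) (nat_lit 54040584408) (nat_lit 5) (nat_lit 5) (nat_lit 7) (nat_lit 5) (nat_lit 6) (nat_lit 4) (nat_lit 294) (nat_lit 248) (nat_lit 178))))) (XT.nd (nat_lit 312) (nat_lit 0) (nat_lit 0) (XT.nd (nat_lit 156) (nat_lit 76) (nat_lit 0) (XT.nd (nat_lit 78) (nat_lit 0) (nat_lit 0) (XT.lf (nat_lit 0) (nat_lit 10595568339) (nat_lit 152) (nat_lit 32496652553) (nat_lit 76) (nat_lit 70012821675) (nat_lit 5) (nat_lit 5) (nat_lit 7) (nat_lit 5) (nat_lit 6) (nat_lit 4) (nat_lit 295) (nat_lit 248) (nat_lit 177)) (XT.lf (nat_lit 0) (nat_lit 19005143652) (nat_lit 152) (nat_lit 15274106117) (nat_lit 76) (nat_lit 87258076041) (nat_lit 5) (nat_lit 5) (nat_lit 7) (nat_lit 5) (nat_lit 6) (nat_lit 4) (nat_lit 296) (nat_lit 248)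 (nat_lit 176))) (XT.nd (nat_lit 78) (nat_lit 0) (nat_lit 0) (XT.lf (nat_lit 0) (nat_lit 3423993195) (nat_lit 76) (nat_lit 24709890390) (nat_lit 152) (nat_lit 102508006538) (nat_lit 4) (nat_lit 5) (nat_lit 5) (nat_lit 5) (nat_lit 6) (nat_lit 4) (nat_lit 297) (nat_lit 248) (nat_lit 175)) (XT.lf (nat_lit 0) (nat_lit 24152048404) (nat_lit 76) (nat_lit 14100225957) (nat_lit 152) (nat_lit 102209594622) (nat_lit 4) (nat_lit 5) (nat_lit 5) (nat_lit 5) (nat_lit 6) (nat_lit 4) (nat_lit 298) (nat_lit 248) (nat_lit 174)))) (XT.nd (nat_lit 156) (nat_lit 0) (nat_lit 0) (XT.nd (nat_lit 78) (nat_lit 0) (nat_lit 0) (XT.lf (nat_lit 0) (nat_lit 46527861500) (nat_lit 76) (nat_lit 2646058762) (nat_lit 152) (nat_lit 101893852421) (nat_lit 4) (nat_lit 5) (nat_lit 5) (nat_lit 5) (nat_lit 6) (nat_lit 4) (nat_lit 299) (nat_lit 248) (nat_lit 173)) (XT.lf (nat_lit 0) (nat_lit 61115306210) (nat_lit 152) (nat_lit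 91990185185) (nat_lit 0) (nat_lit 9409371427) (nat_lit 4) (nat_lit 5) (nat_lit 6) (nat_lit 4) (nat_lit 4) (nat_lit 4) (nat_lit 300) (nat_lit 248) (nat_lit 172))) (XT.nd (nat_lit 78) (nat_lit 0) (nat_lit 0) (XT.lf (nat_lit 0) (nat_lit 74051233920) (nat_lit 152) (nat_lit 78490311787) (nat_lit 0) (nat_lit 22334226401) (nat_lit 4) (nat_lit 5) (nat_lit 6) (nat_lit 4) (nat_lit 4) (nat_lit 4) (nat_lit 301) (nat_lit 248) (nat_lit 171)) (XT.nd (nat_lit 78) (nat_lit 0) (nat_lit 0) (XT.lf (nat_lit 0) (nat_lit 88017048350) (nat_lit 152) (nat_lit 63918979346) (nat_lit 0) (nat_lit 36289788298) (nat_lit 4) (nat_lit 5) (nat_lit 6) (nat_lit 4) (nat_lit 4) (nat_lit 4) (nat_lit 302) (nat_lit 248) (nat_lit 170)) (XT.lf (nat_lit 0) (nat_lit 103095509883) (nat_lit 152) (nat_lit 48189839227) (nat_lit 0) (nat_lit 51358756745) (nat_lit 4) (nat_lit 5) (nat_lit 6) (nat_lit 4) (nat_lit 4) (nat_lit 4) (nat_lit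 303) (nat_lit 248) (nat_lit 169))))))))
noncomputable def xc69 : XT := (XT.nd (nat_lit 33306) (nat_lit 0) (nat_lit 1976) (XT.nd (nat_lit 624) (nat_lit 0) (nat_lit 0) (XT.nd (nat_lit 312) (nat_lit 0) (nat_lit 0) (XT.nd (nat_lit 156) (nat_lit 76) (nat_lit 0) (XT.nd (nat_lit 78) (nat_lit 0) (nat_lit 0) (XT.lf (nat_lit 0) (nat_lit 119375972364) (nat_lit 152) (nat_lit 31209681709) (nat_lit 0) (nat_lit 67630429330) (nat_lit 4) (nat_lit 5) (nat_lit 6) (nat_lit 4) (nat_lit 4) (nat_lit 4) (nat_lit 304) (nat_lit 248) (nat_lit 168)) (XT.lf (nat_lit 0) (nat_lit 136954912607) (nat_lit 152) (nat_lit 12877883638) (nat_lit 0) (nat_lit 85201230783) (nat_lit 4) (nat_lit 5) (nat_lit 6) (nat_lit 4) (nat_lit 4) (nat_lit 4) (nat_lit 305) (nat_lit 248) (nat_lit 167))) (XT.nd (nat_lit 78) (nat_lit 0) (nat_lit 0) (XT.lf (nat_lit 0) (nat_lit 7142802140) (nat_lit 76) (nat_lit 148905219130) (nat_lit 76) (nat_lit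 97144001387) (nat_lit 3) (nat_lit 4) (nat_lit 4) (nat_lit 5) (nat_lit 4) (nat_lit 4) (nat_lit 306) (nat_lit 248) (nat_lit 166)) (XT.lf (nat_lit 0) (nat_lit 29219009943) (nat_lit 76) (nat_lit 147670405058) (nat_lit 76) (nat_lit 95902209613) (nat_lit 3) (nat_lit 4) (nat_lit 4) (nat_lit 5) (nat_lit 4) (nat_lit 4) (nat_lit 307) (nat_lit 248) (nat_lit 165)))) (XT.nd (nat_lit 156) (nat_lit 0) (nat_lit 0) (XT.nd (nat_lit 78) (nat_lit 0) (nat_lit 0) (XT.lf (nat_lit 0) (nat_lit 53055760749) (nat_lit 76) (nat_lit 146339129804) (nat_lit 76) (nat_lit 94564473525) (nat_lit 3) (nat_lit 4) (nat_lit 4) (nat_lit 5) (nat_lit 4) (nat_lit 4) (nat_lit 308) (nat_lit 248) (nat_lit 164)) (XT.lf (nat_lit 0) (nat_lit 78794309378) (nat_lit 76) (nat_lit 144903504330) (nat_lit 76) (nat_lit 93122865796) (nat_lit 3) (nat_lit 4) (nat_lit 4) (nat_lit 5) (nat_lit 4) (nat_lit 4) (nat_lit 309) (nat_lit 248) (nat_lit 163)))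 (XT.nd (nat_lit 78) (nat_lit 0) (nat_lit 0) (XT.lf (nat_lit 0) (nat_lit 106587180564) (nat_lit 76) (nat_lit 143355021225) (nat_lit 76) (nat_lit 91568843566) (nat_lit 3) (nat_lit 4) (nat_lit 4) (nat_lit 5) (nat_lit 4) (nat_lit 4) (nat_lit 310) (nat_lit 248) (nat_lit 162)) (XT.lf (nat_lit 0) (nat_lit 136599072802) (nat_lit 76) (nat_lit 141684504293) (nat_lit 76) (nat_lit 89893197815) (nat_lit 3) (nat_lit 4) (nat_lit 4) (nat_lit 5) (nat_lit 4) (nat_lit 4) (nat_lit 311) (nat_lit 248) (nat_lit 161))))) (XT.nd (nat_lit 312) (nat_lit 0) (nat_lit 0) (XT.nd (nat_lit 156) (nat_lit 0) (nat_lit 0) (XT.nd (nat_lit 78) (nat_lit 0) (nat_lit 0) (XT.lf (nat_lit 0) (nat_lit 169007834343) (nat_lit 76) (nat_lit 139882054175) (nat_lit 76) (nat_lit 88085998790) (nat_lit 3) (nat_lit 4) (nat_lit 4) (nat_lit 5) (nat_lit 4) (nat_lit 4) (nat_lit 312) (nat_lit 248) (nat_lit 160)) (XT.lf (nat_lit 0) (nat_lit 204005517105)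 (nat_lit 76) (nat_lit 137936989684) (nat_lit 76) (nat_lit 86136537164) (nat_lit 3) (nat_lit 4) (nat_lit 4) (nat_lit 5) (nat_lit 4) (nat_lit 4) (nat_lit 313) (nat_lit 248) (nat_lit 159))) (XT.nd (nat_lit 78) (nat_lit 0) (nat_lit 0) (XT.lf (nat_lit 0) (nat_lit 241799514767) (nat_lit 76) (nat_lit 135837784513) (nat_lit 76) (nat_lit 84033260570) (nat_lit 3) (nat_lit 4) (nat_lit 4) (nat_lit 5) (nat_lit 4) (nat_lit 4) (nat_lit 314) (nat_lit 248) (nat_lit 158)) (XT.lf (nat_lit 0) (nat_lit 282613791757) (nat_lit 76) (nat_lit 133571998927) (nat_lit 76) (nat_lit 81763705149) (nat_lit 3) (nat_lit 4) (nat_lit 4) (nat_lit 5) (nat_lit 4) (nat_lit 4) (nat_lit 315) (nat_lit 248) (nat_lit 157)))) (XT.nd (nat_lit 156) (nat_lit 0) (nat_lit 0) (XT.nd (nat_lit 78) (nat_lit 0) (nat_lit 0) (XT.lf (nat_lit 0) (nat_lit 326690210458) (nat_lit 76) (nat_lit 131126206049) (nat_lit 76) (nat_lit 79314421683) (nat_lit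 3) (nat_lit 4) (nat_lit 4) (nat_lit 5) (nat_lit 4) (nat_lit 4) (nat_lit 316) (nat_lit 248) (nat_lit 156)) (XT.lf (nat_lit 0) (nat_lit 374289964462) (nat_lit 76) (nat_lit 128485912291) (nat_lit 76) (nat_lit 76670895898) (nat_lit 3) (nat_lit 4) (nat_lit 4) (nat_lit 5) (nat_lit 4) (nat_lit 4) (nat_lit 317) (nat_lit 248) (nat_lit 155))) (XT.nd (nat_lit 32136) (nat_lit 0) (nat_lit 4864) (XT.lf (nat_lit 0) (nat_lit 425695126386) (nat_lit 76) (nat_lit 125635471467) (nat_lit 76) (nat_lit 73817462459) (nat_lit 3) (nat_lit 4) (nat_lit 4) (nat_lit 5) (nat_lit 4) (nat_lit 4) (nat_lit 318) (nat_lit 248) (nat_lit 154)) (XT.lf (nat_lit 0) (nat_lit 1107707674) (nat_lit 0) (nat_lit 1107707674) (nat_lit 532) (nat_lit 2226665391) (nat_lit 67) (nat_lit 5) (nat_lit 67) (nat_lit 3) (nat_lit 74) (nat_lit 3) (nat_lit 249) (nat_lit 249) (nat_lit 222)))))) (XT.nd (nat_lit 624) (nat_lit 1900) (nat_lit 0) (XT.nd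 (nat_lit 312) (nat_lit 456) (nat_lit 0) (XT.nd (nat_lit 156) (nat_lit 532) (nat_lit 0) (XT.nd (nat_lit 78) (nat_lit 0) (nat_lit 0) (XT.lf (nat_lit 0) (nat_lit 5886682234) (nat_lit 532) (nat_lit 1142989880) (nat_lit 608) (nat_lit 2137690624) (nat_lit 67) (nat_lit 5) (nat_lit 74) (nat_lit 3) (nat_lit 75) (nat_lit 5) (nat_lit 250) (nat_lit 249) (nat_lit 221)) (XT.lf (nat_lit 76) (nat_lit 4873187248) (nat_lit 0) (nat_lit 2575752611) (nat_lit 608) (nat_lit 2025607165) (nat_lit 68) (nat_lit 5) (nat_lit 67) (nat_lit 5) (nat_lit 75) (nat_lit 5) (nat_lit 251) (nat_lit 249) (nat_lit 220))) (XT.nd (nat_lit 78) (nat_lit 608) (nat_lit 0) (XT.lf (nat_lit 76) (nat_lit 1545942367) (nat_lit 0) (nat_lit 7554844787) (nat_lit 608) (nat_lit 708051245) (nat_lit 69) (nat_lit 5) (nat_lit 68) (nat_lit 5) (nat_lit 76) (nat_lit 5) (nat_lit 252) (nat_lit 249) (nat_lit 219)) (XT.lf (nat_lit 0) (nat_lit 707213685)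 (nat_lit 608) (nat_lit 1947982728) (nat_lit 684) (nat_lit 7514031945) (nat_lit 60) (nat_lit 5) (nat_lit 68) (nat_lit 5) (nat_lit 69) (nat_lit 5) (nat_lit 253) (nat_lit 249) (nat_lit 218)))) (XT.nd (nat_lit 156) (nat_lit 532) (nat_lit 0) (XT.nd (nat_lit 78) (nat_lit 0) (nat_lit 0) (XT.lf (nat_lit 0) (nat_lit 2230019019) (nat_lit 608) (nat_lit 5654193505) (nat_lit 684) (nat_lit 2673323160) (nat_lit 61) (nat_lit 5) (nat_lit 69) (nat_lit 5) (nat_lit 70) (nat_lit 5) (nat_lit 254) (nat_lit 249) (nat_lit 217)) (XT.lf (nat_lit 76) (nat_lit 1321402364) (nat_lit 0) (nat_lit 2558472169) (nat_lit 684) (nat_lit 7097348479) (nat_lit 62) (nat_lit 5) (nat_lit 61) (nat_lit 5) (nat_lit 70) (nat_lit 5) (nat_lit 255) (nat_lit 249) (nat_lit 216))) (XT.nd (nat_lit 78) (nat_lit 608) (nat_lit 0) (XT.lf (nat_lit 0) (nat_lit 5723243586) (nat_lit 608) (nat_lit 2494875730) (nat_lit 76) (nat_lit 3209823735) (nat_lit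 62) (nat_lit 5) (nat_lit 70) (nat_lit 5) (nat_lit 63) (nat_lit 5) (nat_lit 256) (nat_lit 249) (nat_lit 215)) (XT.lf (nat_lit 0) (nat_lit 5296052757) (nat_lit 608) (nat_lit 2461968438) (nat_lit 684) (nat_lit 4154996976) (nat_lit 54) (nat_lit 5) (nat_lit 62) (nat_lit 5) (nat_lit 63) (nat_lit 5) (nat_lit 257) (nat_lit 249) (nat_lit 214))))) (XT.nd (nat_lit 312) (nat_lit 760) (nat_lit 0) (XT.nd (nat_lit 156) (nat_lit 684) (nat_lit 0) (XT.nd (nat_lit 78) (nat_lit 0) (nat_lit 0) (XT.lf (nat_lit 0) (nat_lit 1275392858) (nat_lit 456) (nat_lit 8726202518) (nat_lit 532) (nat_lit 2433461010) (nat_lit 48) (nat_lit 5) (nat_lit 54) (nat_lit 5) (nat_lit 55) (nat_lit 5) (nat_lit 258) (nat_lit 249) (nat_lit 213)) (XT.lf (nat_lit 0) (nat_lit 9924902134) (nat_lit 456) (nat_lit 2583794401) (nat_lit 532) (nat_lit 486382962) (nat_lit 48) (nat_lit 5) (nat_lit 54) (nat_lit 5) (nat_lit 55) (nat_lit 5) (nat_lit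 259) (nat_lit 249) (nat_lit 212))) (XT.nd (nat_lit 78) (nat_lit 304) (nat_lit 0) (XT.lf (nat_lit 0) (nat_lit 1651623880) (nat_lit 380) (nat_lit 7902758534) (nat_lit 76) (nat_lit 4040289002) (nat_lit 43) (nat_lit 5) (nat_lit 48) (nat_lit 5) (nat_lit 44) (nat_lit 5) (nat_lit 260) (nat_lit 249) (nat_lit 211)) (XT.lf (nat_lit 0) (nat_lit 936370305) (nat_lit 304) (nat_lit 3055934742) (nat_lit 380) (nat_lit 10247439365) (nat_lit 39) (nat_lit 5) (nat_lit 43) (nat_lit 5) (nat_lit 44) (nat_lit 5) (nat_lit 261) (nat_lit 249) (nat_lit 210)))) (XT.nd (nat_lit 156) (nat_lit 532) (nat_lit 0) (XT.nd (nat_lit 78) (nat_lit 228) (nat_lit 0) (XT.lf (nat_lit 0) (nat_lit 6661643325) (nat_lit 380) (nat_lit 4295254268) (nat_lit 76) (nat_lit 3972776001) (nat_lit 39) (nat_lit 5) (nat_lit 44) (nat_lit 5) (nat_lit 40) (nat_lit 5) (nat_lit 262) (nat_lit 249) (nat_lit 209)) (XT.lf (nat_lit 0) (nat_lit 5496398418)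 (nat_lit 228) (nat_lit 4129566526) (nat_lit 304) (nat_lit 6045057090) (nat_lit 36) (nat_lit 5) (nat_lit 39) (nat_lit 5) (nat_lit 40) (nat_lit 5) (nat_lit 263) (nat_lit 249) (nat_lit 208))) (XT.nd (nat_lit 78) (nat_lit 532) (nat_lit 0) (XT.lf (nat_lit 0) (nat_lit 12901346676) (nat_lit 304) (nat_lit 356692663) (nat_lit 76) (nat_lit 3210218045) (nat_lit 36) (nat_lit 5) (nat_lit 40) (nat_lit 5) (nat_lit 37) (nat_lit 5) (nat_lit 264) (nat_lit 249) (nat_lit 207)) (XT.nd (nat_lit 78) (nat_lit 304) (nat_lit 0) (XT.lf (nat_lit 0) (nat_lit 10454571691) (nat_lit 228) (nat_lit 6168174168) (nat_lit 304) (nat_lit 697580763) (nat_lit 33) (nat_lit 5) (nat_lit 36) (nat_lit 5) (nat_lit 37) (nat_lit 5) (nat_lit 265) (nat_lit 249) (nat_lit 206)) (XT.lf (nat_lit 0) (nat_lit 2369933141) (nat_lit 304) (nat_lit 14327502770) (nat_lit 76) (nat_lit 1539200580) (nat_lit 29) (nat_lit 5) (nat_lit 33) (nat_lit 5)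 (nat_lit 30) (nat_lit 5) (nat_lit 266) (nat_lit 249) (nat_lit 205))))))))
noncomputable def xc70 : XT := (XT.nd (nat_lit 1248) (nat_lit 532) (nat_lit 0) (XT.nd (nat_lit 624) (nat_lit 532) (nat_lit 0) (XT.nd (nat_lit 312) (nat_lit 456) (nat_lit 0) (XT.nd (nat_lit 156) (nat_lit 152) (nat_lit 0) (XT.nd (nat_lit 78) (nat_lit 228) (nat_lit 0) (XT.lf (nat_lit 0) (nat_lit 5839710558) (nat_lit 304) (nat_lit 3603026247) (nat_lit 76) (nat_lit 9774085171) (nat_lit 29) (nat_lit 5) (nat_lit 33) (nat_lit 5) (nat_lit 30) (nat_lit 5) (nat_lit 267) (nat_lit 249) (nat_lit 204)) (XT.lf (nat_lit 0) (nat_lit 8189474071) (nat_lit 228) (nat_lit 1484170794) (nat_lit 304) (nat_lit 10597641035) (nat_lit 26) (nat_lit 5) (nat_lit 29) (nat_lit 5) (nat_lit 30) (nat_lit 5) (nat_lit 268) (nat_lit 249) (nat_lit 203))) (XT.nd (nat_lit 78) (nat_lit 152) (nat_lit 0) (XT.lf (nat_lit 0) (nat_lit 13949935733) (nat_lit 304)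 (nat_lit 516730968) (nat_lit 76) (nat_lit 6936836237) (nat_lit 26) (nat_lit 5) (nat_lit 30) (nat_lit 5) (nat_lit 27) (nat_lit 5) (nat_lit 269) (nat_lit 249) (nat_lit 202)) (XT.lf (nat_lit 0) (nat_lit 12294105078) (nat_lit 152) (nat_lit 6454924422) (nat_lit 228) (nat_lit 3868397756) (nat_lit 24) (nat_lit 5) (nat_lit 26) (nat_lit 5) (nat_lit 27) (nat_lit 5) (nat_lit 270) (nat_lit 249) (nat_lit 201)))) (XT.nd (nat_lit 156) (nat_lit 152) (nat_lit 0) (XT.nd (nat_lit 78) (nat_lit 0) (nat_lit 0) (XT.lf (nat_lit 0) (nat_lit 47504861) (nat_lit 304) (nat_lit 21718245101) (nat_lit 76) (nat_lit 2160656454) (nat_lit 20) (nat_lit 5) (nat_lit 24) (nat_lit 5) (nat_lit 21) (nat_lit 5) (nat_lit 271) (nat_lit 249) (nat_lit 200)) (XT.lf (nat_lit 0) (nat_lit 4401269308) (nat_lit 304) (nat_lit 9444014495) (nat_lit 76) (nat_lit 11478777958) (nat_lit 20) (nat_lit 5) (nat_lit 24) (nat_lit 5) (nat_lit 21) (nat_lit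 5) (nat_lit 272) (nat_lit 249) (nat_lit 199))) (XT.nd (nat_lit 78) (nat_lit 0) (nat_lit 0) (XT.lf (nat_lit 0) (nat_lit 3893540857) (nat_lit 152) (nat_lit 5239742532) (nat_lit 228) (nat_lit 17698873386) (nat_lit 18) (nat_lit 5) (nat_lit 20) (nat_lit 5) (nat_lit 21) (nat_lit 5) (nat_lit 273) (nat_lit 249) (nat_lit 198)) (XT.lf (nat_lit 0) (nat_lit 14444970727) (nat_lit 228) (nat_lit 9926063913) (nat_lit 76) (nat_lit 4079924579) (nat_lit 18) (nat_lit 5) (nat_lit 21) (nat_lit 5) (nat_lit 19) (nat_lit 5) (nat_lit 274) (nat_lit 249) (nat_lit 197))))) (XT.nd (nat_lit 312) (nat_lit 228) (nat_lit 0) (XT.nd (nat_lit 156) (nat_lit 152) (nat_lit 0) (XT.nd (nat_lit 78) (nat_lit 0) (nat_lit 0) (XT.lf (nat_lit 0) (nat_lit 4131811852) (nat_lit 152) (nat_lit 16175427684) (nat_lit 228) (nat_lit 9885850880) (nat_lit 16) (nat_lit 5) (nat_lit 18) (nat_lit 5) (nat_lit 19) (nat_lit 5) (nat_lit 275) (nat_lit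 249) (nat_lit 196)) (XT.lf (nat_lit 0) (nat_lit 19630921442) (nat_lit 152) (nat_lit 7154684617) (nat_lit 228) (nat_lit 5281729206) (nat_lit 16) (nat_lit 5) (nat_lit 18) (nat_lit 5) (nat_lit 19) (nat_lit 5) (nat_lit 276) (nat_lit 249) (nat_lit 195))) (XT.nd (nat_lit 78) (nat_lit 76) (nat_lit 0) (XT.lf (nat_lit 0) (nat_lit 2274682548) (nat_lit 76) (nat_lit 31559421566) (nat_lit 152) (nat_lit 254914110) (nat_lit 15) (nat_lit 5) (nat_lit 16) (nat_lit 5) (nat_lit 17) (nat_lit 4) (nat_lit 277) (nat_lit 249) (nat_lit 194)) (XT.lf (nat_lit 0) (nat_lit 5326003276) (nat_lit 152) (nat_lit 17895249688) (nat_lit 76) (nat_lit 13031346653) (nat_lit 14) (nat_lit 5) (nat_lit 16) (nat_lit 5) (nat_lit 15) (nat_lit 5) (nat_lit 278) (nat_lit 249) (nat_lit 193)))) (XT.nd (nat_lit 156) (nat_lit 76) (nat_lit 0) (XT.nd (nat_lit 78) (nat_lit 152) (nat_lit 0) (XT.lf (nat_lit 0) (nat_lit 11323038183) (nat_lit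 152) (nat_lit 2899748787) (nat_lit 76) (nat_lit 24367417671) (nat_lit 14) (nat_lit 5) (nat_lit 16) (nat_lit 5) (nat_lit 15) (nat_lit 5) (nat_lit 279) (nat_lit 249) (nat_lit 192)) (XT.lf (nat_lit 0) (nat_lit 13703610286) (nat_lit 152) (nat_lit 4290228912) (nat_lit 228) (nat_lit 23111347982) (nat_lit 12) (nat_lit 5) (nat_lit 14) (nat_lit 5) (nat_lit 15) (nat_lit 5) (nat_lit 280) (nat_lit 249) (nat_lit 191))) (XT.nd (nat_lit 78) (nat_lit 76) (nat_lit 0) (XT.lf (nat_lit 0) (nat_lit 25331059872) (nat_lit 228) (nat_lit 12211296882) (nat_lit 76) (nat_lit 6272437936) (nat_lit 12) (nat_lit 5) (nat_lit 15) (nat_lit 5) (nat_lit 13) (nat_lit 4) (nat_lit 281) (nat_lit 249) (nat_lit 190)) (XT.lf (nat_lit 0) (nat_lit 4229537252) (nat_lit 76) (nat_lit 29146427701) (nat_lit 152) (nat_lit 13359229906) (nat_lit 11) (nat_lit 5) (nat_lit 12) (nat_lit 5) (nat_lit 13) (nat_lit 4) (nat_lit 282) (nat_lit 249)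 (nat_lit 189)))))) (XT.nd (nat_lit 624) (nat_lit 228) (nat_lit 0) (XT.nd (nat_lit 312) (nat_lit 76) (nat_lit 0) (XT.nd (nat_lit 156) (nat_lit 228) (nat_lit 0) (XT.nd (nat_lit 78) (nat_lit 0) (nat_lit 0) (XT.lf (nat_lit 0) (nat_lit 22395204559) (nat_lit 76) (nat_lit 19865196696) (nat_lit 152) (nat_lit 7619083841) (nat_lit 11) (nat_lit 5) (nat_lit 12) (nat_lit 5) (nat_lit 13) (nat_lit 4) (nat_lit 283) (nat_lit 249) (nat_lit 188)) (XT.lf (nat_lit 0) (nat_lit 41989592813) (nat_lit 76) (nat_lit 9850468075) (nat_lit 152) (nat_lit 1436085164) (nat_lit 11) (nat_lit 5) (nat_lit 12) (nat_lit 5) (nat_lit 13) (nat_lit 4) (nat_lit 284) (nat_lit 249) (nat_lit 187))) (XT.nd (nat_lit 78) (nat_lit 0) (nat_lit 0) (XT.lf (nat_lit 0) (nat_lit 5175440596) (nat_lit 228) (nat_lit 50650530693) (nat_lit 76) (nat_lit 1109439252) (nat_lit 8) (nat_lit 5) (nat_lit 11) (nat_lit 5) (nat_lit 9) (nat_lit 4) (nat_lit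 285) (nat_lit 249) (nat_lit 186)) (XT.lf (nat_lit 0) (nat_lit 12618118734) (nat_lit 228) (nat_lit 35428896864) (nat_lit 76) (nat_lit 12821637863) (nat_lit 8) (nat_lit 5) (nat_lit 11) (nat_lit 5) (nat_lit 9) (nat_lit 4) (nat_lit 286) (nat_lit 249) (nat_lit 185)))) (XT.nd (nat_lit 156) (nat_lit 76) (nat_lit 0) (XT.nd (nat_lit 78) (nat_lit 0) (nat_lit 0) (XT.lf (nat_lit 0) (nat_lit 20643198826) (nat_lit 228) (nat_lit 19010683003) (nat_lit 76) (nat_lit 25463363100) (nat_lit 8) (nat_lit 5) (nat_lit 11) (nat_lit 5) (nat_lit 9) (nat_lit 4) (nat_lit 287) (nat_lit 249) (nat_lit 184)) (XT.lf (nat_lit 0) (nat_lit 29298236902) (nat_lit 228) (nat_lit 1298595991) (nat_lit 76) (nat_lit 39109528889) (nat_lit 8) (nat_lit 5) (nat_lit 11) (nat_lit 5) (nat_lit 9) (nat_lit 4) (nat_lit 288) (nat_lit 249) (nat_lit 183))) (XT.nd (nat_lit 78) (nat_lit 0) (nat_lit 0) (XT.lf (nat_lit 0) (nat_lit 18401280585)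 (nat_lit 76) (nat_lit 20520537051) (nat_lit 152) (nat_lit 35727016372) (nat_lit 7) (nat_lit 5) (nat_lit 8) (nat_lit 5) (nat_lit 9) (nat_lit 4) (nat_lit 289) (nat_lit 249) (nat_lit 182)) (XT.lf (nat_lit 0) (nat_lit 39706174488) (nat_lit 76) (nat_lit 9621130657) (nat_lit 152) (nat_lit 30658828414) (nat_lit 7) (nat_lit 5) (nat_lit 8) (nat_lit 5) (nat_lit 9) (nat_lit 4) (nat_lit 290) (nat_lit 249) (nat_lit 181))))) (XT.nd (nat_lit 312) (nat_lit 152) (nat_lit 0) (XT.nd (nat_lit 156) (nat_lit 76) (nat_lit 0) (XT.nd (nat_lit 78) (nat_lit 0) (nat_lit 0) (XT.lf (nat_lit 0) (nat_lit 60588890063) (nat_lit 152) (nat_lit 23085010220) (nat_lit 0) (nat_lit 2075362166) (nat_lit 7) (nat_lit 5) (nat_lit 9) (nat_lit 4) (nat_lit 7) (nat_lit 4) (nat_lit 291) (nat_lit 249) (nat_lit 180)) (XT.lf (nat_lit 0) (nat_lit 72904453205) (nat_lit 152) (nat_lit 4691956374) (nat_lit 0) (nat_lit 14369405703) (nat_lit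 7) (nat_lit 5) (nat_lit 9) (nat_lit 4) (nat_lit 7) (nat_lit 4) (nat_lit 292) (nat_lit 249) (nat_lit 179))) (XT.nd (nat_lit 78) (nat_lit 0) (nat_lit 0) (XT.lf (nat_lit 0) (nat_lit 15659616684) (nat_lit 76) (nat_lit 70781636690) (nat_lit 76) (nat_lit 12226663629) (nat_lit 6) (nat_lit 4) (nat_lit 7) (nat_lit 5) (nat_lit 7) (nat_lit 4) (nat_lit 293) (nat_lit 249) (nat_lit 178)) (XT.lf (nat_lit 0) (nat_lit 37793347310) (nat_lit 76) (nat_lit 63341301064) (nat_lit 76) (nat_lit 4767878410) (nat_lit 6) (nat_lit 4) (nat_lit 7) (nat_lit 5) (nat_lit 7) (nat_lit 4) (nat_lit 294) (nat_lit 249) (nat_lit 177)))) (XT.nd (nat_lit 156) (nat_lit 76) (nat_lit 0) (XT.nd (nat_lit 78) (nat_lit 0) (nat_lit 0) (XT.lf (nat_lit 0) (nat_lit 3174761289) (nat_lit 152) (nat_lit 52082244965) (nat_lit 76) (nat_lit 58456733678) (nat_lit 5) (nat_lit 5) (nat_lit 7) (nat_lit 5) (nat_lit 6) (nat_lit 4) (nat_lit 295) (nat_lit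 249) (nat_lit 176)) (XT.lf (nat_lit 0) (nat_lit 11580942596) (nat_lit 152) (nat_lit 34865390838) (nat_lit 76) (nat_lit 75699868259) (nat_lit 5) (nat_lit 5) (nat_lit 7) (nat_lit 5) (nat_lit 6) (nat_lit 4) (nat_lit 296) (nat_lit 249) (nat_lit 175))) (XT.nd (nat_lit 78) (nat_lit 76) (nat_lit 0) (XT.lf (nat_lit 0) (nat_lit 20653081802) (nat_lit 152) (nat_lit 16282151348) (nat_lit 76) (nat_lit 94318371059) (nat_lit 5) (nat_lit 5) (nat_lit 7) (nat_lit 5) (nat_lit 6) (nat_lit 4) (nat_lit 297) (nat_lit 249) (nat_lit 174)) (XT.nd (nat_lit 78) (nat_lit 0) (nat_lit 0) (XT.lf (nat_lit 0) (nat_lit 3902500803) (nat_lit 76) (nat_lit 26603367902) (nat_lit 152) (nat_lit 110581002116) (nat_lit 4) (nat_lit 5) (nat_lit 5) (nat_lit 5) (nat_lit 6) (nat_lit 4) (nat_lit 298) (nat_lit 249) (nat_lit 173)) (XT.lf (nat_lit 0) (nat_lit 26273645751) (nat_lit 76) (nat_lit 15151101701) (nat_lit 152) (nat_lit 110268172428)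 (nat_lit 4) (nat_lit 5) (nat_lit 5) (nat_lit 5) (nat_lit 6) (nat_lit 4) (nat_lit 299) (nat_lit 249) (nat_lit 172))))))))
noncomputable def xc71 : XT := (XT.nd (nat_lit 1326) (nat_lit 0) (nat_lit 0) (XT.nd (nat_lit 624) (nat_lit 0) (nat_lit 0) (XT.nd (nat_lit 312) (nat_lit 76) (nat_lit 0) (XT.nd (nat_lit 156) (nat_lit 0) (nat_lit 0) (XT.nd (nat_lit 78) (nat_lit 0) (nat_lit 0) (XT.lf (nat_lit 0) (nat_lit 50425491786) (nat_lit 76) (nat_lit 2786315377) (nat_lit 152) (nat_lit 109935925649) (nat_lit 4) (nat_lit 5) (nat_lit 5) (nat_lit 5) (nat_lit 6) (nat_lit 4) (nat_lit 300) (nat_lit 249) (nat_lit 171)) (XT.lf (nat_lit 0) (nat_lit 66101834847) (nat_lit 152) (nat_lit 99182966796) (nat_lit 0) (nat_lit 10226141457) (nat_lit 4) (nat_lit 5) (nat_lit 6) (nat_lit 4) (nat_lit 4) (nat_lit 4) (nat_lit 301) (nat_lit 249) (nat_lit 170))) (XT.nd (nat_lit 78) (nat_lit 0) (nat_lit 0) (XT.lf (nat_lit 0)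 (nat_lit 80065429060) (nat_lit 152) (nat_lit 84615431912) (nat_lit 0) (nat_lit 24180242584) (nat_lit 4) (nat_lit 5) (nat_lit 6) (nat_lit 4) (nat_lit 4) (nat_lit 4) (nat_lit 302) (nat_lit 249) (nat_lit 169)) (XT.lf (nat_lit 0) (nat_lit 95141834835) (nat_lit 152) (nat_lit 68889808048) (nat_lit 0) (nat_lit 39247858465) (nat_lit 4) (nat_lit 5) (nat_lit 6) (nat_lit 4) (nat_lit 4) (nat_lit 4) (nat_lit 303) (nat_lit 249) (nat_lit 168)))) (XT.nd (nat_lit 156) (nat_lit 76) (nat_lit 0) (XT.nd (nat_lit 78) (nat_lit 0) (nat_lit 0) (XT.lf (nat_lit 0) (nat_lit 111420393837) (nat_lit 152) (nat_lit 51912906322) (nat_lit 0) (nat_lit 55518278675) (nat_lit 4) (nat_lit 5) (nat_lit 6) (nat_lit 4) (nat_lit 4) (nat_lit 4) (nat_lit 304) (nat_lit 249) (nat_lit 167)) (XT.lf (nat_lit 0) (nat_lit 128997571601) (nat_lit 152) (nat_lit 33584122873) (nat_lit 0) (nat_lit 73087920521) (nat_lit 4) (nat_lit 5) (nat_lit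 6) (nat_lit 4) (nat_lit 4) (nat_lit 4) (nat_lit 305) (nat_lit 249) (nat_lit 166))) (XT.nd (nat_lit 78) (nat_lit 76) (nat_lit 0) (XT.lf (nat_lit 0) (nat_lit 147977529179) (nat_lit 152) (nat_lit 13794842687) (nat_lit 0) (nat_lit 92060900397) (nat_lit 4) (nat_lit 5) (nat_lit 6) (nat_lit 4) (nat_lit 4) (nat_lit 4) (nat_lit 306) (nat_lit 249) (nat_lit 165)) (XT.lf (nat_lit 0) (nat_lit 7822575306) (nat_lit 76) (nat_lit 160772297411) (nat_lit 76) (nat_lit 104849207794) (nat_lit 3) (nat_lit 4) (nat_lit 4) (nat_lit 5) (nat_lit 4) (nat_lit 4) (nat_lit 307) (nat_lit 249) (nat_lit 164))))) (XT.nd (nat_lit 312) (nat_lit 0) (nat_lit 0) (XT.nd (nat_lit 156) (nat_lit 0) (nat_lit 0) (XT.nd (nat_lit 78) (nat_lit 0) (nat_lit 0) (XT.lf (nat_lit 0) (nat_lit 31656853881) (nat_lit 76) (nat_lit 159442056676) (nat_lit 76) (nat_lit 103512984805) (nat_lit 3) (nat_lit 4) (nat_lit 4) (nat_lit 5) (nat_lit 4) (nat_lit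 4) (nat_lit 308) (nat_lit 249) (nat_lit 163)) (XT.lf (nat_lit 0) (nat_lit 57393113408) (nat_lit 76) (nat_lit 158007389090) (nat_lit 76) (nat_lit 102072778094) (nat_lit 3) (nat_lit 4) (nat_lit 4) (nat_lit 5) (nat_lit 4) (nat_lit 4) (nat_lit 309) (nat_lit 249) (nat_lit 162))) (XT.nd (nat_lit 78) (nat_lit 0) (nat_lit 0) (XT.lf (nat_lit 0) (nat_lit 85183865054) (nat_lit 76) (nat_lit 156459792919) (nat_lit 76) (nat_lit 100520053103) (nat_lit 3) (nat_lit 4) (nat_lit 4) (nat_lit 5) (nat_lit 4) (nat_lit 4) (nat_lit 310) (nat_lit 249) (nat_lit 161)) (XT.lf (nat_lit 0) (nat_lit 115193794755) (nat_lit 76) (nat_lit 154790097222) (nat_lit 76) (nat_lit 98845608499) (nat_lit 3) (nat_lit 4) (nat_lit 4) (nat_lit 5) (nat_lit 4) (nat_lit 4) (nat_lit 311) (nat_lit 249) (nat_lit 160)))) (XT.nd (nat_lit 156) (nat_lit 0) (nat_lit 0) (XT.nd (nat_lit 78) (nat_lit 0) (nat_lit 0) (XT.lf (nat_lit 0) (nat_lit 147600739131)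 (nat_lit 76) (nat_lit 152988407506) (nat_lit 76) (nat_lit 97039521648) (nat_lit 3) (nat_lit 4) (nat_lit 4) (nat_lit 5) (nat_lit 4) (nat_lit 4) (nat_lit 312) (nat_lit 249) (nat_lit 159)) (XT.lf (nat_lit 0) (nat_lit 182596739335) (nat_lit 76) (nat_lit 151044047091) (nat_lit 76) (nat_lit 95091089811) (nat_lit 3) (nat_lit 4) (nat_lit 4) (nat_lit 5) (nat_lit 4) (nat_lit 4) (nat_lit 313) (nat_lit 249) (nat_lit 158))) (XT.nd (nat_lit 78) (nat_lit 0) (nat_lit 0) (XT.lf (nat_lit 0) (nat_lit 220389179071) (nat_lit 76) (nat_lit 148945493843) (nat_lit 76) (nat_lit 92988766727) (nat_lit 3) (nat_lit 4) (nat_lit 4) (nat_lit 5) (nat_lit 4) (nat_lit 4) (nat_lit 314) (nat_lit 249) (nat_lit 157)) (XT.nd (nat_lit 78) (nat_lit 0) (nat_lit 0) (XT.lf (nat_lit 0) (nat_lit 261202013538) (nat_lit 76) (nat_lit 146680311889) (nat_lit 76) (nat_lit 90720094185) (nat_lit 3) (nat_lit 4) (nat_lit 4) (nat_lit 5) (nat_lit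 4) (nat_lit 4) (nat_lit 315) (nat_lit 249) (nat_lit 156)) (XT.lf (nat_lit 0) (nat_lit 305277096570) (nat_lit 76) (nat_lit 144235077929) (nat_lit 76) (nat_lit 88271628199) (nat_lit 3) (nat_lit 4) (nat_lit 4) (nat_lit 5) (nat_lit 4) (nat_lit 4) (nat_lit 316) (nat_lit 249) (nat_lit 155))))))) (XT.nd (nat_lit 32760) (nat_lit 0) (nat_lit 2508) (XT.nd (nat_lit 32448) (nat_lit 0) (nat_lit 4256) (XT.nd (nat_lit 32292) (nat_lit 0) (nat_lit 4864) (XT.nd (nat_lit 78) (nat_lit 0) (nat_lit 0) (XT.lf (nat_lit 0) (nat_lit 352875613843) (nat_lit 76) (nat_lit 141595301688) (nat_lit 76) (nat_lit 85628859341) (nat_lit 3) (nat_lit 4) (nat_lit 4) (nat_lit 5) (nat_lit 4) (nat_lit 4) (nat_lit 317) (nat_lit 249) (nat_lit 154)) (XT.lf (nat_lit 0) (nat_lit 404279630646) (nat_lit 76) (nat_lit 138745340047) (nat_lit 76) (nat_lit 82776126759) (nat_lit 3) (nat_lit 4) (nat_lit 4) (nat_lit 5) (nat_lit 4) (nat_lit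 4) (nat_lit 318) (nat_lit 249) (nat_lit 153))) (XT.nd (nat_lit 78) (nat_lit 0) (nat_lit 0) (XT.lf (nat_lit 0) (nat_lit 1803433210) (nat_lit 0) (nat_lit 1803433210) (nat_lit 532) (nat_lit 1121833636) (nat_lit 67) (nat_lit 5) (nat_lit 67) (nat_lit 3) (nat_lit 74) (nat_lit 3) (nat_lit 250) (nat_lit 250) (nat_lit 220)) (XT.lf (nat_lit 76) (nat_lit 35856977) (nat_lit 0) (nat_lit 8553318130) (nat_lit 608) (nat_lit 1185116790) (nat_lit 68) (nat_lit 5) (nat_lit 67) (nat_lit 5) (nat_lit 75) (nat_lit 5) (nat_lit 251) (nat_lit 250) (nat_lit 219)))) (XT.nd (nat_lit 156) (nat_lit 0) (nat_lit 76) (XT.nd (nat_lit 78) (nat_lit 0) (nat_lit 76) (XT.lf (nat_lit 0) (nat_lit 14569749) (nat_lit 608) (nat_lit 3637706132) (nat_lit 684) (nat_lit 6462208925) (nat_lit 59) (nat_lit 5) (nat_lit 67) (nat_lit 5) (nat_lit 68) (nat_lit 5) (nat_lit 252) (nat_lit 250) (nat_lit 218)) (XT.lf (nat_lit 0) (nat_lit 1241676576)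 (nat_lit 608) (nat_lit 7547193041) (nat_lit 684) (nat_lit 1694026657) (nat_lit 60) (nat_lit 5) (nat_lit 68) (nat_lit 5) (nat_lit 69) (nat_lit 5) (nat_lit 253) (nat_lit 250) (nat_lit 217))) (XT.nd (nat_lit 78) (nat_lit 0) (nat_lit 76) (XT.lf (nat_lit 0) (nat_lit 2598880497) (nat_lit 608) (nat_lit 840121682) (nat_lit 684) (nat_lit 7440758753) (nat_lit 60) (nat_lit 5) (nat_lit 68) (nat_lit 5) (nat_lit 69) (nat_lit 5) (nat_lit 254) (nat_lit 250) (nat_lit 216)) (XT.lf (nat_lit 0) (nat_lit 4118499342) (nat_lit 608) (nat_lit 4793478104) (nat_lit 684) (nat_lit 2394239369) (nat_lit 61) (nat_lit 5) (nat_lit 69) (nat_lit 5) (nat_lit 70) (nat_lit 5) (nat_lit 255) (nat_lit 250) (nat_lit 215))))) (XT.nd (nat_lit 312) (nat_lit 912) (nat_lit 0) (XT.nd (nat_lit 156) (nat_lit 988) (nat_lit 0) (XT.nd (nat_lit 78) (nat_lit 0) (nat_lit 76) (XT.lf (nat_lit 76) (nat_lit 2683101844) (nat_lit 0) (nat_lit 3110178430)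 (nat_lit 684) (nat_lit 5972323692) (nat_lit 62) (nat_lit 5) (nat_lit 61) (nat_lit 5) (nat_lit 70) (nat_lit 5) (nat_lit 256) (nat_lit 250) (nat_lit 214)) (XT.lf (nat_lit 0) (nat_lit 7660360195) (nat_lit 608) (nat_lit 1443352580) (nat_lit 76) (nat_lit 3155571293) (nat_lit 62) (nat_lit 5) (nat_lit 70) (nat_lit 5) (nat_lit 63) (nat_lit 5) (nat_lit 257) (nat_lit 250) (nat_lit 213))) (XT.nd (nat_lit 78) (nat_lit 456) (nat_lit 0) (XT.lf (nat_lit 0) (nat_lit 6916478331) (nat_lit 608) (nat_lit 2850551567) (nat_lit 684) (nat_lit 3021341403) (nat_lit 54) (nat_lit 5) (nat_lit 62) (nat_lit 5) (nat_lit 63) (nat_lit 5) (nat_lit 258) (nat_lit 250) (nat_lit 212)) (XT.lf (nat_lit 0) (nat_lit 2599330596) (nat_lit 456) (nat_lit 9504224600) (nat_lit 532) (nat_lit 1253556708) (nat_lit 48) (nat_lit 5) (nat_lit 54) (nat_lit 5) (nat_lit 55) (nat_lit 5) (nat_lit 259) (nat_lit 250) (nat_lit 211)))) (XT.nd (nat_lit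 156) (nat_lit 532) (nat_lit 0) (XT.nd (nat_lit 78) (nat_lit 304) (nat_lit 0) (XT.lf (nat_lit 0) (nat_lit 723543151) (nat_lit 532) (nat_lit 2128706694) (nat_lit 76) (nat_lit 11114492331) (nat_lit 47) (nat_lit 5) (nat_lit 54) (nat_lit 5) (nat_lit 48) (nat_lit 5) (nat_lit 260) (nat_lit 250) (nat_lit 210)) (XT.lf (nat_lit 0) (nat_lit 2941643014) (nat_lit 380) (nat_lit 7342678115) (nat_lit 76) (nat_lit 4333777184) (nat_lit 43) (nat_lit 5) (nat_lit 48) (nat_lit 5) (nat_lit 44) (nat_lit 5) (nat_lit 261) (nat_lit 250) (nat_lit 209))) (XT.nd (nat_lit 78) (nat_lit 228) (nat_lit 0) (XT.lf (nat_lit 0) (nat_lit 2151765078) (nat_lit 304) (nat_lit 3249850194) (nat_lit 380) (nat_lit 9917023185) (nat_lit 39) (nat_lit 5) (nat_lit 43) (nat_lit 5) (nat_lit 44) (nat_lit 5) (nat_lit 262) (nat_lit 250) (nat_lit 208)) (XT.nd (nat_lit 78) (nat_lit 228) (nat_lit 0) (XT.lf (nat_lit 0) (nat_lit 8204496267) (nat_lit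 380) (nat_lit 3527780828) (nat_lit 76) (nat_lit 4335913927) (nat_lit 39) (nat_lit 5) (nat_lit 44) (nat_lit 5) (nat_lit 40) (nat_lit 5) (nat_lit 263) (nat_lit 250) (nat_lit 207)) (XT.lf (nat_lit 0) (nat_lit 6998917291) (nat_lit 228) (nat_lit 4348830722) (nat_lit 304) (nat_lit 5524407169) (nat_lit 36) (nat_lit 5) (nat_lit 39) (nat_lit 5) (nat_lit 40) (nat_lit 5) (nat_lit 264) (nat_lit 250) (nat_lit 206))))))))
noncomputable def xc72 : XT := (XT.nd (nat_lit 1248) (nat_lit 684) (nat_lit 0) (XT.nd (nat_lit 624) (nat_lit 456) (nat_lit 0) (XT.nd (nat_lit 312) (nat_lit 684) (nat_lit 0) (XT.nd (nat_lit 156) (nat_lit 228) (nat_lit 0) (XT.nd (nat_lit 78) (nat_lit 76) (nat_lit 0) (XT.lf (nat_lit 0) (nat_lit 667258945) (nat_lit 228) (nat_lit 14159428500) (nat_lit 304) (nat_lit 2909773211) (nat_lit 33) (nat_lit 5) (nat_lit 36) (nat_lit 5) (nat_lit 37) (nat_lit 5) (nat_lit 265) (nat_lit 250) (nat_lit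 205)) (XT.lf (nat_lit 0) (nat_lit 121318456) (nat_lit 304) (nat_lit 6384756901) (nat_lit 76) (nat_lit 12153883274) (nat_lit 32) (nat_lit 5) (nat_lit 36) (nat_lit 5) (nat_lit 33) (nat_lit 5) (nat_lit 266) (nat_lit 250) (nat_lit 204))) (XT.nd (nat_lit 78) (nat_lit 0) (nat_lit 0) (XT.lf (nat_lit 0) (nat_lit 3365000646) (nat_lit 304) (nat_lit 14458254024) (nat_lit 76) (nat_lit 1828286676) (nat_lit 29) (nat_lit 5) (nat_lit 33) (nat_lit 5) (nat_lit 30) (nat_lit 5) (nat_lit 267) (nat_lit 250) (nat_lit 203)) (XT.lf (nat_lit 0) (nat_lit 7052695599) (nat_lit 304) (nat_lit 2951037821) (nat_lit 76) (nat_lit 10709669438) (nat_lit 29) (nat_lit 5) (nat_lit 33) (nat_lit 5) (nat_lit 30) (nat_lit 5) (nat_lit 268) (nat_lit 250) (nat_lit 202)))) (XT.nd (nat_lit 156) (nat_lit 304) (nat_lit 0) (XT.nd (nat_lit 78) (nat_lit 152) (nat_lit 0) (XT.lf (nat_lit 0) (nat_lit 9744001249) (nat_lit 228) (nat_lit 1408140025)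 (nat_lit 304) (nat_lit 10702400159) (nat_lit 26) (nat_lit 5) (nat_lit 29) (nat_lit 5) (nat_lit 30) (nat_lit 5) (nat_lit 269) (nat_lit 250) (nat_lit 201)) (XT.lf (nat_lit 0) (nat_lit 317629814) (nat_lit 152) (nat_lit 15408487313) (nat_lit 228) (nat_lit 7353677927) (nat_lit 24) (nat_lit 5) (nat_lit 26) (nat_lit 5) (nat_lit 27) (nat_lit 5) (nat_lit 270) (nat_lit 250) (nat_lit 200))) (XT.nd (nat_lit 78) (nat_lit 304) (nat_lit 0) (XT.lf (nat_lit 0) (nat_lit 14105551593) (nat_lit 152) (nat_lit 6763018467) (nat_lit 228) (nat_lit 3524512325) (nat_lit 24) (nat_lit 5) (nat_lit 26) (nat_lit 5) (nat_lit 27) (nat_lit 5) (nat_lit 271) (nat_lit 250) (nat_lit 199)) (XT.lf (nat_lit 0) (nat_lit 652993594) (nat_lit 304) (nat_lit 22612278171) (nat_lit 76) (nat_lit 2542730522) (nat_lit 20) (nat_lit 5) (nat_lit 24) (nat_lit 5) (nat_lit 21) (nat_lit 5) (nat_lit 272) (nat_lit 250) (nat_lit 198))))) (XT.nd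 (nat_lit 312) (nat_lit 152) (nat_lit 0) (XT.nd (nat_lit 156) (nat_lit 152) (nat_lit 0) (XT.nd (nat_lit 78) (nat_lit 152) (nat_lit 0) (XT.lf (nat_lit 0) (nat_lit 5310489690) (nat_lit 304) (nat_lit 9418585156) (nat_lit 76) (nat_lit 12590803853) (nat_lit 20) (nat_lit 5) (nat_lit 24) (nat_lit 5) (nat_lit 21) (nat_lit 5) (nat_lit 273) (nat_lit 250) (nat_lit 197)) (XT.lf (nat_lit 0) (nat_lit 4952035466) (nat_lit 152) (nat_lit 5439424309) (nat_lit 228) (nat_lit 18558808615) (nat_lit 18) (nat_lit 5) (nat_lit 20) (nat_lit 5) (nat_lit 21) (nat_lit 5) (nat_lit 274) (nat_lit 250) (nat_lit 196))) (XT.nd (nat_lit 78) (nat_lit 152) (nat_lit 0) (XT.lf (nat_lit 0) (nat_lit 16092180134) (nat_lit 228) (nat_lit 10005292272) (nat_lit 76) (nat_lit 4603052185) (nat_lit 18) (nat_lit 5) (nat_lit 21) (nat_lit 5) (nat_lit 19) (nat_lit 5) (nat_lit 275) (nat_lit 250) (nat_lit 195)) (XT.lf (nat_lit 0) (nat_lit 5146146751)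 (nat_lit 152) (nat_lit 17251543889) (nat_lit 228) (nat_lit 10185765654) (nat_lit 16) (nat_lit 5) (nat_lit 18) (nat_lit 5) (nat_lit 19) (nat_lit 5) (nat_lit 276) (nat_lit 250) (nat_lit 194)))) (XT.nd (nat_lit 156) (nat_lit 0) (nat_lit 0) (XT.nd (nat_lit 78) (nat_lit 152) (nat_lit 0) (XT.lf (nat_lit 0) (nat_lit 21834534000) (nat_lit 152) (nat_lit 7525283452) (nat_lit 228) (nat_lit 5249681157) (nat_lit 16) (nat_lit 5) (nat_lit 18) (nat_lit 5) (nat_lit 19) (nat_lit 5) (nat_lit 277) (nat_lit 250) (nat_lit 193)) (XT.lf (nat_lit 0) (nat_lit 153825707) (nat_lit 152) (nat_lit 33715002529) (nat_lit 76) (nat_lit 2925050565) (nat_lit 14) (nat_lit 5) (nat_lit 16) (nat_lit 5) (nat_lit 15) (nat_lit 5) (nat_lit 278) (nat_lit 250) (nat_lit 192))) (XT.nd (nat_lit 78) (nat_lit 0) (nat_lit 0) (XT.lf (nat_lit 0) (nat_lit 6141270016) (nat_lit 152) (nat_lit 18734108844) (nat_lit 76) (nat_lit 14256617802)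 (nat_lit 14) (nat_lit 5) (nat_lit 16) (nat_lit 5) (nat_lit 15) (nat_lit 5) (nat_lit 279) (nat_lit 250) (nat_lit 191)) (XT.lf (nat_lit 0) (nat_lit 12589239087) (nat_lit 152) (nat_lit 2582876080) (nat_lit 76) (nat_lit 26486036471) (nat_lit 14) (nat_lit 5) (nat_lit 16) (nat_lit 5) (nat_lit 15) (nat_lit 5) (nat_lit 280) (nat_lit 250) (nat_lit 190)))))) (XT.nd (nat_lit 624) (nat_lit 228) (nat_lit 0) (XT.nd (nat_lit 312) (nat_lit 228) (nat_lit 0) (XT.nd (nat_lit 156) (nat_lit 76) (nat_lit 0) (XT.nd (nat_lit 78) (nat_lit 0) (nat_lit 0) (XT.lf (nat_lit 0) (nat_lit 15324899254) (nat_lit 152) (nat_lit 4450308480) (nat_lit 228) (nat_lit 24600142572) (nat_lit 12) (nat_lit 5) (nat_lit 14) (nat_lit 5) (nat_lit 15) (nat_lit 5) (nat_lit 281) (nat_lit 250) (nat_lit 189)) (XT.lf (nat_lit 0) (nat_lit 27676730503) (nat_lit 228) (nat_lit 12687837036) (nat_lit 76) (nat_lit 6938378490) (nat_lit 12) (nat_lit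 5) (nat_lit 15) (nat_lit 5) (nat_lit 13) (nat_lit 4) (nat_lit 282) (nat_lit 250) (nat_lit 188))) (XT.nd (nat_lit 78) (nat_lit 0) (nat_lit 0) (XT.lf (nat_lit 0) (nat_lit 5046518636) (nat_lit 76) (nat_lit 31302538533) (nat_lit 152) (nat_lit 14108809061) (nat_lit 11) (nat_lit 5) (nat_lit 12) (nat_lit 5) (nat_lit 13) (nat_lit 4) (nat_lit 283) (nat_lit 250) (nat_lit 187)) (XT.lf (nat_lit 0) (nat_lit 24629986113) (nat_lit 76) (nat_lit 21291816706) (nat_lit 152) (nat_lit 7933092736) (nat_lit 11) (nat_lit 5) (nat_lit 12) (nat_lit 5) (nat_lit 13) (nat_lit 4) (nat_lit 284) (nat_lit 250) (nat_lit 186)))) (XT.nd (nat_lit 156) (nat_lit 0) (nat_lit 0) (XT.nd (nat_lit 78) (nat_lit 228) (nat_lit 0) (XT.lf (nat_lit 0) (nat_lit 45759098376) (nat_lit 76) (nat_lit 10487953922) (nat_lit 152) (nat_lit 1277344374) (nat_lit 11) (nat_lit 5) (nat_lit 12) (nat_lit 5) (nat_lit 13) (nat_lit 4) (nat_lit 285) (nat_lit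 250) (nat_lit 185)) (XT.lf (nat_lit 0) (nat_lit 5843340753) (nat_lit 228) (nat_lit 54289931628) (nat_lit 76) (nat_lit 1343526668) (nat_lit 8) (nat_lit 5) (nat_lit 11) (nat_lit 5) (nat_lit 9) (nat_lit 4) (nat_lit 286) (nat_lit 250) (nat_lit 184))) (XT.nd (nat_lit 78) (nat_lit 0) (nat_lit 0) (XT.lf (nat_lit 0) (nat_lit 13862628333) (nat_lit 228) (nat_lit 37881133131) (nat_lit 76) (nat_lit 13981935815) (nat_lit 8) (nat_lit 5) (nat_lit 11) (nat_lit 5) (nat_lit 9) (nat_lit 4) (nat_lit 287) (nat_lit 250) (nat_lit 183)) (XT.lf (nat_lit 0) (nat_lit 22512302973) (nat_lit 228) (nat_lit 20177764048) (nat_lit 76) (nat_lit 27625031150) (nat_lit 8) (nat_lit 5) (nat_lit 11) (nat_lit 5) (nat_lit 9) (nat_lit 4) (nat_lit 288) (nat_lit 250) (nat_lit 182))))) (XT.nd (nat_lit 312) (nat_lit 152) (nat_lit 0) (XT.nd (nat_lit 156) (nat_lit 0) (nat_lit 0) (XT.nd (nat_lit 78) (nat_lit 76) (nat_lit 0) (XT.lf (nat_lit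 0) (nat_lit 31843622004) (nat_lit 228) (nat_lit 1074915526) (nat_lit 76) (nat_lit 42353660647) (nat_lit 8) (nat_lit 5) (nat_lit 11) (nat_lit 5) (nat_lit 9) (nat_lit 4) (nat_lit 289) (nat_lit 250) (nat_lit 181)) (XT.lf (nat_lit 0) (nat_lit 20186715463) (nat_lit 76) (nat_lit 22040337868) (nat_lit 152) (nat_lit 38383560810) (nat_lit 7) (nat_lit 5) (nat_lit 8) (nat_lit 5) (nat_lit 9) (nat_lit 4) (nat_lit 290) (nat_lit 250) (nat_lit 180))) (XT.nd (nat_lit 78) (nat_lit 0) (nat_lit 0) (XT.lf (nat_lit 0) (nat_lit 43172791068) (nat_lit 76) (nat_lit 10278004307) (nat_lit 152) (nat_lit 32924852397) (nat_lit 7) (nat_lit 5) (nat_lit 8) (nat_lit 5) (nat_lit 9) (nat_lit 4) (nat_lit 291) (nat_lit 250) (nat_lit 179)) (XT.lf (nat_lit 0) (nat_lit 65601804236) (nat_lit 152) (nat_lit 24656127977) (nat_lit 0) (nat_lit 2342507770) (nat_lit 7) (nat_lit 5) (nat_lit 9) (nat_lit 4) (nat_lit 7) (nat_lit 4) (nat_lit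 292) (nat_lit 250) (nat_lit 178)))) (XT.nd (nat_lit 156) (nat_lit 76) (nat_lit 0) (XT.nd (nat_lit 78) (nat_lit 76) (nat_lit 0) (XT.lf (nat_lit 0) (nat_lit 78890330727) (nat_lit 152) (nat_lit 4812050791) (nat_lit 0) (nat_lit 15612584669) (nat_lit 7) (nat_lit 5) (nat_lit 9) (nat_lit 4) (nat_lit 7) (nat_lit 4) (nat_lit 293) (nat_lit 250) (nat_lit 177)) (XT.lf (nat_lit 0) (nat_lit 17156554732) (nat_lit 76) (nat_lit 76345960390) (nat_lit 76) (nat_lit 13051131376) (nat_lit 6) (nat_lit 4) (nat_lit 7) (nat_lit 5) (nat_lit 7) (nat_lit 4) (nat_lit 294) (nat_lit 250) (nat_lit 176))) (XT.nd (nat_lit 78) (nat_lit 76) (nat_lit 0) (XT.lf (nat_lit 0) (nat_lit 41042897238) (nat_lit 76) (nat_lit 68317672524) (nat_lit 76) (nat_lit 5007025958) (nat_lit 6) (nat_lit 4) (nat_lit 7) (nat_lit 5) (nat_lit 7) (nat_lit 4) (nat_lit 295) (nat_lit 250) (nat_lit 175)) (XT.nd (nat_lit 78) (nat_lit 0) (nat_lit 0) (XT.lf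 (nat_lit 0) (nat_lit 3556268849) (nat_lit 152) (nat_lit 56034941304) (nat_lit 76) (nat_lit 63212921306) (nat_lit 5) (nat_lit 5) (nat_lit 7) (nat_lit 5) (nat_lit 6) (nat_lit 4) (nat_lit 296) (nat_lit 250) (nat_lit 174)) (XT.lf (nat_lit 0) (nat_lit 12625498242) (nat_lit 152) (nat_lit 37456582052) (nat_lit 76) (nat_lit 81829606733) (nat_lit 5) (nat_lit 5) (nat_lit 7) (nat_lit 5) (nat_lit 6) (nat_lit 4) (nat_lit 297) (nat_lit 250) (nat_lit 173))))))))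
noncomputable def xc73 : XT := (XT.nd (nat_lit 1248) (nat_lit 0) (nat_lit 0) (XT.nd (nat_lit 624) (nat_lit 76) (nat_lit 0) (XT.nd (nat_lit 312) (nat_lit 0) (nat_lit 0) (XT.nd (nat_lit 156) (nat_lit 0) (nat_lit 0) (XT.nd (nat_lit 78) (nat_lit 76) (nat_lit 0) (XT.lf (nat_lit 0) (nat_lit 22414661899) (nat_lit 152) (nat_lit 17401353036) (nat_lit 76) (nat_lit 101932126867) (nat_lit 5) (nat_lit 5) (nat_lit 7) (nat_lit 5) (nat_lit 6) (nat_lit 4) (nat_lit 298) (nat_lit 250) (nat_lit 172)) (XT.lf (nat_lit 0) (nat_lit 4390102233) (nat_lit 76) (nat_lit 28660209248) (nat_lit 152) (nat_lit 119318047319) (nat_lit 4) (nat_lit 5) (nat_lit 5) (nat_lit 5) (nat_lit 6) (nat_lit 4) (nat_lit 299) (nat_lit 250) (nat_lit 171))) (XT.nd (nat_lit 78) (nat_lit 0) (nat_lit 0) (XT.lf (nat_lit 0) (nat_lit 28537946083) (nat_lit 76) (nat_lit 16297052720) (nat_lit 152) (nat_lit 118988297550) (nat_lit 4) (nat_lit 5)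 (nat_lit 5) (nat_lit 5) (nat_lit 6) (nat_lit 4) (nat_lit 300) (nat_lit 250) (nat_lit 170)) (XT.lf (nat_lit 0) (nat_lit 54609909528) (nat_lit 76) (nat_lit 2947982536) (nat_lit 152) (nat_lit 118636976856) (nat_lit 4) (nat_lit 5) (nat_lit 5) (nat_lit 5) (nat_lit 6) (nat_lit 4) (nat_lit 301) (nat_lit 250) (nat_lit 169)))) (XT.nd (nat_lit 156) (nat_lit 0) (nat_lit 0) (XT.nd (nat_lit 78) (nat_lit 0) (nat_lit 0) (XT.lf (nat_lit 0) (nat_lit 71473404251) (nat_lit 152) (nat_lit 106974914494) (nat_lit 0) (nat_lit 11099119876) (nat_lit 4) (nat_lit 5) (nat_lit 6) (nat_lit 4) (nat_lit 4) (nat_lit 4) (nat_lit 302) (nat_lit 250) (nat_lit 168)) (XT.lf (nat_lit 0) (nat_lit 86547906548) (nat_lit 152) (nat_lit 91252546422) (nat_lit 0) (nat_lit 26165483382) (nat_lit 4) (nat_lit 5) (nat_lit 6) (nat_lit 4) (nat_lit 4) (nat_lit 4) (nat_lit 303) (nat_lit 250) (nat_lit 167))) (XT.nd (nat_lit 78) (nat_lit 0)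 (nat_lit 0) (XT.lf (nat_lit 0) (nat_lit 102824703070) (nat_lit 152) (nat_lit 74278659318) (nat_lit 0) (nat_lit 42434743985) (nat_lit 4) (nat_lit 5) (nat_lit 6) (nat_lit 4) (nat_lit 4) (nat_lit 4) (nat_lit 304) (nat_lit 250) (nat_lit 166)) (XT.lf (nat_lit 0) (nat_lit 120400248907) (nat_lit 152) (nat_lit 55952667186) (nat_lit 0) (nat_lit 60003312121) (nat_lit 4) (nat_lit 5) (nat_lit 6) (nat_lit 4) (nat_lit 4) (nat_lit 4) (nat_lit 305) (nat_lit 250) (nat_lit 165))))) (XT.nd (nat_lit 312) (nat_lit 0) (nat_lit 0) (XT.nd (nat_lit 156) (nat_lit 76) (nat_lit 0) (XT.nd (nat_lit 78) (nat_lit 0) (nat_lit 0) (XT.lf (nat_lit 0) (nat_lit 139378695443) (nat_lit 152) (nat_lit 36165971553) (nat_lit 0) (nat_lit 78975297821) (nat_lit 4) (nat_lit 5) (nat_lit 6) (nat_lit 4) (nat_lit 4) (nat_lit 4) (nat_lit 306) (nat_lit 250) (nat_lit 164)) (XT.lf (nat_lit 0) (nat_lit 159872507544) (nat_lit 152) (nat_lit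 14801317926) (nat_lit 0) (nat_lit 99463127668) (nat_lit 4) (nat_lit 5) (nat_lit 6) (nat_lit 4) (nat_lit 4) (nat_lit 4) (nat_lit 307) (nat_lit 250) (nat_lit 163))) (XT.nd (nat_lit 78) (nat_lit 0) (nat_lit 0) (XT.lf (nat_lit 0) (nat_lit 8541273129) (nat_lit 76) (nat_lit 173595210105) (nat_lit 76) (nat_lit 113180291105) (nat_lit 3) (nat_lit 4) (nat_lit 4) (nat_lit 5) (nat_lit 4) (nat_lit 4) (nat_lit 308) (nat_lit 250) (nat_lit 162)) (XT.lf (nat_lit 0) (nat_lit 34275413116) (nat_lit 76) (nat_lit 172161429453) (nat_lit 76) (nat_lit 111741381633) (nat_lit 3) (nat_lit 4) (nat_lit 4) (nat_lit 5) (nat_lit 4) (nat_lit 4) (nat_lit 309) (nat_lit 250) (nat_lit 161)))) (XT.nd (nat_lit 156) (nat_lit 0) (nat_lit 0) (XT.nd (nat_lit 78) (nat_lit 0) (nat_lit 0) (XT.lf (nat_lit 0) (nat_lit 62064202226) (nat_lit 76) (nat_lit 170614654516) (nat_lit 76) (nat_lit 110189857789) (nat_lit 3) (nat_lit 4) (nat_lit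 4) (nat_lit 5) (nat_lit 4) (nat_lit 4) (nat_lit 310) (nat_lit 250) (nat_lit 160)) (XT.lf (nat_lit 0) (nat_lit 92072314763) (nat_lit 76) (nat_lit 168945719221) (nat_lit 76) (nat_lit 108516525359) (nat_lit 3) (nat_lit 4) (nat_lit 4) (nat_lit 5) (nat_lit 4) (nat_lit 4) (nat_lit 311) (nat_lit 250) (nat_lit 159))) (XT.nd (nat_lit 78) (nat_lit 0) (nat_lit 0) (XT.lf (nat_lit 0) (nat_lit 124477576580) (nat_lit 76) (nat_lit 167144733582) (nat_lit 76) (nat_lit 106711468297) (nat_lit 3) (nat_lit 4) (nat_lit 4) (nat_lit 5) (nat_lit 4) (nat_lit 4) (nat_lit 312) (nat_lit 250) (nat_lit 158)) (XT.lf (nat_lit 0) (nat_lit 159472018859) (nat_lit 76) (nat_lit 165201025090) (nat_lit 76) (nat_lit 104763989970) (nat_lit 3) (nat_lit 4) (nat_lit 4) (nat_lit 5) (nat_lit 4) (nat_lit 4) (nat_lit 313) (nat_lit 250) (nat_lit 157)))))) (XT.nd (nat_lit 32838) (nat_lit 0) (nat_lit 3040) (XT.nd (nat_lit 312) (nat_lit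 0) (nat_lit 0) (XT.nd (nat_lit 156) (nat_lit 0) (nat_lit 0) (XT.nd (nat_lit 78) (nat_lit 0) (nat_lit 0) (XT.lf (nat_lit 0) (nat_lit 197263016072) (nat_lit 76) (nat_lit 163103075473) (nat_lit 76) (nat_lit 102662549765) (nat_lit 3) (nat_lit 4) (nat_lit 4) (nat_lit 5) (nat_lit 4) (nat_lit 4) (nat_lit 314) (nat_lit 250) (nat_lit 156)) (XT.lf (nat_lit 0) (nat_lit 238074514870) (nat_lit 76) (nat_lit 160838452438) (nat_lit 76) (nat_lit 100394694704) (nat_lit 3) (nat_lit 4) (nat_lit 4) (nat_lit 5) (nat_lit 4) (nat_lit 4) (nat_lit 315) (nat_lit 250) (nat_lit 155))) (XT.nd (nat_lit 78) (nat_lit 0) (nat_lit 0) (XT.lf (nat_lit 0) (nat_lit 282148361170) (nat_lit 76) (nat_lit 158393735995) (nat_lit 76) (nat_lit 97946985644) (nat_lit 3) (nat_lit 4) (nat_lit 4) (nat_lit 5) (nat_lit 4) (nat_lit 4) (nat_lit 316) (nat_lit 250) (nat_lit 154)) (XT.lf (nat_lit 0) (nat_lit 329745733322) (nat_lit 76) (nat_lit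 155754438936) (nat_lit 76) (nat_lit 95304917644) (nat_lit 3) (nat_lit 4) (nat_lit 4) (nat_lit 5) (nat_lit 4) (nat_lit 4) (nat_lit 317) (nat_lit 250) (nat_lit 153)))) (XT.nd (nat_lit 32370) (nat_lit 0) (nat_lit 4256) (XT.nd (nat_lit 32292) (nat_lit 0) (nat_lit 4864) (XT.lf (nat_lit 0) (nat_lit 381148689827) (nat_lit 76) (nat_lit 152904920983) (nat_lit 76) (nat_lit 92452834005) (nat_lit 3) (nat_lit 4) (nat_lit 4) (nat_lit 5) (nat_lit 4) (nat_lit 4) (nat_lit 318) (nat_lit 250) (nat_lit 152)) (XT.lf (nat_lit 0) (nat_lit 2468205914) (nat_lit 0) (nat_lit 2468205914) (nat_lit 532) (nat_lit 111644638) (nat_lit 67) (nat_lit 5) (nat_lit 67) (nat_lit 3) (nat_lit 74) (nat_lit 3) (nat_lit 251) (nat_lit 251) (nat_lit 218))) (XT.nd (nat_lit 78) (nat_lit 0) (nat_lit 0) (XT.lf (nat_lit 0) (nat_lit 735305091) (nat_lit 608) (nat_lit 9296038527) (nat_lit 684) (nat_lit 415026208) (nat_lit 59) (nat_lit 5)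 (nat_lit 67) (nat_lit 5) (nat_lit 68) (nat_lit 5) (nat_lit 252) (nat_lit 251) (nat_lit 217)) (XT.lf (nat_lit 0) (nat_lit 1843759029) (nat_lit 608) (nat_lit 2816233777) (nat_lit 684) (nat_lit 6160998392) (nat_lit 59) (nat_lit 5) (nat_lit 67) (nat_lit 5) (nat_lit 68) (nat_lit 5) (nat_lit 253) (nat_lit 251) (nat_lit 216))))) (XT.nd (nat_lit 312) (nat_lit 1292) (nat_lit 0) (XT.nd (nat_lit 156) (nat_lit 0) (nat_lit 76) (XT.nd (nat_lit 78) (nat_lit 0) (nat_lit 0) (XT.lf (nat_lit 0) (nat_lit 3040167847) (nat_lit 608) (nat_lit 6980876203) (nat_lit 684) (nat_lit 1205108282) (nat_lit 60) (nat_lit 5) (nat_lit 68) (nat_lit 5) (nat_lit 69) (nat_lit 5) (nat_lit 254) (nat_lit 251) (nat_lit 215)) (XT.lf (nat_lit 76) (nat_lit 181909604) (nat_lit 0) (nat_lit 4201015104) (nat_lit 684) (nat_lit 7278764312) (nat_lit 61) (nat_lit 5) (nat_lit 60) (nat_lit 5) (nat_lit 69) (nat_lit 5) (nat_lit 255) (nat_lit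 251) (nat_lit 214))) (XT.nd (nat_lit 78) (nat_lit 0) (nat_lit 0) (XT.lf (nat_lit 0) (nat_lit 5914096231) (nat_lit 608) (nat_lit 4051226857) (nat_lit 684) (nat_lit 2163153652) (nat_lit 61) (nat_lit 5) (nat_lit 69) (nat_lit 5) (nat_lit 70) (nat_lit 5) (nat_lit 256) (nat_lit 251) (nat_lit 213)) (XT.lf (nat_lit 76) (nat_lit 3974556654) (nat_lit 0) (nat_lit 3656513699) (nat_lit 684) (nat_lit 4998795574) (nat_lit 62) (nat_lit 5) (nat_lit 61) (nat_lit 5) (nat_lit 70) (nat_lit 5) (nat_lit 257) (nat_lit 251) (nat_lit 212)))) (XT.nd (nat_lit 156) (nat_lit 836) (nat_lit 0) (XT.nd (nat_lit 78) (nat_lit 608) (nat_lit 0) (XT.lf (nat_lit 0) (nat_lit 9541413566) (nat_lit 608) (nat_lit 486192864) (nat_lit 76) (nat_lit 3141351752) (nat_lit 62) (nat_lit 5) (nat_lit 70) (nat_lit 5) (nat_lit 63) (nat_lit 5) (nat_lit 258) (nat_lit 251) (nat_lit 211)) (XT.lf (nat_lit 0) (nat_lit 8495809417) (nat_lit 608)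 (nat_lit 3242883804) (nat_lit 684) (nat_lit 2006142567) (nat_lit 54) (nat_lit 5) (nat_lit 62) (nat_lit 5) (nat_lit 63) (nat_lit 5) (nat_lit 259) (nat_lit 251) (nat_lit 210))) (XT.nd (nat_lit 78) (nat_lit 380) (nat_lit 0) (XT.lf (nat_lit 0) (nat_lit 3854864757) (nat_lit 456) (nat_lit 10333086129) (nat_lit 532) (nat_lit 175359434) (nat_lit 48) (nat_lit 5) (nat_lit 54) (nat_lit 5) (nat_lit 55) (nat_lit 5) (nat_lit 260) (nat_lit 251) (nat_lit 209)) (XT.nd (nat_lit 78) (nat_lit 304) (nat_lit 0) (XT.lf (nat_lit 0) (nat_lit 1837688670) (nat_lit 532) (nat_lit 1288300595) (nat_lit 76) (nat_lit 11899489965) (nat_lit 47) (nat_lit 5) (nat_lit 54) (nat_lit 5) (nat_lit 48) (nat_lit 5) (nat_lit 261) (nat_lit 251) (nat_lit 208)) (XT.lf (nat_lit 0) (nat_lit 4169677837) (nat_lit 380) (nat_lit 6907886344) (nat_lit 76) (nat_lit 4654986442) (nat_lit 43) (nat_lit 5) (nat_lit 48) (nat_lit 5) (nat_lit 44)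 (nat_lit 5) (nat_lit 262) (nat_lit 251) (nat_lit 207))))))))
noncomputable def xc74 : XT := (XT.nd (nat_lit 1248) (nat_lit 760) (nat_lit 0) (XT.nd (nat_lit 624) (nat_lit 760) (nat_lit 0) (XT.nd (nat_lit 312) (nat_lit 532) (nat_lit 0) (XT.nd (nat_lit 156) (nat_lit 456) (nat_lit 0) (XT.nd (nat_lit 78) (nat_lit 0) (nat_lit 0) (XT.lf (nat_lit 0) (nat_lit 3301688477) (nat_lit 304) (nat_lit 3466491735) (nat_lit 380) (nat_lit 9724264216) (nat_lit 39) (nat_lit 5) (nat_lit 43) (nat_lit 5) (nat_lit 44) (nat_lit 5) (nat_lit 263) (nat_lit 251) (nat_lit 206)) (XT.lf (nat_lit 0) (nat_lit 9726700855) (nat_lit 380) (nat_lit 2857419463) (nat_lit 76) (nat_lit 4721638074) (nat_lit 39) (nat_lit 5) (nat_lit 44) (nat_lit 5) (nat_lit 40) (nat_lit 5) (nat_lit 264) (nat_lit 251) (nat_lit 205))) (XT.nd (nat_lit 78) (nat_lit 228) (nat_lit 0) (XT.lf (nat_lit 0) (nat_lit 8470016373) (nat_lit 228) (nat_lit 4601485872)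 (nat_lit 304) (nat_lit 5105373385) (nat_lit 36) (nat_lit 5) (nat_lit 39) (nat_lit 5) (nat_lit 40) (nat_lit 5) (nat_lit 265) (nat_lit 251) (nat_lit 204)) (XT.lf (nat_lit 0) (nat_lit 1633897892) (nat_lit 228) (nat_lit 15150054857) (nat_lit 304) (nat_lit 2328928201) (nat_lit 33) (nat_lit 5) (nat_lit 36) (nat_lit 5) (nat_lit 37) (nat_lit 5) (nat_lit 266) (nat_lit 251) (nat_lit 203)))) (XT.nd (nat_lit 156) (nat_lit 228) (nat_lit 0) (XT.nd (nat_lit 78) (nat_lit 228) (nat_lit 0) (XT.lf (nat_lit 0) (nat_lit 860269975) (nat_lit 304) (nat_lit 6022341346) (nat_lit 76) (nat_lit 13230207232) (nat_lit 32) (nat_lit 5) (nat_lit 36) (nat_lit 5) (nat_lit 33) (nat_lit 5) (nat_lit 267) (nat_lit 251) (nat_lit 202)) (XT.lf (nat_lit 0) (nat_lit 4324763843) (nat_lit 304) (nat_lit 14744330526) (nat_lit 76) (nat_lit 2116825030) (nat_lit 29) (nat_lit 5) (nat_lit 33) (nat_lit 5) (nat_lit 30) (nat_lit 5) (nat_lit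 268) (nat_lit 251) (nat_lit 201))) (XT.nd (nat_lit 78) (nat_lit 228) (nat_lit 0) (XT.lf (nat_lit 0) (nat_lit 8256321567) (nat_lit 304) (nat_lit 2381024717) (nat_lit 76) (nat_lit 11698179493) (nat_lit 29) (nat_lit 5) (nat_lit 33) (nat_lit 5) (nat_lit 30) (nat_lit 5) (nat_lit 269) (nat_lit 251) (nat_lit 200)) (XT.lf (nat_lit 0) (nat_lit 11294585523) (nat_lit 228) (nat_lit 1353812119) (nat_lit 304) (nat_lit 10921544711) (nat_lit 26) (nat_lit 5) (nat_lit 29) (nat_lit 5) (nat_lit 30) (nat_lit 5) (nat_lit 270) (nat_lit 251) (nat_lit 199))))) (XT.nd (nat_lit 312) (nat_lit 304) (nat_lit 0) (XT.nd (nat_lit 156) (nat_lit 304) (nat_lit 0) (XT.nd (nat_lit 78) (nat_lit 0) (nat_lit 0) (XT.lf (nat_lit 0) (nat_lit 1109631040) (nat_lit 152) (nat_lit 16448296011) (nat_lit 228) (nat_lit 7337011743) (nat_lit 24) (nat_lit 5) (nat_lit 26) (nat_lit 5) (nat_lit 27) (nat_lit 5) (nat_lit 271) (nat_lit 251) (nat_lit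 198)) (XT.lf (nat_lit 0) (nat_lit 15943802054) (nat_lit 152) (nat_lit 7125476346) (nat_lit 228) (nat_lit 3246324776) (nat_lit 24) (nat_lit 5) (nat_lit 26) (nat_lit 5) (nat_lit 27) (nat_lit 5) (nat_lit 272) (nat_lit 251) (nat_lit 197))) (XT.nd (nat_lit 78) (nat_lit 0) (nat_lit 0) (XT.lf (nat_lit 0) (nat_lit 1221083857) (nat_lit 304) (nat_lit 23698158112) (nat_lit 76) (nat_lit 2925522723) (nat_lit 20) (nat_lit 5) (nat_lit 24) (nat_lit 5) (nat_lit 21) (nat_lit 5) (nat_lit 273) (nat_lit 251) (nat_lit 196)) (XT.lf (nat_lit 0) (nat_lit 6212968471) (nat_lit 304) (nat_lit 9502532790) (nat_lit 76) (nat_lit 13764154975) (nat_lit 20) (nat_lit 5) (nat_lit 24) (nat_lit 5) (nat_lit 21) (nat_lit 5) (nat_lit 274) (nat_lit 251) (nat_lit 195)))) (XT.nd (nat_lit 156) (nat_lit 152) (nat_lit 0) (XT.nd (nat_lit 78) (nat_lit 0) (nat_lit 0) (XT.lf (nat_lit 0) (nat_lit 5988640126) (nat_lit 152) (nat_lit 5686394419)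 (nat_lit 228) (nat_lit 19566854661) (nat_lit 18) (nat_lit 5) (nat_lit 20) (nat_lit 5) (nat_lit 21) (nat_lit 5) (nat_lit 275) (nat_lit 251) (nat_lit 194)) (XT.lf (nat_lit 0) (nat_lit 17801032382) (nat_lit 228) (nat_lit 10192841207) (nat_lit 76) (nat_lit 5139963746) (nat_lit 18) (nat_lit 5) (nat_lit 21) (nat_lit 5) (nat_lit 19) (nat_lit 5) (nat_lit 276) (nat_lit 251) (nat_lit 193))) (XT.nd (nat_lit 78) (nat_lit 0) (nat_lit 0) (XT.lf (nat_lit 0) (nat_lit 6144078161) (nat_lit 152) (nat_lit 18444837831) (nat_lit 228) (nat_lit 10579713587) (nat_lit 16) (nat_lit 5) (nat_lit 18) (nat_lit 5) (nat_lit 19) (nat_lit 5) (nat_lit 277) (nat_lit 251) (nat_lit 192)) (XT.lf (nat_lit 0) (nat_lit 24124111229) (nat_lit 152) (nat_lit 7954315786) (nat_lit 228) (nat_lit 5279921095) (nat_lit 16) (nat_lit 5) (nat_lit 18) (nat_lit 5) (nat_lit 19) (nat_lit 5) (nat_lit 278) (nat_lit 251) (nat_lit 191)))))) (XT.nd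 (nat_lit 624) (nat_lit 380) (nat_lit 0) (XT.nd (nat_lit 312) (nat_lit 76) (nat_lit 0) (XT.nd (nat_lit 156) (nat_lit 152) (nat_lit 0) (XT.nd (nat_lit 78) (nat_lit 0) (nat_lit 0) (XT.lf (nat_lit 0) (nat_lit 526489614) (nat_lit 152) (nat_lit 35863350122) (nat_lit 76) (nat_lit 3328279996) (nat_lit 14) (nat_lit 5) (nat_lit 16) (nat_lit 5) (nat_lit 15) (nat_lit 5) (nat_lit 279) (nat_lit 251) (nat_lit 190)) (XT.lf (nat_lit 0) (nat_lit 6966236293) (nat_lit 152) (nat_lit 19724640690) (nat_lit 76) (nat_lit 15553837399) (nat_lit 14) (nat_lit 5) (nat_lit 16) (nat_lit 5) (nat_lit 15) (nat_lit 5) (nat_lit 280) (nat_lit 251) (nat_lit 189))) (XT.nd (nat_lit 78) (nat_lit 152) (nat_lit 0) (XT.lf (nat_lit 0) (nat_lit 13905326988) (nat_lit 152) (nat_lit 2318953517) (nat_lit 76) (nat_lit 28750002882) (nat_lit 14) (nat_lit 5) (nat_lit 16) (nat_lit 5) (nat_lit 15) (nat_lit 5) (nat_lit 281) (nat_lit 251) (nat_lit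 188)) (XT.lf (nat_lit 0) (nat_lit 17000994199) (nat_lit 152) (nat_lit 4649321202) (nat_lit 228) (nat_lit 26259414910) (nat_lit 12) (nat_lit 5) (nat_lit 14) (nat_lit 5) (nat_lit 15) (nat_lit 5) (nat_lit 282) (nat_lit 251) (nat_lit 187)))) (XT.nd (nat_lit 156) (nat_lit 0) (nat_lit 0) (XT.nd (nat_lit 78) (nat_lit 76) (nat_lit 0) (XT.lf (nat_lit 0) (nat_lit 30164519356) (nat_lit 228) (nat_lit 13273882864) (nat_lit 76) (nat_lit 7634177096) (nat_lit 12) (nat_lit 5) (nat_lit 15) (nat_lit 5) (nat_lit 13) (nat_lit 4) (nat_lit 283) (nat_lit 251) (nat_lit 186)) (XT.lf (nat_lit 0) (nat_lit 5860578266) (nat_lit 76) (nat_lit 33656190017) (nat_lit 152) (nat_lit 14963886182) (nat_lit 11) (nat_lit 5) (nat_lit 12) (nat_lit 5) (nat_lit 13) (nat_lit 4) (nat_lit 284) (nat_lit 251) (nat_lit 185))) (XT.nd (nat_lit 78) (nat_lit 0) (nat_lit 0) (XT.lf (nat_lit 0) (nat_lit 26980327722) (nat_lit 76) (nat_lit 22855762414)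 (nat_lit 152) (nat_lit 8314381262) (nat_lit 11) (nat_lit 5) (nat_lit 12) (nat_lit 5) (nat_lit 13) (nat_lit 4) (nat_lit 285) (nat_lit 251) (nat_lit 184)) (XT.lf (nat_lit 0) (nat_lit 49771625062) (nat_lit 76) (nat_lit 11197916506) (nat_lit 152) (nat_lit 1144940356) (nat_lit 11) (nat_lit 5) (nat_lit 12) (nat_lit 5) (nat_lit 13) (nat_lit 4) (nat_lit 286) (nat_lit 251) (nat_lit 183))))) (XT.nd (nat_lit 312) (nat_lit 152) (nat_lit 0) (XT.nd (nat_lit 156) (nat_lit 0) (nat_lit 0) (XT.nd (nat_lit 78) (nat_lit 0) (nat_lit 0) (XT.lf (nat_lit 0) (nat_lit 6528456254) (nat_lit 228) (nat_lit 58279352563) (nat_lit 76) (nat_lit 1575607803) (nat_lit 8) (nat_lit 5) (nat_lit 11) (nat_lit 5) (nat_lit 9) (nat_lit 4) (nat_lit 287) (nat_lit 251) (nat_lit 182)) (XT.lf (nat_lit 0) (nat_lit 15173164750) (nat_lit 228) (nat_lit 40584055638) (nat_lit 76) (nat_lit 15215860126) (nat_lit 8) (nat_lit 5) (nat_lit 11)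 (nat_lit 5) (nat_lit 9) (nat_lit 4) (nat_lit 288) (nat_lit 251) (nat_lit 181))) (XT.nd (nat_lit 78) (nat_lit 0) (nat_lit 0) (XT.lf (nat_lit 0) (nat_lit 24499885498) (nat_lit 228) (nat_lit 21488681336) (nat_lit 76) (nat_lit 29941857204) (nat_lit 8) (nat_lit 5) (nat_lit 11) (nat_lit 5) (nat_lit 9) (nat_lit 4) (nat_lit 289) (nat_lit 251) (nat_lit 180)) (XT.lf (nat_lit 0) (nat_lit 34563887955) (nat_lit 228) (nat_lit 880071883) (nat_lit 76) (nat_lit 45840864203) (nat_lit 8) (nat_lit 5) (nat_lit 11) (nat_lit 5) (nat_lit 9) (nat_lit 4) (nat_lit 290) (nat_lit 251) (nat_lit 179)))) (XT.nd (nat_lit 156) (nat_lit 76) (nat_lit 0) (XT.nd (nat_lit 78) (nat_lit 0) (nat_lit 0) (XT.lf (nat_lit 0) (nat_lit 22070284757) (nat_lit 76) (nat_lit 23699104895) (nat_lit 152) (nat_lit 41281391703) (nat_lit 7) (nat_lit 5) (nat_lit 8) (nat_lit 5) (nat_lit 9) (nat_lit 4) (nat_lit 291) (nat_lit 251) (nat_lit 178))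 (XT.lf (nat_lit 0) (nat_lit 46875347740) (nat_lit 76) (nat_lit 11003522426) (nat_lit 152) (nat_lit 35398790616) (nat_lit 7) (nat_lit 5) (nat_lit 8) (nat_lit 5) (nat_lit 9) (nat_lit 4) (nat_lit 292) (nat_lit 251) (nat_lit 177))) (XT.nd (nat_lit 78) (nat_lit 76) (nat_lit 0) (XT.lf (nat_lit 0) (nat_lit 70992097895) (nat_lit 152) (nat_lit 26392264425) (nat_lit 0) (nat_lit 2616599604) (nat_lit 7) (nat_lit 5) (nat_lit 9) (nat_lit 4) (nat_lit 7) (nat_lit 4) (nat_lit 293) (nat_lit 251) (nat_lit 176)) (XT.nd (nat_lit 78) (nat_lit 76) (nat_lit 0) (XT.lf (nat_lit 0) (nat_lit 85333176927) (nat_lit 152) (nat_lit 4978168752) (nat_lit 0) (nat_lit 16941861084) (nat_lit 7) (nat_lit 5) (nat_lit 9) (nat_lit 4) (nat_lit 7) (nat_lit 4) (nat_lit 294) (nat_lit 251) (nat_lit 175)) (XT.lf (nat_lit 0) (nat_lit 18738414428) (nat_lit 76) (nat_lit 82369440346) (nat_lit 76) (nat_lit 13963478622) (nat_lit 6) (nat_lit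 4) (nat_lit 7) (nat_lit 5) (nat_lit 7) (nat_lit 4) (nat_lit 295) (nat_lit 251) (nat_lit 174))))))))
noncomputable def xc75 : XT := (XT.nd (nat_lit 1326) (nat_lit 0) (nat_lit 0) (XT.nd (nat_lit 624) (nat_lit 76) (nat_lit 0) (XT.nd (nat_lit 312) (nat_lit 76) (nat_lit 0) (XT.nd (nat_lit 156) (nat_lit 0) (nat_lit 0) (XT.nd (nat_lit 78) (nat_lit 76) (nat_lit 0) (XT.lf (nat_lit 0) (nat_lit 44520158014) (nat_lit 76) (nat_lit 73705126256) (nat_lit 76) (nat_lit 5285603530) (nat_lit 6) (nat_lit 4) (nat_lit 7) (nat_lit 5) (nat_lit 7) (nat_lit 4) (nat_lit 296) (nat_lit 251) (nat_lit 173)) (XT.lf (nat_lit 0) (nat_lit 3950103911) (nat_lit 152) (nat_lit 60334366189) (nat_lit 76) (nat_lit 68338241134) (nat_lit 5) (nat_lit 5) (nat_lit 7) (nat_lit 5) (nat_lit 6) (nat_lit 4) (nat_lit 297) (nat_lit 251) (nat_lit 172))) (XT.nd (nat_lit 78) (nat_lit 0) (nat_lit 0) (XT.lf (nat_lit 0) (nat_lit 13736772873)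 (nat_lit 152) (nat_lit 40283321190) (nat_lit 76) (nat_lit 88439203164) (nat_lit 5) (nat_lit 5) (nat_lit 7) (nat_lit 5) (nat_lit 6) (nat_lit 4) (nat_lit 298) (nat_lit 251) (nat_lit 171)) (XT.lf (nat_lit 0) (nat_lit 24301570751) (nat_lit 152) (nat_lit 18636250699) (nat_lit 76) (nat_lit 110145241361) (nat_lit 5) (nat_lit 5) (nat_lit 7) (nat_lit 5) (nat_lit 6) (nat_lit 4) (nat_lit 299) (nat_lit 251) (nat_lit 170)))) (XT.nd (nat_lit 156) (nat_lit 0) (nat_lit 0) (XT.nd (nat_lit 78) (nat_lit 0) (nat_lit 0) (XT.lf (nat_lit 0) (nat_lit 4891688811) (nat_lit 76) (nat_lit 30891787916) (nat_lit 152) (nat_lit 128769668260) (nat_lit 4) (nat_lit 5) (nat_lit 5) (nat_lit 5) (nat_lit 6) (nat_lit 4) (nat_lit 300) (nat_lit 251) (nat_lit 169)) (XT.lf (nat_lit 0) (nat_lit 30960221028) (nat_lit 76) (nat_lit 17544115020) (nat_lit 152) (nat_lit 128420488350) (nat_lit 4) (nat_lit 5) (nat_lit 5) (nat_lit 5) (nat_lit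 6) (nat_lit 4) (nat_lit 301) (nat_lit 251) (nat_lit 168))) (XT.nd (nat_lit 78) (nat_lit 0) (nat_lit 0) (XT.lf (nat_lit 0) (nat_lit 59107627530) (nat_lit 76) (nat_lit 3131319363) (nat_lit 152) (nat_lit 128047497037) (nat_lit 4) (nat_lit 5) (nat_lit 5) (nat_lit 5) (nat_lit 6) (nat_lit 4) (nat_lit 302) (nat_lit 251) (nat_lit 167)) (XT.lf (nat_lit 0) (nat_lit 77262798039) (nat_lit 152) (nat_lit 115410574280) (nat_lit 0) (nat_lit 12034106310) (nat_lit 4) (nat_lit 5) (nat_lit 6) (nat_lit 4) (nat_lit 4) (nat_lit 4) (nat_lit 303) (nat_lit 251) (nat_lit 166))))) (XT.nd (nat_lit 312) (nat_lit 76) (nat_lit 0) (XT.nd (nat_lit 156) (nat_lit 0) (nat_lit 0) (XT.nd (nat_lit 78) (nat_lit 0) (nat_lit 0) (XT.lf (nat_lit 0) (nat_lit 93537962635) (nat_lit 152) (nat_lit 98439478494) (nat_lit 0) (nat_lit 28302293204) (nat_lit 4) (nat_lit 5) (nat_lit 6) (nat_lit 4) (nat_lit 4) (nat_lit 4) (nat_lit 304) (nat_lit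 251) (nat_lit 165)) (XT.lf (nat_lit 0) (nat_lit 111111997429) (nat_lit 152) (nat_lit 80116070914) (nat_lit 0) (nat_lit 45869867163) (nat_lit 4) (nat_lit 5) (nat_lit 6) (nat_lit 4) (nat_lit 4) (nat_lit 4) (nat_lit 305) (nat_lit 251) (nat_lit 164))) (XT.nd (nat_lit 78) (nat_lit 0) (nat_lit 0) (XT.lf (nat_lit 0) (nat_lit 130089044851) (nat_lit 152) (nat_lit 60331768385) (nat_lit 0) (nat_lit 64840932330) (nat_lit 4) (nat_lit 5) (nat_lit 6) (nat_lit 4) (nat_lit 4) (nat_lit 4) (nat_lit 306) (nat_lit 251) (nat_lit 163)) (XT.lf (nat_lit 0) (nat_lit 150581561477) (nat_lit 152) (nat_lit 38969330596) (nat_lit 0) (nat_lit 85327909832) (nat_lit 4) (nat_lit 5) (nat_lit 6) (nat_lit 4) (nat_lit 4) (nat_lit 4) (nat_lit 307) (nat_lit 251) (nat_lit 162)))) (XT.nd (nat_lit 156) (nat_lit 0) (nat_lit 0) (XT.nd (nat_lit 78) (nat_lit 76) (nat_lit 0) (XT.lf (nat_lit 0) (nat_lit 172710984444) (nat_lit 152) (nat_lit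 15902165322) (nat_lit 0) (nat_lit 107452203979) (nat_lit 4) (nat_lit 5) (nat_lit 6) (nat_lit 4) (nat_lit 4) (nat_lit 4) (nat_lit 308) (nat_lit 251) (nat_lit 161)) (XT.lf (nat_lit 0) (nat_lit 9304214725) (nat_lit 76) (nat_lit 187449501212) (nat_lit 76) (nat_lit 122185971841) (nat_lit 3) (nat_lit 4) (nat_lit 4) (nat_lit 5) (nat_lit 4) (nat_lit 4) (nat_lit 309) (nat_lit 251) (nat_lit 160))) (XT.nd (nat_lit 78) (nat_lit 0) (nat_lit 0) (XT.lf (nat_lit 0) (nat_lit 37091186671) (nat_lit 76) (nat_lit 185903486678) (nat_lit 76) (nat_lit 120635560171) (nat_lit 3) (nat_lit 4) (nat_lit 4) (nat_lit 5) (nat_lit 4) (nat_lit 4) (nat_lit 310) (nat_lit 251) (nat_lit 159)) (XT.nd (nat_lit 78) (nat_lit 0) (nat_lit 0) (XT.lf (nat_lit 0) (nat_lit 67097616649) (nat_lit 76) (nat_lit 184235255460) (nat_lit 76) (nat_lit 118963257530) (nat_lit 3) (nat_lit 4) (nat_lit 4) (nat_lit 5) (nat_lit 4) (nat_lit 4) (nat_lit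 311) (nat_lit 251) (nat_lit 158)) (XT.lf (nat_lit 0) (nat_lit 99501320541) (nat_lit 76) (nat_lit 182434921743) (nat_lit 76) (nat_lit 117159153978) (nat_lit 3) (nat_lit 4) (nat_lit 4) (nat_lit 5) (nat_lit 4) (nat_lit 4) (nat_lit 312) (nat_lit 251) (nat_lit 157))))))) (XT.nd (nat_lit 32916) (nat_lit 0) (nat_lit 3344) (XT.nd (nat_lit 312) (nat_lit 0) (nat_lit 0) (XT.nd (nat_lit 156) (nat_lit 0) (nat_lit 0) (XT.nd (nat_lit 78) (nat_lit 0) (nat_lit 0) (XT.lf (nat_lit 0) (nat_lit 134494320297) (nat_lit 76) (nat_lit 180491816883) (nat_lit 76) (nat_lit 115212558530) (nat_lit 3) (nat_lit 4) (nat_lit 4) (nat_lit 5) (nat_lit 4) (nat_lit 4) (nat_lit 313) (nat_lit 251) (nat_lit 156)) (XT.lf (nat_lit 0) (nat_lit 172283981841) (nat_lit 76) (nat_lit 178394426185) (nat_lit 76) (nat_lit 113111935806) (nat_lit 3) (nat_lit 4) (nat_lit 4) (nat_lit 5) (nat_lit 4) (nat_lit 4) (nat_lit 314) (nat_lit 251) (nat_lit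 155))) (XT.nd (nat_lit 78) (nat_lit 0) (nat_lit 0) (XT.lf (nat_lit 0) (nat_lit 213094243907) (nat_lit 76) (nat_lit 176130320666) (nat_lit 76) (nat_lit 110844837671) (nat_lit 3) (nat_lit 4) (nat_lit 4) (nat_lit 5) (nat_lit 4) (nat_lit 4) (nat_lit 315) (nat_lit 251) (nat_lit 154)) (XT.lf (nat_lit 0) (nat_lit 257166945086) (nat_lit 76) (nat_lit 173686083406) (nat_lit 76) (nat_lit 108397829469) (nat_lit 3) (nat_lit 4) (nat_lit 4) (nat_lit 5) (nat_lit 4) (nat_lit 4) (nat_lit 316) (nat_lit 251) (nat_lit 153)))) (XT.nd (nat_lit 32448) (nat_lit 0) (nat_lit 4180) (XT.nd (nat_lit 78) (nat_lit 0) (nat_lit 0) (XT.lf (nat_lit 0) (nat_lit 304763256940) (nat_lit 76) (nat_lit 171047230035) (nat_lit 76) (nat_lit 105756410411) (nat_lit 3) (nat_lit 4) (nat_lit 4) (nat_lit 5) (nat_lit 4) (nat_lit 4) (nat_lit 317) (nat_lit 251) (nat_lit 152)) (XT.lf (nat_lit 0) (nat_lit 356165231688) (nat_lit 76) (nat_lit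 168198122904) (nat_lit 76) (nat_lit 102904927644) (nat_lit 3) (nat_lit 4) (nat_lit 4) (nat_lit 5) (nat_lit 4) (nat_lit 4) (nat_lit 318) (nat_lit 251) (nat_lit 151))) (XT.nd (nat_lit 78) (nat_lit 0) (nat_lit 0) (XT.lf (nat_lit 0) (nat_lit 796118095) (nat_lit 684) (nat_lit 2302304827) (nat_lit 684) (nat_lit 2302304827) (nat_lit 58) (nat_lit 3) (nat_lit 67) (nat_lit 3) (nat_lit 67) (nat_lit 5) (nat_lit 252) (nat_lit 252) (nat_lit 216)) (XT.lf (nat_lit 76) (nat_lit 2172152522) (nat_lit 0) (nat_lit 319581068) (nat_lit 684) (nat_lit 8695047832) (nat_lit 59) (nat_lit 5) (nat_lit 58) (nat_lit 3) (nat_lit 67) (nat_lit 5) (nat_lit 253) (nat_lit 252) (nat_lit 215))))) (XT.nd (nat_lit 312) (nat_lit 912) (nat_lit 0) (XT.nd (nat_lit 156) (nat_lit 0) (nat_lit 76) (XT.nd (nat_lit 78) (nat_lit 0) (nat_lit 76) (XT.lf (nat_lit 0) (nat_lit 3558495433) (nat_lit 608) (nat_lit 2087752605) (nat_lit 684) (nat_lit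 5952414574) (nat_lit 59) (nat_lit 5) (nat_lit 67) (nat_lit 5) (nat_lit 68) (nat_lit 5) (nat_lit 254) (nat_lit 252) (nat_lit 214)) (XT.lf (nat_lit 0) (nat_lit 4740134658) (nat_lit 608) (nat_lit 6536180764) (nat_lit 684) (nat_lit 766159857) (nat_lit 60) (nat_lit 5) (nat_lit 68) (nat_lit 5) (nat_lit 69) (nat_lit 5) (nat_lit 255) (nat_lit 252) (nat_lit 213))) (XT.nd (nat_lit 78) (nat_lit 0) (nat_lit 76) (XT.lf (nat_lit 76) (nat_lit 1156031557) (nat_lit 0) (nat_lit 4941354417) (nat_lit 684) (nat_lit 6420776830) (nat_lit 61) (nat_lit 5) (nat_lit 60) (nat_lit 5) (nat_lit 69) (nat_lit 5) (nat_lit 256) (nat_lit 252) (nat_lit 212)) (XT.lf (nat_lit 0) (nat_lit 7644182898) (nat_lit 608) (nat_lit 3410193409) (nat_lit 684) (nat_lit 1973873240) (nat_lit 61) (nat_lit 5) (nat_lit 69) (nat_lit 5) (nat_lit 70) (nat_lit 5) (nat_lit 257) (nat_lit 252) (nat_lit 211)))) (XT.nd (nat_lit 156) (nat_lit 532)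 (nat_lit 0) (XT.nd (nat_lit 78) (nat_lit 532) (nat_lit 0) (XT.lf (nat_lit 76) (nat_lit 5215709340) (nat_lit 0) (nat_lit 4204111093) (nat_lit 684) (nat_lit 4154431376) (nat_lit 62) (nat_lit 5) (nat_lit 61) (nat_lit 5) (nat_lit 70) (nat_lit 5) (nat_lit 258) (nat_lit 252) (nat_lit 210)) (XT.lf (nat_lit 0) (nat_lit 407561785) (nat_lit 608) (nat_lit 10990826192) (nat_lit 684) (nat_lit 2762838821) (nat_lit 54) (nat_lit 5) (nat_lit 62) (nat_lit 5) (nat_lit 63) (nat_lit 5) (nat_lit 259) (nat_lit 252) (nat_lit 209))) (XT.nd (nat_lit 78) (nat_lit 532) (nat_lit 0) (XT.lf (nat_lit 0) (nat_lit 10055114790) (nat_lit 608) (nat_lit 3643165084) (nat_lit 684) (nat_lit 1089039539) (nat_lit 54) (nat_lit 5) (nat_lit 62) (nat_lit 5) (nat_lit 63) (nat_lit 5) (nat_lit 260) (nat_lit 252) (nat_lit 208)) (XT.nd (nat_lit 78) (nat_lit 0) (nat_lit 0) (XT.lf (nat_lit 0) (nat_lit 794693847) (nat_lit 532) (nat_lit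 10410328555) (nat_lit 76) (nat_lit 4253239180) (nat_lit 47) (nat_lit 5) (nat_lit 54) (nat_lit 5) (nat_lit 48) (nat_lit 5) (nat_lit 261) (nat_lit 252) (nat_lit 207)) (XT.lf (nat_lit 0) (nat_lit 2890278238) (nat_lit 532) (nat_lit 524850038) (nat_lit 76) (nat_lit 12762147249) (nat_lit 47) (nat_lit 5) (nat_lit 54) (nat_lit 5) (nat_lit 48) (nat_lit 5) (nat_lit 262) (nat_lit 252) (nat_lit 206))))))))
noncomputable def xc76 : XT := (XT.nd (nat_lit 1248) (nat_lit 684) (nat_lit 0) (XT.nd (nat_lit 624) (nat_lit 988) (nat_lit 0) (XT.nd (nat_lit 312) (nat_lit 532) (nat_lit 0) (XT.nd (nat_lit 156) (nat_lit 228) (nat_lit 0) (XT.nd (nat_lit 78) (nat_lit 304) (nat_lit 0) (XT.lf (nat_lit 0) (nat_lit 5354335210) (nat_lit 380) (nat_lit 6584140348) (nat_lit 76) (nat_lit 5005529290) (nat_lit 43) (nat_lit 5) (nat_lit 48) (nat_lit 5) (nat_lit 44) (nat_lit 5) (nat_lit 263) (nat_lit 252) (nat_lit 205)) (XT.lf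 (nat_lit 0) (nat_lit 4404114186) (nat_lit 304) (nat_lit 3706648459) (nat_lit 380) (nat_lit 9656765689) (nat_lit 39) (nat_lit 5) (nat_lit 43) (nat_lit 5) (nat_lit 44) (nat_lit 5) (nat_lit 264) (nat_lit 252) (nat_lit 204))) (XT.nd (nat_lit 78) (nat_lit 228) (nat_lit 0) (XT.lf (nat_lit 0) (nat_lit 11247159358) (nat_lit 380) (nat_lit 2269325921) (nat_lit 76) (nat_lit 5132677620) (nat_lit 39) (nat_lit 5) (nat_lit 44) (nat_lit 5) (nat_lit 40) (nat_lit 5) (nat_lit 265) (nat_lit 252) (nat_lit 203)) (XT.lf (nat_lit 0) (nat_lit 9928812556) (nat_lit 228) (nat_lit 4887942097) (nat_lit 304) (nat_lit 4775646227) (nat_lit 36) (nat_lit 5) (nat_lit 39) (nat_lit 5) (nat_lit 40) (nat_lit 5) (nat_lit 266) (nat_lit 252) (nat_lit 202)))) (XT.nd (nat_lit 156) (nat_lit 228) (nat_lit 0) (XT.nd (nat_lit 78) (nat_lit 76) (nat_lit 0) (XT.lf (nat_lit 0) (nat_lit 2547581459) (nat_lit 228) (nat_lit 16240207459) (nat_lit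 304) (nat_lit 1817688558) (nat_lit 33) (nat_lit 5) (nat_lit 36) (nat_lit 5) (nat_lit 37) (nat_lit 5) (nat_lit 267) (nat_lit 252) (nat_lit 201)) (XT.lf (nat_lit 0) (nat_lit 1554302516) (nat_lit 304) (nat_lit 5755503733) (nat_lit 76) (nat_lit 14377798447) (nat_lit 32) (nat_lit 5) (nat_lit 36) (nat_lit 5) (nat_lit 33) (nat_lit 5) (nat_lit 268) (nat_lit 252) (nat_lit 200))) (XT.nd (nat_lit 78) (nat_lit 0) (nat_lit 0) (XT.lf (nat_lit 0) (nat_lit 5262791543) (nat_lit 304) (nat_lit 15177491663) (nat_lit 76) (nat_lit 2408149272) (nat_lit 29) (nat_lit 5) (nat_lit 33) (nat_lit 5) (nat_lit 30) (nat_lit 5) (nat_lit 269) (nat_lit 252) (nat_lit 199)) (XT.lf (nat_lit 0) (nat_lit 9465018582) (nat_lit 304) (nat_lit 1880409190) (nat_lit 76) (nat_lit 12746976668) (nat_lit 29) (nat_lit 5) (nat_lit 33) (nat_lit 5) (nat_lit 30) (nat_lit 5) (nat_lit 270) (nat_lit 252) (nat_lit 198))))) (XT.nd (nat_lit 312)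 (nat_lit 304) (nat_lit 0) (XT.nd (nat_lit 156) (nat_lit 304) (nat_lit 0) (XT.nd (nat_lit 78) (nat_lit 152) (nat_lit 0) (XT.lf (nat_lit 0) (nat_lit 12859215615) (nat_lit 228) (nat_lit 1318959416) (nat_lit 304) (nat_lit 11249102769) (nat_lit 26) (nat_lit 5) (nat_lit 29) (nat_lit 5) (nat_lit 30) (nat_lit 5) (nat_lit 271) (nat_lit 252) (nat_lit 197)) (XT.lf (nat_lit 0) (nat_lit 1855629610) (nat_lit 152) (nat_lit 17598804509) (nat_lit 228) (nat_lit 7405316631) (nat_lit 24) (nat_lit 5) (nat_lit 26) (nat_lit 5) (nat_lit 27) (nat_lit 5) (nat_lit 272) (nat_lit 252) (nat_lit 196))) (XT.nd (nat_lit 78) (nat_lit 304) (nat_lit 0) (XT.lf (nat_lit 0) (nat_lit 17827850744) (nat_lit 152) (nat_lit 7542407802) (nat_lit 228) (nat_lit 3025793674) (nat_lit 24) (nat_lit 5) (nat_lit 26) (nat_lit 5) (nat_lit 27) (nat_lit 5) (nat_lit 273) (nat_lit 252) (nat_lit 195)) (XT.lf (nat_lit 0) (nat_lit 1761029461) (nat_lit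 304) (nat_lit 24974067077) (nat_lit 76) (nat_lit 3313348627) (nat_lit 20) (nat_lit 5) (nat_lit 24) (nat_lit 5) (nat_lit 21) (nat_lit 5) (nat_lit 274) (nat_lit 252) (nat_lit 194)))) (XT.nd (nat_lit 156) (nat_lit 152) (nat_lit 0) (XT.nd (nat_lit 78) (nat_lit 152) (nat_lit 0) (XT.lf (nat_lit 0) (nat_lit 7119504926) (nat_lit 304) (nat_lit 9688713483) (nat_lit 76) (nat_lit 15007680046) (nat_lit 20) (nat_lit 5) (nat_lit 24) (nat_lit 5) (nat_lit 21) (nat_lit 5) (nat_lit 275) (nat_lit 252) (nat_lit 193)) (XT.lf (nat_lit 0) (nat_lit 7016806972) (nat_lit 152) (nat_lit 5979968665) (nat_lit 228) (nat_lit 20723545074) (nat_lit 18) (nat_lit 5) (nat_lit 20) (nat_lit 5) (nat_lit 21) (nat_lit 5) (nat_lit 276) (nat_lit 252) (nat_lit 192))) (XT.nd (nat_lit 78) (nat_lit 152) (nat_lit 0) (XT.lf (nat_lit 0) (nat_lit 19586464284) (nat_lit 228) (nat_lit 10482827449) (nat_lit 76) (nat_lit 5695765943) (nat_lit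 18) (nat_lit 5) (nat_lit 21) (nat_lit 5) (nat_lit 19) (nat_lit 5) (nat_lit 277) (nat_lit 252) (nat_lit 191)) (XT.lf (nat_lit 0) (nat_lit 7138210441) (nat_lit 152) (nat_lit 19760248616) (nat_lit 228) (nat_lit 11065225345) (nat_lit 16) (nat_lit 5) (nat_lit 18) (nat_lit 5) (nat_lit 19) (nat_lit 5) (nat_lit 278) (nat_lit 252) (nat_lit 190)))))) (XT.nd (nat_lit 624) (nat_lit 304) (nat_lit 0) (XT.nd (nat_lit 312) (nat_lit 228) (nat_lit 0) (XT.nd (nat_lit 156) (nat_lit 0) (nat_lit 0) (XT.nd (nat_lit 78) (nat_lit 152) (nat_lit 0) (XT.lf (nat_lit 0) (nat_lit 26519416078) (nat_lit 152) (nat_lit 8442349713) (nat_lit 228) (nat_lit 5368180219) (nat_lit 16) (nat_lit 5) (nat_lit 18) (nat_lit 5) (nat_lit 19) (nat_lit 5) (nat_lit 279) (nat_lit 252) (nat_lit 189)) (XT.lf (nat_lit 0) (nat_lit 877557557) (nat_lit 152) (nat_lit 38261865482) (nat_lit 76) (nat_lit 3739625889) (nat_lit 14) (nat_lit 5) (nat_lit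 16) (nat_lit 5) (nat_lit 15) (nat_lit 5) (nat_lit 280) (nat_lit 252) (nat_lit 188))) (XT.nd (nat_lit 78) (nat_lit 0) (nat_lit 0) (XT.lf (nat_lit 0) (nat_lit 7809598876) (nat_lit 152) (nat_lit 20866915048) (nat_lit 76) (nat_lit 16932480959) (nat_lit 14) (nat_lit 5) (nat_lit 16) (nat_lit 5) (nat_lit 15) (nat_lit 5) (nat_lit 281) (nat_lit 252) (nat_lit 187)) (XT.lf (nat_lit 0) (nat_lit 15282626924) (nat_lit 152) (nat_lit 2101046745) (nat_lit 76) (nat_lit 31174388824) (nat_lit 14) (nat_lit 5) (nat_lit 16) (nat_lit 5) (nat_lit 15) (nat_lit 5) (nat_lit 282) (nat_lit 252) (nat_lit 186)))) (XT.nd (nat_lit 156) (nat_lit 76) (nat_lit 0) (XT.nd (nat_lit 78) (nat_lit 0) (nat_lit 0) (XT.lf (nat_lit 0) (nat_lit 18746964513) (nat_lit 152) (nat_lit 4886654454) (nat_lit 228) (nat_lit 28095474116) (nat_lit 12) (nat_lit 5) (nat_lit 14) (nat_lit 5) (nat_lit 15) (nat_lit 5) (nat_lit 283) (nat_lit 252) (nat_lit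 185)) (XT.lf (nat_lit 0) (nat_lit 32812292026) (nat_lit 228) (nat_lit 13968011312) (nat_lit 76) (nat_lit 8365563121) (nat_lit 12) (nat_lit 5) (nat_lit 15) (nat_lit 5) (nat_lit 13) (nat_lit 4) (nat_lit 284) (nat_lit 252) (nat_lit 184))) (XT.nd (nat_lit 78) (nat_lit 0) (nat_lit 0) (XT.lf (nat_lit 0) (nat_lit 6681223342) (nat_lit 76) (nat_lit 36219611489) (nat_lit 152) (nat_lit 15926405510) (nat_lit 11) (nat_lit 5) (nat_lit 12) (nat_lit 5) (nat_lit 13) (nat_lit 4) (nat_lit 285) (nat_lit 252) (nat_lit 183)) (XT.lf (nat_lit 0) (nat_lit 29464493584) (nat_lit 76) (nat_lit 24564710695) (nat_lit 152) (nat_lit 8762317349) (nat_lit 11) (nat_lit 5) (nat_lit 12) (nat_lit 5) (nat_lit 13) (nat_lit 4) (nat_lit 286) (nat_lit 252) (nat_lit 182))))) (XT.nd (nat_lit 312) (nat_lit 76) (nat_lit 0) (XT.nd (nat_lit 156) (nat_lit 0) (nat_lit 0) (XT.nd (nat_lit 78) (nat_lit 228) (nat_lit 0) (XT.lf (nat_lit 0)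 (nat_lit 54054965848) (nat_lit 76) (nat_lit 11983089908) (nat_lit 152) (nat_lit 1035411127) (nat_lit 11) (nat_lit 5) (nat_lit 12) (nat_lit 5) (nat_lit 13) (nat_lit 4) (nat_lit 287) (nat_lit 252) (nat_lit 181)) (XT.lf (nat_lit 0) (nat_lit 7237331041) (nat_lit 228) (nat_lit 62638396932) (nat_lit 76) (nat_lit 1808479989) (nat_lit 8) (nat_lit 5) (nat_lit 11) (nat_lit 5) (nat_lit 9) (nat_lit 4) (nat_lit 288) (nat_lit 252) (nat_lit 180))) (XT.nd (nat_lit 78) (nat_lit 0) (nat_lit 0) (XT.lf (nat_lit 0) (nat_lit 16559794121) (nat_lit 228) (nat_lit 43549943203) (nat_lit 76) (nat_lit 16532039641) (nat_lit 8) (nat_lit 5) (nat_lit 11) (nat_lit 5) (nat_lit 9) (nat_lit 4) (nat_lit 289) (nat_lit 252) (nat_lit 179)) (XT.lf (nat_lit 0) (nat_lit 26619854293) (nat_lit 228) (nat_lit 22947741689) (nat_lit 76) (nat_lit 32428789766) (nat_lit 8) (nat_lit 5) (nat_lit 11) (nat_lit 5) (nat_lit 9) (nat_lit 4) (nat_lit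 290) (nat_lit 252) (nat_lit 178)))) (XT.nd (nat_lit 156) (nat_lit 0) (nat_lit 0) (XT.nd (nat_lit 78) (nat_lit 76) (nat_lit 0) (XT.lf (nat_lit 0) (nat_lit 37477126728) (nat_lit 228) (nat_lit 709705269) (nat_lit 76) (nat_lit 49592933327) (nat_lit 8) (nat_lit 5) (nat_lit 11) (nat_lit 5) (nat_lit 9) (nat_lit 4) (nat_lit 291) (nat_lit 252) (nat_lit 177)) (XT.lf (nat_lit 0) (nat_lit 24066216228) (nat_lit 76) (nat_lit 25505475671) (nat_lit 152) (nat_lit 44435708619) (nat_lit 7) (nat_lit 5) (nat_lit 8) (nat_lit 5) (nat_lit 9) (nat_lit 4) (nat_lit 292) (nat_lit 252) (nat_lit 176))) (XT.nd (nat_lit 78) (nat_lit 0) (nat_lit 0) (XT.lf (nat_lit 0) (nat_lit 50838624347) (nat_lit 76) (nat_lit 11800880502) (nat_lit 152) (nat_lit 38093476809) (nat_lit 7) (nat_lit 5) (nat_lit 8) (nat_lit 5) (nat_lit 9) (nat_lit 4) (nat_lit 293) (nat_lit 252) (nat_lit 175)) (XT.nd (nat_lit 78) (nat_lit 0) (nat_lit 0)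 (XT.lf (nat_lit 0) (nat_lit 76793335858) (nat_lit 152) (nat_lit 28301010299) (nat_lit 0) (nat_lit 2900251314) (nat_lit 7) (nat_lit 5) (nat_lit 9) (nat_lit 4) (nat_lit 7) (nat_lit 4) (nat_lit 294) (nat_lit 252) (nat_lit 174)) (XT.lf (nat_lit 0) (nat_lit 92272673795) (nat_lit 152) (nat_lit 5188796993) (nat_lit 0) (nat_lit 18366028250) (nat_lit 7) (nat_lit 5) (nat_lit 9) (nat_lit 4) (nat_lit 7) (nat_lit 4) (nat_lit 295) (nat_lit 252) (nat_lit 173))))))))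
noncomputable def xc77 : XT := (XT.nd (nat_lit 1248) (nat_lit 0) (nat_lit 0) (XT.nd (nat_lit 624) (nat_lit 76) (nat_lit 0) (XT.nd (nat_lit 312) (nat_lit 76) (nat_lit 0) (XT.nd (nat_lit 156) (nat_lit 76) (nat_lit 0) (XT.nd (nat_lit 78) (nat_lit 0) (nat_lit 0) (XT.lf (nat_lit 0) (nat_lit 20416958876) (nat_lit 76) (nat_lit 88886810324) (nat_lit 76) (nat_lit 14967608297) (nat_lit 6) (nat_lit 4) (nat_lit 7) (nat_lit 5) (nat_lit 7) (nat_lit 4) (nat_lit 296) (nat_lit 252) (nat_lit 172)) (XT.lf (nat_lit 0) (nat_lit 48247947779) (nat_lit 76) (nat_lit 79534698162) (nat_lit 76) (nat_lit 5603869762) (nat_lit 6) (nat_lit 4) (nat_lit 7) (nat_lit 5) (nat_lit 7) (nat_lit 4) (nat_lit 297) (nat_lit 252) (nat_lit 171))) (XT.nd (nat_lit 78) (nat_lit 0) (nat_lit 0) (XT.lf (nat_lit 0) (nat_lit 4359848124) (nat_lit 152) (nat_lit 65003904904) (nat_lit 76) (nat_lit 73863844770) (nat_lit 5) (nat_lit 5) (nat_lit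 7) (nat_lit 5) (nat_lit 6) (nat_lit 4) (nat_lit 298) (nat_lit 252) (nat_lit 170)) (XT.lf (nat_lit 0) (nat_lit 14922507203) (nat_lit 152) (nat_lit 43360421534) (nat_lit 76) (nat_lit 95568547143) (nat_lit 5) (nat_lit 5) (nat_lit 7) (nat_lit 5) (nat_lit 6) (nat_lit 4) (nat_lit 299) (nat_lit 252) (nat_lit 169)))) (XT.nd (nat_lit 156) (nat_lit 0) (nat_lit 0) (XT.nd (nat_lit 78) (nat_lit 76) (nat_lit 0) (XT.lf (nat_lit 0) (nat_lit 26326059837) (nat_lit 152) (nat_lit 19992368022) (nat_lit 76) (nat_lit 119007053009) (nat_lit 5) (nat_lit 5) (nat_lit 7) (nat_lit 5) (nat_lit 6) (nat_lit 4) (nat_lit 300) (nat_lit 252) (nat_lit 168)) (XT.lf (nat_lit 0) (nat_lit 5411949156) (nat_lit 76) (nat_lit 33310629174) (nat_lit 152) (nat_lit 138990803754) (nat_lit 4) (nat_lit 5) (nat_lit 5) (nat_lit 5) (nat_lit 6) (nat_lit 4) (nat_lit 301) (nat_lit 252) (nat_lit 167))) (XT.nd (nat_lit 78) (nat_lit 0) (nat_lit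 0) (XT.lf (nat_lit 0) (nat_lit 33556413932) (nat_lit 76) (nat_lit 18899031466) (nat_lit 152) (nat_lit 138619647819) (nat_lit 4) (nat_lit 5) (nat_lit 5) (nat_lit 5) (nat_lit 6) (nat_lit 4) (nat_lit 302) (nat_lit 252) (nat_lit 166)) (XT.lf (nat_lit 0) (nat_lit 63946770345) (nat_lit 76) (nat_lit 3336813101) (nat_lit 152) (nat_lit 138222334208) (nat_lit 4) (nat_lit 5) (nat_lit 5) (nat_lit 5) (nat_lit 6) (nat_lit 4) (nat_lit 303) (nat_lit 252) (nat_lit 165))))) (XT.nd (nat_lit 312) (nat_lit 76) (nat_lit 0) (XT.nd (nat_lit 156) (nat_lit 0) (nat_lit 0) (XT.nd (nat_lit 78) (nat_lit 0) (nat_lit 0) (XT.lf (nat_lit 0) (nat_lit 83505139996) (nat_lit 152) (nat_lit 124538539073) (nat_lit 0) (nat_lit 13037178473) (nat_lit 4) (nat_lit 5) (nat_lit 6) (nat_lit 4) (nat_lit 4) (nat_lit 4) (nat_lit 304) (nat_lit 252) (nat_lit 164)) (XT.lf (nat_lit 0) (nat_lit 101077775677) (nat_lit 152) (nat_lit 106217524598)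 (nat_lit 0) (nat_lit 30603831900) (nat_lit 4) (nat_lit 5) (nat_lit 6) (nat_lit 4) (nat_lit 4) (nat_lit 4) (nat_lit 305) (nat_lit 252) (nat_lit 163))) (XT.nd (nat_lit 78) (nat_lit 0) (nat_lit 0) (XT.lf (nat_lit 0) (nat_lit 120053527623) (nat_lit 152) (nat_lit 86435437906) (nat_lit 0) (nat_lit 49574044721) (nat_lit 4) (nat_lit 5) (nat_lit 6) (nat_lit 4) (nat_lit 4) (nat_lit 4) (nat_lit 306) (nat_lit 252) (nat_lit 162)) (XT.lf (nat_lit 0) (nat_lit 140544844735) (nat_lit 152) (nat_lit 65075051818) (nat_lit 0) (nat_lit 70060233014) (nat_lit 4) (nat_lit 5) (nat_lit 6) (nat_lit 4) (nat_lit 4) (nat_lit 4) (nat_lit 307) (nat_lit 252) (nat_lit 161)))) (XT.nd (nat_lit 156) (nat_lit 76) (nat_lit 0) (XT.nd (nat_lit 78) (nat_lit 0) (nat_lit 0) (XT.lf (nat_lit 0) (nat_lit 162673157040) (nat_lit 152) (nat_lit 42009786268) (nat_lit 0) (nat_lit 92183796412) (nat_lit 4) (nat_lit 5) (nat_lit 6) (nat_lit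 4) (nat_lit 4) (nat_lit 4) (nat_lit 308) (nat_lit 252) (nat_lit 160)) (XT.lf (nat_lit 0) (nat_lit 186569595277) (nat_lit 152) (nat_lit 17102958200) (nat_lit 0) (nat_lit 116075837513) (nat_lit 4) (nat_lit 5) (nat_lit 6) (nat_lit 4) (nat_lit 4) (nat_lit 4) (nat_lit 309) (nat_lit 252) (nat_lit 159))) (XT.nd (nat_lit 78) (nat_lit 0) (nat_lit 0) (XT.lf (nat_lit 0) (nat_lit 10116830149) (nat_lit 76) (nat_lit 202416889892) (nat_lit 76) (nat_lit 131919060706) (nat_lit 3) (nat_lit 4) (nat_lit 4) (nat_lit 5) (nat_lit 4) (nat_lit 4) (nat_lit 310) (nat_lit 252) (nat_lit 158)) (XT.lf (nat_lit 0) (nat_lit 40121702202) (nat_lit 76) (nat_lit 200749310596) (nat_lit 76) (nat_lit 130247711575) (nat_lit 3) (nat_lit 4) (nat_lit 4) (nat_lit 5) (nat_lit 4) (nat_lit 4) (nat_lit 311) (nat_lit 252) (nat_lit 157)))))) (XT.nd (nat_lit 32994) (nat_lit 0) (nat_lit 3344) (XT.nd (nat_lit 312) (nat_lit 0) (nat_lit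 0) (XT.nd (nat_lit 156) (nat_lit 0) (nat_lit 0) (XT.nd (nat_lit 78) (nat_lit 0) (nat_lit 0) (XT.lf (nat_lit 0) (nat_lit 72523963571) (nat_lit 76) (nat_lit 198949580511) (nat_lit 76) (nat_lit 128444490902) (nat_lit 3) (nat_lit 4) (nat_lit 4) (nat_lit 5) (nat_lit 4) (nat_lit 4) (nat_lit 312) (nat_lit 252) (nat_lit 156)) (XT.lf (nat_lit 0) (nat_lit 107515627657) (nat_lit 76) (nat_lit 197007034570) (nat_lit 76) (nat_lit 126498712934) (nat_lit 3) (nat_lit 4) (nat_lit 4) (nat_lit 5) (nat_lit 4) (nat_lit 4) (nat_lit 313) (nat_lit 252) (nat_lit 155))) (XT.nd (nat_lit 78) (nat_lit 0) (nat_lit 0) (XT.lf (nat_lit 0) (nat_lit 145304052470) (nat_lit 76) (nat_lit 194910161388) (nat_lit 76) (nat_lit 124398847137) (nat_lit 3) (nat_lit 4) (nat_lit 4) (nat_lit 5) (nat_lit 4) (nat_lit 4) (nat_lit 314) (nat_lit 252) (nat_lit 154)) (XT.lf (nat_lit 0) (nat_lit 186113169414) (nat_lit 76) (nat_lit 192646535053)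 (nat_lit 76) (nat_lit 122132449859) (nat_lit 3) (nat_lit 4) (nat_lit 4) (nat_lit 5) (nat_lit 4) (nat_lit 4) (nat_lit 315) (nat_lit 252) (nat_lit 153)))) (XT.nd (nat_lit 156) (nat_lit 0) (nat_lit 0) (XT.nd (nat_lit 78) (nat_lit 0) (nat_lit 0) (XT.lf (nat_lit 0) (nat_lit 230184810296) (nat_lit 76) (nat_lit 190202741480) (nat_lit 76) (nat_lit 119686090600) (nat_lit 3) (nat_lit 4) (nat_lit 4) (nat_lit 5) (nat_lit 4) (nat_lit 4) (nat_lit 316) (nat_lit 252) (nat_lit 152)) (XT.lf (nat_lit 0) (nat_lit 277780140393) (nat_lit 76) (nat_lit 187564298931) (nat_lit 76) (nat_lit 117045272415) (nat_lit 3) (nat_lit 4) (nat_lit 4) (nat_lit 5) (nat_lit 4) (nat_lit 4) (nat_lit 317) (nat_lit 252) (nat_lit 151))) (XT.nd (nat_lit 32448) (nat_lit 0) (nat_lit 4180) (XT.lf (nat_lit 0) (nat_lit 329181206107) (nat_lit 76) (nat_lit 184715572190) (nat_lit 76) (nat_lit 114194346012) (nat_lit 3) (nat_lit 4) (nat_lit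 4) (nat_lit 5) (nat_lit 4) (nat_lit 4) (nat_lit 318) (nat_lit 252) (nat_lit 150)) (XT.lf (nat_lit 0) (nat_lit 1642416523) (nat_lit 684) (nat_lit 2073207975) (nat_lit 684) (nat_lit 2073207975) (nat_lit 58) (nat_lit 3) (nat_lit 67) (nat_lit 3) (nat_lit 67) (nat_lit 5) (nat_lit 253) (nat_lit 253) (nat_lit 214))))) (XT.nd (nat_lit 312) (nat_lit 836) (nat_lit 0) (XT.nd (nat_lit 156) (nat_lit 0) (nat_lit 152) (XT.nd (nat_lit 78) (nat_lit 0) (nat_lit 76) (XT.lf (nat_lit 76) (nat_lit 3136565803) (nat_lit 0) (nat_lit 1016126486) (nat_lit 684) (nat_lit 7847019075) (nat_lit 59) (nat_lit 5) (nat_lit 58) (nat_lit 3) (nat_lit 67) (nat_lit 5) (nat_lit 254) (nat_lit 253) (nat_lit 213)) (XT.lf (nat_lit 0) (nat_lit 5186827058) (nat_lit 608) (nat_lit 1437060301) (nat_lit 684) (nat_lit 5827215689) (nat_lit 59) (nat_lit 5) (nat_lit 67) (nat_lit 5) (nat_lit 68) (nat_lit 5) (nat_lit 255) (nat_lit 253) (nat_lit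 212))) (XT.nd (nat_lit 78) (nat_lit 0) (nat_lit 0) (XT.lf (nat_lit 0) (nat_lit 6368276657) (nat_lit 608) (nat_lit 6199022468) (nat_lit 684) (nat_lit 368470232) (nat_lit 60) (nat_lit 5) (nat_lit 68) (nat_lit 5) (nat_lit 69) (nat_lit 5) (nat_lit 256) (nat_lit 253) (nat_lit 211)) (XT.lf (nat_lit 76) (nat_lit 2071189993) (nat_lit 0) (nat_lit 5683248937) (nat_lit 684) (nat_lit 5699623624) (nat_lit 61) (nat_lit 5) (nat_lit 60) (nat_lit 5) (nat_lit 69) (nat_lit 5) (nat_lit 257) (nat_lit 253) (nat_lit 210)))) (XT.nd (nat_lit 156) (nat_lit 1064) (nat_lit 0) (XT.nd (nat_lit 78) (nat_lit 0) (nat_lit 0) (XT.lf (nat_lit 0) (nat_lit 9333357250) (nat_lit 608) (nat_lit 2855564098) (nat_lit 684) (nat_lit 1821141206) (nat_lit 61) (nat_lit 5) (nat_lit 69) (nat_lit 5) (nat_lit 70) (nat_lit 5) (nat_lit 258) (nat_lit 253) (nat_lit 209)) (XT.lf (nat_lit 76) (nat_lit 6424451130) (nat_lit 0) (nat_lit 4759126793)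 (nat_lit 684) (nat_lit 3420026760) (nat_lit 62) (nat_lit 5) (nat_lit 61) (nat_lit 5) (nat_lit 70) (nat_lit 5) (nat_lit 259) (nat_lit 253) (nat_lit 208))) (XT.nd (nat_lit 78) (nat_lit 532) (nat_lit 0) (XT.lf (nat_lit 0) (nat_lit 1254648784) (nat_lit 608) (nat_lit 12000509487) (nat_lit 684) (nat_lit 1986093303) (nat_lit 54) (nat_lit 5) (nat_lit 62) (nat_lit 5) (nat_lit 63) (nat_lit 5) (nat_lit 260) (nat_lit 253) (nat_lit 207)) (XT.nd (nat_lit 78) (nat_lit 532) (nat_lit 0) (XT.lf (nat_lit 0) (nat_lit 11613674025) (nat_lit 608) (nat_lit 4055374958) (nat_lit 684) (nat_lit 252299161) (nat_lit 54) (nat_lit 5) (nat_lit 62) (nat_lit 5) (nat_lit 63) (nat_lit 5) (nat_lit 261) (nat_lit 253) (nat_lit 206)) (XT.lf (nat_lit 0) (nat_lit 1696764238) (nat_lit 532) (nat_lit 10440826502) (nat_lit 76) (nat_lit 4510811357) (nat_lit 47) (nat_lit 5) (nat_lit 54) (nat_lit 5) (nat_lit 48) (nat_lit 5) (nat_lit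 262) (nat_lit 253) (nat_lit 205))))))))
noncomputable def xc78 : XT := (XT.nd (nat_lit 1248) (nat_lit 836) (nat_lit 0) (XT.nd (nat_lit 624) (nat_lit 836) (nat_lit 0) (XT.nd (nat_lit 312) (nat_lit 760) (nat_lit 0) (XT.nd (nat_lit 156) (nat_lit 304) (nat_lit 0) (XT.nd (nat_lit 78) (nat_lit 0) (nat_lit 0) (XT.lf (nat_lit 0) (nat_lit 181879858) (nat_lit 304) (nat_lit 3718844444) (nat_lit 380) (nat_lit 13527516827) (nat_lit 43) (nat_lit 5) (nat_lit 47) (nat_lit 5) (nat_lit 48) (nat_lit 5) (nat_lit 263) (nat_lit 253) (nat_lit 204)) (XT.lf (nat_lit 0) (nat_lit 6512348647) (nat_lit 380) (nat_lit 6359519636) (nat_lit 76) (nat_lit 5387233579) (nat_lit 43) (nat_lit 5) (nat_lit 48) (nat_lit 5) (nat_lit 44) (nat_lit 5) (nat_lit 264) (nat_lit 253) (nat_lit 203))) (XT.nd (nat_lit 78) (nat_lit 0) (nat_lit 0) (XT.lf (nat_lit 0) (nat_lit 5475142422) (nat_lit 304) (nat_lit 3971319384) (nat_lit 380) (nat_lit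 9704478700) (nat_lit 39) (nat_lit 5) (nat_lit 43) (nat_lit 5) (nat_lit 44) (nat_lit 5) (nat_lit 265) (nat_lit 253) (nat_lit 202)) (XT.lf (nat_lit 0) (nat_lit 12783353946) (nat_lit 380) (nat_lit 1750694441) (nat_lit 76) (nat_lit 5571848499) (nat_lit 39) (nat_lit 5) (nat_lit 44) (nat_lit 5) (nat_lit 40) (nat_lit 5) (nat_lit 266) (nat_lit 253) (nat_lit 201)))) (XT.nd (nat_lit 156) (nat_lit 304) (nat_lit 0) (XT.nd (nat_lit 78) (nat_lit 228) (nat_lit 0) (XT.lf (nat_lit 0) (nat_lit 11392866251) (nat_lit 228) (nat_lit 5208964910) (nat_lit 304) (nat_lit 4524847250) (nat_lit 36) (nat_lit 5) (nat_lit 39) (nat_lit 5) (nat_lit 40) (nat_lit 5) (nat_lit 267) (nat_lit 253) (nat_lit 200)) (XT.lf (nat_lit 0) (nat_lit 3422660039) (nat_lit 228) (nat_lit 17434955789) (nat_lit 304) (nat_lit 1365063606) (nat_lit 33) (nat_lit 5) (nat_lit 36) (nat_lit 5) (nat_lit 37) (nat_lit 5) (nat_lit 268) (nat_lit 253)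 (nat_lit 199))) (XT.nd (nat_lit 78) (nat_lit 228) (nat_lit 0) (XT.lf (nat_lit 0) (nat_lit 2214664329) (nat_lit 304) (nat_lit 5574118826) (nat_lit 76) (nat_lit 15604475201) (nat_lit 32) (nat_lit 5) (nat_lit 36) (nat_lit 5) (nat_lit 33) (nat_lit 5) (nat_lit 269) (nat_lit 253) (nat_lit 198)) (XT.lf (nat_lit 0) (nat_lit 6191399394) (nat_lit 304) (nat_lit 15751785899) (nat_lit 76) (nat_lit 2705377895) (nat_lit 29) (nat_lit 5) (nat_lit 33) (nat_lit 5) (nat_lit 30) (nat_lit 5) (nat_lit 270) (nat_lit 253) (nat_lit 197))))) (XT.nd (nat_lit 312) (nat_lit 456) (nat_lit 0) (XT.nd (nat_lit 156) (nat_lit 152) (nat_lit 0) (XT.nd (nat_lit 78) (nat_lit 228) (nat_lit 0) (XT.lf (nat_lit 0) (nat_lit 10692205742) (nat_lit 304) (nat_lit 1438337205) (nat_lit 76) (nat_lit 13863565061) (nat_lit 29) (nat_lit 5) (nat_lit 33) (nat_lit 5) (nat_lit 30) (nat_lit 5) (nat_lit 271) (nat_lit 253) (nat_lit 196)) (XT.lf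 (nat_lit 0) (nat_lit 14454708050) (nat_lit 228) (nat_lit 1301741539) (nat_lit 304) (nat_lit 11680782089) (nat_lit 26) (nat_lit 5) (nat_lit 29) (nat_lit 5) (nat_lit 30) (nat_lit 5) (nat_lit 272) (nat_lit 253) (nat_lit 195))) (XT.nd (nat_lit 78) (nat_lit 0) (nat_lit 0) (XT.lf (nat_lit 0) (nat_lit 2567547132) (nat_lit 152) (nat_lit 18864943451) (nat_lit 228) (nat_lit 7553077995) (nat_lit 24) (nat_lit 5) (nat_lit 26) (nat_lit 5) (nat_lit 27) (nat_lit 5) (nat_lit 273) (nat_lit 253) (nat_lit 194)) (XT.lf (nat_lit 0) (nat_lit 19775807649) (nat_lit 152) (nat_lit 8014536150) (nat_lit 228) (nat_lit 2856131272) (nat_lit 24) (nat_lit 5) (nat_lit 26) (nat_lit 5) (nat_lit 27) (nat_lit 5) (nat_lit 274) (nat_lit 253) (nat_lit 193)))) (XT.nd (nat_lit 156) (nat_lit 152) (nat_lit 0) (XT.nd (nat_lit 78) (nat_lit 0) (nat_lit 0) (XT.lf (nat_lit 0) (nat_lit 2281077537) (nat_lit 304) (nat_lit 26440490656)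 (nat_lit 76) (nat_lit 3710261584) (nat_lit 20) (nat_lit 5) (nat_lit 24) (nat_lit 5) (nat_lit 21) (nat_lit 5) (nat_lit 275) (nat_lit 253) (nat_lit 192)) (XT.lf (nat_lit 0) (nat_lit 8040144690) (nat_lit 304) (nat_lit 9971679278) (nat_lit 76) (nat_lit 16330373216) (nat_lit 20) (nat_lit 5) (nat_lit 24) (nat_lit 5) (nat_lit 21) (nat_lit 5) (nat_lit 276) (nat_lit 253) (nat_lit 191))) (XT.nd (nat_lit 78) (nat_lit 0) (nat_lit 0) (XT.lf (nat_lit 0) (nat_lit 8048895388) (nat_lit 152) (nat_lit 6320045422) (nat_lit 228) (nat_lit 22031070348) (nat_lit 18) (nat_lit 5) (nat_lit 20) (nat_lit 5) (nat_lit 21) (nat_lit 5) (nat_lit 277) (nat_lit 253) (nat_lit 190)) (XT.lf (nat_lit 0) (nat_lit 21463180219) (nat_lit 228) (nat_lit 10870972631) (nat_lit 76) (nat_lit 6275402783) (nat_lit 18) (nat_lit 5) (nat_lit 21) (nat_lit 5) (nat_lit 19) (nat_lit 5) (nat_lit 278) (nat_lit 253) (nat_lit 189)))))) (XT.nd (nat_lit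 624) (nat_lit 304) (nat_lit 0) (XT.nd (nat_lit 312) (nat_lit 228) (nat_lit 0) (XT.nd (nat_lit 156) (nat_lit 152) (nat_lit 0) (XT.nd (nat_lit 78) (nat_lit 0) (nat_lit 0) (XT.lf (nat_lit 0) (nat_lit 8140170934) (nat_lit 152) (nat_lit 21203743194) (nat_lit 228) (nat_lit 11641059517) (nat_lit 16) (nat_lit 5) (nat_lit 18) (nat_lit 5) (nat_lit 19) (nat_lit 5) (nat_lit 279) (nat_lit 253) (nat_lit 188)) (XT.lf (nat_lit 0) (nat_lit 29039954233) (nat_lit 152) (nat_lit 8990584625) (nat_lit 228) (nat_lit 5511168103) (nat_lit 16) (nat_lit 5) (nat_lit 18) (nat_lit 5) (nat_lit 19) (nat_lit 5) (nat_lit 280) (nat_lit 253) (nat_lit 187))) (XT.nd (nat_lit 78) (nat_lit 0) (nat_lit 0) (XT.lf (nat_lit 0) (nat_lit 1212635939) (nat_lit 152) (nat_lit 40919391668) (nat_lit 76) (nat_lit 4163181671) (nat_lit 14) (nat_lit 5) (nat_lit 16) (nat_lit 5) (nat_lit 15) (nat_lit 5) (nat_lit 281) (nat_lit 253) (nat_lit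 186)) (XT.lf (nat_lit 0) (nat_lit 8679620283) (nat_lit 152) (nat_lit 22162728388) (nat_lit 76) (nat_lit 18402251390) (nat_lit 14) (nat_lit 5) (nat_lit 16) (nat_lit 5) (nat_lit 15) (nat_lit 5) (nat_lit 282) (nat_lit 253) (nat_lit 185)))) (XT.nd (nat_lit 156) (nat_lit 76) (nat_lit 0) (XT.nd (nat_lit 78) (nat_lit 152) (nat_lit 0) (XT.lf (nat_lit 0) (nat_lit 16732323650) (nat_lit 152) (nat_lit 1923260240) (nat_lit 76) (nat_lit 33774980629) (nat_lit 14) (nat_lit 5) (nat_lit 16) (nat_lit 5) (nat_lit 15) (nat_lit 5) (nat_lit 283) (nat_lit 253) (nat_lit 184)) (XT.lf (nat_lit 0) (nat_lit 20577560820) (nat_lit 152) (nat_lit 5162178335) (nat_lit 228) (nat_lit 30116179614) (nat_lit 12) (nat_lit 5) (nat_lit 14) (nat_lit 5) (nat_lit 15) (nat_lit 5) (nat_lit 284) (nat_lit 253) (nat_lit 183))) (XT.nd (nat_lit 78) (nat_lit 76) (nat_lit 0) (XT.lf (nat_lit 0) (nat_lit 35638416610) (nat_lit 228) (nat_lit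 14770138276) (nat_lit 76) (nat_lit 9138247692) (nat_lit 12) (nat_lit 5) (nat_lit 15) (nat_lit 5) (nat_lit 13) (nat_lit 4) (nat_lit 285) (nat_lit 253) (nat_lit 182)) (XT.lf (nat_lit 0) (nat_lit 7517331991) (nat_lit 76) (nat_lit 39006520489) (nat_lit 152) (nat_lit 16999393493) (nat_lit 11) (nat_lit 5) (nat_lit 12) (nat_lit 5) (nat_lit 13) (nat_lit 4) (nat_lit 286) (nat_lit 253) (nat_lit 181))))) (XT.nd (nat_lit 312) (nat_lit 76) (nat_lit 0) (XT.nd (nat_lit 156) (nat_lit 228) (nat_lit 0) (XT.nd (nat_lit 78) (nat_lit 0) (nat_lit 0) (XT.lf (nat_lit 0) (nat_lit 32100922312) (nat_lit 76) (nat_lit 26427424662) (nat_lit 152) (nat_lit 9277076388) (nat_lit 11) (nat_lit 5) (nat_lit 12) (nat_lit 5) (nat_lit 13) (nat_lit 4) (nat_lit 287) (nat_lit 253) (nat_lit 180)) (XT.lf (nat_lit 0) (nat_lit 58637945748) (nat_lit 76) (nat_lit 12846864056) (nat_lit 152) (nat_lit 945812213) (nat_lit 11) (nat_lit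 5) (nat_lit 12) (nat_lit 5) (nat_lit 13) (nat_lit 4) (nat_lit 288) (nat_lit 253) (nat_lit 179))) (XT.nd (nat_lit 78) (nat_lit 0) (nat_lit 0) (XT.lf (nat_lit 0) (nat_lit 7976295480) (nat_lit 228) (nat_lit 67389434533) (nat_lit 76) (nat_lit 2044742374) (nat_lit 8) (nat_lit 5) (nat_lit 11) (nat_lit 5) (nat_lit 9) (nat_lit 4) (nat_lit 289) (nat_lit 253) (nat_lit 178)) (XT.lf (nat_lit 0) (nat_lit 18032705387) (nat_lit 228) (nat_lit 46793166295) (nat_lit 76) (nat_lit 17939402800) (nat_lit 8) (nat_lit 5) (nat_lit 11) (nat_lit 5) (nat_lit 9) (nat_lit 4) (nat_lit 290) (nat_lit 253) (nat_lit 177)))) (XT.nd (nat_lit 156) (nat_lit 76) (nat_lit 0) (XT.nd (nat_lit 78) (nat_lit 0) (nat_lit 0) (XT.lf (nat_lit 0) (nat_lit 28886597947) (nat_lit 228) (nat_lit 24560623650) (nat_lit 76) (nat_lit 35101611454) (nat_lit 8) (nat_lit 5) (nat_lit 11) (nat_lit 5) (nat_lit 9) (nat_lit 4) (nat_lit 291) (nat_lit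 253) (nat_lit 176)) (XT.lf (nat_lit 0) (nat_lit 40602292524) (nat_lit 228) (nat_lit 560058196) (nat_lit 76) (nat_lit 53633070314) (nat_lit 8) (nat_lit 5) (nat_lit 11) (nat_lit 5) (nat_lit 9) (nat_lit 4) (nat_lit 292) (nat_lit 253) (nat_lit 175))) (XT.nd (nat_lit 78) (nat_lit 0) (nat_lit 0) (XT.lf (nat_lit 0) (nat_lit 26188966107) (nat_lit 76) (nat_lit 27469132504) (nat_lit 152) (nat_lit 47863512480) (nat_lit 7) (nat_lit 5) (nat_lit 8) (nat_lit 5) (nat_lit 9) (nat_lit 4) (nat_lit 293) (nat_lit 253) (nat_lit 174)) (XT.nd (nat_lit 78) (nat_lit 0) (nat_lit 0) (XT.lf (nat_lit 0) (nat_lit 55088540758) (nat_lit 76) (nat_lit 12673857220) (nat_lit 152) (nat_lit 41023313446) (nat_lit 7) (nat_lit 5) (nat_lit 8) (nat_lit 5) (nat_lit 9) (nat_lit 4) (nat_lit 294) (nat_lit 253) (nat_lit 173)) (XT.lf (nat_lit 0) (nat_lit 83041286721) (nat_lit 152) (nat_lit 30391364032) (nat_lit 0) (nat_lit 3195992049)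 (nat_lit 7) (nat_lit 5) (nat_lit 9) (nat_lit 4) (nat_lit 7) (nat_lit 4) (nat_lit 295) (nat_lit 253) (nat_lit 172))))))))
noncomputable def xc79 : XT := (XT.nd (nat_lit 1326) (nat_lit 0) (nat_lit 0) (XT.nd (nat_lit 624) (nat_lit 76) (nat_lit 0) (XT.nd (nat_lit 312) (nat_lit 76) (nat_lit 0) (XT.nd (nat_lit 156) (nat_lit 76) (nat_lit 0) (XT.nd (nat_lit 78) (nat_lit 76) (nat_lit 0) (XT.lf (nat_lit 0) (nat_lit 99751232137) (nat_lit 152) (nat_lit 5443042335) (nat_lit 0) (nat_lit 19894311093) (nat_lit 7) (nat_lit 5) (nat_lit 9) (nat_lit 4) (nat_lit 7) (nat_lit 4) (nat_lit 296) (nat_lit 253) (nat_lit 171)) (XT.lf (nat_lit 0) (nat_lit 22204183294) (nat_lit 76) (nat_lit 95935867933) (nat_lit 76) (nat_lit 16068181728) (nat_lit 6) (nat_lit 4) (nat_lit 7) (nat_lit 5) (nat_lit 7) (nat_lit 4) (nat_lit 297) (nat_lit 253) (nat_lit 170))) (XT.nd (nat_lit 78) (nat_lit 76) (nat_lit 0) (XT.lf (nat_lit 0)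 (nat_lit 52250253701) (nat_lit 76) (nat_lit 85840171036) (nat_lit 76) (nat_lit 5962517091) (nat_lit 6) (nat_lit 4) (nat_lit 7) (nat_lit 5) (nat_lit 7) (nat_lit 4) (nat_lit 298) (nat_lit 253) (nat_lit 169)) (XT.lf (nat_lit 0) (nat_lit 4788999400) (nat_lit 152) (nat_lit 70069434564) (nat_lit 76) (nat_lit 79823144690) (nat_lit 5) (nat_lit 5) (nat_lit 7) (nat_lit 5) (nat_lit 6) (nat_lit 4) (nat_lit 299) (nat_lit 253) (nat_lit 168)))) (XT.nd (nat_lit 156) (nat_lit 76) (nat_lit 0) (XT.nd (nat_lit 78) (nat_lit 0) (nat_lit 0) (XT.lf (nat_lit 0) (nat_lit 16190718358) (nat_lit 152) (nat_lit 46704456429) (nat_lit 76) (nat_lit 103260505303) (nat_lit 5) (nat_lit 5) (nat_lit 7) (nat_lit 5) (nat_lit 6) (nat_lit 4) (nat_lit 300) (nat_lit 253) (nat_lit 167)) (XT.lf (nat_lit 0) (nat_lit 28501043309) (nat_lit 152) (nat_lit 21476202994) (nat_lit 76) (nat_lit 128570649091) (nat_lit 5) (nat_lit 5) (nat_lit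 7) (nat_lit 5) (nat_lit 6) (nat_lit 4) (nat_lit 301) (nat_lit 253) (nat_lit 166))) (XT.nd (nat_lit 78) (nat_lit 0) (nat_lit 0) (XT.lf (nat_lit 0) (nat_lit 5955437701) (nat_lit 76) (nat_lit 35930467697) (nat_lit 152) (nat_lit 150041105463) (nat_lit 4) (nat_lit 5) (nat_lit 5) (nat_lit 5) (nat_lit 6) (nat_lit 4) (nat_lit 302) (nat_lit 253) (nat_lit 165)) (XT.lf (nat_lit 0) (nat_lit 36343272059) (nat_lit 76) (nat_lit 20369276381) (nat_lit 152) (nat_lit 149645365392) (nat_lit 4) (nat_lit 5) (nat_lit 5) (nat_lit 5) (nat_lit 6) (nat_lit 4) (nat_lit 303) (nat_lit 253) (nat_lit 164))))) (XT.nd (nat_lit 312) (nat_lit 76) (nat_lit 0) (XT.nd (nat_lit 156) (nat_lit 0) (nat_lit 0) (XT.nd (nat_lit 78) (nat_lit 0) (nat_lit 0) (XT.lf (nat_lit 0) (nat_lit 69157275873) (nat_lit 76) (nat_lit 3565167777) (nat_lit 152) (nat_lit 149220996638) (nat_lit 4) (nat_lit 5) (nat_lit 5) (nat_lit 5) (nat_lit 6) (nat_lit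 4) (nat_lit 304) (nat_lit 253) (nat_lit 163)) (XT.lf (nat_lit 0) (nat_lit 90238121595) (nat_lit 152) (nat_lit 134411703517) (nat_lit 0) (nat_lit 14114740936) (nat_lit 4) (nat_lit 5) (nat_lit 6) (nat_lit 4) (nat_lit 4) (nat_lit 4) (nat_lit 305) (nat_lit 253) (nat_lit 162))) (XT.nd (nat_lit 78) (nat_lit 0) (nat_lit 0) (XT.lf (nat_lit 0) (nat_lit 109212674027) (nat_lit 152) (nat_lit 114631668527) (nat_lit 0) (nat_lit 33084164549) (nat_lit 4) (nat_lit 5) (nat_lit 6) (nat_lit 4) (nat_lit 4) (nat_lit 4) (nat_lit 306) (nat_lit 253) (nat_lit 161)) (XT.lf (nat_lit 0) (nat_lit 129702880477) (nat_lit 152) (nat_lit 93273182163) (nat_lit 0) (nat_lit 53569622092) (nat_lit 4) (nat_lit 5) (nat_lit 6) (nat_lit 4) (nat_lit 4) (nat_lit 4) (nat_lit 307) (nat_lit 253) (nat_lit 160)))) (XT.nd (nat_lit 156) (nat_lit 76) (nat_lit 0) (XT.nd (nat_lit 78) (nat_lit 0) (nat_lit 0) (XT.lf (nat_lit 0) (nat_lit 151830164392)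 (nat_lit 152) (nat_lit 70209675615) (nat_lit 0) (nat_lit 75692508871) (nat_lit 4) (nat_lit 5) (nat_lit 6) (nat_lit 4) (nat_lit 4) (nat_lit 4) (nat_lit 308) (nat_lit 253) (nat_lit 159)) (XT.lf (nat_lit 0) (nat_lit 175725650416) (nat_lit 152) (nat_lit 45304476254) (nat_lit 0) (nat_lit 99583923473) (nat_lit 4) (nat_lit 5) (nat_lit 6) (nat_lit 4) (nat_lit 4) (nat_lit 4) (nat_lit 309) (nat_lit 253) (nat_lit 158))) (XT.nd (nat_lit 78) (nat_lit 76) (nat_lit 0) (XT.lf (nat_lit 0) (nat_lit 201530941430) (nat_lit 152) (nat_lit 18409997712) (nat_lit 0) (nat_lit 125385444652) (nat_lit 4) (nat_lit 5) (nat_lit 6) (nat_lit 4) (nat_lit 4) (nat_lit 4) (nat_lit 310) (nat_lit 253) (nat_lit 157)) (XT.nd (nat_lit 78) (nat_lit 0) (nat_lit 0) (XT.lf (nat_lit 0) (nat_lit 10984714151) (nat_lit 76) (nat_lit 218585745698) (nat_lit 76) (nat_lit 142436758332) (nat_lit 3) (nat_lit 4) (nat_lit 4) (nat_lit 5) (nat_lit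 4) (nat_lit 4) (nat_lit 311) (nat_lit 253) (nat_lit 156)) (XT.lf (nat_lit 0) (nat_lit 43385639850) (nat_lit 76) (nat_lit 216786574531) (nat_lit 76) (nat_lit 140634355139) (nat_lit 3) (nat_lit 4) (nat_lit 4) (nat_lit 5) (nat_lit 4) (nat_lit 4) (nat_lit 312) (nat_lit 253) (nat_lit 155))))))) (XT.nd (nat_lit 33150) (nat_lit 0) (nat_lit 3040) (XT.nd (nat_lit 312) (nat_lit 0) (nat_lit 0) (XT.nd (nat_lit 156) (nat_lit 0) (nat_lit 0) (XT.nd (nat_lit 78) (nat_lit 0) (nat_lit 0) (XT.lf (nat_lit 0) (nat_lit 78376067205) (nat_lit 76) (nat_lit 214844546107) (nat_lit 76) (nat_lit 138689334098) (nat_lit 3) (nat_lit 4) (nat_lit 4) (nat_lit 5) (nat_lit 4) (nat_lit 4) (nat_lit 313) (nat_lit 253) (nat_lit 154)) (XT.lf (nat_lit 0) (nat_lit 116163346896) (nat_lit 76) (nat_lit 212748152108) (nat_lit 76) (nat_lit 136590169158) (nat_lit 3) (nat_lit 4) (nat_lit 4) (nat_lit 5) (nat_lit 4) (nat_lit 4) (nat_lit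 314) (nat_lit 253) (nat_lit 153))) (XT.nd (nat_lit 78) (nat_lit 0) (nat_lit 0) (XT.lf (nat_lit 0) (nat_lit 156971403544) (nat_lit 76) (nat_lit 210484969460) (nat_lit 76) (nat_lit 134324420823) (nat_lit 3) (nat_lit 4) (nat_lit 4) (nat_lit 5) (nat_lit 4) (nat_lit 4) (nat_lit 315) (nat_lit 253) (nat_lit 152)) (XT.lf (nat_lit 0) (nat_lit 201042062668) (nat_lit 76) (nat_lit 208041586709) (nat_lit 76) (nat_lit 131878662437) (nat_lit 3) (nat_lit 4) (nat_lit 4) (nat_lit 5) (nat_lit 4) (nat_lit 4) (nat_lit 316) (nat_lit 253) (nat_lit 151)))) (XT.nd (nat_lit 32682) (nat_lit 0) (nat_lit 4180) (XT.nd (nat_lit 32604) (nat_lit 0) (nat_lit 4180) (XT.lf (nat_lit 0) (nat_lit 248636483731) (nat_lit 76) (nat_lit 205403524550) (nat_lit 76) (nat_lit 129238400615) (nat_lit 3) (nat_lit 4) (nat_lit 4) (nat_lit 5) (nat_lit 4) (nat_lit 4) (nat_lit 317) (nat_lit 253) (nat_lit 150)) (XT.lf (nat_lit 0) (nat_lit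 2444770904) (nat_lit 684) (nat_lit 1884742563) (nat_lit 684) (nat_lit 1884742563) (nat_lit 58) (nat_lit 3) (nat_lit 67) (nat_lit 3) (nat_lit 67) (nat_lit 5) (nat_lit 254) (nat_lit 254) (nat_lit 212))) (XT.nd (nat_lit 78) (nat_lit 0) (nat_lit 76) (XT.lf (nat_lit 76) (nat_lit 4065338358) (nat_lit 0) (nat_lit 1672672890) (nat_lit 684) (nat_lit 7151364462) (nat_lit 59) (nat_lit 5) (nat_lit 58) (nat_lit 3) (nat_lit 67) (nat_lit 5) (nat_lit 255) (nat_lit 254) (nat_lit 211)) (XT.lf (nat_lit 0) (nat_lit 6753738235) (nat_lit 608) (nat_lit 850968444) (nat_lit 684) (nat_lit 5777796192) (nat_lit 59) (nat_lit 5) (nat_lit 67) (nat_lit 5) (nat_lit 68) (nat_lit 5) (nat_lit 256) (nat_lit 254) (nat_lit 210))))) (XT.nd (nat_lit 312) (nat_lit 1292) (nat_lit 0) (XT.nd (nat_lit 156) (nat_lit 0) (nat_lit 76) (XT.nd (nat_lit 78) (nat_lit 0) (nat_lit 0) (XT.lf (nat_lit 0) (nat_lit 7948496014) (nat_lit 608)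 (nat_lit 5957587649) (nat_lit 684) (nat_lit 4444409) (nat_lit 60) (nat_lit 5) (nat_lit 68) (nat_lit 5) (nat_lit 69) (nat_lit 5) (nat_lit 257) (nat_lit 254) (nat_lit 209)) (XT.lf (nat_lit 76) (nat_lit 2942197189) (nat_lit 0) (nat_lit 6435050627) (nat_lit 684) (nat_lit 5096938377) (nat_lit 61) (nat_lit 5) (nat_lit 60) (nat_lit 5) (nat_lit 69) (nat_lit 5) (nat_lit 258) (nat_lit 254) (nat_lit 208))) (XT.nd (nat_lit 78) (nat_lit 0) (nat_lit 0) (XT.lf (nat_lit 0) (nat_lit 11003928197) (nat_lit 608) (nat_lit 2374608690) (nat_lit 684) (nat_lit 1700507148) (nat_lit 61) (nat_lit 5) (nat_lit 69) (nat_lit 5) (nat_lit 70) (nat_lit 5) (nat_lit 259) (nat_lit 254) (nat_lit 207)) (XT.lf (nat_lit 76) (nat_lit 7616978073) (nat_lit 0) (nat_lit 5327345630) (nat_lit 684) (nat_lit 2779054891) (nat_lit 62) (nat_lit 5) (nat_lit 61) (nat_lit 5) (nat_lit 70) (nat_lit 5) (nat_lit 260) (nat_lit 254) (nat_lit 206))))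 (XT.nd (nat_lit 156) (nat_lit 760) (nat_lit 0) (XT.nd (nat_lit 78) (nat_lit 76) (nat_lit 0) (XT.lf (nat_lit 0) (nat_lit 2053307772) (nat_lit 608) (nat_lit 13072361975) (nat_lit 684) (nat_lit 1289551563) (nat_lit 54) (nat_lit 5) (nat_lit 62) (nat_lit 5) (nat_lit 63) (nat_lit 5) (nat_lit 261) (nat_lit 254) (nat_lit 205)) (XT.lf (nat_lit 0) (nat_lit 502951146) (nat_lit 684) (nat_lit 3971865465) (nat_lit 76) (nat_lit 12677861195) (nat_lit 53) (nat_lit 5) (nat_lit 62) (nat_lit 5) (nat_lit 54) (nat_lit 5) (nat_lit 262) (nat_lit 254) (nat_lit 204))) (XT.nd (nat_lit 78) (nat_lit 304) (nat_lit 0) (XT.lf (nat_lit 0) (nat_lit 2551379592) (nat_lit 532) (nat_lit 10588225392) (nat_lit 76) (nat_lit 4800785528) (nat_lit 47) (nat_lit 5) (nat_lit 54) (nat_lit 5) (nat_lit 48) (nat_lit 5) (nat_lit 263) (nat_lit 254) (nat_lit 203)) (XT.nd (nat_lit 78) (nat_lit 0) (nat_lit 0) (XT.lf (nat_lit 0) (nat_lit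 854403606) (nat_lit 304) (nat_lit 4034275721) (nat_lit 380) (nat_lit 13896378050) (nat_lit 43) (nat_lit 5) (nat_lit 47) (nat_lit 5) (nat_lit 48) (nat_lit 5) (nat_lit 264) (nat_lit 254) (nat_lit 202)) (XT.lf (nat_lit 0) (nat_lit 7658908059) (nat_lit 380) (nat_lit 6224118021) (nat_lit 76) (nat_lit 5802147403) (nat_lit 43) (nat_lit 5) (nat_lit 48) (nat_lit 5) (nat_lit 44) (nat_lit 5) (nat_lit 265) (nat_lit 254) (nat_lit 201))))))))
noncomputable def xc80 : XT := (XT.nd (nat_lit 1248) (nat_lit 760) (nat_lit 0) (XT.nd (nat_lit 624) (nat_lit 760) (nat_lit 0) (XT.nd (nat_lit 312) (nat_lit 532) (nat_lit 0) (XT.nd (nat_lit 156) (nat_lit 456) (nat_lit 0) (XT.nd (nat_lit 78) (nat_lit 0) (nat_lit 0) (XT.lf (nat_lit 0) (nat_lit 6529322454) (nat_lit 304) (nat_lit 4261709303) (nat_lit 380) (nat_lit 9859413604) (nat_lit 39) (nat_lit 5) (nat_lit 43) (nat_lit 5) (nat_lit 44) (nat_lit 5) (nat_lit 266)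 (nat_lit 254) (nat_lit 200)) (XT.lf (nat_lit 0) (nat_lit 14351651411) (nat_lit 380) (nat_lit 1290460599) (nat_lit 76) (nat_lit 6042079120) (nat_lit 39) (nat_lit 5) (nat_lit 44) (nat_lit 5) (nat_lit 40) (nat_lit 5) (nat_lit 267) (nat_lit 254) (nat_lit 199))) (XT.nd (nat_lit 78) (nat_lit 228) (nat_lit 0) (XT.lf (nat_lit 0) (nat_lit 12878497103) (nat_lit 228) (nat_lit 5565657621) (nat_lit 304) (nat_lit 4344267578) (nat_lit 36) (nat_lit 5) (nat_lit 39) (nat_lit 5) (nat_lit 40) (nat_lit 5) (nat_lit 268) (nat_lit 254) (nat_lit 198)) (XT.lf (nat_lit 0) (nat_lit 4271980442) (nat_lit 228) (nat_lit 18740187552) (nat_lit 304) (nat_lit 961545755) (nat_lit 33) (nat_lit 5) (nat_lit 36) (nat_lit 5) (nat_lit 37) (nat_lit 5) (nat_lit 269) (nat_lit 254) (nat_lit 197)))) (XT.nd (nat_lit 156) (nat_lit 228) (nat_lit 0) (XT.nd (nat_lit 78) (nat_lit 228) (nat_lit 0) (XT.lf (nat_lit 0) (nat_lit 2851386182)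 (nat_lit 304) (nat_lit 5469786667) (nat_lit 76) (nat_lit 16918379237) (nat_lit 32) (nat_lit 5) (nat_lit 36) (nat_lit 5) (nat_lit 33) (nat_lit 5) (nat_lit 270) (nat_lit 254) (nat_lit 196)) (XT.lf (nat_lit 0) (nat_lit 7121883265) (nat_lit 304) (nat_lit 16463313290) (nat_lit 76) (nat_lit 3011465775) (nat_lit 29) (nat_lit 5) (nat_lit 33) (nat_lit 5) (nat_lit 30) (nat_lit 5) (nat_lit 271) (nat_lit 254) (nat_lit 195))) (XT.nd (nat_lit 78) (nat_lit 228) (nat_lit 0) (XT.lf (nat_lit 0) (nat_lit 11950519164) (nat_lit 304) (nat_lit 1045426885) (nat_lit 76) (nat_lit 15055666607) (nat_lit 29) (nat_lit 5) (nat_lit 33) (nat_lit 5) (nat_lit 30) (nat_lit 5) (nat_lit 272) (nat_lit 254) (nat_lit 194)) (XT.lf (nat_lit 0) (nat_lit 16096985917) (nat_lit 228) (nat_lit 1300655700) (nat_lit 304) (nat_lit 12213796696) (nat_lit 26) (nat_lit 5) (nat_lit 29) (nat_lit 5) (nat_lit 30) (nat_lit 5) (nat_lit 273) (nat_lit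 254) (nat_lit 193))))) (XT.nd (nat_lit 312) (nat_lit 304) (nat_lit 0) (XT.nd (nat_lit 156) (nat_lit 304) (nat_lit 0) (XT.nd (nat_lit 78) (nat_lit 0) (nat_lit 0) (XT.lf (nat_lit 0) (nat_lit 3256033166) (nat_lit 152) (nat_lit 20252597931) (nat_lit 228) (nat_lit 7776096554) (nat_lit 24) (nat_lit 5) (nat_lit 26) (nat_lit 5) (nat_lit 27) (nat_lit 5) (nat_lit 274) (nat_lit 254) (nat_lit 192)) (XT.lf (nat_lit 0) (nat_lit 21805170653) (nat_lit 152) (nat_lit 8543161083) (nat_lit 228) (nat_lit 2731633181) (nat_lit 24) (nat_lit 5) (nat_lit 26) (nat_lit 5) (nat_lit 27) (nat_lit 5) (nat_lit 275) (nat_lit 254) (nat_lit 191))) (XT.nd (nat_lit 78) (nat_lit 0) (nat_lit 0) (XT.lf (nat_lit 0) (nat_lit 2788637231) (nat_lit 304) (nat_lit 28100052794) (nat_lit 76) (nat_lit 4120118406) (nat_lit 20) (nat_lit 5) (nat_lit 24) (nat_lit 5) (nat_lit 21) (nat_lit 5) (nat_lit 276) (nat_lit 254) (nat_lit 190)) (XT.lf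 (nat_lit 0) (nat_lit 8984350238) (nat_lit 304) (nat_lit 10347490366) (nat_lit 76) (nat_lit 17741465938) (nat_lit 20) (nat_lit 5) (nat_lit 24) (nat_lit 5) (nat_lit 21) (nat_lit 5) (nat_lit 277) (nat_lit 254) (nat_lit 189)))) (XT.nd (nat_lit 156) (nat_lit 152) (nat_lit 0) (XT.nd (nat_lit 78) (nat_lit 0) (nat_lit 0) (XT.lf (nat_lit 0) (nat_lit 9096394003) (nat_lit 152) (nat_lit 6707061318) (nat_lit 228) (nat_lit 23493180176) (nat_lit 18) (nat_lit 5) (nat_lit 20) (nat_lit 5) (nat_lit 21) (nat_lit 5) (nat_lit 278) (nat_lit 254) (nat_lit 188)) (XT.lf (nat_lit 0) (nat_lit 23445837168) (nat_lit 228) (nat_lit 11354435581) (nat_lit 76) (nat_lit 6883724070) (nat_lit 18) (nat_lit 5) (nat_lit 21) (nat_lit 5) (nat_lit 19) (nat_lit 5) (nat_lit 279) (nat_lit 254) (nat_lit 187))) (XT.nd (nat_lit 78) (nat_lit 0) (nat_lit 0) (XT.lf (nat_lit 0) (nat_lit 9160815043) (nat_lit 152) (nat_lit 22782308330) (nat_lit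 228) (nat_lit 12307097489) (nat_lit 16) (nat_lit 5) (nat_lit 18) (nat_lit 5) (nat_lit 19) (nat_lit 5) (nat_lit 280) (nat_lit 254) (nat_lit 186)) (XT.lf (nat_lit 0) (nat_lit 31705215788) (nat_lit 152) (nat_lit 9600818136) (nat_lit 228) (nat_lit 5706462672) (nat_lit 16) (nat_lit 5) (nat_lit 18) (nat_lit 5) (nat_lit 19) (nat_lit 5) (nat_lit 281) (nat_lit 254) (nat_lit 185)))))) (XT.nd (nat_lit 624) (nat_lit 380) (nat_lit 0) (XT.nd (nat_lit 312) (nat_lit 76) (nat_lit 0) (XT.nd (nat_lit 156) (nat_lit 152) (nat_lit 0) (XT.nd (nat_lit 78) (nat_lit 0) (nat_lit 0) (XT.lf (nat_lit 0) (nat_lit 1536733385) (nat_lit 152) (nat_lit 43847072757) (nat_lit 76) (nat_lit 4602876904) (nat_lit 14) (nat_lit 5) (nat_lit 16) (nat_lit 5) (nat_lit 15) (nat_lit 5) (nat_lit 282) (nat_lit 254) (nat_lit 184)) (XT.lf (nat_lit 0) (nat_lit 9584255250) (nat_lit 152) (nat_lit 23615496433) (nat_lit 76) (nat_lit 19973172889)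 (nat_lit 14) (nat_lit 5) (nat_lit 16) (nat_lit 5) (nat_lit 15) (nat_lit 5) (nat_lit 283) (nat_lit 254) (nat_lit 183))) (XT.nd (nat_lit 78) (nat_lit 152) (nat_lit 0) (XT.lf (nat_lit 0) (nat_lit 18265599676) (nat_lit 152) (nat_lit 1780593072) (nat_lit 76) (nat_lit 36568406290) (nat_lit 14) (nat_lit 5) (nat_lit 16) (nat_lit 5) (nat_lit 15) (nat_lit 5) (nat_lit 284) (nat_lit 254) (nat_lit 182)) (XT.lf (nat_lit 0) (nat_lit 22507406928) (nat_lit 152) (nat_lit 5476208437) (nat_lit 228) (nat_lit 32330916000) (nat_lit 12) (nat_lit 5) (nat_lit 14) (nat_lit 5) (nat_lit 15) (nat_lit 5) (nat_lit 285) (nat_lit 254) (nat_lit 181)))) (XT.nd (nat_lit 156) (nat_lit 0) (nat_lit 0) (XT.nd (nat_lit 78) (nat_lit 76) (nat_lit 0) (XT.lf (nat_lit 0) (nat_lit 38661936118) (nat_lit 228) (nat_lit 15681418456) (nat_lit 76) (nat_lit 9957990224) (nat_lit 12) (nat_lit 5) (nat_lit 15) (nat_lit 5) (nat_lit 13) (nat_lit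 4) (nat_lit 286) (nat_lit 254) (nat_lit 180)) (XT.lf (nat_lit 0) (nat_lit 8377301181) (nat_lit 76) (nat_lit 42032169083) (nat_lit 152) (nat_lit 18186913167) (nat_lit 11) (nat_lit 5) (nat_lit 12) (nat_lit 5) (nat_lit 13) (nat_lit 4) (nat_lit 287) (nat_lit 254) (nat_lit 179))) (XT.nd (nat_lit 78) (nat_lit 0) (nat_lit 0) (XT.lf (nat_lit 0) (nat_lit 34908424460) (nat_lit 76) (nat_lit 28453773224) (nat_lit 152) (nat_lit 9859583420) (nat_lit 11) (nat_lit 5) (nat_lit 12) (nat_lit 5) (nat_lit 13) (nat_lit 4) (nat_lit 288) (nat_lit 254) (nat_lit 178)) (XT.lf (nat_lit 0) (nat_lit 63550674336) (nat_lit 76) (nat_lit 13793274836) (nat_lit 152) (nat_lit 873644709) (nat_lit 11) (nat_lit 5) (nat_lit 12) (nat_lit 5) (nat_lit 13) (nat_lit 4) (nat_lit 289) (nat_lit 254) (nat_lit 177))))) (XT.nd (nat_lit 312) (nat_lit 152) (nat_lit 0) (XT.nd (nat_lit 156) (nat_lit 0) (nat_lit 0) (XT.nd (nat_lit 78) (nat_lit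 0) (nat_lit 0) (XT.lf (nat_lit 0) (nat_lit 8751554429) (nat_lit 228) (nat_lit 72557651921) (nat_lit 76) (nat_lit 2286840271) (nat_lit 8) (nat_lit 5) (nat_lit 11) (nat_lit 5) (nat_lit 9) (nat_lit 4) (nat_lit 290) (nat_lit 254) (nat_lit 176)) (XT.lf (nat_lit 0) (nat_lit 19602317476) (nat_lit 228) (nat_lit 50330196104) (nat_lit 76) (nat_lit 19447257345) (nat_lit 8) (nat_lit 5) (nat_lit 11) (nat_lit 5) (nat_lit 9) (nat_lit 4) (nat_lit 291) (nat_lit 254) (nat_lit 175))) (XT.nd (nat_lit 78) (nat_lit 0) (nat_lit 0) (XT.lf (nat_lit 0) (nat_lit 31315114356) (nat_lit 228) (nat_lit 26334340676) (nat_lit 76) (nat_lit 37977057334) (nat_lit 8) (nat_lit 5) (nat_lit 11) (nat_lit 5) (nat_lit 9) (nat_lit 4) (nat_lit 292) (nat_lit 254) (nat_lit 174)) (XT.lf (nat_lit 0) (nat_lit 43959354234) (nat_lit 228) (nat_lit 427887976) (nat_lit 76) (nat_lit 57986046461) (nat_lit 8) (nat_lit 5) (nat_lit 11) (nat_lit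 5) (nat_lit 9) (nat_lit 4) (nat_lit 293) (nat_lit 254) (nat_lit 173)))) (XT.nd (nat_lit 156) (nat_lit 76) (nat_lit 0) (XT.nd (nat_lit 78) (nat_lit 0) (nat_lit 0) (XT.lf (nat_lit 0) (nat_lit 28453367159) (nat_lit 76) (nat_lit 29600835583) (nat_lit 152) (nat_lit 51583666155) (nat_lit 7) (nat_lit 5) (nat_lit 8) (nat_lit 5) (nat_lit 9) (nat_lit 4) (nat_lit 294) (nat_lit 254) (nat_lit 172)) (XT.lf (nat_lit 0) (nat_lit 59652368244) (nat_lit 76) (nat_lit 13626814389) (nat_lit 152) (nat_lit 44204319889) (nat_lit 7) (nat_lit 5) (nat_lit 8) (nat_lit 5) (nat_lit 9) (nat_lit 4) (nat_lit 295) (nat_lit 254) (nat_lit 171))) (XT.nd (nat_lit 78) (nat_lit 76) (nat_lit 0) (XT.lf (nat_lit 0) (nat_lit 89774167843) (nat_lit 152) (nat_lit 32673730175) (nat_lit 0) (nat_lit 3506301582) (nat_lit 7) (nat_lit 5) (nat_lit 9) (nat_lit 4) (nat_lit 7) (nat_lit 4) (nat_lit 296) (nat_lit 254) (nat_lit 170)) (XT.nd (nat_lit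 78) (nat_lit 76) (nat_lit 0) (XT.lf (nat_lit 0) (nat_lit 107814273472) (nat_lit 152) (nat_lit 5740575555) (nat_lit 0) (nat_lit 21536439470) (nat_lit 7) (nat_lit 5) (nat_lit 9) (nat_lit 4) (nat_lit 7) (nat_lit 4) (nat_lit 297) (nat_lit 254) (nat_lit 169)) (XT.lf (nat_lit 0) (nat_lit 24112434716) (nat_lit 76) (nat_lit 103557679054) (nat_lit 76) (nat_lit 17270615663) (nat_lit 6) (nat_lit 4) (nat_lit 7) (nat_lit 5) (nat_lit 7) (nat_lit 4) (nat_lit 298) (nat_lit 254) (nat_lit 168))))))))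
noncomputable def xc81 : XT := (XT.nd (nat_lit 1248) (nat_lit 0) (nat_lit 0) (XT.nd (nat_lit 624) (nat_lit 76) (nat_lit 0) (XT.nd (nat_lit 312) (nat_lit 76) (nat_lit 0) (XT.nd (nat_lit 156) (nat_lit 0) (nat_lit 0) (XT.nd (nat_lit 78) (nat_lit 76) (nat_lit 0) (XT.lf (nat_lit 0) (nat_lit 56552419144) (nat_lit 76) (nat_lit 92658256651) (nat_lit 76) (nat_lit 6362647529) (nat_lit 6) (nat_lit 4) (nat_lit 7) (nat_lit 5) (nat_lit 7) (nat_lit 4) (nat_lit 299) (nat_lit 254) (nat_lit 167)) (XT.lf (nat_lit 0) (nat_lit 5241018037) (nat_lit 152) (nat_lit 75559434859) (nat_lit 76) (nat_lit 86252028107) (nat_lit 5) (nat_lit 5) (nat_lit 7) (nat_lit 5) (nat_lit 6) (nat_lit 4) (nat_lit 300) (nat_lit 254) (nat_lit 166))) (XT.nd (nat_lit 78) (nat_lit 0) (nat_lit 0) (XT.lf (nat_lit 0) (nat_lit 17549770906) (nat_lit 152) (nat_lit 50333818065) (nat_lit 76) (nat_lit 111561190024) (nat_lit 5) (nat_lit 5) (nat_lit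 7) (nat_lit 5) (nat_lit 6) (nat_lit 4) (nat_lit 301) (nat_lit 254) (nat_lit 165)) (XT.lf (nat_lit 0) (nat_lit 30840196291) (nat_lit 152) (nat_lit 23095229902) (nat_lit 76) (nat_lit 138893193886) (nat_lit 5) (nat_lit 5) (nat_lit 7) (nat_lit 5) (nat_lit 6) (nat_lit 4) (nat_lit 302) (nat_lit 254) (nat_lit 164)))) (XT.nd (nat_lit 156) (nat_lit 0) (nat_lit 0) (XT.nd (nat_lit 78) (nat_lit 0) (nat_lit 0) (XT.lf (nat_lit 0) (nat_lit 6526636617) (nat_lit 76) (nat_lit 38766314740) (nat_lit 152) (nat_lit 161985269593) (nat_lit 4) (nat_lit 5) (nat_lit 5) (nat_lit 5) (nat_lit 6) (nat_lit 4) (nat_lit 303) (nat_lit 254) (nat_lit 163)) (XT.lf (nat_lit 0) (nat_lit 39338478175) (nat_lit 76) (nat_lit 21963086665) (nat_lit 152) (nat_lit 161562249895) (nat_lit 4) (nat_lit 5) (nat_lit 5) (nat_lit 5) (nat_lit 6) (nat_lit 4) (nat_lit 304) (nat_lit 254) (nat_lit 162))) (XT.nd (nat_lit 78) (nat_lit 0) (nat_lit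 0) (XT.lf (nat_lit 0) (nat_lit 74771102713) (nat_lit 76) (nat_lit 3817296175) (nat_lit 152) (nat_lit 161107986805) (nat_lit 4) (nat_lit 5) (nat_lit 5) (nat_lit 5) (nat_lit 6) (nat_lit 4) (nat_lit 305) (nat_lit 254) (nat_lit 161)) (XT.lf (nat_lit 0) (nat_lit 97502241967) (nat_lit 152) (nat_lit 145087549023) (nat_lit 0) (nat_lit 15273574005) (nat_lit 4) (nat_lit 5) (nat_lit 6) (nat_lit 4) (nat_lit 4) (nat_lit 4) (nat_lit 306) (nat_lit 254) (nat_lit 160))))) (XT.nd (nat_lit 312) (nat_lit 76) (nat_lit 0) (XT.nd (nat_lit 156) (nat_lit 0) (nat_lit 0) (XT.nd (nat_lit 78) (nat_lit 0) (nat_lit 0) (XT.lf (nat_lit 0) (nat_lit 117991420027) (nat_lit 152) (nat_lit 123730821661) (nat_lit 0) (nat_lit 35758354929) (nat_lit 4) (nat_lit 5) (nat_lit 6) (nat_lit 4) (nat_lit 4) (nat_lit 4) (nat_lit 307) (nat_lit 254) (nat_lit 159)) (XT.lf (nat_lit 0) (nat_lit 140117751728) (nat_lit 152) (nat_lit 100668943821)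 (nat_lit 0) (nat_lit 57880615208) (nat_lit 4) (nat_lit 5) (nat_lit 6) (nat_lit 4) (nat_lit 4) (nat_lit 4) (nat_lit 308) (nat_lit 254) (nat_lit 158))) (XT.nd (nat_lit 78) (nat_lit 0) (nat_lit 0) (XT.lf (nat_lit 0) (nat_lit 164012356073) (nat_lit 152) (nat_lit 75765252521) (nat_lit 0) (nat_lit 81771449718) (nat_lit 4) (nat_lit 5) (nat_lit 6) (nat_lit 4) (nat_lit 4) (nat_lit 4) (nat_lit 309) (nat_lit 254) (nat_lit 157)) (XT.lf (nat_lit 0) (nat_lit 189816830718) (nat_lit 152) (nat_lit 48872170333) (nat_lit 0) (nat_lit 107572433774) (nat_lit 4) (nat_lit 5) (nat_lit 6) (nat_lit 4) (nat_lit 4) (nat_lit 4) (nat_lit 310) (nat_lit 254) (nat_lit 156)))) (XT.nd (nat_lit 156) (nat_lit 0) (nat_lit 0) (XT.nd (nat_lit 78) (nat_lit 76) (nat_lit 0) (XT.lf (nat_lit 0) (nat_lit 217684091067) (nat_lit 152) (nat_lit 19830330842) (nat_lit 0) (nat_lit 135436462097) (nat_lit 4) (nat_lit 5) (nat_lit 6) (nat_lit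 4) (nat_lit 4) (nat_lit 4) (nat_lit 311) (nat_lit 254) (nat_lit 155)) (XT.lf (nat_lit 0) (nat_lit 11913677831) (nat_lit 76) (nat_lit 236051604508) (nat_lit 76) (nat_lit 153800982922) (nat_lit 3) (nat_lit 4) (nat_lit 4) (nat_lit 5) (nat_lit 4) (nat_lit 4) (nat_lit 312) (nat_lit 254) (nat_lit 154))) (XT.nd (nat_lit 78) (nat_lit 0) (nat_lit 0) (XT.lf (nat_lit 0) (nat_lit 46902960065) (nat_lit 76) (nat_lit 234110055267) (nat_lit 76) (nat_lit 151856662739) (nat_lit 3) (nat_lit 4) (nat_lit 4) (nat_lit 5) (nat_lit 4) (nat_lit 4) (nat_lit 313) (nat_lit 254) (nat_lit 153)) (XT.lf (nat_lit 0) (nat_lit 84689179458) (nat_lit 76) (nat_lit 232014104956) (nat_lit 76) (nat_lit 149758146742) (nat_lit 3) (nat_lit 4) (nat_lit 4) (nat_lit 5) (nat_lit 4) (nat_lit 4) (nat_lit 314) (nat_lit 254) (nat_lit 152)))))) (XT.nd (nat_lit 33228) (nat_lit 0) (nat_lit 2736) (XT.nd (nat_lit 32916) (nat_lit 0) (nat_lit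 4180) (XT.nd (nat_lit 156) (nat_lit 0) (nat_lit 0) (XT.nd (nat_lit 78) (nat_lit 0) (nat_lit 0) (XT.lf (nat_lit 0) (nat_lit 125496254348) (nat_lit 76) (nat_lit 229751333129) (nat_lit 76) (nat_lit 147492999279) (nat_lit 3) (nat_lit 4) (nat_lit 4) (nat_lit 5) (nat_lit 4) (nat_lit 4) (nat_lit 315) (nat_lit 254) (nat_lit 151)) (XT.lf (nat_lit 0) (nat_lit 169566004439) (nat_lit 76) (nat_lit 227308330769) (nat_lit 76) (nat_lit 145047797256) (nat_lit 3) (nat_lit 4) (nat_lit 4) (nat_lit 5) (nat_lit 4) (nat_lit 4) (nat_lit 316) (nat_lit 254) (nat_lit 150))) (XT.nd (nat_lit 32682) (nat_lit 0) (nat_lit 4180) (XT.lf (nat_lit 0) (nat_lit 217159583803) (nat_lit 76) (nat_lit 224670620824) (nat_lit 76) (nat_lit 142408050586) (nat_lit 3) (nat_lit 4) (nat_lit 4) (nat_lit 5) (nat_lit 4) (nat_lit 4) (nat_lit 317) (nat_lit 254) (nat_lit 149)) (XT.lf (nat_lit 0) (nat_lit 3215593540) (nat_lit 684) (nat_lit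 1731747920) (nat_lit 684) (nat_lit 1731747920) (nat_lit 58) (nat_lit 3) (nat_lit 67) (nat_lit 3) (nat_lit 67) (nat_lit 5) (nat_lit 255) (nat_lit 255) (nat_lit 210)))) (XT.nd (nat_lit 156) (nat_lit 0) (nat_lit 76) (XT.nd (nat_lit 78) (nat_lit 0) (nat_lit 76) (XT.lf (nat_lit 76) (nat_lit 4971710223) (nat_lit 0) (nat_lit 2299676267) (nat_lit 684) (nat_lit 6588857589) (nat_lit 59) (nat_lit 5) (nat_lit 58) (nat_lit 3) (nat_lit 67) (nat_lit 5) (nat_lit 256) (nat_lit 255) (nat_lit 209)) (XT.lf (nat_lit 0) (nat_lit 8281661619) (nat_lit 608) (nat_lit 318002812) (nat_lit 684) (nat_lit 5797978776) (nat_lit 59) (nat_lit 5) (nat_lit 67) (nat_lit 5) (nat_lit 68) (nat_lit 5) (nat_lit 257) (nat_lit 255) (nat_lit 208))) (XT.nd (nat_lit 78) (nat_lit 0) (nat_lit 76) (XT.lf (nat_lit 76) (nat_lit 9164179454) (nat_lit 0) (nat_lit 343561941) (nat_lit 684) (nat_lit 5463832233) (nat_lit 60) (nat_lit 5) (nat_lit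 59) (nat_lit 5) (nat_lit 68) (nat_lit 5) (nat_lit 258) (nat_lit 255) (nat_lit 207)) (XT.lf (nat_lit 76) (nat_lit 3782264319) (nat_lit 0) (nat_lit 7204605856) (nat_lit 684) (nat_lit 4597067300) (nat_lit 61) (nat_lit 5) (nat_lit 60) (nat_lit 5) (nat_lit 69) (nat_lit 5) (nat_lit 259) (nat_lit 255) (nat_lit 206))))) (XT.nd (nat_lit 312) (nat_lit 1064) (nat_lit 0) (XT.nd (nat_lit 156) (nat_lit 608) (nat_lit 0) (XT.nd (nat_lit 78) (nat_lit 0) (nat_lit 0) (XT.lf (nat_lit 0) (nat_lit 12676339817) (nat_lit 608) (nat_lit 1956380767) (nat_lit 684) (nat_lit 1608216655) (nat_lit 61) (nat_lit 5) (nat_lit 69) (nat_lit 5) (nat_lit 70) (nat_lit 5) (nat_lit 260) (nat_lit 255) (nat_lit 205)) (XT.lf (nat_lit 76) (nat_lit 8808101453) (nat_lit 0) (nat_lit 5914274616) (nat_lit 684) (nat_lit 2217279479) (nat_lit 62) (nat_lit 5) (nat_lit 61) (nat_lit 5) (nat_lit 70) (nat_lit 5) (nat_lit 261) (nat_lit 255) (nat_lit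 204))) (XT.nd (nat_lit 78) (nat_lit 76) (nat_lit 0) (XT.lf (nat_lit 0) (nat_lit 2816241019) (nat_lit 608) (nat_lit 14214011468) (nat_lit 684) (nat_lit 659323023) (nat_lit 54) (nat_lit 5) (nat_lit 62) (nat_lit 5) (nat_lit 63) (nat_lit 5) (nat_lit 262) (nat_lit 255) (nat_lit 203)) (XT.lf (nat_lit 0) (nat_lit 1200520127) (nat_lit 684) (nat_lit 3709909318) (nat_lit 76) (nat_lit 13577947753) (nat_lit 53) (nat_lit 5) (nat_lit 62) (nat_lit 5) (nat_lit 54) (nat_lit 5) (nat_lit 263) (nat_lit 255) (nat_lit 202)))) (XT.nd (nat_lit 156) (nat_lit 304) (nat_lit 0) (XT.nd (nat_lit 78) (nat_lit 304) (nat_lit 0) (XT.lf (nat_lit 0) (nat_lit 3371808730) (nat_lit 532) (nat_lit 10845548143) (nat_lit 76) (nat_lit 5124070988) (nat_lit 47) (nat_lit 5) (nat_lit 54) (nat_lit 5) (nat_lit 48) (nat_lit 5) (nat_lit 264) (nat_lit 255) (nat_lit 201)) (XT.lf (nat_lit 0) (nat_lit 1486861998) (nat_lit 304) (nat_lit 4372384481)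 (nat_lit 380) (nat_lit 14396514114) (nat_lit 43) (nat_lit 5) (nat_lit 47) (nat_lit 5) (nat_lit 48) (nat_lit 5) (nat_lit 265) (nat_lit 255) (nat_lit 200))) (XT.nd (nat_lit 78) (nat_lit 304) (nat_lit 0) (XT.lf (nat_lit 0) (nat_lit 8807947452) (nat_lit 380) (nat_lit 6169781356) (nat_lit 76) (nat_lit 6252546166) (nat_lit 43) (nat_lit 5) (nat_lit 48) (nat_lit 5) (nat_lit 44) (nat_lit 5) (nat_lit 266) (nat_lit 255) (nat_lit 199)) (XT.nd (nat_lit 78) (nat_lit 0) (nat_lit 0) (XT.lf (nat_lit 0) (nat_lit 7579933545) (nat_lit 304) (nat_lit 4579227296) (nat_lit 380) (nat_lit 10115396295) (nat_lit 39) (nat_lit 5) (nat_lit 43) (nat_lit 5) (nat_lit 44) (nat_lit 5) (nat_lit 267) (nat_lit 255) (nat_lit 198)) (XT.lf (nat_lit 0) (nat_lit 15967572575) (nat_lit 380) (nat_lit 879046043) (nat_lit 76) (nat_lit 6546435454) (nat_lit 39) (nat_lit 5) (nat_lit 44) (nat_lit 5) (nat_lit 40) (nat_lit 5) (nat_lit 268)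 (nat_lit 255) (nat_lit 197))))))))
noncomputable def xc82 : XT := (XT.nd (nat_lit 1248) (nat_lit 684) (nat_lit 0) (XT.nd (nat_lit 624) (nat_lit 760) (nat_lit 0) (XT.nd (nat_lit 312) (nat_lit 380) (nat_lit 0) (XT.nd (nat_lit 156) (nat_lit 304) (nat_lit 0) (XT.nd (nat_lit 78) (nat_lit 228) (nat_lit 0) (XT.lf (nat_lit 0) (nat_lit 14401062153) (nat_lit 228) (nat_lit 5959448913) (nat_lit 304) (nat_lit 4226644845) (nat_lit 36) (nat_lit 5) (nat_lit 39) (nat_lit 5) (nat_lit 40) (nat_lit 5) (nat_lit 269) (nat_lit 255) (nat_lit 196)) (XT.lf (nat_lit 0) (nat_lit 5107143883) (nat_lit 228) (nat_lit 20162615261) (nat_lit 304) (nat_lit 598892136) (nat_lit 33) (nat_lit 5) (nat_lit 36) (nat_lit 5) (nat_lit 37) (nat_lit 5) (nat_lit 270) (nat_lit 255) (nat_lit 195))) (XT.nd (nat_lit 78) (nat_lit 228) (nat_lit 0) (XT.lf (nat_lit 0) (nat_lit 3473486022) (nat_lit 304) (nat_lit 5435608914) (nat_lit 76) (nat_lit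 18328044724) (nat_lit 32) (nat_lit 5) (nat_lit 36) (nat_lit 5) (nat_lit 33) (nat_lit 5) (nat_lit 271) (nat_lit 255) (nat_lit 194)) (XT.lf (nat_lit 0) (nat_lit 8064723707) (nat_lit 304) (nat_lit 17310029004) (nat_lit 76) (nat_lit 3329250019) (nat_lit 29) (nat_lit 5) (nat_lit 33) (nat_lit 5) (nat_lit 30) (nat_lit 5) (nat_lit 272) (nat_lit 255) (nat_lit 193)))) (XT.nd (nat_lit 156) (nat_lit 152) (nat_lit 0) (XT.nd (nat_lit 78) (nat_lit 228) (nat_lit 0) (XT.lf (nat_lit 0) (nat_lit 13252014198) (nat_lit 304) (nat_lit 693552379) (nat_lit 76) (nat_lit 16331293067) (nat_lit 29) (nat_lit 5) (nat_lit 33) (nat_lit 5) (nat_lit 30) (nat_lit 5) (nat_lit 273) (nat_lit 255) (nat_lit 192)) (XT.lf (nat_lit 0) (nat_lit 17801326772) (nat_lit 228) (nat_lit 1314494539) (nat_lit 304) (nat_lit 12846723510) (nat_lit 26) (nat_lit 5) (nat_lit 29) (nat_lit 5) (nat_lit 30) (nat_lit 5) (nat_lit 274) (nat_lit 255)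 (nat_lit 191))) (XT.nd (nat_lit 78) (nat_lit 0) (nat_lit 0) (XT.lf (nat_lit 0) (nat_lit 3930680998) (nat_lit 152) (nat_lit 21768603951) (nat_lit 228) (nat_lit 8071342988) (nat_lit 24) (nat_lit 5) (nat_lit 26) (nat_lit 5) (nat_lit 27) (nat_lit 5) (nat_lit 275) (nat_lit 255) (nat_lit 190)) (XT.lf (nat_lit 0) (nat_lit 23933070582) (nat_lit 152) (nat_lit 9130130808) (nat_lit 228) (nat_lit 2647533011) (nat_lit 24) (nat_lit 5) (nat_lit 26) (nat_lit 5) (nat_lit 27) (nat_lit 5) (nat_lit 276) (nat_lit 255) (nat_lit 189))))) (XT.nd (nat_lit 312) (nat_lit 304) (nat_lit 0) (XT.nd (nat_lit 156) (nat_lit 152) (nat_lit 0) (XT.nd (nat_lit 78) (nat_lit 0) (nat_lit 0) (XT.lf (nat_lit 0) (nat_lit 3290426332) (nat_lit 304) (nat_lit 29957387338) (nat_lit 76) (nat_lit 4546637939) (nat_lit 20) (nat_lit 5) (nat_lit 24) (nat_lit 5) (nat_lit 21) (nat_lit 5) (nat_lit 277) (nat_lit 255) (nat_lit 188)) (XT.lf (nat_lit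 0) (nat_lit 9961152075) (nat_lit 304) (nat_lit 10813558410) (nat_lit 76) (nat_lit 19250514751) (nat_lit 20) (nat_lit 5) (nat_lit 24) (nat_lit 5) (nat_lit 21) (nat_lit 5) (nat_lit 278) (nat_lit 255) (nat_lit 187))) (XT.nd (nat_lit 78) (nat_lit 0) (nat_lit 0) (XT.lf (nat_lit 0) (nat_lit 10170116312) (nat_lit 152) (nat_lit 7141956353) (nat_lit 228) (nat_lit 25115110756) (nat_lit 18) (nat_lit 5) (nat_lit 20) (nat_lit 5) (nat_lit 21) (nat_lit 5) (nat_lit 279) (nat_lit 255) (nat_lit 186)) (XT.lf (nat_lit 0) (nat_lit 25549215502) (nat_lit 228) (nat_lit 11931673434) (nat_lit 76) (nat_lit 7525547736) (nat_lit 18) (nat_lit 5) (nat_lit 21) (nat_lit 5) (nat_lit 19) (nat_lit 5) (nat_lit 280) (nat_lit 255) (nat_lit 185)))) (XT.nd (nat_lit 156) (nat_lit 152) (nat_lit 0) (XT.nd (nat_lit 78) (nat_lit 0) (nat_lit 0) (XT.lf (nat_lit 0) (nat_lit 10210407298) (nat_lit 152) (nat_lit 24503954793) (nat_lit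 228) (nat_lit 13064258919) (nat_lit 16) (nat_lit 5) (nat_lit 18) (nat_lit 5) (nat_lit 19) (nat_lit 5) (nat_lit 281) (nat_lit 255) (nat_lit 184)) (XT.lf (nat_lit 0) (nat_lit 34534898841) (nat_lit 152) (nat_lit 10275422288) (nat_lit 228) (nat_lit 5952418233) (nat_lit 16) (nat_lit 5) (nat_lit 18) (nat_lit 5) (nat_lit 19) (nat_lit 5) (nat_lit 282) (nat_lit 255) (nat_lit 183))) (XT.nd (nat_lit 78) (nat_lit 0) (nat_lit 0) (XT.lf (nat_lit 0) (nat_lit 1854362190) (nat_lit 152) (nat_lit 47058310590) (nat_lit 76) (nat_lit 5062534267) (nat_lit 14) (nat_lit 5) (nat_lit 16) (nat_lit 5) (nat_lit 15) (nat_lit 5) (nat_lit 283) (nat_lit 255) (nat_lit 182)) (XT.lf (nat_lit 0) (nat_lit 10531264313) (nat_lit 152) (nat_lit 25230173196) (nat_lit 76) (nat_lit 21655681545) (nat_lit 14) (nat_lit 5) (nat_lit 16) (nat_lit 5) (nat_lit 15) (nat_lit 5) (nat_lit 284) (nat_lit 255) (nat_lit 181)))))) (XT.nd (nat_lit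 624) (nat_lit 228) (nat_lit 0) (XT.nd (nat_lit 312) (nat_lit 228) (nat_lit 0) (XT.nd (nat_lit 156) (nat_lit 76) (nat_lit 0) (XT.nd (nat_lit 78) (nat_lit 152) (nat_lit 0) (XT.lf (nat_lit 0) (nat_lit 19893763059) (nat_lit 152) (nat_lit 1668815563) (nat_lit 76) (nat_lit 39572262890) (nat_lit 14) (nat_lit 5) (nat_lit 16) (nat_lit 5) (nat_lit 15) (nat_lit 5) (nat_lit 285) (nat_lit 255) (nat_lit 180)) (XT.lf (nat_lit 0) (nat_lit 24551176130) (nat_lit 152) (nat_lit 5829476438) (nat_lit 228) (nat_lit 34750587168) (nat_lit 12) (nat_lit 5) (nat_lit 14) (nat_lit 5) (nat_lit 15) (nat_lit 5) (nat_lit 286) (nat_lit 255) (nat_lit 179))) (XT.nd (nat_lit 78) (nat_lit 76) (nat_lit 0) (XT.lf (nat_lit 0) (nat_lit 41902735810) (nat_lit 228) (nat_lit 16704166773) (nat_lit 76) (nat_lit 10830660578) (nat_lit 12) (nat_lit 5) (nat_lit 15) (nat_lit 5) (nat_lit 13) (nat_lit 4) (nat_lit 287) (nat_lit 255) (nat_lit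 178)) (XT.lf (nat_lit 0) (nat_lit 9269178204) (nat_lit 76) (nat_lit 45313404266) (nat_lit 152) (nat_lit 19494033740) (nat_lit 11) (nat_lit 5) (nat_lit 12) (nat_lit 5) (nat_lit 13) (nat_lit 4) (nat_lit 288) (nat_lit 255) (nat_lit 177)))) (XT.nd (nat_lit 156) (nat_lit 228) (nat_lit 0) (XT.nd (nat_lit 78) (nat_lit 0) (nat_lit 0) (XT.lf (nat_lit 0) (nat_lit 37906369646) (nat_lit 76) (nat_lit 30654761800) (nat_lit 152) (nat_lit 10511468167) (nat_lit 11) (nat_lit 5) (nat_lit 12) (nat_lit 5) (nat_lit 13) (nat_lit 4) (nat_lit 289) (nat_lit 255) (nat_lit 176)) (XT.lf (nat_lit 0) (nat_lit 68824794236) (nat_lit 76) (nat_lit 14827002303) (nat_lit 152) (nat_lit 816793762) (nat_lit 11) (nat_lit 5) (nat_lit 12) (nat_lit 5) (nat_lit 13) (nat_lit 4) (nat_lit 290) (nat_lit 255) (nat_lit 175))) (XT.nd (nat_lit 78) (nat_lit 0) (nat_lit 0) (XT.lf (nat_lit 0) (nat_lit 9569267356) (nat_lit 228) (nat_lit 78171131209)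 (nat_lit 76) (nat_lit 2537104457) (nat_lit 8) (nat_lit 5) (nat_lit 11) (nat_lit 5) (nat_lit 9) (nat_lit 4) (nat_lit 291) (nat_lit 255) (nat_lit 174)) (XT.lf (nat_lit 0) (nat_lit 21279381182) (nat_lit 228) (nat_lit 54179636917) (nat_lit 76) (nat_lit 21065368455) (nat_lit 8) (nat_lit 5) (nat_lit 11) (nat_lit 5) (nat_lit 9) (nat_lit 4) (nat_lit 292) (nat_lit 255) (nat_lit 173))))) (XT.nd (nat_lit 312) (nat_lit 152) (nat_lit 0) (XT.nd (nat_lit 156) (nat_lit 76) (nat_lit 0) (XT.nd (nat_lit 78) (nat_lit 0) (nat_lit 0) (XT.lf (nat_lit 0) (nat_lit 33921136752) (nat_lit 228) (nat_lit 28277222305) (nat_lit 76) (nat_lit 41072935368) (nat_lit 8) (nat_lit 5) (nat_lit 11) (nat_lit 5) (nat_lit 9) (nat_lit 4) (nat_lit 293) (nat_lit 255) (nat_lit 172)) (XT.lf (nat_lit 0) (nat_lit 47569448173) (nat_lit 228) (nat_lit 310391583) (nat_lit 76) (nat_lit 62678368554) (nat_lit 8) (nat_lit 5) (nat_lit 11) (nat_lit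 5) (nat_lit 9) (nat_lit 4) (nat_lit 294) (nat_lit 255) (nat_lit 171))) (XT.nd (nat_lit 78) (nat_lit 0) (nat_lit 0) (XT.lf (nat_lit 0) (nat_lit 30874770074) (nat_lit 76) (nat_lit 31912465941) (nat_lit 152) (nat_lit 55616971825) (nat_lit 7) (nat_lit 5) (nat_lit 8) (nat_lit 5) (nat_lit 9) (nat_lit 4) (nat_lit 295) (nat_lit 255) (nat_lit 170)) (XT.lf (nat_lit 0) (nat_lit 64558940613) (nat_lit 76) (nat_lit 14664703532) (nat_lit 152) (nat_lit 47654195460) (nat_lit 7) (nat_lit 5) (nat_lit 8) (nat_lit 5) (nat_lit 9) (nat_lit 4) (nat_lit 296) (nat_lit 255) (nat_lit 169)))) (XT.nd (nat_lit 156) (nat_lit 152) (nat_lit 0) (XT.nd (nat_lit 78) (nat_lit 0) (nat_lit 0) (XT.lf (nat_lit 0) (nat_lit 97032900125) (nat_lit 152) (nat_lit 35159933990) (nat_lit 0) (nat_lit 3833642273) (nat_lit 7) (nat_lit 5) (nat_lit 9) (nat_lit 4) (nat_lit 7) (nat_lit 4) (nat_lit 297) (nat_lit 255) (nat_lit 168)) (XT.lf (nat_lit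 0) (nat_lit 116510525400) (nat_lit 152) (nat_lit 6081585860) (nat_lit 0) (nat_lit 23302721817) (nat_lit 7) (nat_lit 5) (nat_lit 9) (nat_lit 4) (nat_lit 7) (nat_lit 4) (nat_lit 298) (nat_lit 255) (nat_lit 167))) (XT.nd (nat_lit 78) (nat_lit 76) (nat_lit 0) (XT.lf (nat_lit 0) (nat_lit 26154526851) (nat_lit 76) (nat_lit 111796804427) (nat_lit 76) (nat_lit 18581088130) (nat_lit 6) (nat_lit 4) (nat_lit 7) (nat_lit 5) (nat_lit 7) (nat_lit 4) (nat_lit 299) (nat_lit 255) (nat_lit 166)) (XT.nd (nat_lit 78) (nat_lit 76) (nat_lit 0) (XT.lf (nat_lit 0) (nat_lit 61181332452) (nat_lit 76) (nat_lit 100028797783) (nat_lit 76) (nat_lit 6805754900) (nat_lit 6) (nat_lit 4) (nat_lit 7) (nat_lit 5) (nat_lit 7) (nat_lit 4) (nat_lit 300) (nat_lit 255) (nat_lit 165)) (XT.lf (nat_lit 0) (nat_lit 5719368997) (nat_lit 152) (nat_lit 81505120316) (nat_lit 76) (nat_lit 93189083223) (nat_lit 5) (nat_lit 5) (nat_lit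 7) (nat_lit 5) (nat_lit 6) (nat_lit 4) (nat_lit 301) (nat_lit 255) (nat_lit 164))))))))
noncomputable def xc83 : XT := (XT.nd (nat_lit 34008) (nat_lit 0) (nat_lit 1976) (XT.nd (nat_lit 624) (nat_lit 76) (nat_lit 0) (XT.nd (nat_lit 312) (nat_lit 0) (nat_lit 0) (XT.nd (nat_lit 156) (nat_lit 76) (nat_lit 0) (XT.nd (nat_lit 78) (nat_lit 0) (nat_lit 0) (XT.lf (nat_lit 0) (nat_lit 19008446575) (nat_lit 152) (nat_lit 54268792647) (nat_lit 76) (nat_lit 120520245289) (nat_lit 5) (nat_lit 5) (nat_lit 7) (nat_lit 5) (nat_lit 6) (nat_lit 4) (nat_lit 302) (nat_lit 255) (nat_lit 163)) (XT.lf (nat_lit 0) (nat_lit 33358054585) (nat_lit 152) (nat_lit 24857912309) (nat_lit 76) (nat_lit 150036279084) (nat_lit 5) (nat_lit 5) (nat_lit 7) (nat_lit 5) (nat_lit 6) (nat_lit 4) (nat_lit 303) (nat_lit 255) (nat_lit 162))) (XT.nd (nat_lit 78) (nat_lit 0) (nat_lit 0) (XT.lf (nat_lit 0) (nat_lit 7130012316) (nat_lit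 76) (nat_lit 41834534895) (nat_lit 152) (nat_lit 174893401596) (nat_lit 4) (nat_lit 5) (nat_lit 5) (nat_lit 5) (nat_lit 6) (nat_lit 4) (nat_lit 304) (nat_lit 255) (nat_lit 161)) (XT.lf (nat_lit 0) (nat_lit 42560783068) (nat_lit 76) (nat_lit 23689499316) (nat_lit 152) (nat_lit 174440295106) (nat_lit 4) (nat_lit 5) (nat_lit 5) (nat_lit 5) (nat_lit 6) (nat_lit 4) (nat_lit 305) (nat_lit 255) (nat_lit 160)))) (XT.nd (nat_lit 156) (nat_lit 0) (nat_lit 0) (XT.nd (nat_lit 78) (nat_lit 0) (nat_lit 0) (XT.lf (nat_lit 0) (nat_lit 80822445225) (nat_lit 76) (nat_lit 4094314793) (nat_lit 152) (nat_lit 173953167619) (nat_lit 4) (nat_lit 5) (nat_lit 5) (nat_lit 5) (nat_lit 6) (nat_lit 4) (nat_lit 306) (nat_lit 255) (nat_lit 159)) (XT.lf (nat_lit 0) (nat_lit 105341062137) (nat_lit 152) (nat_lit 156628460030) (nat_lit 0) (nat_lit 16520883273) (nat_lit 4) (nat_lit 5) (nat_lit 6) (nat_lit 4) (nat_lit 4)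 (nat_lit 4) (nat_lit 307) (nat_lit 255) (nat_lit 158))) (XT.nd (nat_lit 78) (nat_lit 0) (nat_lit 0) (XT.lf (nat_lit 0) (nat_lit 127466512160) (nat_lit 152) (nat_lit 133568090251) (nat_lit 0) (nat_lit 38642563461) (nat_lit 4) (nat_lit 5) (nat_lit 6) (nat_lit 4) (nat_lit 4) (nat_lit 4) (nat_lit 308) (nat_lit 255) (nat_lit 157)) (XT.lf (nat_lit 0) (nat_lit 151360300135) (nat_lit 152) (nat_lit 108665795304) (nat_lit 0) (nat_lit 62532860848) (nat_lit 4) (nat_lit 5) (nat_lit 6) (nat_lit 4) (nat_lit 4) (nat_lit 4) (nat_lit 309) (nat_lit 255) (nat_lit 156))))) (XT.nd (nat_lit 312) (nat_lit 0) (nat_lit 0) (XT.nd (nat_lit 156) (nat_lit 76) (nat_lit 0) (XT.nd (nat_lit 78) (nat_lit 0) (nat_lit 0) (XT.lf (nat_lit 0) (nat_lit 177164018882) (nat_lit 152) (nat_lit 81774006036) (nat_lit 0) (nat_lit 88333347569) (nat_lit 4) (nat_lit 5) (nat_lit 6) (nat_lit 4) (nat_lit 4) (nat_lit 4) (nat_lit 310) (nat_lit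 255) (nat_lit 155)) (XT.lf (nat_lit 0) (nat_lit 205030579326) (nat_lit 152) (nat_lit 52733363694) (nat_lit 0) (nat_lit 116196915396) (nat_lit 4) (nat_lit 5) (nat_lit 6) (nat_lit 4) (nat_lit 4) (nat_lit 4) (nat_lit 311) (nat_lit 255) (nat_lit 154))) (XT.nd (nat_lit 78) (nat_lit 76) (nat_lit 0) (XT.lf (nat_lit 0) (nat_lit 235125116640) (nat_lit 152) (nat_lit 21371775582) (nat_lit 0) (nat_lit 146288681769) (nat_lit 4) (nat_lit 5) (nat_lit 6) (nat_lit 4) (nat_lit 4) (nat_lit 4) (nat_lit 312) (nat_lit 255) (nat_lit 153)) (XT.lf (nat_lit 0) (nat_lit 12909798934) (nat_lit 76) (nat_lit 254917728030) (nat_lit 76) (nat_lit 166078727472) (nat_lit 3) (nat_lit 4) (nat_lit 4) (nat_lit 5) (nat_lit 4) (nat_lit 4) (nat_lit 313) (nat_lit 255) (nat_lit 152)))) (XT.nd (nat_lit 156) (nat_lit 0) (nat_lit 0) (XT.nd (nat_lit 78) (nat_lit 0) (nat_lit 0) (XT.lf (nat_lit 0) (nat_lit 50695036571) (nat_lit 76)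 (nat_lit 252822188540) (nat_lit 76) (nat_lit 163980812347) (nat_lit 3) (nat_lit 4) (nat_lit 4) (nat_lit 5) (nat_lit 4) (nat_lit 4) (nat_lit 314) (nat_lit 255) (nat_lit 151)) (XT.lf (nat_lit 0) (nat_lit 91501202426) (nat_lit 76) (nat_lit 250559797104) (nat_lit 76) (nat_lit 161716221248) (nat_lit 3) (nat_lit 4) (nat_lit 4) (nat_lit 5) (nat_lit 4) (nat_lit 4) (nat_lit 315) (nat_lit 255) (nat_lit 150))) (XT.nd (nat_lit 78) (nat_lit 0) (nat_lit 0) (XT.lf (nat_lit 0) (nat_lit 135570110818) (nat_lit 76) (nat_lit 248117146957) (nat_lit 76) (nat_lit 159271534377) (nat_lit 3) (nat_lit 4) (nat_lit 4) (nat_lit 5) (nat_lit 4) (nat_lit 4) (nat_lit 316) (nat_lit 255) (nat_lit 149)) (XT.nd (nat_lit 32760) (nat_lit 0) (nat_lit 4180) (XT.lf (nat_lit 0) (nat_lit 183162910832) (nat_lit 76) (nat_lit 245479763136) (nat_lit 76) (nat_lit 156632264699) (nat_lit 3) (nat_lit 4) (nat_lit 4) (nat_lit 5) (nat_lit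 4) (nat_lit 4) (nat_lit 317) (nat_lit 255) (nat_lit 148)) (XT.lf (nat_lit 0) (nat_lit 3966017432) (nat_lit 684) (nat_lit 1609850470) (nat_lit 684) (nat_lit 1609850470) (nat_lit 58) (nat_lit 3) (nat_lit 67) (nat_lit 3) (nat_lit 67) (nat_lit 5) (nat_lit 256) (nat_lit 256) (nat_lit 208))))))) (XT.nd (nat_lit 624) (nat_lit 1824) (nat_lit 0) (XT.nd (nat_lit 312) (nat_lit 380) (nat_lit 0) (XT.nd (nat_lit 156) (nat_lit 0) (nat_lit 76) (XT.nd (nat_lit 78) (nat_lit 0) (nat_lit 76) (XT.lf (nat_lit 76) (nat_lit 5867685035) (nat_lit 0) (nat_lit 2906480912) (nat_lit 684) (nat_lit 6143215826) (nat_lit 59) (nat_lit 5) (nat_lit 58) (nat_lit 3) (nat_lit 67) (nat_lit 5) (nat_lit 257) (nat_lit 256) (nat_lit 207)) (XT.lf (nat_lit 76) (nat_lit 177536839) (nat_lit 0) (nat_lit 9616158231) (nat_lit 684) (nat_lit 5708073082) (nat_lit 60) (nat_lit 5) (nat_lit 59) (nat_lit 5) (nat_lit 68) (nat_lit 5) (nat_lit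 258) (nat_lit 256) (nat_lit 206))) (XT.nd (nat_lit 78) (nat_lit 0) (nat_lit 76) (XT.lf (nat_lit 76) (nat_lit 10390217194) (nat_lit 0) (nat_lit 669847147) (nat_lit 684) (nat_lit 5064824545) (nat_lit 60) (nat_lit 5) (nat_lit 59) (nat_lit 5) (nat_lit 68) (nat_lit 5) (nat_lit 259) (nat_lit 256) (nat_lit 205)) (XT.lf (nat_lit 76) (nat_lit 4603270837) (nat_lit 0) (nat_lit 7999382400) (nat_lit 684) (nat_lit 4186689554) (nat_lit 61) (nat_lit 5) (nat_lit 60) (nat_lit 5) (nat_lit 69) (nat_lit 5) (nat_lit 260) (nat_lit 256) (nat_lit 204)))) (XT.nd (nat_lit 156) (nat_lit 608) (nat_lit 0) (XT.nd (nat_lit 78) (nat_lit 0) (nat_lit 0) (XT.lf (nat_lit 0) (nat_lit 14369542823) (nat_lit 608) (nat_lit 1591460657) (nat_lit 684) (nat_lit 1541116902) (nat_lit 61) (nat_lit 5) (nat_lit 69) (nat_lit 5) (nat_lit 70) (nat_lit 5) (nat_lit 261) (nat_lit 256) (nat_lit 203)) (XT.lf (nat_lit 76) (nat_lit 10011519403)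 (nat_lit 0) (nat_lit 6525226373) (nat_lit 684) (nat_lit 1722422637) (nat_lit 62) (nat_lit 5) (nat_lit 61) (nat_lit 5) (nat_lit 70) (nat_lit 5) (nat_lit 262) (nat_lit 256) (nat_lit 202))) (XT.nd (nat_lit 78) (nat_lit 76) (nat_lit 0) (XT.lf (nat_lit 0) (nat_lit 3554802154) (nat_lit 608) (nat_lit 15433317344) (nat_lit 684) (nat_lit 83302863) (nat_lit 54) (nat_lit 5) (nat_lit 62) (nat_lit 5) (nat_lit 63) (nat_lit 5) (nat_lit 263) (nat_lit 256) (nat_lit 201)) (XT.lf (nat_lit 0) (nat_lit 1860118740) (nat_lit 684) (nat_lit 3509698133) (nat_lit 76) (nat_lit 14566324917) (nat_lit 53) (nat_lit 5) (nat_lit 62) (nat_lit 5) (nat_lit 54) (nat_lit 5) (nat_lit 264) (nat_lit 256) (nat_lit 200))))) (XT.nd (nat_lit 312) (nat_lit 760) (nat_lit 0) (XT.nd (nat_lit 156) (nat_lit 304) (nat_lit 0) (XT.nd (nat_lit 78) (nat_lit 304) (nat_lit 0) (XT.lf (nat_lit 0) (nat_lit 4169947436) (nat_lit 532) (nat_lit 11207589046)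 (nat_lit 76) (nat_lit 5481889858) (nat_lit 47) (nat_lit 5) (nat_lit 54) (nat_lit 5) (nat_lit 48) (nat_lit 5) (nat_lit 265) (nat_lit 256) (nat_lit 199)) (XT.lf (nat_lit 0) (nat_lit 2089441019) (nat_lit 304) (nat_lit 4735349710) (nat_lit 380) (nat_lit 15023908957) (nat_lit 43) (nat_lit 5) (nat_lit 47) (nat_lit 5) (nat_lit 48) (nat_lit 5) (nat_lit 266) (nat_lit 256) (nat_lit 198))) (XT.nd (nat_lit 78) (nat_lit 304) (nat_lit 0) (XT.lf (nat_lit 0) (nat_lit 9972396990) (nat_lit 380) (nat_lit 6189884693) (nat_lit 76) (nat_lit 6740941706) (nat_lit 43) (nat_lit 5) (nat_lit 48) (nat_lit 5) (nat_lit 44) (nat_lit 5) (nat_lit 267) (nat_lit 256) (nat_lit 197)) (XT.lf (nat_lit 0) (nat_lit 8639230573) (nat_lit 304) (nat_lit 4925487675) (nat_lit 380) (nat_lit 10467863254) (nat_lit 39) (nat_lit 5) (nat_lit 43) (nat_lit 5) (nat_lit 44) (nat_lit 5) (nat_lit 268) (nat_lit 256) (nat_lit 196)))) (XT.nd (nat_lit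 156) (nat_lit 532) (nat_lit 0) (XT.nd (nat_lit 78) (nat_lit 228) (nat_lit 0) (XT.lf (nat_lit 0) (nat_lit 17646032095) (nat_lit 380) (nat_lit 508139098) (nat_lit 76) (nat_lit 7088145836) (nat_lit 39) (nat_lit 5) (nat_lit 44) (nat_lit 5) (nat_lit 40) (nat_lit 5) (nat_lit 269) (nat_lit 256) (nat_lit 195)) (XT.lf (nat_lit 0) (nat_lit 15975202407) (nat_lit 228) (nat_lit 6392085040) (nat_lit 304) (nat_lit 4165973159) (nat_lit 36) (nat_lit 5) (nat_lit 39) (nat_lit 5) (nat_lit 40) (nat_lit 5) (nat_lit 270) (nat_lit 256) (nat_lit 194))) (XT.nd (nat_lit 78) (nat_lit 304) (nat_lit 0) (XT.lf (nat_lit 0) (nat_lit 5938730660) (nat_lit 228) (nat_lit 21709791753) (nat_lit 304) (nat_lit 269936840) (nat_lit 33) (nat_lit 5) (nat_lit 36) (nat_lit 5) (nat_lit 37) (nat_lit 5) (nat_lit 271) (nat_lit 256) (nat_lit 193)) (XT.nd (nat_lit 78) (nat_lit 228) (nat_lit 0) (XT.lf (nat_lit 0) (nat_lit 4089146923) (nat_lit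 304) (nat_lit 5465998877) (nat_lit 76) (nat_lit 19842466583) (nat_lit 32) (nat_lit 5) (nat_lit 36) (nat_lit 5) (nat_lit 33) (nat_lit 5) (nat_lit 272) (nat_lit 256) (nat_lit 192)) (XT.lf (nat_lit 0) (nat_lit 9029765955) (nat_lit 304) (nat_lit 18291582568) (nat_lit 76) (nat_lit 3661491068) (nat_lit 29) (nat_lit 5) (nat_lit 33) (nat_lit 5) (nat_lit 30) (nat_lit 5) (nat_lit 273) (nat_lit 256) (nat_lit 191))))))))
noncomputable def xc84 : XT := (XT.nd (nat_lit 1248) (nat_lit 532) (nat_lit 0) (XT.nd (nat_lit 624) (nat_lit 532) (nat_lit 0) (XT.nd (nat_lit 312) (nat_lit 456) (nat_lit 0) (XT.nd (nat_lit 156) (nat_lit 152) (nat_lit 0) (XT.nd (nat_lit 78) (nat_lit 228) (nat_lit 0) (XT.lf (nat_lit 0) (nat_lit 14608346030) (nat_lit 304) (nat_lit 375658091) (nat_lit 76) (nat_lit 17698816001) (nat_lit 29) (nat_lit 5) (nat_lit 33) (nat_lit 5) (nat_lit 30) (nat_lit 5) (nat_lit 274) (nat_lit 256) (nat_lit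 190)) (XT.lf (nat_lit 0) (nat_lit 19582584818) (nat_lit 228) (nat_lit 1342310466) (nat_lit 304) (nat_lit 13579385156) (nat_lit 26) (nat_lit 5) (nat_lit 29) (nat_lit 5) (nat_lit 30) (nat_lit 5) (nat_lit 275) (nat_lit 256) (nat_lit 189))) (XT.nd (nat_lit 78) (nat_lit 0) (nat_lit 0) (XT.lf (nat_lit 0) (nat_lit 4600215363) (nat_lit 152) (nat_lit 23420756007) (nat_lit 228) (nat_lit 8436836701) (nat_lit 24) (nat_lit 5) (nat_lit 26) (nat_lit 5) (nat_lit 27) (nat_lit 5) (nat_lit 276) (nat_lit 256) (nat_lit 188)) (XT.lf (nat_lit 0) (nat_lit 26176493900) (nat_lit 152) (nat_lit 9777822513) (nat_lit 228) (nat_lit 2599878498) (nat_lit 24) (nat_lit 5) (nat_lit 26) (nat_lit 5) (nat_lit 27) (nat_lit 5) (nat_lit 277) (nat_lit 256) (nat_lit 187)))) (XT.nd (nat_lit 156) (nat_lit 152) (nat_lit 0) (XT.nd (nat_lit 78) (nat_lit 0) (nat_lit 0) (XT.lf (nat_lit 0) (nat_lit 3792599158) (nat_lit 304) (nat_lit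 32019042042) (nat_lit 76) (nat_lit 4993453731) (nat_lit 20) (nat_lit 5) (nat_lit 24) (nat_lit 5) (nat_lit 21) (nat_lit 5) (nat_lit 278) (nat_lit 256) (nat_lit 186)) (XT.lf (nat_lit 0) (nat_lit 10979283796) (nat_lit 304) (nat_lit 11368516895) (nat_lit 76) (nat_lit 20867486261) (nat_lit 20) (nat_lit 5) (nat_lit 24) (nat_lit 5) (nat_lit 21) (nat_lit 5) (nat_lit 279) (nat_lit 256) (nat_lit 185))) (XT.nd (nat_lit 78) (nat_lit 0) (nat_lit 0) (XT.lf (nat_lit 0) (nat_lit 11280374098) (nat_lit 152) (nat_lit 7626147334) (nat_lit 228) (nat_lit 26903534437) (nat_lit 18) (nat_lit 5) (nat_lit 20) (nat_lit 5) (nat_lit 21) (nat_lit 5) (nat_lit 280) (nat_lit 256) (nat_lit 184)) (XT.lf (nat_lit 0) (nat_lit 27788378532) (nat_lit 228) (nat_lit 12602327856) (nat_lit 76) (nat_lit 8205717190) (nat_lit 18) (nat_lit 5) (nat_lit 21) (nat_lit 5) (nat_lit 19) (nat_lit 5) (nat_lit 281) (nat_lit 256) (nat_lit 183)))))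 (XT.nd (nat_lit 312) (nat_lit 228) (nat_lit 0) (XT.nd (nat_lit 156) (nat_lit 152) (nat_lit 0) (XT.nd (nat_lit 78) (nat_lit 0) (nat_lit 0) (XT.lf (nat_lit 0) (nat_lit 11298782280) (nat_lit 152) (nat_lit 26377732937) (nat_lit 228) (nat_lit 13914435324) (nat_lit 16) (nat_lit 5) (nat_lit 18) (nat_lit 5) (nat_lit 19) (nat_lit 5) (nat_lit 282) (nat_lit 256) (nat_lit 182)) (XT.lf (nat_lit 0) (nat_lit 37549118894) (nat_lit 152) (nat_lit 11017328071) (nat_lit 228) (nat_lit 6248089184) (nat_lit 16) (nat_lit 5) (nat_lit 18) (nat_lit 5) (nat_lit 19) (nat_lit 5) (nat_lit 283) (nat_lit 256) (nat_lit 181))) (XT.nd (nat_lit 78) (nat_lit 0) (nat_lit 0) (XT.lf (nat_lit 0) (nat_lit 2169626575) (nat_lit 152) (nat_lit 50568750482) (nat_lit 76) (nat_lit 5545921105) (nat_lit 14) (nat_lit 5) (nat_lit 16) (nat_lit 5) (nat_lit 15) (nat_lit 5) (nat_lit 284) (nat_lit 256) (nat_lit 180)) (XT.lf (nat_lit 0) (nat_lit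 11528316763) (nat_lit 152) (nat_lit 27013193575) (nat_lit 76) (nat_lit 23460713937) (nat_lit 14) (nat_lit 5) (nat_lit 16) (nat_lit 5) (nat_lit 15) (nat_lit 5) (nat_lit 285) (nat_lit 256) (nat_lit 179)))) (XT.nd (nat_lit 156) (nat_lit 76) (nat_lit 0) (XT.nd (nat_lit 78) (nat_lit 152) (nat_lit 0) (XT.lf (nat_lit 0) (nat_lit 21628367164) (nat_lit 152) (nat_lit 1584363885) (nat_lit 76) (nat_lit 42805245651) (nat_lit 14) (nat_lit 5) (nat_lit 16) (nat_lit 5) (nat_lit 15) (nat_lit 5) (nat_lit 286) (nat_lit 256) (nat_lit 178)) (XT.lf (nat_lit 0) (nat_lit 26723755001) (nat_lit 152) (nat_lit 6223107637) (nat_lit 228) (nat_lit 37387628216) (nat_lit 12) (nat_lit 5) (nat_lit 14) (nat_lit 5) (nat_lit 15) (nat_lit 5) (nat_lit 287) (nat_lit 256) (nat_lit 177))) (XT.nd (nat_lit 78) (nat_lit 76) (nat_lit 0) (XT.lf (nat_lit 0) (nat_lit 45381707764) (nat_lit 228) (nat_lit 17841798847) (nat_lit 76) (nat_lit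 11762297869) (nat_lit 12) (nat_lit 5) (nat_lit 15) (nat_lit 5) (nat_lit 13) (nat_lit 4) (nat_lit 288) (nat_lit 256) (nat_lit 176)) (XT.lf (nat_lit 0) (nat_lit 10200778414) (nat_lit 76) (nat_lit 48868742087) (nat_lit 152) (nat_lit 20926813915) (nat_lit 11) (nat_lit 5) (nat_lit 12) (nat_lit 5) (nat_lit 13) (nat_lit 4) (nat_lit 289) (nat_lit 256) (nat_lit 175)))))) (XT.nd (nat_lit 624) (nat_lit 228) (nat_lit 0) (XT.nd (nat_lit 312) (nat_lit 76) (nat_lit 0) (XT.nd (nat_lit 156) (nat_lit 228) (nat_lit 0) (XT.nd (nat_lit 78) (nat_lit 0) (nat_lit 0) (XT.lf (nat_lit 0) (nat_lit 41114866212) (nat_lit 76) (nat_lit 33042573744) (nat_lit 152) (nat_lit 11235031432) (nat_lit 11) (nat_lit 5) (nat_lit 12) (nat_lit 5) (nat_lit 13) (nat_lit 4) (nat_lit 290) (nat_lit 256) (nat_lit 174)) (XT.lf (nat_lit 0) (nat_lit 74493728695) (nat_lit 76) (nat_lit 15953376377) (nat_lit 152) (nat_lit 773475977) (nat_lit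 11) (nat_lit 5) (nat_lit 12) (nat_lit 5) (nat_lit 13) (nat_lit 4) (nat_lit 291) (nat_lit 256) (nat_lit 173))) (XT.nd (nat_lit 78) (nat_lit 0) (nat_lit 0) (XT.lf (nat_lit 0) (nat_lit 10435621993) (nat_lit 228) (nat_lit 84260956081) (nat_lit 76) (nat_lit 2797786259) (nat_lit 8) (nat_lit 5) (nat_lit 11) (nat_lit 5) (nat_lit 9) (nat_lit 4) (nat_lit 292) (nat_lit 256) (nat_lit 172)) (XT.lf (nat_lit 0) (nat_lit 23075077277) (nat_lit 228) (nat_lit 58362280439) (nat_lit 76) (nat_lit 22804036307) (nat_lit 8) (nat_lit 5) (nat_lit 11) (nat_lit 5) (nat_lit 9) (nat_lit 4) (nat_lit 293) (nat_lit 256) (nat_lit 171)))) (XT.nd (nat_lit 156) (nat_lit 76) (nat_lit 0) (XT.nd (nat_lit 78) (nat_lit 0) (nat_lit 0) (XT.lf (nat_lit 0) (nat_lit 36721258804) (nat_lit 228) (nat_lit 30398911728) (nat_lit 76) (nat_lit 44408250175) (nat_lit 8) (nat_lit 5) (nat_lit 11) (nat_lit 5) (nat_lit 9) (nat_lit 4) (nat_lit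 294) (nat_lit 256) (nat_lit 170)) (XT.lf (nat_lit 0) (nat_lit 51455032834) (nat_lit 228) (nat_lit 205141093) (nat_lit 76) (nat_lit 67738452833) (nat_lit 8) (nat_lit 5) (nat_lit 11) (nat_lit 5) (nat_lit 9) (nat_lit 4) (nat_lit 295) (nat_lit 256) (nat_lit 169))) (XT.nd (nat_lit 78) (nat_lit 0) (nat_lit 0) (XT.lf (nat_lit 0) (nat_lit 33469180299) (nat_lit 76) (nat_lit 34417078023) (nat_lit 152) (nat_lit 59986264737) (nat_lit 7) (nat_lit 5) (nat_lit 8) (nat_lit 5) (nat_lit 9) (nat_lit 4) (nat_lit 296) (nat_lit 256) (nat_lit 168)) (XT.lf (nat_lit 0) (nat_lit 69838867547) (nat_lit 76) (nat_lit 15793078710) (nat_lit 152) (nat_lit 51392396991) (nat_lit 7) (nat_lit 5) (nat_lit 8) (nat_lit 5) (nat_lit 9) (nat_lit 4) (nat_lit 297) (nat_lit 256) (nat_lit 167))))) (XT.nd (nat_lit 312) (nat_lit 152) (nat_lit 0) (XT.nd (nat_lit 156) (nat_lit 76) (nat_lit 0) (XT.nd (nat_lit 78) (nat_lit 0) (nat_lit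 0) (XT.lf (nat_lit 0) (nat_lit 104861374774) (nat_lit 152) (nat_lit 37863251173) (nat_lit 0) (nat_lit 4180488460) (nat_lit 7) (nat_lit 5) (nat_lit 9) (nat_lit 4) (nat_lit 7) (nat_lit 4) (nat_lit 298) (nat_lit 256) (nat_lit 166)) (XT.lf (nat_lit 0) (nat_lit 125892332839) (nat_lit 152) (nat_lit 6466744639) (nat_lit 0) (nat_lit 25204119938) (nat_lit 7) (nat_lit 5) (nat_lit 9) (nat_lit 4) (nat_lit 7) (nat_lit 4) (nat_lit 299) (nat_lit 256) (nat_lit 165))) (XT.nd (nat_lit 78) (nat_lit 0) (nat_lit 0) (XT.lf (nat_lit 0) (nat_lit 28343851755) (nat_lit 76) (nat_lit 120701549336) (nat_lit 76) (nat_lit 20006552558) (nat_lit 6) (nat_lit 4) (nat_lit 7) (nat_lit 5) (nat_lit 7) (nat_lit 4) (nat_lit 300) (nat_lit 256) (nat_lit 164)) (XT.lf (nat_lit 0) (nat_lit 66165619377) (nat_lit 76) (nat_lit 107994991009) (nat_lit 76) (nat_lit 7293712864) (nat_lit 6) (nat_lit 4) (nat_lit 7) (nat_lit 5) (nat_lit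 7) (nat_lit 4) (nat_lit 301) (nat_lit 256) (nat_lit 163)))) (XT.nd (nat_lit 156) (nat_lit 76) (nat_lit 0) (XT.nd (nat_lit 78) (nat_lit 0) (nat_lit 0) (XT.lf (nat_lit 0) (nat_lit 6227561107) (nat_lit 152) (nat_lit 87940593957) (nat_lit 76) (nat_lit 100675839569) (nat_lit 5) (nat_lit 5) (nat_lit 7) (nat_lit 5) (nat_lit 6) (nat_lit 4) (nat_lit 302) (nat_lit 256) (nat_lit 162)) (XT.lf (nat_lit 0) (nat_lit 20576013589) (nat_lit 152) (nat_lit 58531651629) (nat_lit 76) (nat_lit 130191151660) (nat_lit 5) (nat_lit 5) (nat_lit 7) (nat_lit 5) (nat_lit 6) (nat_lit 4) (nat_lit 303) (nat_lit 256) (nat_lit 161))) (XT.nd (nat_lit 78) (nat_lit 76) (nat_lit 0) (XT.lf (nat_lit 0) (nat_lit 36070116810) (nat_lit 152) (nat_lit 26773726377) (nat_lit 76) (nat_lit 162066298770) (nat_lit 5) (nat_lit 5) (nat_lit 7) (nat_lit 5) (nat_lit 6) (nat_lit 4) (nat_lit 304) (nat_lit 256) (nat_lit 160)) (XT.nd (nat_lit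 78) (nat_lit 0) (nat_lit 0) (XT.lf (nat_lit 0) (nat_lit 7770067597) (nat_lit 76) (nat_lit 45152932611) (nat_lit 152) (nat_lit 188841415593) (nat_lit 4) (nat_lit 5) (nat_lit 5) (nat_lit 5) (nat_lit 6) (nat_lit 4) (nat_lit 305) (nat_lit 256) (nat_lit 159)) (XT.lf (nat_lit 0) (nat_lit 46030140431) (nat_lit 76) (nat_lit 25558395302) (nat_lit 152) (nat_lit 188355279704) (nat_lit 4) (nat_lit 5) (nat_lit 5) (nat_lit 5) (nat_lit 6) (nat_lit 4) (nat_lit 306) (nat_lit 256) (nat_lit 158))))))))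
noncomputable def xc85 : XT := (XT.nd (nat_lit 34008) (nat_lit 0) (nat_lit 1596) (XT.nd (nat_lit 624) (nat_lit 0) (nat_lit 0) (XT.nd (nat_lit 312) (nat_lit 76) (nat_lit 0) (XT.nd (nat_lit 156) (nat_lit 0) (nat_lit 0) (XT.nd (nat_lit 78) (nat_lit 0) (nat_lit 0) (XT.lf (nat_lit 0) (nat_lit 87347958175) (nat_lit 76) (nat_lit 4397541496) (nat_lit 152) (nat_lit 187832162686) (nat_lit 4) (nat_lit 5) (nat_lit 5) (nat_lit 5) (nat_lit 6) (nat_lit 4) (nat_lit 307) (nat_lit 256) (nat_lit 157)) (XT.lf (nat_lit 0) (nat_lit 113801475377) (nat_lit 152) (nat_lit 169102072810) (nat_lit 0) (nat_lit 17864350359) (nat_lit 4) (nat_lit 5) (nat_lit 6) (nat_lit 4) (nat_lit 4) (nat_lit 4) (nat_lit 308) (nat_lit 256) (nat_lit 156))) (XT.nd (nat_lit 78) (nat_lit 0) (nat_lit 0) (XT.lf (nat_lit 0) (nat_lit 137694507455) (nat_lit 152) (nat_lit 144201070784) (nat_lit 0) (nat_lit 41754150411) (nat_lit 4) (nat_lit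 5) (nat_lit 6) (nat_lit 4) (nat_lit 4) (nat_lit 4) (nat_lit 309) (nat_lit 256) (nat_lit 155)) (XT.lf (nat_lit 0) (nat_lit 163497526297) (nat_lit 152) (nat_lit 117310478663) (nat_lit 0) (nat_lit 67554176636) (nat_lit 4) (nat_lit 5) (nat_lit 6) (nat_lit 4) (nat_lit 4) (nat_lit 4) (nat_lit 310) (nat_lit 256) (nat_lit 154)))) (XT.nd (nat_lit 156) (nat_lit 76) (nat_lit 0) (XT.nd (nat_lit 78) (nat_lit 0) (nat_lit 0) (XT.lf (nat_lit 0) (nat_lit 191363438681) (nat_lit 152) (nat_lit 88270944791) (nat_lit 0) (nat_lit 95417318078) (nat_lit 4) (nat_lit 5) (nat_lit 6) (nat_lit 4) (nat_lit 4) (nat_lit 4) (nat_lit 311) (nat_lit 256) (nat_lit 153)) (XT.lf (nat_lit 0) (nat_lit 221457375939) (nat_lit 152) (nat_lit 56910383041) (nat_lit 0) (nat_lit 125508689650) (nat_lit 4) (nat_lit 5) (nat_lit 6) (nat_lit 4) (nat_lit 4) (nat_lit 4) (nat_lit 312) (nat_lit 256) (nat_lit 152))) (XT.nd (nat_lit 78) (nat_lit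 76) (nat_lit 0) (XT.lf (nat_lit 0) (nat_lit 253957672515) (nat_lit 152) (nat_lit 23042953048) (nat_lit 0) (nat_lit 158006610590) (nat_lit 4) (nat_lit 5) (nat_lit 6) (nat_lit 4) (nat_lit 4) (nat_lit 4) (nat_lit 313) (nat_lit 256) (nat_lit 151)) (XT.lf (nat_lit 0) (nat_lit 13979471461) (nat_lit 76) (nat_lit 275295710024) (nat_lit 76) (nat_lit 179342448437) (nat_lit 3) (nat_lit 4) (nat_lit 4) (nat_lit 5) (nat_lit 4) (nat_lit 4) (nat_lit 314) (nat_lit 256) (nat_lit 150))))) (XT.nd (nat_lit 33072) (nat_lit 0) (nat_lit 4180) (XT.nd (nat_lit 156) (nat_lit 0) (nat_lit 0) (XT.nd (nat_lit 78) (nat_lit 0) (nat_lit 0) (XT.lf (nat_lit 0) (nat_lit 54784795618) (nat_lit 76) (nat_lit 273033670801) (nat_lit 76) (nat_lit 177078372490) (nat_lit 3) (nat_lit 4) (nat_lit 4) (nat_lit 5) (nat_lit 4) (nat_lit 4) (nat_lit 315) (nat_lit 256) (nat_lit 149)) (XT.lf (nat_lit 0) (nat_lit 98852924659) (nat_lit 76)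 (nat_lit 270591346778) (nat_lit 76) (nat_lit 174634162610) (nat_lit 3) (nat_lit 4) (nat_lit 4) (nat_lit 5) (nat_lit 4) (nat_lit 4) (nat_lit 316) (nat_lit 256) (nat_lit 148))) (XT.nd (nat_lit 32838) (nat_lit 0) (nat_lit 4180) (XT.lf (nat_lit 0) (nat_lit 146445003053) (nat_lit 76) (nat_lit 267954264923) (nat_lit 76) (nat_lit 171995334592) (nat_lit 3) (nat_lit 4) (nat_lit 4) (nat_lit 5) (nat_lit 4) (nat_lit 4) (nat_lit 317) (nat_lit 256) (nat_lit 147)) (XT.lf (nat_lit 0) (nat_lit 4706118107) (nat_lit 684) (nat_lit 1515355513) (nat_lit 684) (nat_lit 1515355513) (nat_lit 58) (nat_lit 3) (nat_lit 67) (nat_lit 3) (nat_lit 67) (nat_lit 5) (nat_lit 257) (nat_lit 257) (nat_lit 206)))) (XT.nd (nat_lit 156) (nat_lit 0) (nat_lit 76) (XT.nd (nat_lit 78) (nat_lit 0) (nat_lit 76) (XT.lf (nat_lit 76) (nat_lit 6764258612) (nat_lit 0) (nat_lit 3501508424) (nat_lit 684) (nat_lit 5800696438) (nat_lit 59)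 (nat_lit 5) (nat_lit 58) (nat_lit 3) (nat_lit 67) (nat_lit 5) (nat_lit 258) (nat_lit 257) (nat_lit 205)) (XT.lf (nat_lit 76) (nat_lit 648131808) (nat_lit 0) (nat_lit 10662117788) (nat_lit 684) (nat_lit 5390539052) (nat_lit 60) (nat_lit 5) (nat_lit 59) (nat_lit 5) (nat_lit 68) (nat_lit 5) (nat_lit 259) (nat_lit 257) (nat_lit 204))) (XT.nd (nat_lit 78) (nat_lit 0) (nat_lit 76) (XT.lf (nat_lit 76) (nat_lit 11644019775) (nat_lit 0) (nat_lit 979607974) (nat_lit 684) (nat_lit 4753177290) (nat_lit 60) (nat_lit 5) (nat_lit 59) (nat_lit 5) (nat_lit 68) (nat_lit 5) (nat_lit 260) (nat_lit 257) (nat_lit 203)) (XT.lf (nat_lit 76) (nat_lit 5415998702) (nat_lit 0) (nat_lit 8826582713) (nat_lit 684) (nat_lit 3854492405) (nat_lit 61) (nat_lit 5) (nat_lit 60) (nat_lit 5) (nat_lit 69) (nat_lit 5) (nat_lit 261) (nat_lit 257) (nat_lit 202)))))) (XT.nd (nat_lit 624) (nat_lit 1140) (nat_lit 0) (XT.nd (nat_lit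 312) (nat_lit 1064) (nat_lit 0) (XT.nd (nat_lit 156) (nat_lit 608) (nat_lit 0) (XT.nd (nat_lit 78) (nat_lit 0) (nat_lit 0) (XT.lf (nat_lit 0) (nat_lit 16101321458) (nat_lit 608) (nat_lit 1271734839) (nat_lit 684) (nat_lit 1496576105) (nat_lit 61) (nat_lit 5) (nat_lit 69) (nat_lit 5) (nat_lit 70) (nat_lit 5) (nat_lit 262) (nat_lit 257) (nat_lit 201)) (XT.lf (nat_lit 76) (nat_lit 11240055696) (nat_lit 0) (nat_lit 7165394163) (nat_lit 684) (nat_lit 1283879685) (nat_lit 62) (nat_lit 5) (nat_lit 61) (nat_lit 5) (nat_lit 70) (nat_lit 5) (nat_lit 263) (nat_lit 257) (nat_lit 200))) (XT.nd (nat_lit 78) (nat_lit 0) (nat_lit 0) (XT.lf (nat_lit 0) (nat_lit 434724456) (nat_lit 684) (nat_lit 16296356361) (nat_lit 76) (nat_lit 3837138913) (nat_lit 53) (nat_lit 5) (nat_lit 62) (nat_lit 5) (nat_lit 54) (nat_lit 5) (nat_lit 264) (nat_lit 257) (nat_lit 199)) (XT.lf (nat_lit 0) (nat_lit 2492087535) (nat_lit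 684) (nat_lit 3364373221) (nat_lit 76) (nat_lit 15647732885) (nat_lit 53) (nat_lit 5) (nat_lit 62) (nat_lit 5) (nat_lit 54) (nat_lit 5) (nat_lit 265) (nat_lit 257) (nat_lit 198)))) (XT.nd (nat_lit 156) (nat_lit 304) (nat_lit 0) (XT.nd (nat_lit 78) (nat_lit 304) (nat_lit 0) (XT.lf (nat_lit 0) (nat_lit 4956555927) (nat_lit 532) (nat_lit 11670723134) (nat_lit 76) (nat_lit 5875767857) (nat_lit 47) (nat_lit 5) (nat_lit 54) (nat_lit 5) (nat_lit 48) (nat_lit 5) (nat_lit 266) (nat_lit 257) (nat_lit 197)) (XT.lf (nat_lit 0) (nat_lit 2671231126) (nat_lit 304) (nat_lit 5125472672) (nat_lit 380) (nat_lit 15776296394) (nat_lit 43) (nat_lit 5) (nat_lit 47) (nat_lit 5) (nat_lit 48) (nat_lit 5) (nat_lit 267) (nat_lit 257) (nat_lit 196))) (XT.nd (nat_lit 78) (nat_lit 304) (nat_lit 0) (XT.lf (nat_lit 0) (nat_lit 11164404920) (nat_lit 380) (nat_lit 6279143394) (nat_lit 76) (nat_lit 7270093455) (nat_lit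 43) (nat_lit 5) (nat_lit 48) (nat_lit 5) (nat_lit 44) (nat_lit 5) (nat_lit 268) (nat_lit 257) (nat_lit 195)) (XT.lf (nat_lit 0) (nat_lit 9718659780) (nat_lit 304) (nat_lit 5302313208) (nat_lit 380) (nat_lit 10913690168) (nat_lit 39) (nat_lit 5) (nat_lit 43) (nat_lit 5) (nat_lit 44) (nat_lit 5) (nat_lit 269) (nat_lit 257) (nat_lit 194))))) (XT.nd (nat_lit 312) (nat_lit 608) (nat_lit 0) (XT.nd (nat_lit 156) (nat_lit 304) (nat_lit 0) (XT.nd (nat_lit 78) (nat_lit 228) (nat_lit 0) (XT.lf (nat_lit 0) (nat_lit 19401553580) (nat_lit 380) (nat_lit 170506080) (nat_lit 76) (nat_lit 7670625783) (nat_lit 39) (nat_lit 5) (nat_lit 44) (nat_lit 5) (nat_lit 40) (nat_lit 5) (nat_lit 270) (nat_lit 257) (nat_lit 193)) (XT.lf (nat_lit 0) (nat_lit 17615062978) (nat_lit 228) (nat_lit 6865626238) (nat_lit 304) (nat_lit 4157341483) (nat_lit 36) (nat_lit 5) (nat_lit 39) (nat_lit 5) (nat_lit 40) (nat_lit 5) (nat_lit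 271) (nat_lit 257) (nat_lit 192))) (XT.nd (nat_lit 78) (nat_lit 0) (nat_lit 0) (XT.lf (nat_lit 0) (nat_lit 30560178) (nat_lit 304) (nat_lit 23359056410) (nat_lit 76) (nat_lit 6745418792) (nat_lit 32) (nat_lit 5) (nat_lit 36) (nat_lit 5) (nat_lit 33) (nat_lit 5) (nat_lit 272) (nat_lit 257) (nat_lit 191)) (XT.lf (nat_lit 0) (nat_lit 4705872314) (nat_lit 304) (nat_lit 5556520599) (nat_lit 76) (nat_lit 21471169021) (nat_lit 32) (nat_lit 5) (nat_lit 36) (nat_lit 5) (nat_lit 33) (nat_lit 5) (nat_lit 273) (nat_lit 257) (nat_lit 190)))) (XT.nd (nat_lit 156) (nat_lit 380) (nat_lit 0) (XT.nd (nat_lit 78) (nat_lit 0) (nat_lit 0) (XT.lf (nat_lit 0) (nat_lit 10026379358) (nat_lit 304) (nat_lit 19409188360) (nat_lit 76) (nat_lit 4010909880) (nat_lit 29) (nat_lit 5) (nat_lit 33) (nat_lit 5) (nat_lit 30) (nat_lit 5) (nat_lit 274) (nat_lit 257) (nat_lit 189)) (XT.lf (nat_lit 0) (nat_lit 16030932348)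 (nat_lit 304) (nat_lit 85598874) (nat_lit 76) (nat_lit 19167035658) (nat_lit 29) (nat_lit 5) (nat_lit 33) (nat_lit 5) (nat_lit 30) (nat_lit 5) (nat_lit 275) (nat_lit 257) (nat_lit 188))) (XT.nd (nat_lit 78) (nat_lit 152) (nat_lit 0) (XT.lf (nat_lit 0) (nat_lit 21455391796) (nat_lit 228) (nat_lit 1383385602) (nat_lit 304) (nat_lit 14412755656) (nat_lit 26) (nat_lit 5) (nat_lit 29) (nat_lit 5) (nat_lit 30) (nat_lit 5) (nat_lit 276) (nat_lit 257) (nat_lit 187)) (XT.nd (nat_lit 78) (nat_lit 0) (nat_lit 0) (XT.lf (nat_lit 0) (nat_lit 5272656363) (nat_lit 152) (nat_lit 25217825043) (nat_lit 228) (nat_lit 8871545531) (nat_lit 24) (nat_lit 5) (nat_lit 26) (nat_lit 5) (nat_lit 27) (nat_lit 5) (nat_lit 277) (nat_lit 257) (nat_lit 186)) (XT.lf (nat_lit 0) (nat_lit 28552487274) (nat_lit 152) (nat_lit 10489130310) (nat_lit 228) (nat_lit 2585426088) (nat_lit 24) (nat_lit 5) (nat_lit 26) (nat_lit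 5) (nat_lit 27) (nat_lit 5) (nat_lit 278) (nat_lit 257) (nat_lit 185))))))))
noncomputable def xc86 : XT := (XT.nd (nat_lit 1248) (nat_lit 304) (nat_lit 0) (XT.nd (nat_lit 624) (nat_lit 456) (nat_lit 0) (XT.nd (nat_lit 312) (nat_lit 304) (nat_lit 0) (XT.nd (nat_lit 156) (nat_lit 152) (nat_lit 0) (XT.nd (nat_lit 78) (nat_lit 0) (nat_lit 0) (XT.lf (nat_lit 0) (nat_lit 4300858531) (nat_lit 304) (nat_lit 34293411528) (nat_lit 76) (nat_lit 5464161817) (nat_lit 20) (nat_lit 5) (nat_lit 24) (nat_lit 5) (nat_lit 21) (nat_lit 5) (nat_lit 279) (nat_lit 257) (nat_lit 184)) (XT.lf (nat_lit 0) (nat_lit 12047303759) (nat_lit 304) (nat_lit 12012115027) (nat_lit 76) (nat_lit 22602840521) (nat_lit 20) (nat_lit 5) (nat_lit 24) (nat_lit 5) (nat_lit 21) (nat_lit 5) (nat_lit 280) (nat_lit 257) (nat_lit 183))) (XT.nd (nat_lit 78) (nat_lit 0) (nat_lit 0) (XT.lf (nat_lit 0) (nat_lit 12437132285) (nat_lit 152)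 (nat_lit 8161508731) (nat_lit 228) (nat_lit 28866529486) (nat_lit 18) (nat_lit 5) (nat_lit 20) (nat_lit 5) (nat_lit 21) (nat_lit 5) (nat_lit 281) (nat_lit 257) (nat_lit 182)) (XT.lf (nat_lit 0) (nat_lit 30178823462) (nat_lit 228) (nat_lit 13367133210) (nat_lit 76) (nat_lit 8929154705) (nat_lit 18) (nat_lit 5) (nat_lit 21) (nat_lit 5) (nat_lit 19) (nat_lit 5) (nat_lit 282) (nat_lit 257) (nat_lit 181)))) (XT.nd (nat_lit 156) (nat_lit 152) (nat_lit 0) (XT.nd (nat_lit 78) (nat_lit 0) (nat_lit 0) (XT.lf (nat_lit 0) (nat_lit 12435488701) (nat_lit 152) (nat_lit 28413758980) (nat_lit 228) (nat_lit 14860439679) (nat_lit 16) (nat_lit 5) (nat_lit 18) (nat_lit 5) (nat_lit 19) (nat_lit 5) (nat_lit 283) (nat_lit 257) (nat_lit 180)) (XT.lf (nat_lit 0) (nat_lit 40768607515) (nat_lit 152) (nat_lit 11830017472) (nat_lit 228) (nat_lit 6593167364) (nat_lit 16) (nat_lit 5) (nat_lit 18) (nat_lit 5) (nat_lit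 19) (nat_lit 5) (nat_lit 284) (nat_lit 257) (nat_lit 179))) (XT.nd (nat_lit 78) (nat_lit 0) (nat_lit 0) (XT.lf (nat_lit 0) (nat_lit 2486299761) (nat_lit 152) (nat_lit 54396293598) (nat_lit 76) (nat_lit 6056796523) (nat_lit 14) (nat_lit 5) (nat_lit 16) (nat_lit 5) (nat_lit 15) (nat_lit 5) (nat_lit 285) (nat_lit 257) (nat_lit 178)) (XT.lf (nat_lit 0) (nat_lit 12583084937) (nat_lit 152) (nat_lit 28972437096) (nat_lit 76) (nat_lit 25399794875) (nat_lit 14) (nat_lit 5) (nat_lit 16) (nat_lit 5) (nat_lit 15) (nat_lit 5) (nat_lit 286) (nat_lit 257) (nat_lit 177))))) (XT.nd (nat_lit 312) (nat_lit 228) (nat_lit 0) (XT.nd (nat_lit 156) (nat_lit 76) (nat_lit 0) (XT.nd (nat_lit 78) (nat_lit 152) (nat_lit 0) (XT.lf (nat_lit 0) (nat_lit 23481324346) (nat_lit 152) (nat_lit 1524250065) (nat_lit 76) (nat_lit 46287279954) (nat_lit 14) (nat_lit 5) (nat_lit 16) (nat_lit 5) (nat_lit 15) (nat_lit 5) (nat_lit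 287) (nat_lit 257) (nat_lit 176)) (XT.lf (nat_lit 0) (nat_lit 29040397497) (nat_lit 152) (nat_lit 6658604640) (nat_lit 228) (nat_lit 40256033942) (nat_lit 12) (nat_lit 5) (nat_lit 14) (nat_lit 5) (nat_lit 15) (nat_lit 5) (nat_lit 288) (nat_lit 257) (nat_lit 175))) (XT.nd (nat_lit 78) (nat_lit 76) (nat_lit 0) (XT.lf (nat_lit 0) (nat_lit 49120914729) (nat_lit 228) (nat_lit 19098788443) (nat_lit 76) (nat_lit 12759166853) (nat_lit 12) (nat_lit 5) (nat_lit 15) (nat_lit 5) (nat_lit 13) (nat_lit 4) (nat_lit 289) (nat_lit 257) (nat_lit 174)) (XT.lf (nat_lit 0) (nat_lit 11179791608) (nat_lit 76) (nat_lit 52718455343) (nat_lit 152) (nat_lit 22492297742) (nat_lit 11) (nat_lit 5) (nat_lit 12) (nat_lit 5) (nat_lit 13) (nat_lit 4) (nat_lit 290) (nat_lit 257) (nat_lit 173)))) (XT.nd (nat_lit 156) (nat_lit 228) (nat_lit 0) (XT.nd (nat_lit 78) (nat_lit 0) (nat_lit 0) (XT.lf (nat_lit 0) (nat_lit 44554935991)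 (nat_lit 76) (nat_lit 35630622133) (nat_lit 152) (nat_lit 12033221644) (nat_lit 11) (nat_lit 5) (nat_lit 12) (nat_lit 5) (nat_lit 13) (nat_lit 4) (nat_lit 291) (nat_lit 257) (nat_lit 172)) (XT.lf (nat_lit 0) (nat_lit 80592931141) (nat_lit 76) (nat_lit 17178389533) (nat_lit 152) (nat_lit 742194516) (nat_lit 11) (nat_lit 5) (nat_lit 12) (nat_lit 5) (nat_lit 13) (nat_lit 4) (nat_lit 292) (nat_lit 257) (nat_lit 171))) (XT.nd (nat_lit 78) (nat_lit 0) (nat_lit 0) (XT.lf (nat_lit 0) (nat_lit 11356902863) (nat_lit 228) (nat_lit 90861344205) (nat_lit 76) (nat_lit 3071089138) (nat_lit 8) (nat_lit 5) (nat_lit 11) (nat_lit 5) (nat_lit 9) (nat_lit 4) (nat_lit 293) (nat_lit 257) (nat_lit 170)) (XT.lf (nat_lit 0) (nat_lit 25001112266) (nat_lit 228) (nat_lit 62901181058) (nat_lit 76) (nat_lit 24674174007) (nat_lit 8) (nat_lit 5) (nat_lit 11) (nat_lit 5) (nat_lit 9) (nat_lit 4) (nat_lit 294) (nat_lit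 257) (nat_lit 169)))))) (XT.nd (nat_lit 624) (nat_lit 152) (nat_lit 0) (XT.nd (nat_lit 312) (nat_lit 76) (nat_lit 0) (XT.nd (nat_lit 156) (nat_lit 76) (nat_lit 0) (XT.nd (nat_lit 78) (nat_lit 0) (nat_lit 0) (XT.lf (nat_lit 0) (nat_lit 39733060255) (nat_lit 228) (nat_lit 32710378539) (nat_lit 76) (nat_lit 48003331295) (nat_lit 8) (nat_lit 5) (nat_lit 11) (nat_lit 5) (nat_lit 9) (nat_lit 4) (nat_lit 295) (nat_lit 257) (nat_lit 168)) (XT.lf (nat_lit 0) (nat_lit 55640047263) (nat_lit 228) (nat_lit 110028190) (nat_lit 76) (nat_lit 73196807862) (nat_lit 8) (nat_lit 5) (nat_lit 11) (nat_lit 5) (nat_lit 9) (nat_lit 4) (nat_lit 296) (nat_lit 257) (nat_lit 167))) (XT.nd (nat_lit 78) (nat_lit 0) (nat_lit 0) (XT.lf (nat_lit 0) (nat_lit 36253392209) (nat_lit 76) (nat_lit 37128961761) (nat_lit 152) (nat_lit 64716523226) (nat_lit 7) (nat_lit 5) (nat_lit 8) (nat_lit 5) (nat_lit 9) (nat_lit 4) (nat_lit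 297) (nat_lit 257) (nat_lit 166)) (XT.lf (nat_lit 0) (nat_lit 75524752400) (nat_lit 76) (nat_lit 17018115281) (nat_lit 152) (nat_lit 55440230704) (nat_lit 7) (nat_lit 5) (nat_lit 8) (nat_lit 5) (nat_lit 9) (nat_lit 4) (nat_lit 298) (nat_lit 257) (nat_lit 165)))) (XT.nd (nat_lit 156) (nat_lit 76) (nat_lit 0) (XT.nd (nat_lit 78) (nat_lit 0) (nat_lit 0) (XT.lf (nat_lit 0) (nat_lit 113306734207) (nat_lit 152) (nat_lit 40798451925) (nat_lit 0) (nat_lit 4549353810) (nat_lit 7) (nat_lit 5) (nat_lit 9) (nat_lit 4) (nat_lit 7) (nat_lit 4) (nat_lit 299) (nat_lit 257) (nat_lit 164)) (XT.lf (nat_lit 0) (nat_lit 136015987477) (nat_lit 152) (nat_lit 6897177412) (nat_lit 0) (nat_lit 27252325712) (nat_lit 7) (nat_lit 5) (nat_lit 9) (nat_lit 4) (nat_lit 7) (nat_lit 4) (nat_lit 300) (nat_lit 257) (nat_lit 163))) (XT.nd (nat_lit 78) (nat_lit 0) (nat_lit 0) (XT.lf (nat_lit 0) (nat_lit 30694489830) (nat_lit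 76) (nat_lit 130324237546) (nat_lit 76) (nat_lit 21554759700) (nat_lit 6) (nat_lit 4) (nat_lit 7) (nat_lit 5) (nat_lit 7) (nat_lit 4) (nat_lit 301) (nat_lit 257) (nat_lit 162)) (XT.lf (nat_lit 0) (nat_lit 71535841089) (nat_lit 76) (nat_lit 116603631274) (nat_lit 76) (nat_lit 7828768168) (nat_lit 6) (nat_lit 4) (nat_lit 7) (nat_lit 5) (nat_lit 7) (nat_lit 4) (nat_lit 302) (nat_lit 257) (nat_lit 161))))) (XT.nd (nat_lit 312) (nat_lit 0) (nat_lit 0) (XT.nd (nat_lit 156) (nat_lit 76) (nat_lit 0) (XT.nd (nat_lit 78) (nat_lit 0) (nat_lit 0) (XT.lf (nat_lit 0) (nat_lit 6769183854) (nat_lit 152) (nat_lit 94903022556) (nat_lit 76) (nat_lit 108757024093) (nat_lit 5) (nat_lit 5) (nat_lit 7) (nat_lit 5) (nat_lit 6) (nat_lit 4) (nat_lit 303) (nat_lit 257) (nat_lit 160)) (XT.lf (nat_lit 0) (nat_lit 22262296397) (nat_lit 152) (nat_lit 63146758836) (nat_lit 76) (nat_lit 140631552459) (nat_lit 5) (nat_lit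 5) (nat_lit 7) (nat_lit 5) (nat_lit 6) (nat_lit 4) (nat_lit 304) (nat_lit 257) (nat_lit 159))) (XT.nd (nat_lit 78) (nat_lit 76) (nat_lit 0) (XT.lf (nat_lit 0) (nat_lit 38992949970) (nat_lit 152) (nat_lit 28853194003) (nat_lit 76) (nat_lit 175054851437) (nat_lit 5) (nat_lit 5) (nat_lit 7) (nat_lit 5) (nat_lit 6) (nat_lit 4) (nat_lit 305) (nat_lit 257) (nat_lit 158)) (XT.lf (nat_lit 0) (nat_lit 8451390336) (nat_lit 76) (nat_lit 48740848739) (nat_lit 152) (nat_lit 203911470498) (nat_lit 4) (nat_lit 5) (nat_lit 5) (nat_lit 5) (nat_lit 6) (nat_lit 4) (nat_lit 306) (nat_lit 257) (nat_lit 157)))) (XT.nd (nat_lit 156) (nat_lit 0) (nat_lit 0) (XT.nd (nat_lit 78) (nat_lit 0) (nat_lit 0) (XT.lf (nat_lit 0) (nat_lit 49767845491) (nat_lit 76) (nat_lit 27580549815) (nat_lit 152) (nat_lit 203389203615) (nat_lit 4) (nat_lit 5) (nat_lit 5) (nat_lit 5) (nat_lit 6) (nat_lit 4) (nat_lit 307) (nat_lit 257)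 (nat_lit 156)) (XT.lf (nat_lit 0) (nat_lit 94386992815) (nat_lit 76) (nat_lit 4728495638) (nat_lit 152) (nat_lit 202826792678) (nat_lit 4) (nat_lit 5) (nat_lit 5) (nat_lit 5) (nat_lit 6) (nat_lit 4) (nat_lit 308) (nat_lit 257) (nat_lit 155))) (XT.nd (nat_lit 78) (nat_lit 0) (nat_lit 0) (XT.lf (nat_lit 0) (nat_lit 122933995558) (nat_lit 152) (nat_lit 182581658369) (nat_lit 0) (nat_lit 19312185308) (nat_lit 4) (nat_lit 5) (nat_lit 6) (nat_lit 4) (nat_lit 4) (nat_lit 4) (nat_lit 309) (nat_lit 257) (nat_lit 154)) (XT.nd (nat_lit 78) (nat_lit 0) (nat_lit 0) (XT.lf (nat_lit 0) (nat_lit 148736366340) (nat_lit 152) (nat_lit 155692174719) (nat_lit 0) (nat_lit 45111785148) (nat_lit 4) (nat_lit 5) (nat_lit 6) (nat_lit 4) (nat_lit 4) (nat_lit 4) (nat_lit 310) (nat_lit 257) (nat_lit 153)) (XT.lf (nat_lit 0) (nat_lit 176601678668) (nat_lit 152) (nat_lit 126653667209) (nat_lit 0) (nat_lit 72974531789)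 (nat_lit 4) (nat_lit 5) (nat_lit 6) (nat_lit 4) (nat_lit 4) (nat_lit 4) (nat_lit 311) (nat_lit 257) (nat_lit 152))))))))
noncomputable def xc87 : XT := (XT.nd (nat_lit 34164) (nat_lit 0) (nat_lit 988) (XT.nd (nat_lit 33462) (nat_lit 0) (nat_lit 3040) (XT.nd (nat_lit 312) (nat_lit 0) (nat_lit 0) (XT.nd (nat_lit 156) (nat_lit 76) (nat_lit 0) (XT.nd (nat_lit 78) (nat_lit 0) (nat_lit 0) (XT.lf (nat_lit 0) (nat_lit 206695060319) (nat_lit 152) (nat_lit 95294055794) (nat_lit 0) (nat_lit 103065537804) (nat_lit 4) (nat_lit 5) (nat_lit 6) (nat_lit 4) (nat_lit 4) (nat_lit 4) (nat_lit 312) (nat_lit 257) (nat_lit 151)) (XT.lf (nat_lit 0) (nat_lit 239194842443) (nat_lit 152) (nat_lit 61427505739) (nat_lit 0) (nat_lit 135563120266) (nat_lit 4) (nat_lit 5) (nat_lit 6) (nat_lit 4) (nat_lit 4) (nat_lit 4) (nat_lit 313) (nat_lit 257) (nat_lit 150))) (XT.nd (nat_lit 78) (nat_lit 76) (nat_lit 0) (XT.lf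 (nat_lit 0) (nat_lit 274293616343) (nat_lit 152) (nat_lit 24853326379) (nat_lit 0) (nat_lit 170659857441) (nat_lit 4) (nat_lit 5) (nat_lit 6) (nat_lit 4) (nat_lit 4) (nat_lit 4) (nat_lit 314) (nat_lit 257) (nat_lit 149)) (XT.lf (nat_lit 0) (nat_lit 15129455216) (nat_lit 76) (nat_lit 297306132731) (nat_lit 76) (nat_lit 193670487974) (nat_lit 3) (nat_lit 4) (nat_lit 4) (nat_lit 5) (nat_lit 4) (nat_lit 4) (nat_lit 315) (nat_lit 257) (nat_lit 148)))) (XT.nd (nat_lit 32994) (nat_lit 0) (nat_lit 4180) (XT.nd (nat_lit 78) (nat_lit 0) (nat_lit 0) (XT.lf (nat_lit 0) (nat_lit 59196862637) (nat_lit 76) (nat_lit 294864110674) (nat_lit 76) (nat_lit 191226719754) (nat_lit 3) (nat_lit 4) (nat_lit 4) (nat_lit 5) (nat_lit 4) (nat_lit 4) (nat_lit 316) (nat_lit 257) (nat_lit 147)) (XT.lf (nat_lit 0) (nat_lit 106788272863) (nat_lit 76) (nat_lit 292227308417) (nat_lit 76) (nat_lit 188588300679) (nat_lit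 3) (nat_lit 4) (nat_lit 4) (nat_lit 5) (nat_lit 4) (nat_lit 4) (nat_lit 317) (nat_lit 257) (nat_lit 146))) (XT.nd (nat_lit 78) (nat_lit 0) (nat_lit 0) (XT.lf (nat_lit 0) (nat_lit 5445106938) (nat_lit 684) (nat_lit 1445154776) (nat_lit 684) (nat_lit 1445154776) (nat_lit 58) (nat_lit 3) (nat_lit 67) (nat_lit 3) (nat_lit 67) (nat_lit 5) (nat_lit 258) (nat_lit 258) (nat_lit 204)) (XT.lf (nat_lit 76) (nat_lit 7671619100) (nat_lit 0) (nat_lit 4092422170) (nat_lit 684) (nat_lit 5549751592) (nat_lit 59) (nat_lit 5) (nat_lit 58) (nat_lit 3) (nat_lit 67) (nat_lit 5) (nat_lit 259) (nat_lit 258) (nat_lit 203))))) (XT.nd (nat_lit 312) (nat_lit 1216) (nat_lit 0) (XT.nd (nat_lit 156) (nat_lit 0) (nat_lit 76) (XT.nd (nat_lit 78) (nat_lit 0) (nat_lit 0) (XT.lf (nat_lit 76) (nat_lit 1091264950) (nat_lit 0) (nat_lit 11752284484) (nat_lit 684) (nat_lit 5158047714) (nat_lit 60) (nat_lit 5) (nat_lit 59)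 (nat_lit 5) (nat_lit 68) (nat_lit 5) (nat_lit 260) (nat_lit 258) (nat_lit 202)) (XT.lf (nat_lit 76) (nat_lit 12937840058) (nat_lit 0) (nat_lit 1277603716) (nat_lit 684) (nat_lit 4518862527) (nat_lit 60) (nat_lit 5) (nat_lit 59) (nat_lit 5) (nat_lit 68) (nat_lit 5) (nat_lit 261) (nat_lit 258) (nat_lit 201))) (XT.nd (nat_lit 78) (nat_lit 0) (nat_lit 76) (XT.lf (nat_lit 76) (nat_lit 6230336723) (nat_lit 0) (nat_lit 9693245786) (nat_lit 684) (nat_lit 3590893368) (nat_lit 61) (nat_lit 5) (nat_lit 60) (nat_lit 5) (nat_lit 69) (nat_lit 5) (nat_lit 262) (nat_lit 258) (nat_lit 200)) (XT.lf (nat_lit 0) (nat_lit 17888582875) (nat_lit 608) (nat_lit 990206590) (nat_lit 684) (nat_lit 1472414891) (nat_lit 61) (nat_lit 5) (nat_lit 69) (nat_lit 5) (nat_lit 70) (nat_lit 5) (nat_lit 263) (nat_lit 258) (nat_lit 199)))) (XT.nd (nat_lit 156) (nat_lit 760) (nat_lit 0) (XT.nd (nat_lit 78) (nat_lit 608) (nat_lit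 0) (XT.lf (nat_lit 76) (nat_lit 12505870870) (nat_lit 0) (nat_lit 7839920003) (nat_lit 684) (nat_lit 892474180) (nat_lit 62) (nat_lit 5) (nat_lit 61) (nat_lit 5) (nat_lit 70) (nat_lit 5) (nat_lit 264) (nat_lit 258) (nat_lit 198)) (XT.lf (nat_lit 0) (nat_lit 916872131) (nat_lit 684) (nat_lit 17205527126) (nat_lit 76) (nat_lit 4066426669) (nat_lit 53) (nat_lit 5) (nat_lit 62) (nat_lit 5) (nat_lit 54) (nat_lit 5) (nat_lit 265) (nat_lit 258) (nat_lit 197))) (XT.nd (nat_lit 78) (nat_lit 760) (nat_lit 0) (XT.lf (nat_lit 0) (nat_lit 3105685759) (nat_lit 684) (nat_lit 3268210353) (nat_lit 76) (nat_lit 16827622481) (nat_lit 53) (nat_lit 5) (nat_lit 62) (nat_lit 5) (nat_lit 54) (nat_lit 5) (nat_lit 266) (nat_lit 258) (nat_lit 196)) (XT.nd (nat_lit 78) (nat_lit 304) (nat_lit 0) (XT.lf (nat_lit 0) (nat_lit 5741465771) (nat_lit 532) (nat_lit 12232747723) (nat_lit 76) (nat_lit 6307529225) (nat_lit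 47) (nat_lit 5) (nat_lit 54) (nat_lit 5) (nat_lit 48) (nat_lit 5) (nat_lit 267) (nat_lit 258) (nat_lit 195)) (XT.lf (nat_lit 0) (nat_lit 3240412149) (nat_lit 304) (nat_lit 5545194115) (nat_lit 380) (nat_lit 16653004633) (nat_lit 43) (nat_lit 5) (nat_lit 47) (nat_lit 5) (nat_lit 48) (nat_lit 5) (nat_lit 268) (nat_lit 258) (nat_lit 194))))))) (XT.nd (nat_lit 624) (nat_lit 760) (nat_lit 0) (XT.nd (nat_lit 312) (nat_lit 760) (nat_lit 0) (XT.nd (nat_lit 156) (nat_lit 228) (nat_lit 0) (XT.nd (nat_lit 78) (nat_lit 304) (nat_lit 0) (XT.lf (nat_lit 0) (nat_lit 12395534141) (nat_lit 380) (nat_lit 6433453539) (nat_lit 76) (nat_lit 7843021586) (nat_lit 43) (nat_lit 5) (nat_lit 48) (nat_lit 5) (nat_lit 44) (nat_lit 5) (nat_lit 269) (nat_lit 258) (nat_lit 193)) (XT.lf (nat_lit 0) (nat_lit 10829049306) (nat_lit 304) (nat_lit 5711740479) (nat_lit 380) (nat_lit 11451049659) (nat_lit 39) (nat_lit 5)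 (nat_lit 43) (nat_lit 5) (nat_lit 44) (nat_lit 5) (nat_lit 270) (nat_lit 258) (nat_lit 192))) (XT.nd (nat_lit 78) (nat_lit 0) (nat_lit 0) (XT.lf (nat_lit 0) (nat_lit 144805806) (nat_lit 228) (nat_lit 21105919336) (nat_lit 304) (nat_lit 8154958128) (nat_lit 36) (nat_lit 5) (nat_lit 39) (nat_lit 5) (nat_lit 40) (nat_lit 5) (nat_lit 271) (nat_lit 258) (nat_lit 191)) (XT.lf (nat_lit 0) (nat_lit 19334491248) (nat_lit 228) (nat_lit 7382446978) (nat_lit 304) (nat_lit 4196796489) (nat_lit 36) (nat_lit 5) (nat_lit 39) (nat_lit 5) (nat_lit 40) (nat_lit 5) (nat_lit 272) (nat_lit 258) (nat_lit 190)))) (XT.nd (nat_lit 156) (nat_lit 456) (nat_lit 0) (XT.nd (nat_lit 78) (nat_lit 0) (nat_lit 0) (XT.lf (nat_lit 0) (nat_lit 301147249) (nat_lit 304) (nat_lit 24906708527) (nat_lit 76) (nat_lit 7323297769) (nat_lit 32) (nat_lit 5) (nat_lit 36) (nat_lit 5) (nat_lit 33) (nat_lit 5) (nat_lit 273) (nat_lit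 258) (nat_lit 189)) (XT.lf (nat_lit 0) (nat_lit 5330621966) (nat_lit 304) (nat_lit 5703752991) (nat_lit 76) (nat_lit 23224275018) (nat_lit 32) (nat_lit 5) (nat_lit 36) (nat_lit 5) (nat_lit 33) (nat_lit 5) (nat_lit 274) (nat_lit 258) (nat_lit 188))) (XT.nd (nat_lit 78) (nat_lit 228) (nat_lit 0) (XT.lf (nat_lit 0) (nat_lit 11063599554) (nat_lit 304) (nat_lit 20665523555) (nat_lit 76) (nat_lit 4380221908) (nat_lit 29) (nat_lit 5) (nat_lit 33) (nat_lit 5) (nat_lit 30) (nat_lit 5) (nat_lit 275) (nat_lit 258) (nat_lit 187)) (XT.lf (nat_lit 0) (nat_lit 188015203) (nat_lit 228) (nat_lit 17346021480) (nat_lit 304) (nat_lit 20560169897) (nat_lit 26) (nat_lit 5) (nat_lit 29) (nat_lit 5) (nat_lit 30) (nat_lit 5) (nat_lit 276) (nat_lit 258) (nat_lit 186))))) (XT.nd (nat_lit 312) (nat_lit 304) (nat_lit 0) (XT.nd (nat_lit 156) (nat_lit 304) (nat_lit 0) (XT.nd (nat_lit 78) (nat_lit 152) (nat_lit 0)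 (XT.lf (nat_lit 0) (nat_lit 23434340451) (nat_lit 228) (nat_lit 1437206569) (nat_lit 304) (nat_lit 15348886267) (nat_lit 26) (nat_lit 5) (nat_lit 29) (nat_lit 5) (nat_lit 30) (nat_lit 5) (nat_lit 277) (nat_lit 258) (nat_lit 185)) (XT.lf (nat_lit 0) (nat_lit 5955463188) (nat_lit 152) (nat_lit 27169586228) (nat_lit 228) (nat_lit 9375303720) (nat_lit 24) (nat_lit 5) (nat_lit 26) (nat_lit 5) (nat_lit 27) (nat_lit 5) (nat_lit 278) (nat_lit 258) (nat_lit 184))) (XT.nd (nat_lit 78) (nat_lit 304) (nat_lit 0) (XT.lf (nat_lit 0) (nat_lit 31078347659) (nat_lit 152) (nat_lit 11267459977) (nat_lit 228) (nat_lit 2601551421) (nat_lit 24) (nat_lit 5) (nat_lit 26) (nat_lit 5) (nat_lit 27) (nat_lit 5) (nat_lit 279) (nat_lit 258) (nat_lit 183)) (XT.lf (nat_lit 0) (nat_lit 4820554306) (nat_lit 304) (nat_lit 36790696284) (nat_lit 76) (nat_lit 5962364539) (nat_lit 20) (nat_lit 5) (nat_lit 24) (nat_lit 5)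 (nat_lit 21) (nat_lit 5) (nat_lit 280) (nat_lit 258) (nat_lit 182)))) (XT.nd (nat_lit 156) (nat_lit 152) (nat_lit 0) (XT.nd (nat_lit 78) (nat_lit 152) (nat_lit 0) (XT.lf (nat_lit 0) (nat_lit 13173705738) (nat_lit 304) (nat_lit 12745132223) (nat_lit 76) (nat_lit 24467613852) (nat_lit 20) (nat_lit 5) (nat_lit 24) (nat_lit 5) (nat_lit 21) (nat_lit 5) (nat_lit 281) (nat_lit 258) (nat_lit 181)) (XT.lf (nat_lit 0) (nat_lit 13650148358) (nat_lit 152) (nat_lit 8750360165) (nat_lit 228) (nat_lit 31013568147) (nat_lit 18) (nat_lit 5) (nat_lit 20) (nat_lit 5) (nat_lit 21) (nat_lit 5) (nat_lit 282) (nat_lit 258) (nat_lit 180))) (XT.nd (nat_lit 78) (nat_lit 152) (nat_lit 0) (XT.lf (nat_lit 0) (nat_lit 32736626123) (nat_lit 228) (nat_lit 14227843994) (nat_lit 76) (nat_lit 9700911755) (nat_lit 18) (nat_lit 5) (nat_lit 21) (nat_lit 5) (nat_lit 19) (nat_lit 5) (nat_lit 283) (nat_lit 258) (nat_lit 179))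 (XT.nd (nat_lit 78) (nat_lit 0) (nat_lit 0) (XT.lf (nat_lit 0) (nat_lit 13629919565) (nat_lit 152) (nat_lit 30623251509) (nat_lit 228) (nat_lit 15905970267) (nat_lit 16) (nat_lit 5) (nat_lit 18) (nat_lit 5) (nat_lit 19) (nat_lit 5) (nat_lit 284) (nat_lit 258) (nat_lit 178)) (XT.lf (nat_lit 0) (nat_lit 44214903309) (nat_lit 152) (nat_lit 12717522398) (nat_lit 228) (nat_lit 6987931321) (nat_lit 16) (nat_lit 5) (nat_lit 18) (nat_lit 5) (nat_lit 19) (nat_lit 5) (nat_lit 285) (nat_lit 258) (nat_lit 177))))))))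
noncomputable def xc88 : XT := (XT.nd (nat_lit 1248) (nat_lit 304) (nat_lit 0) (XT.nd (nat_lit 624) (nat_lit 304) (nat_lit 0) (XT.nd (nat_lit 312) (nat_lit 76) (nat_lit 0) (XT.nd (nat_lit 156) (nat_lit 152) (nat_lit 0) (XT.nd (nat_lit 78) (nat_lit 0) (nat_lit 0) (XT.lf (nat_lit 0) (nat_lit 2807891550) (nat_lit 152) (nat_lit 58561134155) (nat_lit 76) (nat_lit 6598954896) (nat_lit 14) (nat_lit 5) (nat_lit 16) (nat_lit 5) (nat_lit 15) (nat_lit 5) (nat_lit 286) (nat_lit 258) (nat_lit 176)) (XT.lf (nat_lit 0) (nat_lit 13703331555) (nat_lit 152) (nat_lit 31117210831) (nat_lit 76) (nat_lit 27485125364) (nat_lit 14) (nat_lit 5) (nat_lit 16) (nat_lit 5) (nat_lit 15) (nat_lit 5) (nat_lit 287) (nat_lit 258) (nat_lit 175))) (XT.nd (nat_lit 78) (nat_lit 152) (nat_lit 0) (XT.lf (nat_lit 0) (nat_lit 25465015315) (nat_lit 152) (nat_lit 1485985225) (nat_lit 76) (nat_lit 50039657628) (nat_lit 14) (nat_lit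 5) (nat_lit 16) (nat_lit 5) (nat_lit 15) (nat_lit 5) (nat_lit 288) (nat_lit 258) (nat_lit 174)) (XT.lf (nat_lit 0) (nat_lit 31516871834) (nat_lit 152) (nat_lit 7137836558) (nat_lit 228) (nat_lit 43371403033) (nat_lit 12) (nat_lit 5) (nat_lit 14) (nat_lit 5) (nat_lit 15) (nat_lit 5) (nat_lit 289) (nat_lit 258) (nat_lit 173)))) (XT.nd (nat_lit 156) (nat_lit 0) (nat_lit 0) (XT.nd (nat_lit 78) (nat_lit 76) (nat_lit 0) (XT.lf (nat_lit 0) (nat_lit 53143755212) (nat_lit 228) (nat_lit 20480640155) (nat_lit 76) (nat_lit 13827812714) (nat_lit 12) (nat_lit 5) (nat_lit 15) (nat_lit 5) (nat_lit 13) (nat_lit 4) (nat_lit 290) (nat_lit 258) (nat_lit 172)) (XT.lf (nat_lit 0) (nat_lit 12213879086) (nat_lit 76) (nat_lit 56884674817) (nat_lit 152) (nat_lit 24198522023) (nat_lit 11) (nat_lit 5) (nat_lit 12) (nat_lit 5) (nat_lit 13) (nat_lit 4) (nat_lit 291) (nat_lit 258) (nat_lit 171))) (XT.nd (nat_lit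 78) (nat_lit 0) (nat_lit 0) (XT.lf (nat_lit 0) (nat_lit 48248686565) (nat_lit 76) (nat_lit 38433611761) (nat_lit 152) (nat_lit 12909620543) (nat_lit 11) (nat_lit 5) (nat_lit 12) (nat_lit 5) (nat_lit 13) (nat_lit 4) (nat_lit 292) (nat_lit 258) (nat_lit 170)) (XT.lf (nat_lit 0) (nat_lit 87160139423) (nat_lit 76) (nat_lit 18508716119) (nat_lit 152) (nat_lit 721700788) (nat_lit 11) (nat_lit 5) (nat_lit 12) (nat_lit 5) (nat_lit 13) (nat_lit 4) (nat_lit 293) (nat_lit 258) (nat_lit 169))))) (XT.nd (nat_lit 312) (nat_lit 76) (nat_lit 0) (XT.nd (nat_lit 156) (nat_lit 0) (nat_lit 0) (XT.nd (nat_lit 78) (nat_lit 0) (nat_lit 0) (XT.lf (nat_lit 0) (nat_lit 12339555839) (nat_lit 228) (nat_lit 98009805615) (nat_lit 76) (nat_lit 3359197375) (nat_lit 8) (nat_lit 5) (nat_lit 11) (nat_lit 5) (nat_lit 9) (nat_lit 4) (nat_lit 294) (nat_lit 258) (nat_lit 168)) (XT.lf (nat_lit 0) (nat_lit 27069813050) (nat_lit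 228) (nat_lit 67821751351) (nat_lit 76) (nat_lit 26687386729) (nat_lit 8) (nat_lit 5) (nat_lit 11) (nat_lit 5) (nat_lit 9) (nat_lit 4) (nat_lit 295) (nat_lit 258) (nat_lit 167))) (XT.nd (nat_lit 78) (nat_lit 0) (nat_lit 0) (XT.lf (nat_lit 0) (nat_lit 42975234522) (nat_lit 228) (nat_lit 35223945682) (nat_lit 76) (nat_lit 51879967060) (nat_lit 8) (nat_lit 5) (nat_lit 11) (nat_lit 5) (nat_lit 9) (nat_lit 4) (nat_lit 296) (nat_lit 258) (nat_lit 166)) (XT.lf (nat_lit 0) (nat_lit 60150074606) (nat_lit 228) (nat_lit 23216426) (nat_lit 76) (nat_lit 79086227733) (nat_lit 8) (nat_lit 5) (nat_lit 11) (nat_lit 5) (nat_lit 9) (nat_lit 4) (nat_lit 297) (nat_lit 258) (nat_lit 165)))) (XT.nd (nat_lit 156) (nat_lit 0) (nat_lit 0) (XT.nd (nat_lit 78) (nat_lit 0) (nat_lit 0) (XT.lf (nat_lit 0) (nat_lit 39245122335) (nat_lit 76) (nat_lit 40063714140) (nat_lit 152) (nat_lit 69834995041) (nat_lit 7) (nat_lit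 5) (nat_lit 8) (nat_lit 5) (nat_lit 9) (nat_lit 4) (nat_lit 298) (nat_lit 258) (nat_lit 164)) (XT.lf (nat_lit 0) (nat_lit 81651416620) (nat_lit 76) (nat_lit 18346634354) (nat_lit 152) (nat_lit 59820958379) (nat_lit 7) (nat_lit 5) (nat_lit 8) (nat_lit 5) (nat_lit 9) (nat_lit 4) (nat_lit 299) (nat_lit 258) (nat_lit 163))) (XT.nd (nat_lit 78) (nat_lit 0) (nat_lit 0) (XT.lf (nat_lit 0) (nat_lit 122419669250) (nat_lit 152) (nat_lit 43981858821) (nat_lit 0) (nat_lit 4942817095) (nat_lit 7) (nat_lit 5) (nat_lit 9) (nat_lit 4) (nat_lit 7) (nat_lit 4) (nat_lit 300) (nat_lit 258) (nat_lit 162)) (XT.lf (nat_lit 0) (nat_lit 146942077869) (nat_lit 152) (nat_lit 7374443034) (nat_lit 0) (nat_lit 29459840455) (nat_lit 7) (nat_lit 5) (nat_lit 9) (nat_lit 4) (nat_lit 7) (nat_lit 4) (nat_lit 301) (nat_lit 258) (nat_lit 161)))))) (XT.nd (nat_lit 624) (nat_lit 76) (nat_lit 0) (XT.nd (nat_lit 312) (nat_lit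 76) (nat_lit 0) (XT.nd (nat_lit 156) (nat_lit 76) (nat_lit 0) (XT.nd (nat_lit 78) (nat_lit 0) (nat_lit 0) (XT.lf (nat_lit 0) (nat_lit 33221319537) (nat_lit 76) (nat_lit 140721510794) (nat_lit 76) (nat_lit 23234287027) (nat_lit 6) (nat_lit 4) (nat_lit 7) (nat_lit 5) (nat_lit 7) (nat_lit 4) (nat_lit 302) (nat_lit 258) (nat_lit 160)) (XT.lf (nat_lit 0) (nat_lit 77324699598) (nat_lit 76) (nat_lit 125905379409) (nat_lit 76) (nat_lit 8413538650) (nat_lit 6) (nat_lit 4) (nat_lit 7) (nat_lit 5) (nat_lit 7) (nat_lit 4) (nat_lit 303) (nat_lit 258) (nat_lit 159))) (XT.nd (nat_lit 78) (nat_lit 0) (nat_lit 0) (XT.lf (nat_lit 0) (nat_lit 7347942378) (nat_lit 152) (nat_lit 102432833877) (nat_lit 76) (nat_lit 117480834785) (nat_lit 5) (nat_lit 5) (nat_lit 7) (nat_lit 5) (nat_lit 6) (nat_lit 4) (nat_lit 304) (nat_lit 258) (nat_lit 158)) (XT.lf (nat_lit 0) (nat_lit 24077746604) (nat_lit 152) (nat_lit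 68140693539) (nat_lit 76) (nat_lit 151903603289) (nat_lit 5) (nat_lit 5) (nat_lit 7) (nat_lit 5) (nat_lit 6) (nat_lit 4) (nat_lit 305) (nat_lit 258) (nat_lit 157)))) (XT.nd (nat_lit 156) (nat_lit 0) (nat_lit 0) (XT.nd (nat_lit 78) (nat_lit 76) (nat_lit 0) (XT.lf (nat_lit 0) (nat_lit 42144299390) (nat_lit 152) (nat_lit 31107925446) (nat_lit 76) (nat_lit 189079171620) (nat_lit 5) (nat_lit 5) (nat_lit 7) (nat_lit 5) (nat_lit 6) (nat_lit 4) (nat_lit 306) (nat_lit 258) (nat_lit 156)) (XT.lf (nat_lit 0) (nat_lit 9178699550) (nat_lit 76) (nat_lit 52619267461) (nat_lit 152) (nat_lit 220192445115) (nat_lit 4) (nat_lit 5) (nat_lit 5) (nat_lit 5) (nat_lit 6) (nat_lit 4) (nat_lit 307) (nat_lit 258) (nat_lit 155))) (XT.nd (nat_lit 78) (nat_lit 0) (nat_lit 0) (XT.lf (nat_lit 0) (nat_lit 53796678674) (nat_lit 76) (nat_lit 29767689006) (nat_lit 152) (nat_lit 219630763031) (nat_lit 4) (nat_lit 5) (nat_lit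 5) (nat_lit 5) (nat_lit 6) (nat_lit 4) (nat_lit 308) (nat_lit 258) (nat_lit 154)) (XT.lf (nat_lit 0) (nat_lit 101981846262) (nat_lit 76) (nat_lit 5088900480) (nat_lit 152) (nat_lit 219025550098) (nat_lit 4) (nat_lit 5) (nat_lit 5) (nat_lit 5) (nat_lit 6) (nat_lit 4) (nat_lit 309) (nat_lit 258) (nat_lit 153))))) (XT.nd (nat_lit 312) (nat_lit 76) (nat_lit 0) (XT.nd (nat_lit 156) (nat_lit 0) (nat_lit 0) (XT.nd (nat_lit 78) (nat_lit 0) (nat_lit 0) (XT.lf (nat_lit 0) (nat_lit 132793065470) (nat_lit 152) (nat_lit 197146541291) (nat_lit 0) (nat_lit 20873181154) (nat_lit 4) (nat_lit 5) (nat_lit 6) (nat_lit 4) (nat_lit 4) (nat_lit 4) (nat_lit 310) (nat_lit 258) (nat_lit 152)) (XT.lf (nat_lit 0) (nat_lit 160657822190) (nat_lit 152) (nat_lit 168108984116) (nat_lit 0) (nat_lit 48735562239) (nat_lit 4) (nat_lit 5) (nat_lit 6) (nat_lit 4) (nat_lit 4) (nat_lit 4) (nat_lit 311) (nat_lit 258) (nat_lit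 151))) (XT.nd (nat_lit 78) (nat_lit 0) (nat_lit 0) (XT.lf (nat_lit 0) (nat_lit 190750689390) (nat_lit 152) (nat_lit 136750252640) (nat_lit 0) (nat_lit 78826229776) (nat_lit 4) (nat_lit 5) (nat_lit 6) (nat_lit 4) (nat_lit 4) (nat_lit 4) (nat_lit 312) (nat_lit 258) (nat_lit 150)) (XT.lf (nat_lit 0) (nat_lit 223249995171) (nat_lit 152) (nat_lit 102884517345) (nat_lit 0) (nat_lit 111323498833) (nat_lit 4) (nat_lit 5) (nat_lit 6) (nat_lit 4) (nat_lit 4) (nat_lit 4) (nat_lit 313) (nat_lit 258) (nat_lit 149)))) (XT.nd (nat_lit 156) (nat_lit 76) (nat_lit 0) (XT.nd (nat_lit 78) (nat_lit 0) (nat_lit 0) (XT.lf (nat_lit 0) (nat_lit 258348328011) (nat_lit 152) (nat_lit 66311092391) (nat_lit 0) (nat_lit 146419945817) (nat_lit 4) (nat_lit 5) (nat_lit 6) (nat_lit 4) (nat_lit 4) (nat_lit 4) (nat_lit 314) (nat_lit 258) (nat_lit 148)) (XT.lf (nat_lit 0) (nat_lit 296253678033) (nat_lit 152) (nat_lit 26813246371)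 (nat_lit 0) (nat_lit 184323549675) (nat_lit 4) (nat_lit 5) (nat_lit 6) (nat_lit 4) (nat_lit 4) (nat_lit 4) (nat_lit 315) (nat_lit 258) (nat_lit 147))) (XT.nd (nat_lit 78) (nat_lit 0) (nat_lit 0) (XT.lf (nat_lit 0) (nat_lit 16366925864) (nat_lit 76) (nat_lit 321079277247) (nat_lit 76) (nat_lit 209147532072) (nat_lit 3) (nat_lit 4) (nat_lit 4) (nat_lit 5) (nat_lit 4) (nat_lit 4) (nat_lit 316) (nat_lit 258) (nat_lit 146)) (XT.nd (nat_lit 32994) (nat_lit 0) (nat_lit 4180) (XT.lf (nat_lit 0) (nat_lit 63957717417) (nat_lit 76) (nat_lit 318442733877) (nat_lit 76) (nat_lit 206509491649) (nat_lit 3) (nat_lit 4) (nat_lit 4) (nat_lit 5) (nat_lit 4) (nat_lit 4) (nat_lit 317) (nat_lit 258) (nat_lit 145)) (XT.lf (nat_lit 0) (nat_lit 6191500287) (nat_lit 684) (nat_lit 1396647492) (nat_lit 684) (nat_lit 1396647492) (nat_lit 58) (nat_lit 3) (nat_lit 67) (nat_lit 3) (nat_lit 67) (nat_lit 5) (nat_lit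 259) (nat_lit 259) (nat_lit 202))))))))
noncomputable def xc89 : XT := (XT.nd (nat_lit 1248) (nat_lit 1596) (nat_lit 0) (XT.nd (nat_lit 624) (nat_lit 1596) (nat_lit 0) (XT.nd (nat_lit 312) (nat_lit 380) (nat_lit 0) (XT.nd (nat_lit 156) (nat_lit 0) (nat_lit 76) (XT.nd (nat_lit 78) (nat_lit 0) (nat_lit 76) (XT.lf (nat_lit 76) (nat_lit 8599323079) (nat_lit 0) (nat_lit 4686270909) (nat_lit 684) (nat_lit 5380733983) (nat_lit 59) (nat_lit 5) (nat_lit 58) (nat_lit 3) (nat_lit 67) (nat_lit 5) (nat_lit 260) (nat_lit 259) (nat_lit 201)) (XT.lf (nat_lit 76) (nat_lit 1514027907) (nat_lit 0) (nat_lit 12895825672) (nat_lit 684) (nat_lit 5001646211) (nat_lit 60) (nat_lit 5) (nat_lit 59) (nat_lit 5) (nat_lit 68) (nat_lit 5) (nat_lit 261) (nat_lit 259) (nat_lit 200))) (XT.nd (nat_lit 78) (nat_lit 0) (nat_lit 76) (XT.lf (nat_lit 76) (nat_lit 14283480004) (nat_lit 0) (nat_lit 1568106855) (nat_lit 684)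 (nat_lit 4353477714) (nat_lit 60) (nat_lit 5) (nat_lit 59) (nat_lit 5) (nat_lit 68) (nat_lit 5) (nat_lit 262) (nat_lit 259) (nat_lit 199)) (XT.lf (nat_lit 76) (nat_lit 7055459585) (nat_lit 0) (nat_lit 10606339584) (nat_lit 684) (nat_lit 3387802671) (nat_lit 61) (nat_lit 5) (nat_lit 60) (nat_lit 5) (nat_lit 69) (nat_lit 5) (nat_lit 263) (nat_lit 259) (nat_lit 198)))) (XT.nd (nat_lit 156) (nat_lit 608) (nat_lit 0) (XT.nd (nat_lit 78) (nat_lit 0) (nat_lit 0) (XT.lf (nat_lit 0) (nat_lit 19747615065) (nat_lit 608) (nat_lit 740833409) (nat_lit 684) (nat_lit 1466847912) (nat_lit 61) (nat_lit 5) (nat_lit 69) (nat_lit 5) (nat_lit 70) (nat_lit 5) (nat_lit 264) (nat_lit 259) (nat_lit 197)) (XT.lf (nat_lit 76) (nat_lit 13820650140) (nat_lit 0) (nat_lit 8553957146) (nat_lit 684) (nat_lit 540247388) (nat_lit 62) (nat_lit 5) (nat_lit 61) (nat_lit 5) (nat_lit 70) (nat_lit 5) (nat_lit 265) (nat_lit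 259) (nat_lit 196))) (XT.nd (nat_lit 78) (nat_lit 0) (nat_lit 0) (XT.lf (nat_lit 0) (nat_lit 1373769329) (nat_lit 684) (nat_lit 18243716773) (nat_lit 76) (nat_lit 4325139845) (nat_lit 53) (nat_lit 5) (nat_lit 62) (nat_lit 5) (nat_lit 54) (nat_lit 5) (nat_lit 266) (nat_lit 259) (nat_lit 195)) (XT.lf (nat_lit 0) (nat_lit 3709277126) (nat_lit 684) (nat_lit 3216470400) (nat_lit 76) (nat_lit 18112164727) (nat_lit 53) (nat_lit 5) (nat_lit 62) (nat_lit 5) (nat_lit 54) (nat_lit 5) (nat_lit 267) (nat_lit 259) (nat_lit 194))))) (XT.nd (nat_lit 312) (nat_lit 532) (nat_lit 0) (XT.nd (nat_lit 156) (nat_lit 304) (nat_lit 0) (XT.nd (nat_lit 78) (nat_lit 304) (nat_lit 0) (XT.lf (nat_lit 0) (nat_lit 6533760887) (nat_lit 532) (nat_lit 12892751919) (nat_lit 76) (nat_lit 6779295435) (nat_lit 47) (nat_lit 5) (nat_lit 54) (nat_lit 5) (nat_lit 48) (nat_lit 5) (nat_lit 268) (nat_lit 259) (nat_lit 193)) (XT.lf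 (nat_lit 0) (nat_lit 3804414096) (nat_lit 304) (nat_lit 5997111795) (nat_lit 380) (nat_lit 17654830504) (nat_lit 43) (nat_lit 5) (nat_lit 47) (nat_lit 5) (nat_lit 48) (nat_lit 5) (nat_lit 269) (nat_lit 259) (nat_lit 192))) (XT.nd (nat_lit 78) (nat_lit 304) (nat_lit 0) (XT.lf (nat_lit 0) (nat_lit 13676937527) (nat_lit 380) (nat_lit 6649757629) (nat_lit 76) (nat_lit 8463022174) (nat_lit 43) (nat_lit 5) (nat_lit 48) (nat_lit 5) (nat_lit 44) (nat_lit 5) (nat_lit 270) (nat_lit 259) (nat_lit 191)) (XT.lf (nat_lit 0) (nat_lit 11980778552) (nat_lit 304) (nat_lit 6156027295) (nat_lit 380) (nat_lit 12079294363) (nat_lit 39) (nat_lit 5) (nat_lit 43) (nat_lit 5) (nat_lit 44) (nat_lit 5) (nat_lit 271) (nat_lit 259) (nat_lit 190)))) (XT.nd (nat_lit 156) (nat_lit 304) (nat_lit 0) (XT.nd (nat_lit 78) (nat_lit 0) (nat_lit 0) (XT.lf (nat_lit 0) (nat_lit 443634004) (nat_lit 228) (nat_lit 22764365699)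 (nat_lit 304) (nat_lit 8535935970) (nat_lit 36) (nat_lit 5) (nat_lit 39) (nat_lit 5) (nat_lit 40) (nat_lit 5) (nat_lit 272) (nat_lit 259) (nat_lit 189)) (XT.lf (nat_lit 0) (nat_lit 21147216968) (nat_lit 228) (nat_lit 7945239787) (nat_lit 304) (nat_lit 4281226498) (nat_lit 36) (nat_lit 5) (nat_lit 39) (nat_lit 5) (nat_lit 40) (nat_lit 5) (nat_lit 273) (nat_lit 259) (nat_lit 188))) (XT.nd (nat_lit 78) (nat_lit 0) (nat_lit 0) (XT.lf (nat_lit 0) (nat_lit 555127794) (nat_lit 304) (nat_lit 26623977379) (nat_lit 76) (nat_lit 7941950919) (nat_lit 32) (nat_lit 5) (nat_lit 36) (nat_lit 5) (nat_lit 33) (nat_lit 5) (nat_lit 274) (nat_lit 259) (nat_lit 187)) (XT.lf (nat_lit 0) (nat_lit 5969931692) (nat_lit 304) (nat_lit 5905175611) (nat_lit 76) (nat_lit 25112577509) (nat_lit 32) (nat_lit 5) (nat_lit 36) (nat_lit 5) (nat_lit 33) (nat_lit 5) (nat_lit 275) (nat_lit 259) (nat_lit 186)))))) (XT.nd (nat_lit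 624) (nat_lit 532) (nat_lit 0) (XT.nd (nat_lit 312) (nat_lit 456) (nat_lit 0) (XT.nd (nat_lit 156) (nat_lit 152) (nat_lit 0) (XT.nd (nat_lit 78) (nat_lit 228) (nat_lit 0) (XT.lf (nat_lit 0) (nat_lit 12150256318) (nat_lit 304) (nat_lit 22064650321) (nat_lit 76) (nat_lit 4772168500) (nat_lit 29) (nat_lit 5) (nat_lit 33) (nat_lit 5) (nat_lit 30) (nat_lit 5) (nat_lit 276) (nat_lit 259) (nat_lit 185)) (XT.lf (nat_lit 0) (nat_lit 446128004) (nat_lit 228) (nat_lit 18681064419) (nat_lit 304) (nat_lit 22004159561) (nat_lit 26) (nat_lit 5) (nat_lit 29) (nat_lit 5) (nat_lit 30) (nat_lit 5) (nat_lit 277) (nat_lit 259) (nat_lit 184))) (XT.nd (nat_lit 78) (nat_lit 152) (nat_lit 0) (XT.lf (nat_lit 0) (nat_lit 25534153970) (nat_lit 228) (nat_lit 1503443484) (nat_lit 304) (nat_lit 16390849087) (nat_lit 26) (nat_lit 5) (nat_lit 29) (nat_lit 5) (nat_lit 30) (nat_lit 5) (nat_lit 278) (nat_lit 259) (nat_lit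 183)) (XT.lf (nat_lit 0) (nat_lit 6655660802) (nat_lit 152) (nat_lit 29286856129) (nat_lit 228) (nat_lit 9948745838) (nat_lit 24) (nat_lit 5) (nat_lit 26) (nat_lit 5) (nat_lit 27) (nat_lit 5) (nat_lit 279) (nat_lit 259) (nat_lit 182)))) (XT.nd (nat_lit 156) (nat_lit 152) (nat_lit 0) (XT.nd (nat_lit 78) (nat_lit 304) (nat_lit 0) (XT.lf (nat_lit 0) (nat_lit 33771801175) (nat_lit 152) (nat_lit 12116729925) (nat_lit 228) (nat_lit 2646173517) (nat_lit 24) (nat_lit 5) (nat_lit 26) (nat_lit 5) (nat_lit 27) (nat_lit 5) (nat_lit 280) (nat_lit 259) (nat_lit 181)) (XT.lf (nat_lit 0) (nat_lit 5356770575) (nat_lit 304) (nat_lit 39522885314) (nat_lit 76) (nat_lit 6491711192) (nat_lit 20) (nat_lit 5) (nat_lit 24) (nat_lit 5) (nat_lit 21) (nat_lit 5) (nat_lit 281) (nat_lit 259) (nat_lit 180))) (XT.nd (nat_lit 78) (nat_lit 152) (nat_lit 0) (XT.lf (nat_lit 0) (nat_lit 14367020645) (nat_lit 304) (nat_lit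 13569310697) (nat_lit 76) (nat_lit 26473502118) (nat_lit 20) (nat_lit 5) (nat_lit 24) (nat_lit 5) (nat_lit 21) (nat_lit 5) (nat_lit 282) (nat_lit 259) (nat_lit 179)) (XT.lf (nat_lit 0) (nat_lit 14929099089) (nat_lit 152) (nat_lit 9395459911) (nat_lit 228) (nat_lit 33355521484) (nat_lit 18) (nat_lit 5) (nat_lit 20) (nat_lit 5) (nat_lit 21) (nat_lit 5) (nat_lit 283) (nat_lit 259) (nat_lit 178))))) (XT.nd (nat_lit 312) (nat_lit 228) (nat_lit 0) (XT.nd (nat_lit 156) (nat_lit 152) (nat_lit 0) (XT.nd (nat_lit 78) (nat_lit 152) (nat_lit 0) (XT.lf (nat_lit 0) (nat_lit 35478581575) (nat_lit 228) (nat_lit 15187179305) (nat_lit 76) (nat_lit 10526217098) (nat_lit 18) (nat_lit 5) (nat_lit 21) (nat_lit 5) (nat_lit 19) (nat_lit 5) (nat_lit 284) (nat_lit 259) (nat_lit 177)) (XT.lf (nat_lit 0) (nat_lit 14891430902) (nat_lit 152) (nat_lit 33018577859) (nat_lit 228) (nat_lit 17055587302) (nat_lit 16)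 (nat_lit 5) (nat_lit 18) (nat_lit 5) (nat_lit 19) (nat_lit 5) (nat_lit 285) (nat_lit 259) (nat_lit 176))) (XT.nd (nat_lit 78) (nat_lit 152) (nat_lit 0) (XT.lf (nat_lit 0) (nat_lit 47910537955) (nat_lit 152) (nat_lit 13684429958) (nat_lit 228) (nat_lit 7433206025) (nat_lit 16) (nat_lit 5) (nat_lit 18) (nat_lit 5) (nat_lit 19) (nat_lit 5) (nat_lit 286) (nat_lit 259) (nat_lit 175)) (XT.lf (nat_lit 0) (nat_lit 3137707896) (nat_lit 152) (nat_lit 63085820042) (nat_lit 76) (nat_lit 7176266565) (nat_lit 14) (nat_lit 5) (nat_lit 16) (nat_lit 5) (nat_lit 15) (nat_lit 5) (nat_lit 287) (nat_lit 259) (nat_lit 174)))) (XT.nd (nat_lit 156) (nat_lit 228) (nat_lit 0) (XT.nd (nat_lit 78) (nat_lit 0) (nat_lit 0) (XT.lf (nat_lit 0) (nat_lit 14896991618) (nat_lit 152) (nat_lit 33458249878) (nat_lit 76) (nat_lit 29729671761) (nat_lit 14) (nat_lit 5) (nat_lit 16) (nat_lit 5) (nat_lit 15) (nat_lit 5) (nat_lit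 288) (nat_lit 259) (nat_lit 173)) (XT.lf (nat_lit 0) (nat_lit 27592395743) (nat_lit 152) (nat_lit 1467514211) (nat_lit 76) (nat_lit 54085178726) (nat_lit 14) (nat_lit 5) (nat_lit 16) (nat_lit 5) (nat_lit 15) (nat_lit 5) (nat_lit 289) (nat_lit 259) (nat_lit 172))) (XT.nd (nat_lit 78) (nat_lit 76) (nat_lit 0) (XT.lf (nat_lit 0) (nat_lit 34169602358) (nat_lit 152) (nat_lit 7663033189) (nat_lit 228) (nat_lit 46750997285) (nat_lit 12) (nat_lit 5) (nat_lit 14) (nat_lit 5) (nat_lit 15) (nat_lit 5) (nat_lit 290) (nat_lit 259) (nat_lit 171)) (XT.nd (nat_lit 78) (nat_lit 76) (nat_lit 0) (XT.lf (nat_lit 0) (nat_lit 57475131576) (nat_lit 228) (nat_lit 21993875863) (nat_lit 76) (nat_lit 14975114988) (nat_lit 12) (nat_lit 5) (nat_lit 15) (nat_lit 5) (nat_lit 13) (nat_lit 4) (nat_lit 291) (nat_lit 259) (nat_lit 170)) (XT.lf (nat_lit 0) (nat_lit 13310763204) (nat_lit 76) (nat_lit 61391504226) (nat_lit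 152) (nat_lit 26054534495) (nat_lit 11) (nat_lit 5) (nat_lit 12) (nat_lit 5) (nat_lit 13) (nat_lit 4) (nat_lit 292) (nat_lit 259) (nat_lit 169))))))))
noncomputable def xc90 : XT := (XT.nd (nat_lit 1248) (nat_lit 0) (nat_lit 0) (XT.nd (nat_lit 624) (nat_lit 228) (nat_lit 0) (XT.nd (nat_lit 312) (nat_lit 76) (nat_lit 0) (XT.nd (nat_lit 156) (nat_lit 228) (nat_lit 0) (XT.nd (nat_lit 78) (nat_lit 0) (nat_lit 0) (XT.lf (nat_lit 0) (nat_lit 52219483148) (nat_lit 76) (nat_lit 41467611280) (nat_lit 152) (nat_lit 13868437141) (nat_lit 11) (nat_lit 5) (nat_lit 12) (nat_lit 5) (nat_lit 13) (nat_lit 4) (nat_lit 293) (nat_lit 259) (nat_lit 168)) (XT.lf (nat_lit 0) (nat_lit 94235637298) (nat_lit 76) (nat_lit 19951738017) (nat_lit 152) (nat_lit 710961809) (nat_lit 11) (nat_lit 5) (nat_lit 12) (nat_lit 5) (nat_lit 13) (nat_lit 4) (nat_lit 294) (nat_lit 259) (nat_lit 167))) (XT.nd (nat_lit 78) (nat_lit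 0) (nat_lit 0) (XT.lf (nat_lit 0) (nat_lit 13390249754) (nat_lit 228) (nat_lit 105747326924) (nat_lit 76) (nat_lit 3664302426) (nat_lit 8) (nat_lit 5) (nat_lit 11) (nat_lit 5) (nat_lit 9) (nat_lit 4) (nat_lit 295) (nat_lit 259) (nat_lit 166)) (XT.lf (nat_lit 0) (nat_lit 29294221656) (nat_lit 228) (nat_lit 73151877441) (nat_lit 76) (nat_lit 28856052909) (nat_lit 8) (nat_lit 5) (nat_lit 11) (nat_lit 5) (nat_lit 9) (nat_lit 4) (nat_lit 296) (nat_lit 259) (nat_lit 165)))) (XT.nd (nat_lit 156) (nat_lit 0) (nat_lit 0) (XT.nd (nat_lit 78) (nat_lit 76) (nat_lit 0) (XT.lf (nat_lit 0) (nat_lit 46467719545) (nat_lit 228) (nat_lit 37953329838) (nat_lit 76) (nat_lit 56061545204) (nat_lit 8) (nat_lit 5) (nat_lit 11) (nat_lit 5) (nat_lit 9) (nat_lit 4) (nat_lit 297) (nat_lit 259) (nat_lit 164)) (XT.lf (nat_lit 0) (nat_lit 58781235) (nat_lit 76) (nat_lit 64954648802) (nat_lit 152) (nat_lit 85384133547)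 (nat_lit 7) (nat_lit 5) (nat_lit 8) (nat_lit 5) (nat_lit 9) (nat_lit 4) (nat_lit 298) (nat_lit 259) (nat_lit 163))) (XT.nd (nat_lit 78) (nat_lit 0) (nat_lit 0) (XT.lf (nat_lit 0) (nat_lit 42463143259) (nat_lit 76) (nat_lit 43238320393) (nat_lit 152) (nat_lit 75371340218) (nat_lit 7) (nat_lit 5) (nat_lit 8) (nat_lit 5) (nat_lit 9) (nat_lit 4) (nat_lit 299) (nat_lit 259) (nat_lit 162)) (XT.lf (nat_lit 0) (nat_lit 88256132854) (nat_lit 76) (nat_lit 19786132807) (nat_lit 152) (nat_lit 64559917988) (nat_lit 7) (nat_lit 5) (nat_lit 8) (nat_lit 5) (nat_lit 9) (nat_lit 4) (nat_lit 300) (nat_lit 259) (nat_lit 161))))) (XT.nd (nat_lit 312) (nat_lit 152) (nat_lit 0) (XT.nd (nat_lit 156) (nat_lit 76) (nat_lit 0) (XT.nd (nat_lit 78) (nat_lit 0) (nat_lit 0) (XT.lf (nat_lit 0) (nat_lit 132254734821) (nat_lit 152) (nat_lit 47431418108) (nat_lit 0) (nat_lit 5363546802) (nat_lit 7) (nat_lit 5) (nat_lit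 9) (nat_lit 4) (nat_lit 7) (nat_lit 4) (nat_lit 301) (nat_lit 259) (nat_lit 160)) (XT.lf (nat_lit 0) (nat_lit 158735862647) (nat_lit 152) (nat_lit 7900519385) (nat_lit 0) (nat_lit 31840057634) (nat_lit 7) (nat_lit 5) (nat_lit 9) (nat_lit 4) (nat_lit 7) (nat_lit 4) (nat_lit 302) (nat_lit 259) (nat_lit 159))) (XT.nd (nat_lit 78) (nat_lit 0) (nat_lit 0) (XT.lf (nat_lit 0) (nat_lit 35940128083) (nat_lit 76) (nat_lit 151954655392) (nat_lit 76) (nat_lit 25054575386) (nat_lit 6) (nat_lit 4) (nat_lit 7) (nat_lit 5) (nat_lit 7) (nat_lit 4) (nat_lit 303) (nat_lit 259) (nat_lit 158)) (XT.lf (nat_lit 0) (nat_lit 83567252403) (nat_lit 76) (nat_lit 135955053961) (nat_lit 76) (nat_lit 9051015628) (nat_lit 6) (nat_lit 4) (nat_lit 7) (nat_lit 5) (nat_lit 7) (nat_lit 4) (nat_lit 304) (nat_lit 259) (nat_lit 157)))) (XT.nd (nat_lit 156) (nat_lit 76) (nat_lit 0) (XT.nd (nat_lit 78) (nat_lit 0) (nat_lit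 0) (XT.lf (nat_lit 0) (nat_lit 7967691190) (nat_lit 152) (nat_lit 110573936509) (nat_lit 76) (nat_lit 126899233637) (nat_lit 5) (nat_lit 5) (nat_lit 7) (nat_lit 5) (nat_lit 6) (nat_lit 4) (nat_lit 305) (nat_lit 259) (nat_lit 156)) (XT.lf (nat_lit 0) (nat_lit 26033515798) (nat_lit 152) (nat_lit 73542389691) (nat_lit 76) (nat_lit 164074347172) (nat_lit 5) (nat_lit 5) (nat_lit 7) (nat_lit 5) (nat_lit 6) (nat_lit 4) (nat_lit 306) (nat_lit 259) (nat_lit 155))) (XT.nd (nat_lit 78) (nat_lit 76) (nat_lit 0) (XT.lf (nat_lit 0) (nat_lit 45543203957) (nat_lit 152) (nat_lit 33550671212) (nat_lit 76) (nat_lit 204222593886) (nat_lit 5) (nat_lit 5) (nat_lit 7) (nat_lit 5) (nat_lit 6) (nat_lit 4) (nat_lit 307) (nat_lit 259) (nat_lit 154)) (XT.lf (nat_lit 0) (nat_lit 9956889535) (nat_lit 76) (nat_lit 56810934049) (nat_lit 152) (nat_lit 237780454730) (nat_lit 4) (nat_lit 5) (nat_lit 5) (nat_lit 5) (nat_lit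 6) (nat_lit 4) (nat_lit 308) (nat_lit 259) (nat_lit 153)))))) (XT.nd (nat_lit 33696) (nat_lit 0) (nat_lit 3724) (XT.nd (nat_lit 312) (nat_lit 0) (nat_lit 0) (XT.nd (nat_lit 156) (nat_lit 0) (nat_lit 0) (XT.nd (nat_lit 78) (nat_lit 0) (nat_lit 0) (XT.lf (nat_lit 0) (nat_lit 58141055580) (nat_lit 76) (nat_lit 32132553377) (nat_lit 152) (nat_lit 237175866671) (nat_lit 4) (nat_lit 5) (nat_lit 5) (nat_lit 5) (nat_lit 6) (nat_lit 4) (nat_lit 309) (nat_lit 259) (nat_lit 152)) (XT.lf (nat_lit 0) (nat_lit 110178026011) (nat_lit 76) (nat_lit 5480687751) (nat_lit 152) (nat_lit 236524115030) (nat_lit 4) (nat_lit 5) (nat_lit 5) (nat_lit 5) (nat_lit 6) (nat_lit 4) (nat_lit 310) (nat_lit 259) (nat_lit 151))) (XT.nd (nat_lit 78) (nat_lit 0) (nat_lit 0) (XT.lf (nat_lit 0) (nat_lit 143437387136) (nat_lit 152) (nat_lit 212882556649) (nat_lit 0) (nat_lit 22556771091) (nat_lit 4) (nat_lit 5) (nat_lit 6)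 (nat_lit 4) (nat_lit 4) (nat_lit 4) (nat_lit 311) (nat_lit 259) (nat_lit 150)) (XT.lf (nat_lit 0) (nat_lit 173529777992) (nat_lit 152) (nat_lit 181524639932) (nat_lit 0) (nat_lit 52647125222) (nat_lit 4) (nat_lit 5) (nat_lit 6) (nat_lit 4) (nat_lit 4) (nat_lit 4) (nat_lit 312) (nat_lit 259) (nat_lit 149)))) (XT.nd (nat_lit 156) (nat_lit 0) (nat_lit 0) (XT.nd (nat_lit 78) (nat_lit 0) (nat_lit 0) (XT.lf (nat_lit 0) (nat_lit 206028642714) (nat_lit 152) (nat_lit 147659659043) (nat_lit 0) (nat_lit 85144104088) (nat_lit 4) (nat_lit 5) (nat_lit 6) (nat_lit 4) (nat_lit 4) (nat_lit 4) (nat_lit 313) (nat_lit 259) (nat_lit 148)) (XT.lf (nat_lit 0) (nat_lit 241126567167) (nat_lit 152) (nat_lit 111086932614) (nat_lit 0) (nat_lit 120240282378) (nat_lit 4) (nat_lit 5) (nat_lit 6) (nat_lit 4) (nat_lit 4) (nat_lit 4) (nat_lit 314) (nat_lit 259) (nat_lit 147))) (XT.nd (nat_lit 78) (nat_lit 0) (nat_lit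 0) (XT.lf (nat_lit 0) (nat_lit 279031539051) (nat_lit 152) (nat_lit 71589733376) (nat_lit 0) (nat_lit 158143637444) (nat_lit 4) (nat_lit 5) (nat_lit 6) (nat_lit 4) (nat_lit 4) (nat_lit 4) (nat_lit 315) (nat_lit 259) (nat_lit 146)) (XT.lf (nat_lit 0) (nat_lit 319968180422) (nat_lit 152) (nat_lit 28934003853) (nat_lit 0) (nat_lit 199078781761) (nat_lit 4) (nat_lit 5) (nat_lit 6) (nat_lit 4) (nat_lit 4) (nat_lit 4) (nat_lit 316) (nat_lit 259) (nat_lit 145))))) (XT.nd (nat_lit 312) (nat_lit 380) (nat_lit 0) (XT.nd (nat_lit 156) (nat_lit 0) (nat_lit 76) (XT.nd (nat_lit 78) (nat_lit 0) (nat_lit 0) (XT.lf (nat_lit 0) (nat_lit 6953268178) (nat_lit 684) (nat_lit 1367673130) (nat_lit 684) (nat_lit 1367673130) (nat_lit 58) (nat_lit 3) (nat_lit 67) (nat_lit 3) (nat_lit 67) (nat_lit 5) (nat_lit 260) (nat_lit 260) (nat_lit 200)) (XT.lf (nat_lit 76) (nat_lit 9556451410) (nat_lit 0) (nat_lit 5289614768)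 (nat_lit 684) (nat_lit 5285645944) (nat_lit 59) (nat_lit 5) (nat_lit 58) (nat_lit 3) (nat_lit 67) (nat_lit 5) (nat_lit 261) (nat_lit 260) (nat_lit 199))) (XT.nd (nat_lit 78) (nat_lit 0) (nat_lit 0) (XT.lf (nat_lit 76) (nat_lit 1922754530) (nat_lit 0) (nat_lit 14101838802) (nat_lit 684) (nat_lit 4913913264) (nat_lit 60) (nat_lit 5) (nat_lit 59) (nat_lit 5) (nat_lit 68) (nat_lit 5) (nat_lit 262) (nat_lit 260) (nat_lit 198)) (XT.lf (nat_lit 76) (nat_lit 15692458766) (nat_lit 0) (nat_lit 1854987882) (nat_lit 684) (nat_lit 4250029409) (nat_lit 60) (nat_lit 5) (nat_lit 59) (nat_lit 5) (nat_lit 68) (nat_lit 5) (nat_lit 263) (nat_lit 260) (nat_lit 197)))) (XT.nd (nat_lit 156) (nat_lit 532) (nat_lit 0) (XT.nd (nat_lit 78) (nat_lit 0) (nat_lit 76) (XT.lf (nat_lit 76) (nat_lit 7899985450) (nat_lit 0) (nat_lit 11572845838) (nat_lit 684) (nat_lit 3238420364) (nat_lit 61) (nat_lit 5) (nat_lit 60)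 (nat_lit 5) (nat_lit 69) (nat_lit 5) (nat_lit 264) (nat_lit 260) (nat_lit 196)) (XT.lf (nat_lit 0) (nat_lit 21694318611) (nat_lit 608) (nat_lit 518387369) (nat_lit 684) (nat_lit 1478434283) (nat_lit 61) (nat_lit 5) (nat_lit 69) (nat_lit 5) (nat_lit 70) (nat_lit 5) (nat_lit 265) (nat_lit 260) (nat_lit 195))) (XT.nd (nat_lit 78) (nat_lit 608) (nat_lit 0) (XT.lf (nat_lit 76) (nat_lit 15195771973) (nat_lit 0) (nat_lit 9312728057) (nat_lit 684) (nat_lit 220277257) (nat_lit 62) (nat_lit 5) (nat_lit 61) (nat_lit 5) (nat_lit 70) (nat_lit 5) (nat_lit 266) (nat_lit 260) (nat_lit 194)) (XT.nd (nat_lit 78) (nat_lit 0) (nat_lit 0) (XT.lf (nat_lit 0) (nat_lit 1812500973) (nat_lit 684) (nat_lit 19413217095) (nat_lit 76) (nat_lit 4614051446) (nat_lit 53) (nat_lit 5) (nat_lit 62) (nat_lit 5) (nat_lit 54) (nat_lit 5) (nat_lit 267) (nat_lit 260) (nat_lit 193)) (XT.lf (nat_lit 0) (nat_lit 4310491610) (nat_lit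 684) (nat_lit 3205272273) (nat_lit 76) (nat_lit 19508267917) (nat_lit 53) (nat_lit 5) (nat_lit 62) (nat_lit 5) (nat_lit 54) (nat_lit 5) (nat_lit 268) (nat_lit 260) (nat_lit 192))))))))
noncomputable def xc91 : XT := (XT.nd (nat_lit 1326) (nat_lit 836) (nat_lit 0) (XT.nd (nat_lit 624) (nat_lit 1064) (nat_lit 0) (XT.nd (nat_lit 312) (nat_lit 532) (nat_lit 0) (XT.nd (nat_lit 156) (nat_lit 304) (nat_lit 0) (XT.nd (nat_lit 78) (nat_lit 304) (nat_lit 0) (XT.lf (nat_lit 0) (nat_lit 7341936599) (nat_lit 532) (nat_lit 13651010531) (nat_lit 76) (nat_lit 7293487382) (nat_lit 47) (nat_lit 5) (nat_lit 54) (nat_lit 5) (nat_lit 48) (nat_lit 5) (nat_lit 269) (nat_lit 260) (nat_lit 191)) (XT.lf (nat_lit 0) (nat_lit 4370057497) (nat_lit 304) (nat_lit 6483998496) (nat_lit 380) (nat_lit 18783939767) (nat_lit 43) (nat_lit 5) (nat_lit 47) (nat_lit 5) (nat_lit 48) (nat_lit 5) (nat_lit 270) (nat_lit 260) (nat_lit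 190))) (XT.nd (nat_lit 78) (nat_lit 304) (nat_lit 0) (XT.lf (nat_lit 0) (nat_lit 15019515586) (nat_lit 380) (nat_lit 6925932176) (nat_lit 76) (nat_lit 9133684370) (nat_lit 43) (nat_lit 5) (nat_lit 48) (nat_lit 5) (nat_lit 44) (nat_lit 5) (nat_lit 271) (nat_lit 260) (nat_lit 189)) (XT.lf (nat_lit 0) (nat_lit 13183929880) (nat_lit 304) (nat_lit 6637662065) (nat_lit 380) (nat_lit 12798862133) (nat_lit 39) (nat_lit 5) (nat_lit 43) (nat_lit 5) (nat_lit 44) (nat_lit 5) (nat_lit 272) (nat_lit 260) (nat_lit 188)))) (XT.nd (nat_lit 156) (nat_lit 304) (nat_lit 0) (XT.nd (nat_lit 78) (nat_lit 0) (nat_lit 0) (XT.lf (nat_lit 0) (nat_lit 725389927) (nat_lit 228) (nat_lit 24559771483) (nat_lit 304) (nat_lit 8986112968) (nat_lit 36) (nat_lit 5) (nat_lit 39) (nat_lit 5) (nat_lit 40) (nat_lit 5) (nat_lit 273) (nat_lit 260) (nat_lit 187)) (XT.lf (nat_lit 0) (nat_lit 23067017662) (nat_lit 228) (nat_lit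 8557022423) (nat_lit 304) (nat_lit 4408263618) (nat_lit 36) (nat_lit 5) (nat_lit 39) (nat_lit 5) (nat_lit 40) (nat_lit 5) (nat_lit 274) (nat_lit 260) (nat_lit 186))) (XT.nd (nat_lit 78) (nat_lit 0) (nat_lit 0) (XT.lf (nat_lit 0) (nat_lit 796630581) (nat_lit 304) (nat_lit 28517897774) (nat_lit 76) (nat_lit 8605418557) (nat_lit 32) (nat_lit 5) (nat_lit 36) (nat_lit 5) (nat_lit 33) (nat_lit 5) (nat_lit 275) (nat_lit 260) (nat_lit 185)) (XT.lf (nat_lit 0) (nat_lit 6630019341) (nat_lit 304) (nat_lit 6159073182) (nat_lit 76) (nat_lit 27147612937) (nat_lit 32) (nat_lit 5) (nat_lit 36) (nat_lit 5) (nat_lit 33) (nat_lit 5) (nat_lit 276) (nat_lit 260) (nat_lit 184))))) (XT.nd (nat_lit 312) (nat_lit 456) (nat_lit 0) (XT.nd (nat_lit 156) (nat_lit 152) (nat_lit 0) (XT.nd (nat_lit 78) (nat_lit 228) (nat_lit 0) (XT.lf (nat_lit 0) (nat_lit 13295089580) (nat_lit 304) (nat_lit 23611959591) (nat_lit 76)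 (nat_lit 5189546265) (nat_lit 29) (nat_lit 5) (nat_lit 33) (nat_lit 5) (nat_lit 30) (nat_lit 5) (nat_lit 277) (nat_lit 260) (nat_lit 183)) (XT.lf (nat_lit 0) (nat_lit 690212950) (nat_lit 228) (nat_lit 20130420304) (nat_lit 304) (nat_lit 23592318177) (nat_lit 26) (nat_lit 5) (nat_lit 29) (nat_lit 5) (nat_lit 30) (nat_lit 5) (nat_lit 278) (nat_lit 260) (nat_lit 182))) (XT.nd (nat_lit 78) (nat_lit 152) (nat_lit 0) (XT.lf (nat_lit 0) (nat_lit 27769844348) (nat_lit 228) (nat_lit 1581932603) (nat_lit 304) (nat_lit 17542696505) (nat_lit 26) (nat_lit 5) (nat_lit 29) (nat_lit 5) (nat_lit 30) (nat_lit 5) (nat_lit 279) (nat_lit 260) (nat_lit 181)) (XT.lf (nat_lit 0) (nat_lit 7379952280) (nat_lit 152) (nat_lit 31581539017) (nat_lit 228) (nat_lit 10593254748) (nat_lit 24) (nat_lit 5) (nat_lit 26) (nat_lit 5) (nat_lit 27) (nat_lit 5) (nat_lit 280) (nat_lit 260) (nat_lit 180)))) (XT.nd (nat_lit 156)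 (nat_lit 152) (nat_lit 0) (XT.nd (nat_lit 78) (nat_lit 304) (nat_lit 0) (XT.lf (nat_lit 0) (nat_lit 36651173615) (nat_lit 152) (nat_lit 13041377947) (nat_lit 228) (nat_lit 2717690771) (nat_lit 24) (nat_lit 5) (nat_lit 26) (nat_lit 5) (nat_lit 27) (nat_lit 5) (nat_lit 281) (nat_lit 260) (nat_lit 179)) (XT.lf (nat_lit 0) (nat_lit 5914403376) (nat_lit 304) (nat_lit 42503760488) (nat_lit 76) (nat_lit 7055936196) (nat_lit 20) (nat_lit 5) (nat_lit 24) (nat_lit 5) (nat_lit 21) (nat_lit 5) (nat_lit 282) (nat_lit 260) (nat_lit 178))) (XT.nd (nat_lit 78) (nat_lit 152) (nat_lit 0) (XT.lf (nat_lit 0) (nat_lit 15635911145) (nat_lit 304) (nat_lit 14487304024) (nat_lit 76) (nat_lit 28632945352) (nat_lit 20) (nat_lit 5) (nat_lit 24) (nat_lit 5) (nat_lit 21) (nat_lit 5) (nat_lit 283) (nat_lit 260) (nat_lit 177)) (XT.nd (nat_lit 78) (nat_lit 0) (nat_lit 0) (XT.lf (nat_lit 0) (nat_lit 16283696961) (nat_lit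 152) (nat_lit 10100003881) (nat_lit 228) (nat_lit 35904679840) (nat_lit 18) (nat_lit 5) (nat_lit 20) (nat_lit 5) (nat_lit 21) (nat_lit 5) (nat_lit 284) (nat_lit 260) (nat_lit 176)) (XT.lf (nat_lit 0) (nat_lit 38422342521) (nat_lit 228) (nat_lit 16248782414) (nat_lit 76) (nat_lit 11410523315) (nat_lit 18) (nat_lit 5) (nat_lit 21) (nat_lit 5) (nat_lit 19) (nat_lit 5) (nat_lit 285) (nat_lit 260) (nat_lit 175))))))) (XT.nd (nat_lit 624) (nat_lit 304) (nat_lit 0) (XT.nd (nat_lit 312) (nat_lit 228) (nat_lit 0) (XT.nd (nat_lit 156) (nat_lit 152) (nat_lit 0) (XT.nd (nat_lit 78) (nat_lit 0) (nat_lit 0) (XT.lf (nat_lit 0) (nat_lit 16229451282) (nat_lit 152) (nat_lit 35613310169) (nat_lit 228) (nat_lit 18314701137) (nat_lit 16) (nat_lit 5) (nat_lit 18) (nat_lit 5) (nat_lit 19) (nat_lit 5) (nat_lit 286) (nat_lit 260) (nat_lit 174)) (XT.lf (nat_lit 0) (nat_lit 51879219795) (nat_lit 152) (nat_lit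 14735893690) (nat_lit 228) (nat_lit 7930331813) (nat_lit 16) (nat_lit 5) (nat_lit 18) (nat_lit 5) (nat_lit 19) (nat_lit 5) (nat_lit 287) (nat_lit 260) (nat_lit 173))) (XT.nd (nat_lit 78) (nat_lit 0) (nat_lit 0) (XT.lf (nat_lit 0) (nat_lit 3478903730) (nat_lit 152) (nat_lit 67995335813) (nat_lit 76) (nat_lit 7792716379) (nat_lit 14) (nat_lit 5) (nat_lit 16) (nat_lit 5) (nat_lit 15) (nat_lit 5) (nat_lit 288) (nat_lit 260) (nat_lit 172)) (XT.lf (nat_lit 0) (nat_lit 16172250209) (nat_lit 152) (nat_lit 36007734097) (nat_lit 76) (nat_lit 32147257066) (nat_lit 14) (nat_lit 5) (nat_lit 16) (nat_lit 5) (nat_lit 15) (nat_lit 5) (nat_lit 289) (nat_lit 260) (nat_lit 171)))) (XT.nd (nat_lit 156) (nat_lit 76) (nat_lit 0) (XT.nd (nat_lit 78) (nat_lit 152) (nat_lit 0) (XT.lf (nat_lit 0) (nat_lit 29877101533) (nat_lit 152) (nat_lit 1467160004) (nat_lit 76) (nat_lit 58448300028) (nat_lit 14) (nat_lit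 5) (nat_lit 16) (nat_lit 5) (nat_lit 15) (nat_lit 5) (nat_lit 290) (nat_lit 260) (nat_lit 170)) (XT.lf (nat_lit 0) (nat_lit 37015808386) (nat_lit 152) (nat_lit 8236783755) (nat_lit 228) (nat_lit 50413815416) (nat_lit 12) (nat_lit 5) (nat_lit 14) (nat_lit 5) (nat_lit 15) (nat_lit 5) (nat_lit 291) (nat_lit 260) (nat_lit 169))) (XT.nd (nat_lit 78) (nat_lit 76) (nat_lit 0) (XT.lf (nat_lit 0) (nat_lit 62141622852) (nat_lit 228) (nat_lit 23646033819) (nat_lit 76) (nat_lit 16208341314) (nat_lit 12) (nat_lit 5) (nat_lit 15) (nat_lit 5) (nat_lit 13) (nat_lit 4) (nat_lit 292) (nat_lit 260) (nat_lit 168)) (XT.lf (nat_lit 0) (nat_lit 14478310981) (nat_lit 76) (nat_lit 66265149173) (nat_lit 152) (nat_lit 28070422213) (nat_lit 11) (nat_lit 5) (nat_lit 12) (nat_lit 5) (nat_lit 13) (nat_lit 4) (nat_lit 293) (nat_lit 260) (nat_lit 167))))) (XT.nd (nat_lit 312) (nat_lit 76) (nat_lit 0) (XT.nd (nat_lit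 156) (nat_lit 228) (nat_lit 0) (XT.nd (nat_lit 78) (nat_lit 0) (nat_lit 0) (XT.lf (nat_lit 0) (nat_lit 56492122097) (nat_lit 76) (nat_lit 44750135561) (nat_lit 152) (nat_lit 14914509296) (nat_lit 11) (nat_lit 5) (nat_lit 12) (nat_lit 5) (nat_lit 13) (nat_lit 4) (nat_lit 294) (nat_lit 260) (nat_lit 166)) (XT.lf (nat_lit 0) (nat_lit 101862525593) (nat_lit 76) (nat_lit 21515576483) (nat_lit 152) (nat_lit 709132441) (nat_lit 11) (nat_lit 5) (nat_lit 12) (nat_lit 5) (nat_lit 13) (nat_lit 4) (nat_lit 295) (nat_lit 260) (nat_lit 165))) (XT.nd (nat_lit 78) (nat_lit 0) (nat_lit 0) (XT.lf (nat_lit 0) (nat_lit 14515935995) (nat_lit 228) (nat_lit 114118581579) (nat_lit 76) (nat_lit 3988627400) (nat_lit 8) (nat_lit 5) (nat_lit 11) (nat_lit 5) (nat_lit 9) (nat_lit 4) (nat_lit 296) (nat_lit 260) (nat_lit 164)) (XT.lf (nat_lit 0) (nat_lit 31688191111) (nat_lit 228) (nat_lit 78922054026) (nat_lit 76)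 (nat_lit 31193408234) (nat_lit 8) (nat_lit 5) (nat_lit 11) (nat_lit 5) (nat_lit 9) (nat_lit 4) (nat_lit 297) (nat_lit 260) (nat_lit 163)))) (XT.nd (nat_lit 156) (nat_lit 0) (nat_lit 0) (XT.nd (nat_lit 78) (nat_lit 76) (nat_lit 0) (XT.lf (nat_lit 0) (nat_lit 50231833149) (nat_lit 228) (nat_lit 40913694735) (nat_lit 76) (nat_lit 60573201313) (nat_lit 8) (nat_lit 5) (nat_lit 11) (nat_lit 5) (nat_lit 9) (nat_lit 4) (nat_lit 298) (nat_lit 260) (nat_lit 162)) (XT.lf (nat_lit 0) (nat_lit 136086638) (nat_lit 76) (nat_lit 70122788411) (nat_lit 152) (nat_lit 92168147170) (nat_lit 7) (nat_lit 5) (nat_lit 8) (nat_lit 5) (nat_lit 9) (nat_lit 4) (nat_lit 299) (nat_lit 260) (nat_lit 161))) (XT.nd (nat_lit 78) (nat_lit 0) (nat_lit 0) (XT.lf (nat_lit 0) (nat_lit 45927419631) (nat_lit 76) (nat_lit 46671245010) (nat_lit 152) (nat_lit 81357790897) (nat_lit 7) (nat_lit 5) (nat_lit 8) (nat_lit 5) (nat_lit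 9) (nat_lit 4) (nat_lit 300) (nat_lit 260) (nat_lit 160)) (XT.nd (nat_lit 78) (nat_lit 0) (nat_lit 0) (XT.lf (nat_lit 0) (nat_lit 95378868770) (nat_lit 76) (nat_lit 21344818788) (nat_lit 152) (nat_lit 69684659077) (nat_lit 7) (nat_lit 5) (nat_lit 8) (nat_lit 5) (nat_lit 9) (nat_lit 4) (nat_lit 301) (nat_lit 260) (nat_lit 159)) (XT.lf (nat_lit 0) (nat_lit 142870686337) (nat_lit 152) (nat_lit 51166784251) (nat_lit 0) (nat_lit 5814324937) (nat_lit 7) (nat_lit 5) (nat_lit 9) (nat_lit 4) (nat_lit 7) (nat_lit 4) (nat_lit 302) (nat_lit 260) (nat_lit 158))))))))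
noncomputable def xc92 : XT := (XT.nd (nat_lit 34398) (nat_lit 0) (nat_lit 1672) (XT.nd (nat_lit 624) (nat_lit 0) (nat_lit 0) (XT.nd (nat_lit 312) (nat_lit 76) (nat_lit 0) (XT.nd (nat_lit 156) (nat_lit 76) (nat_lit 0) (XT.nd (nat_lit 78) (nat_lit 76) (nat_lit 0) (XT.lf (nat_lit 0) (nat_lit 171467669371) (nat_lit 152) (nat_lit 8477794912) (nat_lit 0) (nat_lit 34407349645) (nat_lit 7) (nat_lit 5) (nat_lit 9) (nat_lit 4) (nat_lit 7) (nat_lit 4) (nat_lit 303) (nat_lit 260) (nat_lit 157)) (XT.lf (nat_lit 0) (nat_lit 38867724290) (nat_lit 76) (nat_lit 164089957637) (nat_lit 76) (nat_lit 27025972793) (nat_lit 6) (nat_lit 4) (nat_lit 7) (nat_lit 5) (nat_lit 7) (nat_lit 4) (nat_lit 304) (nat_lit 260) (nat_lit 156))) (XT.nd (nat_lit 78) (nat_lit 76) (nat_lit 0) (XT.lf (nat_lit 0) (nat_lit 90301138114) (nat_lit 76) (nat_lit 146811948846) (nat_lit 76) (nat_lit 9744570375) (nat_lit 6) (nat_lit 4)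 (nat_lit 7) (nat_lit 5) (nat_lit 7) (nat_lit 4) (nat_lit 305) (nat_lit 260) (nat_lit 155)) (XT.lf (nat_lit 0) (nat_lit 8632467101) (nat_lit 152) (nat_lit 119373963161) (nat_lit 76) (nat_lit 137068260864) (nat_lit 5) (nat_lit 5) (nat_lit 7) (nat_lit 5) (nat_lit 6) (nat_lit 4) (nat_lit 306) (nat_lit 260) (nat_lit 154)))) (XT.nd (nat_lit 156) (nat_lit 76) (nat_lit 0) (XT.nd (nat_lit 78) (nat_lit 0) (nat_lit 0) (XT.lf (nat_lit 0) (nat_lit 28141530965) (nat_lit 152) (nat_lit 79383291728) (nat_lit 76) (nat_lit 177216117664) (nat_lit 5) (nat_lit 5) (nat_lit 7) (nat_lit 5) (nat_lit 6) (nat_lit 4) (nat_lit 307) (nat_lit 260) (nat_lit 153)) (XT.lf (nat_lit 0) (nat_lit 49210117591) (nat_lit 152) (nat_lit 36195383114) (nat_lit 76) (nat_lit 220575052062) (nat_lit 5) (nat_lit 5) (nat_lit 7) (nat_lit 5) (nat_lit 6) (nat_lit 4) (nat_lit 308) (nat_lit 260) (nat_lit 152))) (XT.nd (nat_lit 78) (nat_lit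 0) (nat_lit 0) (XT.lf (nat_lit 0) (nat_lit 10791072747) (nat_lit 76) (nat_lit 61340484005) (nat_lit 152) (nat_lit 256779412033) (nat_lit 4) (nat_lit 5) (nat_lit 5) (nat_lit 5) (nat_lit 6) (nat_lit 4) (nat_lit 309) (nat_lit 260) (nat_lit 151)) (XT.lf (nat_lit 0) (nat_lit 62827184516) (nat_lit 76) (nat_lit 34688968048) (nat_lit 152) (nat_lit 256128196120) (nat_lit 4) (nat_lit 5) (nat_lit 5) (nat_lit 5) (nat_lit 6) (nat_lit 4) (nat_lit 310) (nat_lit 260) (nat_lit 150))))) (XT.nd (nat_lit 312) (nat_lit 0) (nat_lit 0) (XT.nd (nat_lit 156) (nat_lit 0) (nat_lit 0) (XT.nd (nat_lit 78) (nat_lit 0) (nat_lit 0) (XT.lf (nat_lit 0) (nat_lit 119024531508) (nat_lit 76) (nat_lit 5906004252) (nat_lit 152) (nat_lit 255425914709) (nat_lit 4) (nat_lit 5) (nat_lit 5) (nat_lit 5) (nat_lit 6) (nat_lit 4) (nat_lit 311) (nat_lit 260) (nat_lit 149)) (XT.lf (nat_lit 0) (nat_lit 154930276280) (nat_lit 152) (nat_lit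 229882547373) (nat_lit 0) (nat_lit 24373088708) (nat_lit 4) (nat_lit 5) (nat_lit 6) (nat_lit 4) (nat_lit 4) (nat_lit 4) (nat_lit 312) (nat_lit 260) (nat_lit 148))) (XT.nd (nat_lit 78) (nat_lit 0) (nat_lit 0) (XT.lf (nat_lit 0) (nat_lit 187428732614) (nat_lit 152) (nat_lit 196018265009) (nat_lit 0) (nat_lit 56869798878) (nat_lit 4) (nat_lit 5) (nat_lit 6) (nat_lit 4) (nat_lit 4) (nat_lit 4) (nat_lit 313) (nat_lit 260) (nat_lit 147)) (XT.lf (nat_lit 0) (nat_lit 222526278930) (nat_lit 152) (nat_lit 159446185361) (nat_lit 0) (nat_lit 91965728376) (nat_lit 4) (nat_lit 5) (nat_lit 6) (nat_lit 4) (nat_lit 4) (nat_lit 4) (nat_lit 314) (nat_lit 260) (nat_lit 146)))) (XT.nd (nat_lit 33306) (nat_lit 0) (nat_lit 4104) (XT.nd (nat_lit 78) (nat_lit 0) (nat_lit 0) (XT.lf (nat_lit 0) (nat_lit 260430900687) (nat_lit 152) (nat_lit 119949584995) (nat_lit 0) (nat_lit 129868853080) (nat_lit 4) (nat_lit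 5) (nat_lit 6) (nat_lit 4) (nat_lit 4) (nat_lit 4) (nat_lit 315) (nat_lit 260) (nat_lit 145)) (XT.lf (nat_lit 0) (nat_lit 301367217866) (nat_lit 152) (nat_lit 77294409983) (nat_lit 0) (nat_lit 170803784099) (nat_lit 4) (nat_lit 5) (nat_lit 6) (nat_lit 4) (nat_lit 4) (nat_lit 4) (nat_lit 316) (nat_lit 260) (nat_lit 144))) (XT.nd (nat_lit 78) (nat_lit 0) (nat_lit 0) (XT.lf (nat_lit 0) (nat_lit 7737965734) (nat_lit 684) (nat_lit 1356454127) (nat_lit 684) (nat_lit 1356454127) (nat_lit 58) (nat_lit 3) (nat_lit 67) (nat_lit 3) (nat_lit 67) (nat_lit 5) (nat_lit 261) (nat_lit 261) (nat_lit 198)) (XT.lf (nat_lit 76) (nat_lit 10551748118) (nat_lit 0) (nat_lit 5908636303) (nat_lit 684) (nat_lit 5257925983) (nat_lit 59) (nat_lit 5) (nat_lit 58) (nat_lit 3) (nat_lit 67) (nat_lit 5) (nat_lit 262) (nat_lit 261) (nat_lit 197)))))) (XT.nd (nat_lit 624) (nat_lit 1596) (nat_lit 0) (XT.nd (nat_lit 312)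 (nat_lit 912) (nat_lit 0) (XT.nd (nat_lit 156) (nat_lit 0) (nat_lit 76) (XT.nd (nat_lit 78) (nat_lit 0) (nat_lit 0) (XT.lf (nat_lit 76) (nat_lit 2323149300) (nat_lit 0) (nat_lit 15379460423) (nat_lit 684) (nat_lit 4888761027) (nat_lit 60) (nat_lit 5) (nat_lit 59) (nat_lit 5) (nat_lit 68) (nat_lit 5) (nat_lit 263) (nat_lit 261) (nat_lit 196)) (XT.lf (nat_lit 76) (nat_lit 17176165105) (nat_lit 0) (nat_lit 2141789243) (nat_lit 684) (nat_lit 4202749078) (nat_lit 60) (nat_lit 5) (nat_lit 59) (nat_lit 5) (nat_lit 68) (nat_lit 5) (nat_lit 264) (nat_lit 261) (nat_lit 195))) (XT.nd (nat_lit 78) (nat_lit 0) (nat_lit 76) (XT.lf (nat_lit 76) (nat_lit 8772115542) (nat_lit 0) (nat_lit 12599838703) (nat_lit 684) (nat_lit 3137063163) (nat_lit 61) (nat_lit 5) (nat_lit 60) (nat_lit 5) (nat_lit 69) (nat_lit 5) (nat_lit 265) (nat_lit 261) (nat_lit 194)) (XT.lf (nat_lit 0) (nat_lit 23744416862) (nat_lit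 608) (nat_lit 318335113) (nat_lit 684) (nat_lit 1506035618) (nat_lit 61) (nat_lit 5) (nat_lit 69) (nat_lit 5) (nat_lit 70) (nat_lit 5) (nat_lit 266) (nat_lit 261) (nat_lit 193)))) (XT.nd (nat_lit 156) (nat_lit 380) (nat_lit 0) (XT.nd (nat_lit 78) (nat_lit 0) (nat_lit 76) (XT.lf (nat_lit 0) (nat_lit 71125647) (nat_lit 684) (nat_lit 10049248704) (nat_lit 760) (nat_lit 16570130475) (nat_lit 52) (nat_lit 5) (nat_lit 61) (nat_lit 5) (nat_lit 62) (nat_lit 5) (nat_lit 267) (nat_lit 261) (nat_lit 192)) (XT.lf (nat_lit 0) (nat_lit 2239419860) (nat_lit 684) (nat_lit 20717648760) (nat_lit 76) (nat_lit 4934221870) (nat_lit 53) (nat_lit 5) (nat_lit 62) (nat_lit 5) (nat_lit 54) (nat_lit 5) (nat_lit 268) (nat_lit 261) (nat_lit 191))) (XT.nd (nat_lit 78) (nat_lit 456) (nat_lit 0) (XT.lf (nat_lit 0) (nat_lit 4916366873) (nat_lit 684) (nat_lit 3231485071) (nat_lit 76) (nat_lit 21023601858) (nat_lit 53)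 (nat_lit 5) (nat_lit 62) (nat_lit 5) (nat_lit 54) (nat_lit 5) (nat_lit 269) (nat_lit 261) (nat_lit 190)) (XT.lf (nat_lit 0) (nat_lit 8174040191) (nat_lit 532) (nat_lit 14508899380) (nat_lit 76) (nat_lit 7852830838) (nat_lit 47) (nat_lit 5) (nat_lit 54) (nat_lit 5) (nat_lit 48) (nat_lit 5) (nat_lit 270) (nat_lit 261) (nat_lit 189))))) (XT.nd (nat_lit 312) (nat_lit 760) (nat_lit 0) (XT.nd (nat_lit 156) (nat_lit 532) (nat_lit 0) (XT.nd (nat_lit 78) (nat_lit 0) (nat_lit 0) (XT.lf (nat_lit 0) (nat_lit 4943676392) (nat_lit 304) (nat_lit 7008820704) (nat_lit 380) (nat_lit 20043790427) (nat_lit 43) (nat_lit 5) (nat_lit 47) (nat_lit 5) (nat_lit 48) (nat_lit 5) (nat_lit 271) (nat_lit 261) (nat_lit 188)) (XT.lf (nat_lit 0) (nat_lit 16434059564) (nat_lit 380) (nat_lit 7260694281) (nat_lit 76) (nat_lit 9858909660) (nat_lit 43) (nat_lit 5) (nat_lit 48) (nat_lit 5) (nat_lit 44) (nat_lit 5) (nat_lit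 272) (nat_lit 261) (nat_lit 187))) (XT.nd (nat_lit 78) (nat_lit 228) (nat_lit 0) (XT.lf (nat_lit 0) (nat_lit 14448425687) (nat_lit 304) (nat_lit 7159375122) (nat_lit 380) (nat_lit 13611200649) (nat_lit 39) (nat_lit 5) (nat_lit 43) (nat_lit 5) (nat_lit 44) (nat_lit 5) (nat_lit 273) (nat_lit 261) (nat_lit 186)) (XT.lf (nat_lit 0) (nat_lit 994553841) (nat_lit 228) (nat_lit 26502482325) (nat_lit 304) (nat_lit 9505501079) (nat_lit 36) (nat_lit 5) (nat_lit 39) (nat_lit 5) (nat_lit 40) (nat_lit 5) (nat_lit 274) (nat_lit 261) (nat_lit 185)))) (XT.nd (nat_lit 156) (nat_lit 456) (nat_lit 0) (XT.nd (nat_lit 78) (nat_lit 304) (nat_lit 0) (XT.lf (nat_lit 0) (nat_lit 25107872333) (nat_lit 228) (nat_lit 9221148219) (nat_lit 304) (nat_lit 4576201628) (nat_lit 36) (nat_lit 5) (nat_lit 39) (nat_lit 5) (nat_lit 40) (nat_lit 5) (nat_lit 275) (nat_lit 261) (nat_lit 184)) (XT.lf (nat_lit 0) (nat_lit 1029336134)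 (nat_lit 304) (nat_lit 30596999523) (nat_lit 76) (nat_lit 9317953178) (nat_lit 32) (nat_lit 5) (nat_lit 36) (nat_lit 5) (nat_lit 33) (nat_lit 5) (nat_lit 276) (nat_lit 261) (nat_lit 183))) (XT.nd (nat_lit 78) (nat_lit 456) (nat_lit 0) (XT.lf (nat_lit 0) (nat_lit 7316879320) (nat_lit 304) (nat_lit 6464456377) (nat_lit 76) (nat_lit 29341737838) (nat_lit 32) (nat_lit 5) (nat_lit 36) (nat_lit 5) (nat_lit 33) (nat_lit 5) (nat_lit 277) (nat_lit 261) (nat_lit 182)) (XT.nd (nat_lit 78) (nat_lit 228) (nat_lit 0) (XT.lf (nat_lit 0) (nat_lit 14506855832) (nat_lit 304) (nat_lit 25314134161) (nat_lit 76) (nat_lit 5635234903) (nat_lit 29) (nat_lit 5) (nat_lit 33) (nat_lit 5) (nat_lit 30) (nat_lit 5) (nat_lit 278) (nat_lit 261) (nat_lit 181)) (XT.lf (nat_lit 0) (nat_lit 924094858) (nat_lit 228) (nat_lit 21702162855) (nat_lit 304) (nat_lit 25332092049) (nat_lit 26) (nat_lit 5) (nat_lit 29) (nat_lit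 5) (nat_lit 30) (nat_lit 5) (nat_lit 279) (nat_lit 261) (nat_lit 180))))))))
noncomputable def xc93 : XT := (XT.nd (nat_lit 1248) (nat_lit 532) (nat_lit 0) (XT.nd (nat_lit 624) (nat_lit 380) (nat_lit 0) (XT.nd (nat_lit 312) (nat_lit 304) (nat_lit 0) (XT.nd (nat_lit 156) (nat_lit 304) (nat_lit 0) (XT.nd (nat_lit 78) (nat_lit 152) (nat_lit 0) (XT.lf (nat_lit 0) (nat_lit 30156862333) (nat_lit 228) (nat_lit 1672662143) (nat_lit 304) (nat_lit 18809434835) (nat_lit 26) (nat_lit 5) (nat_lit 29) (nat_lit 5) (nat_lit 30) (nat_lit 5) (nat_lit 280) (nat_lit 261) (nat_lit 179)) (XT.lf (nat_lit 0) (nat_lit 8134819153) (nat_lit 152) (nat_lit 34066682164) (nat_lit 228) (nat_lit 11310921955) (nat_lit 24) (nat_lit 5) (nat_lit 26) (nat_lit 5) (nat_lit 27) (nat_lit 5) (nat_lit 281) (nat_lit 261) (nat_lit 178))) (XT.nd (nat_lit 78) (nat_lit 304) (nat_lit 0) (XT.lf (nat_lit 0) (nat_lit 39735555180) (nat_lit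 152) (nat_lit 14046373392) (nat_lit 228) (nat_lit 2814927169) (nat_lit 24) (nat_lit 5) (nat_lit 26) (nat_lit 5) (nat_lit 27) (nat_lit 5) (nat_lit 282) (nat_lit 261) (nat_lit 177)) (XT.lf (nat_lit 0) (nat_lit 6498230505) (nat_lit 304) (nat_lit 45748921022) (nat_lit 76) (nat_lit 7658895410) (nat_lit 20) (nat_lit 5) (nat_lit 24) (nat_lit 5) (nat_lit 21) (nat_lit 5) (nat_lit 283) (nat_lit 261) (nat_lit 176)))) (XT.nd (nat_lit 156) (nat_lit 152) (nat_lit 0) (XT.nd (nat_lit 78) (nat_lit 152) (nat_lit 0) (XT.lf (nat_lit 0) (nat_lit 16989260758) (nat_lit 304) (nat_lit 15502639915) (nat_lit 76) (nat_lit 30959214608) (nat_lit 20) (nat_lit 5) (nat_lit 24) (nat_lit 5) (nat_lit 21) (nat_lit 5) (nat_lit 284) (nat_lit 261) (nat_lit 175)) (XT.lf (nat_lit 0) (nat_lit 17723798363) (nat_lit 152) (nat_lit 10867629687) (nat_lit 228) (nat_lit 38674787970) (nat_lit 18) (nat_lit 5) (nat_lit 20) (nat_lit 5)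 (nat_lit 21) (nat_lit 5) (nat_lit 285) (nat_lit 261) (nat_lit 174))) (XT.nd (nat_lit 78) (nat_lit 152) (nat_lit 0) (XT.lf (nat_lit 0) (nat_lit 41586557237) (nat_lit 228) (nat_lit 17417193894) (nat_lit 76) (nat_lit 12359552466) (nat_lit 18) (nat_lit 5) (nat_lit 21) (nat_lit 5) (nat_lit 19) (nat_lit 5) (nat_lit 286) (nat_lit 261) (nat_lit 173)) (XT.lf (nat_lit 0) (nat_lit 17653584055) (nat_lit 152) (nat_lit 38422291034) (nat_lit 228) (nat_lit 19689571030) (nat_lit 16) (nat_lit 5) (nat_lit 18) (nat_lit 5) (nat_lit 19) (nat_lit 5) (nat_lit 287) (nat_lit 261) (nat_lit 172))))) (XT.nd (nat_lit 312) (nat_lit 228) (nat_lit 0) (XT.nd (nat_lit 156) (nat_lit 0) (nat_lit 0) (XT.nd (nat_lit 78) (nat_lit 152) (nat_lit 0) (XT.lf (nat_lit 0) (nat_lit 56146017259) (nat_lit 152) (nat_lit 15877650417) (nat_lit 228) (nat_lit 8481141508) (nat_lit 16) (nat_lit 5) (nat_lit 18) (nat_lit 5) (nat_lit 19) (nat_lit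 5) (nat_lit 288) (nat_lit 261) (nat_lit 171)) (XT.lf (nat_lit 0) (nat_lit 3834530159) (nat_lit 152) (nat_lit 73317207334) (nat_lit 76) (nat_lit 8452440693) (nat_lit 14) (nat_lit 5) (nat_lit 16) (nat_lit 5) (nat_lit 15) (nat_lit 5) (nat_lit 289) (nat_lit 261) (nat_lit 170))) (XT.nd (nat_lit 78) (nat_lit 0) (nat_lit 0) (XT.lf (nat_lit 0) (nat_lit 17537617383) (nat_lit 152) (nat_lit 38779320100) (nat_lit 76) (nat_lit 34752655227) (nat_lit 14) (nat_lit 5) (nat_lit 16) (nat_lit 5) (nat_lit 15) (nat_lit 5) (nat_lit 290) (nat_lit 261) (nat_lit 169)) (XT.lf (nat_lit 0) (nat_lit 32333554061) (nat_lit 152) (nat_lit 1483576577) (nat_lit 76) (nat_lit 63155291434) (nat_lit 14) (nat_lit 5) (nat_lit 16) (nat_lit 5) (nat_lit 15) (nat_lit 5) (nat_lit 291) (nat_lit 261) (nat_lit 168)))) (XT.nd (nat_lit 156) (nat_lit 76) (nat_lit 0) (XT.nd (nat_lit 78) (nat_lit 0) (nat_lit 0) (XT.lf (nat_lit 0) (nat_lit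 40073641850) (nat_lit 152) (nat_lit 8862039822) (nat_lit 228) (nat_lit 54380681236) (nat_lit 12) (nat_lit 5) (nat_lit 14) (nat_lit 5) (nat_lit 15) (nat_lit 5) (nat_lit 292) (nat_lit 261) (nat_lit 167)) (XT.lf (nat_lit 0) (nat_lit 67171663886) (nat_lit 228) (nat_lit 25445679391) (nat_lit 76) (nat_lit 17535201630) (nat_lit 12) (nat_lit 5) (nat_lit 15) (nat_lit 5) (nat_lit 13) (nat_lit 4) (nat_lit 293) (nat_lit 261) (nat_lit 166))) (XT.nd (nat_lit 78) (nat_lit 0) (nat_lit 0) (XT.lf (nat_lit 0) (nat_lit 15724613172) (nat_lit 76) (nat_lit 71534060531) (nat_lit 152) (nat_lit 30257349678) (nat_lit 11) (nat_lit 5) (nat_lit 12) (nat_lit 5) (nat_lit 13) (nat_lit 4) (nat_lit 294) (nat_lit 261) (nat_lit 165)) (XT.lf (nat_lit 0) (nat_lit 61093007894) (nat_lit 76) (nat_lit 48300238465) (nat_lit 152) (nat_lit 16053312343) (nat_lit 11) (nat_lit 5) (nat_lit 12) (nat_lit 5) (nat_lit 13) (nat_lit 4) (nat_lit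 295) (nat_lit 261) (nat_lit 164)))))) (XT.nd (nat_lit 624) (nat_lit 228) (nat_lit 0) (XT.nd (nat_lit 312) (nat_lit 76) (nat_lit 0) (XT.nd (nat_lit 156) (nat_lit 0) (nat_lit 0) (XT.nd (nat_lit 78) (nat_lit 228) (nat_lit 0) (XT.lf (nat_lit 0) (nat_lit 110087005446) (nat_lit 76) (nat_lit 23209130064) (nat_lit 152) (nat_lit 715531837) (nat_lit 11) (nat_lit 5) (nat_lit 12) (nat_lit 5) (nat_lit 13) (nat_lit 4) (nat_lit 296) (nat_lit 261) (nat_lit 163)) (XT.lf (nat_lit 0) (nat_lit 15723906915) (nat_lit 228) (nat_lit 123172166615) (nat_lit 76) (nat_lit 4334450084) (nat_lit 8) (nat_lit 5) (nat_lit 11) (nat_lit 5) (nat_lit 9) (nat_lit 4) (nat_lit 297) (nat_lit 261) (nat_lit 162))) (XT.nd (nat_lit 78) (nat_lit 0) (nat_lit 0) (XT.lf (nat_lit 0) (nat_lit 34266483475) (nat_lit 228) (nat_lit 85165539191) (nat_lit 76) (nat_lit 33713633200) (nat_lit 8) (nat_lit 5) (nat_lit 11) (nat_lit 5) (nat_lit 9)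 (nat_lit 4) (nat_lit 298) (nat_lit 261) (nat_lit 161)) (XT.lf (nat_lit 0) (nat_lit 54290414129) (nat_lit 228) (nat_lit 44121717019) (nat_lit 76) (nat_lit 65441976221) (nat_lit 8) (nat_lit 5) (nat_lit 11) (nat_lit 5) (nat_lit 9) (nat_lit 4) (nat_lit 299) (nat_lit 261) (nat_lit 160)))) (XT.nd (nat_lit 156) (nat_lit 0) (nat_lit 0) (XT.nd (nat_lit 78) (nat_lit 0) (nat_lit 0) (XT.lf (nat_lit 0) (nat_lit 209218858) (nat_lit 76) (nat_lit 75708406841) (nat_lit 152) (nat_lit 99501546593) (nat_lit 7) (nat_lit 5) (nat_lit 8) (nat_lit 5) (nat_lit 9) (nat_lit 4) (nat_lit 300) (nat_lit 261) (nat_lit 159)) (XT.lf (nat_lit 0) (nat_lit 49659247728) (nat_lit 76) (nat_lit 50382532904) (nat_lit 152) (nat_lit 87829328659) (nat_lit 7) (nat_lit 5) (nat_lit 8) (nat_lit 5) (nat_lit 9) (nat_lit 4) (nat_lit 301) (nat_lit 261) (nat_lit 158))) (XT.nd (nat_lit 78) (nat_lit 0) (nat_lit 0) (XT.lf (nat_lit 0) (nat_lit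 103062543574) (nat_lit 76) (nat_lit 23031652711) (nat_lit 152) (nat_lit 75225093368) (nat_lit 7) (nat_lit 5) (nat_lit 8) (nat_lit 5) (nat_lit 9) (nat_lit 4) (nat_lit 302) (nat_lit 261) (nat_lit 157)) (XT.lf (nat_lit 0) (nat_lit 154330839126) (nat_lit 152) (nat_lit 55209417709) (nat_lit 0) (nat_lit 6298070377) (nat_lit 7) (nat_lit 5) (nat_lit 9) (nat_lit 4) (nat_lit 7) (nat_lit 4) (nat_lit 303) (nat_lit 261) (nat_lit 156))))) (XT.nd (nat_lit 312) (nat_lit 76) (nat_lit 0) (XT.nd (nat_lit 156) (nat_lit 76) (nat_lit 0) (XT.nd (nat_lit 78) (nat_lit 76) (nat_lit 0) (XT.lf (nat_lit 0) (nat_lit 185213321700) (nat_lit 152) (nat_lit 9109065466) (nat_lit 0) (nat_lit 37177159324) (nat_lit 7) (nat_lit 5) (nat_lit 9) (nat_lit 4) (nat_lit 7) (nat_lit 4) (nat_lit 304) (nat_lit 261) (nat_lit 155)) (XT.lf (nat_lit 0) (nat_lit 42022054750) (nat_lit 76) (nat_lit 177199089959) (nat_lit 76) (nat_lit 29159785336)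 (nat_lit 6) (nat_lit 4) (nat_lit 7) (nat_lit 5) (nat_lit 7) (nat_lit 4) (nat_lit 305) (nat_lit 261) (nat_lit 154))) (XT.nd (nat_lit 78) (nat_lit 76) (nat_lit 0) (XT.lf (nat_lit 0) (nat_lit 97566814827) (nat_lit 76) (nat_lit 158540178561) (nat_lit 76) (nat_lit 10497964448) (nat_lit 6) (nat_lit 4) (nat_lit 7) (nat_lit 5) (nat_lit 7) (nat_lit 4) (nat_lit 306) (nat_lit 261) (nat_lit 153)) (XT.lf (nat_lit 0) (nat_lit 9346521787) (nat_lit 152) (nat_lit 128884538418) (nat_lit 76) (nat_lit 148048372398) (nat_lit 5) (nat_lit 5) (nat_lit 7) (nat_lit 5) (nat_lit 6) (nat_lit 4) (nat_lit 307) (nat_lit 261) (nat_lit 152)))) (XT.nd (nat_lit 156) (nat_lit 76) (nat_lit 0) (XT.nd (nat_lit 78) (nat_lit 0) (nat_lit 0) (XT.lf (nat_lit 0) (nat_lit 30414573181) (nat_lit 152) (nat_lit 85697527478) (nat_lit 76) (nat_lit 191406972508) (nat_lit 5) (nat_lit 5) (nat_lit 7) (nat_lit 5) (nat_lit 6) (nat_lit 4) (nat_lit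 308) (nat_lit 261) (nat_lit 151)) (XT.lf (nat_lit 0) (nat_lit 53167037868) (nat_lit 152) (nat_lit 39057284515) (nat_lit 76) (nat_lit 238233616811) (nat_lit 5) (nat_lit 5) (nat_lit 7) (nat_lit 5) (nat_lit 6) (nat_lit 4) (nat_lit 309) (nat_lit 261) (nat_lit 150))) (XT.nd (nat_lit 78) (nat_lit 0) (nat_lit 0) (XT.lf (nat_lit 0) (nat_lit 11686621982) (nat_lit 76) (nat_lit 66234584207) (nat_lit 152) (nat_lit 277301635472) (nat_lit 4) (nat_lit 5) (nat_lit 5) (nat_lit 5) (nat_lit 6) (nat_lit 4) (nat_lit 310) (nat_lit 261) (nat_lit 149)) (XT.nd (nat_lit 78) (nat_lit 0) (nat_lit 0) (XT.lf (nat_lit 0) (nat_lit 67883232811) (nat_lit 76) (nat_lit 37451920197) (nat_lit 152) (nat_lit 276599813362) (nat_lit 4) (nat_lit 5) (nat_lit 5) (nat_lit 5) (nat_lit 6) (nat_lit 4) (nat_lit 311) (nat_lit 261) (nat_lit 148)) (XT.lf (nat_lit 0) (nat_lit 128574154708) (nat_lit 76) (nat_lit 6367220431) (nat_lit 152)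 (nat_lit 275842730064) (nat_lit 4) (nat_lit 5) (nat_lit 5) (nat_lit 5) (nat_lit 6) (nat_lit 4) (nat_lit 312) (nat_lit 261) (nat_lit 147))))))))
noncomputable def xc94 : XT := (XT.nd (nat_lit 34476) (nat_lit 0) (nat_lit 760) (XT.nd (nat_lit 33852) (nat_lit 0) (nat_lit 2964) (XT.nd (nat_lit 33540) (nat_lit 0) (nat_lit 4104) (XT.nd (nat_lit 156) (nat_lit 0) (nat_lit 0) (XT.nd (nat_lit 78) (nat_lit 0) (nat_lit 0) (XT.lf (nat_lit 0) (nat_lit 167340043181) (nat_lit 152) (nat_lit 248246904757) (nat_lit 0) (nat_lit 26333031766) (nat_lit 4) (nat_lit 5) (nat_lit 6) (nat_lit 4) (nat_lit 4) (nat_lit 4) (nat_lit 313) (nat_lit 261) (nat_lit 146)) (XT.lf (nat_lit 0) (nat_lit 202437239370) (nat_lit 152) (nat_lit 211675423982) (nat_lit 0) (nat_lit 61428730901) (nat_lit 4) (nat_lit 5) (nat_lit 6) (nat_lit 4) (nat_lit 4) (nat_lit 4) (nat_lit 314) (nat_lit 261) (nat_lit 145))) (XT.nd (nat_lit 78) (nat_lit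 0) (nat_lit 0) (XT.lf (nat_lit 0) (nat_lit 240341536935) (nat_lit 152) (nat_lit 172179378127) (nat_lit 0) (nat_lit 99331642306) (nat_lit 4) (nat_lit 5) (nat_lit 6) (nat_lit 4) (nat_lit 4) (nat_lit 4) (nat_lit 315) (nat_lit 261) (nat_lit 144)) (XT.lf (nat_lit 0) (nat_lit 281277553938) (nat_lit 152) (nat_lit 129524716552) (nat_lit 0) (nat_lit 140266375826) (nat_lit 4) (nat_lit 5) (nat_lit 6) (nat_lit 4) (nat_lit 4) (nat_lit 4) (nat_lit 316) (nat_lit 261) (nat_lit 143)))) (XT.nd (nat_lit 156) (nat_lit 0) (nat_lit 76) (XT.nd (nat_lit 78) (nat_lit 0) (nat_lit 0) (XT.lf (nat_lit 0) (nat_lit 8552850130) (nat_lit 684) (nat_lit 1361547228) (nat_lit 684) (nat_lit 1361547228) (nat_lit 58) (nat_lit 3) (nat_lit 67) (nat_lit 3) (nat_lit 67) (nat_lit 5) (nat_lit 262) (nat_lit 262) (nat_lit 196)) (XT.lf (nat_lit 76) (nat_lit 11593745130) (nat_lit 0) (nat_lit 6549239034) (nat_lit 684) (nat_lit 5292267506)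 (nat_lit 59) (nat_lit 5) (nat_lit 58) (nat_lit 3) (nat_lit 67) (nat_lit 5) (nat_lit 263) (nat_lit 262) (nat_lit 195))) (XT.nd (nat_lit 78) (nat_lit 0) (nat_lit 0) (XT.lf (nat_lit 76) (nat_lit 2720399057) (nat_lit 0) (nat_lit 16737967563) (nat_lit 684) (nat_lit 4921266832) (nat_lit 60) (nat_lit 5) (nat_lit 59) (nat_lit 5) (nat_lit 68) (nat_lit 5) (nat_lit 264) (nat_lit 262) (nat_lit 194)) (XT.lf (nat_lit 76) (nat_lit 18745997028) (nat_lit 0) (nat_lit 2431790073) (nat_lit 684) (nat_lit 4206936526) (nat_lit 60) (nat_lit 5) (nat_lit 59) (nat_lit 5) (nat_lit 68) (nat_lit 5) (nat_lit 265) (nat_lit 262) (nat_lit 193))))) (XT.nd (nat_lit 312) (nat_lit 684) (nat_lit 0) (XT.nd (nat_lit 156) (nat_lit 608) (nat_lit 0) (XT.nd (nat_lit 78) (nat_lit 0) (nat_lit 76) (XT.lf (nat_lit 76) (nat_lit 9679758634) (nat_lit 0) (nat_lit 13694558651) (nat_lit 684) (nat_lit 3079016873) (nat_lit 61) (nat_lit 5)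 (nat_lit 60) (nat_lit 5) (nat_lit 69) (nat_lit 5) (nat_lit 266) (nat_lit 262) (nat_lit 192)) (XT.lf (nat_lit 0) (nat_lit 25913648505) (nat_lit 608) (nat_lit 136734669) (nat_lit 684) (nat_lit 1548780635) (nat_lit 61) (nat_lit 5) (nat_lit 69) (nat_lit 5) (nat_lit 70) (nat_lit 5) (nat_lit 267) (nat_lit 262) (nat_lit 191))) (XT.nd (nat_lit 78) (nat_lit 0) (nat_lit 76) (XT.lf (nat_lit 0) (nat_lit 335226893) (nat_lit 684) (nat_lit 10645127250) (nat_lit 760) (nat_lit 17831021764) (nat_lit 52) (nat_lit 5) (nat_lit 61) (nat_lit 5) (nat_lit 62) (nat_lit 5) (nat_lit 268) (nat_lit 262) (nat_lit 190)) (XT.lf (nat_lit 0) (nat_lit 2660273388) (nat_lit 684) (nat_lit 22161904194) (nat_lit 76) (nat_lit 5286989719) (nat_lit 53) (nat_lit 5) (nat_lit 62) (nat_lit 5) (nat_lit 54) (nat_lit 5) (nat_lit 269) (nat_lit 262) (nat_lit 189)))) (XT.nd (nat_lit 156) (nat_lit 304) (nat_lit 0) (XT.nd (nat_lit 78) (nat_lit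 456) (nat_lit 0) (XT.lf (nat_lit 0) (nat_lit 5533472463) (nat_lit 684) (nat_lit 3292636778) (nat_lit 76) (nat_lit 22666628988) (nat_lit 53) (nat_lit 5) (nat_lit 62) (nat_lit 5) (nat_lit 54) (nat_lit 5) (nat_lit 270) (nat_lit 262) (nat_lit 188)) (XT.lf (nat_lit 0) (nat_lit 9037795937) (nat_lit 532) (nat_lit 15468829443) (nat_lit 76) (nat_lit 8460364975) (nat_lit 47) (nat_lit 5) (nat_lit 54) (nat_lit 5) (nat_lit 48) (nat_lit 5) (nat_lit 271) (nat_lit 262) (nat_lit 187))) (XT.nd (nat_lit 78) (nat_lit 0) (nat_lit 0) (XT.lf (nat_lit 0) (nat_lit 5531226655) (nat_lit 304) (nat_lit 7574758124) (nat_lit 380) (nat_lit 21439076479) (nat_lit 43) (nat_lit 5) (nat_lit 47) (nat_lit 5) (nat_lit 48) (nat_lit 5) (nat_lit 272) (nat_lit 262) (nat_lit 186)) (XT.lf (nat_lit 0) (nat_lit 17931382693) (nat_lit 380) (nat_lit 7653524730) (nat_lit 76) (nat_lit 10642933253) (nat_lit 43) (nat_lit 5) (nat_lit 48)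 (nat_lit 5) (nat_lit 44) (nat_lit 5) (nat_lit 273) (nat_lit 262) (nat_lit 185)))))) (XT.nd (nat_lit 624) (nat_lit 912) (nat_lit 0) (XT.nd (nat_lit 312) (nat_lit 456) (nat_lit 0) (XT.nd (nat_lit 156) (nat_lit 304) (nat_lit 0) (XT.nd (nat_lit 78) (nat_lit 228) (nat_lit 0) (XT.lf (nat_lit 0) (nat_lit 15784153494) (nat_lit 304) (nat_lit 7724151960) (nat_lit 380) (nat_lit 14518709136) (nat_lit 39) (nat_lit 5) (nat_lit 43) (nat_lit 5) (nat_lit 44) (nat_lit 5) (nat_lit 274) (nat_lit 262) (nat_lit 184)) (XT.lf (nat_lit 0) (nat_lit 1255130424) (nat_lit 228) (nat_lit 28603758691) (nat_lit 304) (nat_lit 10094901277) (nat_lit 36) (nat_lit 5) (nat_lit 39) (nat_lit 5) (nat_lit 40) (nat_lit 5) (nat_lit 275) (nat_lit 262) (nat_lit 183))) (XT.nd (nat_lit 78) (nat_lit 304) (nat_lit 0) (XT.lf (nat_lit 0) (nat_lit 27284106080) (nat_lit 228) (nat_lit 9941319503) (nat_lit 304) (nat_lit 4783927491) (nat_lit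 36) (nat_lit 5) (nat_lit 39) (nat_lit 5) (nat_lit 40) (nat_lit 5) (nat_lit 276) (nat_lit 262) (nat_lit 182)) (XT.lf (nat_lit 0) (nat_lit 1256551942) (nat_lit 304) (nat_lit 32871294060) (nat_lit 76) (nat_lit 10084052271) (nat_lit 32) (nat_lit 5) (nat_lit 36) (nat_lit 5) (nat_lit 33) (nat_lit 5) (nat_lit 277) (nat_lit 262) (nat_lit 181)))) (XT.nd (nat_lit 156) (nat_lit 228) (nat_lit 0) (XT.nd (nat_lit 78) (nat_lit 228) (nat_lit 0) (XT.lf (nat_lit 0) (nat_lit 8036367552) (nat_lit 304) (nat_lit 6820996752) (nat_lit 76) (nat_lit 31708209123) (nat_lit 32) (nat_lit 5) (nat_lit 36) (nat_lit 5) (nat_lit 33) (nat_lit 5) (nat_lit 278) (nat_lit 262) (nat_lit 180)) (XT.lf (nat_lit 0) (nat_lit 15794426833) (nat_lit 304) (nat_lit 27179129264) (nat_lit 76) (nat_lit 6112223908) (nat_lit 29) (nat_lit 5) (nat_lit 33) (nat_lit 5) (nat_lit 30) (nat_lit 5) (nat_lit 279) (nat_lit 262) (nat_lit 179))) (XT.nd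 (nat_lit 78) (nat_lit 0) (nat_lit 0) (XT.lf (nat_lit 0) (nat_lit 1151198776) (nat_lit 228) (nat_lit 23405164523) (nat_lit 304) (nat_lit 27232106273) (nat_lit 26) (nat_lit 5) (nat_lit 29) (nat_lit 5) (nat_lit 30) (nat_lit 5) (nat_lit 280) (nat_lit 262) (nat_lit 178)) (XT.lf (nat_lit 0) (nat_lit 32711241254) (nat_lit 228) (nat_lit 1775760892) (nat_lit 304) (nat_lit 20197010789) (nat_lit 26) (nat_lit 5) (nat_lit 29) (nat_lit 5) (nat_lit 30) (nat_lit 5) (nat_lit 281) (nat_lit 262) (nat_lit 177))))) (XT.nd (nat_lit 312) (nat_lit 456) (nat_lit 0) (XT.nd (nat_lit 156) (nat_lit 304) (nat_lit 0) (XT.nd (nat_lit 78) (nat_lit 0) (nat_lit 0) (XT.lf (nat_lit 0) (nat_lit 8926611793) (nat_lit 152) (nat_lit 36756540079) (nat_lit 228) (nat_lit 12104518985) (nat_lit 24) (nat_lit 5) (nat_lit 26) (nat_lit 5) (nat_lit 27) (nat_lit 5) (nat_lit 282) (nat_lit 262) (nat_lit 176)) (XT.lf (nat_lit 0) (nat_lit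 43044961732) (nat_lit 152) (nat_lit 15137234505) (nat_lit 228) (nat_lit 2937087337) (nat_lit 24) (nat_lit 5) (nat_lit 26) (nat_lit 5) (nat_lit 27) (nat_lit 5) (nat_lit 283) (nat_lit 262) (nat_lit 175))) (XT.nd (nat_lit 78) (nat_lit 0) (nat_lit 0) (XT.lf (nat_lit 0) (nat_lit 7112974799) (nat_lit 304) (nat_lit 49275826897) (nat_lit 76) (nat_lit 8304601143) (nat_lit 20) (nat_lit 5) (nat_lit 24) (nat_lit 5) (nat_lit 21) (nat_lit 5) (nat_lit 284) (nat_lit 262) (nat_lit 174)) (XT.lf (nat_lit 0) (nat_lit 18436258890) (nat_lit 304) (nat_lit 16619695732) (nat_lit 76) (nat_lit 33466501869) (nat_lit 20) (nat_lit 5) (nat_lit 24) (nat_lit 5) (nat_lit 21) (nat_lit 5) (nat_lit 285) (nat_lit 262) (nat_lit 173)))) (XT.nd (nat_lit 156) (nat_lit 304) (nat_lit 0) (XT.nd (nat_lit 78) (nat_lit 0) (nat_lit 0) (XT.lf (nat_lit 0) (nat_lit 19259505425) (nat_lit 152) (nat_lit 11702425432) (nat_lit 228) (nat_lit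 41681094175) (nat_lit 18) (nat_lit 5) (nat_lit 20) (nat_lit 5) (nat_lit 21) (nat_lit 5) (nat_lit 286) (nat_lit 262) (nat_lit 172)) (XT.lf (nat_lit 0) (nat_lit 44991008663) (nat_lit 228) (nat_lit 18697836969) (nat_lit 76) (nat_lit 13379341428) (nat_lit 18) (nat_lit 5) (nat_lit 21) (nat_lit 5) (nat_lit 19) (nat_lit 5) (nat_lit 287) (nat_lit 262) (nat_lit 171))) (XT.nd (nat_lit 78) (nat_lit 152) (nat_lit 0) (XT.lf (nat_lit 0) (nat_lit 19173704002) (nat_lit 152) (nat_lit 41461708791) (nat_lit 228) (nat_lit 21187313703) (nat_lit 16) (nat_lit 5) (nat_lit 18) (nat_lit 5) (nat_lit 19) (nat_lit 5) (nat_lit 288) (nat_lit 262) (nat_lit 170)) (XT.nd (nat_lit 78) (nat_lit 152) (nat_lit 0) (XT.lf (nat_lit 0) (nat_lit 60737544215) (nat_lit 152) (nat_lit 17116042520) (nat_lit 228) (nat_lit 9087944857) (nat_lit 16) (nat_lit 5) (nat_lit 18) (nat_lit 5) (nat_lit 19) (nat_lit 5) (nat_lit 289) (nat_lit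 262) (nat_lit 169)) (XT.lf (nat_lit 0) (nat_lit 4207576977) (nat_lit 152) (nat_lit 79081627694) (nat_lit 76) (nat_lit 9159763352) (nat_lit 14) (nat_lit 5) (nat_lit 16) (nat_lit 5) (nat_lit 15) (nat_lit 5) (nat_lit 290) (nat_lit 262) (nat_lit 168))))))))
noncomputable def xc95 : XT := (XT.nd (nat_lit 1326) (nat_lit 152) (nat_lit 0) (XT.nd (nat_lit 624) (nat_lit 152) (nat_lit 0) (XT.nd (nat_lit 312) (nat_lit 304) (nat_lit 0) (XT.nd (nat_lit 156) (nat_lit 152) (nat_lit 0) (XT.nd (nat_lit 78) (nat_lit 0) (nat_lit 0) (XT.lf (nat_lit 0) (nat_lit 19002001224) (nat_lit 152) (nat_lit 41788187719) (nat_lit 76) (nat_lit 37561689315) (nat_lit 14) (nat_lit 5) (nat_lit 16) (nat_lit 5) (nat_lit 15) (nat_lit 5) (nat_lit 291) (nat_lit 262) (nat_lit 167)) (XT.lf (nat_lit 0) (nat_lit 34977066580) (nat_lit 152) (nat_lit 1515709010) (nat_lit 76) (nat_lit 68234401480) (nat_lit 14) (nat_lit 5) (nat_lit 16)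 (nat_lit 5) (nat_lit 15) (nat_lit 5) (nat_lit 292) (nat_lit 262) (nat_lit 166))) (XT.nd (nat_lit 78) (nat_lit 0) (nat_lit 0) (XT.lf (nat_lit 0) (nat_lit 43362325373) (nat_lit 152) (nat_lit 9542122149) (nat_lit 228) (nat_lit 58674346114) (nat_lit 12) (nat_lit 5) (nat_lit 14) (nat_lit 5) (nat_lit 15) (nat_lit 5) (nat_lit 293) (nat_lit 262) (nat_lit 165)) (XT.lf (nat_lit 0) (nat_lit 72595732392) (nat_lit 228) (nat_lit 27402426735) (nat_lit 76) (nat_lit 18963903400) (nat_lit 12) (nat_lit 5) (nat_lit 15) (nat_lit 5) (nat_lit 13) (nat_lit 4) (nat_lit 294) (nat_lit 262) (nat_lit 164)))) (XT.nd (nat_lit 156) (nat_lit 228) (nat_lit 0) (XT.nd (nat_lit 78) (nat_lit 0) (nat_lit 0) (XT.lf (nat_lit 0) (nat_lit 17058060031) (nat_lit 76) (nat_lit 77229092836) (nat_lit 152) (nat_lit 32627606452) (nat_lit 11) (nat_lit 5) (nat_lit 12) (nat_lit 5) (nat_lit 13) (nat_lit 4) (nat_lit 295) (nat_lit 262) (nat_lit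 163)) (XT.lf (nat_lit 0) (nat_lit 66050335383) (nat_lit 76) (nat_lit 52138616304) (nat_lit 152) (nat_lit 17290974368) (nat_lit 11) (nat_lit 5) (nat_lit 12) (nat_lit 5) (nat_lit 13) (nat_lit 4) (nat_lit 296) (nat_lit 262) (nat_lit 162))) (XT.nd (nat_lit 78) (nat_lit 228) (nat_lit 0) (XT.lf (nat_lit 0) (nat_lit 118958675934) (nat_lit 76) (nat_lit 25042118582) (nat_lit 152) (nat_lit 729623492) (nat_lit 11) (nat_lit 5) (nat_lit 12) (nat_lit 5) (nat_lit 13) (nat_lit 4) (nat_lit 297) (nat_lit 262) (nat_lit 161)) (XT.lf (nat_lit 0) (nat_lit 17021853796) (nat_lit 228) (nat_lit 132960866650) (nat_lit 76) (nat_lit 4704124895) (nat_lit 8) (nat_lit 5) (nat_lit 11) (nat_lit 5) (nat_lit 9) (nat_lit 4) (nat_lit 298) (nat_lit 262) (nat_lit 160))))) (XT.nd (nat_lit 312) (nat_lit 76) (nat_lit 0) (XT.nd (nat_lit 156) (nat_lit 76) (nat_lit 0) (XT.nd (nat_lit 78) (nat_lit 0) (nat_lit 0) (XT.lf (nat_lit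 0) (nat_lit 37044870975) (nat_lit 228) (nat_lit 91918529275) (nat_lit 76) (nat_lit 36431944971) (nat_lit 8) (nat_lit 5) (nat_lit 11) (nat_lit 5) (nat_lit 9) (nat_lit 4) (nat_lit 299) (nat_lit 262) (nat_lit 159)) (XT.lf (nat_lit 0) (nat_lit 58667970242) (nat_lit 228) (nat_lit 47595664519) (nat_lit 76) (nat_lit 70696983499) (nat_lit 8) (nat_lit 5) (nat_lit 11) (nat_lit 5) (nat_lit 9) (nat_lit 4) (nat_lit 300) (nat_lit 262) (nat_lit 158))) (XT.nd (nat_lit 78) (nat_lit 0) (nat_lit 0) (XT.lf (nat_lit 0) (nat_lit 279321668) (nat_lit 76) (nat_lit 81744327809) (nat_lit 152) (nat_lit 107427331885) (nat_lit 7) (nat_lit 5) (nat_lit 8) (nat_lit 5) (nat_lit 9) (nat_lit 4) (nat_lit 301) (nat_lit 262) (nat_lit 157)) (XT.lf (nat_lit 0) (nat_lit 53681399863) (nat_lit 76) (nat_lit 54393921111) (nat_lit 152) (nat_lit 94823880105) (nat_lit 7) (nat_lit 5) (nat_lit 8) (nat_lit 5) (nat_lit 9) (nat_lit 4)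 (nat_lit 302) (nat_lit 262) (nat_lit 156)))) (XT.nd (nat_lit 156) (nat_lit 76) (nat_lit 0) (XT.nd (nat_lit 78) (nat_lit 0) (nat_lit 0) (XT.lf (nat_lit 0) (nat_lit 111353299205) (nat_lit 76) (nat_lit 24856393793) (nat_lit 152) (nat_lit 81213661164) (nat_lit 7) (nat_lit 5) (nat_lit 8) (nat_lit 5) (nat_lit 9) (nat_lit 4) (nat_lit 303) (nat_lit 262) (nat_lit 155)) (XT.lf (nat_lit 0) (nat_lit 166703453274) (nat_lit 152) (nat_lit 59582696089) (nat_lit 0) (nat_lit 6817862033) (nat_lit 7) (nat_lit 5) (nat_lit 9) (nat_lit 4) (nat_lit 7) (nat_lit 4) (nat_lit 304) (nat_lit 262) (nat_lit 154))) (XT.nd (nat_lit 78) (nat_lit 76) (nat_lit 0) (XT.lf (nat_lit 0) (nat_lit 200054597638) (nat_lit 152) (nat_lit 9797536040) (nat_lit 0) (nat_lit 40166096908) (nat_lit 7) (nat_lit 5) (nat_lit 9) (nat_lit 4) (nat_lit 7) (nat_lit 4) (nat_lit 305) (nat_lit 262) (nat_lit 153)) (XT.nd (nat_lit 78) (nat_lit 0) (nat_lit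 0) (XT.lf (nat_lit 0) (nat_lit 45422324375) (nat_lit 76) (nat_lit 191359529940) (nat_lit 76) (nat_lit 31468335240) (nat_lit 6) (nat_lit 4) (nat_lit 7) (nat_lit 5) (nat_lit 7) (nat_lit 4) (nat_lit 306) (nat_lit 262) (nat_lit 152)) (XT.lf (nat_lit 0) (nat_lit 105407813017) (nat_lit 76) (nat_lit 171209052831) (nat_lit 76) (nat_lit 11315363713) (nat_lit 6) (nat_lit 4) (nat_lit 7) (nat_lit 5) (nat_lit 7) (nat_lit 4) (nat_lit 307) (nat_lit 262) (nat_lit 151))))))) (XT.nd (nat_lit 624) (nat_lit 0) (nat_lit 0) (XT.nd (nat_lit 312) (nat_lit 0) (nat_lit 0) (XT.nd (nat_lit 156) (nat_lit 76) (nat_lit 0) (XT.nd (nat_lit 78) (nat_lit 0) (nat_lit 0) (XT.lf (nat_lit 0) (nat_lit 10114354399) (nat_lit 152) (nat_lit 139161572244) (nat_lit 76) (nat_lit 159904802775) (nat_lit 5) (nat_lit 5) (nat_lit 7) (nat_lit 5) (nat_lit 6) (nat_lit 4) (nat_lit 308) (nat_lit 262) (nat_lit 150)) (XT.lf (nat_lit 0) (nat_lit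 32866360211) (nat_lit 152) (nat_lit 92522098891) (nat_lit 76) (nat_lit 206731160479) (nat_lit 5) (nat_lit 5) (nat_lit 7) (nat_lit 5) (nat_lit 6) (nat_lit 4) (nat_lit 309) (nat_lit 262) (nat_lit 149))) (XT.nd (nat_lit 78) (nat_lit 76) (nat_lit 0) (XT.lf (nat_lit 0) (nat_lit 57437642727) (nat_lit 152) (nat_lit 42152949883) (nat_lit 76) (nat_lit 257303074833) (nat_lit 5) (nat_lit 5) (nat_lit 7) (nat_lit 5) (nat_lit 6) (nat_lit 4) (nat_lit 310) (nat_lit 262) (nat_lit 148)) (XT.lf (nat_lit 0) (nat_lit 12649212420) (nat_lit 76) (nat_lit 71522086782) (nat_lit 152) (nat_lit 299468508488) (nat_lit 4) (nat_lit 5) (nat_lit 5) (nat_lit 5) (nat_lit 6) (nat_lit 4) (nat_lit 311) (nat_lit 262) (nat_lit 147)))) (XT.nd (nat_lit 156) (nat_lit 0) (nat_lit 0) (XT.nd (nat_lit 78) (nat_lit 0) (nat_lit 0) (XT.lf (nat_lit 0) (nat_lit 73339503175) (nat_lit 76) (nat_lit 40437644033) (nat_lit 152) (nat_lit 298711818967)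 (nat_lit 4) (nat_lit 5) (nat_lit 5) (nat_lit 5) (nat_lit 6) (nat_lit 4) (nat_lit 312) (nat_lit 262) (nat_lit 146)) (XT.lf (nat_lit 0) (nat_lit 138883801658) (nat_lit 76) (nat_lit 6866940862) (nat_lit 152) (nat_lit 297895352669) (nat_lit 4) (nat_lit 5) (nat_lit 5) (nat_lit 5) (nat_lit 6) (nat_lit 4) (nat_lit 313) (nat_lit 262) (nat_lit 145))) (XT.nd (nat_lit 78) (nat_lit 0) (nat_lit 0) (XT.lf (nat_lit 0) (nat_lit 180740402327) (nat_lit 152) (nat_lit 268084155075) (nat_lit 0) (nat_lit 28448329967) (nat_lit 4) (nat_lit 5) (nat_lit 6) (nat_lit 4) (nat_lit 4) (nat_lit 4) (nat_lit 314) (nat_lit 262) (nat_lit 144)) (XT.lf (nat_lit 0) (nat_lit 218644399715) (nat_lit 152) (nat_lit 228588622657) (nat_lit 0) (nat_lit 66351043873) (nat_lit 4) (nat_lit 5) (nat_lit 6) (nat_lit 4) (nat_lit 4) (nat_lit 4) (nat_lit 315) (nat_lit 262) (nat_lit 143))))) (XT.nd (nat_lit 33618) (nat_lit 0) (nat_lit 3648)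 (XT.nd (nat_lit 33462) (nat_lit 0) (nat_lit 4104) (XT.nd (nat_lit 33384) (nat_lit 0) (nat_lit 4104) (XT.lf (nat_lit 0) (nat_lit 259580138775) (nat_lit 152) (nat_lit 185934436486) (nat_lit 0) (nat_lit 107285594524) (nat_lit 4) (nat_lit 5) (nat_lit 6) (nat_lit 4) (nat_lit 4) (nat_lit 4) (nat_lit 316) (nat_lit 262) (nat_lit 142)) (XT.lf (nat_lit 0) (nat_lit 9404985494) (nat_lit 684) (nat_lit 1381802258) (nat_lit 684) (nat_lit 1381802258) (nat_lit 58) (nat_lit 3) (nat_lit 67) (nat_lit 3) (nat_lit 67) (nat_lit 5) (nat_lit 263) (nat_lit 263) (nat_lit 194))) (XT.nd (nat_lit 78) (nat_lit 0) (nat_lit 76) (XT.lf (nat_lit 76) (nat_lit 12690875366) (nat_lit 0) (nat_lit 7217135484) (nat_lit 684) (nat_lit 5384465303) (nat_lit 59) (nat_lit 5) (nat_lit 58) (nat_lit 3) (nat_lit 67) (nat_lit 5) (nat_lit 264) (nat_lit 263) (nat_lit 193)) (XT.lf (nat_lit 76) (nat_lit 3119270533) (nat_lit 0) (nat_lit 18186873200)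 (nat_lit 684) (nat_lit 5007530698) (nat_lit 60) (nat_lit 5) (nat_lit 59) (nat_lit 5) (nat_lit 68) (nat_lit 5) (nat_lit 265) (nat_lit 263) (nat_lit 192)))) (XT.nd (nat_lit 156) (nat_lit 532) (nat_lit 0) (XT.nd (nat_lit 78) (nat_lit 0) (nat_lit 76) (XT.lf (nat_lit 76) (nat_lit 20413491190) (nat_lit 0) (nat_lit 2728063124) (nat_lit 684) (nat_lit 4258827114) (nat_lit 60) (nat_lit 5) (nat_lit 59) (nat_lit 5) (nat_lit 68) (nat_lit 5) (nat_lit 266) (nat_lit 263) (nat_lit 191)) (XT.lf (nat_lit 76) (nat_lit 10630642967) (nat_lit 0) (nat_lit 14864482784) (nat_lit 684) (nat_lit 3060410802) (nat_lit 61) (nat_lit 5) (nat_lit 60) (nat_lit 5) (nat_lit 69) (nat_lit 5) (nat_lit 267) (nat_lit 263) (nat_lit 190))) (XT.nd (nat_lit 78) (nat_lit 684) (nat_lit 0) (XT.lf (nat_lit 76) (nat_lit 30840439) (nat_lit 0) (nat_lit 28187587122) (nat_lit 684) (nat_lit 1575676491) (nat_lit 62) (nat_lit 5) (nat_lit 61)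 (nat_lit 5) (nat_lit 70) (nat_lit 5) (nat_lit 268) (nat_lit 263) (nat_lit 189)) (XT.nd (nat_lit 78) (nat_lit 0) (nat_lit 76) (XT.lf (nat_lit 0) (nat_lit 583590993) (nat_lit 684) (nat_lit 11318358357) (nat_lit 760) (nat_lit 19202017266) (nat_lit 52) (nat_lit 5) (nat_lit 61) (nat_lit 5) (nat_lit 62) (nat_lit 5) (nat_lit 269) (nat_lit 263) (nat_lit 188)) (XT.lf (nat_lit 0) (nat_lit 3080313999) (nat_lit 684) (nat_lit 23752109216) (nat_lit 76) (nat_lit 5673966471) (nat_lit 53) (nat_lit 5) (nat_lit 62) (nat_lit 5) (nat_lit 54) (nat_lit 5) (nat_lit 270) (nat_lit 263) (nat_lit 187))))))))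
noncomputable def xc96 : XT := (XT.nd (nat_lit 1248) (nat_lit 988) (nat_lit 0) (XT.nd (nat_lit 624) (nat_lit 912) (nat_lit 0) (XT.nd (nat_lit 312) (nat_lit 836) (nat_lit 0) (XT.nd (nat_lit 156) (nat_lit 304) (nat_lit 0) (XT.nd (nat_lit 78) (nat_lit 456) (nat_lit 0) (XT.lf (nat_lit 0) (nat_lit 6168019464) (nat_lit 684) (nat_lit 3386837245) (nat_lit 76) (nat_lit 24446642247) (nat_lit 53) (nat_lit 5) (nat_lit 62) (nat_lit 5) (nat_lit 54) (nat_lit 5) (nat_lit 271) (nat_lit 263) (nat_lit 186)) (XT.lf (nat_lit 0) (nat_lit 9940717186) (nat_lit 532) (nat_lit 16534197692) (nat_lit 76) (nat_lit 9119453834) (nat_lit 47) (nat_lit 5) (nat_lit 54) (nat_lit 5) (nat_lit 48) (nat_lit 5) (nat_lit 272) (nat_lit 263) (nat_lit 185))) (XT.nd (nat_lit 78) (nat_lit 0) (nat_lit 0) (XT.lf (nat_lit 0) (nat_lit 6138381982) (nat_lit 304) (nat_lit 8185224168) (nat_lit 380) (nat_lit 22975689924) (nat_lit 43) (nat_lit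 5) (nat_lit 47) (nat_lit 5) (nat_lit 48) (nat_lit 5) (nat_lit 273) (nat_lit 263) (nat_lit 184)) (XT.lf (nat_lit 0) (nat_lit 19522441974) (nat_lit 380) (nat_lit 8104605496) (nat_lit 76) (nat_lit 11490347697) (nat_lit 43) (nat_lit 5) (nat_lit 48) (nat_lit 5) (nat_lit 44) (nat_lit 5) (nat_lit 274) (nat_lit 263) (nat_lit 183)))) (XT.nd (nat_lit 156) (nat_lit 304) (nat_lit 0) (XT.nd (nat_lit 78) (nat_lit 228) (nat_lit 0) (XT.lf (nat_lit 0) (nat_lit 17201081377) (nat_lit 304) (nat_lit 8335248406) (nat_lit 380) (nat_lit 15524695267) (nat_lit 39) (nat_lit 5) (nat_lit 43) (nat_lit 5) (nat_lit 44) (nat_lit 5) (nat_lit 275) (nat_lit 263) (nat_lit 182)) (XT.lf (nat_lit 0) (nat_lit 1510729710) (nat_lit 228) (nat_lit 30875836633) (nat_lit 304) (nat_lit 10755854243) (nat_lit 36) (nat_lit 5) (nat_lit 39) (nat_lit 5) (nat_lit 40) (nat_lit 5) (nat_lit 276) (nat_lit 263) (nat_lit 181))) (XT.nd (nat_lit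 78) (nat_lit 304) (nat_lit 0) (XT.lf (nat_lit 0) (nat_lit 29610527947) (nat_lit 228) (nat_lit 10721603995) (nat_lit 304) (nat_lit 5030864712) (nat_lit 36) (nat_lit 5) (nat_lit 39) (nat_lit 5) (nat_lit 40) (nat_lit 5) (nat_lit 277) (nat_lit 263) (nat_lit 180)) (XT.lf (nat_lit 0) (nat_lit 1481277845) (nat_lit 304) (nat_lit 35352278941) (nat_lit 76) (nat_lit 10908491507) (nat_lit 32) (nat_lit 5) (nat_lit 36) (nat_lit 5) (nat_lit 33) (nat_lit 5) (nat_lit 278) (nat_lit 263) (nat_lit 179))))) (XT.nd (nat_lit 312) (nat_lit 456) (nat_lit 0) (XT.nd (nat_lit 156) (nat_lit 228) (nat_lit 0) (XT.nd (nat_lit 78) (nat_lit 228) (nat_lit 0) (XT.lf (nat_lit 0) (nat_lit 8794278574) (nat_lit 304) (nat_lit 7228974045) (nat_lit 76) (nat_lit 34261268681) (nat_lit 32) (nat_lit 5) (nat_lit 36) (nat_lit 5) (nat_lit 33) (nat_lit 5) (nat_lit 279) (nat_lit 263) (nat_lit 178)) (XT.lf (nat_lit 0) (nat_lit 17166882331)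 (nat_lit 304) (nat_lit 29216169114) (nat_lit 76) (nat_lit 6623638560) (nat_lit 29) (nat_lit 5) (nat_lit 33) (nat_lit 5) (nat_lit 30) (nat_lit 5) (nat_lit 280) (nat_lit 263) (nat_lit 177))) (XT.nd (nat_lit 78) (nat_lit 0) (nat_lit 0) (XT.lf (nat_lit 0) (nat_lit 1374618692) (nat_lit 228) (nat_lit 25249138591) (nat_lit 304) (nat_lit 29302175856) (nat_lit 26) (nat_lit 5) (nat_lit 29) (nat_lit 5) (nat_lit 30) (nat_lit 5) (nat_lit 281) (nat_lit 263) (nat_lit 176)) (XT.lf (nat_lit 0) (nat_lit 35449736864) (nat_lit 228) (nat_lit 1891489269) (nat_lit 304) (nat_lit 21712309690) (nat_lit 26) (nat_lit 5) (nat_lit 29) (nat_lit 5) (nat_lit 30) (nat_lit 5) (nat_lit 282) (nat_lit 263) (nat_lit 175)))) (XT.nd (nat_lit 156) (nat_lit 304) (nat_lit 0) (XT.nd (nat_lit 78) (nat_lit 0) (nat_lit 0) (XT.lf (nat_lit 0) (nat_lit 9761631604) (nat_lit 152) (nat_lit 39666647769) (nat_lit 228) (nat_lit 12977478647)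 (nat_lit 24) (nat_lit 5) (nat_lit 26) (nat_lit 5) (nat_lit 27) (nat_lit 5) (nat_lit 283) (nat_lit 263) (nat_lit 174)) (XT.lf (nat_lit 0) (nat_lit 46600494659) (nat_lit 152) (nat_lit 16320050751) (nat_lit 228) (nat_lit 3083719271) (nat_lit 24) (nat_lit 5) (nat_lit 26) (nat_lit 5) (nat_lit 27) (nat_lit 5) (nat_lit 284) (nat_lit 263) (nat_lit 173))) (XT.nd (nat_lit 78) (nat_lit 0) (nat_lit 0) (XT.lf (nat_lit 0) (nat_lit 7763362108) (nat_lit 304) (nat_lit 53103860294) (nat_lit 76) (nat_lit 8997256358) (nat_lit 20) (nat_lit 5) (nat_lit 24) (nat_lit 5) (nat_lit 21) (nat_lit 5) (nat_lit 285) (nat_lit 263) (nat_lit 172)) (XT.lf (nat_lit 0) (nat_lit 19986483050) (nat_lit 304) (nat_lit 17843685506) (nat_lit 76) (nat_lit 36170013799) (nat_lit 20) (nat_lit 5) (nat_lit 24) (nat_lit 5) (nat_lit 21) (nat_lit 5) (nat_lit 286) (nat_lit 263) (nat_lit 171)))))) (XT.nd (nat_lit 624) (nat_lit 380) (nat_lit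 0) (XT.nd (nat_lit 312) (nat_lit 304) (nat_lit 0) (XT.nd (nat_lit 156) (nat_lit 152) (nat_lit 0) (XT.nd (nat_lit 78) (nat_lit 0) (nat_lit 0) (XT.lf (nat_lit 0) (nat_lit 20901263110) (nat_lit 152) (nat_lit 12608943001) (nat_lit 228) (nat_lit 44940412957) (nat_lit 18) (nat_lit 5) (nat_lit 20) (nat_lit 5) (nat_lit 21) (nat_lit 5) (nat_lit 287) (nat_lit 263) (nat_lit 170)) (XT.lf (nat_lit 0) (nat_lit 48656756132) (nat_lit 228) (nat_lit 20097014033) (nat_lit 76) (nat_lit 14476287477) (nat_lit 18) (nat_lit 5) (nat_lit 21) (nat_lit 5) (nat_lit 19) (nat_lit 5) (nat_lit 288) (nat_lit 263) (nat_lit 169))) (XT.nd (nat_lit 78) (nat_lit 0) (nat_lit 0) (XT.lf (nat_lit 0) (nat_lit 20800049929) (nat_lit 152) (nat_lit 44749182595) (nat_lit 228) (nat_lit 22815921047) (nat_lit 16) (nat_lit 5) (nat_lit 18) (nat_lit 5) (nat_lit 19) (nat_lit 5) (nat_lit 289) (nat_lit 263) (nat_lit 168)) (XT.lf (nat_lit 0)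 (nat_lit 65682149241) (nat_lit 152) (nat_lit 18458045459) (nat_lit 228) (nat_lit 9753519564) (nat_lit 16) (nat_lit 5) (nat_lit 18) (nat_lit 5) (nat_lit 19) (nat_lit 5) (nat_lit 290) (nat_lit 263) (nat_lit 167)))) (XT.nd (nat_lit 156) (nat_lit 152) (nat_lit 0) (XT.nd (nat_lit 78) (nat_lit 0) (nat_lit 0) (XT.lf (nat_lit 0) (nat_lit 4601011329) (nat_lit 152) (nat_lit 85321604216) (nat_lit 76) (nat_lit 9919231151) (nat_lit 14) (nat_lit 5) (nat_lit 16) (nat_lit 5) (nat_lit 15) (nat_lit 5) (nat_lit 291) (nat_lit 263) (nat_lit 166)) (XT.lf (nat_lit 0) (nat_lit 20574780020) (nat_lit 152) (nat_lit 45051100429) (nat_lit 76) (nat_lit 40591334397) (nat_lit 14) (nat_lit 5) (nat_lit 16) (nat_lit 5) (nat_lit 15) (nat_lit 5) (nat_lit 292) (nat_lit 263) (nat_lit 165))) (XT.nd (nat_lit 78) (nat_lit 152) (nat_lit 0) (XT.lf (nat_lit 0) (nat_lit 37823952923) (nat_lit 152) (nat_lit 1562759890) (nat_lit 76)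 (nat_lit 73716033169) (nat_lit 14) (nat_lit 5) (nat_lit 16) (nat_lit 5) (nat_lit 15) (nat_lit 5) (nat_lit 293) (nat_lit 263) (nat_lit 164)) (XT.lf (nat_lit 0) (nat_lit 46902292348) (nat_lit 152) (nat_lit 10280731239) (nat_lit 228) (nat_lit 63319605857) (nat_lit 12) (nat_lit 5) (nat_lit 14) (nat_lit 5) (nat_lit 15) (nat_lit 5) (nat_lit 294) (nat_lit 263) (nat_lit 163))))) (XT.nd (nat_lit 312) (nat_lit 304) (nat_lit 0) (XT.nd (nat_lit 156) (nat_lit 0) (nat_lit 0) (XT.nd (nat_lit 78) (nat_lit 76) (nat_lit 0) (XT.lf (nat_lit 0) (nat_lit 78446545472) (nat_lit 228) (nat_lit 29526970833) (nat_lit 76) (nat_lit 20503208436) (nat_lit 12) (nat_lit 5) (nat_lit 15) (nat_lit 5) (nat_lit 13) (nat_lit 4) (nat_lit 295) (nat_lit 263) (nat_lit 162)) (XT.lf (nat_lit 0) (nat_lit 18487414886) (nat_lit 76) (nat_lit 83383678376) (nat_lit 152) (nat_lit 35194664077) (nat_lit 11) (nat_lit 5) (nat_lit 12) (nat_lit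 5) (nat_lit 13) (nat_lit 4) (nat_lit 296) (nat_lit 263) (nat_lit 161))) (XT.nd (nat_lit 78) (nat_lit 0) (nat_lit 0) (XT.lf (nat_lit 0) (nat_lit 71394278929) (nat_lit 76) (nat_lit 56287722380) (nat_lit 152) (nat_lit 18634297788) (nat_lit 11) (nat_lit 5) (nat_lit 12) (nat_lit 5) (nat_lit 13) (nat_lit 4) (nat_lit 297) (nat_lit 263) (nat_lit 160)) (XT.lf (nat_lit 0) (nat_lit 128530848449) (nat_lit 76) (nat_lit 27025133227) (nat_lit 152) (nat_lit 750998436) (nat_lit 11) (nat_lit 5) (nat_lit 12) (nat_lit 5) (nat_lit 13) (nat_lit 4) (nat_lit 298) (nat_lit 263) (nat_lit 159)))) (XT.nd (nat_lit 156) (nat_lit 76) (nat_lit 0) (XT.nd (nat_lit 78) (nat_lit 0) (nat_lit 0) (XT.lf (nat_lit 0) (nat_lit 18417925083) (nat_lit 228) (nat_lit 143541946121) (nat_lit 76) (nat_lit 5100104067) (nat_lit 8) (nat_lit 5) (nat_lit 11) (nat_lit 5) (nat_lit 9) (nat_lit 4) (nat_lit 299) (nat_lit 263) (nat_lit 158))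 (XT.lf (nat_lit 0) (nat_lit 40040241193) (nat_lit 228) (nat_lit 99220354338) (nat_lit 76) (nat_lit 39364694254) (nat_lit 8) (nat_lit 5) (nat_lit 11) (nat_lit 5) (nat_lit 9) (nat_lit 4) (nat_lit 300) (nat_lit 263) (nat_lit 157))) (XT.nd (nat_lit 78) (nat_lit 76) (nat_lit 0) (XT.lf (nat_lit 0) (nat_lit 63390834288) (nat_lit 228) (nat_lit 51355486867) (nat_lit 76) (nat_lit 76369588184) (nat_lit 8) (nat_lit 5) (nat_lit 11) (nat_lit 5) (nat_lit 9) (nat_lit 4) (nat_lit 301) (nat_lit 263) (nat_lit 156)) (XT.nd (nat_lit 78) (nat_lit 0) (nat_lit 0) (XT.lf (nat_lit 0) (nat_lit 347419547) (nat_lit 76) (nat_lit 88266082898) (nat_lit 152) (nat_lit 115992078763) (nat_lit 7) (nat_lit 5) (nat_lit 8) (nat_lit 5) (nat_lit 9) (nat_lit 4) (nat_lit 302) (nat_lit 263) (nat_lit 155)) (XT.lf (nat_lit 0) (nat_lit 58018274949) (nat_lit 76) (nat_lit 58728961526) (nat_lit 152) (nat_lit 102382531556) (nat_lit 7)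 (nat_lit 5) (nat_lit 8) (nat_lit 5) (nat_lit 9) (nat_lit 4) (nat_lit 303) (nat_lit 263) (nat_lit 154))))))))
noncomputable def xc97 : XT := (XT.nd (nat_lit 34632) (nat_lit 0) (nat_lit 1672) (XT.nd (nat_lit 624) (nat_lit 76) (nat_lit 0) (XT.nd (nat_lit 312) (nat_lit 76) (nat_lit 0) (XT.nd (nat_lit 156) (nat_lit 76) (nat_lit 0) (XT.nd (nat_lit 78) (nat_lit 0) (nat_lit 0) (XT.lf (nat_lit 0) (nat_lit 120300788232) (nat_lit 76) (nat_lit 26829652266) (nat_lit 152) (nat_lit 87685514283) (nat_lit 7) (nat_lit 5) (nat_lit 8) (nat_lit 5) (nat_lit 9) (nat_lit 4) (nat_lit 304) (nat_lit 263) (nat_lit 153)) (XT.lf (nat_lit 0) (nat_lit 180062146389) (nat_lit 152) (nat_lit 64312038941) (nat_lit 0) (nat_lit 7376962142) (nat_lit 7) (nat_lit 5) (nat_lit 9) (nat_lit 4) (nat_lit 7) (nat_lit 4) (nat_lit 305) (nat_lit 263) (nat_lit 152))) (XT.nd (nat_lit 78) (nat_lit 76) (nat_lit 0) (XT.lf (nat_lit 0) (nat_lit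 216079721795) (nat_lit 152) (nat_lit 10546827038) (nat_lit 0) (nat_lit 43392043130) (nat_lit 7) (nat_lit 5) (nat_lit 9) (nat_lit 4) (nat_lit 7) (nat_lit 4) (nat_lit 306) (nat_lit 263) (nat_lit 151)) (XT.lf (nat_lit 0) (nat_lit 49089122365) (nat_lit 76) (nat_lit 206655014544) (nat_lit 76) (nat_lit 33965026233) (nat_lit 6) (nat_lit 4) (nat_lit 7) (nat_lit 5) (nat_lit 7) (nat_lit 4) (nat_lit 307) (nat_lit 263) (nat_lit 150)))) (XT.nd (nat_lit 156) (nat_lit 0) (nat_lit 0) (XT.nd (nat_lit 78) (nat_lit 76) (nat_lit 0) (XT.lf (nat_lit 0) (nat_lit 113871004763) (nat_lit 76) (nat_lit 184893482806) (nat_lit 76) (nat_lit 12201355934) (nat_lit 6) (nat_lit 4) (nat_lit 7) (nat_lit 5) (nat_lit 7) (nat_lit 4) (nat_lit 308) (nat_lit 263) (nat_lit 149)) (XT.lf (nat_lit 0) (nat_lit 10940744580) (nat_lit 152) (nat_lit 150265580630) (nat_lit 76) (nat_lit 172707955673) (nat_lit 5) (nat_lit 5) (nat_lit 7)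 (nat_lit 5) (nat_lit 6) (nat_lit 4) (nat_lit 309) (nat_lit 263) (nat_lit 148))) (XT.nd (nat_lit 78) (nat_lit 0) (nat_lit 0) (XT.lf (nat_lit 0) (nat_lit 35511633684) (nat_lit 152) (nat_lit 99897091438) (nat_lit 76) (nat_lit 223279624314) (nat_lit 5) (nat_lit 5) (nat_lit 7) (nat_lit 5) (nat_lit 6) (nat_lit 4) (nat_lit 310) (nat_lit 263) (nat_lit 147)) (XT.lf (nat_lit 0) (nat_lit 62047436234) (nat_lit 152) (nat_lit 45500393869) (nat_lit 76) (nat_lit 277896553224) (nat_lit 5) (nat_lit 5) (nat_lit 7) (nat_lit 5) (nat_lit 6) (nat_lit 4) (nat_lit 311) (nat_lit 263) (nat_lit 146))))) (XT.nd (nat_lit 312) (nat_lit 0) (nat_lit 0) (XT.nd (nat_lit 156) (nat_lit 0) (nat_lit 0) (XT.nd (nat_lit 78) (nat_lit 0) (nat_lit 0) (XT.lf (nat_lit 0) (nat_lit 13684863988) (nat_lit 76) (nat_lit 77234196521) (nat_lit 152) (nat_lit 323411193367) (nat_lit 4) (nat_lit 5) (nat_lit 5) (nat_lit 5) (nat_lit 6) (nat_lit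 4) (nat_lit 312) (nat_lit 263) (nat_lit 145)) (XT.lf (nat_lit 0) (nat_lit 79228621368) (nat_lit 76) (nat_lit 43663713701) (nat_lit 152) (nat_lit 322595064669) (nat_lit 4) (nat_lit 5) (nat_lit 5) (nat_lit 5) (nat_lit 6) (nat_lit 4) (nat_lit 313) (nat_lit 263) (nat_lit 144))) (XT.nd (nat_lit 78) (nat_lit 0) (nat_lit 0) (XT.lf (nat_lit 0) (nat_lit 150014837216) (nat_lit 76) (nat_lit 7408016636) (nat_lit 152) (nat_lit 321714295869) (nat_lit 4) (nat_lit 5) (nat_lit 5) (nat_lit 5) (nat_lit 6) (nat_lit 4) (nat_lit 314) (nat_lit 263) (nat_lit 143)) (XT.lf (nat_lit 0) (nat_lit 195210913398) (nat_lit 152) (nat_lit 289511595590) (nat_lit 0) (nat_lit 30731617197) (nat_lit 4) (nat_lit 5) (nat_lit 6) (nat_lit 4) (nat_lit 4) (nat_lit 4) (nat_lit 315) (nat_lit 263) (nat_lit 142)))) (XT.nd (nat_lit 33540) (nat_lit 0) (nat_lit 4104) (XT.nd (nat_lit 33462) (nat_lit 0) (nat_lit 4104) (XT.lf (nat_lit 0)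 (nat_lit 236146395104) (nat_lit 152) (nat_lit 246857849607) (nat_lit 0) (nat_lit 71665998524) (nat_lit 4) (nat_lit 5) (nat_lit 6) (nat_lit 4) (nat_lit 4) (nat_lit 4) (nat_lit 316) (nat_lit 263) (nat_lit 141)) (XT.lf (nat_lit 0) (nat_lit 10301337826) (nat_lit 684) (nat_lit 1416327278) (nat_lit 684) (nat_lit 1416327278) (nat_lit 58) (nat_lit 3) (nat_lit 67) (nat_lit 3) (nat_lit 67) (nat_lit 5) (nat_lit 264) (nat_lit 264) (nat_lit 192))) (XT.nd (nat_lit 78) (nat_lit 0) (nat_lit 76) (XT.lf (nat_lit 76) (nat_lit 13851576317) (nat_lit 0) (nat_lit 7917926527) (nat_lit 684) (nat_lit 5531285967) (nat_lit 59) (nat_lit 5) (nat_lit 58) (nat_lit 3) (nat_lit 67) (nat_lit 5) (nat_lit 265) (nat_lit 264) (nat_lit 191)) (XT.lf (nat_lit 76) (nat_lit 3524195879) (nat_lit 0) (nat_lit 19736017357) (nat_lit 684) (nat_lit 5144555067) (nat_lit 60) (nat_lit 5) (nat_lit 59) (nat_lit 5) (nat_lit 68) (nat_lit 5)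 (nat_lit 266) (nat_lit 264) (nat_lit 190)))))) (XT.nd (nat_lit 624) (nat_lit 1292) (nat_lit 0) (XT.nd (nat_lit 312) (nat_lit 684) (nat_lit 0) (XT.nd (nat_lit 156) (nat_lit 532) (nat_lit 0) (XT.nd (nat_lit 78) (nat_lit 0) (nat_lit 76) (XT.lf (nat_lit 76) (nat_lit 22190444284) (nat_lit 0) (nat_lit 3033525118) (nat_lit 684) (nat_lit 4355479499) (nat_lit 60) (nat_lit 5) (nat_lit 59) (nat_lit 5) (nat_lit 68) (nat_lit 5) (nat_lit 267) (nat_lit 264) (nat_lit 189)) (XT.lf (nat_lit 76) (nat_lit 11632417829) (nat_lit 0) (nat_lit 16117392642) (nat_lit 684) (nat_lit 3078111104) (nat_lit 61) (nat_lit 5) (nat_lit 60) (nat_lit 5) (nat_lit 69) (nat_lit 5) (nat_lit 268) (nat_lit 264) (nat_lit 188))) (XT.nd (nat_lit 78) (nat_lit 684) (nat_lit 0) (XT.lf (nat_lit 76) (nat_lit 190540727) (nat_lit 0) (nat_lit 30486037484) (nat_lit 684) (nat_lit 1489812779) (nat_lit 62) (nat_lit 5) (nat_lit 61) (nat_lit 5)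 (nat_lit 70) (nat_lit 5) (nat_lit 269) (nat_lit 264) (nat_lit 187)) (XT.lf (nat_lit 0) (nat_lit 820218214) (nat_lit 684) (nat_lit 12070895722) (nat_lit 760) (nat_lit 20690608140) (nat_lit 52) (nat_lit 5) (nat_lit 61) (nat_lit 5) (nat_lit 62) (nat_lit 5) (nat_lit 270) (nat_lit 264) (nat_lit 186)))) (XT.nd (nat_lit 156) (nat_lit 760) (nat_lit 0) (XT.nd (nat_lit 78) (nat_lit 0) (nat_lit 0) (XT.lf (nat_lit 0) (nat_lit 3504395790) (nat_lit 684) (nat_lit 25495601587) (nat_lit 76) (nat_lit 6097034659) (nat_lit 53) (nat_lit 5) (nat_lit 62) (nat_lit 5) (nat_lit 54) (nat_lit 5) (nat_lit 271) (nat_lit 264) (nat_lit 185)) (XT.lf (nat_lit 0) (nat_lit 6825957938) (nat_lit 684) (nat_lit 3512713515) (nat_lit 76) (nat_lit 26373809617) (nat_lit 53) (nat_lit 5) (nat_lit 62) (nat_lit 5) (nat_lit 54) (nat_lit 5) (nat_lit 272) (nat_lit 264) (nat_lit 184))) (XT.nd (nat_lit 78) (nat_lit 304) (nat_lit 0) (XT.lf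 (nat_lit 0) (nat_lit 10890207735) (nat_lit 532) (nat_lit 17709352826) (nat_lit 76) (nat_lit 9833800660) (nat_lit 47) (nat_lit 5) (nat_lit 54) (nat_lit 5) (nat_lit 48) (nat_lit 5) (nat_lit 273) (nat_lit 264) (nat_lit 183)) (XT.lf (nat_lit 0) (nat_lit 6770619545) (nat_lit 304) (nat_lit 8843887604) (nat_lit 380) (nat_lit 24660699274) (nat_lit 43) (nat_lit 5) (nat_lit 47) (nat_lit 5) (nat_lit 48) (nat_lit 5) (nat_lit 274) (nat_lit 264) (nat_lit 182))))) (XT.nd (nat_lit 312) (nat_lit 760) (nat_lit 0) (XT.nd (nat_lit 156) (nat_lit 228) (nat_lit 0) (XT.nd (nat_lit 78) (nat_lit 304) (nat_lit 0) (XT.lf (nat_lit 0) (nat_lit 21218452580) (nat_lit 380) (nat_lit 8614769879) (nat_lit 76) (nat_lit 12406128826) (nat_lit 43) (nat_lit 5) (nat_lit 48) (nat_lit 5) (nat_lit 44) (nat_lit 5) (nat_lit 275) (nat_lit 264) (nat_lit 181)) (XT.lf (nat_lit 0) (nat_lit 18709365765) (nat_lit 304) (nat_lit 8996207759)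 (nat_lit 380) (nat_lit 16633345613) (nat_lit 39) (nat_lit 5) (nat_lit 43) (nat_lit 5) (nat_lit 44) (nat_lit 5) (nat_lit 276) (nat_lit 264) (nat_lit 180))) (XT.nd (nat_lit 78) (nat_lit 0) (nat_lit 0) (XT.lf (nat_lit 0) (nat_lit 1764637513) (nat_lit 228) (nat_lit 33331995167) (nat_lit 304) (nat_lit 11490603159) (nat_lit 36) (nat_lit 5) (nat_lit 39) (nat_lit 5) (nat_lit 40) (nat_lit 5) (nat_lit 277) (nat_lit 264) (nat_lit 179)) (XT.lf (nat_lit 0) (nat_lit 32102564096) (nat_lit 228) (nat_lit 11566454169) (nat_lit 304) (nat_lit 5316927015) (nat_lit 36) (nat_lit 5) (nat_lit 39) (nat_lit 5) (nat_lit 40) (nat_lit 5) (nat_lit 278) (nat_lit 264) (nat_lit 178)))) (XT.nd (nat_lit 156) (nat_lit 456) (nat_lit 0) (XT.nd (nat_lit 78) (nat_lit 0) (nat_lit 0) (XT.lf (nat_lit 0) (nat_lit 1706263052) (nat_lit 304) (nat_lit 38052958991) (nat_lit 76) (nat_lit 11796358631) (nat_lit 32) (nat_lit 5) (nat_lit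 36) (nat_lit 5) (nat_lit 33) (nat_lit 5) (nat_lit 279) (nat_lit 264) (nat_lit 177)) (XT.lf (nat_lit 0) (nat_lit 9596416212) (nat_lit 304) (nat_lit 7689234315) (nat_lit 76) (nat_lit 37016232957) (nat_lit 32) (nat_lit 5) (nat_lit 36) (nat_lit 5) (nat_lit 33) (nat_lit 5) (nat_lit 280) (nat_lit 264) (nat_lit 176))) (XT.nd (nat_lit 78) (nat_lit 228) (nat_lit 0) (XT.lf (nat_lit 0) (nat_lit 18633598272) (nat_lit 304) (nat_lit 31435758175) (nat_lit 76) (nat_lit 7172765533) (nat_lit 29) (nat_lit 5) (nat_lit 33) (nat_lit 5) (nat_lit 30) (nat_lit 5) (nat_lit 281) (nat_lit 264) (nat_lit 175)) (XT.nd (nat_lit 78) (nat_lit 0) (nat_lit 0) (XT.lf (nat_lit 0) (nat_lit 1597177363) (nat_lit 228) (nat_lit 27244687738) (nat_lit 304) (nat_lit 31553329588) (nat_lit 26) (nat_lit 5) (nat_lit 29) (nat_lit 5) (nat_lit 30) (nat_lit 5) (nat_lit 282) (nat_lit 264) (nat_lit 174)) (XT.lf (nat_lit 0) (nat_lit 38389965050)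 (nat_lit 228) (nat_lit 2020232540) (nat_lit 304) (nat_lit 23363164524) (nat_lit 26) (nat_lit 5) (nat_lit 29) (nat_lit 5) (nat_lit 30) (nat_lit 5) (nat_lit 283) (nat_lit 264) (nat_lit 173))))))))
noncomputable def xc98 : XT := (XT.nd (nat_lit 1248) (nat_lit 532) (nat_lit 0) (XT.nd (nat_lit 624) (nat_lit 380) (nat_lit 0) (XT.nd (nat_lit 312) (nat_lit 304) (nat_lit 0) (XT.nd (nat_lit 156) (nat_lit 304) (nat_lit 0) (XT.nd (nat_lit 78) (nat_lit 0) (nat_lit 0) (XT.lf (nat_lit 0) (nat_lit 10646206566) (nat_lit 152) (nat_lit 42813903188) (nat_lit 228) (nat_lit 13933885223) (nat_lit 24) (nat_lit 5) (nat_lit 26) (nat_lit 5) (nat_lit 27) (nat_lit 5) (nat_lit 284) (nat_lit 264) (nat_lit 172)) (XT.lf (nat_lit 0) (nat_lit 50424501300) (nat_lit 152) (nat_lit 17601509993) (nat_lit 228) (nat_lit 3254683743) (nat_lit 24) (nat_lit 5) (nat_lit 26) (nat_lit 5) (nat_lit 27) (nat_lit 5) (nat_lit 285) (nat_lit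 264) (nat_lit 171))) (XT.nd (nat_lit 78) (nat_lit 0) (nat_lit 0) (XT.lf (nat_lit 0) (nat_lit 8454175012) (nat_lit 304) (nat_lit 57254404409) (nat_lit 76) (nat_lit 9741288515) (nat_lit 20) (nat_lit 5) (nat_lit 24) (nat_lit 5) (nat_lit 21) (nat_lit 5) (nat_lit 286) (nat_lit 264) (nat_lit 170)) (XT.lf (nat_lit 0) (nat_lit 21649979412) (nat_lit 304) (nat_lit 19180657469) (nat_lit 76) (nat_lit 39086070133) (nat_lit 20) (nat_lit 5) (nat_lit 24) (nat_lit 5) (nat_lit 21) (nat_lit 5) (nat_lit 287) (nat_lit 264) (nat_lit 169)))) (XT.nd (nat_lit 156) (nat_lit 152) (nat_lit 0) (XT.nd (nat_lit 78) (nat_lit 0) (nat_lit 0) (XT.lf (nat_lit 0) (nat_lit 22659953023) (nat_lit 152) (nat_lit 13592215655) (nat_lit 228) (nat_lit 48471200904) (nat_lit 18) (nat_lit 5) (nat_lit 20) (nat_lit 5) (nat_lit 21) (nat_lit 5) (nat_lit 288) (nat_lit 264) (nat_lit 168)) (XT.lf (nat_lit 0) (nat_lit 52606281169) (nat_lit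 228) (nat_lit 21621913449) (nat_lit 76) (nat_lit 15657194604) (nat_lit 18) (nat_lit 5) (nat_lit 21) (nat_lit 5) (nat_lit 19) (nat_lit 5) (nat_lit 289) (nat_lit 264) (nat_lit 167))) (XT.nd (nat_lit 78) (nat_lit 0) (nat_lit 0) (XT.lf (nat_lit 0) (nat_lit 22543314561) (nat_lit 152) (nat_lit 48303857515) (nat_lit 228) (nat_lit 24584286508) (nat_lit 16) (nat_lit 5) (nat_lit 18) (nat_lit 5) (nat_lit 19) (nat_lit 5) (nat_lit 290) (nat_lit 264) (nat_lit 166)) (XT.lf (nat_lit 0) (nat_lit 71010110659) (nat_lit 152) (nat_lit 19911300496) (nat_lit 228) (nat_lit 10481108330) (nat_lit 16) (nat_lit 5) (nat_lit 18) (nat_lit 5) (nat_lit 19) (nat_lit 5) (nat_lit 291) (nat_lit 264) (nat_lit 165))))) (XT.nd (nat_lit 312) (nat_lit 76) (nat_lit 0) (XT.nd (nat_lit 156) (nat_lit 152) (nat_lit 0) (XT.nd (nat_lit 78) (nat_lit 0) (nat_lit 0) (XT.lf (nat_lit 0) (nat_lit 5017813253) (nat_lit 152) (nat_lit 92073126713)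 (nat_lit 76) (nat_lit 10735649214) (nat_lit 14) (nat_lit 5) (nat_lit 16) (nat_lit 5) (nat_lit 15) (nat_lit 5) (nat_lit 292) (nat_lit 264) (nat_lit 164)) (XT.lf (nat_lit 0) (nat_lit 22265874474) (nat_lit 152) (nat_lit 48586479351) (nat_lit 76) (nat_lit 43859825936) (nat_lit 14) (nat_lit 5) (nat_lit 16) (nat_lit 5) (nat_lit 15) (nat_lit 5) (nat_lit 293) (nat_lit 264) (nat_lit 163))) (XT.nd (nat_lit 78) (nat_lit 152) (nat_lit 0) (XT.lf (nat_lit 0) (nat_lit 40891639576) (nat_lit 152) (nat_lit 1624161133) (nat_lit 76) (nat_lit 79632931366) (nat_lit 14) (nat_lit 5) (nat_lit 16) (nat_lit 5) (nat_lit 15) (nat_lit 5) (nat_lit 294) (nat_lit 264) (nat_lit 162)) (XT.lf (nat_lit 0) (nat_lit 50715330456) (nat_lit 152) (nat_lit 11081961445) (nat_lit 228) (nat_lit 68343432259) (nat_lit 12) (nat_lit 5) (nat_lit 14) (nat_lit 5) (nat_lit 15) (nat_lit 5) (nat_lit 295) (nat_lit 264) (nat_lit 161)))) (XT.nd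 (nat_lit 156) (nat_lit 0) (nat_lit 0) (XT.nd (nat_lit 78) (nat_lit 76) (nat_lit 0) (XT.lf (nat_lit 0) (nat_lit 84759267128) (nat_lit 228) (nat_lit 31831129494) (nat_lit 76) (nat_lit 22162491829) (nat_lit 12) (nat_lit 5) (nat_lit 15) (nat_lit 5) (nat_lit 13) (nat_lit 4) (nat_lit 296) (nat_lit 264) (nat_lit 160)) (XT.lf (nat_lit 0) (nat_lit 20021886516) (nat_lit 76) (nat_lit 90034017804) (nat_lit 152) (nat_lit 37973242268) (nat_lit 11) (nat_lit 5) (nat_lit 12) (nat_lit 5) (nat_lit 13) (nat_lit 4) (nat_lit 297) (nat_lit 264) (nat_lit 159))) (XT.nd (nat_lit 78) (nat_lit 0) (nat_lit 0) (XT.lf (nat_lit 0) (nat_lit 77157190169) (nat_lit 76) (nat_lit 60771893095) (nat_lit 152) (nat_lit 20090787041) (nat_lit 11) (nat_lit 5) (nat_lit 12) (nat_lit 5) (nat_lit 13) (nat_lit 4) (nat_lit 298) (nat_lit 264) (nat_lit 158)) (XT.lf (nat_lit 0) (nat_lit 138860880145) (nat_lit 76) (nat_lit 29169692890)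 (nat_lit 152) (nat_lit 779361118) (nat_lit 11) (nat_lit 5) (nat_lit 12) (nat_lit 5) (nat_lit 13) (nat_lit 4) (nat_lit 299) (nat_lit 264) (nat_lit 157)))))) (XT.nd (nat_lit 624) (nat_lit 228) (nat_lit 0) (XT.nd (nat_lit 312) (nat_lit 0) (nat_lit 0) (XT.nd (nat_lit 156) (nat_lit 76) (nat_lit 0) (XT.nd (nat_lit 78) (nat_lit 0) (nat_lit 0) (XT.lf (nat_lit 0) (nat_lit 19920785516) (nat_lit 228) (nat_lit 154977470996) (nat_lit 76) (nat_lit 5524958397) (nat_lit 8) (nat_lit 5) (nat_lit 11) (nat_lit 5) (nat_lit 9) (nat_lit 4) (nat_lit 300) (nat_lit 264) (nat_lit 156)) (XT.lf (nat_lit 0) (nat_lit 43270707179) (nat_lit 228) (nat_lit 107113694895) (nat_lit 76) (nat_lit 42529467947) (nat_lit 8) (nat_lit 5) (nat_lit 11) (nat_lit 5) (nat_lit 9) (nat_lit 4) (nat_lit 301) (nat_lit 264) (nat_lit 155))) (XT.nd (nat_lit 78) (nat_lit 76) (nat_lit 0) (XT.lf (nat_lit 0) (nat_lit 68487329449) (nat_lit 228)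 (nat_lit 55422918603) (nat_lit 76) (nat_lit 82493597973) (nat_lit 8) (nat_lit 5) (nat_lit 11) (nat_lit 5) (nat_lit 9) (nat_lit 4) (nat_lit 302) (nat_lit 264) (nat_lit 154)) (XT.lf (nat_lit 0) (nat_lit 414438201) (nat_lit 76) (nat_lit 95312116499) (nat_lit 152) (nat_lit 125246205289) (nat_lit 7) (nat_lit 5) (nat_lit 8) (nat_lit 5) (nat_lit 9) (nat_lit 4) (nat_lit 303) (nat_lit 264) (nat_lit 153)))) (XT.nd (nat_lit 156) (nat_lit 0) (nat_lit 0) (XT.nd (nat_lit 78) (nat_lit 0) (nat_lit 0) (XT.lf (nat_lit 0) (nat_lit 62696056473) (nat_lit 76) (nat_lit 63413155272) (nat_lit 152) (nat_lit 110549763919) (nat_lit 7) (nat_lit 5) (nat_lit 8) (nat_lit 5) (nat_lit 9) (nat_lit 4) (nat_lit 304) (nat_lit 264) (nat_lit 152)) (XT.lf (nat_lit 0) (nat_lit 129958480483) (nat_lit 76) (nat_lit 28962947432) (nat_lit 152) (nat_lit 94678716387) (nat_lit 7) (nat_lit 5) (nat_lit 8) (nat_lit 5) (nat_lit 9) (nat_lit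 4) (nat_lit 305) (nat_lit 264) (nat_lit 151))) (XT.nd (nat_lit 78) (nat_lit 0) (nat_lit 0) (XT.lf (nat_lit 0) (nat_lit 194486336939) (nat_lit 152) (nat_lit 69425046607) (nat_lit 0) (nat_lit 7978839918) (nat_lit 7) (nat_lit 5) (nat_lit 9) (nat_lit 4) (nat_lit 7) (nat_lit 4) (nat_lit 306) (nat_lit 264) (nat_lit 150)) (XT.lf (nat_lit 0) (nat_lit 233383894760) (nat_lit 152) (nat_lit 11360984822) (nat_lit 0) (nat_lit 46874259178) (nat_lit 7) (nat_lit 5) (nat_lit 9) (nat_lit 4) (nat_lit 7) (nat_lit 4) (nat_lit 307) (nat_lit 264) (nat_lit 149))))) (XT.nd (nat_lit 312) (nat_lit 76) (nat_lit 0) (XT.nd (nat_lit 156) (nat_lit 76) (nat_lit 0) (XT.nd (nat_lit 78) (nat_lit 0) (nat_lit 0) (XT.lf (nat_lit 0) (nat_lit 53044554659) (nat_lit 76) (nat_lit 223176032141) (nat_lit 76) (nat_lit 36664416410) (nat_lit 6) (nat_lit 4) (nat_lit 7) (nat_lit 5) (nat_lit 7) (nat_lit 4) (nat_lit 308) (nat_lit 264)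 (nat_lit 148)) (XT.lf (nat_lit 0) (nat_lit 123006891166) (nat_lit 76) (nat_lit 199674421091) (nat_lit 76) (nat_lit 13160971889) (nat_lit 6) (nat_lit 4) (nat_lit 7) (nat_lit 5) (nat_lit 7) (nat_lit 4) (nat_lit 309) (nat_lit 264) (nat_lit 147))) (XT.nd (nat_lit 78) (nat_lit 0) (nat_lit 0) (XT.lf (nat_lit 0) (nat_lit 11830786236) (nat_lit 152) (nat_lit 162262035076) (nat_lit 76) (nat_lit 186533824531) (nat_lit 5) (nat_lit 5) (nat_lit 7) (nat_lit 5) (nat_lit 6) (nat_lit 4) (nat_lit 310) (nat_lit 264) (nat_lit 146)) (XT.lf (nat_lit 0) (nat_lit 38366251499) (nat_lit 152) (nat_lit 107865903194) (nat_lit 76) (nat_lit 241150542782) (nat_lit 5) (nat_lit 5) (nat_lit 7) (nat_lit 5) (nat_lit 6) (nat_lit 4) (nat_lit 311) (nat_lit 264) (nat_lit 145)))) (XT.nd (nat_lit 156) (nat_lit 0) (nat_lit 0) (XT.nd (nat_lit 78) (nat_lit 76) (nat_lit 0) (XT.lf (nat_lit 0) (nat_lit 67023904392) (nat_lit 152) (nat_lit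 49119170231) (nat_lit 76) (nat_lit 300136192780) (nat_lit 5) (nat_lit 5) (nat_lit 7) (nat_lit 5) (nat_lit 6) (nat_lit 4) (nat_lit 312) (nat_lit 264) (nat_lit 144)) (XT.lf (nat_lit 0) (nat_lit 14799984531) (nat_lit 76) (nat_lit 83404652747) (nat_lit 152) (nat_lit 349271403822) (nat_lit 4) (nat_lit 5) (nat_lit 5) (nat_lit 5) (nat_lit 6) (nat_lit 4) (nat_lit 313) (nat_lit 264) (nat_lit 143))) (XT.nd (nat_lit 78) (nat_lit 0) (nat_lit 0) (XT.lf (nat_lit 0) (nat_lit 85585736471) (nat_lit 76) (nat_lit 47149144598) (nat_lit 152) (nat_lit 348390924459) (nat_lit 4) (nat_lit 5) (nat_lit 5) (nat_lit 5) (nat_lit 6) (nat_lit 4) (nat_lit 314) (nat_lit 264) (nat_lit 142)) (XT.nd (nat_lit 33618) (nat_lit 0) (nat_lit 4104) (XT.lf (nat_lit 0) (nat_lit 162033455113) (nat_lit 76) (nat_lit 7993559634) (nat_lit 152) (nat_lit 347440564183) (nat_lit 4) (nat_lit 5) (nat_lit 5) (nat_lit 5) (nat_lit 6) (nat_lit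 4) (nat_lit 315) (nat_lit 264) (nat_lit 141)) (XT.lf (nat_lit 0) (nat_lit 11248861769) (nat_lit 684) (nat_lit 1464459282) (nat_lit 684) (nat_lit 1464459282) (nat_lit 58) (nat_lit 3) (nat_lit 67) (nat_lit 3) (nat_lit 67) (nat_lit 5) (nat_lit 265) (nat_lit 265) (nat_lit 190))))))))
noncomputable def xc99 : XT := (XT.nd (nat_lit 1326) (nat_lit 1368) (nat_lit 0) (XT.nd (nat_lit 624) (nat_lit 1748) (nat_lit 0) (XT.nd (nat_lit 312) (nat_lit 456) (nat_lit 0) (XT.nd (nat_lit 156) (nat_lit 0) (nat_lit 76) (XT.nd (nat_lit 78) (nat_lit 0) (nat_lit 76) (XT.lf (nat_lit 76) (nat_lit 15084385997) (nat_lit 0) (nat_lit 8657173583) (nat_lit 684) (nat_lit 5730359009) (nat_lit 59) (nat_lit 5) (nat_lit 58) (nat_lit 3) (nat_lit 67) (nat_lit 5) (nat_lit 266) (nat_lit 265) (nat_lit 189)) (XT.lf (nat_lit 76) (nat_lit 3939348030) (nat_lit 0) (nat_lit 21395655176) (nat_lit 684) (nat_lit 5330143747) (nat_lit 60)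 (nat_lit 5) (nat_lit 59) (nat_lit 5) (nat_lit 68) (nat_lit 5) (nat_lit 267) (nat_lit 265) (nat_lit 188))) (XT.nd (nat_lit 78) (nat_lit 0) (nat_lit 76) (XT.lf (nat_lit 76) (nat_lit 24089028420) (nat_lit 0) (nat_lit 3350981600) (nat_lit 684) (nat_lit 4494681075) (nat_lit 60) (nat_lit 5) (nat_lit 59) (nat_lit 5) (nat_lit 68) (nat_lit 5) (nat_lit 268) (nat_lit 265) (nat_lit 187)) (XT.lf (nat_lit 76) (nat_lit 12692746702) (nat_lit 0) (nat_lit 17461440462) (nat_lit 684) (nat_lit 3129630430) (nat_lit 61) (nat_lit 5) (nat_lit 60) (nat_lit 5) (nat_lit 69) (nat_lit 5) (nat_lit 269) (nat_lit 265) (nat_lit 186)))) (XT.nd (nat_lit 156) (nat_lit 0) (nat_lit 76) (XT.nd (nat_lit 78) (nat_lit 684) (nat_lit 0) (XT.lf (nat_lit 76) (nat_lit 340585985) (nat_lit 0) (nat_lit 32962166189) (nat_lit 684) (nat_lit 1427312418) (nat_lit 62) (nat_lit 5) (nat_lit 61) (nat_lit 5) (nat_lit 70) (nat_lit 5) (nat_lit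 270) (nat_lit 265) (nat_lit 185)) (XT.lf (nat_lit 0) (nat_lit 1048678557) (nat_lit 684) (nat_lit 12905453436) (nat_lit 760) (nat_lit 22305072749) (nat_lit 52) (nat_lit 5) (nat_lit 61) (nat_lit 5) (nat_lit 62) (nat_lit 5) (nat_lit 271) (nat_lit 265) (nat_lit 184))) (XT.nd (nat_lit 78) (nat_lit 0) (nat_lit 0) (XT.lf (nat_lit 0) (nat_lit 3937059413) (nat_lit 684) (nat_lit 27400924983) (nat_lit 76) (nat_lit 6558349275) (nat_lit 53) (nat_lit 5) (nat_lit 62) (nat_lit 5) (nat_lit 54) (nat_lit 5) (nat_lit 272) (nat_lit 265) (nat_lit 183)) (XT.lf (nat_lit 0) (nat_lit 7513064166) (nat_lit 684) (nat_lit 3669355845) (nat_lit 76) (nat_lit 28459225353) (nat_lit 53) (nat_lit 5) (nat_lit 62) (nat_lit 5) (nat_lit 54) (nat_lit 5) (nat_lit 273) (nat_lit 265) (nat_lit 182))))) (XT.nd (nat_lit 312) (nat_lit 760) (nat_lit 0) (XT.nd (nat_lit 156) (nat_lit 304) (nat_lit 0) (XT.nd (nat_lit 78) (nat_lit 304)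 (nat_lit 0) (XT.lf (nat_lit 0) (nat_lit 11893654441) (nat_lit 532) (nat_lit 18999574405) (nat_lit 76) (nat_lit 10607465035) (nat_lit 47) (nat_lit 5) (nat_lit 54) (nat_lit 5) (nat_lit 48) (nat_lit 5) (nat_lit 274) (nat_lit 265) (nat_lit 181)) (XT.lf (nat_lit 0) (nat_lit 7433297062) (nat_lit 304) (nat_lit 9554695511) (nat_lit 380) (nat_lit 26502343072) (nat_lit 43) (nat_lit 5) (nat_lit 47) (nat_lit 5) (nat_lit 48) (nat_lit 5) (nat_lit 275) (nat_lit 265) (nat_lit 180))) (XT.nd (nat_lit 78) (nat_lit 304) (nat_lit 0) (XT.lf (nat_lit 0) (nat_lit 23030996728) (nat_lit 380) (nat_lit 9185463766) (nat_lit 76) (nat_lit 13395664153) (nat_lit 43) (nat_lit 5) (nat_lit 48) (nat_lit 5) (nat_lit 44) (nat_lit 5) (nat_lit 276) (nat_lit 265) (nat_lit 179)) (XT.lf (nat_lit 0) (nat_lit 20319453398) (nat_lit 304) (nat_lit 9710879929) (nat_lit 380) (nat_lit 17849708329) (nat_lit 39) (nat_lit 5) (nat_lit 43)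 (nat_lit 5) (nat_lit 44) (nat_lit 5) (nat_lit 277) (nat_lit 265) (nat_lit 178)))) (XT.nd (nat_lit 156) (nat_lit 532) (nat_lit 0) (XT.nd (nat_lit 78) (nat_lit 0) (nat_lit 0) (XT.lf (nat_lit 0) (nat_lit 2019876953) (nat_lit 228) (nat_lit 35986630572) (nat_lit 304) (nat_lit 12302067269) (nat_lit 36) (nat_lit 5) (nat_lit 39) (nat_lit 5) (nat_lit 40) (nat_lit 5) (nat_lit 278) (nat_lit 265) (nat_lit 177)) (XT.lf (nat_lit 0) (nat_lit 34776388149) (nat_lit 228) (nat_lit 12480729569) (nat_lit 304) (nat_lit 5642481044) (nat_lit 36) (nat_lit 5) (nat_lit 39) (nat_lit 5) (nat_lit 40) (nat_lit 5) (nat_lit 279) (nat_lit 265) (nat_lit 176))) (XT.nd (nat_lit 78) (nat_lit 228) (nat_lit 0) (XT.lf (nat_lit 0) (nat_lit 1934056088) (nat_lit 304) (nat_lit 40987883068) (nat_lit 76) (nat_lit 12753088415) (nat_lit 32) (nat_lit 5) (nat_lit 36) (nat_lit 5) (nat_lit 33) (nat_lit 5) (nat_lit 280) (nat_lit 265) (nat_lit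 175)) (XT.nd (nat_lit 78) (nat_lit 228) (nat_lit 0) (XT.lf (nat_lit 0) (nat_lit 10448659131) (nat_lit 304) (nat_lit 8203157651) (nat_lit 76) (nat_lit 39989588162) (nat_lit 32) (nat_lit 5) (nat_lit 36) (nat_lit 5) (nat_lit 33) (nat_lit 5) (nat_lit 281) (nat_lit 265) (nat_lit 174)) (XT.lf (nat_lit 0) (nat_lit 20204331878) (nat_lit 304) (nat_lit 33849706220) (nat_lit 76) (nat_lit 7763078448) (nat_lit 29) (nat_lit 5) (nat_lit 33) (nat_lit 5) (nat_lit 30) (nat_lit 5) (nat_lit 282) (nat_lit 265) (nat_lit 173))))))) (XT.nd (nat_lit 624) (nat_lit 532) (nat_lit 0) (XT.nd (nat_lit 312) (nat_lit 456) (nat_lit 0) (XT.nd (nat_lit 156) (nat_lit 152) (nat_lit 0) (XT.nd (nat_lit 78) (nat_lit 0) (nat_lit 0) (XT.lf (nat_lit 0) (nat_lit 1821478623) (nat_lit 228) (nat_lit 29403359174) (nat_lit 304) (nat_lit 33997846011) (nat_lit 26) (nat_lit 5) (nat_lit 29) (nat_lit 5) (nat_lit 30) (nat_lit 5) (nat_lit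 283) (nat_lit 265) (nat_lit 172)) (XT.lf (nat_lit 0) (nat_lit 41550539171) (nat_lit 228) (nat_lit 2162495974) (nat_lit 304) (nat_lit 25158375145) (nat_lit 26) (nat_lit 5) (nat_lit 29) (nat_lit 5) (nat_lit 30) (nat_lit 5) (nat_lit 284) (nat_lit 265) (nat_lit 171))) (XT.nd (nat_lit 78) (nat_lit 0) (nat_lit 0) (XT.lf (nat_lit 0) (nat_lit 11586761488) (nat_lit 152) (nat_lit 46216659131) (nat_lit 228) (nat_lit 14978472828) (nat_lit 24) (nat_lit 5) (nat_lit 26) (nat_lit 5) (nat_lit 27) (nat_lit 5) (nat_lit 285) (nat_lit 265) (nat_lit 170)) (XT.lf (nat_lit 0) (nat_lit 54540737697) (nat_lit 152) (nat_lit 18988930504) (nat_lit 228) (nat_lit 3450129541) (nat_lit 24) (nat_lit 5) (nat_lit 26) (nat_lit 5) (nat_lit 27) (nat_lit 5) (nat_lit 286) (nat_lit 265) (nat_lit 169)))) (XT.nd (nat_lit 156) (nat_lit 152) (nat_lit 0) (XT.nd (nat_lit 78) (nat_lit 0) (nat_lit 0) (XT.lf (nat_lit 0) (nat_lit 9190303196)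 (nat_lit 304) (nat_lit 61750939282) (nat_lit 76) (nat_lit 10541383476) (nat_lit 20) (nat_lit 5) (nat_lit 24) (nat_lit 5) (nat_lit 21) (nat_lit 5) (nat_lit 287) (nat_lit 265) (nat_lit 168)) (XT.lf (nat_lit 0) (nat_lit 23437342749) (nat_lit 304) (nat_lit 20637501289) (nat_lit 76) (nat_lit 42232207484) (nat_lit 20) (nat_lit 5) (nat_lit 24) (nat_lit 5) (nat_lit 21) (nat_lit 5) (nat_lit 288) (nat_lit 265) (nat_lit 167))) (XT.nd (nat_lit 78) (nat_lit 0) (nat_lit 0) (XT.lf (nat_lit 0) (nat_lit 24546985259) (nat_lit 152) (nat_lit 14657779819) (nat_lit 228) (nat_lit 52293645700) (nat_lit 18) (nat_lit 5) (nat_lit 20) (nat_lit 5) (nat_lit 21) (nat_lit 5) (nat_lit 289) (nat_lit 265) (nat_lit 166)) (XT.lf (nat_lit 0) (nat_lit 56863638727) (nat_lit 228) (nat_lit 23280625968) (nat_lit 76) (nat_lit 16929321036) (nat_lit 18) (nat_lit 5) (nat_lit 21) (nat_lit 5) (nat_lit 19) (nat_lit 5) (nat_lit 290)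 (nat_lit 265) (nat_lit 165))))) (XT.nd (nat_lit 312) (nat_lit 228) (nat_lit 0) (XT.nd (nat_lit 156) (nat_lit 152) (nat_lit 0) (XT.nd (nat_lit 78) (nat_lit 0) (nat_lit 0) (XT.lf (nat_lit 0) (nat_lit 24414732947) (nat_lit 152) (nat_lit 52146510006) (nat_lit 228) (nat_lit 26502239800) (nat_lit 16) (nat_lit 5) (nat_lit 18) (nat_lit 5) (nat_lit 19) (nat_lit 5) (nat_lit 291) (nat_lit 265) (nat_lit 164)) (XT.lf (nat_lit 0) (nat_lit 76753839161) (nat_lit 152) (nat_lit 21484152582) (nat_lit 228) (nat_lit 11274421414) (nat_lit 16) (nat_lit 5) (nat_lit 18) (nat_lit 5) (nat_lit 19) (nat_lit 5) (nat_lit 292) (nat_lit 265) (nat_lit 163))) (XT.nd (nat_lit 78) (nat_lit 0) (nat_lit 0) (XT.lf (nat_lit 0) (nat_lit 5461008732) (nat_lit 152) (nat_lit 99375357301) (nat_lit 76) (nat_lit 11614116695) (nat_lit 14) (nat_lit 5) (nat_lit 16) (nat_lit 5) (nat_lit 15) (nat_lit 5) (nat_lit 293) (nat_lit 265) (nat_lit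 162)) (XT.lf (nat_lit 0) (nat_lit 24085820746) (nat_lit 152) (nat_lit 52414490710) (nat_lit 76) (nat_lit 47386774552) (nat_lit 14) (nat_lit 5) (nat_lit 16) (nat_lit 5) (nat_lit 15) (nat_lit 5) (nat_lit 294) (nat_lit 265) (nat_lit 161)))) (XT.nd (nat_lit 156) (nat_lit 76) (nat_lit 0) (XT.nd (nat_lit 78) (nat_lit 152) (nat_lit 0) (XT.lf (nat_lit 0) (nat_lit 44198782145) (nat_lit 152) (nat_lit 1699550516) (nat_lit 76) (nat_lit 86020383043) (nat_lit 14) (nat_lit 5) (nat_lit 16) (nat_lit 5) (nat_lit 15) (nat_lit 5) (nat_lit 295) (nat_lit 265) (nat_lit 160)) (XT.lf (nat_lit 0) (nat_lit 54824730007) (nat_lit 152) (nat_lit 11950318521) (nat_lit 228) (nat_lit 73775119746) (nat_lit 12) (nat_lit 5) (nat_lit 14) (nat_lit 5) (nat_lit 15) (nat_lit 5) (nat_lit 296) (nat_lit 265) (nat_lit 159))) (XT.nd (nat_lit 78) (nat_lit 76) (nat_lit 0) (XT.lf (nat_lit 0) (nat_lit 91571728336) (nat_lit 228) (nat_lit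 34327895054) (nat_lit 76) (nat_lit 23951803519) (nat_lit 12) (nat_lit 5) (nat_lit 15) (nat_lit 5) (nat_lit 13) (nat_lit 4) (nat_lit 297) (nat_lit 265) (nat_lit 158)) (XT.nd (nat_lit 78) (nat_lit 0) (nat_lit 0) (XT.lf (nat_lit 0) (nat_lit 21671201258) (nat_lit 76) (nat_lit 97219288233) (nat_lit 152) (nat_lit 40979384456) (nat_lit 11) (nat_lit 5) (nat_lit 12) (nat_lit 5) (nat_lit 13) (nat_lit 4) (nat_lit 298) (nat_lit 265) (nat_lit 157)) (XT.lf (nat_lit 0) (nat_lit 83373805957) (nat_lit 76) (nat_lit 65617486213) (nat_lit 152) (nat_lit 21668682233) (nat_lit 11) (nat_lit 5) (nat_lit 12) (nat_lit 5) (nat_lit 13) (nat_lit 4) (nat_lit 299) (nat_lit 265) (nat_lit 156))))))))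
noncomputable def xc100 : XT := (XT.nd (nat_lit 34866) (nat_lit 0) (nat_lit 2128) (XT.nd (nat_lit 624) (nat_lit 228) (nat_lit 0) (XT.nd (nat_lit 312) (nat_lit 76) (nat_lit 0) (XT.nd (nat_lit 156) (nat_lit 0) (nat_lit 0) (XT.nd (nat_lit 78) (nat_lit 228) (nat_lit 0) (XT.lf (nat_lit 0) (nat_lit 150010528867) (nat_lit 76) (nat_lit 31488306905) (nat_lit 152) (nat_lit 814517626) (nat_lit 11) (nat_lit 5) (nat_lit 12) (nat_lit 5) (nat_lit 13) (nat_lit 4) (nat_lit 300) (nat_lit 265) (nat_lit 155)) (XT.lf (nat_lit 0) (nat_lit 21539676774) (nat_lit 228) (nat_lit 167334661462) (nat_lit 76) (nat_lit 5981397802) (nat_lit 8) (nat_lit 5) (nat_lit 11) (nat_lit 5) (nat_lit 9) (nat_lit 4) (nat_lit 301) (nat_lit 265) (nat_lit 154))) (XT.nd (nat_lit 78) (nat_lit 0) (nat_lit 0) (XT.lf (nat_lit 0) (nat_lit 46755723399) (nat_lit 228) (nat_lit 115644820844) (nat_lit 76) (nat_lit 45945198284) (nat_lit 8) (nat_lit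 5) (nat_lit 11) (nat_lit 5) (nat_lit 9) (nat_lit 4) (nat_lit 302) (nat_lit 265) (nat_lit 153)) (XT.lf (nat_lit 0) (nat_lit 73987945106) (nat_lit 228) (nat_lit 59821595015) (nat_lit 76) (nat_lit 89105468127) (nat_lit 8) (nat_lit 5) (nat_lit 11) (nat_lit 5) (nat_lit 9) (nat_lit 4) (nat_lit 303) (nat_lit 265) (nat_lit 152)))) (XT.nd (nat_lit 156) (nat_lit 0) (nat_lit 0) (XT.nd (nat_lit 78) (nat_lit 0) (nat_lit 0) (XT.lf (nat_lit 0) (nat_lit 481222450) (nat_lit 76) (nat_lit 102924008804) (nat_lit 152) (nat_lit 135244262673) (nat_lit 7) (nat_lit 5) (nat_lit 8) (nat_lit 5) (nat_lit 9) (nat_lit 4) (nat_lit 304) (nat_lit 265) (nat_lit 151)) (XT.lf (nat_lit 0) (nat_lit 67742879132) (nat_lit 76) (nat_lit 68474099346) (nat_lit 152) (nat_lit 119373708885) (nat_lit 7) (nat_lit 5) (nat_lit 8) (nat_lit 5) (nat_lit 9) (nat_lit 4) (nat_lit 305) (nat_lit 265) (nat_lit 150))) (XT.nd (nat_lit 78) (nat_lit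 0) (nat_lit 0) (XT.lf (nat_lit 0) (nat_lit 140383990534) (nat_lit 76) (nat_lit 31268771794) (nat_lit 152) (nat_lit 102234461710) (nat_lit 7) (nat_lit 5) (nat_lit 8) (nat_lit 5) (nat_lit 9) (nat_lit 4) (nat_lit 306) (nat_lit 265) (nat_lit 149)) (XT.lf (nat_lit 0) (nat_lit 210061720951) (nat_lit 152) (nat_lit 74951653688) (nat_lit 0) (nat_lit 8627195813) (nat_lit 7) (nat_lit 5) (nat_lit 9) (nat_lit 4) (nat_lit 7) (nat_lit 4) (nat_lit 307) (nat_lit 265) (nat_lit 148))))) (XT.nd (nat_lit 312) (nat_lit 76) (nat_lit 0) (XT.nd (nat_lit 156) (nat_lit 76) (nat_lit 0) (XT.nd (nat_lit 78) (nat_lit 76) (nat_lit 0) (XT.lf (nat_lit 0) (nat_lit 252069862875) (nat_lit 152) (nat_lit 12244496342) (nat_lit 0) (nat_lit 50633504265) (nat_lit 7) (nat_lit 5) (nat_lit 9) (nat_lit 4) (nat_lit 7) (nat_lit 4) (nat_lit 308) (nat_lit 265) (nat_lit 147)) (XT.lf (nat_lit 0) (nat_lit 57312383867) (nat_lit 76) (nat_lit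 241020355140) (nat_lit 76) (nat_lit 39582298871) (nat_lit 6) (nat_lit 4) (nat_lit 7) (nat_lit 5) (nat_lit 7) (nat_lit 4) (nat_lit 309) (nat_lit 265) (nat_lit 146))) (XT.nd (nat_lit 78) (nat_lit 76) (nat_lit 0) (XT.lf (nat_lit 0) (nat_lit 132869909900) (nat_lit 76) (nat_lit 215639338137) (nat_lit 76) (nat_lit 14199709963) (nat_lit 6) (nat_lit 4) (nat_lit 7) (nat_lit 5) (nat_lit 7) (nat_lit 4) (nat_lit 310) (nat_lit 265) (nat_lit 145)) (XT.lf (nat_lit 0) (nat_lit 12789922394) (nat_lit 152) (nat_lit 175221742734) (nat_lit 76) (nat_lit 201464445792) (nat_lit 5) (nat_lit 5) (nat_lit 7) (nat_lit 5) (nat_lit 6) (nat_lit 4) (nat_lit 311) (nat_lit 265) (nat_lit 144)))) (XT.nd (nat_lit 156) (nat_lit 76) (nat_lit 0) (XT.nd (nat_lit 78) (nat_lit 0) (nat_lit 0) (XT.lf (nat_lit 0) (nat_lit 41447286118) (nat_lit 152) (nat_lit 116475494757) (nat_lit 76) (nat_lit 260449915185) (nat_lit 5) (nat_lit 5)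 (nat_lit 7) (nat_lit 5) (nat_lit 6) (nat_lit 4) (nat_lit 312) (nat_lit 265) (nat_lit 143)) (XT.lf (nat_lit 0) (nat_lit 72396682020) (nat_lit 152) (nat_lit 53030480986) (nat_lit 76) (nat_lit 324153874296) (nat_lit 5) (nat_lit 5) (nat_lit 7) (nat_lit 5) (nat_lit 6) (nat_lit 4) (nat_lit 313) (nat_lit 265) (nat_lit 142))) (XT.nd (nat_lit 78) (nat_lit 0) (nat_lit 0) (XT.lf (nat_lit 0) (nat_lit 16001414214) (nat_lit 76) (nat_lit 90069926635) (nat_lit 152) (nat_lit 377202240773) (nat_lit 4) (nat_lit 5) (nat_lit 5) (nat_lit 5) (nat_lit 6) (nat_lit 4) (nat_lit 314) (nat_lit 265) (nat_lit 141)) (XT.lf (nat_lit 0) (nat_lit 92448735129) (nat_lit 76) (nat_lit 50914503635) (nat_lit 152) (nat_lit 376252128643) (nat_lit 4) (nat_lit 5) (nat_lit 5) (nat_lit 5) (nat_lit 6) (nat_lit 4) (nat_lit 315) (nat_lit 265) (nat_lit 140)))))) (XT.nd (nat_lit 624) (nat_lit 1520) (nat_lit 0) (XT.nd (nat_lit 312) (nat_lit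 456) (nat_lit 0) (XT.nd (nat_lit 156) (nat_lit 0) (nat_lit 76) (XT.nd (nat_lit 78) (nat_lit 0) (nat_lit 0) (XT.lf (nat_lit 0) (nat_lit 12254580825) (nat_lit 684) (nat_lit 1525739673) (nat_lit 684) (nat_lit 1525739673) (nat_lit 58) (nat_lit 3) (nat_lit 67) (nat_lit 3) (nat_lit 67) (nat_lit 5) (nat_lit 266) (nat_lit 266) (nat_lit 188)) (XT.lf (nat_lit 76) (nat_lit 16398032945) (nat_lit 0) (nat_lit 9440465004) (nat_lit 684) (nat_lit 5980085882) (nat_lit 59) (nat_lit 5) (nat_lit 58) (nat_lit 3) (nat_lit 67) (nat_lit 5) (nat_lit 267) (nat_lit 266) (nat_lit 187))) (XT.nd (nat_lit 78) (nat_lit 0) (nat_lit 0) (XT.lf (nat_lit 76) (nat_lit 4368707532) (nat_lit 0) (nat_lit 23176543213) (nat_lit 684) (nat_lit 5562817484) (nat_lit 60) (nat_lit 5) (nat_lit 59) (nat_lit 5) (nat_lit 68) (nat_lit 5) (nat_lit 268) (nat_lit 266) (nat_lit 186)) (XT.lf (nat_lit 76) (nat_lit 26121902231) (nat_lit 0) (nat_lit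 3683167187) (nat_lit 684) (nat_lit 4674868744) (nat_lit 60) (nat_lit 5) (nat_lit 59) (nat_lit 5) (nat_lit 68) (nat_lit 5) (nat_lit 269) (nat_lit 266) (nat_lit 185)))) (XT.nd (nat_lit 156) (nat_lit 608) (nat_lit 0) (XT.nd (nat_lit 78) (nat_lit 0) (nat_lit 76) (XT.lf (nat_lit 76) (nat_lit 13819393672) (nat_lit 0) (nat_lit 18905214760) (nat_lit 684) (nat_lit 3213051651) (nat_lit 61) (nat_lit 5) (nat_lit 60) (nat_lit 5) (nat_lit 69) (nat_lit 5) (nat_lit 270) (nat_lit 266) (nat_lit 184)) (XT.lf (nat_lit 76) (nat_lit 483403852) (nat_lit 0) (nat_lit 35631071674) (nat_lit 684) (nat_lit 1385731479) (nat_lit 62) (nat_lit 5) (nat_lit 61) (nat_lit 5) (nat_lit 70) (nat_lit 5) (nat_lit 271) (nat_lit 266) (nat_lit 183))) (XT.nd (nat_lit 78) (nat_lit 0) (nat_lit 76) (XT.lf (nat_lit 0) (nat_lit 1272184370) (nat_lit 684) (nat_lit 13825480637) (nat_lit 760) (nat_lit 24054512826) (nat_lit 52) (nat_lit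 5) (nat_lit 61) (nat_lit 5) (nat_lit 62) (nat_lit 5) (nat_lit 272) (nat_lit 266) (nat_lit 182)) (XT.lf (nat_lit 0) (nat_lit 4382607123) (nat_lit 684) (nat_lit 29477837175) (nat_lit 76) (nat_lit 7060342186) (nat_lit 53) (nat_lit 5) (nat_lit 62) (nat_lit 5) (nat_lit 54) (nat_lit 5) (nat_lit 273) (nat_lit 266) (nat_lit 181))))) (XT.nd (nat_lit 312) (nat_lit 836) (nat_lit 0) (XT.nd (nat_lit 156) (nat_lit 304) (nat_lit 0) (XT.nd (nat_lit 78) (nat_lit 456) (nat_lit 0) (XT.lf (nat_lit 0) (nat_lit 8235019444) (nat_lit 684) (nat_lit 3856273010) (nat_lit 76) (nat_lit 30714967982) (nat_lit 53) (nat_lit 5) (nat_lit 62) (nat_lit 5) (nat_lit 54) (nat_lit 5) (nat_lit 274) (nat_lit 266) (nat_lit 180)) (XT.lf (nat_lit 0) (nat_lit 12958512784) (nat_lit 532) (nat_lit 20411064151) (nat_lit 76) (nat_lit 11444882815) (nat_lit 47) (nat_lit 5) (nat_lit 54) (nat_lit 5) (nat_lit 48) (nat_lit 5) (nat_lit 275)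 (nat_lit 266) (nat_lit 179))) (XT.nd (nat_lit 78) (nat_lit 0) (nat_lit 0) (XT.lf (nat_lit 0) (nat_lit 8131722789) (nat_lit 304) (nat_lit 10321897711) (nat_lit 380) (nat_lit 28510037253) (nat_lit 43) (nat_lit 5) (nat_lit 47) (nat_lit 5) (nat_lit 48) (nat_lit 5) (nat_lit 276) (nat_lit 266) (nat_lit 178)) (XT.lf (nat_lit 0) (nat_lit 24972128681) (nat_lit 380) (nat_lit 9818716760) (nat_lit 76) (nat_lit 14464783867) (nat_lit 43) (nat_lit 5) (nat_lit 48) (nat_lit 5) (nat_lit 44) (nat_lit 5) (nat_lit 277) (nat_lit 266) (nat_lit 177)))) (XT.nd (nat_lit 156) (nat_lit 304) (nat_lit 0) (XT.nd (nat_lit 78) (nat_lit 228) (nat_lit 0) (XT.lf (nat_lit 0) (nat_lit 22042179056) (nat_lit 304) (nat_lit 10483442666) (nat_lit 380) (nat_lit 19179686938) (nat_lit 39) (nat_lit 5) (nat_lit 43) (nat_lit 5) (nat_lit 44) (nat_lit 5) (nat_lit 278) (nat_lit 266) (nat_lit 176)) (XT.lf (nat_lit 0) (nat_lit 2279262410)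 (nat_lit 228) (nat_lit 38855337931) (nat_lit 304) (nat_lit 13193825120) (nat_lit 36) (nat_lit 5) (nat_lit 39) (nat_lit 5) (nat_lit 40) (nat_lit 5) (nat_lit 279) (nat_lit 266) (nat_lit 175))) (XT.nd (nat_lit 78) (nat_lit 304) (nat_lit 0) (XT.lf (nat_lit 0) (nat_lit 37649050405) (nat_lit 228) (nat_lit 13469722114) (nat_lit 304) (nat_lit 6008317000) (nat_lit 36) (nat_lit 5) (nat_lit 39) (nat_lit 5) (nat_lit 40) (nat_lit 5) (nat_lit 280) (nat_lit 266) (nat_lit 174)) (XT.nd (nat_lit 78) (nat_lit 0) (nat_lit 0) (XT.lf (nat_lit 0) (nat_lit 2167048744) (nat_lit 304) (nat_lit 44173195741) (nat_lit 76) (nat_lit 13784498977) (nat_lit 32) (nat_lit 5) (nat_lit 36) (nat_lit 5) (nat_lit 33) (nat_lit 5) (nat_lit 281) (nat_lit 266) (nat_lit 173)) (XT.lf (nat_lit 0) (nat_lit 11357022388) (nat_lit 304) (nat_lit 8772634363) (nat_lit 76) (nat_lit 43199091779) (nat_lit 32) (nat_lit 5) (nat_lit 36) (nat_lit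 5) (nat_lit 33) (nat_lit 5) (nat_lit 282) (nat_lit 266) (nat_lit 172))))))))
noncomputable def xc101 : XT := (XT.nd (nat_lit 1248) (nat_lit 608) (nat_lit 0) (XT.nd (nat_lit 624) (nat_lit 456) (nat_lit 0) (XT.nd (nat_lit 312) (nat_lit 456) (nat_lit 0) (XT.nd (nat_lit 156) (nat_lit 152) (nat_lit 0) (XT.nd (nat_lit 78) (nat_lit 228) (nat_lit 0) (XT.lf (nat_lit 0) (nat_lit 21889304751) (nat_lit 304) (nat_lit 36471166419) (nat_lit 76) (nat_lit 8398263676) (nat_lit 29) (nat_lit 5) (nat_lit 33) (nat_lit 5) (nat_lit 30) (nat_lit 5) (nat_lit 283) (nat_lit 266) (nat_lit 171)) (XT.lf (nat_lit 0) (nat_lit 2049953318) (nat_lit 228) (nat_lit 31737706455) (nat_lit 304) (nat_lit 36649300968) (nat_lit 26) (nat_lit 5) (nat_lit 29) (nat_lit 5) (nat_lit 30) (nat_lit 5) (nat_lit 284) (nat_lit 266) (nat_lit 170))) (XT.nd (nat_lit 78) (nat_lit 152) (nat_lit 0) (XT.lf (nat_lit 0) (nat_lit 44951208605) (nat_lit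 228) (nat_lit 2318901713) (nat_lit 304) (nat_lit 27107737079) (nat_lit 26) (nat_lit 5) (nat_lit 29) (nat_lit 5) (nat_lit 30) (nat_lit 5) (nat_lit 285) (nat_lit 266) (nat_lit 169)) (XT.lf (nat_lit 0) (nat_lit 12589884160) (nat_lit 152) (nat_lit 49894824927) (nat_lit 228) (nat_lit 16116631302) (nat_lit 24) (nat_lit 5) (nat_lit 26) (nat_lit 5) (nat_lit 27) (nat_lit 5) (nat_lit 286) (nat_lit 266) (nat_lit 168)))) (XT.nd (nat_lit 156) (nat_lit 152) (nat_lit 0) (XT.nd (nat_lit 78) (nat_lit 304) (nat_lit 0) (XT.lf (nat_lit 0) (nat_lit 58974535373) (nat_lit 152) (nat_lit 20490297782) (nat_lit 228) (nat_lit 3670473837) (nat_lit 24) (nat_lit 5) (nat_lit 26) (nat_lit 5) (nat_lit 27) (nat_lit 5) (nat_lit 287) (nat_lit 266) (nat_lit 167)) (XT.lf (nat_lit 0) (nat_lit 9976791325) (nat_lit 304) (nat_lit 66619154446) (nat_lit 76) (nat_lit 11402519840) (nat_lit 20) (nat_lit 5) (nat_lit 24) (nat_lit 5)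 (nat_lit 21) (nat_lit 5) (nat_lit 288) (nat_lit 266) (nat_lit 166))) (XT.nd (nat_lit 78) (nat_lit 152) (nat_lit 0) (XT.lf (nat_lit 0) (nat_lit 25359796719) (nat_lit 304) (nat_lit 22221964374) (nat_lit 76) (nat_lit 45627289348) (nat_lit 20) (nat_lit 5) (nat_lit 24) (nat_lit 5) (nat_lit 21) (nat_lit 5) (nat_lit 289) (nat_lit 266) (nat_lit 165)) (XT.lf (nat_lit 0) (nat_lit 26574389480) (nat_lit 152) (nat_lit 15811700996) (nat_lit 228) (nat_lit 56429768291) (nat_lit 18) (nat_lit 5) (nat_lit 20) (nat_lit 5) (nat_lit 21) (nat_lit 5) (nat_lit 290) (nat_lit 266) (nat_lit 164))))) (XT.nd (nat_lit 312) (nat_lit 152) (nat_lit 0) (XT.nd (nat_lit 156) (nat_lit 152) (nat_lit 0) (XT.nd (nat_lit 78) (nat_lit 152) (nat_lit 0) (XT.lf (nat_lit 0) (nat_lit 61454615168) (nat_lit 228) (nat_lit 25082170218) (nat_lit 76) (nat_lit 18300428434) (nat_lit 18) (nat_lit 5) (nat_lit 21) (nat_lit 5) (nat_lit 19) (nat_lit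 5) (nat_lit 291) (nat_lit 266) (nat_lit 163)) (XT.lf (nat_lit 0) (nat_lit 26426170518) (nat_lit 152) (nat_lit 56299664183) (nat_lit 228) (nat_lit 28580589741) (nat_lit 16) (nat_lit 5) (nat_lit 18) (nat_lit 5) (nat_lit 19) (nat_lit 5) (nat_lit 292) (nat_lit 266) (nat_lit 162))) (XT.nd (nat_lit 78) (nat_lit 152) (nat_lit 0) (XT.lf (nat_lit 0) (nat_lit 82948089752) (nat_lit 152) (nat_lit 23185693470) (nat_lit 228) (nat_lit 12137644347) (nat_lit 16) (nat_lit 5) (nat_lit 18) (nat_lit 5) (nat_lit 19) (nat_lit 5) (nat_lit 293) (nat_lit 266) (nat_lit 161)) (XT.lf (nat_lit 0) (nat_lit 5933700833) (nat_lit 152) (nat_lit 107270842377) (nat_lit 76) (nat_lit 12560063198) (nat_lit 14) (nat_lit 5) (nat_lit 16) (nat_lit 5) (nat_lit 15) (nat_lit 5) (nat_lit 294) (nat_lit 266) (nat_lit 160)))) (XT.nd (nat_lit 156) (nat_lit 152) (nat_lit 0) (XT.nd (nat_lit 78) (nat_lit 0) (nat_lit 0) (XT.lf (nat_lit 0)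 (nat_lit 26045845111) (nat_lit 152) (nat_lit 56557146718) (nat_lit 76) (nat_lit 51193287968) (nat_lit 14) (nat_lit 5) (nat_lit 16) (nat_lit 5) (nat_lit 15) (nat_lit 5) (nat_lit 295) (nat_lit 266) (nat_lit 159)) (XT.lf (nat_lit 0) (nat_lit 47765387221) (nat_lit 152) (nat_lit 1788752290) (nat_lit 76) (nat_lit 92916431697) (nat_lit 14) (nat_lit 5) (nat_lit 16) (nat_lit 5) (nat_lit 15) (nat_lit 5) (nat_lit 296) (nat_lit 266) (nat_lit 158))) (XT.nd (nat_lit 78) (nat_lit 0) (nat_lit 0) (XT.lf (nat_lit 0) (nat_lit 59255438443) (nat_lit 152) (nat_lit 12890740573) (nat_lit 228) (nat_lit 79646447661) (nat_lit 12) (nat_lit 5) (nat_lit 14) (nat_lit 5) (nat_lit 15) (nat_lit 5) (nat_lit 297) (nat_lit 266) (nat_lit 157)) (XT.lf (nat_lit 0) (nat_lit 98924661251) (nat_lit 228) (nat_lit 37031495657) (nat_lit 76) (nat_lit 25881933006) (nat_lit 12) (nat_lit 5) (nat_lit 15) (nat_lit 5) (nat_lit 13) (nat_lit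 4) (nat_lit 298) (nat_lit 266) (nat_lit 156)))))) (XT.nd (nat_lit 624) (nat_lit 228) (nat_lit 0) (XT.nd (nat_lit 312) (nat_lit 76) (nat_lit 0) (XT.nd (nat_lit 156) (nat_lit 228) (nat_lit 0) (XT.nd (nat_lit 78) (nat_lit 0) (nat_lit 0) (XT.lf (nat_lit 0) (nat_lit 23445675668) (nat_lit 76) (nat_lit 104981869875) (nat_lit 152) (nat_lit 44230542831) (nat_lit 11) (nat_lit 5) (nat_lit 12) (nat_lit 5) (nat_lit 13) (nat_lit 4) (nat_lit 299) (nat_lit 266) (nat_lit 155)) (XT.lf (nat_lit 0) (nat_lit 90081468127) (nat_lit 76) (nat_lit 70853031946) (nat_lit 152) (nat_lit 23376998681) (nat_lit 11) (nat_lit 5) (nat_lit 12) (nat_lit 5) (nat_lit 13) (nat_lit 4) (nat_lit 300) (nat_lit 266) (nat_lit 154))) (XT.nd (nat_lit 78) (nat_lit 228) (nat_lit 0) (XT.lf (nat_lit 0) (nat_lit 162046332004) (nat_lit 76) (nat_lit 33994544454) (nat_lit 152) (nat_lit 856365952) (nat_lit 11) (nat_lit 5) (nat_lit 12) (nat_lit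 5) (nat_lit 13) (nat_lit 4) (nat_lit 301) (nat_lit 266) (nat_lit 153)) (XT.lf (nat_lit 0) (nat_lit 23284480218) (nat_lit 228) (nat_lit 180686277303) (nat_lit 76) (nat_lit 6472291943) (nat_lit 8) (nat_lit 5) (nat_lit 11) (nat_lit 5) (nat_lit 9) (nat_lit 4) (nat_lit 302) (nat_lit 266) (nat_lit 152)))) (XT.nd (nat_lit 156) (nat_lit 76) (nat_lit 0) (XT.nd (nat_lit 78) (nat_lit 0) (nat_lit 0) (XT.lf (nat_lit 0) (nat_lit 50516208403) (nat_lit 228) (nat_lit 124863853663) (nat_lit 76) (nat_lit 49632279255) (nat_lit 8) (nat_lit 5) (nat_lit 11) (nat_lit 5) (nat_lit 9) (nat_lit 4) (nat_lit 303) (nat_lit 266) (nat_lit 151)) (XT.lf (nat_lit 0) (nat_lit 79925524355) (nat_lit 228) (nat_lit 64577181090) (nat_lit 76) (nat_lit 96244521418) (nat_lit 8) (nat_lit 5) (nat_lit 11) (nat_lit 5) (nat_lit 9) (nat_lit 4) (nat_lit 304) (nat_lit 266) (nat_lit 150))) (XT.nd (nat_lit 78) (nat_lit 0) (nat_lit 0) (XT.lf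 (nat_lit 0) (nat_lit 548551858) (nat_lit 76) (nat_lit 111146718075) (nat_lit 152) (nat_lit 146045251699) (nat_lit 7) (nat_lit 5) (nat_lit 8) (nat_lit 5) (nat_lit 9) (nat_lit 4) (nat_lit 305) (nat_lit 266) (nat_lit 149)) (XT.lf (nat_lit 0) (nat_lit 73189005400) (nat_lit 76) (nat_lit 73941646337) (nat_lit 152) (nat_lit 128906427830) (nat_lit 7) (nat_lit 5) (nat_lit 8) (nat_lit 5) (nat_lit 9) (nat_lit 4) (nat_lit 306) (nat_lit 266) (nat_lit 148))))) (XT.nd (nat_lit 312) (nat_lit 152) (nat_lit 0) (XT.nd (nat_lit 156) (nat_lit 76) (nat_lit 0) (XT.nd (nat_lit 78) (nat_lit 0) (nat_lit 0) (XT.lf (nat_lit 0) (nat_lit 151639428237) (nat_lit 76) (nat_lit 33760661540) (nat_lit 152) (nat_lit 110397313307) (nat_lit 7) (nat_lit 5) (nat_lit 8) (nat_lit 5) (nat_lit 9) (nat_lit 4) (nat_lit 307) (nat_lit 266) (nat_lit 147)) (XT.lf (nat_lit 0) (nat_lit 226880785048) (nat_lit 152) (nat_lit 80924297774)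 (nat_lit 0) (nat_lit 9325986619) (nat_lit 7) (nat_lit 5) (nat_lit 9) (nat_lit 4) (nat_lit 7) (nat_lit 4) (nat_lit 308) (nat_lit 266) (nat_lit 146))) (XT.nd (nat_lit 78) (nat_lit 76) (nat_lit 0) (XT.lf (nat_lit 0) (nat_lit 272248531923) (nat_lit 152) (nat_lit 13202307708) (nat_lit 0) (nat_lit 54692161589) (nat_lit 7) (nat_lit 5) (nat_lit 9) (nat_lit 4) (nat_lit 7) (nat_lit 4) (nat_lit 309) (nat_lit 266) (nat_lit 145)) (XT.lf (nat_lit 0) (nat_lit 61918177762) (nat_lit 76) (nat_lit 260293616290) (nat_lit 76) (nat_lit 42735790487) (nat_lit 6) (nat_lit 4) (nat_lit 7) (nat_lit 5) (nat_lit 7) (nat_lit 4) (nat_lit 310) (nat_lit 266) (nat_lit 144)))) (XT.nd (nat_lit 156) (nat_lit 76) (nat_lit 0) (XT.nd (nat_lit 78) (nat_lit 76) (nat_lit 0) (XT.lf (nat_lit 0) (nat_lit 143518764901) (nat_lit 76) (nat_lit 232882737724) (nat_lit 76) (nat_lit 15323564265) (nat_lit 6) (nat_lit 4) (nat_lit 7) (nat_lit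 5) (nat_lit 7) (nat_lit 4) (nat_lit 311) (nat_lit 266) (nat_lit 143)) (XT.lf (nat_lit 0) (nat_lit 13823981462) (nat_lit 152) (nat_lit 189221259290) (nat_lit 76) (nat_lit 217588387549) (nat_lit 5) (nat_lit 5) (nat_lit 7) (nat_lit 5) (nat_lit 6) (nat_lit 4) (nat_lit 312) (nat_lit 266) (nat_lit 142))) (XT.nd (nat_lit 156) (nat_lit 76) (nat_lit 0) (XT.lf (nat_lit 0) (nat_lit 44773129449) (nat_lit 152) (nat_lit 125776661316) (nat_lit 76) (nat_lit 281292191819) (nat_lit 5) (nat_lit 5) (nat_lit 7) (nat_lit 5) (nat_lit 6) (nat_lit 4) (nat_lit 313) (nat_lit 266) (nat_lit 141)) (XT.nd (nat_lit 33774) (nat_lit 0) (nat_lit 4104) (XT.lf (nat_lit 0) (nat_lit 17296471555) (nat_lit 76) (nat_lit 97269435089) (nat_lit 152) (nat_lit 407369096171) (nat_lit 4) (nat_lit 5) (nat_lit 5) (nat_lit 5) (nat_lit 6) (nat_lit 4) (nat_lit 315) (nat_lit 266) (nat_lit 139)) (XT.lf (nat_lit 0) (nat_lit 13325662410) (nat_lit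 684) (nat_lit 1599893880) (nat_lit 684) (nat_lit 1599893880) (nat_lit 58) (nat_lit 3) (nat_lit 67) (nat_lit 3) (nat_lit 67) (nat_lit 5) (nat_lit 267) (nat_lit 267) (nat_lit 186))))))))
noncomputable def xc102 : XT := (XT.nd (nat_lit 1248) (nat_lit 1596) (nat_lit 0) (XT.nd (nat_lit 624) (nat_lit 1520) (nat_lit 0) (XT.nd (nat_lit 312) (nat_lit 456) (nat_lit 0) (XT.nd (nat_lit 156) (nat_lit 0) (nat_lit 76) (XT.nd (nat_lit 78) (nat_lit 0) (nat_lit 76) (XT.lf (nat_lit 76) (nat_lit 17801521730) (nat_lit 0) (nat_lit 10273477869) (nat_lit 684) (nat_lit 6279564556) (nat_lit 59) (nat_lit 5) (nat_lit 58) (nat_lit 3) (nat_lit 67) (nat_lit 5) (nat_lit 268) (nat_lit 267) (nat_lit 185)) (XT.lf (nat_lit 76) (nat_lit 4816122225) (nat_lit 0) (nat_lit 25090025057) (nat_lit 684) (nat_lit 5841743978) (nat_lit 60) (nat_lit 5) (nat_lit 59) (nat_lit 5) (nat_lit 68) (nat_lit 5) (nat_lit 269) (nat_lit 267) (nat_lit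 184))) (XT.nd (nat_lit 78) (nat_lit 0) (nat_lit 76) (XT.lf (nat_lit 76) (nat_lit 28302319308) (nat_lit 0) (nat_lit 4032782031) (nat_lit 684) (nat_lit 4895062962) (nat_lit 60) (nat_lit 5) (nat_lit 59) (nat_lit 5) (nat_lit 68) (nat_lit 5) (nat_lit 270) (nat_lit 267) (nat_lit 183)) (XT.lf (nat_lit 76) (nat_lit 15020304592) (nat_lit 0) (nat_lit 20457806033) (nat_lit 684) (nat_lit 3326963741) (nat_lit 61) (nat_lit 5) (nat_lit 60) (nat_lit 5) (nat_lit 69) (nat_lit 5) (nat_lit 271) (nat_lit 267) (nat_lit 182)))) (XT.nd (nat_lit 156) (nat_lit 0) (nat_lit 76) (XT.nd (nat_lit 78) (nat_lit 684) (nat_lit 0) (XT.lf (nat_lit 76) (nat_lit 621159654) (nat_lit 0) (nat_lit 38508934115) (nat_lit 684) (nat_lit 1363045816) (nat_lit 62) (nat_lit 5) (nat_lit 61) (nat_lit 5) (nat_lit 70) (nat_lit 5) (nat_lit 272) (nat_lit 267) (nat_lit 181)) (XT.lf (nat_lit 0) (nat_lit 1493653502) (nat_lit 684) (nat_lit 14835146425)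 (nat_lit 760) (nat_lit 25948896364) (nat_lit 52) (nat_lit 5) (nat_lit 61) (nat_lit 5) (nat_lit 62) (nat_lit 5) (nat_lit 273) (nat_lit 267) (nat_lit 180))) (XT.nd (nat_lit 78) (nat_lit 0) (nat_lit 0) (XT.lf (nat_lit 0) (nat_lit 4845169530) (nat_lit 684) (nat_lit 31737331462) (nat_lit 76) (nat_lit 7605729376) (nat_lit 53) (nat_lit 5) (nat_lit 62) (nat_lit 5) (nat_lit 54) (nat_lit 5) (nat_lit 274) (nat_lit 267) (nat_lit 179)) (XT.lf (nat_lit 0) (nat_lit 8997481961) (nat_lit 684) (nat_lit 4073355696) (nat_lit 76) (nat_lit 33154165249) (nat_lit 53) (nat_lit 5) (nat_lit 62) (nat_lit 5) (nat_lit 54) (nat_lit 5) (nat_lit 275) (nat_lit 267) (nat_lit 178))))) (XT.nd (nat_lit 312) (nat_lit 532) (nat_lit 0) (XT.nd (nat_lit 156) (nat_lit 304) (nat_lit 0) (XT.nd (nat_lit 78) (nat_lit 304) (nat_lit 0) (XT.lf (nat_lit 0) (nat_lit 14092386868) (nat_lit 532) (nat_lit 21950948421) (nat_lit 76) (nat_lit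 12350888887) (nat_lit 47) (nat_lit 5) (nat_lit 54) (nat_lit 5) (nat_lit 48) (nat_lit 5) (nat_lit 276) (nat_lit 267) (nat_lit 177)) (XT.lf (nat_lit 0) (nat_lit 8871219771) (nat_lit 304) (nat_lit 11150072847) (nat_lit 380) (nat_lit 30694395390) (nat_lit 43) (nat_lit 5) (nat_lit 47) (nat_lit 5) (nat_lit 48) (nat_lit 5) (nat_lit 277) (nat_lit 267) (nat_lit 176))) (XT.nd (nat_lit 78) (nat_lit 304) (nat_lit 0) (XT.lf (nat_lit 0) (nat_lit 27054477348) (nat_lit 380) (nat_lit 10517122102) (nat_lit 76) (nat_lit 15619794579) (nat_lit 43) (nat_lit 5) (nat_lit 48) (nat_lit 5) (nat_lit 44) (nat_lit 5) (nat_lit 278) (nat_lit 267) (nat_lit 175)) (XT.lf (nat_lit 0) (nat_lit 23888860467) (nat_lit 304) (nat_lit 11318424958) (nat_lit 380) (nat_lit 20630044354) (nat_lit 39) (nat_lit 5) (nat_lit 43) (nat_lit 5) (nat_lit 44) (nat_lit 5) (nat_lit 279) (nat_lit 267) (nat_lit 174)))) (XT.nd (nat_lit 156) (nat_lit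 304) (nat_lit 0) (XT.nd (nat_lit 78) (nat_lit 0) (nat_lit 0) (XT.lf (nat_lit 0) (nat_lit 2545447110) (nat_lit 228) (nat_lit 41955000316) (nat_lit 304) (nat_lit 14170106567) (nat_lit 36) (nat_lit 5) (nat_lit 39) (nat_lit 5) (nat_lit 40) (nat_lit 5) (nat_lit 280) (nat_lit 267) (nat_lit 173)) (XT.lf (nat_lit 0) (nat_lit 40738607500) (nat_lit 228) (nat_lit 14539184468) (nat_lit 304) (nat_lit 6415626283) (nat_lit 36) (nat_lit 5) (nat_lit 39) (nat_lit 5) (nat_lit 40) (nat_lit 5) (nat_lit 281) (nat_lit 267) (nat_lit 172))) (XT.nd (nat_lit 78) (nat_lit 0) (nat_lit 0) (XT.lf (nat_lit 0) (nat_lit 2407514982) (nat_lit 304) (nat_lit 47626703345) (nat_lit 76) (nat_lit 14896829788) (nat_lit 32) (nat_lit 5) (nat_lit 36) (nat_lit 5) (nat_lit 33) (nat_lit 5) (nat_lit 282) (nat_lit 267) (nat_lit 171)) (XT.lf (nat_lit 0) (nat_lit 12327715974) (nat_lit 304) (nat_lit 9400048764) (nat_lit 76) (nat_lit 46663881058)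 (nat_lit 32) (nat_lit 5) (nat_lit 36) (nat_lit 5) (nat_lit 33) (nat_lit 5) (nat_lit 283) (nat_lit 267) (nat_lit 170)))))) (XT.nd (nat_lit 624) (nat_lit 532) (nat_lit 0) (XT.nd (nat_lit 312) (nat_lit 456) (nat_lit 0) (XT.nd (nat_lit 156) (nat_lit 152) (nat_lit 0) (XT.nd (nat_lit 78) (nat_lit 228) (nat_lit 0) (XT.lf (nat_lit 0) (nat_lit 23699285143) (nat_lit 304) (nat_lit 39314685952) (nat_lit 76) (nat_lit 9082246642) (nat_lit 29) (nat_lit 5) (nat_lit 33) (nat_lit 5) (nat_lit 30) (nat_lit 5) (nat_lit 284) (nat_lit 267) (nat_lit 169)) (XT.lf (nat_lit 0) (nat_lit 2284899862) (nat_lit 228) (nat_lit 34261358213) (nat_lit 304) (nat_lit 39522626455) (nat_lit 26) (nat_lit 5) (nat_lit 29) (nat_lit 5) (nat_lit 30) (nat_lit 5) (nat_lit 285) (nat_lit 267) (nat_lit 168))) (XT.nd (nat_lit 78) (nat_lit 152) (nat_lit 0) (XT.lf (nat_lit 0) (nat_lit 48612999996) (nat_lit 228) (nat_lit 2490187223) (nat_lit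 304) (nat_lit 29222079573) (nat_lit 26) (nat_lit 5) (nat_lit 29) (nat_lit 5) (nat_lit 30) (nat_lit 5) (nat_lit 286) (nat_lit 267) (nat_lit 167)) (XT.lf (nat_lit 0) (nat_lit 13662388467) (nat_lit 152) (nat_lit 53869978364) (nat_lit 228) (nat_lit 17354419151) (nat_lit 24) (nat_lit 5) (nat_lit 26) (nat_lit 5) (nat_lit 27) (nat_lit 5) (nat_lit 287) (nat_lit 267) (nat_lit 166)))) (XT.nd (nat_lit 156) (nat_lit 152) (nat_lit 0) (XT.nd (nat_lit 78) (nat_lit 304) (nat_lit 0) (XT.lf (nat_lit 0) (nat_lit 63752973735) (nat_lit 152) (nat_lit 22114306274) (nat_lit 228) (nat_lit 3916387064) (nat_lit 24) (nat_lit 5) (nat_lit 26) (nat_lit 5) (nat_lit 27) (nat_lit 5) (nat_lit 288) (nat_lit 267) (nat_lit 165)) (XT.lf (nat_lit 0) (nat_lit 10818885141) (nat_lit 304) (nat_lit 71887078452) (nat_lit 76) (nat_lit 12330004079) (nat_lit 20) (nat_lit 5) (nat_lit 24) (nat_lit 5) (nat_lit 21) (nat_lit 5) (nat_lit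 289) (nat_lit 267) (nat_lit 164))) (XT.nd (nat_lit 78) (nat_lit 152) (nat_lit 0) (XT.lf (nat_lit 0) (nat_lit 27429275372) (nat_lit 304) (nat_lit 23942676756) (nat_lit 76) (nat_lit 49291623100) (nat_lit 20) (nat_lit 5) (nat_lit 24) (nat_lit 5) (nat_lit 21) (nat_lit 5) (nat_lit 290) (nat_lit 267) (nat_lit 163)) (XT.lf (nat_lit 0) (nat_lit 28754906310) (nat_lit 152) (nat_lit 17060603805) (nat_lit 228) (nat_lit 60903538416) (nat_lit 18) (nat_lit 5) (nat_lit 20) (nat_lit 5) (nat_lit 21) (nat_lit 5) (nat_lit 291) (nat_lit 267) (nat_lit 162))))) (XT.nd (nat_lit 312) (nat_lit 228) (nat_lit 0) (XT.nd (nat_lit 156) (nat_lit 152) (nat_lit 0) (XT.nd (nat_lit 78) (nat_lit 152) (nat_lit 0) (XT.lf (nat_lit 0) (nat_lit 66406894312) (nat_lit 228) (nat_lit 27036526905) (nat_lit 76) (nat_lit 19778833178) (nat_lit 18) (nat_lit 5) (nat_lit 21) (nat_lit 5) (nat_lit 19) (nat_lit 5) (nat_lit 292) (nat_lit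 267) (nat_lit 161)) (XT.lf (nat_lit 0) (nat_lit 28590211805) (nat_lit 152) (nat_lit 60787719430) (nat_lit 228) (nat_lit 30831175086) (nat_lit 16) (nat_lit 5) (nat_lit 18) (nat_lit 5) (nat_lit 19) (nat_lit 5) (nat_lit 293) (nat_lit 267) (nat_lit 160))) (XT.nd (nat_lit 78) (nat_lit 152) (nat_lit 0) (XT.lf (nat_lit 0) (nat_lit 89630184753) (nat_lit 152) (nat_lit 25025810163) (nat_lit 228) (nat_lit 13075450493) (nat_lit 16) (nat_lit 5) (nat_lit 18) (nat_lit 5) (nat_lit 19) (nat_lit 5) (nat_lit 294) (nat_lit 267) (nat_lit 159)) (XT.lf (nat_lit 0) (nat_lit 6439099404) (nat_lit 152) (nat_lit 115805747500) (nat_lit 76) (nat_lit 13579286265) (nat_lit 14) (nat_lit 5) (nat_lit 16) (nat_lit 5) (nat_lit 15) (nat_lit 5) (nat_lit 295) (nat_lit 267) (nat_lit 158)))) (XT.nd (nat_lit 156) (nat_lit 228) (nat_lit 0) (XT.nd (nat_lit 78) (nat_lit 0) (nat_lit 0) (XT.lf (nat_lit 0) (nat_lit 28157940966) (nat_lit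 152) (nat_lit 61038420060) (nat_lit 76) (nat_lit 55302101015) (nat_lit 14) (nat_lit 5) (nat_lit 16) (nat_lit 5) (nat_lit 15) (nat_lit 5) (nat_lit 296) (nat_lit 267) (nat_lit 157)) (XT.lf (nat_lit 0) (nat_lit 51612940648) (nat_lit 152) (nat_lit 1891761366) (nat_lit 76) (nat_lit 100362107353) (nat_lit 14) (nat_lit 5) (nat_lit 16) (nat_lit 5) (nat_lit 15) (nat_lit 5) (nat_lit 297) (nat_lit 267) (nat_lit 156))) (XT.nd (nat_lit 78) (nat_lit 76) (nat_lit 0) (XT.lf (nat_lit 0) (nat_lit 64034222315) (nat_lit 152) (nat_lit 13908622393) (nat_lit 228) (nat_lit 85991858891) (nat_lit 12) (nat_lit 5) (nat_lit 14) (nat_lit 5) (nat_lit 15) (nat_lit 5) (nat_lit 298) (nat_lit 267) (nat_lit 155)) (XT.nd (nat_lit 78) (nat_lit 76) (nat_lit 0) (XT.lf (nat_lit 0) (nat_lit 106861949179) (nat_lit 228) (nat_lit 39957466097) (nat_lit 76) (nat_lit 27964477706) (nat_lit 12) (nat_lit 5) (nat_lit 15) (nat_lit 5)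 (nat_lit 13) (nat_lit 4) (nat_lit 299) (nat_lit 267) (nat_lit 154)) (XT.lf (nat_lit 0) (nat_lit 25356290550) (nat_lit 76) (nat_lit 113367592462) (nat_lit 152) (nat_lit 47745673173) (nat_lit 11) (nat_lit 5) (nat_lit 12) (nat_lit 5) (nat_lit 13) (nat_lit 4) (nat_lit 300) (nat_lit 267) (nat_lit 153))))))))
noncomputable def xc103 : XT := (XT.nd (nat_lit 35178) (nat_lit 0) (nat_lit 1596) (XT.nd (nat_lit 624) (nat_lit 152) (nat_lit 0) (XT.nd (nat_lit 312) (nat_lit 76) (nat_lit 0) (XT.nd (nat_lit 156) (nat_lit 228) (nat_lit 0) (XT.nd (nat_lit 78) (nat_lit 0) (nat_lit 0) (XT.lf (nat_lit 0) (nat_lit 97320356715) (nat_lit 76) (nat_lit 76509397648) (nat_lit 152) (nat_lit 25225572386) (nat_lit 11) (nat_lit 5) (nat_lit 12) (nat_lit 5) (nat_lit 13) (nat_lit 4) (nat_lit 301) (nat_lit 267) (nat_lit 152)) (XT.lf (nat_lit 0) (nat_lit 175040011839) (nat_lit 76) (nat_lit 36703110923) (nat_lit 152) (nat_lit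 904888016) (nat_lit 11) (nat_lit 5) (nat_lit 12) (nat_lit 5) (nat_lit 13) (nat_lit 4) (nat_lit 302) (nat_lit 267) (nat_lit 151))) (XT.nd (nat_lit 78) (nat_lit 0) (nat_lit 0) (XT.lf (nat_lit 0) (nat_lit 25165782276) (nat_lit 228) (nat_lit 195111037961) (nat_lit 76) (nat_lit 7000691139) (nat_lit 8) (nat_lit 5) (nat_lit 11) (nat_lit 5) (nat_lit 9) (nat_lit 4) (nat_lit 303) (nat_lit 267) (nat_lit 150)) (XT.lf (nat_lit 0) (nat_lit 54574675112) (nat_lit 228) (nat_lit 134825053136) (nat_lit 76) (nat_lit 53612691077) (nat_lit 8) (nat_lit 5) (nat_lit 11) (nat_lit 5) (nat_lit 9) (nat_lit 4) (nat_lit 304) (nat_lit 267) (nat_lit 149)))) (XT.nd (nat_lit 156) (nat_lit 0) (nat_lit 0) (XT.nd (nat_lit 78) (nat_lit 76) (nat_lit 0) (XT.lf (nat_lit 0) (nat_lit 86335464485) (nat_lit 228) (nat_lit 69717514076) (nat_lit 76) (nat_lit 103953184503) (nat_lit 8) (nat_lit 5) (nat_lit 11) (nat_lit 5) (nat_lit 9)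 (nat_lit 4) (nat_lit 305) (nat_lit 267) (nat_lit 148)) (XT.lf (nat_lit 0) (nat_lit 617154467) (nat_lit 76) (nat_lit 120028843525) (nat_lit 152) (nat_lit 157712966496) (nat_lit 7) (nat_lit 5) (nat_lit 8) (nat_lit 5) (nat_lit 9) (nat_lit 4) (nat_lit 306) (nat_lit 267) (nat_lit 147))) (XT.nd (nat_lit 78) (nat_lit 0) (nat_lit 0) (XT.lf (nat_lit 0) (nat_lit 79067013296) (nat_lit 76) (nat_lit 79848078048) (nat_lit 152) (nat_lit 139204214890) (nat_lit 7) (nat_lit 5) (nat_lit 8) (nat_lit 5) (nat_lit 9) (nat_lit 4) (nat_lit 307) (nat_lit 267) (nat_lit 146)) (XT.lf (nat_lit 0) (nat_lit 163791774592) (nat_lit 76) (nat_lit 36453273726) (nat_lit 152) (nat_lit 119215462107) (nat_lit 7) (nat_lit 5) (nat_lit 8) (nat_lit 5) (nat_lit 9) (nat_lit 4) (nat_lit 308) (nat_lit 267) (nat_lit 145))))) (XT.nd (nat_lit 312) (nat_lit 76) (nat_lit 0) (XT.nd (nat_lit 156) (nat_lit 76) (nat_lit 0) (XT.nd (nat_lit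 78) (nat_lit 0) (nat_lit 0) (XT.lf (nat_lit 0) (nat_lit 245043358980) (nat_lit 152) (nat_lit 87378104242) (nat_lit 0) (nat_lit 10079451644) (nat_lit 7) (nat_lit 5) (nat_lit 9) (nat_lit 4) (nat_lit 7) (nat_lit 4) (nat_lit 309) (nat_lit 267) (nat_lit 144)) (XT.lf (nat_lit 0) (nat_lit 294039628485) (nat_lit 152) (nat_lit 14239846627) (nat_lit 0) (nat_lit 59074373493) (nat_lit 7) (nat_lit 5) (nat_lit 9) (nat_lit 4) (nat_lit 7) (nat_lit 4) (nat_lit 310) (nat_lit 267) (nat_lit 143))) (XT.nd (nat_lit 78) (nat_lit 0) (nat_lit 0) (XT.lf (nat_lit 0) (nat_lit 66889467361) (nat_lit 76) (nat_lit 281109932016) (nat_lit 76) (nat_lit 46143429194) (nat_lit 6) (nat_lit 4) (nat_lit 7) (nat_lit 5) (nat_lit 7) (nat_lit 4) (nat_lit 311) (nat_lit 267) (nat_lit 142)) (XT.lf (nat_lit 0) (nat_lit 155016780332) (nat_lit 76) (nat_lit 251506714541) (nat_lit 76) (nat_lit 16539056321) (nat_lit 6) (nat_lit 4) (nat_lit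 7) (nat_lit 5) (nat_lit 7) (nat_lit 4) (nat_lit 312) (nat_lit 267) (nat_lit 141)))) (XT.nd (nat_lit 34008) (nat_lit 0) (nat_lit 4028) (XT.nd (nat_lit 156) (nat_lit 0) (nat_lit 0) (XT.lf (nat_lit 0) (nat_lit 14939215203) (nat_lit 152) (nat_lit 204343336865) (nat_lit 76) (nat_lit 235001276533) (nat_lit 5) (nat_lit 5) (nat_lit 7) (nat_lit 5) (nat_lit 6) (nat_lit 4) (nat_lit 313) (nat_lit 267) (nat_lit 140)) (XT.lf (nat_lit 0) (nat_lit 84461536653) (nat_lit 152) (nat_lit 61824485653) (nat_lit 76) (nat_lit 378104350379) (nat_lit 5) (nat_lit 5) (nat_lit 7) (nat_lit 5) (nat_lit 6) (nat_lit 4) (nat_lit 315) (nat_lit 267) (nat_lit 138))) (XT.nd (nat_lit 78) (nat_lit 0) (nat_lit 0) (XT.lf (nat_lit 0) (nat_lit 14469488996) (nat_lit 684) (nat_lit 1686814604) (nat_lit 684) (nat_lit 1686814604) (nat_lit 58) (nat_lit 3) (nat_lit 67) (nat_lit 3) (nat_lit 67) (nat_lit 5) (nat_lit 268) (nat_lit 268)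 (nat_lit 184)) (XT.nd (nat_lit 78) (nat_lit 0) (nat_lit 76) (XT.lf (nat_lit 76) (nat_lit 19304215270) (nat_lit 0) (nat_lit 11162036195) (nat_lit 684) (nat_lit 6628527632) (nat_lit 59) (nat_lit 5) (nat_lit 58) (nat_lit 3) (nat_lit 67) (nat_lit 5) (nat_lit 269) (nat_lit 268) (nat_lit 183)) (XT.lf (nat_lit 76) (nat_lit 5285360983) (nat_lit 0) (nat_lit 27148117311) (nat_lit 684) (nat_lit 6166680457) (nat_lit 60) (nat_lit 5) (nat_lit 59) (nat_lit 5) (nat_lit 68) (nat_lit 5) (nat_lit 270) (nat_lit 268) (nat_lit 182))))))) (XT.nd (nat_lit 624) (nat_lit 1292) (nat_lit 0) (XT.nd (nat_lit 312) (nat_lit 684) (nat_lit 0) (XT.nd (nat_lit 156) (nat_lit 532) (nat_lit 0) (XT.nd (nat_lit 78) (nat_lit 0) (nat_lit 76) (XT.lf (nat_lit 76) (nat_lit 30644235390) (nat_lit 0) (nat_lit 4402525195) (nat_lit 684) (nat_lit 5154813333) (nat_lit 60) (nat_lit 5) (nat_lit 59) (nat_lit 5) (nat_lit 68) (nat_lit 5) (nat_lit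 271) (nat_lit 268) (nat_lit 181)) (XT.lf (nat_lit 76) (nat_lit 16303684297) (nat_lit 0) (nat_lit 22128873324) (nat_lit 684) (nat_lit 3470408184) (nat_lit 61) (nat_lit 5) (nat_lit 60) (nat_lit 5) (nat_lit 69) (nat_lit 5) (nat_lit 272) (nat_lit 268) (nat_lit 180))) (XT.nd (nat_lit 78) (nat_lit 684) (nat_lit 0) (XT.lf (nat_lit 76) (nat_lit 755800552) (nat_lit 0) (nat_lit 41613119957) (nat_lit 684) (nat_lit 1357596871) (nat_lit 62) (nat_lit 5) (nat_lit 61) (nat_lit 5) (nat_lit 70) (nat_lit 5) (nat_lit 273) (nat_lit 268) (nat_lit 179)) (XT.lf (nat_lit 0) (nat_lit 1715764423) (nat_lit 684) (nat_lit 15939334115) (nat_lit 760) (nat_lit 27999107208) (nat_lit 52) (nat_lit 5) (nat_lit 61) (nat_lit 5) (nat_lit 62) (nat_lit 5) (nat_lit 274) (nat_lit 268) (nat_lit 178)))) (XT.nd (nat_lit 156) (nat_lit 760) (nat_lit 0) (XT.nd (nat_lit 78) (nat_lit 0) (nat_lit 0) (XT.lf (nat_lit 0) (nat_lit 5328765464)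 (nat_lit 684) (nat_lit 34191670614) (nat_lit 76) (nat_lit 8197520901) (nat_lit 53) (nat_lit 5) (nat_lit 62) (nat_lit 5) (nat_lit 54) (nat_lit 5) (nat_lit 275) (nat_lit 268) (nat_lit 177)) (XT.lf (nat_lit 0) (nat_lit 9806153083) (nat_lit 684) (nat_lit 4320846962) (nat_lit 76) (nat_lit 35791066224) (nat_lit 53) (nat_lit 5) (nat_lit 62) (nat_lit 5) (nat_lit 54) (nat_lit 5) (nat_lit 276) (nat_lit 268) (nat_lit 176))) (XT.nd (nat_lit 78) (nat_lit 304) (nat_lit 0) (XT.lf (nat_lit 0) (nat_lit 15303105203) (nat_lit 532) (nat_lit 23627291044) (nat_lit 76) (nat_lit 13330742789) (nat_lit 47) (nat_lit 5) (nat_lit 54) (nat_lit 5) (nat_lit 48) (nat_lit 5) (nat_lit 277) (nat_lit 268) (nat_lit 175)) (XT.lf (nat_lit 0) (nat_lit 9657185493) (nat_lit 304) (nat_lit 12044156280) (nat_lit 380) (nat_lit 33067261113) (nat_lit 43) (nat_lit 5) (nat_lit 47) (nat_lit 5) (nat_lit 48) (nat_lit 5) (nat_lit 278) (nat_lit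 268) (nat_lit 174))))) (XT.nd (nat_lit 312) (nat_lit 760) (nat_lit 0) (XT.nd (nat_lit 156) (nat_lit 228) (nat_lit 0) (XT.nd (nat_lit 78) (nat_lit 304) (nat_lit 0) (XT.lf (nat_lit 0) (nat_lit 29291347858) (nat_lit 380) (nat_lit 11283824518) (nat_lit 76) (nat_lit 16867516008) (nat_lit 43) (nat_lit 5) (nat_lit 48) (nat_lit 5) (nat_lit 44) (nat_lit 5) (nat_lit 279) (nat_lit 268) (nat_lit 173)) (XT.lf (nat_lit 0) (nat_lit 25871391704) (nat_lit 304) (nat_lit 12220732698) (nat_lit 380) (nat_lit 22208416405) (nat_lit 39) (nat_lit 5) (nat_lit 43) (nat_lit 5) (nat_lit 44) (nat_lit 5) (nat_lit 280) (nat_lit 268) (nat_lit 172))) (XT.nd (nat_lit 78) (nat_lit 0) (nat_lit 0) (XT.lf (nat_lit 0) (nat_lit 2820965345) (nat_lit 228) (nat_lit 45303886068) (nat_lit 304) (nat_lit 15235792800) (nat_lit 36) (nat_lit 5) (nat_lit 39) (nat_lit 5) (nat_lit 40) (nat_lit 5) (nat_lit 281) (nat_lit 268) (nat_lit 171))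 (XT.lf (nat_lit 0) (nat_lit 44064253938) (nat_lit 228) (nat_lit 15695361564) (nat_lit 304) (nat_lit 6865985374) (nat_lit 36) (nat_lit 5) (nat_lit 39) (nat_lit 5) (nat_lit 40) (nat_lit 5) (nat_lit 282) (nat_lit 268) (nat_lit 170)))) (XT.nd (nat_lit 156) (nat_lit 456) (nat_lit 0) (XT.nd (nat_lit 78) (nat_lit 0) (nat_lit 0) (XT.lf (nat_lit 0) (nat_lit 2657645622) (nat_lit 304) (nat_lit 51367954105) (nat_lit 76) (nat_lit 16096781669) (nat_lit 32) (nat_lit 5) (nat_lit 36) (nat_lit 5) (nat_lit 33) (nat_lit 5) (nat_lit 283) (nat_lit 268) (nat_lit 169)) (XT.lf (nat_lit 0) (nat_lit 13367201253) (nat_lit 304) (nat_lit 10088269788) (nat_lit 76) (nat_lit 50404589226) (nat_lit 32) (nat_lit 5) (nat_lit 36) (nat_lit 5) (nat_lit 33) (nat_lit 5) (nat_lit 284) (nat_lit 268) (nat_lit 168))) (XT.nd (nat_lit 78) (nat_lit 228) (nat_lit 0) (XT.lf (nat_lit 0) (nat_lit 25645670350) (nat_lit 304) (nat_lit 42396268767)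 (nat_lit 76) (nat_lit 9819218925) (nat_lit 29) (nat_lit 5) (nat_lit 33) (nat_lit 5) (nat_lit 30) (nat_lit 5) (nat_lit 285) (nat_lit 268) (nat_lit 167)) (XT.nd (nat_lit 78) (nat_lit 0) (nat_lit 0) (XT.lf (nat_lit 0) (nat_lit 2528520279) (nat_lit 228) (nat_lit 36989094067) (nat_lit 304) (nat_lit 42634180579) (nat_lit 26) (nat_lit 5) (nat_lit 29) (nat_lit 5) (nat_lit 30) (nat_lit 5) (nat_lit 286) (nat_lit 268) (nat_lit 166)) (XT.lf (nat_lit 0) (nat_lit 52558362615) (nat_lit 228) (nat_lit 2677205161) (nat_lit 304) (nat_lit 31513312612) (nat_lit 26) (nat_lit 5) (nat_lit 29) (nat_lit 5) (nat_lit 30) (nat_lit 5) (nat_lit 287) (nat_lit 268) (nat_lit 165))))))))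
noncomputable def xc104 : XT := (XT.nd (nat_lit 1248) (nat_lit 456) (nat_lit 0) (XT.nd (nat_lit 624) (nat_lit 380) (nat_lit 0) (XT.nd (nat_lit 312) (nat_lit 304) (nat_lit 0) (XT.nd (nat_lit 156) (nat_lit 304) (nat_lit 0) (XT.nd (nat_lit 78) (nat_lit 0) (nat_lit 0) (XT.lf (nat_lit 0) (nat_lit 14811375407) (nat_lit 152) (nat_lit 58165488364) (nat_lit 228) (nat_lit 18698583164) (nat_lit 24) (nat_lit 5) (nat_lit 26) (nat_lit 5) (nat_lit 27) (nat_lit 5) (nat_lit 288) (nat_lit 268) (nat_lit 164)) (XT.lf (nat_lit 0) (nat_lit 68905059654) (nat_lit 152) (nat_lit 23870406083) (nat_lit 228) (nat_lit 4188781808) (nat_lit 24) (nat_lit 5) (nat_lit 26) (nat_lit 5) (nat_lit 27) (nat_lit 5) (nat_lit 289) (nat_lit 268) (nat_lit 163))) (XT.nd (nat_lit 78) (nat_lit 0) (nat_lit 0) (XT.lf (nat_lit 0) (nat_lit 11722076430) (nat_lit 304) (nat_lit 77585225498) (nat_lit 76) (nat_lit 13329506817) (nat_lit 20)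 (nat_lit 5) (nat_lit 24) (nat_lit 5) (nat_lit 21) (nat_lit 5) (nat_lit 290) (nat_lit 268) (nat_lit 162)) (XT.lf (nat_lit 0) (nat_lit 29658506733) (nat_lit 304) (nat_lit 25809184203) (nat_lit 76) (nat_lit 53247084810) (nat_lit 20) (nat_lit 5) (nat_lit 24) (nat_lit 5) (nat_lit 21) (nat_lit 5) (nat_lit 291) (nat_lit 268) (nat_lit 161)))) (XT.nd (nat_lit 156) (nat_lit 152) (nat_lit 0) (XT.nd (nat_lit 78) (nat_lit 0) (nat_lit 0) (XT.lf (nat_lit 0) (nat_lit 31102080084) (nat_lit 152) (nat_lit 18411706164) (nat_lit 228) (nat_lit 65741003813) (nat_lit 18) (nat_lit 5) (nat_lit 20) (nat_lit 5) (nat_lit 21) (nat_lit 5) (nat_lit 292) (nat_lit 268) (nat_lit 160)) (XT.lf (nat_lit 0) (nat_lit 71750232835) (nat_lit 228) (nat_lit 29154681455) (nat_lit 76) (nat_lit 21373460193) (nat_lit 18) (nat_lit 5) (nat_lit 21) (nat_lit 5) (nat_lit 19) (nat_lit 5) (nat_lit 293) (nat_lit 268) (nat_lit 159))) (XT.nd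 (nat_lit 78) (nat_lit 0) (nat_lit 0) (XT.lf (nat_lit 0) (nat_lit 30920250806) (nat_lit 152) (nat_lit 65637089961) (nat_lit 228) (nat_lit 33266923351) (nat_lit 16) (nat_lit 5) (nat_lit 18) (nat_lit 5) (nat_lit 19) (nat_lit 5) (nat_lit 294) (nat_lit 268) (nat_lit 158)) (XT.lf (nat_lit 0) (nat_lit 96840249585) (nat_lit 152) (nat_lit 27015238843) (nat_lit 228) (nat_lit 14093018253) (nat_lit 16) (nat_lit 5) (nat_lit 18) (nat_lit 5) (nat_lit 19) (nat_lit 5) (nat_lit 295) (nat_lit 268) (nat_lit 157))))) (XT.nd (nat_lit 312) (nat_lit 76) (nat_lit 0) (XT.nd (nat_lit 156) (nat_lit 152) (nat_lit 0) (XT.nd (nat_lit 78) (nat_lit 0) (nat_lit 0) (XT.lf (nat_lit 0) (nat_lit 6980549806) (nat_lit 152) (nat_lit 125030116194) (nat_lit 76) (nat_lit 14677990286) (nat_lit 14) (nat_lit 5) (nat_lit 16) (nat_lit 5) (nat_lit 15) (nat_lit 5) (nat_lit 296) (nat_lit 268) (nat_lit 156)) (XT.lf (nat_lit 0) (nat_lit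 30434948881) (nat_lit 152) (nat_lit 65884372270) (nat_lit 76) (nat_lit 59737714578) (nat_lit 14) (nat_lit 5) (nat_lit 16) (nat_lit 5) (nat_lit 15) (nat_lit 5) (nat_lit 297) (nat_lit 268) (nat_lit 155))) (XT.nd (nat_lit 78) (nat_lit 152) (nat_lit 0) (XT.lf (nat_lit 0) (nat_lit 55764543158) (nat_lit 152) (nat_lit 2008730613) (nat_lit 76) (nat_lit 108401673610) (nat_lit 14) (nat_lit 5) (nat_lit 16) (nat_lit 5) (nat_lit 15) (nat_lit 5) (nat_lit 298) (nat_lit 268) (nat_lit 154)) (XT.lf (nat_lit 0) (nat_lit 69189838012) (nat_lit 152) (nat_lit 15009843198) (nat_lit 228) (nat_lit 92848655663) (nat_lit 12) (nat_lit 5) (nat_lit 14) (nat_lit 5) (nat_lit 15) (nat_lit 5) (nat_lit 299) (nat_lit 268) (nat_lit 153)))) (XT.nd (nat_lit 156) (nat_lit 0) (nat_lit 0) (XT.nd (nat_lit 78) (nat_lit 76) (nat_lit 0) (XT.lf (nat_lit 0) (nat_lit 115430893991) (nat_lit 228) (nat_lit 43122728327) (nat_lit 76) (nat_lit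 30211915467) (nat_lit 12) (nat_lit 5) (nat_lit 15) (nat_lit 5) (nat_lit 13) (nat_lit 4) (nat_lit 300) (nat_lit 268) (nat_lit 152)) (XT.lf (nat_lit 0) (nat_lit 27414767069) (nat_lit 76) (nat_lit 122426002772) (nat_lit 152) (nat_lit 51545339815) (nat_lit 11) (nat_lit 5) (nat_lit 12) (nat_lit 5) (nat_lit 13) (nat_lit 4) (nat_lit 301) (nat_lit 268) (nat_lit 151))) (XT.nd (nat_lit 78) (nat_lit 0) (nat_lit 0) (XT.lf (nat_lit 0) (nat_lit 105133738284) (nat_lit 76) (nat_lit 82619966971) (nat_lit 152) (nat_lit 27225111499) (nat_lit 11) (nat_lit 5) (nat_lit 12) (nat_lit 5) (nat_lit 13) (nat_lit 4) (nat_lit 302) (nat_lit 268) (nat_lit 150)) (XT.lf (nat_lit 0) (nat_lit 189068910038) (nat_lit 76) (nat_lit 39629931567) (nat_lit 152) (nat_lit 960143244) (nat_lit 11) (nat_lit 5) (nat_lit 12) (nat_lit 5) (nat_lit 13) (nat_lit 4) (nat_lit 303) (nat_lit 268) (nat_lit 149)))))) (XT.nd (nat_lit 624) (nat_lit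 152) (nat_lit 0) (XT.nd (nat_lit 312) (nat_lit 0) (nat_lit 0) (XT.nd (nat_lit 156) (nat_lit 76) (nat_lit 0) (XT.nd (nat_lit 78) (nat_lit 0) (nat_lit 0) (XT.lf (nat_lit 0) (nat_lit 27194943040) (nat_lit 228) (nat_lit 210694079498) (nat_lit 76) (nat_lit 7569847803) (nat_lit 8) (nat_lit 5) (nat_lit 11) (nat_lit 5) (nat_lit 9) (nat_lit 4) (nat_lit 304) (nat_lit 268) (nat_lit 148)) (XT.lf (nat_lit 0) (nat_lit 58955369660) (nat_lit 228) (nat_lit 145587130071) (nat_lit 76) (nat_lit 57910133560) (nat_lit 8) (nat_lit 5) (nat_lit 11) (nat_lit 5) (nat_lit 9) (nat_lit 4) (nat_lit 305) (nat_lit 268) (nat_lit 147))) (XT.nd (nat_lit 78) (nat_lit 76) (nat_lit 0) (XT.lf (nat_lit 0) (nat_lit 93255931773) (nat_lit 228) (nat_lit 75272760281) (nat_lit 76) (nat_lit 112277242224) (nat_lit 8) (nat_lit 5) (nat_lit 11) (nat_lit 5) (nat_lit 9) (nat_lit 4) (nat_lit 306) (nat_lit 268) (nat_lit 146)) (XT.lf (nat_lit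 0) (nat_lit 687718920) (nat_lit 76) (nat_lit 129622910269) (nat_lit 152) (nat_lit 170316367551) (nat_lit 7) (nat_lit 5) (nat_lit 8) (nat_lit 5) (nat_lit 9) (nat_lit 4) (nat_lit 307) (nat_lit 268) (nat_lit 145)))) (XT.nd (nat_lit 156) (nat_lit 0) (nat_lit 0) (XT.nd (nat_lit 78) (nat_lit 0) (nat_lit 0) (XT.lf (nat_lit 0) (nat_lit 85411996670) (nat_lit 76) (nat_lit 86228293979) (nat_lit 152) (nat_lit 150327925910) (nat_lit 7) (nat_lit 5) (nat_lit 8) (nat_lit 5) (nat_lit 9) (nat_lit 4) (nat_lit 308) (nat_lit 268) (nat_lit 144)) (XT.lf (nat_lit 0) (nat_lit 176913285365) (nat_lit 76) (nat_lit 39362470519) (nat_lit 152) (nat_lit 128741008176) (nat_lit 7) (nat_lit 5) (nat_lit 8) (nat_lit 5) (nat_lit 9) (nat_lit 4) (nat_lit 309) (nat_lit 268) (nat_lit 143))) (XT.nd (nat_lit 78) (nat_lit 0) (nat_lit 0) (XT.lf (nat_lit 0) (nat_lit 264657211039) (nat_lit 152) (nat_lit 94351088047) (nat_lit 0) (nat_lit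 10892140162) (nat_lit 7) (nat_lit 5) (nat_lit 9) (nat_lit 4) (nat_lit 7) (nat_lit 4) (nat_lit 310) (nat_lit 268) (nat_lit 142)) (XT.lf (nat_lit 0) (nat_lit 317572412968) (nat_lit 152) (nat_lit 15363048676) (nat_lit 0) (nat_lit 63806186693) (nat_lit 7) (nat_lit 5) (nat_lit 9) (nat_lit 4) (nat_lit 7) (nat_lit 4) (nat_lit 311) (nat_lit 268) (nat_lit 141))))) (XT.nd (nat_lit 34164) (nat_lit 0) (nat_lit 4028) (XT.nd (nat_lit 156) (nat_lit 76) (nat_lit 0) (XT.nd (nat_lit 78) (nat_lit 0) (nat_lit 0) (XT.lf (nat_lit 0) (nat_lit 72255915712) (nat_lit 76) (nat_lit 303592576390) (nat_lit 76) (nat_lit 49825280302) (nat_lit 6) (nat_lit 4) (nat_lit 7) (nat_lit 5) (nat_lit 7) (nat_lit 4) (nat_lit 312) (nat_lit 268) (nat_lit 140)) (XT.lf (nat_lit 0) (nat_lit 167432281057) (nat_lit 76) (nat_lit 271621557087) (nat_lit 76) (nat_lit 17853270431) (nat_lit 6) (nat_lit 4) (nat_lit 7) (nat_lit 5) (nat_lit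 7) (nat_lit 4) (nat_lit 313) (nat_lit 268) (nat_lit 139))) (XT.nd (nat_lit 78) (nat_lit 0) (nat_lit 0) (XT.lf (nat_lit 0) (nat_lit 16142338722) (nat_lit 152) (nat_lit 220677409466) (nat_lit 76) (nat_lit 253806366637) (nat_lit 5) (nat_lit 5) (nat_lit 7) (nat_lit 5) (nat_lit 6) (nat_lit 4) (nat_lit 314) (nat_lit 268) (nat_lit 138)) (XT.lf (nat_lit 0) (nat_lit 52240088137) (nat_lit 152) (nat_lit 146677872416) (nat_lit 76) (nat_lit 328109649019) (nat_lit 5) (nat_lit 5) (nat_lit 7) (nat_lit 5) (nat_lit 6) (nat_lit 4) (nat_lit 315) (nat_lit 268) (nat_lit 137)))) (XT.nd (nat_lit 156) (nat_lit 0) (nat_lit 76) (XT.nd (nat_lit 78) (nat_lit 0) (nat_lit 0) (XT.lf (nat_lit 0) (nat_lit 15693726436) (nat_lit 684) (nat_lit 1786548192) (nat_lit 684) (nat_lit 1786548192) (nat_lit 58) (nat_lit 3) (nat_lit 67) (nat_lit 3) (nat_lit 67) (nat_lit 5) (nat_lit 269) (nat_lit 269) (nat_lit 182)) (XT.lf (nat_lit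 76) (nat_lit 20915915147) (nat_lit 0) (nat_lit 12112166526) (nat_lit 684) (nat_lit 7027292277) (nat_lit 59) (nat_lit 5) (nat_lit 58) (nat_lit 3) (nat_lit 67) (nat_lit 5) (nat_lit 270) (nat_lit 269) (nat_lit 181))) (XT.nd (nat_lit 78) (nat_lit 0) (nat_lit 0) (XT.lf (nat_lit 76) (nat_lit 5780162581) (nat_lit 0) (nat_lit 29363596883) (nat_lit 684) (nat_lit 6537927241) (nat_lit 60) (nat_lit 5) (nat_lit 59) (nat_lit 5) (nat_lit 68) (nat_lit 5) (nat_lit 271) (nat_lit 269) (nat_lit 180)) (XT.nd (nat_lit 78) (nat_lit 0) (nat_lit 76) (XT.lf (nat_lit 76) (nat_lit 33162415628) (nat_lit 0) (nat_lit 4795125532) (nat_lit 684) (nat_lit 5454154276) (nat_lit 60) (nat_lit 5) (nat_lit 59) (nat_lit 5) (nat_lit 68) (nat_lit 5) (nat_lit 272) (nat_lit 269) (nat_lit 179)) (XT.lf (nat_lit 76) (nat_lit 17678071066) (nat_lit 0) (nat_lit 23928712347) (nat_lit 684) (nat_lit 3642834516) (nat_lit 61) (nat_lit 5)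 (nat_lit 60) (nat_lit 5) (nat_lit 69) (nat_lit 5) (nat_lit 273) (nat_lit 269) (nat_lit 178))))))))
noncomputable def xc105 : XT := (XT.nd (nat_lit 1248) (nat_lit 1216) (nat_lit 0) (XT.nd (nat_lit 624) (nat_lit 1140) (nat_lit 0) (XT.nd (nat_lit 312) (nat_lit 988) (nat_lit 0) (XT.nd (nat_lit 156) (nat_lit 0) (nat_lit 76) (XT.nd (nat_lit 78) (nat_lit 684) (nat_lit 0) (XT.lf (nat_lit 76) (nat_lit 889093923) (nat_lit 0) (nat_lit 44962292250) (nat_lit 684) (nat_lit 1368045661) (nat_lit 62) (nat_lit 5) (nat_lit 61) (nat_lit 5) (nat_lit 70) (nat_lit 5) (nat_lit 274) (nat_lit 269) (nat_lit 177)) (XT.lf (nat_lit 0) (nat_lit 1941004521) (nat_lit 684) (nat_lit 17143644060) (nat_lit 760) (nat_lit 30217001436) (nat_lit 52) (nat_lit 5) (nat_lit 61) (nat_lit 5) (nat_lit 62) (nat_lit 5) (nat_lit 275) (nat_lit 269) (nat_lit 176))) (XT.nd (nat_lit 78) (nat_lit 0) (nat_lit 0) (XT.lf (nat_lit 0) (nat_lit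 5837356114) (nat_lit 684) (nat_lit 36854432790) (nat_lit 76) (nat_lit 8839033458) (nat_lit 53) (nat_lit 5) (nat_lit 62) (nat_lit 5) (nat_lit 54) (nat_lit 5) (nat_lit 276) (nat_lit 269) (nat_lit 175)) (XT.lf (nat_lit 0) (nat_lit 10666839231) (nat_lit 684) (nat_lit 4599318911) (nat_lit 76) (nat_lit 38641120859) (nat_lit 53) (nat_lit 5) (nat_lit 62) (nat_lit 5) (nat_lit 54) (nat_lit 5) (nat_lit 277) (nat_lit 269) (nat_lit 174)))) (XT.nd (nat_lit 156) (nat_lit 304) (nat_lit 0) (XT.nd (nat_lit 78) (nat_lit 304) (nat_lit 0) (XT.lf (nat_lit 0) (nat_lit 16598793421) (nat_lit 532) (nat_lit 25449115917) (nat_lit 76) (nat_lit 14390157280) (nat_lit 47) (nat_lit 5) (nat_lit 54) (nat_lit 5) (nat_lit 48) (nat_lit 5) (nat_lit 278) (nat_lit 269) (nat_lit 173)) (XT.lf (nat_lit 0) (nat_lit 10495147970) (nat_lit 304) (nat_lit 13009469994) (nat_lit 380) (nat_lit 35641752164) (nat_lit 43) (nat_lit 5) (nat_lit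 47) (nat_lit 5) (nat_lit 48) (nat_lit 5) (nat_lit 279) (nat_lit 269) (nat_lit 172))) (XT.nd (nat_lit 78) (nat_lit 304) (nat_lit 0) (XT.lf (nat_lit 0) (nat_lit 31696823316) (nat_lit 380) (nat_lit 12122515261) (nat_lit 76) (nat_lit 18215320805) (nat_lit 43) (nat_lit 5) (nat_lit 48) (nat_lit 5) (nat_lit 44) (nat_lit 5) (nat_lit 280) (nat_lit 269) (nat_lit 171)) (XT.lf (nat_lit 0) (nat_lit 28002336236) (nat_lit 304) (nat_lit 13195676759) (nat_lit 380) (nat_lit 23923334319) (nat_lit 39) (nat_lit 5) (nat_lit 43) (nat_lit 5) (nat_lit 44) (nat_lit 5) (nat_lit 281) (nat_lit 269) (nat_lit 170))))) (XT.nd (nat_lit 312) (nat_lit 608) (nat_lit 0) (XT.nd (nat_lit 156) (nat_lit 304) (nat_lit 0) (XT.nd (nat_lit 78) (nat_lit 0) (nat_lit 0) (XT.lf (nat_lit 0) (nat_lit 3108270200) (nat_lit 228) (nat_lit 48921754675) (nat_lit 304) (nat_lit 16396423805) (nat_lit 36) (nat_lit 5) (nat_lit 39) (nat_lit 5)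 (nat_lit 40) (nat_lit 5) (nat_lit 282) (nat_lit 269) (nat_lit 169)) (XT.lf (nat_lit 0) (nat_lit 47646456872) (nat_lit 228) (nat_lit 16945025416) (nat_lit 304) (nat_lit 7361345298) (nat_lit 36) (nat_lit 5) (nat_lit 39) (nat_lit 5) (nat_lit 40) (nat_lit 5) (nat_lit 283) (nat_lit 269) (nat_lit 168))) (XT.nd (nat_lit 78) (nat_lit 0) (nat_lit 0) (XT.lf (nat_lit 0) (nat_lit 2919579494) (nat_lit 304) (nat_lit 55418332215) (nat_lit 76) (nat_lit 17391559094) (nat_lit 32) (nat_lit 5) (nat_lit 36) (nat_lit 5) (nat_lit 33) (nat_lit 5) (nat_lit 284) (nat_lit 269) (nat_lit 167)) (XT.lf (nat_lit 0) (nat_lit 14482246078) (nat_lit 304) (nat_lit 10840647835) (nat_lit 76) (nat_lit 54443470153) (nat_lit 32) (nat_lit 5) (nat_lit 36) (nat_lit 5) (nat_lit 33) (nat_lit 5) (nat_lit 285) (nat_lit 269) (nat_lit 166)))) (XT.nd (nat_lit 156) (nat_lit 152) (nat_lit 0) (XT.nd (nat_lit 78) (nat_lit 228) (nat_lit 0)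 (XT.lf (nat_lit 0) (nat_lit 27740570203) (nat_lit 304) (nat_lit 45733450325) (nat_lit 76) (nat_lit 10613666377) (nat_lit 29) (nat_lit 5) (nat_lit 33) (nat_lit 5) (nat_lit 30) (nat_lit 5) (nat_lit 286) (nat_lit 269) (nat_lit 165)) (XT.lf (nat_lit 0) (nat_lit 2782952474) (nat_lit 228) (nat_lit 39936928037) (nat_lit 304) (nat_lit 46001828612) (nat_lit 26) (nat_lit 5) (nat_lit 29) (nat_lit 5) (nat_lit 30) (nat_lit 5) (nat_lit 287) (nat_lit 269) (nat_lit 164))) (XT.nd (nat_lit 78) (nat_lit 152) (nat_lit 0) (XT.lf (nat_lit 0) (nat_lit 56811319191) (nat_lit 228) (nat_lit 2880924578) (nat_lit 304) (nat_lit 33994482794) (nat_lit 26) (nat_lit 5) (nat_lit 29) (nat_lit 5) (nat_lit 30) (nat_lit 5) (nat_lit 288) (nat_lit 269) (nat_lit 163)) (XT.lf (nat_lit 0) (nat_lit 16044292866) (nat_lit 152) (nat_lit 62806649013) (nat_lit 228) (nat_lit 20156584427) (nat_lit 24) (nat_lit 5) (nat_lit 26) (nat_lit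 5) (nat_lit 27) (nat_lit 5) (nat_lit 289) (nat_lit 269) (nat_lit 162)))))) (XT.nd (nat_lit 624) (nat_lit 456) (nat_lit 0) (XT.nd (nat_lit 312) (nat_lit 304) (nat_lit 0) (XT.nd (nat_lit 156) (nat_lit 152) (nat_lit 0) (XT.nd (nat_lit 78) (nat_lit 304) (nat_lit 0) (XT.lf (nat_lit 0) (nat_lit 74461915748) (nat_lit 152) (nat_lit 25768854847) (nat_lit 228) (nat_lit 4488805288) (nat_lit 24) (nat_lit 5) (nat_lit 26) (nat_lit 5) (nat_lit 27) (nat_lit 5) (nat_lit 290) (nat_lit 269) (nat_lit 161)) (XT.lf (nat_lit 0) (nat_lit 12692147480) (nat_lit 304) (nat_lit 83746759562) (nat_lit 76) (nat_lit 14407100568) (nat_lit 20) (nat_lit 5) (nat_lit 24) (nat_lit 5) (nat_lit 21) (nat_lit 5) (nat_lit 291) (nat_lit 269) (nat_lit 160))) (XT.nd (nat_lit 78) (nat_lit 152) (nat_lit 0) (XT.lf (nat_lit 0) (nat_lit 32061099250) (nat_lit 304) (nat_lit 27831989331) (nat_lit 76) (nat_lit 57517252711) (nat_lit 20) (nat_lit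 5) (nat_lit 24) (nat_lit 5) (nat_lit 21) (nat_lit 5) (nat_lit 292) (nat_lit 269) (nat_lit 159)) (XT.lf (nat_lit 0) (nat_lit 33630353889) (nat_lit 152) (nat_lit 19872857724) (nat_lit 228) (nat_lit 70970433573) (nat_lit 18) (nat_lit 5) (nat_lit 20) (nat_lit 5) (nat_lit 21) (nat_lit 5) (nat_lit 293) (nat_lit 269) (nat_lit 158)))) (XT.nd (nat_lit 156) (nat_lit 152) (nat_lit 0) (XT.nd (nat_lit 78) (nat_lit 152) (nat_lit 0) (XT.lf (nat_lit 0) (nat_lit 77516646333) (nat_lit 228) (nat_lit 31448674969) (nat_lit 76) (nat_lit 23093899732) (nat_lit 18) (nat_lit 5) (nat_lit 21) (nat_lit 5) (nat_lit 19) (nat_lit 5) (nat_lit 294) (nat_lit 269) (nat_lit 157)) (XT.lf (nat_lit 0) (nat_lit 33430583881) (nat_lit 152) (nat_lit 70876357035) (nat_lit 228) (nat_lit 35901917701) (nat_lit 16) (nat_lit 5) (nat_lit 18) (nat_lit 5) (nat_lit 19) (nat_lit 5) (nat_lit 295) (nat_lit 269) (nat_lit 156))) (XT.nd (nat_lit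 78) (nat_lit 152) (nat_lit 0) (XT.lf (nat_lit 0) (nat_lit 104621463081) (nat_lit 152) (nat_lit 29165624504) (nat_lit 228) (nat_lit 15196052752) (nat_lit 16) (nat_lit 5) (nat_lit 18) (nat_lit 5) (nat_lit 19) (nat_lit 5) (nat_lit 296) (nat_lit 269) (nat_lit 155)) (XT.lf (nat_lit 0) (nat_lit 7561561048) (nat_lit 152) (nat_lit 134998153827) (nat_lit 76) (nat_lit 15862827177) (nat_lit 14) (nat_lit 5) (nat_lit 16) (nat_lit 5) (nat_lit 15) (nat_lit 5) (nat_lit 297) (nat_lit 269) (nat_lit 154))))) (XT.nd (nat_lit 312) (nat_lit 304) (nat_lit 0) (XT.nd (nat_lit 156) (nat_lit 152) (nat_lit 0) (XT.nd (nat_lit 78) (nat_lit 0) (nat_lit 0) (XT.lf (nat_lit 0) (nat_lit 32890640401) (nat_lit 152) (nat_lit 71123296438) (nat_lit 76) (nat_lit 64526544400) (nat_lit 14) (nat_lit 5) (nat_lit 16) (nat_lit 5) (nat_lit 15) (nat_lit 5) (nat_lit 298) (nat_lit 269) (nat_lit 153)) (XT.lf (nat_lit 0) (nat_lit 60245054397)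 (nat_lit 152) (nat_lit 2139960902) (nat_lit 76) (nat_lit 117082893291) (nat_lit 14) (nat_lit 5) (nat_lit 16) (nat_lit 5) (nat_lit 15) (nat_lit 5) (nat_lit 299) (nat_lit 269) (nat_lit 152))) (XT.nd (nat_lit 78) (nat_lit 0) (nat_lit 0) (XT.lf (nat_lit 0) (nat_lit 74753212563) (nat_lit 152) (nat_lit 16200797847) (nat_lit 228) (nat_lit 100257213463) (nat_lit 12) (nat_lit 5) (nat_lit 14) (nat_lit 5) (nat_lit 15) (nat_lit 5) (nat_lit 300) (nat_lit 269) (nat_lit 151)) (XT.lf (nat_lit 0) (nat_lit 124682502752) (nat_lit 228) (nat_lit 46545681831) (nat_lit 76) (nat_lit 32637681756) (nat_lit 12) (nat_lit 5) (nat_lit 15) (nat_lit 5) (nat_lit 13) (nat_lit 4) (nat_lit 301) (nat_lit 269) (nat_lit 150)))) (XT.nd (nat_lit 156) (nat_lit 228) (nat_lit 0) (XT.nd (nat_lit 78) (nat_lit 0) (nat_lit 0) (XT.lf (nat_lit 0) (nat_lit 29633645686) (nat_lit 76) (nat_lit 132210654763) (nat_lit 152) (nat_lit 55651831188)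 (nat_lit 11) (nat_lit 5) (nat_lit 12) (nat_lit 5) (nat_lit 13) (nat_lit 4) (nat_lit 302) (nat_lit 269) (nat_lit 149)) (XT.lf (nat_lit 0) (nat_lit 113568231099) (nat_lit 76) (nat_lit 89220834486) (nat_lit 152) (nat_lit 29387253926) (nat_lit 11) (nat_lit 5) (nat_lit 12) (nat_lit 5) (nat_lit 13) (nat_lit 4) (nat_lit 303) (nat_lit 269) (nat_lit 148))) (XT.nd (nat_lit 78) (nat_lit 228) (nat_lit 0) (XT.lf (nat_lit 0) (nat_lit 204216454093) (nat_lit 76) (nat_lit 42792242904) (nat_lit 152) (nat_lit 1022263506) (nat_lit 11) (nat_lit 5) (nat_lit 12) (nat_lit 5) (nat_lit 13) (nat_lit 4) (nat_lit 304) (nat_lit 269) (nat_lit 147)) (XT.nd (nat_lit 78) (nat_lit 0) (nat_lit 0) (XT.lf (nat_lit 0) (nat_lit 29384168612) (nat_lit 228) (nat_lit 227527450936) (nat_lit 76) (nat_lit 8183238587) (nat_lit 8) (nat_lit 5) (nat_lit 11) (nat_lit 5) (nat_lit 9) (nat_lit 4) (nat_lit 305) (nat_lit 269) (nat_lit 146))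 (XT.lf (nat_lit 0) (nat_lit 63684419723) (nat_lit 228) (nat_lit 157213586661) (nat_lit 76) (nat_lit 62550169208) (nat_lit 8) (nat_lit 5) (nat_lit 11) (nat_lit 5) (nat_lit 9) (nat_lit 4) (nat_lit 306) (nat_lit 269) (nat_lit 145))))))))
noncomputable def xc106 : XT := (XT.nd (nat_lit 35256) (nat_lit 0) (nat_lit 912) (XT.nd (nat_lit 34632) (nat_lit 0) (nat_lit 3496) (XT.nd (nat_lit 312) (nat_lit 76) (nat_lit 0) (XT.nd (nat_lit 156) (nat_lit 0) (nat_lit 0) (XT.nd (nat_lit 78) (nat_lit 76) (nat_lit 0) (XT.lf (nat_lit 0) (nat_lit 100728091954) (nat_lit 228) (nat_lit 81275586829) (nat_lit 76) (nat_lit 121266111382) (nat_lit 8) (nat_lit 5) (nat_lit 11) (nat_lit 5) (nat_lit 9) (nat_lit 4) (nat_lit 307) (nat_lit 269) (nat_lit 144)) (XT.lf (nat_lit 0) (nat_lit 760905240) (nat_lit 76) (nat_lit 139985677986) (nat_lit 152) (nat_lit 183929986055) (nat_lit 7) (nat_lit 5) (nat_lit 8) (nat_lit 5) (nat_lit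 9) (nat_lit 4) (nat_lit 308) (nat_lit 269) (nat_lit 143))) (XT.nd (nat_lit 78) (nat_lit 0) (nat_lit 0) (XT.lf (nat_lit 0) (nat_lit 92261779373) (nat_lit 76) (nat_lit 93120015733) (nat_lit 152) (nat_lit 162343335076) (nat_lit 7) (nat_lit 5) (nat_lit 8) (nat_lit 5) (nat_lit 9) (nat_lit 4) (nat_lit 309) (nat_lit 269) (nat_lit 142)) (XT.lf (nat_lit 0) (nat_lit 191081925018) (nat_lit 76) (nat_lit 42505410973) (nat_lit 152) (nat_lit 139030265768) (nat_lit 7) (nat_lit 5) (nat_lit 8) (nat_lit 5) (nat_lit 9) (nat_lit 4) (nat_lit 310) (nat_lit 269) (nat_lit 141)))) (XT.nd (nat_lit 156) (nat_lit 76) (nat_lit 0) (XT.nd (nat_lit 78) (nat_lit 0) (nat_lit 0) (XT.lf (nat_lit 0) (nat_lit 285838689963) (nat_lit 152) (nat_lit 101884373534) (nat_lit 0) (nat_lit 11768940375) (nat_lit 7) (nat_lit 5) (nat_lit 9) (nat_lit 4) (nat_lit 7) (nat_lit 4) (nat_lit 311) (nat_lit 269) (nat_lit 140)) (XT.lf (nat_lit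 0) (nat_lit 342986448636) (nat_lit 152) (nat_lit 16578387426) (nat_lit 0) (nat_lit 68915708481) (nat_lit 7) (nat_lit 5) (nat_lit 9) (nat_lit 4) (nat_lit 7) (nat_lit 4) (nat_lit 312) (nat_lit 269) (nat_lit 139))) (XT.nd (nat_lit 78) (nat_lit 0) (nat_lit 0) (XT.lf (nat_lit 0) (nat_lit 78049498505) (nat_lit 76) (nat_lit 327874709708) (nat_lit 76) (nat_lit 53803052360) (nat_lit 6) (nat_lit 4) (nat_lit 7) (nat_lit 5) (nat_lit 7) (nat_lit 4) (nat_lit 313) (nat_lit 269) (nat_lit 138)) (XT.lf (nat_lit 0) (nat_lit 180839002000) (nat_lit 76) (nat_lit 293346399438) (nat_lit 76) (nat_lit 19273892838) (nat_lit 6) (nat_lit 4) (nat_lit 7) (nat_lit 5) (nat_lit 7) (nat_lit 4) (nat_lit 314) (nat_lit 269) (nat_lit 137))))) (XT.nd (nat_lit 312) (nat_lit 456) (nat_lit 0) (XT.nd (nat_lit 156) (nat_lit 0) (nat_lit 76) (XT.nd (nat_lit 78) (nat_lit 0) (nat_lit 0) (XT.lf (nat_lit 0) (nat_lit 17006390463) (nat_lit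 684) (nat_lit 1899283793) (nat_lit 684) (nat_lit 1899283793) (nat_lit 58) (nat_lit 3) (nat_lit 67) (nat_lit 3) (nat_lit 67) (nat_lit 5) (nat_lit 270) (nat_lit 270) (nat_lit 180)) (XT.lf (nat_lit 76) (nat_lit 22646940978) (nat_lit 0) (nat_lit 13130151710) (nat_lit 684) (nat_lit 7476720545) (nat_lit 59) (nat_lit 5) (nat_lit 58) (nat_lit 3) (nat_lit 67) (nat_lit 5) (nat_lit 271) (nat_lit 270) (nat_lit 179))) (XT.nd (nat_lit 78) (nat_lit 0) (nat_lit 0) (XT.lf (nat_lit 76) (nat_lit 6304280594) (nat_lit 0) (nat_lit 31750090486) (nat_lit 684) (nat_lit 6956290935) (nat_lit 60) (nat_lit 5) (nat_lit 59) (nat_lit 5) (nat_lit 68) (nat_lit 5) (nat_lit 272) (nat_lit 270) (nat_lit 178)) (XT.lf (nat_lit 76) (nat_lit 35872543144) (nat_lit 0) (nat_lit 5213370623) (nat_lit 684) (nat_lit 5793569503) (nat_lit 60) (nat_lit 5) (nat_lit 59) (nat_lit 5) (nat_lit 68) (nat_lit 5) (nat_lit 273) (nat_lit 270) (nat_lit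 177)))) (XT.nd (nat_lit 156) (nat_lit 608) (nat_lit 0) (XT.nd (nat_lit 78) (nat_lit 0) (nat_lit 76) (XT.lf (nat_lit 76) (nat_lit 19152409365) (nat_lit 0) (nat_lit 25868325828) (nat_lit 684) (nat_lit 3844063811) (nat_lit 61) (nat_lit 5) (nat_lit 60) (nat_lit 5) (nat_lit 69) (nat_lit 5) (nat_lit 274) (nat_lit 270) (nat_lit 176)) (XT.lf (nat_lit 76) (nat_lit 1022660845) (nat_lit 0) (nat_lit 48576527599) (nat_lit 684) (nat_lit 1393333827) (nat_lit 62) (nat_lit 5) (nat_lit 61) (nat_lit 5) (nat_lit 70) (nat_lit 5) (nat_lit 275) (nat_lit 270) (nat_lit 175))) (XT.nd (nat_lit 78) (nat_lit 0) (nat_lit 76) (XT.lf (nat_lit 0) (nat_lit 2171712647) (nat_lit 684) (nat_lit 18454404460) (nat_lit 760) (nat_lit 32615470648) (nat_lit 52) (nat_lit 5) (nat_lit 61) (nat_lit 5) (nat_lit 62) (nat_lit 5) (nat_lit 276) (nat_lit 270) (nat_lit 174)) (XT.lf (nat_lit 0) (nat_lit 6374894512) (nat_lit 684) (nat_lit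 39740569073) (nat_lit 76) (nat_lit 9533905520) (nat_lit 53) (nat_lit 5) (nat_lit 62) (nat_lit 5) (nat_lit 54) (nat_lit 5) (nat_lit 277) (nat_lit 270) (nat_lit 173)))))) (XT.nd (nat_lit 624) (nat_lit 1064) (nat_lit 0) (XT.nd (nat_lit 312) (nat_lit 836) (nat_lit 0) (XT.nd (nat_lit 156) (nat_lit 304) (nat_lit 0) (XT.nd (nat_lit 78) (nat_lit 456) (nat_lit 0) (XT.lf (nat_lit 0) (nat_lit 11585510359) (nat_lit 684) (nat_lit 4909654849) (nat_lit 76) (nat_lit 41721067366) (nat_lit 53) (nat_lit 5) (nat_lit 62) (nat_lit 5) (nat_lit 54) (nat_lit 5) (nat_lit 278) (nat_lit 270) (nat_lit 172)) (XT.lf (nat_lit 0) (nat_lit 17987945010) (nat_lit 532) (nat_lit 27426438872) (nat_lit 76) (nat_lit 15535329968) (nat_lit 47) (nat_lit 5) (nat_lit 54) (nat_lit 5) (nat_lit 48) (nat_lit 5) (nat_lit 279) (nat_lit 270) (nat_lit 171))) (XT.nd (nat_lit 78) (nat_lit 0) (nat_lit 0) (XT.lf (nat_lit 0) (nat_lit 11390819167)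 (nat_lit 304) (nat_lit 14051754695) (nat_lit 380) (nat_lit 38432315726) (nat_lit 43) (nat_lit 5) (nat_lit 47) (nat_lit 5) (nat_lit 48) (nat_lit 5) (nat_lit 280) (nat_lit 270) (nat_lit 170)) (XT.lf (nat_lit 0) (nat_lit 34285867903) (nat_lit 380) (nat_lit 13037433749) (nat_lit 76) (nat_lit 19671177743) (nat_lit 43) (nat_lit 5) (nat_lit 48) (nat_lit 5) (nat_lit 44) (nat_lit 5) (nat_lit 281) (nat_lit 270) (nat_lit 169)))) (XT.nd (nat_lit 156) (nat_lit 304) (nat_lit 0) (XT.nd (nat_lit 78) (nat_lit 228) (nat_lit 0) (XT.lf (nat_lit 0) (nat_lit 30295020731) (nat_lit 304) (nat_lit 14249003607) (nat_lit 380) (nat_lit 25784255763) (nat_lit 39) (nat_lit 5) (nat_lit 43) (nat_lit 5) (nat_lit 44) (nat_lit 5) (nat_lit 282) (nat_lit 270) (nat_lit 168)) (XT.lf (nat_lit 0) (nat_lit 3409767574) (nat_lit 228) (nat_lit 52829971833) (nat_lit 304) (nat_lit 17658212797) (nat_lit 36) (nat_lit 5) (nat_lit 39)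 (nat_lit 5) (nat_lit 40) (nat_lit 5) (nat_lit 283) (nat_lit 270) (nat_lit 167))) (XT.nd (nat_lit 78) (nat_lit 304) (nat_lit 0) (XT.lf (nat_lit 0) (nat_lit 51507095420) (nat_lit 228) (nat_lit 18295513361) (nat_lit 304) (nat_lit 7904026150) (nat_lit 36) (nat_lit 5) (nat_lit 39) (nat_lit 5) (nat_lit 40) (nat_lit 5) (nat_lit 284) (nat_lit 270) (nat_lit 166)) (XT.lf (nat_lit 0) (nat_lit 3195431710) (nat_lit 304) (nat_lit 59801165888) (nat_lit 76) (nat_lit 18788915108) (nat_lit 32) (nat_lit 5) (nat_lit 36) (nat_lit 5) (nat_lit 33) (nat_lit 5) (nat_lit 285) (nat_lit 270) (nat_lit 165))))) (XT.nd (nat_lit 312) (nat_lit 608) (nat_lit 0) (XT.nd (nat_lit 156) (nat_lit 228) (nat_lit 0) (XT.nd (nat_lit 78) (nat_lit 228) (nat_lit 0) (XT.lf (nat_lit 0) (nat_lit 15679979335) (nat_lit 304) (nat_lit 11661017343) (nat_lit 76) (nat_lit 58804532289) (nat_lit 32) (nat_lit 5) (nat_lit 36) (nat_lit 5) (nat_lit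 33) (nat_lit 5) (nat_lit 286) (nat_lit 270) (nat_lit 164)) (XT.lf (nat_lit 0) (nat_lit 29996892487) (nat_lit 304) (nat_lit 49345384288) (nat_lit 76) (nat_lit 11470398523) (nat_lit 29) (nat_lit 5) (nat_lit 33) (nat_lit 5) (nat_lit 30) (nat_lit 5) (nat_lit 287) (nat_lit 270) (nat_lit 163))) (XT.nd (nat_lit 78) (nat_lit 0) (nat_lit 0) (XT.lf (nat_lit 0) (nat_lit 3050299382) (nat_lit 228) (nat_lit 43122199876) (nat_lit 304) (nat_lit 49645035245) (nat_lit 26) (nat_lit 5) (nat_lit 29) (nat_lit 5) (nat_lit 30) (nat_lit 5) (nat_lit 288) (nat_lit 270) (nat_lit 162)) (XT.lf (nat_lit 0) (nat_lit 61397623533) (nat_lit 228) (nat_lit 3102433355) (nat_lit 304) (nat_lit 36679838033) (nat_lit 26) (nat_lit 5) (nat_lit 29) (nat_lit 5) (nat_lit 30) (nat_lit 5) (nat_lit 289) (nat_lit 270) (nat_lit 161)))) (XT.nd (nat_lit 156) (nat_lit 456) (nat_lit 0) (XT.nd (nat_lit 78) (nat_lit 0) (nat_lit 0) (XT.lf (nat_lit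 0) (nat_lit 17368994927) (nat_lit 152) (nat_lit 67820825636) (nat_lit 228) (nat_lit 21736630566) (nat_lit 24) (nat_lit 5) (nat_lit 26) (nat_lit 5) (nat_lit 27) (nat_lit 5) (nat_lit 290) (nat_lit 270) (nat_lit 160)) (XT.lf (nat_lit 0) (nat_lit 80456978851) (nat_lit 152) (nat_lit 27820774996) (nat_lit 228) (nat_lit 4817835067) (nat_lit 24) (nat_lit 5) (nat_lit 26) (nat_lit 5) (nat_lit 27) (nat_lit 5) (nat_lit 291) (nat_lit 270) (nat_lit 159))) (XT.nd (nat_lit 78) (nat_lit 152) (nat_lit 0) (XT.lf (nat_lit 0) (nat_lit 13735215555) (nat_lit 304) (nat_lit 90407676616) (nat_lit 76) (nat_lit 15569299276) (nat_lit 20) (nat_lit 5) (nat_lit 24) (nat_lit 5) (nat_lit 21) (nat_lit 5) (nat_lit 292) (nat_lit 270) (nat_lit 158)) (XT.nd (nat_lit 78) (nat_lit 152) (nat_lit 0) (XT.lf (nat_lit 0) (nat_lit 34651631890) (nat_lit 304) (nat_lit 30022600598) (nat_lit 76) (nat_lit 62127550209) (nat_lit 20) (nat_lit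 5) (nat_lit 24) (nat_lit 5) (nat_lit 21) (nat_lit 5) (nat_lit 293) (nat_lit 270) (nat_lit 157)) (XT.lf (nat_lit 0) (nat_lit 36355167829) (nat_lit 152) (nat_lit 21452582661) (nat_lit 228) (nat_lit 76622476227) (nat_lit 18) (nat_lit 5) (nat_lit 20) (nat_lit 5) (nat_lit 21) (nat_lit 5) (nat_lit 294) (nat_lit 270) (nat_lit 156))))))))
noncomputable def xc107 : XT := (XT.nd (nat_lit 1326) (nat_lit 76) (nat_lit 0) (XT.nd (nat_lit 624) (nat_lit 380) (nat_lit 0) (XT.nd (nat_lit 312) (nat_lit 152) (nat_lit 0) (XT.nd (nat_lit 156) (nat_lit 152) (nat_lit 0) (XT.nd (nat_lit 78) (nat_lit 152) (nat_lit 0) (XT.lf (nat_lit 0) (nat_lit 83740607387) (nat_lit 228) (nat_lit 33931663443) (nat_lit 76) (nat_lit 24950467544) (nat_lit 18) (nat_lit 5) (nat_lit 21) (nat_lit 5) (nat_lit 19) (nat_lit 5) (nat_lit 295) (nat_lit 270) (nat_lit 155)) (XT.lf (nat_lit 0) (nat_lit 36136506082) (nat_lit 152) (nat_lit 76536434629)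 (nat_lit 228) (nat_lit 38751472078) (nat_lit 16) (nat_lit 5) (nat_lit 18) (nat_lit 5) (nat_lit 19) (nat_lit 5) (nat_lit 296) (nat_lit 270) (nat_lit 154))) (XT.nd (nat_lit 78) (nat_lit 152) (nat_lit 0) (XT.lf (nat_lit 0) (nat_lit 113020324099) (nat_lit 152) (nat_lit 31489586529) (nat_lit 228) (nat_lit 16390811936) (nat_lit 16) (nat_lit 5) (nat_lit 18) (nat_lit 5) (nat_lit 19) (nat_lit 5) (nat_lit 297) (nat_lit 270) (nat_lit 153)) (XT.lf (nat_lit 0) (nat_lit 8185833718) (nat_lit 152) (nat_lit 145768537973) (nat_lit 76) (nat_lit 17140939144) (nat_lit 14) (nat_lit 5) (nat_lit 16) (nat_lit 5) (nat_lit 15) (nat_lit 5) (nat_lit 298) (nat_lit 270) (nat_lit 152)))) (XT.nd (nat_lit 156) (nat_lit 152) (nat_lit 0) (XT.nd (nat_lit 78) (nat_lit 0) (nat_lit 0) (XT.lf (nat_lit 0) (nat_lit 35539806250) (nat_lit 152) (nat_lit 76785874820) (nat_lit 76) (nat_lit 69697080722) (nat_lit 14) (nat_lit 5) (nat_lit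 16) (nat_lit 5) (nat_lit 15) (nat_lit 5) (nat_lit 299) (nat_lit 270) (nat_lit 151)) (XT.lf (nat_lit 0) (nat_lit 65081246357) (nat_lit 152) (nat_lit 2285893576) (nat_lit 76) (nat_lit 126457314357) (nat_lit 14) (nat_lit 5) (nat_lit 16) (nat_lit 5) (nat_lit 15) (nat_lit 5) (nat_lit 300) (nat_lit 270) (nat_lit 150))) (XT.nd (nat_lit 78) (nat_lit 0) (nat_lit 0) (XT.lf (nat_lit 0) (nat_lit 80757635815) (nat_lit 152) (nat_lit 17488431628) (nat_lit 228) (nat_lit 108261214191) (nat_lit 12) (nat_lit 5) (nat_lit 14) (nat_lit 5) (nat_lit 15) (nat_lit 5) (nat_lit 301) (nat_lit 270) (nat_lit 149)) (XT.lf (nat_lit 0) (nat_lit 134671795394) (nat_lit 228) (nat_lit 50246304174) (nat_lit 76) (nat_lit 35256252068) (nat_lit 12) (nat_lit 5) (nat_lit 15) (nat_lit 5) (nat_lit 13) (nat_lit 4) (nat_lit 302) (nat_lit 270) (nat_lit 148))))) (XT.nd (nat_lit 312) (nat_lit 76) (nat_lit 0) (XT.nd (nat_lit 156) (nat_lit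 228) (nat_lit 0) (XT.nd (nat_lit 78) (nat_lit 0) (nat_lit 0) (XT.lf (nat_lit 0) (nat_lit 32026368593) (nat_lit 76) (nat_lit 142779423957) (nat_lit 152) (nat_lit 60089286485) (nat_lit 11) (nat_lit 5) (nat_lit 12) (nat_lit 5) (nat_lit 13) (nat_lit 4) (nat_lit 303) (nat_lit 270) (nat_lit 147)) (XT.lf (nat_lit 0) (nat_lit 122674088894) (nat_lit 76) (nat_lit 96351016812) (nat_lit 152) (nat_lit 31724631279) (nat_lit 11) (nat_lit 5) (nat_lit 12) (nat_lit 5) (nat_lit 13) (nat_lit 4) (nat_lit 304) (nat_lit 270) (nat_lit 146))) (XT.nd (nat_lit 78) (nat_lit 228) (nat_lit 0) (XT.lf (nat_lit 0) (nat_lit 220572658668) (nat_lit 76) (nat_lit 46208692306) (nat_lit 152) (nat_lit 1091449253) (nat_lit 11) (nat_lit 5) (nat_lit 12) (nat_lit 5) (nat_lit 13) (nat_lit 4) (nat_lit 305) (nat_lit 270) (nat_lit 145)) (XT.lf (nat_lit 0) (nat_lit 31746587740) (nat_lit 228) (nat_lit 245710652736) (nat_lit 76) (nat_lit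 8844587454) (nat_lit 8) (nat_lit 5) (nat_lit 11) (nat_lit 5) (nat_lit 9) (nat_lit 4) (nat_lit 306) (nat_lit 270) (nat_lit 144)))) (XT.nd (nat_lit 156) (nat_lit 76) (nat_lit 0) (XT.nd (nat_lit 78) (nat_lit 0) (nat_lit 0) (XT.lf (nat_lit 0) (nat_lit 68789993336) (nat_lit 228) (nat_lit 169773086303) (nat_lit 76) (nat_lit 67560376985) (nat_lit 8) (nat_lit 5) (nat_lit 11) (nat_lit 5) (nat_lit 9) (nat_lit 4) (nat_lit 307) (nat_lit 270) (nat_lit 143)) (XT.lf (nat_lit 0) (nat_lit 108796357862) (nat_lit 228) (nat_lit 87761349247) (nat_lit 76) (nat_lit 130973135701) (nat_lit 8) (nat_lit 5) (nat_lit 11) (nat_lit 5) (nat_lit 9) (nat_lit 4) (nat_lit 308) (nat_lit 270) (nat_lit 142))) (XT.nd (nat_lit 78) (nat_lit 0) (nat_lit 0) (XT.lf (nat_lit 0) (nat_lit 837354482) (nat_lit 76) (nat_lit 151178475037) (nat_lit 152) (nat_lit 198634361878) (nat_lit 7) (nat_lit 5) (nat_lit 8) (nat_lit 5) (nat_lit 9)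 (nat_lit 4) (nat_lit 309) (nat_lit 270) (nat_lit 141)) (XT.nd (nat_lit 78) (nat_lit 0) (nat_lit 0) (XT.lf (nat_lit 0) (nat_lit 99657144707) (nat_lit 76) (nat_lit 100564008484) (nat_lit 152) (nat_lit 175321521269) (nat_lit 7) (nat_lit 5) (nat_lit 8) (nat_lit 5) (nat_lit 9) (nat_lit 4) (nat_lit 310) (nat_lit 270) (nat_lit 140)) (XT.lf (nat_lit 0) (nat_lit 206381833634) (nat_lit 76) (nat_lit 45900650788) (nat_lit 152) (nat_lit 150144093870) (nat_lit 7) (nat_lit 5) (nat_lit 8) (nat_lit 5) (nat_lit 9) (nat_lit 4) (nat_lit 311) (nat_lit 270) (nat_lit 139))))))) (XT.nd (nat_lit 34710) (nat_lit 0) (nat_lit 2280) (XT.nd (nat_lit 34398) (nat_lit 0) (nat_lit 3952) (XT.nd (nat_lit 156) (nat_lit 76) (nat_lit 0) (XT.nd (nat_lit 78) (nat_lit 0) (nat_lit 0) (XT.lf (nat_lit 0) (nat_lit 308713417226) (nat_lit 152) (nat_lit 110022433469) (nat_lit 0) (nat_lit 12715110098) (nat_lit 7) (nat_lit 5) (nat_lit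 9) (nat_lit 4) (nat_lit 7) (nat_lit 4) (nat_lit 312) (nat_lit 270) (nat_lit 138)) (XT.lf (nat_lit 0) (nat_lit 370432431255) (nat_lit 152) (nat_lit 17892908468) (nat_lit 0) (nat_lit 74433274875) (nat_lit 7) (nat_lit 5) (nat_lit 9) (nat_lit 4) (nat_lit 7) (nat_lit 4) (nat_lit 313) (nat_lit 270) (nat_lit 137))) (XT.nd (nat_lit 34164) (nat_lit 0) (nat_lit 3952) (XT.lf (nat_lit 0) (nat_lit 84304697699) (nat_lit 76) (nat_lit 354100165914) (nat_lit 76) (nat_lit 58100223190) (nat_lit 6) (nat_lit 4) (nat_lit 7) (nat_lit 5) (nat_lit 7) (nat_lit 4) (nat_lit 314) (nat_lit 270) (nat_lit 136)) (XT.lf (nat_lit 0) (nat_lit 18415912256) (nat_lit 684) (nat_lit 2025344934) (nat_lit 684) (nat_lit 2025344934) (nat_lit 58) (nat_lit 3) (nat_lit 67) (nat_lit 3) (nat_lit 67) (nat_lit 5) (nat_lit 271) (nat_lit 271) (nat_lit 178)))) (XT.nd (nat_lit 156) (nat_lit 0) (nat_lit 76) (XT.nd (nat_lit 78) (nat_lit 0)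 (nat_lit 76) (XT.lf (nat_lit 76) (nat_lit 24508209819) (nat_lit 0) (nat_lit 14222583618) (nat_lit 684) (nat_lit 7978188852) (nat_lit 59) (nat_lit 5) (nat_lit 58) (nat_lit 3) (nat_lit 67) (nat_lit 5) (nat_lit 272) (nat_lit 271) (nat_lit 177)) (XT.lf (nat_lit 76) (nat_lit 6861525139) (nat_lit 0) (nat_lit 34322167215) (nat_lit 684) (nat_lit 7423056140) (nat_lit 60) (nat_lit 5) (nat_lit 59) (nat_lit 5) (nat_lit 68) (nat_lit 5) (nat_lit 273) (nat_lit 271) (nat_lit 176))) (XT.nd (nat_lit 78) (nat_lit 0) (nat_lit 76) (XT.lf (nat_lit 76) (nat_lit 38791330019) (nat_lit 0) (nat_lit 5660134245) (nat_lit 684) (nat_lit 6173964258) (nat_lit 60) (nat_lit 5) (nat_lit 59) (nat_lit 5) (nat_lit 68) (nat_lit 5) (nat_lit 274) (nat_lit 271) (nat_lit 175)) (XT.lf (nat_lit 76) (nat_lit 20736121845) (nat_lit 0) (nat_lit 27959496706) (nat_lit 684) (nat_lit 4074259128) (nat_lit 61) (nat_lit 5) (nat_lit 60) (nat_lit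 5) (nat_lit 69) (nat_lit 5) (nat_lit 275) (nat_lit 271) (nat_lit 174))))) (XT.nd (nat_lit 312) (nat_lit 1216) (nat_lit 0) (XT.nd (nat_lit 156) (nat_lit 0) (nat_lit 76) (XT.nd (nat_lit 78) (nat_lit 684) (nat_lit 0) (XT.lf (nat_lit 76) (nat_lit 1158005442) (nat_lit 0) (nat_lit 52477440589) (nat_lit 684) (nat_lit 1432650768) (nat_lit 62) (nat_lit 5) (nat_lit 61) (nat_lit 5) (nat_lit 70) (nat_lit 5) (nat_lit 276) (nat_lit 271) (nat_lit 173)) (XT.lf (nat_lit 0) (nat_lit 2410116809) (nat_lit 684) (nat_lit 19878689665) (nat_lit 760) (nat_lit 35208512396) (nat_lit 52) (nat_lit 5) (nat_lit 61) (nat_lit 5) (nat_lit 62) (nat_lit 5) (nat_lit 277) (nat_lit 271) (nat_lit 172))) (XT.nd (nat_lit 78) (nat_lit 0) (nat_lit 0) (XT.lf (nat_lit 0) (nat_lit 6945371248) (nat_lit 684) (nat_lit 42866472400) (nat_lit 76) (nat_lit 10286115035) (nat_lit 53) (nat_lit 5) (nat_lit 62) (nat_lit 5) (nat_lit 54) (nat_lit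 5) (nat_lit 278) (nat_lit 271) (nat_lit 171)) (XT.lf (nat_lit 0) (nat_lit 12568355979) (nat_lit 684) (nat_lit 5253036312) (nat_lit 76) (nat_lit 45049027823) (nat_lit 53) (nat_lit 5) (nat_lit 62) (nat_lit 5) (nat_lit 54) (nat_lit 5) (nat_lit 279) (nat_lit 271) (nat_lit 170)))) (XT.nd (nat_lit 156) (nat_lit 532) (nat_lit 0) (XT.nd (nat_lit 78) (nat_lit 304) (nat_lit 0) (XT.lf (nat_lit 0) (nat_lit 19479490998) (nat_lit 532) (nat_lit 29570308509) (nat_lit 76) (nat_lit 16772978130) (nat_lit 47) (nat_lit 5) (nat_lit 54) (nat_lit 5) (nat_lit 48) (nat_lit 5) (nat_lit 280) (nat_lit 271) (nat_lit 169)) (XT.lf (nat_lit 0) (nat_lit 12350146566) (nat_lit 304) (nat_lit 15177204314) (nat_lit 380) (nat_lit 41454794837) (nat_lit 43) (nat_lit 5) (nat_lit 47) (nat_lit 5) (nat_lit 48) (nat_lit 5) (nat_lit 281) (nat_lit 271) (nat_lit 168))) (XT.nd (nat_lit 78) (nat_lit 532) (nat_lit 0) (XT.lf (nat_lit 0)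 (nat_lit 37074432398) (nat_lit 380) (nat_lit 14033375352) (nat_lit 76) (nat_lit 21243698499) (nat_lit 43) (nat_lit 5) (nat_lit 48) (nat_lit 5) (nat_lit 44) (nat_lit 5) (nat_lit 282) (nat_lit 271) (nat_lit 167)) (XT.nd (nat_lit 78) (nat_lit 228) (nat_lit 0) (XT.lf (nat_lit 0) (nat_lit 32763630616) (nat_lit 304) (nat_lit 15386928617) (nat_lit 380) (nat_lit 27801604162) (nat_lit 39) (nat_lit 5) (nat_lit 43) (nat_lit 5) (nat_lit 44) (nat_lit 5) (nat_lit 283) (nat_lit 271) (nat_lit 166)) (XT.lf (nat_lit 0) (nat_lit 3727847127) (nat_lit 228) (nat_lit 57051634313) (nat_lit 304) (nat_lit 19028067254) (nat_lit 36) (nat_lit 5) (nat_lit 39) (nat_lit 5) (nat_lit 40) (nat_lit 5) (nat_lit 284) (nat_lit 271) (nat_lit 165))))))))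
noncomputable def xc108 : XT := (XT.nd (nat_lit 1248) (nat_lit 532) (nat_lit 0) (XT.nd (nat_lit 624) (nat_lit 760) (nat_lit 0) (XT.nd (nat_lit 312) (nat_lit 380) (nat_lit 0) (XT.nd (nat_lit 156) (nat_lit 228) (nat_lit 0) (XT.nd (nat_lit 78) (nat_lit 304) (nat_lit 0) (XT.lf (nat_lit 0) (nat_lit 55669605782) (nat_lit 228) (nat_lit 19754769923) (nat_lit 304) (nat_lit 8496716237) (nat_lit 36) (nat_lit 5) (nat_lit 39) (nat_lit 5) (nat_lit 40) (nat_lit 5) (nat_lit 285) (nat_lit 271) (nat_lit 164)) (XT.lf (nat_lit 0) (nat_lit 3487319553) (nat_lit 304) (nat_lit 64541849604) (nat_lit 76) (nat_lit 20297199172) (nat_lit 32) (nat_lit 5) (nat_lit 36) (nat_lit 5) (nat_lit 33) (nat_lit 5) (nat_lit 286) (nat_lit 271) (nat_lit 163))) (XT.nd (nat_lit 78) (nat_lit 228) (nat_lit 0) (XT.lf (nat_lit 0) (nat_lit 16967945557) (nat_lit 304) (nat_lit 12553704699) (nat_lit 76) (nat_lit 63513682701) (nat_lit 32)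 (nat_lit 5) (nat_lit 36) (nat_lit 5) (nat_lit 33) (nat_lit 5) (nat_lit 287) (nat_lit 271) (nat_lit 162)) (XT.lf (nat_lit 0) (nat_lit 32428431152) (nat_lit 304) (nat_lit 53252941245) (nat_lit 76) (nat_lit 12394579475) (nat_lit 29) (nat_lit 5) (nat_lit 33) (nat_lit 5) (nat_lit 30) (nat_lit 5) (nat_lit 288) (nat_lit 271) (nat_lit 161)))) (XT.nd (nat_lit 156) (nat_lit 152) (nat_lit 0) (XT.nd (nat_lit 78) (nat_lit 0) (nat_lit 0) (XT.lf (nat_lit 0) (nat_lit 3332655561) (nat_lit 228) (nat_lit 46563674765) (nat_lit 304) (nat_lit 53584968265) (nat_lit 26) (nat_lit 5) (nat_lit 29) (nat_lit 5) (nat_lit 30) (nat_lit 5) (nat_lit 289) (nat_lit 271) (nat_lit 160)) (XT.lf (nat_lit 0) (nat_lit 66344926219) (nat_lit 228) (nat_lit 3342941820) (nat_lit 304) (nat_lit 39584901186) (nat_lit 26) (nat_lit 5) (nat_lit 29) (nat_lit 5) (nat_lit 30) (nat_lit 5) (nat_lit 290) (nat_lit 271) (nat_lit 159))) (XT.nd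 (nat_lit 78) (nat_lit 0) (nat_lit 0) (XT.lf (nat_lit 0) (nat_lit 18793801413) (nat_lit 152) (nat_lit 73237613687) (nat_lit 228) (nat_lit 23447714119) (nat_lit 24) (nat_lit 5) (nat_lit 26) (nat_lit 5) (nat_lit 27) (nat_lit 5) (nat_lit 291) (nat_lit 271) (nat_lit 158)) (XT.lf (nat_lit 0) (nat_lit 86926210207) (nat_lit 152) (nat_lit 30038216626) (nat_lit 228) (nat_lit 5177477712) (nat_lit 24) (nat_lit 5) (nat_lit 26) (nat_lit 5) (nat_lit 27) (nat_lit 5) (nat_lit 292) (nat_lit 271) (nat_lit 157))))) (XT.nd (nat_lit 312) (nat_lit 304) (nat_lit 0) (XT.nd (nat_lit 156) (nat_lit 152) (nat_lit 0) (XT.nd (nat_lit 78) (nat_lit 0) (nat_lit 0) (XT.lf (nat_lit 0) (nat_lit 14857777892) (nat_lit 304) (nat_lit 97607005671) (nat_lit 76) (nat_lit 16823099960) (nat_lit 20) (nat_lit 5) (nat_lit 24) (nat_lit 5) (nat_lit 21) (nat_lit 5) (nat_lit 293) (nat_lit 271) (nat_lit 156)) (XT.lf (nat_lit 0) (nat_lit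 37445748638) (nat_lit 304) (nat_lit 32393589132) (nat_lit 76) (nat_lit 67105399356) (nat_lit 20) (nat_lit 5) (nat_lit 24) (nat_lit 5) (nat_lit 21) (nat_lit 5) (nat_lit 294) (nat_lit 271) (nat_lit 155))) (XT.nd (nat_lit 78) (nat_lit 0) (nat_lit 0) (XT.lf (nat_lit 0) (nat_lit 39293061390) (nat_lit 152) (nat_lit 23160126996) (nat_lit 228) (nat_lit 82730333283) (nat_lit 18) (nat_lit 5) (nat_lit 20) (nat_lit 5) (nat_lit 21) (nat_lit 5) (nat_lit 295) (nat_lit 271) (nat_lit 154)) (XT.lf (nat_lit 0) (nat_lit 90459256997) (nat_lit 228) (nat_lit 36617985336) (nat_lit 76) (nat_lit 26954268865) (nat_lit 18) (nat_lit 5) (nat_lit 21) (nat_lit 5) (nat_lit 19) (nat_lit 5) (nat_lit 296) (nat_lit 271) (nat_lit 153)))) (XT.nd (nat_lit 156) (nat_lit 152) (nat_lit 0) (XT.nd (nat_lit 78) (nat_lit 0) (nat_lit 0) (XT.lf (nat_lit 0) (nat_lit 39054411727) (nat_lit 152) (nat_lit 82650749459) (nat_lit 228) (nat_lit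 41832214812) (nat_lit 16) (nat_lit 5) (nat_lit 18) (nat_lit 5) (nat_lit 19) (nat_lit 5) (nat_lit 297) (nat_lit 271) (nat_lit 152)) (XT.lf (nat_lit 0) (nat_lit 122086936286) (nat_lit 152) (nat_lit 34000790545) (nat_lit 228) (nat_lit 17684137046) (nat_lit 16) (nat_lit 5) (nat_lit 18) (nat_lit 5) (nat_lit 19) (nat_lit 5) (nat_lit 298) (nat_lit 271) (nat_lit 151))) (XT.nd (nat_lit 78) (nat_lit 0) (nat_lit 0) (XT.lf (nat_lit 0) (nat_lit 8857288024) (nat_lit 152) (nat_lit 157404756813) (nat_lit 76) (nat_lit 18520003878) (nat_lit 14) (nat_lit 5) (nat_lit 16) (nat_lit 5) (nat_lit 15) (nat_lit 5) (nat_lit 299) (nat_lit 271) (nat_lit 150)) (XT.lf (nat_lit 0) (nat_lit 38398349646) (nat_lit 152) (nat_lit 82905352030) (nat_lit 76) (nat_lit 75280059775) (nat_lit 14) (nat_lit 5) (nat_lit 16) (nat_lit 5) (nat_lit 15) (nat_lit 5) (nat_lit 300) (nat_lit 271) (nat_lit 149)))))) (XT.nd (nat_lit 624) (nat_lit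 76) (nat_lit 0) (XT.nd (nat_lit 312) (nat_lit 228) (nat_lit 0) (XT.nd (nat_lit 156) (nat_lit 76) (nat_lit 0) (XT.nd (nat_lit 78) (nat_lit 152) (nat_lit 0) (XT.lf (nat_lit 0) (nat_lit 70301967266) (nat_lit 152) (nat_lit 2447105085) (nat_lit 76) (nat_lit 136580577834) (nat_lit 14) (nat_lit 5) (nat_lit 16) (nat_lit 5) (nat_lit 15) (nat_lit 5) (nat_lit 301) (nat_lit 271) (nat_lit 148)) (XT.lf (nat_lit 0) (nat_lit 87238965341) (nat_lit 152) (nat_lit 18880278751) (nat_lit 228) (nat_lit 116907899779) (nat_lit 12) (nat_lit 5) (nat_lit 14) (nat_lit 5) (nat_lit 15) (nat_lit 5) (nat_lit 302) (nat_lit 271) (nat_lit 147))) (XT.nd (nat_lit 78) (nat_lit 76) (nat_lit 0) (XT.lf (nat_lit 0) (nat_lit 145458135410) (nat_lit 228) (nat_lit 54246262106) (nat_lit 76) (nat_lit 38083230089) (nat_lit 12) (nat_lit 5) (nat_lit 15) (nat_lit 5) (nat_lit 13) (nat_lit 4) (nat_lit 303) (nat_lit 271) (nat_lit 146)) (XT.lf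 (nat_lit 0) (nat_lit 34607366328) (nat_lit 76) (nat_lit 154194847843) (nat_lit 152) (nat_lit 64883834070) (nat_lit 11) (nat_lit 5) (nat_lit 12) (nat_lit 5) (nat_lit 13) (nat_lit 4) (nat_lit 304) (nat_lit 271) (nat_lit 145)))) (XT.nd (nat_lit 156) (nat_lit 228) (nat_lit 0) (XT.nd (nat_lit 78) (nat_lit 0) (nat_lit 0) (XT.lf (nat_lit 0) (nat_lit 132505505124) (nat_lit 76) (nat_lit 104052681462) (nat_lit 152) (nat_lit 34250939435) (nat_lit 11) (nat_lit 5) (nat_lit 12) (nat_lit 5) (nat_lit 13) (nat_lit 4) (nat_lit 305) (nat_lit 271) (nat_lit 144)) (XT.lf (nat_lit 0) (nat_lit 238234664990) (nat_lit 76) (nat_lit 49899446306) (nat_lit 152) (nat_lit 1167966724) (nat_lit 11) (nat_lit 5) (nat_lit 12) (nat_lit 5) (nat_lit 13) (nat_lit 4) (nat_lit 306) (nat_lit 271) (nat_lit 143))) (XT.nd (nat_lit 78) (nat_lit 0) (nat_lit 0) (XT.lf (nat_lit 0) (nat_lit 34296333311) (nat_lit 228) (nat_lit 265351220427)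 (nat_lit 76) (nat_lit 9557889859) (nat_lit 8) (nat_lit 5) (nat_lit 11) (nat_lit 5) (nat_lit 9) (nat_lit 4) (nat_lit 307) (nat_lit 271) (nat_lit 142)) (XT.lf (nat_lit 0) (nat_lit 74302469240) (nat_lit 228) (nat_lit 183339854940) (nat_lit 76) (nat_lit 72970517708) (nat_lit 8) (nat_lit 5) (nat_lit 11) (nat_lit 5) (nat_lit 9) (nat_lit 4) (nat_lit 308) (nat_lit 271) (nat_lit 141))))) (XT.nd (nat_lit 390) (nat_lit 0) (nat_lit 0) (XT.nd (nat_lit 156) (nat_lit 0) (nat_lit 0) (XT.nd (nat_lit 78) (nat_lit 76) (nat_lit 0) (XT.lf (nat_lit 0) (nat_lit 117508655784) (nat_lit 228) (nat_lit 94768295828) (nat_lit 76) (nat_lit 141455903745) (nat_lit 8) (nat_lit 5) (nat_lit 11) (nat_lit 5) (nat_lit 9) (nat_lit 4) (nat_lit 309) (nat_lit 271) (nat_lit 140)) (XT.lf (nat_lit 0) (nat_lit 917697456) (nat_lit 76) (nat_lit 163267559977) (nat_lit 152) (nat_lit 214516517668) (nat_lit 7) (nat_lit 5) (nat_lit 8)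 (nat_lit 5) (nat_lit 9) (nat_lit 4) (nat_lit 310) (nat_lit 271) (nat_lit 139))) (XT.nd (nat_lit 78) (nat_lit 0) (nat_lit 0) (XT.lf (nat_lit 0) (nat_lit 107642081667) (nat_lit 76) (nat_lit 108604320772) (nat_lit 152) (nat_lit 189339286341) (nat_lit 7) (nat_lit 5) (nat_lit 8) (nat_lit 5) (nat_lit 9) (nat_lit 4) (nat_lit 311) (nat_lit 271) (nat_lit 138)) (XT.lf (nat_lit 0) (nat_lit 222903829755) (nat_lit 76) (nat_lit 49568250637) (nat_lit 152) (nat_lit 162148254130) (nat_lit 7) (nat_lit 5) (nat_lit 8) (nat_lit 5) (nat_lit 9) (nat_lit 4) (nat_lit 312) (nat_lit 271) (nat_lit 137)))) (XT.nd (nat_lit 34320) (nat_lit 0) (nat_lit 3876) (XT.nd (nat_lit 34242) (nat_lit 0) (nat_lit 3876) (XT.lf (nat_lit 0) (nat_lit 400073084335) (nat_lit 152) (nat_lit 19314267455) (nat_lit 0) (nat_lit 80391631751) (nat_lit 7) (nat_lit 5) (nat_lit 9) (nat_lit 4) (nat_lit 7) (nat_lit 4) (nat_lit 314) (nat_lit 271)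 (nat_lit 135)) (XT.lf (nat_lit 0) (nat_lit 19931203889) (nat_lit 684) (nat_lit 2165183260) (nat_lit 684) (nat_lit 2165183260) (nat_lit 58) (nat_lit 3) (nat_lit 67) (nat_lit 3) (nat_lit 67) (nat_lit 5) (nat_lit 272) (nat_lit 272) (nat_lit 176))) (XT.nd (nat_lit 78) (nat_lit 0) (nat_lit 76) (XT.lf (nat_lit 76) (nat_lit 26511316504) (nat_lit 0) (nat_lit 15396415489) (nat_lit 684) (nat_lit 8533565584) (nat_lit 59) (nat_lit 5) (nat_lit 58) (nat_lit 3) (nat_lit 67) (nat_lit 5) (nat_lit 273) (nat_lit 272) (nat_lit 175)) (XT.nd (nat_lit 78) (nat_lit 0) (nat_lit 0) (XT.lf (nat_lit 76) (nat_lit 7455802172) (nat_lit 0) (nat_lit 37095435011) (nat_lit 684) (nat_lit 7939964700) (nat_lit 60) (nat_lit 5) (nat_lit 59) (nat_lit 5) (nat_lit 68) (nat_lit 5) (nat_lit 274) (nat_lit 272) (nat_lit 174)) (XT.lf (nat_lit 76) (nat_lit 41936631811) (nat_lit 0) (nat_lit 6138402780) (nat_lit 684) (nat_lit 6596644425)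 (nat_lit 60) (nat_lit 5) (nat_lit 59) (nat_lit 5) (nat_lit 68) (nat_lit 5) (nat_lit 275) (nat_lit 272) (nat_lit 173))))))))
noncomputable def xc109 : XT := (XT.nd (nat_lit 1248) (nat_lit 1368) (nat_lit 0) (XT.nd (nat_lit 624) (nat_lit 1292) (nat_lit 0) (XT.nd (nat_lit 312) (nat_lit 684) (nat_lit 0) (XT.nd (nat_lit 156) (nat_lit 608) (nat_lit 0) (XT.nd (nat_lit 78) (nat_lit 0) (nat_lit 76) (XT.lf (nat_lit 76) (nat_lit 22439181457) (nat_lit 0) (nat_lit 30214864821) (nat_lit 684) (nat_lit 4333902028) (nat_lit 61) (nat_lit 5) (nat_lit 60) (nat_lit 5) (nat_lit 69) (nat_lit 5) (nat_lit 276) (nat_lit 272) (nat_lit 172)) (XT.lf (nat_lit 76) (nat_lit 1296540707) (nat_lit 0) (nat_lit 56688316548) (nat_lit 684) (nat_lit 1485406034) (nat_lit 62) (nat_lit 5) (nat_lit 61) (nat_lit 5) (nat_lit 70) (nat_lit 5) (nat_lit 277) (nat_lit 272) (nat_lit 171))) (XT.nd (nat_lit 78) (nat_lit 0) (nat_lit 76)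 (XT.lf (nat_lit 0) (nat_lit 2658367813) (nat_lit 684) (nat_lit 21424345649) (nat_lit 760) (nat_lit 38011308010) (nat_lit 52) (nat_lit 5) (nat_lit 61) (nat_lit 5) (nat_lit 62) (nat_lit 5) (nat_lit 278) (nat_lit 272) (nat_lit 170)) (XT.lf (nat_lit 0) (nat_lit 7552857236) (nat_lit 684) (nat_lit 46250057854) (nat_lit 76) (nat_lit 11099999671) (nat_lit 53) (nat_lit 5) (nat_lit 62) (nat_lit 5) (nat_lit 54) (nat_lit 5) (nat_lit 279) (nat_lit 272) (nat_lit 169)))) (XT.nd (nat_lit 156) (nat_lit 304) (nat_lit 0) (XT.nd (nat_lit 78) (nat_lit 456) (nat_lit 0) (XT.lf (nat_lit 0) (nat_lit 13621839539) (nat_lit 684) (nat_lit 5630934460) (nat_lit 76) (nat_lit 48644612487) (nat_lit 53) (nat_lit 5) (nat_lit 62) (nat_lit 5) (nat_lit 54) (nat_lit 5) (nat_lit 280) (nat_lit 272) (nat_lit 168)) (XT.lf (nat_lit 0) (nat_lit 21082869471) (nat_lit 532) (nat_lit 31892855796) (nat_lit 76) (nat_lit 18110376878)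 (nat_lit 47) (nat_lit 5) (nat_lit 54) (nat_lit 5) (nat_lit 48) (nat_lit 5) (nat_lit 281) (nat_lit 272) (nat_lit 167))) (XT.nd (nat_lit 78) (nat_lit 0) (nat_lit 0) (XT.lf (nat_lit 0) (nat_lit 13379363595) (nat_lit 304) (nat_lit 16392503125) (nat_lit 380) (nat_lit 44726505801) (nat_lit 43) (nat_lit 5) (nat_lit 47) (nat_lit 5) (nat_lit 48) (nat_lit 5) (nat_lit 282) (nat_lit 272) (nat_lit 166)) (XT.lf (nat_lit 0) (nat_lit 40079563142) (nat_lit 380) (nat_lit 15115704933) (nat_lit 76) (nat_lit 22942188324) (nat_lit 43) (nat_lit 5) (nat_lit 48) (nat_lit 5) (nat_lit 44) (nat_lit 5) (nat_lit 283) (nat_lit 272) (nat_lit 165))))) (XT.nd (nat_lit 312) (nat_lit 456) (nat_lit 0) (XT.nd (nat_lit 156) (nat_lit 304) (nat_lit 0) (XT.nd (nat_lit 78) (nat_lit 228) (nat_lit 0) (XT.lf (nat_lit 0) (nat_lit 35423308365) (nat_lit 304) (nat_lit 16616172276) (nat_lit 380) (nat_lit 29986816118) (nat_lit 39) (nat_lit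 5) (nat_lit 43) (nat_lit 5) (nat_lit 44) (nat_lit 5) (nat_lit 284) (nat_lit 272) (nat_lit 164)) (XT.lf (nat_lit 0) (nat_lit 4064910756) (nat_lit 228) (nat_lit 61611705329) (nat_lit 304) (nat_lit 20513616333) (nat_lit 36) (nat_lit 5) (nat_lit 39) (nat_lit 5) (nat_lit 40) (nat_lit 5) (nat_lit 285) (nat_lit 272) (nat_lit 163))) (XT.nd (nat_lit 78) (nat_lit 304) (nat_lit 0) (XT.lf (nat_lit 0) (nat_lit 60159133373) (nat_lit 228) (nat_lit 21331392510) (nat_lit 304) (nat_lit 9142475479) (nat_lit 36) (nat_lit 5) (nat_lit 39) (nat_lit 5) (nat_lit 40) (nat_lit 5) (nat_lit 286) (nat_lit 272) (nat_lit 162)) (XT.lf (nat_lit 0) (nat_lit 3797386483) (nat_lit 304) (nat_lit 69667980877) (nat_lit 76) (nat_lit 21925408281) (nat_lit 32) (nat_lit 5) (nat_lit 36) (nat_lit 5) (nat_lit 33) (nat_lit 5) (nat_lit 287) (nat_lit 272) (nat_lit 161)))) (XT.nd (nat_lit 156) (nat_lit 228) (nat_lit 0) (XT.nd (nat_lit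 78) (nat_lit 228) (nat_lit 0) (XT.lf (nat_lit 0) (nat_lit 18354160245) (nat_lit 304) (nat_lit 13523541171) (nat_lit 76) (nat_lit 68598882109) (nat_lit 32) (nat_lit 5) (nat_lit 36) (nat_lit 5) (nat_lit 33) (nat_lit 5) (nat_lit 288) (nat_lit 272) (nat_lit 160)) (XT.lf (nat_lit 0) (nat_lit 35049958101) (nat_lit 304) (nat_lit 57478819732) (nat_lit 76) (nat_lit 13391760606) (nat_lit 29) (nat_lit 5) (nat_lit 33) (nat_lit 5) (nat_lit 30) (nat_lit 5) (nat_lit 289) (nat_lit 272) (nat_lit 159))) (XT.nd (nat_lit 78) (nat_lit 0) (nat_lit 0) (XT.lf (nat_lit 0) (nat_lit 3632131713) (nat_lit 228) (nat_lit 50281651891) (nat_lit 304) (nat_lit 57844613977) (nat_lit 26) (nat_lit 5) (nat_lit 29) (nat_lit 5) (nat_lit 30) (nat_lit 5) (nat_lit 290) (nat_lit 272) (nat_lit 158)) (XT.lf (nat_lit 0) (nat_lit 71682949675) (nat_lit 228) (nat_lit 3603787484) (nat_lit 304) (nat_lit 42726552773) (nat_lit 26) (nat_lit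 5) (nat_lit 29) (nat_lit 5) (nat_lit 30) (nat_lit 5) (nat_lit 291) (nat_lit 272) (nat_lit 157)))))) (XT.nd (nat_lit 624) (nat_lit 608) (nat_lit 0) (XT.nd (nat_lit 312) (nat_lit 304) (nat_lit 0) (XT.nd (nat_lit 156) (nat_lit 304) (nat_lit 0) (XT.nd (nat_lit 78) (nat_lit 0) (nat_lit 0) (XT.lf (nat_lit 0) (nat_lit 20327558348) (nat_lit 152) (nat_lit 79089011329) (nat_lit 228) (nat_lit 25299657026) (nat_lit 24) (nat_lit 5) (nat_lit 26) (nat_lit 5) (nat_lit 27) (nat_lit 5) (nat_lit 292) (nat_lit 272) (nat_lit 156)) (XT.lf (nat_lit 0) (nat_lit 93908318896) (nat_lit 152) (nat_lit 32434226314) (nat_lit 228) (nat_lit 5569570168) (nat_lit 24) (nat_lit 5) (nat_lit 26) (nat_lit 5) (nat_lit 27) (nat_lit 5) (nat_lit 293) (nat_lit 272) (nat_lit 155))) (XT.nd (nat_lit 78) (nat_lit 0) (nat_lit 0) (XT.lf (nat_lit 0) (nat_lit 16066757713) (nat_lit 304) (nat_lit 105387029539) (nat_lit 76) (nat_lit 18176026782)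 (nat_lit 20) (nat_lit 5) (nat_lit 24) (nat_lit 5) (nat_lit 21) (nat_lit 5) (nat_lit 294) (nat_lit 272) (nat_lit 154)) (XT.lf (nat_lit 0) (nat_lit 40460258150) (nat_lit 304) (nat_lit 34958653498) (nat_lit 76) (nat_lit 72480385773) (nat_lit 20) (nat_lit 5) (nat_lit 24) (nat_lit 5) (nat_lit 21) (nat_lit 5) (nat_lit 295) (nat_lit 272) (nat_lit 153)))) (XT.nd (nat_lit 156) (nat_lit 152) (nat_lit 0) (XT.nd (nat_lit 78) (nat_lit 0) (nat_lit 0) (XT.lf (nat_lit 0) (nat_lit 42461780766) (nat_lit 152) (nat_lit 25005510649) (nat_lit 228) (nat_lit 89329949038) (nat_lit 18) (nat_lit 5) (nat_lit 20) (nat_lit 5) (nat_lit 21) (nat_lit 5) (nat_lit 296) (nat_lit 272) (nat_lit 152)) (XT.lf (nat_lit 0) (nat_lit 97712630802) (nat_lit 228) (nat_lit 39523237621) (nat_lit 76) (nat_lit 29117266682) (nat_lit 18) (nat_lit 5) (nat_lit 21) (nat_lit 5) (nat_lit 19) (nat_lit 5) (nat_lit 297) (nat_lit 272) (nat_lit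 151))) (XT.nd (nat_lit 78) (nat_lit 0) (nat_lit 0) (XT.lf (nat_lit 0) (nat_lit 42201900090) (nat_lit 152) (nat_lit 89255436354) (nat_lit 228) (nat_lit 45162181029) (nat_lit 16) (nat_lit 5) (nat_lit 18) (nat_lit 5) (nat_lit 19) (nat_lit 5) (nat_lit 298) (nat_lit 272) (nat_lit 150)) (XT.lf (nat_lit 0) (nat_lit 131875312878) (nat_lit 152) (nat_lit 36714026879) (nat_lit 228) (nat_lit 19083487484) (nat_lit 16) (nat_lit 5) (nat_lit 18) (nat_lit 5) (nat_lit 19) (nat_lit 5) (nat_lit 299) (nat_lit 272) (nat_lit 149))))) (XT.nd (nat_lit 312) (nat_lit 304) (nat_lit 0) (XT.nd (nat_lit 156) (nat_lit 152) (nat_lit 0) (XT.nd (nat_lit 78) (nat_lit 0) (nat_lit 0) (XT.lf (nat_lit 0) (nat_lit 9580092266) (nat_lit 152) (nat_lit 169975477380) (nat_lit 76) (nat_lit 20008282517) (nat_lit 14) (nat_lit 5) (nat_lit 16) (nat_lit 5) (nat_lit 15) (nat_lit 5) (nat_lit 300) (nat_lit 272) (nat_lit 148)) (XT.lf (nat_lit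 0) (nat_lit 41483385396) (nat_lit 152) (nat_lit 89517724657) (nat_lit 76) (nat_lit 81308648195) (nat_lit 14) (nat_lit 5) (nat_lit 16) (nat_lit 5) (nat_lit 15) (nat_lit 5) (nat_lit 301) (nat_lit 272) (nat_lit 147))) (XT.nd (nat_lit 78) (nat_lit 152) (nat_lit 0) (XT.lf (nat_lit 0) (nat_lit 75938317034) (nat_lit 152) (nat_lit 2624303552) (nat_lit 76) (nat_lit 147512749651) (nat_lit 14) (nat_lit 5) (nat_lit 16) (nat_lit 5) (nat_lit 15) (nat_lit 5) (nat_lit 302) (nat_lit 272) (nat_lit 146)) (XT.lf (nat_lit 0) (nat_lit 94235845481) (nat_lit 152) (nat_lit 20384504715) (nat_lit 228) (nat_lit 126248347650) (nat_lit 12) (nat_lit 5) (nat_lit 14) (nat_lit 5) (nat_lit 15) (nat_lit 5) (nat_lit 303) (nat_lit 272) (nat_lit 145)))) (XT.nd (nat_lit 156) (nat_lit 228) (nat_lit 0) (XT.nd (nat_lit 78) (nat_lit 76) (nat_lit 0) (XT.lf (nat_lit 0) (nat_lit 157105585611) (nat_lit 228) (nat_lit 58569033718)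 (nat_lit 76) (nat_lit 41135442214) (nat_lit 12) (nat_lit 5) (nat_lit 15) (nat_lit 5) (nat_lit 13) (nat_lit 4) (nat_lit 304) (nat_lit 272) (nat_lit 144)) (XT.lf (nat_lit 0) (nat_lit 37392149262) (nat_lit 76) (nat_lit 166524494286) (nat_lit 152) (nat_lit 70063742327) (nat_lit 11) (nat_lit 5) (nat_lit 12) (nat_lit 5) (nat_lit 13) (nat_lit 4) (nat_lit 305) (nat_lit 272) (nat_lit 143))) (XT.nd (nat_lit 78) (nat_lit 228) (nat_lit 0) (XT.lf (nat_lit 0) (nat_lit 143120939633) (nat_lit 76) (nat_lit 112371394697) (nat_lit 152) (nat_lit 36981016008) (nat_lit 11) (nat_lit 5) (nat_lit 12) (nat_lit 5) (nat_lit 13) (nat_lit 4) (nat_lit 306) (nat_lit 272) (nat_lit 142)) (XT.nd (nat_lit 78) (nat_lit 228) (nat_lit 0) (XT.lf (nat_lit 0) (nat_lit 257307321615) (nat_lit 76) (nat_lit 53886308232) (nat_lit 152) (nat_lit 1252146116) (nat_lit 11) (nat_lit 5) (nat_lit 12) (nat_lit 5) (nat_lit 13) (nat_lit 4)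 (nat_lit 307) (nat_lit 272) (nat_lit 141)) (XT.lf (nat_lit 0) (nat_lit 37048629269) (nat_lit 228) (nat_lit 286565356702) (nat_lit 76) (nat_lit 10327438236) (nat_lit 8) (nat_lit 5) (nat_lit 11) (nat_lit 5) (nat_lit 9) (nat_lit 4) (nat_lit 308) (nat_lit 272) (nat_lit 140))))))))
noncomputable def xc110 : XT := (XT.nd (nat_lit 35568) (nat_lit 0) (nat_lit 684) (XT.nd (nat_lit 34944) (nat_lit 0) (nat_lit 2736) (XT.nd (nat_lit 390) (nat_lit 0) (nat_lit 0) (XT.nd (nat_lit 156) (nat_lit 76) (nat_lit 0) (XT.nd (nat_lit 78) (nat_lit 0) (nat_lit 0) (XT.lf (nat_lit 0) (nat_lit 80254619829) (nat_lit 228) (nat_lit 197994116151) (nat_lit 76) (nat_lit 78812712076) (nat_lit 8) (nat_lit 5) (nat_lit 11) (nat_lit 5) (nat_lit 9) (nat_lit 4) (nat_lit 309) (nat_lit 272) (nat_lit 139)) (XT.lf (nat_lit 0) (nat_lit 126916712182) (nat_lit 228) (nat_lit 102337789879) (nat_lit 76) (nat_lit 152776591741) (nat_lit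 8) (nat_lit 5) (nat_lit 11) (nat_lit 5) (nat_lit 9) (nat_lit 4) (nat_lit 310) (nat_lit 272) (nat_lit 138))) (XT.nd (nat_lit 78) (nat_lit 0) (nat_lit 0) (XT.lf (nat_lit 0) (nat_lit 1002562682) (nat_lit 76) (nat_lit 176324512561) (nat_lit 152) (nat_lit 231670471832) (nat_lit 7) (nat_lit 5) (nat_lit 8) (nat_lit 5) (nat_lit 9) (nat_lit 4) (nat_lit 311) (nat_lit 272) (nat_lit 137)) (XT.lf (nat_lit 0) (nat_lit 116264049525) (nat_lit 76) (nat_lit 117288544013) (nat_lit 152) (nat_lit 204479607721) (nat_lit 7) (nat_lit 5) (nat_lit 8) (nat_lit 5) (nat_lit 9) (nat_lit 4) (nat_lit 312) (nat_lit 272) (nat_lit 136)))) (XT.nd (nat_lit 34398) (nat_lit 0) (nat_lit 3876) (XT.nd (nat_lit 34320) (nat_lit 0) (nat_lit 3876) (XT.lf (nat_lit 0) (nat_lit 360096006375) (nat_lit 152) (nat_lit 128309088954) (nat_lit 0) (nat_lit 14838635325) (nat_lit 7) (nat_lit 5) (nat_lit 9) (nat_lit 4) (nat_lit 7) (nat_lit 4)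 (nat_lit 314) (nat_lit 272) (nat_lit 134)) (XT.lf (nat_lit 0) (nat_lit 21561724422) (nat_lit 684) (nat_lit 2319374200) (nat_lit 684) (nat_lit 2319374200) (nat_lit 58) (nat_lit 3) (nat_lit 67) (nat_lit 3) (nat_lit 67) (nat_lit 5) (nat_lit 273) (nat_lit 273) (nat_lit 174))) (XT.nd (nat_lit 78) (nat_lit 0) (nat_lit 76) (XT.lf (nat_lit 76) (nat_lit 28668615772) (nat_lit 0) (nat_lit 16659014515) (nat_lit 684) (nat_lit 9145195983) (nat_lit 59) (nat_lit 5) (nat_lit 58) (nat_lit 3) (nat_lit 67) (nat_lit 5) (nat_lit 274) (nat_lit 273) (nat_lit 173)) (XT.lf (nat_lit 76) (nat_lit 8091150967) (nat_lit 0) (nat_lit 40086641844) (nat_lit 684) (nat_lit 8509201716) (nat_lit 60) (nat_lit 5) (nat_lit 59) (nat_lit 5) (nat_lit 68) (nat_lit 5) (nat_lit 275) (nat_lit 273) (nat_lit 172))))) (XT.nd (nat_lit 312) (nat_lit 684) (nat_lit 0) (XT.nd (nat_lit 156) (nat_lit 532) (nat_lit 0) (XT.nd (nat_lit 78) (nat_lit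 0) (nat_lit 76) (XT.lf (nat_lit 76) (nat_lit 45327566634) (nat_lit 0) (nat_lit 6651300958) (nat_lit 684) (nat_lit 7063301757) (nat_lit 60) (nat_lit 5) (nat_lit 59) (nat_lit 5) (nat_lit 68) (nat_lit 5) (nat_lit 276) (nat_lit 273) (nat_lit 171)) (XT.lf (nat_lit 76) (nat_lit 24272184514) (nat_lit 0) (nat_lit 32648007691) (nat_lit 684) (nat_lit 4623774487) (nat_lit 61) (nat_lit 5) (nat_lit 60) (nat_lit 5) (nat_lit 69) (nat_lit 5) (nat_lit 277) (nat_lit 273) (nat_lit 170))) (XT.nd (nat_lit 78) (nat_lit 684) (nat_lit 0) (XT.lf (nat_lit 76) (nat_lit 1439611382) (nat_lit 0) (nat_lit 61234253539) (nat_lit 684) (nat_lit 1551206286) (nat_lit 62) (nat_lit 5) (nat_lit 61) (nat_lit 5) (nat_lit 70) (nat_lit 5) (nat_lit 278) (nat_lit 273) (nat_lit 169)) (XT.lf (nat_lit 0) (nat_lit 2918569524) (nat_lit 684) (nat_lit 23100022391) (nat_lit 760) (nat_lit 41040308177) (nat_lit 52) (nat_lit 5) (nat_lit 61)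 (nat_lit 5) (nat_lit 62) (nat_lit 5) (nat_lit 279) (nat_lit 273) (nat_lit 168)))) (XT.nd (nat_lit 156) (nat_lit 760) (nat_lit 0) (XT.nd (nat_lit 78) (nat_lit 0) (nat_lit 0) (XT.lf (nat_lit 0) (nat_lit 8201544224) (nat_lit 684) (nat_lit 49910854374) (nat_lit 76) (nat_lit 11980279680) (nat_lit 53) (nat_lit 5) (nat_lit 62) (nat_lit 5) (nat_lit 54) (nat_lit 5) (nat_lit 280) (nat_lit 273) (nat_lit 167)) (XT.lf (nat_lit 0) (nat_lit 14752751896) (nat_lit 684) (nat_lit 6045105412) (nat_lit 76) (nat_lit 52529033371) (nat_lit 53) (nat_lit 5) (nat_lit 62) (nat_lit 5) (nat_lit 54) (nat_lit 5) (nat_lit 281) (nat_lit 273) (nat_lit 166))) (XT.nd (nat_lit 78) (nat_lit 304) (nat_lit 0) (XT.lf (nat_lit 0) (nat_lit 22808095731) (nat_lit 532) (nat_lit 34407352337) (nat_lit 76) (nat_lit 19555400871) (nat_lit 47) (nat_lit 5) (nat_lit 54) (nat_lit 5) (nat_lit 48) (nat_lit 5) (nat_lit 282) (nat_lit 273) (nat_lit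 165)) (XT.lf (nat_lit 0) (nat_lit 14485039588) (nat_lit 304) (nat_lit 17704865708) (nat_lit 380) (nat_lit 48266326691) (nat_lit 43) (nat_lit 5) (nat_lit 47) (nat_lit 5) (nat_lit 48) (nat_lit 5) (nat_lit 283) (nat_lit 273) (nat_lit 164)))))) (XT.nd (nat_lit 624) (nat_lit 760) (nat_lit 0) (XT.nd (nat_lit 312) (nat_lit 760) (nat_lit 0) (XT.nd (nat_lit 156) (nat_lit 228) (nat_lit 0) (XT.nd (nat_lit 78) (nat_lit 304) (nat_lit 0) (XT.lf (nat_lit 0) (nat_lit 43319515429) (nat_lit 380) (nat_lit 16290375897) (nat_lit 76) (nat_lit 24776700860) (nat_lit 43) (nat_lit 5) (nat_lit 48) (nat_lit 5) (nat_lit 44) (nat_lit 5) (nat_lit 284) (nat_lit 273) (nat_lit 163)) (XT.lf (nat_lit 0) (nat_lit 38290255425) (nat_lit 304) (nat_lit 17943999469) (nat_lit 380) (nat_lit 32352396887) (nat_lit 39) (nat_lit 5) (nat_lit 43) (nat_lit 5) (nat_lit 44) (nat_lit 5) (nat_lit 285) (nat_lit 273) (nat_lit 162))) (XT.nd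 (nat_lit 78) (nat_lit 0) (nat_lit 0) (XT.lf (nat_lit 0) (nat_lit 4423399107) (nat_lit 228) (nat_lit 66537161193) (nat_lit 304) (nat_lit 22123244476) (nat_lit 36) (nat_lit 5) (nat_lit 39) (nat_lit 5) (nat_lit 40) (nat_lit 5) (nat_lit 286) (nat_lit 273) (nat_lit 161)) (XT.lf (nat_lit 0) (nat_lit 65002693201) (nat_lit 228) (nat_lit 23034681167) (nat_lit 304) (nat_lit 9844742810) (nat_lit 36) (nat_lit 5) (nat_lit 39) (nat_lit 5) (nat_lit 40) (nat_lit 5) (nat_lit 287) (nat_lit 273) (nat_lit 160)))) (XT.nd (nat_lit 156) (nat_lit 456) (nat_lit 0) (XT.nd (nat_lit 78) (nat_lit 0) (nat_lit 0) (XT.lf (nat_lit 0) (nat_lit 4127824664) (nat_lit 304) (nat_lit 75209512029) (nat_lit 76) (nat_lit 23683241676) (nat_lit 32) (nat_lit 5) (nat_lit 36) (nat_lit 5) (nat_lit 33) (nat_lit 5) (nat_lit 288) (nat_lit 273) (nat_lit 159)) (XT.lf (nat_lit 0) (nat_lit 19847166456) (nat_lit 304) (nat_lit 14575880652)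 (nat_lit 76) (nat_lit 74090311875) (nat_lit 32) (nat_lit 5) (nat_lit 36) (nat_lit 5) (nat_lit 33) (nat_lit 5) (nat_lit 289) (nat_lit 273) (nat_lit 158))) (XT.nd (nat_lit 78) (nat_lit 228) (nat_lit 0) (XT.lf (nat_lit 0) (nat_lit 37877319339) (nat_lit 304) (nat_lit 62047669882) (nat_lit 76) (nat_lit 14467915216) (nat_lit 29) (nat_lit 5) (nat_lit 33) (nat_lit 5) (nat_lit 30) (nat_lit 5) (nat_lit 290) (nat_lit 273) (nat_lit 157)) (XT.lf (nat_lit 0) (nat_lit 3950877582) (nat_lit 228) (nat_lit 54298082486) (nat_lit 304) (nat_lit 62448904846) (nat_lit 26) (nat_lit 5) (nat_lit 29) (nat_lit 5) (nat_lit 30) (nat_lit 5) (nat_lit 291) (nat_lit 273) (nat_lit 156))))) (XT.nd (nat_lit 312) (nat_lit 304) (nat_lit 0) (XT.nd (nat_lit 156) (nat_lit 304) (nat_lit 0) (XT.nd (nat_lit 78) (nat_lit 152) (nat_lit 0) (XT.lf (nat_lit 0) (nat_lit 77443673919) (nat_lit 228) (nat_lit 3886440893) (nat_lit 304) (nat_lit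 46123123061) (nat_lit 26) (nat_lit 5) (nat_lit 29) (nat_lit 5) (nat_lit 30) (nat_lit 5) (nat_lit 292) (nat_lit 273) (nat_lit 155)) (XT.lf (nat_lit 0) (nat_lit 21979699935) (nat_lit 152) (nat_lit 85409606641) (nat_lit 228) (nat_lit 27303161291) (nat_lit 24) (nat_lit 5) (nat_lit 26) (nat_lit 5) (nat_lit 27) (nat_lit 5) (nat_lit 293) (nat_lit 273) (nat_lit 154))) (XT.nd (nat_lit 78) (nat_lit 304) (nat_lit 0) (XT.lf (nat_lit 0) (nat_lit 101445000074) (nat_lit 152) (nat_lit 35022922202) (nat_lit 228) (nat_lit 5996183654) (nat_lit 24) (nat_lit 5) (nat_lit 26) (nat_lit 5) (nat_lit 27) (nat_lit 5) (nat_lit 294) (nat_lit 273) (nat_lit 153)) (XT.lf (nat_lit 0) (nat_lit 17369551682) (nat_lit 304) (nat_lit 113793526379) (nat_lit 76) (nat_lit 19636177876) (nat_lit 20) (nat_lit 5) (nat_lit 24) (nat_lit 5) (nat_lit 21) (nat_lit 5) (nat_lit 295) (nat_lit 273) (nat_lit 152)))) (XT.nd (nat_lit 156) (nat_lit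 152) (nat_lit 0) (XT.nd (nat_lit 78) (nat_lit 152) (nat_lit 0) (XT.lf (nat_lit 0) (nat_lit 43713239313) (nat_lit 304) (nat_lit 37732692515) (nat_lit 76) (nat_lit 78284436034) (nat_lit 20) (nat_lit 5) (nat_lit 24) (nat_lit 5) (nat_lit 21) (nat_lit 5) (nat_lit 296) (nat_lit 273) (nat_lit 151)) (XT.lf (nat_lit 0) (nat_lit 45880392006) (nat_lit 152) (nat_lit 26999584469) (nat_lit 228) (nat_lit 96460217640) (nat_lit 18) (nat_lit 5) (nat_lit 20) (nat_lit 5) (nat_lit 21) (nat_lit 5) (nat_lit 297) (nat_lit 273) (nat_lit 150))) (XT.nd (nat_lit 78) (nat_lit 152) (nat_lit 0) (XT.lf (nat_lit 0) (nat_lit 105543901594) (nat_lit 228) (nat_lit 42664360569) (nat_lit 76) (nat_lit 31452354727) (nat_lit 18) (nat_lit 5) (nat_lit 21) (nat_lit 5) (nat_lit 19) (nat_lit 5) (nat_lit 298) (nat_lit 273) (nat_lit 149)) (XT.nd (nat_lit 78) (nat_lit 0) (nat_lit 0) (XT.lf (nat_lit 0) (nat_lit 45597886995) (nat_lit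 152) (nat_lit 96389550051) (nat_lit 228) (nat_lit 48760914284) (nat_lit 16) (nat_lit 5) (nat_lit 18) (nat_lit 5) (nat_lit 19) (nat_lit 5) (nat_lit 299) (nat_lit 273) (nat_lit 148)) (XT.lf (nat_lit 0) (nat_lit 142443703554) (nat_lit 152) (nat_lit 39645296056) (nat_lit 228) (nat_lit 20596980161) (nat_lit 16) (nat_lit 5) (nat_lit 18) (nat_lit 5) (nat_lit 19) (nat_lit 5) (nat_lit 300) (nat_lit 273) (nat_lit 147))))))))
noncomputable def xc111 : XT := (XT.nd (nat_lit 35802) (nat_lit 0) (nat_lit 1292) (XT.nd (nat_lit 624) (nat_lit 304) (nat_lit 0) (XT.nd (nat_lit 312) (nat_lit 76) (nat_lit 0) (XT.nd (nat_lit 156) (nat_lit 152) (nat_lit 0) (XT.nd (nat_lit 78) (nat_lit 0) (nat_lit 0) (XT.lf (nat_lit 0) (nat_lit 10358692035) (nat_lit 152) (nat_lit 183554945631) (nat_lit 76) (nat_lit 21614670709) (nat_lit 14) (nat_lit 5) (nat_lit 16) (nat_lit 5) (nat_lit 15) (nat_lit 5) (nat_lit 301) (nat_lit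 273) (nat_lit 146)) (XT.lf (nat_lit 0) (nat_lit 44813345476) (nat_lit 152) (nat_lit 96661948241) (nat_lit 76) (nat_lit 87818641523) (nat_lit 14) (nat_lit 5) (nat_lit 16) (nat_lit 5) (nat_lit 15) (nat_lit 5) (nat_lit 302) (nat_lit 273) (nat_lit 145))) (XT.nd (nat_lit 78) (nat_lit 152) (nat_lit 0) (XT.lf (nat_lit 0) (nat_lit 82023835404) (nat_lit 152) (nat_lit 2818327106) (nat_lit 76) (nat_lit 159318678394) (nat_lit 14) (nat_lit 5) (nat_lit 16) (nat_lit 5) (nat_lit 15) (nat_lit 5) (nat_lit 303) (nat_lit 273) (nat_lit 144)) (XT.lf (nat_lit 0) (nat_lit 101789941954) (nat_lit 152) (nat_lit 22009952732) (nat_lit 228) (nat_lit 136337769550) (nat_lit 12) (nat_lit 5) (nat_lit 14) (nat_lit 5) (nat_lit 15) (nat_lit 5) (nat_lit 304) (nat_lit 273) (nat_lit 143)))) (XT.nd (nat_lit 156) (nat_lit 0) (nat_lit 0) (XT.nd (nat_lit 78) (nat_lit 76) (nat_lit 0) (XT.lf (nat_lit 0) (nat_lit 169683291178) (nat_lit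 228) (nat_lit 63240042220) (nat_lit 76) (nat_lit 44431039009) (nat_lit 12) (nat_lit 5) (nat_lit 15) (nat_lit 5) (nat_lit 13) (nat_lit 4) (nat_lit 305) (nat_lit 273) (nat_lit 142)) (XT.lf (nat_lit 0) (nat_lit 40397404629) (nat_lit 76) (nat_lit 179841360050) (nat_lit 152) (nat_lit 75659583767) (nat_lit 11) (nat_lit 5) (nat_lit 12) (nat_lit 5) (nat_lit 13) (nat_lit 4) (nat_lit 306) (nat_lit 273) (nat_lit 141))) (XT.nd (nat_lit 78) (nat_lit 0) (nat_lit 0) (XT.lf (nat_lit 0) (nat_lit 154583469828) (nat_lit 76) (nat_lit 121356389811) (nat_lit 152) (nat_lit 39930925116) (nat_lit 11) (nat_lit 5) (nat_lit 12) (nat_lit 5) (nat_lit 13) (nat_lit 4) (nat_lit 307) (nat_lit 273) (nat_lit 140)) (XT.lf (nat_lit 0) (nat_lit 277903810144) (nat_lit 76) (nat_lit 58192845795) (nat_lit 152) (nat_lit 1344380608) (nat_lit 11) (nat_lit 5) (nat_lit 12) (nat_lit 5) (nat_lit 13) (nat_lit 4) (nat_lit 308) (nat_lit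 273) (nat_lit 139))))) (XT.nd (nat_lit 34788) (nat_lit 0) (nat_lit 3876) (XT.nd (nat_lit 156) (nat_lit 76) (nat_lit 0) (XT.nd (nat_lit 78) (nat_lit 0) (nat_lit 0) (XT.lf (nat_lit 0) (nat_lit 40019883545) (nat_lit 228) (nat_lit 309478615624) (nat_lit 76) (nat_lit 11157848991) (nat_lit 8) (nat_lit 5) (nat_lit 11) (nat_lit 5) (nat_lit 9) (nat_lit 4) (nat_lit 309) (nat_lit 273) (nat_lit 138)) (XT.lf (nat_lit 0) (nat_lit 86681807873) (nat_lit 228) (nat_lit 213822562466) (nat_lit 76) (nat_lit 85121632465) (nat_lit 8) (nat_lit 5) (nat_lit 11) (nat_lit 5) (nat_lit 9) (nat_lit 4) (nat_lit 310) (nat_lit 273) (nat_lit 137))) (XT.nd (nat_lit 78) (nat_lit 76) (nat_lit 0) (XT.lf (nat_lit 0) (nat_lit 137076362543) (nat_lit 228) (nat_lit 110514551054) (nat_lit 76) (nat_lit 165002333360) (nat_lit 8) (nat_lit 5) (nat_lit 11) (nat_lit 5) (nat_lit 9) (nat_lit 4) (nat_lit 311) (nat_lit 273) (nat_lit 136))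 (XT.lf (nat_lit 0) (nat_lit 1092583738) (nat_lit 76) (nat_lit 190426656509) (nat_lit 152) (nat_lit 250197793350) (nat_lit 7) (nat_lit 5) (nat_lit 8) (nat_lit 5) (nat_lit 9) (nat_lit 4) (nat_lit 312) (nat_lit 273) (nat_lit 135)))) (XT.nd (nat_lit 156) (nat_lit 0) (nat_lit 76) (XT.nd (nat_lit 78) (nat_lit 0) (nat_lit 0) (XT.lf (nat_lit 0) (nat_lit 23317547340) (nat_lit 684) (nat_lit 2488614361) (nat_lit 684) (nat_lit 2488614361) (nat_lit 58) (nat_lit 3) (nat_lit 67) (nat_lit 3) (nat_lit 67) (nat_lit 5) (nat_lit 274) (nat_lit 274) (nat_lit 172)) (XT.lf (nat_lit 76) (nat_lit 30993306977) (nat_lit 0) (nat_lit 18018215259) (nat_lit 684) (nat_lit 9815893581) (nat_lit 59) (nat_lit 5) (nat_lit 58) (nat_lit 3) (nat_lit 67) (nat_lit 5) (nat_lit 275) (nat_lit 274) (nat_lit 171))) (XT.nd (nat_lit 78) (nat_lit 0) (nat_lit 0) (XT.lf (nat_lit 76) (nat_lit 8771780339) (nat_lit 0) (nat_lit 43313782409)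 (nat_lit 684) (nat_lit 9133387647) (nat_lit 60) (nat_lit 5) (nat_lit 59) (nat_lit 5) (nat_lit 68) (nat_lit 5) (nat_lit 276) (nat_lit 274) (nat_lit 170)) (XT.nd (nat_lit 78) (nat_lit 0) (nat_lit 76) (XT.lf (nat_lit 76) (nat_lit 48984639830) (nat_lit 0) (nat_lit 7202117274) (nat_lit 684) (nat_lit 7576004595) (nat_lit 60) (nat_lit 5) (nat_lit 59) (nat_lit 5) (nat_lit 68) (nat_lit 5) (nat_lit 277) (nat_lit 274) (nat_lit 169)) (XT.lf (nat_lit 76) (nat_lit 26246425445) (nat_lit 0) (nat_lit 35273526019) (nat_lit 684) (nat_lit 4944945562) (nat_lit 61) (nat_lit 5) (nat_lit 60) (nat_lit 5) (nat_lit 69) (nat_lit 5) (nat_lit 278) (nat_lit 274) (nat_lit 168))))))) (XT.nd (nat_lit 624) (nat_lit 1140) (nat_lit 0) (XT.nd (nat_lit 312) (nat_lit 988) (nat_lit 0) (XT.nd (nat_lit 156) (nat_lit 0) (nat_lit 76) (XT.nd (nat_lit 78) (nat_lit 684) (nat_lit 0) (XT.lf (nat_lit 76) (nat_lit 1588514362) (nat_lit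 0) (nat_lit 66142314524) (nat_lit 684) (nat_lit 1629836198) (nat_lit 62) (nat_lit 5) (nat_lit 61) (nat_lit 5) (nat_lit 70) (nat_lit 5) (nat_lit 279) (nat_lit 274) (nat_lit 167)) (XT.lf (nat_lit 0) (nat_lit 3192806360) (nat_lit 684) (nat_lit 24915213045) (nat_lit 760) (nat_lit 44313326665) (nat_lit 52) (nat_lit 5) (nat_lit 61) (nat_lit 5) (nat_lit 62) (nat_lit 5) (nat_lit 280) (nat_lit 274) (nat_lit 166))) (XT.nd (nat_lit 78) (nat_lit 0) (nat_lit 0) (XT.lf (nat_lit 0) (nat_lit 8895783682) (nat_lit 684) (nat_lit 53870108090) (nat_lit 76) (nat_lit 12932083429) (nat_lit 53) (nat_lit 5) (nat_lit 62) (nat_lit 5) (nat_lit 54) (nat_lit 5) (nat_lit 281) (nat_lit 274) (nat_lit 165)) (XT.lf (nat_lit 0) (nat_lit 15968264567) (nat_lit 684) (nat_lit 6497589184) (nat_lit 76) (nat_lit 56725227684) (nat_lit 53) (nat_lit 5) (nat_lit 62) (nat_lit 5) (nat_lit 54) (nat_lit 5) (nat_lit 282) (nat_lit 274)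 (nat_lit 164)))) (XT.nd (nat_lit 156) (nat_lit 304) (nat_lit 0) (XT.nd (nat_lit 78) (nat_lit 304) (nat_lit 0) (XT.lf (nat_lit 0) (nat_lit 24665833840) (nat_lit 532) (nat_lit 37128277354) (nat_lit 76) (nat_lit 21116569773) (nat_lit 47) (nat_lit 5) (nat_lit 54) (nat_lit 5) (nat_lit 48) (nat_lit 5) (nat_lit 283) (nat_lit 274) (nat_lit 163)) (XT.lf (nat_lit 0) (nat_lit 15674129883) (nat_lit 304) (nat_lit 19122080011) (nat_lit 380) (nat_lit 52094797114) (nat_lit 43) (nat_lit 5) (nat_lit 47) (nat_lit 5) (nat_lit 48) (nat_lit 5) (nat_lit 284) (nat_lit 274) (nat_lit 162))) (XT.nd (nat_lit 78) (nat_lit 304) (nat_lit 0) (XT.lf (nat_lit 0) (nat_lit 46813872304) (nat_lit 380) (nat_lit 17563954536) (nat_lit 76) (nat_lit 26758097448) (nat_lit 43) (nat_lit 5) (nat_lit 48) (nat_lit 5) (nat_lit 44) (nat_lit 5) (nat_lit 285) (nat_lit 274) (nat_lit 161)) (XT.lf (nat_lit 0) (nat_lit 41381838677) (nat_lit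 304) (nat_lit 19378262063) (nat_lit 380) (nat_lit 34911983940) (nat_lit 39) (nat_lit 5) (nat_lit 43) (nat_lit 5) (nat_lit 44) (nat_lit 5) (nat_lit 286) (nat_lit 274) (nat_lit 160))))) (XT.nd (nat_lit 312) (nat_lit 608) (nat_lit 0) (XT.nd (nat_lit 156) (nat_lit 304) (nat_lit 0) (XT.nd (nat_lit 78) (nat_lit 0) (nat_lit 0) (XT.lf (nat_lit 0) (nat_lit 4805816551) (nat_lit 228) (nat_lit 71857150067) (nat_lit 304) (nat_lit 23866131157) (nat_lit 36) (nat_lit 5) (nat_lit 39) (nat_lit 5) (nat_lit 40) (nat_lit 5) (nat_lit 287) (nat_lit 274) (nat_lit 159)) (XT.lf (nat_lit 0) (nat_lit 70229339690) (nat_lit 228) (nat_lit 24874692678) (nat_lit 304) (nat_lit 10607347348) (nat_lit 36) (nat_lit 5) (nat_lit 39) (nat_lit 5) (nat_lit 40) (nat_lit 5) (nat_lit 288) (nat_lit 274) (nat_lit 158))) (XT.nd (nat_lit 78) (nat_lit 0) (nat_lit 0) (XT.lf (nat_lit 0) (nat_lit 4480896370) (nat_lit 304) (nat_lit 81198917608)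 (nat_lit 76) (nat_lit 25581159526) (nat_lit 32) (nat_lit 5) (nat_lit 36) (nat_lit 5) (nat_lit 33) (nat_lit 5) (nat_lit 289) (nat_lit 274) (nat_lit 157)) (XT.lf (nat_lit 0) (nat_lit 21456093228) (nat_lit 304) (nat_lit 15716622046) (nat_lit 76) (nat_lit 80020553970) (nat_lit 32) (nat_lit 5) (nat_lit 36) (nat_lit 5) (nat_lit 33) (nat_lit 5) (nat_lit 290) (nat_lit 274) (nat_lit 156)))) (XT.nd (nat_lit 156) (nat_lit 152) (nat_lit 0) (XT.nd (nat_lit 78) (nat_lit 228) (nat_lit 0) (XT.lf (nat_lit 0) (nat_lit 40927536255) (nat_lit 304) (nat_lit 66986230190) (nat_lit 76) (nat_lit 15629475459) (nat_lit 29) (nat_lit 5) (nat_lit 33) (nat_lit 5) (nat_lit 30) (nat_lit 5) (nat_lit 291) (nat_lit 274) (nat_lit 155)) (XT.lf (nat_lit 0) (nat_lit 4291103594) (nat_lit 228) (nat_lit 58636697983) (nat_lit 304) (nat_lit 67424859888) (nat_lit 26) (nat_lit 5) (nat_lit 29) (nat_lit 5) (nat_lit 30) (nat_lit 5)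 (nat_lit 292) (nat_lit 274) (nat_lit 154))) (XT.nd (nat_lit 78) (nat_lit 152) (nat_lit 0) (XT.lf (nat_lit 0) (nat_lit 83661534319) (nat_lit 228) (nat_lit 4192512552) (nat_lit 304) (nat_lit 49794493881) (nat_lit 26) (nat_lit 5) (nat_lit 29) (nat_lit 5) (nat_lit 30) (nat_lit 5) (nat_lit 293) (nat_lit 274) (nat_lit 153)) (XT.nd (nat_lit 78) (nat_lit 0) (nat_lit 0) (XT.lf (nat_lit 0) (nat_lit 23760312657) (nat_lit 152) (nat_lit 92236780526) (nat_lit 228) (nat_lit 29469865928) (nat_lit 24) (nat_lit 5) (nat_lit 26) (nat_lit 5) (nat_lit 27) (nat_lit 5) (nat_lit 294) (nat_lit 274) (nat_lit 152)) (XT.lf (nat_lit 0) (nat_lit 109581189642) (nat_lit 152) (nat_lit 37819575750) (nat_lit 228) (nat_lit 6459629952) (nat_lit 24) (nat_lit 5) (nat_lit 26) (nat_lit 5) (nat_lit 27) (nat_lit 5) (nat_lit 295) (nat_lit 274) (nat_lit 151))))))))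
noncomputable def xc112 : XT := (XT.nd (nat_lit 35880) (nat_lit 0) (nat_lit 1824) (XT.nd (nat_lit 624) (nat_lit 456) (nat_lit 0) (XT.nd (nat_lit 312) (nat_lit 304) (nat_lit 0) (XT.nd (nat_lit 156) (nat_lit 152) (nat_lit 0) (XT.nd (nat_lit 78) (nat_lit 0) (nat_lit 0) (XT.lf (nat_lit 0) (nat_lit 18774079253) (nat_lit 304) (nat_lit 122876033246) (nat_lit 76) (nat_lit 21212275254) (nat_lit 20) (nat_lit 5) (nat_lit 24) (nat_lit 5) (nat_lit 21) (nat_lit 5) (nat_lit 296) (nat_lit 274) (nat_lit 150)) (XT.lf (nat_lit 0) (nat_lit 47224153491) (nat_lit 304) (nat_lit 40731886395) (nat_lit 76) (nat_lit 84552008646) (nat_lit 20) (nat_lit 5) (nat_lit 24) (nat_lit 5) (nat_lit 21) (nat_lit 5) (nat_lit 297) (nat_lit 274) (nat_lit 149))) (XT.nd (nat_lit 78) (nat_lit 0) (nat_lit 0) (XT.lf (nat_lit 0) (nat_lit 49569400852) (nat_lit 152) (nat_lit 29154092522) (nat_lit 228) (nat_lit 104163208473) (nat_lit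 18) (nat_lit 5) (nat_lit 20) (nat_lit 5) (nat_lit 21) (nat_lit 5) (nat_lit 298) (nat_lit 274) (nat_lit 148)) (XT.lf (nat_lit 0) (nat_lit 113999639654) (nat_lit 228) (nat_lit 46059731584) (nat_lit 76) (nat_lit 33973435690) (nat_lit 18) (nat_lit 5) (nat_lit 21) (nat_lit 5) (nat_lit 19) (nat_lit 5) (nat_lit 299) (nat_lit 274) (nat_lit 147)))) (XT.nd (nat_lit 156) (nat_lit 152) (nat_lit 0) (XT.nd (nat_lit 78) (nat_lit 0) (nat_lit 0) (XT.lf (nat_lit 0) (nat_lit 49262723182) (nat_lit 152) (nat_lit 104095294634) (nat_lit 228) (nat_lit 52649577869) (nat_lit 16) (nat_lit 5) (nat_lit 18) (nat_lit 5) (nat_lit 19) (nat_lit 5) (nat_lit 300) (nat_lit 274) (nat_lit 146)) (XT.lf (nat_lit 0) (nat_lit 153854945420) (nat_lit 152) (nat_lit 42811901758) (nat_lit 228) (nat_lit 22233433428) (nat_lit 16) (nat_lit 5) (nat_lit 18) (nat_lit 5) (nat_lit 19) (nat_lit 5) (nat_lit 301) (nat_lit 274) (nat_lit 145)))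 (XT.nd (nat_lit 78) (nat_lit 0) (nat_lit 0) (XT.lf (nat_lit 0) (nat_lit 11197840405) (nat_lit 152) (nat_lit 198223420551) (nat_lit 76) (nat_lit 23348753136) (nat_lit 14) (nat_lit 5) (nat_lit 16) (nat_lit 5) (nat_lit 15) (nat_lit 5) (nat_lit 302) (nat_lit 274) (nat_lit 144)) (XT.lf (nat_lit 0) (nat_lit 48408091824) (nat_lit 152) (nat_lit 104380162684) (nat_lit 76) (nat_lit 94848678003) (nat_lit 14) (nat_lit 5) (nat_lit 16) (nat_lit 5) (nat_lit 15) (nat_lit 5) (nat_lit 303) (nat_lit 274) (nat_lit 143))))) (XT.nd (nat_lit 312) (nat_lit 228) (nat_lit 0) (XT.nd (nat_lit 156) (nat_lit 76) (nat_lit 0) (XT.nd (nat_lit 78) (nat_lit 152) (nat_lit 0) (XT.lf (nat_lit 0) (nat_lit 88594704005) (nat_lit 152) (nat_lit 3030143815) (nat_lit 76) (nat_lit 172068381146) (nat_lit 14) (nat_lit 5) (nat_lit 16) (nat_lit 5) (nat_lit 15) (nat_lit 5) (nat_lit 304) (nat_lit 274) (nat_lit 142)) (XT.lf (nat_lit 0)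 (nat_lit 109946193582) (nat_lit 152) (nat_lit 23766194458) (nat_lit 228) (nat_lit 147235835429) (nat_lit 12) (nat_lit 5) (nat_lit 14) (nat_lit 5) (nat_lit 15) (nat_lit 5) (nat_lit 305) (nat_lit 274) (nat_lit 141))) (XT.nd (nat_lit 78) (nat_lit 76) (nat_lit 0) (XT.lf (nat_lit 0) (nat_lit 183265892331) (nat_lit 228) (nat_lit 68286802015) (nat_lit 76) (nat_lit 47989604278) (nat_lit 12) (nat_lit 5) (nat_lit 15) (nat_lit 5) (nat_lit 13) (nat_lit 4) (nat_lit 306) (nat_lit 274) (nat_lit 140)) (XT.lf (nat_lit 0) (nat_lit 43641099799) (nat_lit 76) (nat_lit 194224301759) (nat_lit 152) (nat_lit 81704413271) (nat_lit 11) (nat_lit 5) (nat_lit 12) (nat_lit 5) (nat_lit 13) (nat_lit 4) (nat_lit 307) (nat_lit 274) (nat_lit 139)))) (XT.nd (nat_lit 156) (nat_lit 228) (nat_lit 0) (XT.nd (nat_lit 78) (nat_lit 0) (nat_lit 0) (XT.lf (nat_lit 0) (nat_lit 166961168525) (nat_lit 76) (nat_lit 131060857389) (nat_lit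 152) (nat_lit 43118049869) (nat_lit 11) (nat_lit 5) (nat_lit 12) (nat_lit 5) (nat_lit 13) (nat_lit 4) (nat_lit 308) (nat_lit 274) (nat_lit 138)) (XT.lf (nat_lit 0) (nat_lit 300146319688) (nat_lit 76) (nat_lit 62844529379) (nat_lit 152) (nat_lit 1445126190) (nat_lit 11) (nat_lit 5) (nat_lit 12) (nat_lit 5) (nat_lit 13) (nat_lit 4) (nat_lit 309) (nat_lit 274) (nat_lit 137))) (XT.nd (nat_lit 78) (nat_lit 0) (nat_lit 0) (XT.lf (nat_lit 0) (nat_lit 43227787616) (nat_lit 228) (nat_lit 334226642858) (nat_lit 76) (nat_lit 12054091190) (nat_lit 8) (nat_lit 5) (nat_lit 11) (nat_lit 5) (nat_lit 9) (nat_lit 4) (nat_lit 310) (nat_lit 274) (nat_lit 136)) (XT.lf (nat_lit 0) (nat_lit 93622198232) (nat_lit 228) (nat_lit 230918865597) (nat_lit 76) (nat_lit 91934709618) (nat_lit 8) (nat_lit 5) (nat_lit 11) (nat_lit 5) (nat_lit 9) (nat_lit 4) (nat_lit 311) (nat_lit 274) (nat_lit 135)))))) (XT.nd (nat_lit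 624) (nat_lit 1520) (nat_lit 0) (XT.nd (nat_lit 312) (nat_lit 456) (nat_lit 0) (XT.nd (nat_lit 156) (nat_lit 0) (nat_lit 76) (XT.nd (nat_lit 78) (nat_lit 0) (nat_lit 0) (XT.lf (nat_lit 0) (nat_lit 25209430005) (nat_lit 684) (nat_lit 2673720507) (nat_lit 684) (nat_lit 2673720507) (nat_lit 58) (nat_lit 3) (nat_lit 67) (nat_lit 3) (nat_lit 67) (nat_lit 5) (nat_lit 275) (nat_lit 275) (nat_lit 170)) (XT.lf (nat_lit 76) (nat_lit 33499522172) (nat_lit 0) (nat_lit 19482374455) (nat_lit 684) (nat_lit 10548937633) (nat_lit 59) (nat_lit 5) (nat_lit 58) (nat_lit 3) (nat_lit 67) (nat_lit 5) (nat_lit 276) (nat_lit 275) (nat_lit 169))) (XT.nd (nat_lit 78) (nat_lit 0) (nat_lit 0) (XT.lf (nat_lit 76) (nat_lit 9502104123) (nat_lit 0) (nat_lit 46796211150) (nat_lit 684) (nat_lit 9815575972) (nat_lit 60) (nat_lit 5) (nat_lit 59) (nat_lit 5) (nat_lit 68) (nat_lit 5) (nat_lit 277) (nat_lit 275) (nat_lit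 168)) (XT.lf (nat_lit 76) (nat_lit 52929875236) (nat_lit 0) (nat_lit 7794329385) (nat_lit 684) (nat_lit 8137193586) (nat_lit 60) (nat_lit 5) (nat_lit 59) (nat_lit 5) (nat_lit 68) (nat_lit 5) (nat_lit 278) (nat_lit 275) (nat_lit 167)))) (XT.nd (nat_lit 156) (nat_lit 608) (nat_lit 0) (XT.nd (nat_lit 78) (nat_lit 0) (nat_lit 76) (XT.lf (nat_lit 76) (nat_lit 28373973988) (nat_lit 0) (nat_lit 38107134536) (nat_lit 684) (nat_lit 5298762329) (nat_lit 61) (nat_lit 5) (nat_lit 60) (nat_lit 5) (nat_lit 69) (nat_lit 5) (nat_lit 279) (nat_lit 275) (nat_lit 166)) (XT.lf (nat_lit 76) (nat_lit 1744517039) (nat_lit 0) (nat_lit 71441690686) (nat_lit 684) (nat_lit 1721242820) (nat_lit 62) (nat_lit 5) (nat_lit 61) (nat_lit 5) (nat_lit 70) (nat_lit 5) (nat_lit 280) (nat_lit 275) (nat_lit 165))) (XT.nd (nat_lit 78) (nat_lit 0) (nat_lit 76) (XT.lf (nat_lit 0) (nat_lit 3483168518) (nat_lit 684) (nat_lit 26880299827)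 (nat_lit 760) (nat_lit 47849642655) (nat_lit 52) (nat_lit 5) (nat_lit 61) (nat_lit 5) (nat_lit 62) (nat_lit 5) (nat_lit 281) (nat_lit 275) (nat_lit 164)) (XT.lf (nat_lit 0) (nat_lit 9640124635) (nat_lit 684) (nat_lit 58150897607) (nat_lit 76) (nat_lit 13960975699) (nat_lit 53) (nat_lit 5) (nat_lit 62) (nat_lit 5) (nat_lit 54) (nat_lit 5) (nat_lit 282) (nat_lit 275) (nat_lit 163))))) (XT.nd (nat_lit 312) (nat_lit 836) (nat_lit 0) (XT.nd (nat_lit 156) (nat_lit 304) (nat_lit 0) (XT.nd (nat_lit 78) (nat_lit 456) (nat_lit 0) (XT.lf (nat_lit 0) (nat_lit 17275983379) (nat_lit 684) (nat_lit 6990711939) (nat_lit 76) (nat_lit 61257991820) (nat_lit 53) (nat_lit 5) (nat_lit 62) (nat_lit 5) (nat_lit 54) (nat_lit 5) (nat_lit 283) (nat_lit 275) (nat_lit 162)) (XT.lf (nat_lit 0) (nat_lit 26667470276) (nat_lit 532) (nat_lit 40071393477) (nat_lit 76) (nat_lit 22803097716) (nat_lit 47) (nat_lit 5) (nat_lit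 54) (nat_lit 5) (nat_lit 48) (nat_lit 5) (nat_lit 284) (nat_lit 275) (nat_lit 161))) (XT.nd (nat_lit 78) (nat_lit 0) (nat_lit 0) (XT.lf (nat_lit 0) (nat_lit 16954026604) (nat_lit 304) (nat_lit 20652553755) (nat_lit 380) (nat_lit 56234229553) (nat_lit 43) (nat_lit 5) (nat_lit 47) (nat_lit 5) (nat_lit 48) (nat_lit 5) (nat_lit 285) (nat_lit 275) (nat_lit 160)) (XT.lf (nat_lit 0) (nat_lit 50583669709) (nat_lit 380) (nat_lit 18943649575) (nat_lit 76) (nat_lit 28898111259) (nat_lit 43) (nat_lit 5) (nat_lit 48) (nat_lit 5) (nat_lit 44) (nat_lit 5) (nat_lit 286) (nat_lit 275) (nat_lit 159)))) (XT.nd (nat_lit 156) (nat_lit 304) (nat_lit 0) (XT.nd (nat_lit 78) (nat_lit 228) (nat_lit 0) (XT.lf (nat_lit 0) (nat_lit 44716702315) (nat_lit 304) (nat_lit 20927445041) (nat_lit 380) (nat_lit 37680418736) (nat_lit 39) (nat_lit 5) (nat_lit 43) (nat_lit 5) (nat_lit 44) (nat_lit 5) (nat_lit 287) (nat_lit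 275) (nat_lit 158)) (XT.lf (nat_lit 0) (nat_lit 5214755054) (nat_lit 228) (nat_lit 77603163755) (nat_lit 304) (nat_lit 25752296755) (nat_lit 36) (nat_lit 5) (nat_lit 39) (nat_lit 5) (nat_lit 40) (nat_lit 5) (nat_lit 288) (nat_lit 275) (nat_lit 157))) (XT.nd (nat_lit 78) (nat_lit 304) (nat_lit 0) (XT.lf (nat_lit 0) (nat_lit 75870347216) (nat_lit 228) (nat_lit 26862299279) (nat_lit 304) (nat_lit 11434523197) (nat_lit 36) (nat_lit 5) (nat_lit 39) (nat_lit 5) (nat_lit 40) (nat_lit 5) (nat_lit 289) (nat_lit 275) (nat_lit 156)) (XT.nd (nat_lit 78) (nat_lit 0) (nat_lit 0) (XT.lf (nat_lit 0) (nat_lit 4858954613) (nat_lit 304) (nat_lit 87671378186) (nat_lit 76) (nat_lit 27630445941) (nat_lit 32) (nat_lit 5) (nat_lit 36) (nat_lit 5) (nat_lit 33) (nat_lit 5) (nat_lit 290) (nat_lit 275) (nat_lit 155)) (XT.lf (nat_lit 0) (nat_lit 23190716365) (nat_lit 304) (nat_lit 16952236225) (nat_lit 76) (nat_lit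 86424785003) (nat_lit 32) (nat_lit 5) (nat_lit 36) (nat_lit 5) (nat_lit 33) (nat_lit 5) (nat_lit 291) (nat_lit 275) (nat_lit 154))))))))
noncomputable def xc113 : XT := (XT.nd (nat_lit 1248) (nat_lit 304) (nat_lit 0) (XT.nd (nat_lit 624) (nat_lit 456) (nat_lit 0) (XT.nd (nat_lit 312) (nat_lit 456) (nat_lit 0) (XT.nd (nat_lit 156) (nat_lit 152) (nat_lit 0) (XT.nd (nat_lit 78) (nat_lit 228) (nat_lit 0) (XT.lf (nat_lit 0) (nat_lit 44218912827) (nat_lit 304) (nat_lit 72323477986) (nat_lit 76) (nat_lit 16883371755) (nat_lit 29) (nat_lit 5) (nat_lit 33) (nat_lit 5) (nat_lit 30) (nat_lit 5) (nat_lit 292) (nat_lit 275) (nat_lit 153)) (XT.lf (nat_lit 0) (nat_lit 4655101591) (nat_lit 228) (nat_lit 63323148995) (nat_lit 304) (nat_lit 72801738471) (nat_lit 26) (nat_lit 5) (nat_lit 29) (nat_lit 5) (nat_lit 30) (nat_lit 5) (nat_lit 293) (nat_lit 275) (nat_lit 152))) (XT.nd (nat_lit 78) (nat_lit 152)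 (nat_lit 0) (XT.lf (nat_lit 0) (nat_lit 90373632722) (nat_lit 228) (nat_lit 4523760939) (nat_lit 304) (nat_lit 53762210607) (nat_lit 26) (nat_lit 5) (nat_lit 29) (nat_lit 5) (nat_lit 30) (nat_lit 5) (nat_lit 294) (nat_lit 275) (nat_lit 151)) (XT.lf (nat_lit 0) (nat_lit 25680202079) (nat_lit 152) (nat_lit 99610926462) (nat_lit 228) (nat_lit 31812410393) (nat_lit 24) (nat_lit 5) (nat_lit 26) (nat_lit 5) (nat_lit 27) (nat_lit 5) (nat_lit 295) (nat_lit 275) (nat_lit 150)))) (XT.nd (nat_lit 156) (nat_lit 152) (nat_lit 0) (XT.nd (nat_lit 78) (nat_lit 304) (nat_lit 0) (XT.lf (nat_lit 0) (nat_lit 118365337045) (nat_lit 152) (nat_lit 40840700601) (nat_lit 228) (nat_lit 6962469969) (nat_lit 24) (nat_lit 5) (nat_lit 26) (nat_lit 5) (nat_lit 27) (nat_lit 5) (nat_lit 296) (nat_lit 275) (nat_lit 149)) (XT.lf (nat_lit 0) (nat_lit 20288834328) (nat_lit 304) (nat_lit 132688133016) (nat_lit 76) (nat_lit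 22913718135) (nat_lit 20) (nat_lit 5) (nat_lit 24) (nat_lit 5) (nat_lit 21) (nat_lit 5) (nat_lit 297) (nat_lit 275) (nat_lit 148))) (XT.nd (nat_lit 78) (nat_lit 152) (nat_lit 0) (XT.lf (nat_lit 0) (nat_lit 51013964229) (nat_lit 304) (nat_lit 43973786483) (nat_lit 76) (nat_lit 91320299764) (nat_lit 20) (nat_lit 5) (nat_lit 24) (nat_lit 5) (nat_lit 21) (nat_lit 5) (nat_lit 298) (nat_lit 275) (nat_lit 147)) (XT.lf (nat_lit 0) (nat_lit 53550880120) (nat_lit 152) (nat_lit 31481739965) (nat_lit 228) (nat_lit 112484411089) (nat_lit 18) (nat_lit 5) (nat_lit 20) (nat_lit 5) (nat_lit 21) (nat_lit 5) (nat_lit 299) (nat_lit 275) (nat_lit 146))))) (XT.nd (nat_lit 312) (nat_lit 152) (nat_lit 0) (XT.nd (nat_lit 156) (nat_lit 152) (nat_lit 0) (XT.nd (nat_lit 78) (nat_lit 152) (nat_lit 0) (XT.lf (nat_lit 0) (nat_lit 123130092593) (nat_lit 228) (nat_lit 49729268486) (nat_lit 76) (nat_lit 36695505148)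 (nat_lit 18) (nat_lit 5) (nat_lit 21) (nat_lit 5) (nat_lit 19) (nat_lit 5) (nat_lit 300) (nat_lit 275) (nat_lit 145)) (XT.lf (nat_lit 0) (nat_lit 53218320279) (nat_lit 152) (nat_lit 112418271925) (nat_lit 228) (nat_lit 56851076371) (nat_lit 16) (nat_lit 5) (nat_lit 18) (nat_lit 5) (nat_lit 19) (nat_lit 5) (nat_lit 301) (nat_lit 275) (nat_lit 144))) (XT.nd (nat_lit 78) (nat_lit 152) (nat_lit 0) (XT.lf (nat_lit 0) (nat_lit 166176840351) (nat_lit 152) (nat_lit 46232551788) (nat_lit 228) (nat_lit 24002415762) (nat_lit 16) (nat_lit 5) (nat_lit 18) (nat_lit 5) (nat_lit 19) (nat_lit 5) (nat_lit 302) (nat_lit 275) (nat_lit 143)) (XT.lf (nat_lit 0) (nat_lit 12102629406) (nat_lit 152) (nat_lit 214067644735) (nat_lit 76) (nat_lit 25220861867) (nat_lit 14) (nat_lit 5) (nat_lit 16) (nat_lit 5) (nat_lit 15) (nat_lit 5) (nat_lit 303) (nat_lit 275) (nat_lit 142)))) (XT.nd (nat_lit 156) (nat_lit 152)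 (nat_lit 0) (XT.nd (nat_lit 78) (nat_lit 0) (nat_lit 0) (XT.lf (nat_lit 0) (nat_lit 52289037103) (nat_lit 152) (nat_lit 112717937310) (nat_lit 76) (nat_lit 102440468984) (nat_lit 14) (nat_lit 5) (nat_lit 16) (nat_lit 5) (nat_lit 15) (nat_lit 5) (nat_lit 304) (nat_lit 275) (nat_lit 141)) (XT.lf (nat_lit 0) (nat_lit 95689963597) (nat_lit 152) (nat_lit 3260853108) (nat_lit 76) (nat_lit 185837459730) (nat_lit 14) (nat_lit 5) (nat_lit 16) (nat_lit 5) (nat_lit 15) (nat_lit 5) (nat_lit 305) (nat_lit 275) (nat_lit 140))) (XT.nd (nat_lit 78) (nat_lit 0) (nat_lit 0) (XT.lf (nat_lit 0) (nat_lit 118753082717) (nat_lit 152) (nat_lit 25663585272) (nat_lit 228) (nat_lit 159007024206) (nat_lit 12) (nat_lit 5) (nat_lit 14) (nat_lit 5) (nat_lit 15) (nat_lit 5) (nat_lit 306) (nat_lit 275) (nat_lit 139)) (XT.lf (nat_lit 0) (nat_lit 197933969152) (nat_lit 228) (nat_lit 73739077810) (nat_lit 76) (nat_lit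 51832272405) (nat_lit 12) (nat_lit 5) (nat_lit 15) (nat_lit 5) (nat_lit 13) (nat_lit 4) (nat_lit 307) (nat_lit 275) (nat_lit 138)))))) (XT.nd (nat_lit 35334) (nat_lit 0) (nat_lit 2356) (XT.nd (nat_lit 35022) (nat_lit 0) (nat_lit 3800) (XT.nd (nat_lit 156) (nat_lit 228) (nat_lit 0) (XT.nd (nat_lit 78) (nat_lit 0) (nat_lit 0) (XT.lf (nat_lit 0) (nat_lit 47142592516) (nat_lit 76) (nat_lit 209758501820) (nat_lit 152) (nat_lit 88233961466) (nat_lit 11) (nat_lit 5) (nat_lit 12) (nat_lit 5) (nat_lit 13) (nat_lit 4) (nat_lit 308) (nat_lit 275) (nat_lit 137)) (XT.lf (nat_lit 0) (nat_lit 180327510834) (nat_lit 76) (nat_lit 141542259240) (nat_lit 152) (nat_lit 46561193056) (nat_lit 11) (nat_lit 5) (nat_lit 12) (nat_lit 5) (nat_lit 13) (nat_lit 4) (nat_lit 309) (nat_lit 275) (nat_lit 136))) (XT.nd (nat_lit 78) (nat_lit 228) (nat_lit 0) (XT.lf (nat_lit 0) (nat_lit 324166774176) (nat_lit 76) (nat_lit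 67868881785) (nat_lit 152) (nat_lit 1554902209) (nat_lit 11) (nat_lit 5) (nat_lit 12) (nat_lit 5) (nat_lit 13) (nat_lit 4) (nat_lit 310) (nat_lit 275) (nat_lit 135)) (XT.lf (nat_lit 0) (nat_lit 46691423337) (nat_lit 228) (nat_lit 360955976263) (nat_lit 76) (nat_lit 13021517148) (nat_lit 8) (nat_lit 5) (nat_lit 11) (nat_lit 5) (nat_lit 9) (nat_lit 4) (nat_lit 311) (nat_lit 275) (nat_lit 134)))) (XT.nd (nat_lit 156) (nat_lit 0) (nat_lit 76) (XT.nd (nat_lit 78) (nat_lit 0) (nat_lit 0) (XT.lf (nat_lit 0) (nat_lit 27248885776) (nat_lit 684) (nat_lit 2875629977) (nat_lit 684) (nat_lit 2875629977) (nat_lit 58) (nat_lit 3) (nat_lit 67) (nat_lit 3) (nat_lit 67) (nat_lit 5) (nat_lit 276) (nat_lit 276) (nat_lit 168)) (XT.lf (nat_lit 76) (nat_lit 36202418306) (nat_lit 0) (nat_lit 21060427696) (nat_lit 684) (nat_lit 11348076036) (nat_lit 59) (nat_lit 5) (nat_lit 58) (nat_lit 3) (nat_lit 67) (nat_lit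 5) (nat_lit 277) (nat_lit 276) (nat_lit 167))) (XT.nd (nat_lit 78) (nat_lit 0) (nat_lit 0) (XT.lf (nat_lit 76) (nat_lit 10286776360) (nat_lit 0) (nat_lit 50554762420) (nat_lit 684) (nat_lit 10559255960) (nat_lit 60) (nat_lit 5) (nat_lit 59) (nat_lit 5) (nat_lit 68) (nat_lit 5) (nat_lit 278) (nat_lit 276) (nat_lit 166)) (XT.lf (nat_lit 76) (nat_lit 57186954058) (nat_lit 0) (nat_lit 8431629790) (nat_lit 684) (nat_lit 8749681953) (nat_lit 60) (nat_lit 5) (nat_lit 59) (nat_lit 5) (nat_lit 68) (nat_lit 5) (nat_lit 279) (nat_lit 276) (nat_lit 165))))) (XT.nd (nat_lit 312) (nat_lit 988) (nat_lit 0) (XT.nd (nat_lit 156) (nat_lit 608) (nat_lit 0) (XT.nd (nat_lit 78) (nat_lit 0) (nat_lit 76) (XT.lf (nat_lit 76) (nat_lit 30667755511) (nat_lit 0) (nat_lit 41165758826) (nat_lit 684) (nat_lit 5686844661) (nat_lit 61) (nat_lit 5) (nat_lit 60) (nat_lit 5) (nat_lit 69) (nat_lit 5) (nat_lit 280) (nat_lit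 276) (nat_lit 164)) (XT.lf (nat_lit 76) (nat_lit 1908873950) (nat_lit 0) (nat_lit 77163876935) (nat_lit 684) (nat_lit 1825522944) (nat_lit 62) (nat_lit 5) (nat_lit 61) (nat_lit 5) (nat_lit 70) (nat_lit 5) (nat_lit 281) (nat_lit 276) (nat_lit 163))) (XT.nd (nat_lit 78) (nat_lit 0) (nat_lit 76) (XT.lf (nat_lit 0) (nat_lit 3791775402) (nat_lit 684) (nat_lit 29006606648) (nat_lit 760) (nat_lit 51670112230) (nat_lit 52) (nat_lit 5) (nat_lit 61) (nat_lit 5) (nat_lit 62) (nat_lit 5) (nat_lit 282) (nat_lit 276) (nat_lit 162)) (XT.lf (nat_lit 0) (nat_lit 10439350945) (nat_lit 684) (nat_lit 62778261657) (nat_lit 76) (nat_lit 15072988867) (nat_lit 53) (nat_lit 5) (nat_lit 62) (nat_lit 5) (nat_lit 54) (nat_lit 5) (nat_lit 283) (nat_lit 276) (nat_lit 161)))) (XT.nd (nat_lit 156) (nat_lit 608) (nat_lit 0) (XT.nd (nat_lit 78) (nat_lit 456) (nat_lit 0) (XT.lf (nat_lit 0) (nat_lit 18684003104) (nat_lit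 684) (nat_lit 7527091340) (nat_lit 76) (nat_lit 66154126640) (nat_lit 53) (nat_lit 5) (nat_lit 62) (nat_lit 5) (nat_lit 54) (nat_lit 5) (nat_lit 284) (nat_lit 276) (nat_lit 160)) (XT.lf (nat_lit 0) (nat_lit 28825190367) (nat_lit 532) (nat_lit 43253831579) (nat_lit 76) (nat_lit 24624947008) (nat_lit 47) (nat_lit 5) (nat_lit 54) (nat_lit 5) (nat_lit 48) (nat_lit 5) (nat_lit 285) (nat_lit 276) (nat_lit 159))) (XT.nd (nat_lit 78) (nat_lit 304) (nat_lit 0) (XT.lf (nat_lit 0) (nat_lit 18332610675) (nat_lit 304) (nat_lit 22305364489) (nat_lit 380) (nat_lit 60708832689) (nat_lit 43) (nat_lit 5) (nat_lit 47) (nat_lit 5) (nat_lit 48) (nat_lit 5) (nat_lit 286) (nat_lit 276) (nat_lit 158)) (XT.nd (nat_lit 78) (nat_lit 304) (nat_lit 0) (XT.lf (nat_lit 0) (nat_lit 54651528942) (nat_lit 380) (nat_lit 20437346852) (nat_lit 76) (nat_lit 31209416619) (nat_lit 43) (nat_lit 5) (nat_lit 48) (nat_lit 5)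 (nat_lit 44) (nat_lit 5) (nat_lit 287) (nat_lit 276) (nat_lit 157)) (XT.lf (nat_lit 0) (nat_lit 48314886018) (nat_lit 304) (nat_lit 22600716444) (nat_lit 380) (nat_lit 40673826928) (nat_lit 39) (nat_lit 5) (nat_lit 43) (nat_lit 5) (nat_lit 44) (nat_lit 5) (nat_lit 288) (nat_lit 276) (nat_lit 156))))))))
noncomputable def xc114 : XT := (XT.nd (nat_lit 1248) (nat_lit 228) (nat_lit 0) (XT.nd (nat_lit 624) (nat_lit 760) (nat_lit 0) (XT.nd (nat_lit 312) (nat_lit 608) (nat_lit 0) (XT.nd (nat_lit 156) (nat_lit 304) (nat_lit 0) (XT.nd (nat_lit 78) (nat_lit 0) (nat_lit 0) (XT.lf (nat_lit 0) (nat_lit 5652917265) (nat_lit 228) (nat_lit 83809223511) (nat_lit 304) (nat_lit 27792654626) (nat_lit 36) (nat_lit 5) (nat_lit 39) (nat_lit 5) (nat_lit 40) (nat_lit 5) (nat_lit 289) (nat_lit 276) (nat_lit 155)) (XT.lf (nat_lit 0) (nat_lit 81959402592) (nat_lit 228) (nat_lit 29009252347) (nat_lit 304) (nat_lit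 12330927766) (nat_lit 36) (nat_lit 5) (nat_lit 39) (nat_lit 5) (nat_lit 40) (nat_lit 5) (nat_lit 290) (nat_lit 276) (nat_lit 154))) (XT.nd (nat_lit 78) (nat_lit 0) (nat_lit 0) (XT.lf (nat_lit 0) (nat_lit 5264463277) (nat_lit 304) (nat_lit 94664981418) (nat_lit 76) (nat_lit 29843276723) (nat_lit 32) (nat_lit 5) (nat_lit 36) (nat_lit 5) (nat_lit 33) (nat_lit 5) (nat_lit 291) (nat_lit 276) (nat_lit 153)) (XT.lf (nat_lit 0) (nat_lit 25061522096) (nat_lit 304) (nat_lit 18289797509) (nat_lit 76) (nat_lit 93340985494) (nat_lit 32) (nat_lit 5) (nat_lit 36) (nat_lit 5) (nat_lit 33) (nat_lit 5) (nat_lit 292) (nat_lit 276) (nat_lit 152)))) (XT.nd (nat_lit 156) (nat_lit 152) (nat_lit 0) (XT.nd (nat_lit 78) (nat_lit 228) (nat_lit 0) (XT.lf (nat_lit 0) (nat_lit 47771149508) (nat_lit 304) (nat_lit 78090794308) (nat_lit 76) (nat_lit 18237074982) (nat_lit 29) (nat_lit 5) (nat_lit 33) (nat_lit 5) (nat_lit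 30) (nat_lit 5) (nat_lit 293) (nat_lit 276) (nat_lit 151)) (XT.lf (nat_lit 0) (nat_lit 5045264957) (nat_lit 228) (nat_lit 68385155899) (nat_lit 304) (nat_lit 78611208303) (nat_lit 26) (nat_lit 5) (nat_lit 29) (nat_lit 5) (nat_lit 30) (nat_lit 5) (nat_lit 294) (nat_lit 276) (nat_lit 150))) (XT.nd (nat_lit 78) (nat_lit 152) (nat_lit 0) (XT.lf (nat_lit 0) (nat_lit 97619963376) (nat_lit 228) (nat_lit 4882101615) (nat_lit 304) (nat_lit 58049604821) (nat_lit 26) (nat_lit 5) (nat_lit 29) (nat_lit 5) (nat_lit 30) (nat_lit 5) (nat_lit 295) (nat_lit 276) (nat_lit 149)) (XT.lf (nat_lit 0) (nat_lit 27750962904) (nat_lit 152) (nat_lit 107575688347) (nat_lit 228) (nat_lit 34344504725) (nat_lit 24) (nat_lit 5) (nat_lit 26) (nat_lit 5) (nat_lit 27) (nat_lit 5) (nat_lit 296) (nat_lit 276) (nat_lit 148))))) (XT.nd (nat_lit 312) (nat_lit 304) (nat_lit 0) (XT.nd (nat_lit 156) (nat_lit 152) (nat_lit 0)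 (XT.nd (nat_lit 78) (nat_lit 304) (nat_lit 0) (XT.lf (nat_lit 0) (nat_lit 127849697951) (nat_lit 152) (nat_lit 44104149027) (nat_lit 228) (nat_lit 7507524512) (nat_lit 24) (nat_lit 5) (nat_lit 26) (nat_lit 5) (nat_lit 27) (nat_lit 5) (nat_lit 297) (nat_lit 276) (nat_lit 147)) (XT.lf (nat_lit 0) (nat_lit 21922939646) (nat_lit 304) (nat_lit 143287766227) (nat_lit 76) (nat_lit 24750640055) (nat_lit 20) (nat_lit 5) (nat_lit 24) (nat_lit 5) (nat_lit 21) (nat_lit 5) (nat_lit 298) (nat_lit 276) (nat_lit 146))) (XT.nd (nat_lit 78) (nat_lit 152) (nat_lit 0) (XT.lf (nat_lit 0) (nat_lit 55105265230) (nat_lit 304) (nat_lit 47477414004) (nat_lit 76) (nat_lit 98629464920) (nat_lit 20) (nat_lit 5) (nat_lit 24) (nat_lit 5) (nat_lit 21) (nat_lit 5) (nat_lit 299) (nat_lit 276) (nat_lit 145)) (XT.lf (nat_lit 0) (nat_lit 57848605536) (nat_lit 152) (nat_lit 33996266852) (nat_lit 228) (nat_lit 121473001028)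 (nat_lit 18) (nat_lit 5) (nat_lit 20) (nat_lit 5) (nat_lit 21) (nat_lit 5) (nat_lit 300) (nat_lit 276) (nat_lit 144)))) (XT.nd (nat_lit 156) (nat_lit 152) (nat_lit 0) (XT.nd (nat_lit 78) (nat_lit 152) (nat_lit 0) (XT.lf (nat_lit 0) (nat_lit 132989486426) (nat_lit 228) (nat_lit 53694542729) (nat_lit 76) (nat_lit 39634741756) (nat_lit 18) (nat_lit 5) (nat_lit 21) (nat_lit 5) (nat_lit 19) (nat_lit 5) (nat_lit 301) (nat_lit 276) (nat_lit 143)) (XT.lf (nat_lit 0) (nat_lit 57488285251) (nat_lit 152) (nat_lit 121407750243) (nat_lit 228) (nat_lit 61390188092) (nat_lit 16) (nat_lit 5) (nat_lit 18) (nat_lit 5) (nat_lit 19) (nat_lit 5) (nat_lit 302) (nat_lit 276) (nat_lit 142))) (XT.nd (nat_lit 78) (nat_lit 152) (nat_lit 0) (XT.lf (nat_lit 0) (nat_lit 179482561052) (nat_lit 152) (nat_lit 49927467564) (nat_lit 228) (nat_lit 25914299403) (nat_lit 16) (nat_lit 5) (nat_lit 18) (nat_lit 5) (nat_lit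 19) (nat_lit 5) (nat_lit 303) (nat_lit 276) (nat_lit 141)) (XT.lf (nat_lit 0) (nat_lit 13078523030) (nat_lit 152) (nat_lit 231181354102) (nat_lit 76) (nat_lit 27242138910) (nat_lit 14) (nat_lit 5) (nat_lit 16) (nat_lit 5) (nat_lit 15) (nat_lit 5) (nat_lit 304) (nat_lit 276) (nat_lit 140)))))) (XT.nd (nat_lit 35412) (nat_lit 0) (nat_lit 2736) (XT.nd (nat_lit 312) (nat_lit 76) (nat_lit 0) (XT.nd (nat_lit 156) (nat_lit 152) (nat_lit 0) (XT.nd (nat_lit 78) (nat_lit 0) (nat_lit 0) (XT.lf (nat_lit 0) (nat_lit 56479274213) (nat_lit 152) (nat_lit 121724536913) (nat_lit 76) (nat_lit 110639047329) (nat_lit 14) (nat_lit 5) (nat_lit 16) (nat_lit 5) (nat_lit 15) (nat_lit 5) (nat_lit 305) (nat_lit 276) (nat_lit 139)) (XT.lf (nat_lit 0) (nat_lit 103351747853) (nat_lit 152) (nat_lit 3511688596) (nat_lit 76) (nat_lit 200707549867) (nat_lit 14) (nat_lit 5) (nat_lit 16) (nat_lit 5) (nat_lit 15) (nat_lit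 5) (nat_lit 306) (nat_lit 276) (nat_lit 138))) (XT.nd (nat_lit 78) (nat_lit 0) (nat_lit 0) (XT.lf (nat_lit 0) (nat_lit 128262926083) (nat_lit 152) (nat_lit 27713324406) (nat_lit 228) (nat_lit 171721003447) (nat_lit 12) (nat_lit 5) (nat_lit 14) (nat_lit 5) (nat_lit 15) (nat_lit 5) (nat_lit 307) (nat_lit 276) (nat_lit 137)) (XT.lf (nat_lit 0) (nat_lit 213774521247) (nat_lit 228) (nat_lit 79629057630) (nat_lit 76) (nat_lit 55981854698) (nat_lit 12) (nat_lit 5) (nat_lit 15) (nat_lit 5) (nat_lit 13) (nat_lit 4) (nat_lit 308) (nat_lit 276) (nat_lit 136)))) (XT.nd (nat_lit 156) (nat_lit 0) (nat_lit 0) (XT.nd (nat_lit 78) (nat_lit 0) (nat_lit 0) (XT.lf (nat_lit 0) (nat_lit 50922748830) (nat_lit 76) (nat_lit 226535972020) (nat_lit 152) (nat_lit 95286844306) (nat_lit 11) (nat_lit 5) (nat_lit 12) (nat_lit 5) (nat_lit 13) (nat_lit 4) (nat_lit 309) (nat_lit 276) (nat_lit 135)) (XT.lf (nat_lit 0)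 (nat_lit 194761812546) (nat_lit 76) (nat_lit 152862667808) (nat_lit 152) (nat_lit 50280686577) (nat_lit 11) (nat_lit 5) (nat_lit 12) (nat_lit 5) (nat_lit 13) (nat_lit 4) (nat_lit 310) (nat_lit 276) (nat_lit 134))) (XT.nd (nat_lit 34866) (nat_lit 0) (nat_lit 3572) (XT.lf (nat_lit 0) (nat_lit 350107616893) (nat_lit 76) (nat_lit 73295640317) (nat_lit 152) (nat_lit 1674292605) (nat_lit 11) (nat_lit 5) (nat_lit 12) (nat_lit 5) (nat_lit 13) (nat_lit 4) (nat_lit 311) (nat_lit 276) (nat_lit 133)) (XT.lf (nat_lit 0) (nat_lit 29448259404) (nat_lit 684) (nat_lit 3095402450) (nat_lit 684) (nat_lit 3095402450) (nat_lit 58) (nat_lit 3) (nat_lit 67) (nat_lit 3) (nat_lit 67) (nat_lit 5) (nat_lit 277) (nat_lit 277) (nat_lit 166))))) (XT.nd (nat_lit 312) (nat_lit 836) (nat_lit 0) (XT.nd (nat_lit 156) (nat_lit 0) (nat_lit 76) (XT.nd (nat_lit 78) (nat_lit 0) (nat_lit 76) (XT.lf (nat_lit 76) (nat_lit 39118274288)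 (nat_lit 0) (nat_lit 22761948541) (nat_lit 684) (nat_lit 12217533396) (nat_lit 59) (nat_lit 5) (nat_lit 58) (nat_lit 3) (nat_lit 67) (nat_lit 5) (nat_lit 278) (nat_lit 277) (nat_lit 165)) (XT.lf (nat_lit 76) (nat_lit 11130726620) (nat_lit 0) (nat_lit 54611878650) (nat_lit 684) (nat_lit 11368360215) (nat_lit 60) (nat_lit 5) (nat_lit 59) (nat_lit 5) (nat_lit 68) (nat_lit 5) (nat_lit 279) (nat_lit 277) (nat_lit 164))) (XT.nd (nat_lit 78) (nat_lit 0) (nat_lit 76) (XT.lf (nat_lit 76) (nat_lit 61781362374) (nat_lit 0) (nat_lit 9117952058) (nat_lit 684) (nat_lit 9416660008) (nat_lit 60) (nat_lit 5) (nat_lit 59) (nat_lit 5) (nat_lit 68) (nat_lit 5) (nat_lit 280) (nat_lit 277) (nat_lit 163)) (XT.lf (nat_lit 76) (nat_lit 33141635145) (nat_lit 0) (nat_lit 44467638812) (nat_lit 684) (nat_lit 6111083511) (nat_lit 61) (nat_lit 5) (nat_lit 60) (nat_lit 5) (nat_lit 69) (nat_lit 5) (nat_lit 281) (nat_lit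 277) (nat_lit 162)))) (XT.nd (nat_lit 156) (nat_lit 380) (nat_lit 0) (XT.nd (nat_lit 78) (nat_lit 684) (nat_lit 0) (XT.lf (nat_lit 76) (nat_lit 2082842052) (nat_lit 0) (nat_lit 83342860713) (nat_lit 684) (nat_lit 1942913115) (nat_lit 62) (nat_lit 5) (nat_lit 61) (nat_lit 5) (nat_lit 70) (nat_lit 5) (nat_lit 282) (nat_lit 277) (nat_lit 161)) (XT.lf (nat_lit 0) (nat_lit 4120797650) (nat_lit 684) (nat_lit 31306458598) (nat_lit 760) (nat_lit 55797289592) (nat_lit 52) (nat_lit 5) (nat_lit 61) (nat_lit 5) (nat_lit 62) (nat_lit 5) (nat_lit 283) (nat_lit 277) (nat_lit 160))) (XT.nd (nat_lit 78) (nat_lit 456) (nat_lit 0) (XT.lf (nat_lit 0) (nat_lit 11298518516) (nat_lit 684) (nat_lit 67779339668) (nat_lit 76) (nat_lit 16274657120) (nat_lit 53) (nat_lit 5) (nat_lit 62) (nat_lit 5) (nat_lit 54) (nat_lit 5) (nat_lit 284) (nat_lit 277) (nat_lit 159)) (XT.nd (nat_lit 78) (nat_lit 456) (nat_lit 0)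 (XT.lf (nat_lit 0) (nat_lit 20200963625) (nat_lit 684) (nat_lit 8109644831) (nat_lit 76) (nat_lit 71442594867) (nat_lit 53) (nat_lit 5) (nat_lit 62) (nat_lit 5) (nat_lit 54) (nat_lit 5) (nat_lit 285) (nat_lit 277) (nat_lit 158)) (XT.lf (nat_lit 0) (nat_lit 31152058194) (nat_lit 532) (nat_lit 46694184937) (nat_lit 76) (nat_lit 26592886420) (nat_lit 47) (nat_lit 5) (nat_lit 54) (nat_lit 5) (nat_lit 48) (nat_lit 5) (nat_lit 286) (nat_lit 277) (nat_lit 157))))))))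
noncomputable def xc115 : XT := (XT.nd (nat_lit 1326) (nat_lit 380) (nat_lit 0) (XT.nd (nat_lit 624) (nat_lit 988) (nat_lit 0) (XT.nd (nat_lit 312) (nat_lit 532) (nat_lit 0) (XT.nd (nat_lit 156) (nat_lit 532) (nat_lit 0) (XT.nd (nat_lit 78) (nat_lit 0) (nat_lit 0) (XT.lf (nat_lit 0) (nat_lit 19818305558) (nat_lit 304) (nat_lit 24090313567) (nat_lit 380) (nat_lit 65544847236) (nat_lit 43) (nat_lit 5) (nat_lit 47) (nat_lit 5) (nat_lit 48) (nat_lit 5) (nat_lit 287) (nat_lit 277) (nat_lit 156)) (XT.lf (nat_lit 0) (nat_lit 59041797395) (nat_lit 380) (nat_lit 22053649168) (nat_lit 76) (nat_lit 33705703951) (nat_lit 43) (nat_lit 5) (nat_lit 48) (nat_lit 5) (nat_lit 44) (nat_lit 5) (nat_lit 288) (nat_lit 277) (nat_lit 155))) (XT.nd (nat_lit 78) (nat_lit 228) (nat_lit 0) (XT.lf (nat_lit 0) (nat_lit 52197950286) (nat_lit 304) (nat_lit 24407981407) (nat_lit 380) (nat_lit 43909707270) (nat_lit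 39) (nat_lit 5) (nat_lit 43) (nat_lit 5) (nat_lit 44) (nat_lit 5) (nat_lit 289) (nat_lit 277) (nat_lit 154)) (XT.lf (nat_lit 0) (nat_lit 6123139164) (nat_lit 228) (nat_lit 90512080952) (nat_lit 304) (nat_lit 29999069508) (nat_lit 36) (nat_lit 5) (nat_lit 39) (nat_lit 5) (nat_lit 40) (nat_lit 5) (nat_lit 290) (nat_lit 277) (nat_lit 153)))) (XT.nd (nat_lit 156) (nat_lit 228) (nat_lit 0) (XT.nd (nat_lit 78) (nat_lit 304) (nat_lit 0) (XT.lf (nat_lit 0) (nat_lit 88532810834) (nat_lit 228) (nat_lit 31328251387) (nat_lit 304) (nat_lit 13301663572) (nat_lit 36) (nat_lit 5) (nat_lit 39) (nat_lit 5) (nat_lit 40) (nat_lit 5) (nat_lit 291) (nat_lit 277) (nat_lit 152)) (XT.lf (nat_lit 0) (nat_lit 5700017026) (nat_lit 304) (nat_lit 102220941400) (nat_lit 76) (nat_lit 32232792279) (nat_lit 32) (nat_lit 5) (nat_lit 36) (nat_lit 5) (nat_lit 33) (nat_lit 5) (nat_lit 292) (nat_lit 277) (nat_lit 151)))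 (XT.nd (nat_lit 78) (nat_lit 228) (nat_lit 0) (XT.lf (nat_lit 0) (nat_lit 27079774129) (nat_lit 304) (nat_lit 19737019707) (nat_lit 76) (nat_lit 100810165647) (nat_lit 32) (nat_lit 5) (nat_lit 36) (nat_lit 5) (nat_lit 33) (nat_lit 5) (nat_lit 293) (nat_lit 277) (nat_lit 150)) (XT.lf (nat_lit 0) (nat_lit 51605464629) (nat_lit 304) (nat_lit 84322144001) (nat_lit 76) (nat_lit 19698641706) (nat_lit 29) (nat_lit 5) (nat_lit 33) (nat_lit 5) (nat_lit 30) (nat_lit 5) (nat_lit 294) (nat_lit 277) (nat_lit 149))))) (XT.nd (nat_lit 312) (nat_lit 608) (nat_lit 0) (XT.nd (nat_lit 156) (nat_lit 152) (nat_lit 0) (XT.nd (nat_lit 78) (nat_lit 0) (nat_lit 0) (XT.lf (nat_lit 0) (nat_lit 5464108409) (nat_lit 228) (nat_lit 73852671890) (nat_lit 304) (nat_lit 84887528454) (nat_lit 26) (nat_lit 5) (nat_lit 29) (nat_lit 5) (nat_lit 30) (nat_lit 5) (nat_lit 295) (nat_lit 277) (nat_lit 148)) (XT.lf (nat_lit 0)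 (nat_lit 105443655126) (nat_lit 228) (nat_lit 5269617447) (nat_lit 304) (nat_lit 62681928287) (nat_lit 26) (nat_lit 5) (nat_lit 29) (nat_lit 5) (nat_lit 30) (nat_lit 5) (nat_lit 296) (nat_lit 277) (nat_lit 147))) (XT.nd (nat_lit 78) (nat_lit 0) (nat_lit 0) (XT.lf (nat_lit 0) (nat_lit 29985052847) (nat_lit 152) (nat_lit 116178217839) (nat_lit 228) (nat_lit 37081006719) (nat_lit 24) (nat_lit 5) (nat_lit 26) (nat_lit 5) (nat_lit 27) (nat_lit 5) (nat_lit 297) (nat_lit 277) (nat_lit 146)) (XT.lf (nat_lit 0) (nat_lit 138090648704) (nat_lit 152) (nat_lit 47629216527) (nat_lit 228) (nat_lit 8097887228) (nat_lit 24) (nat_lit 5) (nat_lit 26) (nat_lit 5) (nat_lit 27) (nat_lit 5) (nat_lit 298) (nat_lit 277) (nat_lit 145)))) (XT.nd (nat_lit 156) (nat_lit 304) (nat_lit 0) (XT.nd (nat_lit 78) (nat_lit 0) (nat_lit 0) (XT.lf (nat_lit 0) (nat_lit 23686204321) (nat_lit 304) (nat_lit 154737569565) (nat_lit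 76) (nat_lit 26733970125) (nat_lit 20) (nat_lit 5) (nat_lit 24) (nat_lit 5) (nat_lit 21) (nat_lit 5) (nat_lit 299) (nat_lit 277) (nat_lit 144)) (XT.lf (nat_lit 0) (nat_lit 59522417470) (nat_lit 304) (nat_lit 51263368271) (nat_lit 76) (nat_lit 106522858101) (nat_lit 20) (nat_lit 5) (nat_lit 24) (nat_lit 5) (nat_lit 21) (nat_lit 5) (nat_lit 300) (nat_lit 277) (nat_lit 143))) (XT.nd (nat_lit 78) (nat_lit 152) (nat_lit 0) (XT.lf (nat_lit 0) (nat_lit 62488200946) (nat_lit 152) (nat_lit 36712528290) (nat_lit 228) (nat_lit 131182128020) (nat_lit 18) (nat_lit 5) (nat_lit 20) (nat_lit 5) (nat_lit 21) (nat_lit 5) (nat_lit 301) (nat_lit 277) (nat_lit 142)) (XT.nd (nat_lit 78) (nat_lit 152) (nat_lit 0) (XT.lf (nat_lit 0) (nat_lit 143636349751) (nat_lit 228) (nat_lit 57978903099) (nat_lit 76) (nat_lit 42808604255) (nat_lit 18) (nat_lit 5) (nat_lit 21) (nat_lit 5) (nat_lit 19) (nat_lit 5) (nat_lit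 302) (nat_lit 277) (nat_lit 141)) (XT.lf (nat_lit 0) (nat_lit 62098064249) (nat_lit 152) (nat_lit 131116955108) (nat_lit 228) (nat_lit 66293709047) (nat_lit 16) (nat_lit 5) (nat_lit 18) (nat_lit 5) (nat_lit 19) (nat_lit 5) (nat_lit 303) (nat_lit 277) (nat_lit 140))))))) (XT.nd (nat_lit 35490) (nat_lit 0) (nat_lit 3116) (XT.nd (nat_lit 312) (nat_lit 228) (nat_lit 0) (XT.nd (nat_lit 156) (nat_lit 0) (nat_lit 0) (XT.nd (nat_lit 78) (nat_lit 152) (nat_lit 0) (XT.lf (nat_lit 0) (nat_lit 193851088323) (nat_lit 152) (nat_lit 53918502790) (nat_lit 228) (nat_lit 27980319196) (nat_lit 16) (nat_lit 5) (nat_lit 18) (nat_lit 5) (nat_lit 19) (nat_lit 5) (nat_lit 304) (nat_lit 277) (nat_lit 139)) (XT.lf (nat_lit 0) (nat_lit 14131392040) (nat_lit 152) (nat_lit 249665829670) (nat_lit 76) (nat_lit 29424603381) (nat_lit 14) (nat_lit 5) (nat_lit 16) (nat_lit 5) (nat_lit 15) (nat_lit 5) (nat_lit 305) (nat_lit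 277) (nat_lit 138))) (XT.nd (nat_lit 78) (nat_lit 0) (nat_lit 0) (XT.lf (nat_lit 0) (nat_lit 61003715379) (nat_lit 152) (nat_lit 131453210273) (nat_lit 76) (nat_lit 119493035337) (nat_lit 14) (nat_lit 5) (nat_lit 16) (nat_lit 5) (nat_lit 15) (nat_lit 5) (nat_lit 306) (nat_lit 277) (nat_lit 137)) (XT.lf (nat_lit 0) (nat_lit 111625535115) (nat_lit 152) (nat_lit 3784022209) (nat_lit 76) (nat_lit 216766805913) (nat_lit 14) (nat_lit 5) (nat_lit 16) (nat_lit 5) (nat_lit 15) (nat_lit 5) (nat_lit 307) (nat_lit 277) (nat_lit 136)))) (XT.nd (nat_lit 156) (nat_lit 76) (nat_lit 0) (XT.nd (nat_lit 78) (nat_lit 0) (nat_lit 0) (XT.lf (nat_lit 0) (nat_lit 138532187835) (nat_lit 152) (nat_lit 29927520256) (nat_lit 228) (nat_lit 185453040121) (nat_lit 12) (nat_lit 5) (nat_lit 14) (nat_lit 5) (nat_lit 15) (nat_lit 5) (nat_lit 308) (nat_lit 277) (nat_lit 135)) (XT.lf (nat_lit 0) (nat_lit 230881485145)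 (nat_lit 228) (nat_lit 85991540672) (nat_lit 76) (nat_lit 60462975519) (nat_lit 12) (nat_lit 5) (nat_lit 15) (nat_lit 5) (nat_lit 13) (nat_lit 4) (nat_lit 309) (nat_lit 277) (nat_lit 134))) (XT.nd (nat_lit 78) (nat_lit 0) (nat_lit 0) (XT.lf (nat_lit 0) (nat_lit 55004069520) (nat_lit 76) (nat_lit 244656097772) (nat_lit 152) (nat_lit 102904790070) (nat_lit 11) (nat_lit 5) (nat_lit 12) (nat_lit 5) (nat_lit 13) (nat_lit 4) (nat_lit 310) (nat_lit 277) (nat_lit 133)) (XT.lf (nat_lit 0) (nat_lit 210349702719) (nat_lit 76) (nat_lit 165089133074) (nat_lit 152) (nat_lit 54298510225) (nat_lit 11) (nat_lit 5) (nat_lit 12) (nat_lit 5) (nat_lit 13) (nat_lit 4) (nat_lit 311) (nat_lit 277) (nat_lit 132))))) (XT.nd (nat_lit 312) (nat_lit 456) (nat_lit 0) (XT.nd (nat_lit 156) (nat_lit 0) (nat_lit 76) (XT.nd (nat_lit 78) (nat_lit 0) (nat_lit 0) (XT.lf (nat_lit 0) (nat_lit 31820806342) (nat_lit 684) (nat_lit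 3334222982) (nat_lit 684) (nat_lit 3334222982) (nat_lit 58) (nat_lit 3) (nat_lit 67) (nat_lit 3) (nat_lit 67) (nat_lit 5) (nat_lit 278) (nat_lit 278) (nat_lit 164)) (XT.lf (nat_lit 76) (nat_lit 42264593670) (nat_lit 0) (nat_lit 24597210520) (nat_lit 684) (nat_lit 13162023924) (nat_lit 59) (nat_lit 5) (nat_lit 58) (nat_lit 3) (nat_lit 67) (nat_lit 5) (nat_lit 279) (nat_lit 278) (nat_lit 163))) (XT.nd (nat_lit 78) (nat_lit 0) (nat_lit 0) (XT.lf (nat_lit 76) (nat_lit 12039195853) (nat_lit 0) (nat_lit 58991747354) (nat_lit 684) (nat_lit 12247276716) (nat_lit 60) (nat_lit 5) (nat_lit 59) (nat_lit 5) (nat_lit 68) (nat_lit 5) (nat_lit 280) (nat_lit 278) (nat_lit 162)) (XT.lf (nat_lit 76) (nat_lit 66740548312) (nat_lit 0) (nat_lit 9857497863) (nat_lit 684) (nat_lit 10141703626) (nat_lit 60) (nat_lit 5) (nat_lit 59) (nat_lit 5) (nat_lit 68) (nat_lit 5) (nat_lit 281) (nat_lit 278) (nat_lit 161))))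 (XT.nd (nat_lit 156) (nat_lit 608) (nat_lit 0) (XT.nd (nat_lit 78) (nat_lit 0) (nat_lit 76) (XT.lf (nat_lit 76) (nat_lit 35810506418) (nat_lit 0) (nat_lit 48032439559) (nat_lit 684) (nat_lit 6573642411) (nat_lit 61) (nat_lit 5) (nat_lit 60) (nat_lit 5) (nat_lit 69) (nat_lit 5) (nat_lit 282) (nat_lit 278) (nat_lit 160)) (XT.lf (nat_lit 76) (nat_lit 2267694885) (nat_lit 0) (nat_lit 90015325255) (nat_lit 684) (nat_lit 2073781980) (nat_lit 62) (nat_lit 5) (nat_lit 61) (nat_lit 5) (nat_lit 70) (nat_lit 5) (nat_lit 283) (nat_lit 278) (nat_lit 159))) (XT.nd (nat_lit 78) (nat_lit 0) (nat_lit 76) (XT.lf (nat_lit 0) (nat_lit 4472478107) (nat_lit 684) (nat_lit 33793248449) (nat_lit 760) (nat_lit 60255558685) (nat_lit 52) (nat_lit 5) (nat_lit 61) (nat_lit 5) (nat_lit 62) (nat_lit 5) (nat_lit 284) (nat_lit 278) (nat_lit 158)) (XT.nd (nat_lit 78) (nat_lit 0) (nat_lit 0) (XT.lf (nat_lit 0) (nat_lit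 12222992843) (nat_lit 684) (nat_lit 73183525901) (nat_lit 76) (nat_lit 17573053852) (nat_lit 53) (nat_lit 5) (nat_lit 62) (nat_lit 5) (nat_lit 54) (nat_lit 5) (nat_lit 285) (nat_lit 278) (nat_lit 157)) (XT.lf (nat_lit 0) (nat_lit 21836108165) (nat_lit 684) (nat_lit 8741600732) (nat_lit 76) (nat_lit 77154691496) (nat_lit 53) (nat_lit 5) (nat_lit 62) (nat_lit 5) (nat_lit 54) (nat_lit 5) (nat_lit 286) (nat_lit 278) (nat_lit 156))))))))
noncomputable def xc116 : XT := (XT.nd (nat_lit 1248) (nat_lit 456) (nat_lit 0) (XT.nd (nat_lit 624) (nat_lit 1064) (nat_lit 0) (XT.nd (nat_lit 312) (nat_lit 532) (nat_lit 0) (XT.nd (nat_lit 156) (nat_lit 304) (nat_lit 0) (XT.nd (nat_lit 78) (nat_lit 304) (nat_lit 0) (XT.lf (nat_lit 0) (nat_lit 33662100590) (nat_lit 532) (nat_lit 50412613106) (nat_lit 76) (nat_lit 28718554346) (nat_lit 47) (nat_lit 5) (nat_lit 54) (nat_lit 5) (nat_lit 48) (nat_lit 5) (nat_lit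 287) (nat_lit 278) (nat_lit 155)) (XT.lf (nat_lit 0) (nat_lit 21420133195) (nat_lit 304) (nat_lit 26017984399) (nat_lit 380) (nat_lit 70770694902) (nat_lit 43) (nat_lit 5) (nat_lit 47) (nat_lit 5) (nat_lit 48) (nat_lit 5) (nat_lit 288) (nat_lit 278) (nat_lit 154))) (XT.nd (nat_lit 78) (nat_lit 304) (nat_lit 0) (XT.lf (nat_lit 0) (nat_lit 63780698576) (nat_lit 380) (nat_lit 23801921355) (nat_lit 76) (nat_lit 36401760748) (nat_lit 43) (nat_lit 5) (nat_lit 48) (nat_lit 5) (nat_lit 44) (nat_lit 5) (nat_lit 289) (nat_lit 278) (nat_lit 153)) (XT.lf (nat_lit 0) (nat_lit 56389109856) (nat_lit 304) (nat_lit 26359940605) (nat_lit 380) (nat_lit 47407029623) (nat_lit 39) (nat_lit 5) (nat_lit 43) (nat_lit 5) (nat_lit 44) (nat_lit 5) (nat_lit 290) (nat_lit 278) (nat_lit 152)))) (XT.nd (nat_lit 156) (nat_lit 304) (nat_lit 0) (XT.nd (nat_lit 78) (nat_lit 0) (nat_lit 0) (XT.lf (nat_lit 0) (nat_lit 6628412551)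 (nat_lit 228) (nat_lit 97751435254) (nat_lit 304) (nat_lit 32384422462) (nat_lit 36) (nat_lit 5) (nat_lit 39) (nat_lit 5) (nat_lit 40) (nat_lit 5) (nat_lit 291) (nat_lit 278) (nat_lit 151)) (XT.lf (nat_lit 0) (nat_lit 95629715566) (nat_lit 228) (nat_lit 33833018744) (nat_lit 304) (nat_lit 14352303504) (nat_lit 36) (nat_lit 5) (nat_lit 39) (nat_lit 5) (nat_lit 40) (nat_lit 5) (nat_lit 292) (nat_lit 278) (nat_lit 150))) (XT.nd (nat_lit 78) (nat_lit 0) (nat_lit 0) (XT.lf (nat_lit 0) (nat_lit 6168361226) (nat_lit 304) (nat_lit 110383837450) (nat_lit 76) (nat_lit 34813176136) (nat_lit 32) (nat_lit 5) (nat_lit 36) (nat_lit 5) (nat_lit 33) (nat_lit 5) (nat_lit 293) (nat_lit 278) (nat_lit 149)) (XT.lf (nat_lit 0) (nat_lit 29257584614) (nat_lit 304) (nat_lit 21302296782) (nat_lit 76) (nat_lit 108876608968) (nat_lit 32) (nat_lit 5) (nat_lit 36) (nat_lit 5) (nat_lit 33) (nat_lit 5) (nat_lit 294)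 (nat_lit 278) (nat_lit 148))))) (XT.nd (nat_lit 312) (nat_lit 456) (nat_lit 0) (XT.nd (nat_lit 156) (nat_lit 152) (nat_lit 0) (XT.nd (nat_lit 78) (nat_lit 228) (nat_lit 0) (XT.lf (nat_lit 0) (nat_lit 55744724125) (nat_lit 304) (nat_lit 91054271959) (nat_lit 76) (nat_lit 21276762746) (nat_lit 29) (nat_lit 5) (nat_lit 33) (nat_lit 5) (nat_lit 30) (nat_lit 5) (nat_lit 295) (nat_lit 278) (nat_lit 147)) (XT.lf (nat_lit 0) (nat_lit 5914287712) (nat_lit 228) (nat_lit 79758059440) (nat_lit 304) (nat_lit 91667748398) (nat_lit 26) (nat_lit 5) (nat_lit 29) (nat_lit 5) (nat_lit 30) (nat_lit 5) (nat_lit 296) (nat_lit 278) (nat_lit 146))) (XT.nd (nat_lit 78) (nat_lit 152) (nat_lit 0) (XT.lf (nat_lit 0) (nat_lit 113891231453) (nat_lit 228) (nat_lit 5688569989) (nat_lit 304) (nat_lit 67686498908) (nat_lit 26) (nat_lit 5) (nat_lit 29) (nat_lit 5) (nat_lit 30) (nat_lit 5) (nat_lit 297) (nat_lit 278)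 (nat_lit 145)) (XT.lf (nat_lit 0) (nat_lit 32395870886) (nat_lit 152) (nat_lit 125469452654) (nat_lit 228) (nat_lit 40038006474) (nat_lit 24) (nat_lit 5) (nat_lit 26) (nat_lit 5) (nat_lit 27) (nat_lit 5) (nat_lit 298) (nat_lit 278) (nat_lit 144)))) (XT.nd (nat_lit 156) (nat_lit 152) (nat_lit 0) (XT.nd (nat_lit 78) (nat_lit 304) (nat_lit 0) (XT.lf (nat_lit 0) (nat_lit 149149024501) (nat_lit 152) (nat_lit 51436755134) (nat_lit 228) (nat_lit 8736939705) (nat_lit 24) (nat_lit 5) (nat_lit 26) (nat_lit 5) (nat_lit 27) (nat_lit 5) (nat_lit 299) (nat_lit 278) (nat_lit 143)) (XT.lf (nat_lit 0) (nat_lit 25589184946) (nat_lit 304) (nat_lit 167105242859) (nat_lit 76) (nat_lit 28875498833) (nat_lit 20) (nat_lit 5) (nat_lit 24) (nat_lit 5) (nat_lit 21) (nat_lit 5) (nat_lit 300) (nat_lit 278) (nat_lit 142))) (XT.nd (nat_lit 78) (nat_lit 152) (nat_lit 0) (XT.lf (nat_lit 0) (nat_lit 64291696311) (nat_lit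 304) (nat_lit 55353944889) (nat_lit 76) (nat_lit 115047289618) (nat_lit 20) (nat_lit 5) (nat_lit 24) (nat_lit 5) (nat_lit 21) (nat_lit 5) (nat_lit 301) (nat_lit 278) (nat_lit 141)) (XT.lf (nat_lit 0) (nat_lit 67497293859) (nat_lit 152) (nat_lit 39646581385) (nat_lit 228) (nat_lit 141669228192) (nat_lit 18) (nat_lit 5) (nat_lit 20) (nat_lit 5) (nat_lit 21) (nat_lit 5) (nat_lit 302) (nat_lit 278) (nat_lit 140)))))) (XT.nd (nat_lit 35646) (nat_lit 0) (nat_lit 3040) (XT.nd (nat_lit 312) (nat_lit 152) (nat_lit 0) (XT.nd (nat_lit 156) (nat_lit 152) (nat_lit 0) (XT.nd (nat_lit 78) (nat_lit 152) (nat_lit 0) (XT.lf (nat_lit 0) (nat_lit 155133863022) (nat_lit 228) (nat_lit 62607610538) (nat_lit 76) (nat_lit 46235935907) (nat_lit 18) (nat_lit 5) (nat_lit 21) (nat_lit 5) (nat_lit 19) (nat_lit 5) (nat_lit 303) (nat_lit 278) (nat_lit 139)) (XT.lf (nat_lit 0) (nat_lit 67075096784) (nat_lit 152) (nat_lit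 141603383573) (nat_lit 228) (nat_lit 71590609327) (nat_lit 16) (nat_lit 5) (nat_lit 18) (nat_lit 5) (nat_lit 19) (nat_lit 5) (nat_lit 304) (nat_lit 278) (nat_lit 138))) (XT.nd (nat_lit 78) (nat_lit 152) (nat_lit 0) (XT.lf (nat_lit 0) (nat_lit 209367682236) (nat_lit 152) (nat_lit 58229271953) (nat_lit 228) (nat_lit 30212636914) (nat_lit 16) (nat_lit 5) (nat_lit 18) (nat_lit 5) (nat_lit 19) (nat_lit 5) (nat_lit 305) (nat_lit 278) (nat_lit 137)) (XT.lf (nat_lit 0) (nat_lit 15267550838) (nat_lit 152) (nat_lit 269630494568) (nat_lit 76) (nat_lit 31781223707) (nat_lit 14) (nat_lit 5) (nat_lit 16) (nat_lit 5) (nat_lit 15) (nat_lit 5) (nat_lit 306) (nat_lit 278) (nat_lit 136)))) (XT.nd (nat_lit 156) (nat_lit 152) (nat_lit 0) (XT.nd (nat_lit 78) (nat_lit 0) (nat_lit 0) (XT.lf (nat_lit 0) (nat_lit 65889241715) (nat_lit 152) (nat_lit 141961502766) (nat_lit 76) (nat_lit 129054933771) (nat_lit 14)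 (nat_lit 5) (nat_lit 16) (nat_lit 5) (nat_lit 15) (nat_lit 5) (nat_lit 307) (nat_lit 278) (nat_lit 135)) (XT.lf (nat_lit 0) (nat_lit 120560419689) (nat_lit 152) (nat_lit 4079369607) (nat_lit 76) (nat_lit 234110424097) (nat_lit 14) (nat_lit 5) (nat_lit 16) (nat_lit 5) (nat_lit 15) (nat_lit 5) (nat_lit 308) (nat_lit 278) (nat_lit 134))) (XT.nd (nat_lit 78) (nat_lit 0) (nat_lit 0) (XT.lf (nat_lit 0) (nat_lit 149621816759) (nat_lit 152) (nat_lit 32319261226) (nat_lit 228) (nat_lit 200284444853) (nat_lit 12) (nat_lit 5) (nat_lit 14) (nat_lit 5) (nat_lit 15) (nat_lit 5) (nat_lit 309) (nat_lit 278) (nat_lit 133)) (XT.lf (nat_lit 0) (nat_lit 249356292534) (nat_lit 228) (nat_lit 92864141046) (nat_lit 76) (nat_lit 65302219019) (nat_lit 12) (nat_lit 5) (nat_lit 15) (nat_lit 5) (nat_lit 13) (nat_lit 4) (nat_lit 310) (nat_lit 278) (nat_lit 132))))) (XT.nd (nat_lit 312) (nat_lit 456) (nat_lit 0)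 (XT.nd (nat_lit 156) (nat_lit 0) (nat_lit 76) (XT.nd (nat_lit 78) (nat_lit 0) (nat_lit 0) (XT.lf (nat_lit 0) (nat_lit 34380776563) (nat_lit 684) (nat_lit 3593406240) (nat_lit 684) (nat_lit 3593406240) (nat_lit 58) (nat_lit 3) (nat_lit 67) (nat_lit 3) (nat_lit 67) (nat_lit 5) (nat_lit 279) (nat_lit 279) (nat_lit 162)) (XT.lf (nat_lit 76) (nat_lit 45660213701) (nat_lit 0) (nat_lit 26577252532) (nat_lit 684) (nat_lit 14186768980) (nat_lit 59) (nat_lit 5) (nat_lit 58) (nat_lit 3) (nat_lit 67) (nat_lit 5) (nat_lit 280) (nat_lit 279) (nat_lit 161))) (XT.nd (nat_lit 78) (nat_lit 0) (nat_lit 0) (XT.lf (nat_lit 76) (nat_lit 13017773139) (nat_lit 0) (nat_lit 63720447920) (nat_lit 684) (nat_lit 13200865166) (nat_lit 60) (nat_lit 5) (nat_lit 59) (nat_lit 5) (nat_lit 68) (nat_lit 5) (nat_lit 281) (nat_lit 279) (nat_lit 160)) (XT.lf (nat_lit 76) (nat_lit 72094089971) (nat_lit 0) (nat_lit 10654765079)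 (nat_lit 684) (nat_lit 10928786502) (nat_lit 60) (nat_lit 5) (nat_lit 59) (nat_lit 5) (nat_lit 68) (nat_lit 5) (nat_lit 282) (nat_lit 279) (nat_lit 159)))) (XT.nd (nat_lit 156) (nat_lit 608) (nat_lit 0) (XT.nd (nat_lit 78) (nat_lit 0) (nat_lit 76) (XT.lf (nat_lit 76) (nat_lit 38690385050) (nat_lit 0) (nat_lit 51881370152) (nat_lit 684) (nat_lit 7076961976) (nat_lit 61) (nat_lit 5) (nat_lit 60) (nat_lit 5) (nat_lit 69) (nat_lit 5) (nat_lit 283) (nat_lit 279) (nat_lit 158)) (XT.lf (nat_lit 76) (nat_lit 2464735877) (nat_lit 0) (nat_lit 97220868564) (nat_lit 684) (nat_lit 2218624709) (nat_lit 62) (nat_lit 5) (nat_lit 61) (nat_lit 5) (nat_lit 70) (nat_lit 5) (nat_lit 284) (nat_lit 279) (nat_lit 157))) (XT.nd (nat_lit 78) (nat_lit 0) (nat_lit 76) (XT.lf (nat_lit 0) (nat_lit 4849152081) (nat_lit 684) (nat_lit 36481510420) (nat_lit 760) (nat_lit 65071275949) (nat_lit 52) (nat_lit 5) (nat_lit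 61) (nat_lit 5) (nat_lit 62) (nat_lit 5) (nat_lit 285) (nat_lit 279) (nat_lit 156)) (XT.nd (nat_lit 78) (nat_lit 0) (nat_lit 0) (XT.lf (nat_lit 0) (nat_lit 13218487317) (nat_lit 684) (nat_lit 79022637894) (nat_lit 76) (nat_lit 18975832456) (nat_lit 53) (nat_lit 5) (nat_lit 62) (nat_lit 5) (nat_lit 54) (nat_lit 5) (nat_lit 286) (nat_lit 279) (nat_lit 155)) (XT.lf (nat_lit 0) (nat_lit 23599344083) (nat_lit 684) (nat_lit 9426512051) (nat_lit 76) (nat_lit 83324228201) (nat_lit 53) (nat_lit 5) (nat_lit 62) (nat_lit 5) (nat_lit 54) (nat_lit 5) (nat_lit 287) (nat_lit 279) (nat_lit 154))))))))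
noncomputable def xc117 : XT := (XT.nd (nat_lit 1248) (nat_lit 456) (nat_lit 0) (XT.nd (nat_lit 624) (nat_lit 1064) (nat_lit 0) (XT.nd (nat_lit 312) (nat_lit 532) (nat_lit 0) (XT.nd (nat_lit 156) (nat_lit 304) (nat_lit 0) (XT.nd (nat_lit 78) (nat_lit 304) (nat_lit 0) (XT.lf (nat_lit 0) (nat_lit 36370395919) (nat_lit 532) (nat_lit 54430955981) (nat_lit 76) (nat_lit 31014527216) (nat_lit 47) (nat_lit 5) (nat_lit 54) (nat_lit 5) (nat_lit 48) (nat_lit 5) (nat_lit 288) (nat_lit 279) (nat_lit 153)) (XT.lf (nat_lit 0) (nat_lit 23147772651) (nat_lit 304) (nat_lit 28099805306) (nat_lit 380) (nat_lit 76417141206) (nat_lit 43) (nat_lit 5) (nat_lit 47) (nat_lit 5) (nat_lit 48) (nat_lit 5) (nat_lit 289) (nat_lit 279) (nat_lit 152))) (XT.nd (nat_lit 78) (nat_lit 304) (nat_lit 0) (XT.lf (nat_lit 0) (nat_lit 68896492415) (nat_lit 380) (nat_lit 25692340713) (nat_lit 76) (nat_lit 39313559086) (nat_lit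 43) (nat_lit 5) (nat_lit 48) (nat_lit 5) (nat_lit 44) (nat_lit 5) (nat_lit 290) (nat_lit 279) (nat_lit 151)) (XT.lf (nat_lit 0) (nat_lit 60913376117) (nat_lit 304) (nat_lit 28468153451) (nat_lit 380) (nat_lit 51186342482) (nat_lit 39) (nat_lit 5) (nat_lit 43) (nat_lit 5) (nat_lit 44) (nat_lit 5) (nat_lit 291) (nat_lit 279) (nat_lit 150)))) (XT.nd (nat_lit 156) (nat_lit 304) (nat_lit 0) (XT.nd (nat_lit 78) (nat_lit 0) (nat_lit 0) (XT.lf (nat_lit 0) (nat_lit 7171907652) (nat_lit 228) (nat_lit 105570167895) (nat_lit 304) (nat_lit 34962682598) (nat_lit 36) (nat_lit 5) (nat_lit 39) (nat_lit 5) (nat_lit 40) (nat_lit 5) (nat_lit 292) (nat_lit 279) (nat_lit 149)) (XT.lf (nat_lit 0) (nat_lit 103292335494) (nat_lit 228) (nat_lit 36538380448) (nat_lit 304) (nat_lit 15488919580) (nat_lit 36) (nat_lit 5) (nat_lit 39) (nat_lit 5) (nat_lit 40) (nat_lit 5) (nat_lit 293) (nat_lit 279) (nat_lit 148)))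 (XT.nd (nat_lit 78) (nat_lit 0) (nat_lit 0) (XT.lf (nat_lit 0) (nat_lit 6672412119) (nat_lit 304) (nat_lit 119201873611) (nat_lit 76) (nat_lit 37599739550) (nat_lit 32) (nat_lit 5) (nat_lit 36) (nat_lit 5) (nat_lit 33) (nat_lit 5) (nat_lit 294) (nat_lit 279) (nat_lit 147)) (XT.lf (nat_lit 0) (nat_lit 31607989526) (nat_lit 304) (nat_lit 22994748270) (nat_lit 76) (nat_lit 117588135207) (nat_lit 32) (nat_lit 5) (nat_lit 36) (nat_lit 5) (nat_lit 33) (nat_lit 5) (nat_lit 295) (nat_lit 279) (nat_lit 146))))) (XT.nd (nat_lit 312) (nat_lit 456) (nat_lit 0) (XT.nd (nat_lit 156) (nat_lit 152) (nat_lit 0) (XT.nd (nat_lit 78) (nat_lit 228) (nat_lit 0) (XT.lf (nat_lit 0) (nat_lit 60213580455) (nat_lit 304) (nat_lit 98326916559) (nat_lit 76) (nat_lit 22980815377) (nat_lit 29) (nat_lit 5) (nat_lit 33) (nat_lit 5) (nat_lit 30) (nat_lit 5) (nat_lit 296) (nat_lit 279) (nat_lit 145)) (XT.lf (nat_lit 0)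 (nat_lit 6398619541) (nat_lit 228) (nat_lit 86136281183) (nat_lit 304) (nat_lit 98991924157) (nat_lit 26) (nat_lit 5) (nat_lit 29) (nat_lit 5) (nat_lit 30) (nat_lit 5) (nat_lit 297) (nat_lit 279) (nat_lit 144))) (XT.nd (nat_lit 78) (nat_lit 152) (nat_lit 0) (XT.lf (nat_lit 0) (nat_lit 123012889981) (nat_lit 228) (nat_lit 6141412059) (nat_lit 304) (nat_lit 73092859457) (nat_lit 26) (nat_lit 5) (nat_lit 29) (nat_lit 5) (nat_lit 30) (nat_lit 5) (nat_lit 298) (nat_lit 279) (nat_lit 143)) (XT.lf (nat_lit 0) (nat_lit 34997840465) (nat_lit 152) (nat_lit 135504417463) (nat_lit 228) (nat_lit 43232918750) (nat_lit 24) (nat_lit 5) (nat_lit 26) (nat_lit 5) (nat_lit 27) (nat_lit 5) (nat_lit 299) (nat_lit 279) (nat_lit 142)))) (XT.nd (nat_lit 156) (nat_lit 152) (nat_lit 0) (XT.nd (nat_lit 78) (nat_lit 304) (nat_lit 0) (XT.lf (nat_lit 0) (nat_lit 161090483412) (nat_lit 152) (nat_lit 55549296097) (nat_lit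 228) (nat_lit 9428368731) (nat_lit 24) (nat_lit 5) (nat_lit 26) (nat_lit 5) (nat_lit 27) (nat_lit 5) (nat_lit 300) (nat_lit 279) (nat_lit 141)) (XT.lf (nat_lit 0) (nat_lit 27643250708) (nat_lit 304) (nat_lit 180463946692) (nat_lit 76) (nat_lit 31187948804) (nat_lit 20) (nat_lit 5) (nat_lit 24) (nat_lit 5) (nat_lit 21) (nat_lit 5) (nat_lit 301) (nat_lit 279) (nat_lit 140))) (XT.nd (nat_lit 78) (nat_lit 152) (nat_lit 0) (XT.lf (nat_lit 0) (nat_lit 69441449577) (nat_lit 304) (nat_lit 59773264558) (nat_lit 76) (nat_lit 124253304328) (nat_lit 20) (nat_lit 5) (nat_lit 24) (nat_lit 5) (nat_lit 21) (nat_lit 5) (nat_lit 302) (nat_lit 279) (nat_lit 139)) (XT.lf (nat_lit 0) (nat_lit 72905682338) (nat_lit 152) (nat_lit 42815779460) (nat_lit 228) (nat_lit 152996362066) (nat_lit 18) (nat_lit 5) (nat_lit 20) (nat_lit 5) (nat_lit 21) (nat_lit 5) (nat_lit 303) (nat_lit 279) (nat_lit 138)))))) (XT.nd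 (nat_lit 35724) (nat_lit 0) (nat_lit 2660) (XT.nd (nat_lit 312) (nat_lit 152) (nat_lit 0) (XT.nd (nat_lit 156) (nat_lit 152) (nat_lit 0) (XT.nd (nat_lit 78) (nat_lit 152) (nat_lit 0) (XT.lf (nat_lit 0) (nat_lit 167550235036) (nat_lit 228) (nat_lit 67607984806) (nat_lit 76) (nat_lit 49937076993) (nat_lit 18) (nat_lit 5) (nat_lit 21) (nat_lit 5) (nat_lit 19) (nat_lit 5) (nat_lit 304) (nat_lit 279) (nat_lit 137)) (XT.lf (nat_lit 0) (nat_lit 72448981238) (nat_lit 152) (nat_lit 152929144018) (nat_lit 228) (nat_lit 77312202686) (nat_lit 16) (nat_lit 5) (nat_lit 18) (nat_lit 5) (nat_lit 19) (nat_lit 5) (nat_lit 305) (nat_lit 279) (nat_lit 136))) (XT.nd (nat_lit 78) (nat_lit 152) (nat_lit 0) (XT.lf (nat_lit 0) (nat_lit 226124390066) (nat_lit 152) (nat_lit 62885289413) (nat_lit 228) (nat_lit 32624411397) (nat_lit 16) (nat_lit 5) (nat_lit 18) (nat_lit 5) (nat_lit 19) (nat_lit 5) (nat_lit 306)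 (nat_lit 279) (nat_lit 135)) (XT.lf (nat_lit 0) (nat_lit 16493796669) (nat_lit 152) (nat_lit 291193559755) (nat_lit 76) (nat_lit 34325995315) (nat_lit 14) (nat_lit 5) (nat_lit 16) (nat_lit 5) (nat_lit 15) (nat_lit 5) (nat_lit 307) (nat_lit 279) (nat_lit 134)))) (XT.nd (nat_lit 156) (nat_lit 152) (nat_lit 0) (XT.nd (nat_lit 78) (nat_lit 0) (nat_lit 0) (XT.lf (nat_lit 0) (nat_lit 71164864168) (nat_lit 152) (nat_lit 153311594859) (nat_lit 76) (nat_lit 139381433760) (nat_lit 14) (nat_lit 5) (nat_lit 16) (nat_lit 5) (nat_lit 15) (nat_lit 5) (nat_lit 308) (nat_lit 279) (nat_lit 133)) (XT.lf (nat_lit 0) (nat_lit 130209404297) (nat_lit 152) (nat_lit 4399396834) (nat_lit 76) (nat_lit 252841207365) (nat_lit 14) (nat_lit 5) (nat_lit 16) (nat_lit 5) (nat_lit 15) (nat_lit 5) (nat_lit 309) (nat_lit 279) (nat_lit 132))) (XT.nd (nat_lit 35178) (nat_lit 0) (nat_lit 3496) (XT.lf (nat_lit 0) (nat_lit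 161597609680) (nat_lit 152) (nat_lit 34902692513) (nat_lit 228) (nat_lit 216303052226) (nat_lit 12) (nat_lit 5) (nat_lit 14) (nat_lit 5) (nat_lit 15) (nat_lit 5) (nat_lit 310) (nat_lit 279) (nat_lit 131)) (XT.lf (nat_lit 0) (nat_lit 37143503532) (nat_lit 684) (nat_lit 3874401903) (nat_lit 684) (nat_lit 3874401903) (nat_lit 58) (nat_lit 3) (nat_lit 67) (nat_lit 3) (nat_lit 67) (nat_lit 5) (nat_lit 280) (nat_lit 280) (nat_lit 160))))) (XT.nd (nat_lit 312) (nat_lit 836) (nat_lit 0) (XT.nd (nat_lit 156) (nat_lit 0) (nat_lit 76) (XT.nd (nat_lit 78) (nat_lit 0) (nat_lit 76) (XT.lf (nat_lit 76) (nat_lit 49325421518) (nat_lit 0) (nat_lit 28713948142) (nat_lit 684) (nat_lit 15297519091) (nat_lit 59) (nat_lit 5) (nat_lit 58) (nat_lit 3) (nat_lit 67) (nat_lit 5) (nat_lit 281) (nat_lit 280) (nat_lit 159)) (XT.lf (nat_lit 76) (nat_lit 14072433688) (nat_lit 0) (nat_lit 68826109112) (nat_lit 684)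 (nat_lit 14234477514) (nat_lit 60) (nat_lit 5) (nat_lit 59) (nat_lit 5) (nat_lit 68) (nat_lit 5) (nat_lit 282) (nat_lit 280) (nat_lit 158))) (XT.nd (nat_lit 78) (nat_lit 0) (nat_lit 76) (XT.lf (nat_lit 76) (nat_lit 77873875223) (nat_lit 0) (nat_lit 11514577173) (nat_lit 684) (nat_lit 11782296029) (nat_lit 60) (nat_lit 5) (nat_lit 59) (nat_lit 5) (nat_lit 68) (nat_lit 5) (nat_lit 283) (nat_lit 280) (nat_lit 157)) (XT.lf (nat_lit 76) (nat_lit 41798508616) (nat_lit 0) (nat_lit 56037311372) (nat_lit 684) (nat_lit 7623767229) (nat_lit 61) (nat_lit 5) (nat_lit 60) (nat_lit 5) (nat_lit 69) (nat_lit 5) (nat_lit 284) (nat_lit 280) (nat_lit 156)))) (XT.nd (nat_lit 156) (nat_lit 380) (nat_lit 0) (XT.nd (nat_lit 78) (nat_lit 684) (nat_lit 0) (XT.lf (nat_lit 76) (nat_lit 2675311010) (nat_lit 0) (nat_lit 105002239428) (nat_lit 684) (nat_lit 2378059277) (nat_lit 62) (nat_lit 5) (nat_lit 61) (nat_lit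 5) (nat_lit 70) (nat_lit 5) (nat_lit 285) (nat_lit 280) (nat_lit 155)) (XT.lf (nat_lit 0) (nat_lit 5253267139) (nat_lit 684) (nat_lit 39387001500) (nat_lit 760) (nat_lit 70272925016) (nat_lit 52) (nat_lit 5) (nat_lit 61) (nat_lit 5) (nat_lit 62) (nat_lit 5) (nat_lit 286) (nat_lit 280) (nat_lit 154))) (XT.nd (nat_lit 78) (nat_lit 456) (nat_lit 0) (XT.lf (nat_lit 0) (nat_lit 14291102658) (nat_lit 684) (nat_lit 85331100092) (nat_lit 76) (nat_lit 20491270705) (nat_lit 53) (nat_lit 5) (nat_lit 62) (nat_lit 5) (nat_lit 54) (nat_lit 5) (nat_lit 287) (nat_lit 280) (nat_lit 153)) (XT.nd (nat_lit 78) (nat_lit 456) (nat_lit 0) (XT.lf (nat_lit 0) (nat_lit 25501306755) (nat_lit 684) (nat_lit 10168272984) (nat_lit 76) (nat_lit 89987732802) (nat_lit 53) (nat_lit 5) (nat_lit 62) (nat_lit 5) (nat_lit 54) (nat_lit 5) (nat_lit 288) (nat_lit 280) (nat_lit 152)) (XT.lf (nat_lit 0) (nat_lit 39293168266)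 (nat_lit 532) (nat_lit 58772858578) (nat_lit 76) (nat_lit 33494393545) (nat_lit 47) (nat_lit 5) (nat_lit 54) (nat_lit 5) (nat_lit 48) (nat_lit 5) (nat_lit 289) (nat_lit 280) (nat_lit 151))))))))
noncomputable def xc118 : XT := (XT.nd (nat_lit 1248) (nat_lit 304) (nat_lit 0) (XT.nd (nat_lit 624) (nat_lit 836) (nat_lit 0) (XT.nd (nat_lit 312) (nat_lit 532) (nat_lit 0) (XT.nd (nat_lit 156) (nat_lit 532) (nat_lit 0) (XT.nd (nat_lit 78) (nat_lit 0) (nat_lit 0) (XT.lf (nat_lit 0) (nat_lit 25011621898) (nat_lit 304) (nat_lit 30348117368) (nat_lit 380) (nat_lit 82517472990) (nat_lit 43) (nat_lit 5) (nat_lit 47) (nat_lit 5) (nat_lit 48) (nat_lit 5) (nat_lit 290) (nat_lit 280) (nat_lit 150)) (XT.lf (nat_lit 0) (nat_lit 74419646954) (nat_lit 380) (nat_lit 27735952979) (nat_lit 76) (nat_lit 42458350155) (nat_lit 43) (nat_lit 5) (nat_lit 48) (nat_lit 5) (nat_lit 44) (nat_lit 5) (nat_lit 291) (nat_lit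 280) (nat_lit 149))) (XT.nd (nat_lit 78) (nat_lit 228) (nat_lit 0) (XT.lf (nat_lit 0) (nat_lit 65797709472) (nat_lit 304) (nat_lit 30745106410) (nat_lit 380) (nat_lit 55269890562) (nat_lit 39) (nat_lit 5) (nat_lit 43) (nat_lit 5) (nat_lit 44) (nat_lit 5) (nat_lit 292) (nat_lit 280) (nat_lit 148)) (XT.lf (nat_lit 0) (nat_lit 7756996082) (nat_lit 228) (nat_lit 114014596330) (nat_lit 304) (nat_lit 37748985906) (nat_lit 36) (nat_lit 5) (nat_lit 39) (nat_lit 5) (nat_lit 40) (nat_lit 5) (nat_lit 293) (nat_lit 280) (nat_lit 147)))) (XT.nd (nat_lit 156) (nat_lit 228) (nat_lit 0) (XT.nd (nat_lit 78) (nat_lit 304) (nat_lit 0) (XT.lf (nat_lit 0) (nat_lit 111566218460) (nat_lit 228) (nat_lit 39460353665) (nat_lit 304) (nat_lit 16718115276) (nat_lit 36) (nat_lit 5) (nat_lit 39) (nat_lit 5) (nat_lit 40) (nat_lit 5) (nat_lit 294) (nat_lit 280) (nat_lit 146)) (XT.lf (nat_lit 0) (nat_lit 7215277443)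 (nat_lit 304) (nat_lit 128727160301) (nat_lit 76) (nat_lit 40609012716) (nat_lit 32) (nat_lit 5) (nat_lit 36) (nat_lit 5) (nat_lit 33) (nat_lit 5) (nat_lit 295) (nat_lit 280) (nat_lit 145))) (XT.nd (nat_lit 78) (nat_lit 228) (nat_lit 0) (XT.lf (nat_lit 0) (nat_lit 34145029016) (nat_lit 304) (nat_lit 24824269614) (nat_lit 76) (nat_lit 126996384173) (nat_lit 32) (nat_lit 5) (nat_lit 36) (nat_lit 5) (nat_lit 33) (nat_lit 5) (nat_lit 296) (nat_lit 280) (nat_lit 144)) (XT.lf (nat_lit 0) (nat_lit 65038621624) (nat_lit 304) (nat_lit 106183041458) (nat_lit 76) (nat_lit 24820919506) (nat_lit 29) (nat_lit 5) (nat_lit 33) (nat_lit 5) (nat_lit 30) (nat_lit 5) (nat_lit 297) (nat_lit 280) (nat_lit 143))))) (XT.nd (nat_lit 312) (nat_lit 456) (nat_lit 0) (XT.nd (nat_lit 156) (nat_lit 152) (nat_lit 0) (XT.nd (nat_lit 78) (nat_lit 0) (nat_lit 0) (XT.lf (nat_lit 0) (nat_lit 6920101707) (nat_lit 228) (nat_lit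 93025106335) (nat_lit 304) (nat_lit 106903352752) (nat_lit 26) (nat_lit 5) (nat_lit 29) (nat_lit 5) (nat_lit 30) (nat_lit 5) (nat_lit 298) (nat_lit 280) (nat_lit 142)) (XT.lf (nat_lit 0) (nat_lit 132862803219) (nat_lit 228) (nat_lit 6630801558) (nat_lit 304) (nat_lit 78932949939) (nat_lit 26) (nat_lit 5) (nat_lit 29) (nat_lit 5) (nat_lit 30) (nat_lit 5) (nat_lit 299) (nat_lit 280) (nat_lit 141))) (XT.nd (nat_lit 78) (nat_lit 0) (nat_lit 0) (XT.lf (nat_lit 0) (nat_lit 37806498212) (nat_lit 152) (nat_lit 146342549149) (nat_lit 228) (nat_lit 46684583592) (nat_lit 24) (nat_lit 5) (nat_lit 26) (nat_lit 5) (nat_lit 27) (nat_lit 5) (nat_lit 300) (nat_lit 280) (nat_lit 140)) (XT.lf (nat_lit 0) (nat_lit 173985898484) (nat_lit 152) (nat_lit 59991182645) (nat_lit 228) (nat_lit 10176185768) (nat_lit 24) (nat_lit 5) (nat_lit 26) (nat_lit 5) (nat_lit 27) (nat_lit 5) (nat_lit 301) (nat_lit 280) (nat_lit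 139)))) (XT.nd (nat_lit 156) (nat_lit 152) (nat_lit 0) (XT.nd (nat_lit 78) (nat_lit 0) (nat_lit 0) (XT.lf (nat_lit 0) (nat_lit 29860652951) (nat_lit 304) (nat_lit 194892732869) (nat_lit 76) (nat_lit 33685050950) (nat_lit 20) (nat_lit 5) (nat_lit 24) (nat_lit 5) (nat_lit 21) (nat_lit 5) (nat_lit 302) (nat_lit 280) (nat_lit 138)) (XT.lf (nat_lit 0) (nat_lit 75002267568) (nat_lit 304) (nat_lit 64547413170) (nat_lit 76) (nat_lit 134195481861) (nat_lit 20) (nat_lit 5) (nat_lit 24) (nat_lit 5) (nat_lit 21) (nat_lit 5) (nat_lit 303) (nat_lit 280) (nat_lit 137))) (XT.nd (nat_lit 78) (nat_lit 0) (nat_lit 0) (XT.lf (nat_lit 0) (nat_lit 78745514300) (nat_lit 152) (nat_lit 46238874090) (nat_lit 228) (nat_lit 165230580307) (nat_lit 18) (nat_lit 5) (nat_lit 20) (nat_lit 5) (nat_lit 21) (nat_lit 5) (nat_lit 304) (nat_lit 280) (nat_lit 136)) (XT.lf (nat_lit 0) (nat_lit 180959108925) (nat_lit 228) (nat_lit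 73009563769) (nat_lit 76) (nat_lit 53933986065) (nat_lit 18) (nat_lit 5) (nat_lit 21) (nat_lit 5) (nat_lit 19) (nat_lit 5) (nat_lit 305) (nat_lit 280) (nat_lit 135)))))) (XT.nd (nat_lit 35802) (nat_lit 0) (nat_lit 2204) (XT.nd (nat_lit 312) (nat_lit 0) (nat_lit 0) (XT.nd (nat_lit 156) (nat_lit 152) (nat_lit 0) (XT.nd (nat_lit 78) (nat_lit 0) (nat_lit 0) (XT.lf (nat_lit 0) (nat_lit 78251652747) (nat_lit 152) (nat_lit 165161323413) (nat_lit 228) (nat_lit 83492330318) (nat_lit 16) (nat_lit 5) (nat_lit 18) (nat_lit 5) (nat_lit 19) (nat_lit 5) (nat_lit 306) (nat_lit 280) (nat_lit 134)) (XT.lf (nat_lit 0) (nat_lit 244220594058) (nat_lit 152) (nat_lit 67914119856) (nat_lit 228) (nat_lit 35229874880) (nat_lit 16) (nat_lit 5) (nat_lit 18) (nat_lit 5) (nat_lit 19) (nat_lit 5) (nat_lit 307) (nat_lit 280) (nat_lit 133))) (XT.nd (nat_lit 78) (nat_lit 0) (nat_lit 0) (XT.lf (nat_lit 0) (nat_lit 17817451436)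 (nat_lit 152) (nat_lit 314482722195) (nat_lit 76) (nat_lit 37074024281) (nat_lit 14) (nat_lit 5) (nat_lit 16) (nat_lit 5) (nat_lit 15) (nat_lit 5) (nat_lit 308) (nat_lit 280) (nat_lit 132)) (XT.lf (nat_lit 0) (nat_lit 76861896850) (nat_lit 152) (nat_lit 165570668429) (nat_lit 76) (nat_lit 150533753406) (nat_lit 14) (nat_lit 5) (nat_lit 16) (nat_lit 5) (nat_lit 15) (nat_lit 5) (nat_lit 309) (nat_lit 280) (nat_lit 131)))) (XT.nd (nat_lit 35334) (nat_lit 0) (nat_lit 3344) (XT.nd (nat_lit 35256) (nat_lit 0) (nat_lit 3344) (XT.lf (nat_lit 0) (nat_lit 140629715482) (nat_lit 152) (nat_lit 4745928193) (nat_lit 76) (nat_lit 273070175199) (nat_lit 14) (nat_lit 5) (nat_lit 16) (nat_lit 5) (nat_lit 15) (nat_lit 5) (nat_lit 310) (nat_lit 280) (nat_lit 130)) (XT.lf (nat_lit 0) (nat_lit 40125498942) (nat_lit 684) (nat_lit 4178801212) (nat_lit 684) (nat_lit 4178801212) (nat_lit 58) (nat_lit 3) (nat_lit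 67) (nat_lit 3) (nat_lit 67) (nat_lit 5) (nat_lit 281) (nat_lit 281) (nat_lit 158))) (XT.nd (nat_lit 78) (nat_lit 0) (nat_lit 76) (XT.lf (nat_lit 76) (nat_lit 53282078285) (nat_lit 0) (nat_lit 31020079260) (nat_lit 684) (nat_lit 16500580385) (nat_lit 59) (nat_lit 5) (nat_lit 58) (nat_lit 3) (nat_lit 67) (nat_lit 5) (nat_lit 282) (nat_lit 281) (nat_lit 157)) (XT.lf (nat_lit 76) (nat_lit 15209578434) (nat_lit 0) (nat_lit 74339078293) (nat_lit 684) (nat_lit 15353982573) (nat_lit 60) (nat_lit 5) (nat_lit 59) (nat_lit 5) (nat_lit 68) (nat_lit 5) (nat_lit 283) (nat_lit 281) (nat_lit 156))))) (XT.nd (nat_lit 312) (nat_lit 684) (nat_lit 0) (XT.nd (nat_lit 156) (nat_lit 532) (nat_lit 0) (XT.nd (nat_lit 78) (nat_lit 0) (nat_lit 76) (XT.lf (nat_lit 76) (nat_lit 84114294546) (nat_lit 0) (nat_lit 12442114136) (nat_lit 684) (nat_lit 12707052728) (nat_lit 60) (nat_lit 5) (nat_lit 59) (nat_lit 5) (nat_lit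 68) (nat_lit 5) (nat_lit 284) (nat_lit 281) (nat_lit 155)) (XT.lf (nat_lit 76) (nat_lit 45153442772) (nat_lit 0) (nat_lit 60524953011) (nat_lit 684) (nat_lit 8217077640) (nat_lit 61) (nat_lit 5) (nat_lit 60) (nat_lit 5) (nat_lit 69) (nat_lit 5) (nat_lit 285) (nat_lit 281) (nat_lit 154))) (XT.nd (nat_lit 78) (nat_lit 684) (nat_lit 0) (XT.lf (nat_lit 76) (nat_lit 2900821027) (nat_lit 0) (nat_lit 113405591918) (nat_lit 684) (nat_lit 2552824417) (nat_lit 62) (nat_lit 5) (nat_lit 61) (nat_lit 5) (nat_lit 70) (nat_lit 5) (nat_lit 286) (nat_lit 281) (nat_lit 153)) (XT.lf (nat_lit 0) (nat_lit 5687402731) (nat_lit 684) (nat_lit 42526790706) (nat_lit 760) (nat_lit 75891284215) (nat_lit 52) (nat_lit 5) (nat_lit 61) (nat_lit 5) (nat_lit 62) (nat_lit 5) (nat_lit 287) (nat_lit 281) (nat_lit 152)))) (XT.nd (nat_lit 156) (nat_lit 760) (nat_lit 0) (XT.nd (nat_lit 78) (nat_lit 0) (nat_lit 0) (XT.lf (nat_lit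 0) (nat_lit 15447367857) (nat_lit 684) (nat_lit 92146143626) (nat_lit 76) (nat_lit 22128318978) (nat_lit 53) (nat_lit 5) (nat_lit 62) (nat_lit 5) (nat_lit 54) (nat_lit 5) (nat_lit 288) (nat_lit 281) (nat_lit 151)) (XT.lf (nat_lit 0) (nat_lit 27553427023) (nat_lit 684) (nat_lit 10971138088) (nat_lit 76) (nat_lit 97184664959) (nat_lit 53) (nat_lit 5) (nat_lit 62) (nat_lit 5) (nat_lit 54) (nat_lit 5) (nat_lit 289) (nat_lit 281) (nat_lit 150))) (XT.nd (nat_lit 78) (nat_lit 304) (nat_lit 0) (XT.lf (nat_lit 0) (nat_lit 42447887737) (nat_lit 532) (nat_lit 63463907189) (nat_lit 76) (nat_lit 36172834048) (nat_lit 47) (nat_lit 5) (nat_lit 54) (nat_lit 5) (nat_lit 48) (nat_lit 5) (nat_lit 290) (nat_lit 281) (nat_lit 149)) (XT.nd (nat_lit 78) (nat_lit 0) (nat_lit 0) (XT.lf (nat_lit 0) (nat_lit 27022863237) (nat_lit 304) (nat_lit 32776247653) (nat_lit 380) (nat_lit 89107691549) (nat_lit 43) (nat_lit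 5) (nat_lit 47) (nat_lit 5) (nat_lit 48) (nat_lit 5) (nat_lit 291) (nat_lit 281) (nat_lit 148)) (XT.lf (nat_lit 0) (nat_lit 80383022504) (nat_lit 380) (nat_lit 29944734059) (nat_lit 76) (nat_lit 45854766403) (nat_lit 43) (nat_lit 5) (nat_lit 48) (nat_lit 5) (nat_lit 44) (nat_lit 5) (nat_lit 292) (nat_lit 281) (nat_lit 147))))))))
noncomputable def xc119 : XT := (XT.nd (nat_lit 36660) (nat_lit 0) (nat_lit 1368) (XT.nd (nat_lit 624) (nat_lit 912) (nat_lit 0) (XT.nd (nat_lit 312) (nat_lit 456) (nat_lit 0) (XT.nd (nat_lit 156) (nat_lit 304) (nat_lit 0) (XT.nd (nat_lit 78) (nat_lit 228) (nat_lit 0) (XT.lf (nat_lit 0) (nat_lit 71071182664) (nat_lit 304) (nat_lit 33204286839) (nat_lit 380) (nat_lit 59681743021) (nat_lit 39) (nat_lit 5) (nat_lit 43) (nat_lit 5) (nat_lit 44) (nat_lit 5) (nat_lit 293) (nat_lit 281) (nat_lit 146)) (XT.lf (nat_lit 0) (nat_lit 8387274404) (nat_lit 228) (nat_lit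 123134748094) (nat_lit 304) (nat_lit 40759721564) (nat_lit 36) (nat_lit 5) (nat_lit 39) (nat_lit 5) (nat_lit 40) (nat_lit 5) (nat_lit 294) (nat_lit 281) (nat_lit 145))) (XT.nd (nat_lit 78) (nat_lit 304) (nat_lit 0) (XT.lf (nat_lit 0) (nat_lit 120500514674) (nat_lit 228) (nat_lit 42616241271) (nat_lit 304) (nat_lit 18047061522) (nat_lit 36) (nat_lit 5) (nat_lit 39) (nat_lit 5) (nat_lit 40) (nat_lit 5) (nat_lit 295) (nat_lit 281) (nat_lit 144)) (XT.lf (nat_lit 0) (nat_lit 7800277720) (nat_lit 304) (nat_lit 139016019683) (nat_lit 76) (nat_lit 43858843131) (nat_lit 32) (nat_lit 5) (nat_lit 36) (nat_lit 5) (nat_lit 33) (nat_lit 5) (nat_lit 296) (nat_lit 281) (nat_lit 143)))) (XT.nd (nat_lit 156) (nat_lit 228) (nat_lit 0) (XT.nd (nat_lit 78) (nat_lit 228) (nat_lit 0) (XT.lf (nat_lit 0) (nat_lit 36883833265) (nat_lit 304) (nat_lit 26801587625) (nat_lit 76) (nat_lit 137157122127) (nat_lit 32)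 (nat_lit 5) (nat_lit 36) (nat_lit 5) (nat_lit 33) (nat_lit 5) (nat_lit 297) (nat_lit 281) (nat_lit 142)) (XT.lf (nat_lit 0) (nat_lit 70248531255) (nat_lit 304) (nat_lit 114669087016) (nat_lit 76) (nat_lit 26807998158) (nat_lit 29) (nat_lit 5) (nat_lit 33) (nat_lit 5) (nat_lit 30) (nat_lit 5) (nat_lit 298) (nat_lit 281) (nat_lit 141))) (XT.nd (nat_lit 78) (nat_lit 0) (nat_lit 0) (XT.lf (nat_lit 0) (nat_lit 7481933954) (nat_lit 228) (nat_lit 100465333856) (nat_lit 304) (nat_lit 115448826274) (nat_lit 26) (nat_lit 5) (nat_lit 29) (nat_lit 5) (nat_lit 30) (nat_lit 5) (nat_lit 299) (nat_lit 281) (nat_lit 140)) (XT.lf (nat_lit 0) (nat_lit 143499442394) (nat_lit 228) (nat_lit 7159616622) (nat_lit 304) (nat_lit 85241294546) (nat_lit 26) (nat_lit 5) (nat_lit 29) (nat_lit 5) (nat_lit 30) (nat_lit 5) (nat_lit 300) (nat_lit 281) (nat_lit 139))))) (XT.nd (nat_lit 312) (nat_lit 456) (nat_lit 0) (XT.nd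 (nat_lit 156) (nat_lit 304) (nat_lit 0) (XT.nd (nat_lit 78) (nat_lit 0) (nat_lit 0) (XT.lf (nat_lit 0) (nat_lit 40838588809) (nat_lit 152) (nat_lit 158048048322) (nat_lit 228) (nat_lit 50413375778) (nat_lit 24) (nat_lit 5) (nat_lit 26) (nat_lit 5) (nat_lit 27) (nat_lit 5) (nat_lit 301) (nat_lit 281) (nat_lit 138)) (XT.lf (nat_lit 0) (nat_lit 187911780306) (nat_lit 152) (nat_lit 64788713591) (nat_lit 228) (nat_lit 10984748684) (nat_lit 24) (nat_lit 5) (nat_lit 26) (nat_lit 5) (nat_lit 27) (nat_lit 5) (nat_lit 302) (nat_lit 281) (nat_lit 137))) (XT.nd (nat_lit 78) (nat_lit 0) (nat_lit 0) (XT.lf (nat_lit 0) (nat_lit 32254599654) (nat_lit 304) (nat_lit 210477010246) (nat_lit 76) (nat_lit 36381626495) (nat_lit 20) (nat_lit 5) (nat_lit 24) (nat_lit 5) (nat_lit 21) (nat_lit 5) (nat_lit 303) (nat_lit 281) (nat_lit 136)) (XT.lf (nat_lit 0) (nat_lit 81007166073) (nat_lit 304) (nat_lit 69704593952)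 (nat_lit 76) (nat_lit 144932760659) (nat_lit 20) (nat_lit 5) (nat_lit 24) (nat_lit 5) (nat_lit 21) (nat_lit 5) (nat_lit 304) (nat_lit 281) (nat_lit 135)))) (XT.nd (nat_lit 156) (nat_lit 304) (nat_lit 0) (XT.nd (nat_lit 78) (nat_lit 0) (nat_lit 0) (XT.lf (nat_lit 0) (nat_lit 85051480354) (nat_lit 152) (nat_lit 49936125541) (nat_lit 228) (nat_lit 178444319320) (nat_lit 18) (nat_lit 5) (nat_lit 20) (nat_lit 5) (nat_lit 21) (nat_lit 5) (nat_lit 305) (nat_lit 281) (nat_lit 134)) (XT.lf (nat_lit 0) (nat_lit 195440000093) (nat_lit 228) (nat_lit 78844276212) (nat_lit 76) (nat_lit 58250370684) (nat_lit 18) (nat_lit 5) (nat_lit 21) (nat_lit 5) (nat_lit 19) (nat_lit 5) (nat_lit 306) (nat_lit 281) (nat_lit 133))) (XT.nd (nat_lit 78) (nat_lit 152) (nat_lit 0) (XT.lf (nat_lit 0) (nat_lit 84517574584) (nat_lit 152) (nat_lit 178372384185) (nat_lit 228) (nat_lit 90167559864) (nat_lit 16) (nat_lit 5)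 (nat_lit 18) (nat_lit 5) (nat_lit 19) (nat_lit 5) (nat_lit 307) (nat_lit 281) (nat_lit 132)) (XT.nd (nat_lit 78) (nat_lit 152) (nat_lit 0) (XT.lf (nat_lit 0) (nat_lit 263763602340) (nat_lit 152) (nat_lit 73345541017) (nat_lit 228) (nat_lit 38044415909) (nat_lit 16) (nat_lit 5) (nat_lit 18) (nat_lit 5) (nat_lit 19) (nat_lit 5) (nat_lit 308) (nat_lit 281) (nat_lit 131)) (XT.lf (nat_lit 0) (nat_lit 19246406392) (nat_lit 152) (nat_lit 339635919582) (nat_lit 76) (nat_lit 40041617468) (nat_lit 14) (nat_lit 5) (nat_lit 16) (nat_lit 5) (nat_lit 15) (nat_lit 5) (nat_lit 309) (nat_lit 281) (nat_lit 130))))))) (XT.nd (nat_lit 624) (nat_lit 1520) (nat_lit 0) (XT.nd (nat_lit 312) (nat_lit 456) (nat_lit 0) (XT.nd (nat_lit 156) (nat_lit 0) (nat_lit 76) (XT.nd (nat_lit 78) (nat_lit 0) (nat_lit 0) (XT.lf (nat_lit 0) (nat_lit 43344553884) (nat_lit 684) (nat_lit 4508344642) (nat_lit 684) (nat_lit 4508344642)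 (nat_lit 58) (nat_lit 3) (nat_lit 67) (nat_lit 3) (nat_lit 67) (nat_lit 5) (nat_lit 282) (nat_lit 282) (nat_lit 156)) (XT.lf (nat_lit 76) (nat_lit 57553752098) (nat_lit 0) (nat_lit 33509414739) (nat_lit 684) (nat_lit 17802845409) (nat_lit 59) (nat_lit 5) (nat_lit 58) (nat_lit 3) (nat_lit 67) (nat_lit 5) (nat_lit 283) (nat_lit 282) (nat_lit 155))) (XT.nd (nat_lit 78) (nat_lit 0) (nat_lit 0) (XT.lf (nat_lit 76) (nat_lit 16436075547) (nat_lit 0) (nat_lit 80292103435) (nat_lit 684) (nat_lit 16565794713) (nat_lit 60) (nat_lit 5) (nat_lit 59) (nat_lit 5) (nat_lit 68) (nat_lit 5) (nat_lit 284) (nat_lit 282) (nat_lit 154)) (XT.lf (nat_lit 76) (nat_lit 90852448146) (nat_lit 0) (nat_lit 13442945191) (nat_lit 684) (nat_lit 13708333181) (nat_lit 60) (nat_lit 5) (nat_lit 59) (nat_lit 5) (nat_lit 68) (nat_lit 5) (nat_lit 285) (nat_lit 282) (nat_lit 153)))) (XT.nd (nat_lit 156) (nat_lit 608) (nat_lit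 0) (XT.nd (nat_lit 78) (nat_lit 0) (nat_lit 76) (XT.lf (nat_lit 76) (nat_lit 48775194759) (nat_lit 0) (nat_lit 65370941645) (nat_lit 684) (nat_lit 8860219771) (nat_lit 61) (nat_lit 5) (nat_lit 60) (nat_lit 5) (nat_lit 69) (nat_lit 5) (nat_lit 286) (nat_lit 282) (nat_lit 152)) (XT.lf (nat_lit 76) (nat_lit 3142733363) (nat_lit 0) (nat_lit 122480759896) (nat_lit 684) (nat_lit 2743779106) (nat_lit 62) (nat_lit 5) (nat_lit 61) (nat_lit 5) (nat_lit 70) (nat_lit 5) (nat_lit 287) (nat_lit 282) (nat_lit 151))) (XT.nd (nat_lit 78) (nat_lit 0) (nat_lit 76) (XT.lf (nat_lit 0) (nat_lit 6154289858) (nat_lit 684) (nat_lit 45919356704) (nat_lit 760) (nat_lit 81959607869) (nat_lit 52) (nat_lit 5) (nat_lit 61) (nat_lit 5) (nat_lit 62) (nat_lit 5) (nat_lit 288) (nat_lit 282) (nat_lit 150)) (XT.lf (nat_lit 0) (nat_lit 16694282959) (nat_lit 684) (nat_lit 99508023325) (nat_lit 76) (nat_lit 23896652582) (nat_lit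 53) (nat_lit 5) (nat_lit 62) (nat_lit 5) (nat_lit 54) (nat_lit 5) (nat_lit 289) (nat_lit 282) (nat_lit 149))))) (XT.nd (nat_lit 312) (nat_lit 836) (nat_lit 0) (XT.nd (nat_lit 156) (nat_lit 304) (nat_lit 0) (XT.nd (nat_lit 78) (nat_lit 456) (nat_lit 0) (XT.lf (nat_lit 0) (nat_lit 29768002734) (nat_lit 684) (nat_lit 11839744143) (nat_lit 76) (nat_lit 104957649347) (nat_lit 53) (nat_lit 5) (nat_lit 62) (nat_lit 5) (nat_lit 54) (nat_lit 5) (nat_lit 290) (nat_lit 282) (nat_lit 148)) (XT.lf (nat_lit 0) (nat_lit 45853377543) (nat_lit 532) (nat_lit 68531777586) (nat_lit 76) (nat_lit 39065708284) (nat_lit 47) (nat_lit 5) (nat_lit 54) (nat_lit 5) (nat_lit 48) (nat_lit 5) (nat_lit 291) (nat_lit 282) (nat_lit 147))) (XT.nd (nat_lit 78) (nat_lit 0) (nat_lit 0) (XT.lf (nat_lit 0) (nat_lit 29193532820) (nat_lit 304) (nat_lit 35398588289) (nat_lit 380) (nat_lit 96226722442) (nat_lit 43) (nat_lit 5)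 (nat_lit 47) (nat_lit 5) (nat_lit 48) (nat_lit 5) (nat_lit 292) (nat_lit 282) (nat_lit 146)) (XT.lf (nat_lit 0) (nat_lit 86822069477) (nat_lit 380) (nat_lit 32331657814) (nat_lit 76) (nat_lit 49522931868) (nat_lit 43) (nat_lit 5) (nat_lit 48) (nat_lit 5) (nat_lit 44) (nat_lit 5) (nat_lit 293) (nat_lit 282) (nat_lit 145)))) (XT.nd (nat_lit 156) (nat_lit 304) (nat_lit 0) (XT.nd (nat_lit 78) (nat_lit 228) (nat_lit 0) (XT.lf (nat_lit 0) (nat_lit 76765156113) (nat_lit 304) (nat_lit 35860262774) (nat_lit 380) (nat_lit 64447933024) (nat_lit 39) (nat_lit 5) (nat_lit 43) (nat_lit 5) (nat_lit 44) (nat_lit 5) (nat_lit 294) (nat_lit 282) (nat_lit 144)) (XT.lf (nat_lit 0) (nat_lit 9066588521) (nat_lit 228) (nat_lit 132984656934) (nat_lit 304) (nat_lit 44012626164) (nat_lit 36) (nat_lit 5) (nat_lit 39) (nat_lit 5) (nat_lit 40) (nat_lit 5) (nat_lit 295) (nat_lit 282) (nat_lit 143))) (XT.nd (nat_lit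 78) (nat_lit 304) (nat_lit 0) (XT.lf (nat_lit 0) (nat_lit 130148270815) (nat_lit 228) (nat_lit 46024734084) (nat_lit 304) (nat_lit 19483536512) (nat_lit 36) (nat_lit 5) (nat_lit 39) (nat_lit 5) (nat_lit 40) (nat_lit 5) (nat_lit 296) (nat_lit 282) (nat_lit 142)) (XT.nd (nat_lit 78) (nat_lit 0) (nat_lit 0) (XT.lf (nat_lit 0) (nat_lit 8430968390) (nat_lit 304) (nat_lit 150129316482) (nat_lit 76) (nat_lit 47368501711) (nat_lit 32) (nat_lit 5) (nat_lit 36) (nat_lit 5) (nat_lit 33) (nat_lit 5) (nat_lit 297) (nat_lit 282) (nat_lit 141)) (XT.lf (nat_lit 0) (nat_lit 39840714419) (nat_lit 304) (nat_lit 28938321325) (nat_lit 76) (nat_lit 148130572573) (nat_lit 32) (nat_lit 5) (nat_lit 36) (nat_lit 5) (nat_lit 33) (nat_lit 5) (nat_lit 298) (nat_lit 282) (nat_lit 140))))))))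
noncomputable def xc120 : XT := (XT.nd (nat_lit 36660) (nat_lit 0) (nat_lit 608) (XT.nd (nat_lit 624) (nat_lit 152) (nat_lit 0) (XT.nd (nat_lit 312) (nat_lit 456) (nat_lit 0) (XT.nd (nat_lit 156) (nat_lit 152) (nat_lit 0) (XT.nd (nat_lit 78) (nat_lit 228) (nat_lit 0) (XT.lf (nat_lit 0) (nat_lit 75874260721) (nat_lit 304) (nat_lit 123835242785) (nat_lit 76) (nat_lit 28953842650) (nat_lit 29) (nat_lit 5) (nat_lit 33) (nat_lit 5) (nat_lit 30) (nat_lit 5) (nat_lit 299) (nat_lit 282) (nat_lit 139)) (XT.lf (nat_lit 0) (nat_lit 8087539520) (nat_lit 228) (nat_lit 108501033656) (nat_lit 304) (nat_lit 124678907017) (nat_lit 26) (nat_lit 5) (nat_lit 29) (nat_lit 5) (nat_lit 30) (nat_lit 5) (nat_lit 300) (nat_lit 282) (nat_lit 138))) (XT.nd (nat_lit 78) (nat_lit 152) (nat_lit 0) (XT.lf (nat_lit 0) (nat_lit 154985926350) (nat_lit 228) (nat_lit 7730972147) (nat_lit 304) (nat_lit 92055204259) (nat_lit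 26) (nat_lit 5) (nat_lit 29) (nat_lit 5) (nat_lit 30) (nat_lit 5) (nat_lit 301) (nat_lit 282) (nat_lit 137)) (XT.lf (nat_lit 0) (nat_lit 44112166602) (nat_lit 152) (nat_lit 170690259164) (nat_lit 228) (nat_lit 54441323669) (nat_lit 24) (nat_lit 5) (nat_lit 26) (nat_lit 5) (nat_lit 27) (nat_lit 5) (nat_lit 302) (nat_lit 282) (nat_lit 136)))) (XT.nd (nat_lit 156) (nat_lit 152) (nat_lit 0) (XT.nd (nat_lit 78) (nat_lit 304) (nat_lit 0) (XT.lf (nat_lit 0) (nat_lit 202950732628) (nat_lit 152) (nat_lit 69970298620) (nat_lit 228) (nat_lit 11858785828) (nat_lit 24) (nat_lit 5) (nat_lit 26) (nat_lit 5) (nat_lit 27) (nat_lit 5) (nat_lit 303) (nat_lit 282) (nat_lit 135)) (XT.lf (nat_lit 0) (nat_lit 34839335311) (nat_lit 304) (nat_lit 227309048592) (nat_lit 76) (nat_lit 39293675364) (nat_lit 20) (nat_lit 5) (nat_lit 24) (nat_lit 5) (nat_lit 21) (nat_lit 5) (nat_lit 304) (nat_lit 282) (nat_lit 134)))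 (XT.nd (nat_lit 78) (nat_lit 152) (nat_lit 0) (XT.lf (nat_lit 0) (nat_lit 87491783511) (nat_lit 304) (nat_lit 75275292511) (nat_lit 76) (nat_lit 156528787761) (nat_lit 20) (nat_lit 5) (nat_lit 24) (nat_lit 5) (nat_lit 21) (nat_lit 5) (nat_lit 305) (nat_lit 282) (nat_lit 133)) (XT.lf (nat_lit 0) (nat_lit 91861021374) (nat_lit 152) (nat_lit 53929422241) (nat_lit 228) (nat_lit 192715829020) (nat_lit 18) (nat_lit 5) (nat_lit 20) (nat_lit 5) (nat_lit 21) (nat_lit 5) (nat_lit 306) (nat_lit 282) (nat_lit 132))))) (XT.nd (nat_lit 35724) (nat_lit 0) (nat_lit 3192) (XT.nd (nat_lit 156) (nat_lit 0) (nat_lit 0) (XT.nd (nat_lit 78) (nat_lit 152) (nat_lit 0) (XT.lf (nat_lit 0) (nat_lit 211078768733) (nat_lit 228) (nat_lit 85146629130) (nat_lit 76) (nat_lit 62911828438) (nat_lit 18) (nat_lit 5) (nat_lit 21) (nat_lit 5) (nat_lit 19) (nat_lit 5) (nat_lit 307) (nat_lit 282) (nat_lit 131)) (XT.lf (nat_lit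 0) (nat_lit 91283944215) (nat_lit 152) (nat_lit 192640593042) (nat_lit 228) (nat_lit 97377400800) (nat_lit 16) (nat_lit 5) (nat_lit 18) (nat_lit 5) (nat_lit 19) (nat_lit 5) (nat_lit 308) (nat_lit 282) (nat_lit 130))) (XT.nd (nat_lit 35490) (nat_lit 0) (nat_lit 3192) (XT.lf (nat_lit 0) (nat_lit 284869286512) (nat_lit 152) (nat_lit 79211719598) (nat_lit 228) (nat_lit 41084669317) (nat_lit 16) (nat_lit 5) (nat_lit 18) (nat_lit 5) (nat_lit 19) (nat_lit 5) (nat_lit 309) (nat_lit 282) (nat_lit 129)) (XT.lf (nat_lit 0) (nat_lit 46819847127) (nat_lit 684) (nat_lit 4864930708) (nat_lit 684) (nat_lit 4864930708) (nat_lit 58) (nat_lit 3) (nat_lit 67) (nat_lit 3) (nat_lit 67) (nat_lit 5) (nat_lit 283) (nat_lit 283) (nat_lit 154)))) (XT.nd (nat_lit 156) (nat_lit 0) (nat_lit 76) (XT.nd (nat_lit 78) (nat_lit 0) (nat_lit 76) (XT.lf (nat_lit 76) (nat_lit 62165860522) (nat_lit 0) (nat_lit 36196794408)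 (nat_lit 684) (nat_lit 19211828352) (nat_lit 59) (nat_lit 5) (nat_lit 58) (nat_lit 3) (nat_lit 67) (nat_lit 5) (nat_lit 284) (nat_lit 283) (nat_lit 153)) (XT.lf (nat_lit 76) (nat_lit 17759304216) (nat_lit 0) (nat_lit 86720529047) (nat_lit 684) (nat_lit 17876906656) (nat_lit 60) (nat_lit 5) (nat_lit 59) (nat_lit 5) (nat_lit 68) (nat_lit 5) (nat_lit 285) (nat_lit 283) (nat_lit 152))) (XT.nd (nat_lit 78) (nat_lit 0) (nat_lit 76) (XT.lf (nat_lit 76) (nat_lit 98128368651) (nat_lit 0) (nat_lit 14523063526) (nat_lit 684) (nat_lit 14791896471) (nat_lit 60) (nat_lit 5) (nat_lit 59) (nat_lit 5) (nat_lit 68) (nat_lit 5) (nat_lit 286) (nat_lit 283) (nat_lit 151)) (XT.lf (nat_lit 76) (nat_lit 52685334967) (nat_lit 0) (nat_lit 70604039812) (nat_lit 684) (nat_lit 9556842496) (nat_lit 61) (nat_lit 5) (nat_lit 60) (nat_lit 5) (nat_lit 69) (nat_lit 5) (nat_lit 287) (nat_lit 283) (nat_lit 150)))))) (XT.nd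 (nat_lit 624) (nat_lit 1140) (nat_lit 0) (XT.nd (nat_lit 312) (nat_lit 988) (nat_lit 0) (XT.nd (nat_lit 156) (nat_lit 0) (nat_lit 76) (XT.nd (nat_lit 78) (nat_lit 684) (nat_lit 0) (XT.lf (nat_lit 76) (nat_lit 3402593950) (nat_lit 0) (nat_lit 132281553184) (nat_lit 684) (nat_lit 2951903464) (nat_lit 62) (nat_lit 5) (nat_lit 61) (nat_lit 5) (nat_lit 70) (nat_lit 5) (nat_lit 288) (nat_lit 283) (nat_lit 149)) (XT.lf (nat_lit 0) (nat_lit 6656831014) (nat_lit 684) (nat_lit 49584694285) (nat_lit 760) (nat_lit 88513822416) (nat_lit 52) (nat_lit 5) (nat_lit 61) (nat_lit 5) (nat_lit 62) (nat_lit 5) (nat_lit 289) (nat_lit 283) (nat_lit 148))) (XT.nd (nat_lit 78) (nat_lit 0) (nat_lit 0) (XT.lf (nat_lit 0) (nat_lit 18039364068) (nat_lit 684) (nat_lit 107460253162) (nat_lit 76) (nat_lit 25806728484) (nat_lit 53) (nat_lit 5) (nat_lit 62) (nat_lit 5) (nat_lit 54) (nat_lit 5) (nat_lit 290) (nat_lit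 283) (nat_lit 147)) (XT.lf (nat_lit 0) (nat_lit 32158274872) (nat_lit 684) (nat_lit 12779134759) (nat_lit 76) (nat_lit 113352727680) (nat_lit 53) (nat_lit 5) (nat_lit 62) (nat_lit 5) (nat_lit 54) (nat_lit 5) (nat_lit 291) (nat_lit 283) (nat_lit 146)))) (XT.nd (nat_lit 156) (nat_lit 304) (nat_lit 0) (XT.nd (nat_lit 78) (nat_lit 304) (nat_lit 0) (XT.lf (nat_lit 0) (nat_lit 49529928600) (nat_lit 532) (nat_lit 74006396115) (nat_lit 76) (nat_lit 42190148343) (nat_lit 47) (nat_lit 5) (nat_lit 54) (nat_lit 5) (nat_lit 48) (nat_lit 5) (nat_lit 292) (nat_lit 283) (nat_lit 145)) (XT.lf (nat_lit 0) (nat_lit 31536594770) (nat_lit 304) (nat_lit 38230681819) (nat_lit 380) (nat_lit 103916643132) (nat_lit 43) (nat_lit 5) (nat_lit 47) (nat_lit 5) (nat_lit 48) (nat_lit 5) (nat_lit 293) (nat_lit 283) (nat_lit 144))) (XT.nd (nat_lit 78) (nat_lit 304) (nat_lit 0) (XT.lf (nat_lit 0) (nat_lit 93775041117)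 (nat_lit 380) (nat_lit 34910770197) (nat_lit 76) (nat_lit 53484581363) (nat_lit 43) (nat_lit 5) (nat_lit 48) (nat_lit 5) (nat_lit 44) (nat_lit 5) (nat_lit 294) (nat_lit 283) (nat_lit 143)) (XT.lf (nat_lit 0) (nat_lit 82913466370) (nat_lit 304) (nat_lit 38728769142) (nat_lit 380) (nat_lit 69596609368) (nat_lit 39) (nat_lit 5) (nat_lit 43) (nat_lit 5) (nat_lit 44) (nat_lit 5) (nat_lit 295) (nat_lit 283) (nat_lit 142))))) (XT.nd (nat_lit 312) (nat_lit 608) (nat_lit 0) (XT.nd (nat_lit 156) (nat_lit 304) (nat_lit 0) (XT.nd (nat_lit 78) (nat_lit 0) (nat_lit 0) (XT.lf (nat_lit 0) (nat_lit 9799059090) (nat_lit 228) (nat_lit 143622682740) (nat_lit 304) (nat_lit 47526886320) (nat_lit 36) (nat_lit 5) (nat_lit 39) (nat_lit 5) (nat_lit 40) (nat_lit 5) (nat_lit 296) (nat_lit 283) (nat_lit 141)) (XT.lf (nat_lit 0) (nat_lit 140566746820) (nat_lit 228) (nat_lit 49706021377) (nat_lit 304) (nat_lit 21035969492)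 (nat_lit 36) (nat_lit 5) (nat_lit 39) (nat_lit 5) (nat_lit 40) (nat_lit 5) (nat_lit 297) (nat_lit 283) (nat_lit 140))) (XT.nd (nat_lit 78) (nat_lit 0) (nat_lit 0) (XT.lf (nat_lit 0) (nat_lit 9111162983) (nat_lit 304) (nat_lit 162132816143) (nat_lit 76) (nat_lit 51158797288) (nat_lit 32) (nat_lit 5) (nat_lit 36) (nat_lit 5) (nat_lit 33) (nat_lit 5) (nat_lit 298) (nat_lit 283) (nat_lit 139)) (XT.lf (nat_lit 0) (nat_lit 43033265204) (nat_lit 304) (nat_lit 31247048459) (nat_lit 76) (nat_lit 159981773416) (nat_lit 32) (nat_lit 5) (nat_lit 36) (nat_lit 5) (nat_lit 33) (nat_lit 5) (nat_lit 299) (nat_lit 283) (nat_lit 138)))) (XT.nd (nat_lit 156) (nat_lit 152) (nat_lit 0) (XT.nd (nat_lit 78) (nat_lit 228) (nat_lit 0) (XT.lf (nat_lit 0) (nat_lit 81949214410) (nat_lit 304) (nat_lit 133735742598) (nat_lit 76) (nat_lit 31271182846) (nat_lit 29) (nat_lit 5) (nat_lit 33) (nat_lit 5) (nat_lit 30)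 (nat_lit 5) (nat_lit 300) (nat_lit 283) (nat_lit 137)) (XT.lf (nat_lit 0) (nat_lit 8740587648) (nat_lit 228) (nat_lit 117179807270) (nat_lit 304) (nat_lit 134648225271) (nat_lit 26) (nat_lit 5) (nat_lit 29) (nat_lit 5) (nat_lit 30) (nat_lit 5) (nat_lit 301) (nat_lit 283) (nat_lit 136))) (XT.nd (nat_lit 78) (nat_lit 152) (nat_lit 0) (XT.lf (nat_lit 0) (nat_lit 167390397649) (nat_lit 228) (nat_lit 8348237810) (nat_lit 304) (nat_lit 99414996241) (nat_lit 26) (nat_lit 5) (nat_lit 29) (nat_lit 5) (nat_lit 30) (nat_lit 5) (nat_lit 302) (nat_lit 283) (nat_lit 135)) (XT.nd (nat_lit 78) (nat_lit 0) (nat_lit 0) (XT.lf (nat_lit 0) (nat_lit 47646704650) (nat_lit 152) (nat_lit 184344079843) (nat_lit 228) (nat_lit 58792238126) (nat_lit 24) (nat_lit 5) (nat_lit 26) (nat_lit 5) (nat_lit 27) (nat_lit 5) (nat_lit 303) (nat_lit 283) (nat_lit 134)) (XT.lf (nat_lit 0) (nat_lit 219191943756) (nat_lit 152)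 (nat_lit 75566626162) (nat_lit 228) (nat_lit 12803422549) (nat_lit 24) (nat_lit 5) (nat_lit 26) (nat_lit 5) (nat_lit 27) (nat_lit 5) (nat_lit 304) (nat_lit 283) (nat_lit 133))))))))
noncomputable def xc121 : XT := (XT.nd (nat_lit 36738) (nat_lit 0) (nat_lit 152) (XT.nd (nat_lit 36114) (nat_lit 0) (nat_lit 2052) (XT.nd (nat_lit 312) (nat_lit 152) (nat_lit 0) (XT.nd (nat_lit 156) (nat_lit 152) (nat_lit 0) (XT.nd (nat_lit 78) (nat_lit 0) (nat_lit 0) (XT.lf (nat_lit 0) (nat_lit 37630226721) (nat_lit 304) (nat_lit 245488523445) (nat_lit 76) (nat_lit 42438471476) (nat_lit 20) (nat_lit 5) (nat_lit 24) (nat_lit 5) (nat_lit 21) (nat_lit 5) (nat_lit 305) (nat_lit 283) (nat_lit 132)) (XT.lf (nat_lit 0) (nat_lit 94494593400) (nat_lit 304) (nat_lit 81292455695) (nat_lit 76) (nat_lit 169052296415) (nat_lit 20) (nat_lit 5) (nat_lit 24) (nat_lit 5) (nat_lit 21) (nat_lit 5) (nat_lit 306) (nat_lit 283)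 (nat_lit 131))) (XT.nd (nat_lit 78) (nat_lit 0) (nat_lit 0) (XT.lf (nat_lit 0) (nat_lit 99214552081) (nat_lit 152) (nat_lit 58242409985) (nat_lit 228) (nat_lit 208129635253) (nat_lit 18) (nat_lit 5) (nat_lit 20) (nat_lit 5) (nat_lit 21) (nat_lit 5) (nat_lit 307) (nat_lit 283) (nat_lit 130)) (XT.lf (nat_lit 0) (nat_lit 227968129760) (nat_lit 228) (nat_lit 91953910576) (nat_lit 76) (nat_lit 67945999078) (nat_lit 18) (nat_lit 5) (nat_lit 21) (nat_lit 5) (nat_lit 19) (nat_lit 5) (nat_lit 308) (nat_lit 283) (nat_lit 129)))) (XT.nd (nat_lit 35646) (nat_lit 0) (nat_lit 3192) (XT.nd (nat_lit 35568) (nat_lit 0) (nat_lit 3192) (XT.lf (nat_lit 0) (nat_lit 98590915294) (nat_lit 152) (nat_lit 208050484281) (nat_lit 228) (nat_lit 105164537434) (nat_lit 16) (nat_lit 5) (nat_lit 18) (nat_lit 5) (nat_lit 19) (nat_lit 5) (nat_lit 309) (nat_lit 283) (nat_lit 128)) (XT.lf (nat_lit 0) (nat_lit 50572061211)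 (nat_lit 684) (nat_lit 5250625932) (nat_lit 684) (nat_lit 5250625932) (nat_lit 58) (nat_lit 3) (nat_lit 67) (nat_lit 3) (nat_lit 67) (nat_lit 5) (nat_lit 284) (nat_lit 284) (nat_lit 152))) (XT.nd (nat_lit 78) (nat_lit 0) (nat_lit 76) (XT.lf (nat_lit 76) (nat_lit 67145823685) (nat_lit 0) (nat_lit 39098219108) (nat_lit 684) (nat_lit 20735704755) (nat_lit 59) (nat_lit 5) (nat_lit 58) (nat_lit 3) (nat_lit 67) (nat_lit 5) (nat_lit 285) (nat_lit 284) (nat_lit 151)) (XT.lf (nat_lit 76) (nat_lit 19187201011) (nat_lit 0) (nat_lit 93662507222) (nat_lit 684) (nat_lit 19294926443) (nat_lit 60) (nat_lit 5) (nat_lit 59) (nat_lit 5) (nat_lit 68) (nat_lit 5) (nat_lit 286) (nat_lit 284) (nat_lit 150))))) (XT.nd (nat_lit 312) (nat_lit 684) (nat_lit 0) (XT.nd (nat_lit 156) (nat_lit 532) (nat_lit 0) (XT.nd (nat_lit 78) (nat_lit 0) (nat_lit 76) (XT.lf (nat_lit 76) (nat_lit 105985260789) (nat_lit 0) (nat_lit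 15688923285) (nat_lit 684) (nat_lit 15964014165) (nat_lit 60) (nat_lit 5) (nat_lit 59) (nat_lit 5) (nat_lit 68) (nat_lit 5) (nat_lit 287) (nat_lit 284) (nat_lit 149)) (XT.lf (nat_lit 76) (nat_lit 56907127323) (nat_lit 0) (nat_lit 76255297525) (nat_lit 684) (nat_lit 10310934772) (nat_lit 61) (nat_lit 5) (nat_lit 60) (nat_lit 5) (nat_lit 69) (nat_lit 5) (nat_lit 288) (nat_lit 284) (nat_lit 148))) (XT.nd (nat_lit 78) (nat_lit 684) (nat_lit 0) (XT.lf (nat_lit 76) (nat_lit 3682039051) (nat_lit 0) (nat_lit 142866077179) (nat_lit 684) (nat_lit 3178300966) (nat_lit 62) (nat_lit 5) (nat_lit 61) (nat_lit 5) (nat_lit 70) (nat_lit 5) (nat_lit 289) (nat_lit 284) (nat_lit 147)) (XT.lf (nat_lit 0) (nat_lit 7198120608) (nat_lit 684) (nat_lit 53544430258) (nat_lit 760) (nat_lit 95592738494) (nat_lit 52) (nat_lit 5) (nat_lit 61) (nat_lit 5) (nat_lit 62) (nat_lit 5) (nat_lit 290) (nat_lit 284) (nat_lit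 146)))) (XT.nd (nat_lit 156) (nat_lit 760) (nat_lit 0) (XT.nd (nat_lit 78) (nat_lit 0) (nat_lit 0) (XT.lf (nat_lit 0) (nat_lit 19490690896) (nat_lit 684) (nat_lit 116049861455) (nat_lit 76) (nat_lit 27869846749) (nat_lit 53) (nat_lit 5) (nat_lit 62) (nat_lit 5) (nat_lit 54) (nat_lit 5) (nat_lit 291) (nat_lit 284) (nat_lit 145)) (XT.lf (nat_lit 0) (nat_lit 34738508808) (nat_lit 684) (nat_lit 13794787799) (nat_lit 76) (nat_lit 122419631066) (nat_lit 53) (nat_lit 5) (nat_lit 62) (nat_lit 5) (nat_lit 54) (nat_lit 5) (nat_lit 292) (nat_lit 284) (nat_lit 144))) (XT.nd (nat_lit 78) (nat_lit 304) (nat_lit 0) (XT.lf (nat_lit 0) (nat_lit 53499422385) (nat_lit 532) (nat_lit 79920114528) (nat_lit 76) (nat_lit 45564660103) (nat_lit 47) (nat_lit 5) (nat_lit 54) (nat_lit 5) (nat_lit 48) (nat_lit 5) (nat_lit 293) (nat_lit 284) (nat_lit 143)) (XT.lf (nat_lit 0) (nat_lit 34066020401) (nat_lit 304) (nat_lit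 41289313376) (nat_lit 380) (nat_lit 112222929739) (nat_lit 43) (nat_lit 5) (nat_lit 47) (nat_lit 5) (nat_lit 48) (nat_lit 5) (nat_lit 294) (nat_lit 284) (nat_lit 142)))))) (XT.nd (nat_lit 624) (nat_lit 608) (nat_lit 0) (XT.nd (nat_lit 312) (nat_lit 760) (nat_lit 0) (XT.nd (nat_lit 156) (nat_lit 228) (nat_lit 0) (XT.nd (nat_lit 78) (nat_lit 304) (nat_lit 0) (XT.lf (nat_lit 0) (nat_lit 101283222459) (nat_lit 380) (nat_lit 37697270151) (nat_lit 76) (nat_lit 57763189218) (nat_lit 43) (nat_lit 5) (nat_lit 48) (nat_lit 5) (nat_lit 44) (nat_lit 5) (nat_lit 295) (nat_lit 284) (nat_lit 141)) (XT.lf (nat_lit 0) (nat_lit 89552628871) (nat_lit 304) (nat_lit 41826800908) (nat_lit 380) (nat_lit 75158201030) (nat_lit 39) (nat_lit 5) (nat_lit 43) (nat_lit 5) (nat_lit 44) (nat_lit 5) (nat_lit 296) (nat_lit 284) (nat_lit 140))) (XT.nd (nat_lit 78) (nat_lit 0) (nat_lit 0) (XT.lf (nat_lit 0) (nat_lit 10589108207)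 (nat_lit 228) (nat_lit 155111857143) (nat_lit 304) (nat_lit 51323250244) (nat_lit 36) (nat_lit 5) (nat_lit 39) (nat_lit 5) (nat_lit 40) (nat_lit 5) (nat_lit 297) (nat_lit 284) (nat_lit 139)) (XT.lf (nat_lit 0) (nat_lit 151817757297) (nat_lit 228) (nat_lit 53681910294) (nat_lit 304) (nat_lit 22713488735) (nat_lit 36) (nat_lit 5) (nat_lit 39) (nat_lit 5) (nat_lit 40) (nat_lit 5) (nat_lit 298) (nat_lit 284) (nat_lit 138)))) (XT.nd (nat_lit 156) (nat_lit 456) (nat_lit 0) (XT.nd (nat_lit 78) (nat_lit 0) (nat_lit 0) (XT.lf (nat_lit 0) (nat_lit 9844957533) (nat_lit 304) (nat_lit 175097572386) (nat_lit 76) (nat_lit 55252200180) (nat_lit 32) (nat_lit 5) (nat_lit 36) (nat_lit 5) (nat_lit 33) (nat_lit 5) (nat_lit 299) (nat_lit 284) (nat_lit 137)) (XT.lf (nat_lit 0) (nat_lit 46480464856) (nat_lit 304) (nat_lit 33741378032) (nat_lit 76) (nat_lit 172780962612) (nat_lit 32) (nat_lit 5) (nat_lit 36)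 (nat_lit 5) (nat_lit 33) (nat_lit 5) (nat_lit 300) (nat_lit 284) (nat_lit 136))) (XT.nd (nat_lit 78) (nat_lit 228) (nat_lit 0) (XT.lf (nat_lit 0) (nat_lit 88509449257) (nat_lit 304) (nat_lit 144429183960) (nat_lit 76) (nat_lit 33773762919) (nat_lit 29) (nat_lit 5) (nat_lit 33) (nat_lit 5) (nat_lit 30) (nat_lit 5) (nat_lit 301) (nat_lit 284) (nat_lit 135)) (XT.lf (nat_lit 0) (nat_lit 9445017245) (nat_lit 228) (nat_lit 126553069529) (nat_lit 304) (nat_lit 145415801480) (nat_lit 26) (nat_lit 5) (nat_lit 29) (nat_lit 5) (nat_lit 30) (nat_lit 5) (nat_lit 302) (nat_lit 284) (nat_lit 134))))) (XT.nd (nat_lit 312) (nat_lit 152) (nat_lit 0) (XT.nd (nat_lit 156) (nat_lit 304) (nat_lit 0) (XT.nd (nat_lit 78) (nat_lit 152) (nat_lit 0) (XT.lf (nat_lit 0) (nat_lit 180786428151) (nat_lit 228) (nat_lit 9015057646) (nat_lit 304) (nat_lit 107364231299) (nat_lit 26) (nat_lit 5) (nat_lit 29) (nat_lit 5)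 (nat_lit 30) (nat_lit 5) (nat_lit 303) (nat_lit 284) (nat_lit 133)) (XT.lf (nat_lit 0) (nat_lit 51463211872) (nat_lit 152) (nat_lit 199090405909) (nat_lit 228) (nat_lit 63491852227) (nat_lit 24) (nat_lit 5) (nat_lit 26) (nat_lit 5) (nat_lit 27) (nat_lit 5) (nat_lit 304) (nat_lit 284) (nat_lit 132))) (XT.nd (nat_lit 78) (nat_lit 304) (nat_lit 0) (XT.lf (nat_lit 0) (nat_lit 236731716711) (nat_lit 152) (nat_lit 81610844847) (nat_lit 228) (nat_lit 13824210289) (nat_lit 24) (nat_lit 5) (nat_lit 26) (nat_lit 5) (nat_lit 27) (nat_lit 5) (nat_lit 305) (nat_lit 284) (nat_lit 131)) (XT.lf (nat_lit 0) (nat_lit 40643855237) (nat_lit 304) (nat_lit 265123105120) (nat_lit 76) (nat_lit 45834665520) (nat_lit 20) (nat_lit 5) (nat_lit 24) (nat_lit 5) (nat_lit 21) (nat_lit 5) (nat_lit 306) (nat_lit 284) (nat_lit 130)))) (XT.nd (nat_lit 35802) (nat_lit 0) (nat_lit 3040) (XT.nd (nat_lit 78) (nat_lit 152)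 (nat_lit 0) (XT.lf (nat_lit 0) (nat_lit 102057133445) (nat_lit 304) (nat_lit 87791685299) (nat_lit 76) (nat_lit 182577513763) (nat_lit 20) (nat_lit 5) (nat_lit 24) (nat_lit 5) (nat_lit 21) (nat_lit 5) (nat_lit 307) (nat_lit 284) (nat_lit 129)) (XT.lf (nat_lit 0) (nat_lit 107155702014) (nat_lit 152) (nat_lit 62900631629) (nat_lit 228) (nat_lit 224777039606) (nat_lit 18) (nat_lit 5) (nat_lit 20) (nat_lit 5) (nat_lit 21) (nat_lit 5) (nat_lit 308) (nat_lit 284) (nat_lit 128))) (XT.nd (nat_lit 78) (nat_lit 0) (nat_lit 0) (XT.lf (nat_lit 0) (nat_lit 54623507103) (nat_lit 684) (nat_lit 5667675978) (nat_lit 684) (nat_lit 5667675978) (nat_lit 58) (nat_lit 3) (nat_lit 67) (nat_lit 3) (nat_lit 67) (nat_lit 5) (nat_lit 285) (nat_lit 285) (nat_lit 150)) (XT.nd (nat_lit 78) (nat_lit 0) (nat_lit 76) (XT.lf (nat_lit 76) (nat_lit 72523228881) (nat_lit 0) (nat_lit 42230947305) (nat_lit 684) (nat_lit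 22383355833) (nat_lit 59) (nat_lit 5) (nat_lit 58) (nat_lit 3) (nat_lit 67) (nat_lit 5) (nat_lit 286) (nat_lit 285) (nat_lit 149)) (XT.lf (nat_lit 76) (nat_lit 20728309171) (nat_lit 0) (nat_lit 101159225094) (nat_lit 684) (nat_lit 20828118685) (nat_lit 60) (nat_lit 5) (nat_lit 59) (nat_lit 5) (nat_lit 68) (nat_lit 5) (nat_lit 287) (nat_lit 285) (nat_lit 148))))))))
noncomputable def xc122 : XT := (XT.nd (nat_lit 1248) (nat_lit 456) (nat_lit 0) (XT.nd (nat_lit 624) (nat_lit 1292) (nat_lit 0) (XT.nd (nat_lit 312) (nat_lit 684) (nat_lit 0) (XT.nd (nat_lit 156) (nat_lit 532) (nat_lit 0) (XT.nd (nat_lit 78) (nat_lit 0) (nat_lit 76) (XT.lf (nat_lit 76) (nat_lit 114469759502) (nat_lit 0) (nat_lit 16947479087) (nat_lit 684) (nat_lit 17231503934) (nat_lit 60) (nat_lit 5) (nat_lit 59) (nat_lit 5) (nat_lit 68) (nat_lit 5) (nat_lit 288) (nat_lit 285) (nat_lit 147)) (XT.lf (nat_lit 76) (nat_lit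 61465669352) (nat_lit 0) (nat_lit 82358237213) (nat_lit 684) (nat_lit 11126845971) (nat_lit 61) (nat_lit 5) (nat_lit 60) (nat_lit 5) (nat_lit 69) (nat_lit 5) (nat_lit 289) (nat_lit 285) (nat_lit 146))) (XT.nd (nat_lit 78) (nat_lit 684) (nat_lit 0) (XT.lf (nat_lit 76) (nat_lit 3982807236) (nat_lit 0) (nat_lit 154297077808) (nat_lit 684) (nat_lit 3424201895) (nat_lit 62) (nat_lit 5) (nat_lit 61) (nat_lit 5) (nat_lit 70) (nat_lit 5) (nat_lit 290) (nat_lit 285) (nat_lit 145)) (XT.lf (nat_lit 0) (nat_lit 7781466066) (nat_lit 684) (nat_lit 57821949381) (nat_lit 760) (nat_lit 103238280246) (nat_lit 52) (nat_lit 5) (nat_lit 61) (nat_lit 5) (nat_lit 62) (nat_lit 5) (nat_lit 291) (nat_lit 285) (nat_lit 144)))) (XT.nd (nat_lit 156) (nat_lit 760) (nat_lit 0) (XT.nd (nat_lit 78) (nat_lit 0) (nat_lit 0) (XT.lf (nat_lit 0) (nat_lit 21056957229) (nat_lit 684) (nat_lit 125327667279) (nat_lit 76) (nat_lit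 30098217055) (nat_lit 53) (nat_lit 5) (nat_lit 62) (nat_lit 5) (nat_lit 54) (nat_lit 5) (nat_lit 292) (nat_lit 285) (nat_lit 143)) (XT.lf (nat_lit 0) (nat_lit 37524081237) (nat_lit 684) (nat_lit 14892645737) (nat_lit 76) (nat_lit 132212074298) (nat_lit 53) (nat_lit 5) (nat_lit 62) (nat_lit 5) (nat_lit 54) (nat_lit 5) (nat_lit 293) (nat_lit 285) (nat_lit 142))) (XT.nd (nat_lit 78) (nat_lit 304) (nat_lit 0) (XT.lf (nat_lit 0) (nat_lit 57785462850) (nat_lit 532) (nat_lit 86307899551) (nat_lit 76) (nat_lit 49209232683) (nat_lit 47) (nat_lit 5) (nat_lit 54) (nat_lit 5) (nat_lit 48) (nat_lit 5) (nat_lit 294) (nat_lit 285) (nat_lit 141)) (XT.lf (nat_lit 0) (nat_lit 36796873062) (nat_lit 304) (nat_lit 44592610206) (nat_lit 380) (nat_lit 121194724301) (nat_lit 43) (nat_lit 5) (nat_lit 47) (nat_lit 5) (nat_lit 48) (nat_lit 5) (nat_lit 295) (nat_lit 285) (nat_lit 140))))) (XT.nd (nat_lit 312)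 (nat_lit 760) (nat_lit 0) (XT.nd (nat_lit 156) (nat_lit 228) (nat_lit 0) (XT.nd (nat_lit 78) (nat_lit 304) (nat_lit 0) (XT.lf (nat_lit 0) (nat_lit 109391176941) (nat_lit 380) (nat_lit 40707597663) (nat_lit 76) (nat_lit 62384108335) (nat_lit 43) (nat_lit 5) (nat_lit 48) (nat_lit 5) (nat_lit 44) (nat_lit 5) (nat_lit 296) (nat_lit 285) (nat_lit 139)) (XT.lf (nat_lit 0) (nat_lit 96722056252) (nat_lit 304) (nat_lit 45172713701) (nat_lit 380) (nat_lit 81165595550) (nat_lit 39) (nat_lit 5) (nat_lit 43) (nat_lit 5) (nat_lit 44) (nat_lit 5) (nat_lit 297) (nat_lit 285) (nat_lit 138))) (XT.nd (nat_lit 78) (nat_lit 0) (nat_lit 0) (XT.lf (nat_lit 0) (nat_lit 11441487540) (nat_lit 228) (nat_lit 167520256832) (nat_lit 304) (nat_lit 55424148859) (nat_lit 36) (nat_lit 5) (nat_lit 39) (nat_lit 5) (nat_lit 40) (nat_lit 5) (nat_lit 298) (nat_lit 285) (nat_lit 137)) (XT.lf (nat_lit 0) (nat_lit 163968039618)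 (nat_lit 228) (nat_lit 57975954893) (nat_lit 304) (nat_lit 24525973940) (nat_lit 36) (nat_lit 5) (nat_lit 39) (nat_lit 5) (nat_lit 40) (nat_lit 5) (nat_lit 299) (nat_lit 285) (nat_lit 136)))) (XT.nd (nat_lit 156) (nat_lit 456) (nat_lit 0) (XT.nd (nat_lit 78) (nat_lit 0) (nat_lit 0) (XT.lf (nat_lit 0) (nat_lit 10636756391) (nat_lit 304) (nat_lit 189100346414) (nat_lit 76) (nat_lit 59672975568) (nat_lit 32) (nat_lit 5) (nat_lit 36) (nat_lit 5) (nat_lit 33) (nat_lit 5) (nat_lit 300) (nat_lit 285) (nat_lit 135)) (XT.lf (nat_lit 0) (nat_lit 50202793022) (nat_lit 304) (nat_lit 36436029234) (nat_lit 76) (nat_lit 186603994597) (nat_lit 32) (nat_lit 5) (nat_lit 36) (nat_lit 5) (nat_lit 33) (nat_lit 5) (nat_lit 301) (nat_lit 285) (nat_lit 134))) (XT.nd (nat_lit 78) (nat_lit 228) (nat_lit 0) (XT.lf (nat_lit 0) (nat_lit 95593889778) (nat_lit 304) (nat_lit 155978873575) (nat_lit 76) (nat_lit 36476423080)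 (nat_lit 29) (nat_lit 5) (nat_lit 33) (nat_lit 5) (nat_lit 30) (nat_lit 5) (nat_lit 302) (nat_lit 285) (nat_lit 133)) (XT.lf (nat_lit 0) (nat_lit 10205061856) (nat_lit 228) (nat_lit 136676352879) (nat_lit 304) (nat_lit 157045394634) (nat_lit 26) (nat_lit 5) (nat_lit 29) (nat_lit 5) (nat_lit 30) (nat_lit 5) (nat_lit 303) (nat_lit 285) (nat_lit 132)))))) (XT.nd (nat_lit 36348) (nat_lit 0) (nat_lit 1748) (XT.nd (nat_lit 312) (nat_lit 0) (nat_lit 0) (XT.nd (nat_lit 156) (nat_lit 304) (nat_lit 0) (XT.nd (nat_lit 78) (nat_lit 152) (nat_lit 0) (XT.lf (nat_lit 0) (nat_lit 195253456506) (nat_lit 228) (nat_lit 9735371321) (nat_lit 304) (nat_lit 115949970762) (nat_lit 26) (nat_lit 5) (nat_lit 29) (nat_lit 5) (nat_lit 30) (nat_lit 5) (nat_lit 304) (nat_lit 285) (nat_lit 131)) (XT.lf (nat_lit 0) (nat_lit 55584359057) (nat_lit 152) (nat_lit 215016609300) (nat_lit 228) (nat_lit 68567972568) (nat_lit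 24) (nat_lit 5) (nat_lit 26) (nat_lit 5) (nat_lit 27) (nat_lit 5) (nat_lit 305) (nat_lit 285) (nat_lit 130))) (XT.nd (nat_lit 78) (nat_lit 304) (nat_lit 0) (XT.lf (nat_lit 0) (nat_lit 255674041302) (nat_lit 152) (nat_lit 88138759581) (nat_lit 228) (nat_lit 14927158374) (nat_lit 24) (nat_lit 5) (nat_lit 26) (nat_lit 5) (nat_lit 27) (nat_lit 5) (nat_lit 306) (nat_lit 285) (nat_lit 129)) (XT.lf (nat_lit 0) (nat_lit 43898116038) (nat_lit 304) (nat_lit 286329095333) (nat_lit 76) (nat_lit 49502395832) (nat_lit 20) (nat_lit 5) (nat_lit 24) (nat_lit 5) (nat_lit 21) (nat_lit 5) (nat_lit 307) (nat_lit 285) (nat_lit 128)))) (XT.nd (nat_lit 35880) (nat_lit 0) (nat_lit 2888) (XT.nd (nat_lit 35802) (nat_lit 0) (nat_lit 2888) (XT.lf (nat_lit 0) (nat_lit 110224252622) (nat_lit 304) (nat_lit 94811447718) (nat_lit 76) (nat_lit 197184601040) (nat_lit 20) (nat_lit 5) (nat_lit 24) (nat_lit 5) (nat_lit 21)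 (nat_lit 5) (nat_lit 308) (nat_lit 285) (nat_lit 127)) (XT.lf (nat_lit 0) (nat_lit 58998258210) (nat_lit 684) (nat_lit 6118518016) (nat_lit 684) (nat_lit 6118518016) (nat_lit 58) (nat_lit 3) (nat_lit 67) (nat_lit 3) (nat_lit 67) (nat_lit 5) (nat_lit 286) (nat_lit 286) (nat_lit 148))) (XT.nd (nat_lit 78) (nat_lit 0) (nat_lit 76) (XT.lf (nat_lit 76) (nat_lit 78330007717) (nat_lit 0) (nat_lit 45613598902) (nat_lit 684) (nat_lit 24164417559) (nat_lit 59) (nat_lit 5) (nat_lit 58) (nat_lit 3) (nat_lit 67) (nat_lit 5) (nat_lit 287) (nat_lit 286) (nat_lit 147)) (XT.lf (nat_lit 76) (nat_lit 22391831174) (nat_lit 0) (nat_lit 109255150082) (nat_lit 684) (nat_lit 22485450250) (nat_lit 60) (nat_lit 5) (nat_lit 59) (nat_lit 5) (nat_lit 68) (nat_lit 5) (nat_lit 288) (nat_lit 286) (nat_lit 146))))) (XT.nd (nat_lit 312) (nat_lit 684) (nat_lit 0) (XT.nd (nat_lit 156) (nat_lit 532) (nat_lit 0) (XT.nd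 (nat_lit 78) (nat_lit 0) (nat_lit 76) (XT.lf (nat_lit 76) (nat_lit 123632208105) (nat_lit 0) (nat_lit 18306228322) (nat_lit 684) (nat_lit 18601766906) (nat_lit 60) (nat_lit 5) (nat_lit 59) (nat_lit 5) (nat_lit 68) (nat_lit 5) (nat_lit 289) (nat_lit 286) (nat_lit 145)) (XT.lf (nat_lit 76) (nat_lit 66388042794) (nat_lit 0) (nat_lit 88949053156) (nat_lit 684) (nat_lit 12009308820) (nat_lit 61) (nat_lit 5) (nat_lit 60) (nat_lit 5) (nat_lit 69) (nat_lit 5) (nat_lit 290) (nat_lit 286) (nat_lit 144))) (XT.nd (nat_lit 78) (nat_lit 684) (nat_lit 0) (XT.lf (nat_lit 76) (nat_lit 4306751656) (nat_lit 0) (nat_lit 166642313901) (nat_lit 684) (nat_lit 3690967995) (nat_lit 62) (nat_lit 5) (nat_lit 61) (nat_lit 5) (nat_lit 70) (nat_lit 5) (nat_lit 291) (nat_lit 286) (nat_lit 143)) (XT.lf (nat_lit 0) (nat_lit 8410409801) (nat_lit 684) (nat_lit 62442531037) (nat_lit 760) (nat_lit 111495733160) (nat_lit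 52) (nat_lit 5) (nat_lit 61) (nat_lit 5) (nat_lit 62) (nat_lit 5) (nat_lit 292) (nat_lit 286) (nat_lit 142)))) (XT.nd (nat_lit 156) (nat_lit 760) (nat_lit 0) (XT.nd (nat_lit 78) (nat_lit 0) (nat_lit 0) (XT.lf (nat_lit 0) (nat_lit 22747524663) (nat_lit 684) (nat_lit 135348579656) (nat_lit 76) (nat_lit 32505030667) (nat_lit 53) (nat_lit 5) (nat_lit 62) (nat_lit 5) (nat_lit 54) (nat_lit 5) (nat_lit 293) (nat_lit 286) (nat_lit 141)) (XT.lf (nat_lit 0) (nat_lit 40531573342) (nat_lit 684) (nat_lit 16079149058) (nat_lit 76) (nat_lit 142788073804) (nat_lit 53) (nat_lit 5) (nat_lit 62) (nat_lit 5) (nat_lit 54) (nat_lit 5) (nat_lit 294) (nat_lit 286) (nat_lit 140))) (XT.nd (nat_lit 78) (nat_lit 304) (nat_lit 0) (XT.lf (nat_lit 0) (nat_lit 62413518220) (nat_lit 532) (nat_lit 93207538254) (nat_lit 76) (nat_lit 53145456699) (nat_lit 47) (nat_lit 5) (nat_lit 54) (nat_lit 5) (nat_lit 48) (nat_lit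 5) (nat_lit 295) (nat_lit 286) (nat_lit 139)) (XT.nd (nat_lit 78) (nat_lit 0) (nat_lit 0) (XT.lf (nat_lit 0) (nat_lit 39745399167) (nat_lit 304) (nat_lit 48160149131) (nat_lit 380) (nat_lit 130885124075) (nat_lit 43) (nat_lit 5) (nat_lit 47) (nat_lit 5) (nat_lit 48) (nat_lit 5) (nat_lit 296) (nat_lit 286) (nat_lit 138)) (XT.lf (nat_lit 0) (nat_lit 118147012150) (nat_lit 380) (nat_lit 43959529465) (nat_lit 76) (nat_lit 67374720386) (nat_lit 43) (nat_lit 5) (nat_lit 48) (nat_lit 5) (nat_lit 44) (nat_lit 5) (nat_lit 297) (nat_lit 286) (nat_lit 137))))))))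
noncomputable def xc123 : XT := (XT.nd (nat_lit 37128) (nat_lit 0) (nat_lit 304) (XT.nd (nat_lit 624) (nat_lit 456) (nat_lit 0) (XT.nd (nat_lit 312) (nat_lit 456) (nat_lit 0) (XT.nd (nat_lit 156) (nat_lit 304) (nat_lit 0) (XT.nd (nat_lit 78) (nat_lit 228) (nat_lit 0) (XT.lf (nat_lit 0) (nat_lit 104464293550) (nat_lit 304) (nat_lit 48786332511) (nat_lit 380) (nat_lit 87654332252) (nat_lit 39) (nat_lit 5) (nat_lit 43) (nat_lit 5) (nat_lit 44) (nat_lit 5) (nat_lit 298) (nat_lit 286) (nat_lit 136)) (XT.lf (nat_lit 0) (nat_lit 12361308152) (nat_lit 228) (nat_lit 180921406801) (nat_lit 304) (nat_lit 59853827162) (nat_lit 36) (nat_lit 5) (nat_lit 39) (nat_lit 5) (nat_lit 40) (nat_lit 5) (nat_lit 299) (nat_lit 286) (nat_lit 135))) (XT.nd (nat_lit 78) (nat_lit 304) (nat_lit 0) (XT.lf (nat_lit 0) (nat_lit 177089650944) (nat_lit 228) (nat_lit 62613595564) (nat_lit 304) (nat_lit 26484113333) (nat_lit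 36) (nat_lit 5) (nat_lit 39) (nat_lit 5) (nat_lit 40) (nat_lit 5) (nat_lit 300) (nat_lit 286) (nat_lit 134)) (XT.lf (nat_lit 0) (nat_lit 11491299659) (nat_lit 304) (nat_lit 204224060201) (nat_lit 76) (nat_lit 64447327479) (nat_lit 32) (nat_lit 5) (nat_lit 36) (nat_lit 5) (nat_lit 33) (nat_lit 5) (nat_lit 301) (nat_lit 286) (nat_lit 133)))) (XT.nd (nat_lit 156) (nat_lit 228) (nat_lit 0) (XT.nd (nat_lit 78) (nat_lit 228) (nat_lit 0) (XT.lf (nat_lit 0) (nat_lit 54222352350) (nat_lit 304) (nat_lit 39346917197) (nat_lit 76) (nat_lit 201532789966) (nat_lit 32) (nat_lit 5) (nat_lit 36) (nat_lit 5) (nat_lit 33) (nat_lit 5) (nat_lit 302) (nat_lit 286) (nat_lit 132)) (XT.lf (nat_lit 0) (nat_lit 103244559894) (nat_lit 304) (nat_lit 168453201035) (nat_lit 76) (nat_lit 39395187756) (nat_lit 29) (nat_lit 5) (nat_lit 33) (nat_lit 5) (nat_lit 30) (nat_lit 5) (nat_lit 303) (nat_lit 286) (nat_lit 131)))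 (XT.nd (nat_lit 78) (nat_lit 0) (nat_lit 0) (XT.lf (nat_lit 0) (nat_lit 11025276159) (nat_lit 228) (nat_lit 147609636169) (nat_lit 304) (nat_lit 169605878945) (nat_lit 26) (nat_lit 5) (nat_lit 29) (nat_lit 5) (nat_lit 30) (nat_lit 5) (nat_lit 304) (nat_lit 286) (nat_lit 130)) (XT.lf (nat_lit 0) (nat_lit 210877260207) (nat_lit 228) (nat_lit 10513437192) (nat_lit 304) (nat_lit 125223054293) (nat_lit 26) (nat_lit 5) (nat_lit 29) (nat_lit 5) (nat_lit 30) (nat_lit 5) (nat_lit 305) (nat_lit 286) (nat_lit 129))))) (XT.nd (nat_lit 36114) (nat_lit 0) (nat_lit 2888) (XT.nd (nat_lit 156) (nat_lit 304) (nat_lit 0) (XT.nd (nat_lit 78) (nat_lit 0) (nat_lit 0) (XT.lf (nat_lit 0) (nat_lit 60034614499) (nat_lit 152) (nat_lit 232217055772) (nat_lit 228) (nat_lit 74050643024) (nat_lit 24) (nat_lit 5) (nat_lit 26) (nat_lit 5) (nat_lit 27) (nat_lit 5) (nat_lit 306) (nat_lit 286) (nat_lit 128)) (XT.lf (nat_lit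 0) (nat_lit 276131211567) (nat_lit 152) (nat_lit 95189043429) (nat_lit 228) (nat_lit 16118768683) (nat_lit 24) (nat_lit 5) (nat_lit 26) (nat_lit 5) (nat_lit 27) (nat_lit 5) (nat_lit 307) (nat_lit 286) (nat_lit 127))) (XT.nd (nat_lit 35880) (nat_lit 0) (nat_lit 2888) (XT.lf (nat_lit 0) (nat_lit 47412325045) (nat_lit 304) (nat_lit 309232115178) (nat_lit 76) (nat_lit 53463408031) (nat_lit 20) (nat_lit 5) (nat_lit 24) (nat_lit 5) (nat_lit 21) (nat_lit 5) (nat_lit 308) (nat_lit 286) (nat_lit 126)) (XT.lf (nat_lit 0) (nat_lit 63722294569) (nat_lit 684) (nat_lit 6605794347) (nat_lit 684) (nat_lit 6605794347) (nat_lit 58) (nat_lit 3) (nat_lit 67) (nat_lit 3) (nat_lit 67) (nat_lit 5) (nat_lit 287) (nat_lit 287) (nat_lit 146)))) (XT.nd (nat_lit 156) (nat_lit 0) (nat_lit 76) (XT.nd (nat_lit 78) (nat_lit 0) (nat_lit 76) (XT.lf (nat_lit 76) (nat_lit 84600626892) (nat_lit 0) (nat_lit 49266266901)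 (nat_lit 684) (nat_lit 26089334732) (nat_lit 59) (nat_lit 5) (nat_lit 58) (nat_lit 3) (nat_lit 67) (nat_lit 5) (nat_lit 288) (nat_lit 287) (nat_lit 145)) (XT.lf (nat_lit 76) (nat_lit 24187684929) (nat_lit 0) (nat_lit 117998294410) (nat_lit 684) (nat_lit 24276640582) (nat_lit 60) (nat_lit 5) (nat_lit 59) (nat_lit 5) (nat_lit 68) (nat_lit 5) (nat_lit 289) (nat_lit 287) (nat_lit 144))) (XT.nd (nat_lit 78) (nat_lit 0) (nat_lit 76) (XT.lf (nat_lit 76) (nat_lit 133526958143) (nat_lit 0) (nat_lit 19773256515) (nat_lit 684) (nat_lit 20082828918) (nat_lit 60) (nat_lit 5) (nat_lit 59) (nat_lit 5) (nat_lit 68) (nat_lit 5) (nat_lit 290) (nat_lit 287) (nat_lit 143)) (XT.nd (nat_lit 78) (nat_lit 0) (nat_lit 76) (XT.lf (nat_lit 76) (nat_lit 71703475701) (nat_lit 0) (nat_lit 96066826660) (nat_lit 684) (nat_lit 12963465024) (nat_lit 61) (nat_lit 5) (nat_lit 60) (nat_lit 5) (nat_lit 69) (nat_lit 5) (nat_lit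 291) (nat_lit 287) (nat_lit 142)) (XT.lf (nat_lit 76) (nat_lit 4655852694) (nat_lit 0) (nat_lit 179974959188) (nat_lit 684) (nat_lit 3980098272) (nat_lit 62) (nat_lit 5) (nat_lit 61) (nat_lit 5) (nat_lit 70) (nat_lit 5) (nat_lit 292) (nat_lit 287) (nat_lit 141))))))) (XT.nd (nat_lit 624) (nat_lit 912) (nat_lit 0) (XT.nd (nat_lit 312) (nat_lit 836) (nat_lit 0) (XT.nd (nat_lit 156) (nat_lit 380) (nat_lit 0) (XT.nd (nat_lit 78) (nat_lit 0) (nat_lit 76) (XT.lf (nat_lit 0) (nat_lit 9088752229) (nat_lit 684) (nat_lit 67433497396) (nat_lit 760) (nat_lit 120414011921) (nat_lit 52) (nat_lit 5) (nat_lit 61) (nat_lit 5) (nat_lit 62) (nat_lit 5) (nat_lit 293) (nat_lit 287) (nat_lit 140)) (XT.lf (nat_lit 0) (nat_lit 24572479976) (nat_lit 684) (nat_lit 146171921271) (nat_lit 76) (nat_lit 35104538271) (nat_lit 53) (nat_lit 5) (nat_lit 62) (nat_lit 5) (nat_lit 54) (nat_lit 5) (nat_lit 294) (nat_lit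 287) (nat_lit 139))) (XT.nd (nat_lit 78) (nat_lit 456) (nat_lit 0) (XT.lf (nat_lit 0) (nat_lit 43778870821) (nat_lit 684) (nat_lit 17361272874) (nat_lit 76) (nat_lit 154210291144) (nat_lit 53) (nat_lit 5) (nat_lit 62) (nat_lit 5) (nat_lit 54) (nat_lit 5) (nat_lit 295) (nat_lit 287) (nat_lit 138)) (XT.lf (nat_lit 0) (nat_lit 67411073565) (nat_lit 532) (nat_lit 100659860398) (nat_lit 76) (nat_lit 57396652049) (nat_lit 47) (nat_lit 5) (nat_lit 54) (nat_lit 5) (nat_lit 48) (nat_lit 5) (nat_lit 296) (nat_lit 287) (nat_lit 137)))) (XT.nd (nat_lit 156) (nat_lit 532) (nat_lit 0) (XT.nd (nat_lit 78) (nat_lit 0) (nat_lit 0) (XT.lf (nat_lit 0) (nat_lit 42929125974) (nat_lit 304) (nat_lit 52013072609) (nat_lit 380) (nat_lit 141351494555) (nat_lit 43) (nat_lit 5) (nat_lit 47) (nat_lit 5) (nat_lit 48) (nat_lit 5) (nat_lit 297) (nat_lit 287) (nat_lit 136)) (XT.lf (nat_lit 0) (nat_lit 127602666343)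 (nat_lit 380) (nat_lit 47472282896) (nat_lit 76) (nat_lit 72764598038) (nat_lit 43) (nat_lit 5) (nat_lit 48) (nat_lit 5) (nat_lit 44) (nat_lit 5) (nat_lit 298) (nat_lit 287) (nat_lit 135))) (XT.nd (nat_lit 78) (nat_lit 228) (nat_lit 0) (XT.lf (nat_lit 0) (nat_lit 112825271737) (nat_lit 304) (nat_lit 52689069114) (nat_lit 380) (nat_lit 94662811427) (nat_lit 39) (nat_lit 5) (nat_lit 43) (nat_lit 5) (nat_lit 44) (nat_lit 5) (nat_lit 299) (nat_lit 287) (nat_lit 134)) (XT.lf (nat_lit 0) (nat_lit 13354072208) (nat_lit 228) (nat_lit 195394715900) (nat_lit 304) (nat_lit 64638486555) (nat_lit 36) (nat_lit 5) (nat_lit 39) (nat_lit 5) (nat_lit 40) (nat_lit 5) (nat_lit 300) (nat_lit 287) (nat_lit 133))))) (XT.nd (nat_lit 312) (nat_lit 380) (nat_lit 0) (XT.nd (nat_lit 156) (nat_lit 228) (nat_lit 0) (XT.nd (nat_lit 78) (nat_lit 304) (nat_lit 0) (XT.lf (nat_lit 0) (nat_lit 191260396542) (nat_lit 228)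 (nat_lit 67622309649) (nat_lit 304) (nat_lit 28599465751) (nat_lit 36) (nat_lit 5) (nat_lit 39) (nat_lit 5) (nat_lit 40) (nat_lit 5) (nat_lit 301) (nat_lit 287) (nat_lit 132)) (XT.lf (nat_lit 0) (nat_lit 12413692415) (nat_lit 304) (nat_lit 220558286521) (nat_lit 76) (nat_lit 69603554234) (nat_lit 32) (nat_lit 5) (nat_lit 36) (nat_lit 5) (nat_lit 33) (nat_lit 5) (nat_lit 302) (nat_lit 287) (nat_lit 131))) (XT.nd (nat_lit 78) (nat_lit 228) (nat_lit 0) (XT.lf (nat_lit 0) (nat_lit 58563000523) (nat_lit 304) (nat_lit 42491246040) (nat_lit 76) (nat_lit 217655821087) (nat_lit 32) (nat_lit 5) (nat_lit 36) (nat_lit 5) (nat_lit 33) (nat_lit 5) (nat_lit 303) (nat_lit 287) (nat_lit 130)) (XT.lf (nat_lit 0) (nat_lit 111506832962) (nat_lit 304) (nat_lit 181926042829) (nat_lit 76) (nat_lit 42547360757) (nat_lit 29) (nat_lit 5) (nat_lit 33) (nat_lit 5) (nat_lit 30) (nat_lit 5) (nat_lit 304) (nat_lit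 287) (nat_lit 129)))) (XT.nd (nat_lit 156) (nat_lit 152) (nat_lit 0) (XT.nd (nat_lit 78) (nat_lit 0) (nat_lit 0) (XT.lf (nat_lit 0) (nat_lit 11910564159) (nat_lit 228) (nat_lit 159417699808) (nat_lit 304) (nat_lit 183171650992) (nat_lit 26) (nat_lit 5) (nat_lit 29) (nat_lit 5) (nat_lit 30) (nat_lit 5) (nat_lit 305) (nat_lit 287) (nat_lit 128)) (XT.lf (nat_lit 0) (nat_lit 227750465012) (nat_lit 228) (nat_lit 11353857303) (nat_lit 304) (nat_lit 135238400240) (nat_lit 26) (nat_lit 5) (nat_lit 29) (nat_lit 5) (nat_lit 30) (nat_lit 5) (nat_lit 306) (nat_lit 287) (nat_lit 127))) (XT.nd (nat_lit 36036) (nat_lit 0) (nat_lit 2584) (XT.lf (nat_lit 0) (nat_lit 64840390103) (nat_lit 152) (nat_lit 250793663828) (nat_lit 228) (nat_lit 79972321909) (nat_lit 24) (nat_lit 5) (nat_lit 26) (nat_lit 5) (nat_lit 27) (nat_lit 5) (nat_lit 307) (nat_lit 287) (nat_lit 126)) (XT.nd (nat_lit 78) (nat_lit 0) (nat_lit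 0) (XT.lf (nat_lit 0) (nat_lit 68823658125) (nat_lit 684) (nat_lit 7132367368) (nat_lit 684) (nat_lit 7132367368) (nat_lit 58) (nat_lit 3) (nat_lit 67) (nat_lit 3) (nat_lit 67) (nat_lit 5) (nat_lit 288) (nat_lit 288) (nat_lit 144)) (XT.lf (nat_lit 76) (nat_lit 91372293777) (nat_lit 0) (nat_lit 53210637600) (nat_lit 684) (nat_lit 28169420269) (nat_lit 59) (nat_lit 5) (nat_lit 58) (nat_lit 3) (nat_lit 67) (nat_lit 5) (nat_lit 289) (nat_lit 288) (nat_lit 143))))))))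
noncomputable def xc124 : XT := (XT.nd (nat_lit 1248) (nat_lit 228) (nat_lit 0) (XT.nd (nat_lit 624) (nat_lit 1368) (nat_lit 0) (XT.nd (nat_lit 312) (nat_lit 912) (nat_lit 0) (XT.nd (nat_lit 156) (nat_lit 0) (nat_lit 76) (XT.nd (nat_lit 78) (nat_lit 0) (nat_lit 0) (XT.lf (nat_lit 76) (nat_lit 26126563973) (nat_lit 0) (nat_lit 127440500489) (nat_lit 684) (nat_lit 26212216884) (nat_lit 60) (nat_lit 5) (nat_lit 59) (nat_lit 5) (nat_lit 68) (nat_lit 5) (nat_lit 290) (nat_lit 288) (nat_lit 142)) (XT.lf (nat_lit 76) (nat_lit 144212692804) (nat_lit 0) (nat_lit 21357286042) (nat_lit 684) (nat_lit 21683385838) (nat_lit 60) (nat_lit 5) (nat_lit 59) (nat_lit 5) (nat_lit 68) (nat_lit 5) (nat_lit 291) (nat_lit 288) (nat_lit 141))) (XT.nd (nat_lit 78) (nat_lit 0) (nat_lit 76) (XT.lf (nat_lit 76) (nat_lit 77443517032) (nat_lit 0) (nat_lit 103753758227) (nat_lit 684) (nat_lit 13994893648) (nat_lit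 61) (nat_lit 5) (nat_lit 60) (nat_lit 5) (nat_lit 69) (nat_lit 5) (nat_lit 292) (nat_lit 288) (nat_lit 140)) (XT.lf (nat_lit 76) (nat_lit 5032231151) (nat_lit 0) (nat_lit 194374036321) (nat_lit 684) (nat_lit 4293235932) (nat_lit 62) (nat_lit 5) (nat_lit 61) (nat_lit 5) (nat_lit 70) (nat_lit 5) (nat_lit 293) (nat_lit 288) (nat_lit 139)))) (XT.nd (nat_lit 156) (nat_lit 380) (nat_lit 0) (XT.nd (nat_lit 78) (nat_lit 0) (nat_lit 76) (XT.lf (nat_lit 0) (nat_lit 9820576039) (nat_lit 684) (nat_lit 72824373927) (nat_lit 760) (nat_lit 130045949840) (nat_lit 52) (nat_lit 5) (nat_lit 61) (nat_lit 5) (nat_lit 62) (nat_lit 5) (nat_lit 294) (nat_lit 288) (nat_lit 138)) (XT.lf (nat_lit 0) (nat_lit 26542696532) (nat_lit 684) (nat_lit 157861778575) (nat_lit 76) (nat_lit 37912134143) (nat_lit 53) (nat_lit 5) (nat_lit 62) (nat_lit 5) (nat_lit 54) (nat_lit 5) (nat_lit 295) (nat_lit 288) (nat_lit 137)))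 (XT.nd (nat_lit 78) (nat_lit 456) (nat_lit 0) (XT.lf (nat_lit 0) (nat_lit 47285271373) (nat_lit 684) (nat_lit 18746566928) (nat_lit 76) (nat_lit 166546404075) (nat_lit 53) (nat_lit 5) (nat_lit 62) (nat_lit 5) (nat_lit 54) (nat_lit 5) (nat_lit 296) (nat_lit 288) (nat_lit 136)) (XT.lf (nat_lit 0) (nat_lit 72807795087) (nat_lit 532) (nat_lit 108708979034) (nat_lit 76) (nat_lit 61988005967) (nat_lit 47) (nat_lit 5) (nat_lit 54) (nat_lit 5) (nat_lit 48) (nat_lit 5) (nat_lit 297) (nat_lit 288) (nat_lit 135))))) (XT.nd (nat_lit 312) (nat_lit 532) (nat_lit 0) (XT.nd (nat_lit 156) (nat_lit 532) (nat_lit 0) (XT.nd (nat_lit 78) (nat_lit 0) (nat_lit 0) (XT.lf (nat_lit 0) (nat_lit 46366966746) (nat_lit 304) (nat_lit 56174214052) (nat_lit 380) (nat_lit 152655808010) (nat_lit 43) (nat_lit 5) (nat_lit 47) (nat_lit 5) (nat_lit 48) (nat_lit 5) (nat_lit 298) (nat_lit 288) (nat_lit 134)) (XT.lf (nat_lit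 0) (nat_lit 137814217460) (nat_lit 380) (nat_lit 51266628520) (nat_lit 76) (nat_lit 78585680165) (nat_lit 43) (nat_lit 5) (nat_lit 48) (nat_lit 5) (nat_lit 44) (nat_lit 5) (nat_lit 299) (nat_lit 288) (nat_lit 133))) (XT.nd (nat_lit 78) (nat_lit 228) (nat_lit 0) (XT.lf (nat_lit 0) (nat_lit 121854581115) (nat_lit 304) (nat_lit 56904048898) (nat_lit 380) (nat_lit 102232520664) (nat_lit 39) (nat_lit 5) (nat_lit 43) (nat_lit 5) (nat_lit 44) (nat_lit 5) (nat_lit 300) (nat_lit 288) (nat_lit 132)) (XT.lf (nat_lit 0) (nat_lit 14425706802) (nat_lit 228) (nat_lit 211025947283) (nat_lit 304) (nat_lit 69806438953) (nat_lit 36) (nat_lit 5) (nat_lit 39) (nat_lit 5) (nat_lit 40) (nat_lit 5) (nat_lit 301) (nat_lit 288) (nat_lit 131)))) (XT.nd (nat_lit 156) (nat_lit 228) (nat_lit 0) (XT.nd (nat_lit 78) (nat_lit 304) (nat_lit 0) (XT.lf (nat_lit 0) (nat_lit 206564291985) (nat_lit 228) (nat_lit 73031774153)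 (nat_lit 304) (nat_lit 30884528079) (nat_lit 36) (nat_lit 5) (nat_lit 39) (nat_lit 5) (nat_lit 40) (nat_lit 5) (nat_lit 302) (nat_lit 288) (nat_lit 130)) (XT.lf (nat_lit 0) (nat_lit 13409435942) (nat_lit 304) (nat_lit 238199778579) (nat_lit 76) (nat_lit 75172216280) (nat_lit 32) (nat_lit 5) (nat_lit 36) (nat_lit 5) (nat_lit 33) (nat_lit 5) (nat_lit 303) (nat_lit 288) (nat_lit 129))) (XT.nd (nat_lit 78) (nat_lit 228) (nat_lit 0) (XT.lf (nat_lit 0) (nat_lit 63250492540) (nat_lit 304) (nat_lit 45887609738) (nat_lit 76) (nat_lit 235068636502) (nat_lit 32) (nat_lit 5) (nat_lit 36) (nat_lit 5) (nat_lit 33) (nat_lit 5) (nat_lit 304) (nat_lit 288) (nat_lit 128)) (XT.lf (nat_lit 0) (nat_lit 120429701509) (nat_lit 304) (nat_lit 196477199054) (nat_lit 76) (nat_lit 45951627997) (nat_lit 29) (nat_lit 5) (nat_lit 33) (nat_lit 5) (nat_lit 30) (nat_lit 5) (nat_lit 305) (nat_lit 288) (nat_lit 127))))))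 (XT.nd (nat_lit 36660) (nat_lit 0) (nat_lit 760) (XT.nd (nat_lit 36348) (nat_lit 0) (nat_lit 2508) (XT.nd (nat_lit 36192) (nat_lit 0) (nat_lit 2432) (XT.nd (nat_lit 78) (nat_lit 0) (nat_lit 0) (XT.lf (nat_lit 0) (nat_lit 12866209281) (nat_lit 228) (nat_lit 172170509436) (nat_lit 304) (nat_lit 197823069741) (nat_lit 26) (nat_lit 5) (nat_lit 29) (nat_lit 5) (nat_lit 30) (nat_lit 5) (nat_lit 306) (nat_lit 288) (nat_lit 126)) (XT.lf (nat_lit 0) (nat_lit 245973094795) (nat_lit 228) (nat_lit 12261604446) (nat_lit 304) (nat_lit 146055330287) (nat_lit 26) (nat_lit 5) (nat_lit 29) (nat_lit 5) (nat_lit 30) (nat_lit 5) (nat_lit 307) (nat_lit 288) (nat_lit 125))) (XT.nd (nat_lit 78) (nat_lit 0) (nat_lit 0) (XT.lf (nat_lit 0) (nat_lit 74332620041) (nat_lit 684) (nat_lit 7701335935) (nat_lit 684) (nat_lit 7701335935) (nat_lit 58) (nat_lit 3) (nat_lit 67) (nat_lit 3) (nat_lit 67) (nat_lit 5) (nat_lit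 289) (nat_lit 289) (nat_lit 142)) (XT.lf (nat_lit 76) (nat_lit 98685178045) (nat_lit 0) (nat_lit 57470120078) (nat_lit 684) (nat_lit 30416920014) (nat_lit 59) (nat_lit 5) (nat_lit 58) (nat_lit 3) (nat_lit 67) (nat_lit 5) (nat_lit 290) (nat_lit 289) (nat_lit 141)))) (XT.nd (nat_lit 156) (nat_lit 0) (nat_lit 76) (XT.nd (nat_lit 78) (nat_lit 0) (nat_lit 0) (XT.lf (nat_lit 76) (nat_lit 28220002062) (nat_lit 0) (nat_lit 137637748866) (nat_lit 684) (nat_lit 28303574426) (nat_lit 60) (nat_lit 5) (nat_lit 59) (nat_lit 5) (nat_lit 68) (nat_lit 5) (nat_lit 291) (nat_lit 289) (nat_lit 140)) (XT.lf (nat_lit 76) (nat_lit 155752775794) (nat_lit 0) (nat_lit 23067728498) (nat_lit 684) (nat_lit 23412853179) (nat_lit 60) (nat_lit 5) (nat_lit 59) (nat_lit 5) (nat_lit 68) (nat_lit 5) (nat_lit 292) (nat_lit 289) (nat_lit 139))) (XT.nd (nat_lit 78) (nat_lit 0) (nat_lit 76) (XT.lf (nat_lit 76) (nat_lit 83642224795)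 (nat_lit 0) (nat_lit 112055418140) (nat_lit 684) (nat_lit 15109642395) (nat_lit 61) (nat_lit 5) (nat_lit 60) (nat_lit 5) (nat_lit 69) (nat_lit 5) (nat_lit 293) (nat_lit 289) (nat_lit 138)) (XT.lf (nat_lit 76) (nat_lit 5438162045) (nat_lit 0) (nat_lit 209924885493) (nat_lit 684) (nat_lit 4632176458) (nat_lit 62) (nat_lit 5) (nat_lit 61) (nat_lit 5) (nat_lit 70) (nat_lit 5) (nat_lit 294) (nat_lit 289) (nat_lit 137))))) (XT.nd (nat_lit 312) (nat_lit 836) (nat_lit 0) (XT.nd (nat_lit 156) (nat_lit 380) (nat_lit 0) (XT.nd (nat_lit 78) (nat_lit 0) (nat_lit 76) (XT.lf (nat_lit 0) (nat_lit 10610271875) (nat_lit 684) (nat_lit 78647063158) (nat_lit 760) (nat_lit 140448611566) (nat_lit 52) (nat_lit 5) (nat_lit 61) (nat_lit 5) (nat_lit 62) (nat_lit 5) (nat_lit 295) (nat_lit 289) (nat_lit 136)) (XT.lf (nat_lit 0) (nat_lit 28669900113) (nat_lit 684) (nat_lit 170487380329) (nat_lit 76) (nat_lit 40944447133)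 (nat_lit 53) (nat_lit 5) (nat_lit 62) (nat_lit 5) (nat_lit 54) (nat_lit 5) (nat_lit 296) (nat_lit 289) (nat_lit 135))) (XT.nd (nat_lit 78) (nat_lit 456) (nat_lit 0) (XT.lf (nat_lit 0) (nat_lit 51071600360) (nat_lit 684) (nat_lit 20243199197) (nat_lit 76) (nat_lit 179869507381) (nat_lit 53) (nat_lit 5) (nat_lit 62) (nat_lit 5) (nat_lit 54) (nat_lit 5) (nat_lit 297) (nat_lit 289) (nat_lit 134)) (XT.lf (nat_lit 0) (nat_lit 78635707135) (nat_lit 532) (nat_lit 117402550755) (nat_lit 76) (nat_lit 66946722159) (nat_lit 47) (nat_lit 5) (nat_lit 54) (nat_lit 5) (nat_lit 48) (nat_lit 5) (nat_lit 298) (nat_lit 289) (nat_lit 133)))) (XT.nd (nat_lit 156) (nat_lit 532) (nat_lit 0) (XT.nd (nat_lit 78) (nat_lit 0) (nat_lit 0) (XT.lf (nat_lit 0) (nat_lit 50079333939) (nat_lit 304) (nat_lit 60668233167) (nat_lit 380) (nat_lit 164865009526) (nat_lit 43) (nat_lit 5) (nat_lit 47) (nat_lit 5) (nat_lit 48)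 (nat_lit 5) (nat_lit 299) (nat_lit 289) (nat_lit 132)) (XT.lf (nat_lit 0) (nat_lit 148842216491) (nat_lit 380) (nat_lit 55365012121) (nat_lit 76) (nat_lit 84872461091) (nat_lit 43) (nat_lit 5) (nat_lit 48) (nat_lit 5) (nat_lit 44) (nat_lit 5) (nat_lit 300) (nat_lit 289) (nat_lit 131))) (XT.nd (nat_lit 78) (nat_lit 228) (nat_lit 0) (XT.lf (nat_lit 0) (nat_lit 131605766226) (nat_lit 304) (nat_lit 61456247856) (nat_lit 380) (nat_lit 110408279658) (nat_lit 39) (nat_lit 5) (nat_lit 43) (nat_lit 5) (nat_lit 44) (nat_lit 5) (nat_lit 301) (nat_lit 289) (nat_lit 130)) (XT.nd (nat_lit 78) (nat_lit 0) (nat_lit 0) (XT.lf (nat_lit 0) (nat_lit 15582600123) (nat_lit 228) (nat_lit 227907726521) (nat_lit 304) (nat_lit 75388273577) (nat_lit 36) (nat_lit 5) (nat_lit 39) (nat_lit 5) (nat_lit 40) (nat_lit 5) (nat_lit 302) (nat_lit 289) (nat_lit 129)) (XT.lf (nat_lit 0) (nat_lit 223092061990) (nat_lit 228)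 (nat_lit 78874041508) (nat_lit 304) (nat_lit 33352808388) (nat_lit 36) (nat_lit 5) (nat_lit 39) (nat_lit 5) (nat_lit 40) (nat_lit 5) (nat_lit 303) (nat_lit 289) (nat_lit 128))))))))
noncomputable def xc125 : XT := (XT.nd (nat_lit 37440) (nat_lit 0) (nat_lit 228) (XT.nd (nat_lit 36816) (nat_lit 0) (nat_lit 760) (XT.nd (nat_lit 36504) (nat_lit 0) (nat_lit 2204) (XT.nd (nat_lit 156) (nat_lit 228) (nat_lit 0) (XT.nd (nat_lit 78) (nat_lit 0) (nat_lit 0) (XT.lf (nat_lit 0) (nat_lit 14484461166) (nat_lit 304) (nat_lit 257253042360) (nat_lit 76) (nat_lit 81186317405) (nat_lit 32) (nat_lit 5) (nat_lit 36) (nat_lit 5) (nat_lit 33) (nat_lit 5) (nat_lit 304) (nat_lit 289) (nat_lit 127)) (XT.lf (nat_lit 0) (nat_lit 68312634118) (nat_lit 304) (nat_lit 49556101383) (nat_lit 76) (nat_lit 253874427258) (nat_lit 32) (nat_lit 5) (nat_lit 36) (nat_lit 5) (nat_lit 33) (nat_lit 5) (nat_lit 305) (nat_lit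 289) (nat_lit 126))) (XT.nd (nat_lit 36270) (nat_lit 0) (nat_lit 2204) (XT.lf (nat_lit 0) (nat_lit 130066068294) (nat_lit 304) (nat_lit 212192865374) (nat_lit 76) (nat_lit 49628168369) (nat_lit 29) (nat_lit 5) (nat_lit 33) (nat_lit 5) (nat_lit 30) (nat_lit 5) (nat_lit 306) (nat_lit 289) (nat_lit 125)) (XT.lf (nat_lit 0) (nat_lit 80281861044) (nat_lit 684) (nat_lit 8316053217) (nat_lit 684) (nat_lit 8316053217) (nat_lit 58) (nat_lit 3) (nat_lit 67) (nat_lit 3) (nat_lit 67) (nat_lit 5) (nat_lit 290) (nat_lit 290) (nat_lit 140)))) (XT.nd (nat_lit 156) (nat_lit 0) (nat_lit 76) (XT.nd (nat_lit 78) (nat_lit 0) (nat_lit 76) (XT.lf (nat_lit 76) (nat_lit 106582650696) (nat_lit 0) (nat_lit 62069985746) (nat_lit 684) (nat_lit 32845083392) (nat_lit 59) (nat_lit 5) (nat_lit 58) (nat_lit 3) (nat_lit 67) (nat_lit 5) (nat_lit 291) (nat_lit 290) (nat_lit 139)) (XT.lf (nat_lit 76) (nat_lit 30480442566)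 (nat_lit 0) (nat_lit 148650490602) (nat_lit 684) (nat_lit 30563042300) (nat_lit 60) (nat_lit 5) (nat_lit 59) (nat_lit 5) (nat_lit 68) (nat_lit 5) (nat_lit 292) (nat_lit 290) (nat_lit 138))) (XT.nd (nat_lit 78) (nat_lit 0) (nat_lit 76) (XT.lf (nat_lit 76) (nat_lit 168215627801) (nat_lit 0) (nat_lit 24914741061) (nat_lit 684) (nat_lit 25281420248) (nat_lit 60) (nat_lit 5) (nat_lit 59) (nat_lit 5) (nat_lit 68) (nat_lit 5) (nat_lit 293) (nat_lit 290) (nat_lit 137)) (XT.lf (nat_lit 76) (nat_lit 90336368898) (nat_lit 0) (nat_lit 121021016933) (nat_lit 684) (nat_lit 16314261913) (nat_lit 61) (nat_lit 5) (nat_lit 60) (nat_lit 5) (nat_lit 69) (nat_lit 5) (nat_lit 294) (nat_lit 290) (nat_lit 136))))) (XT.nd (nat_lit 312) (nat_lit 988) (nat_lit 0) (XT.nd (nat_lit 156) (nat_lit 0) (nat_lit 76) (XT.nd (nat_lit 78) (nat_lit 684) (nat_lit 0) (XT.lf (nat_lit 76) (nat_lit 5876089153) (nat_lit 0) (nat_lit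 226719670457) (nat_lit 684) (nat_lit 4998876819) (nat_lit 62) (nat_lit 5) (nat_lit 61) (nat_lit 5) (nat_lit 70) (nat_lit 5) (nat_lit 295) (nat_lit 290) (nat_lit 135)) (XT.lf (nat_lit 0) (nat_lit 11462565636) (nat_lit 684) (nat_lit 84936032700) (nat_lit 760) (nat_lit 151683630925) (nat_lit 52) (nat_lit 5) (nat_lit 61) (nat_lit 5) (nat_lit 62) (nat_lit 5) (nat_lit 296) (nat_lit 290) (nat_lit 134))) (XT.nd (nat_lit 78) (nat_lit 0) (nat_lit 0) (XT.lf (nat_lit 0) (nat_lit 30966739600) (nat_lit 684) (nat_lit 184123506787) (nat_lit 76) (nat_lit 44219438996) (nat_lit 53) (nat_lit 5) (nat_lit 62) (nat_lit 5) (nat_lit 54) (nat_lit 5) (nat_lit 297) (nat_lit 290) (nat_lit 133)) (XT.lf (nat_lit 0) (nat_lit 55160335313) (nat_lit 684) (nat_lit 21860003310) (nat_lit 76) (nat_lit 194258545836) (nat_lit 53) (nat_lit 5) (nat_lit 62) (nat_lit 5) (nat_lit 54) (nat_lit 5) (nat_lit 298) (nat_lit 290) (nat_lit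 132)))) (XT.nd (nat_lit 156) (nat_lit 304) (nat_lit 0) (XT.nd (nat_lit 78) (nat_lit 304) (nat_lit 0) (XT.lf (nat_lit 0) (nat_lit 84929383014) (nat_lit 532) (nat_lit 126792057112) (nat_lit 76) (nat_lit 72302181910) (nat_lit 47) (nat_lit 5) (nat_lit 54) (nat_lit 5) (nat_lit 48) (nat_lit 5) (nat_lit 299) (nat_lit 290) (nat_lit 131)) (XT.lf (nat_lit 0) (nat_lit 54088261119) (nat_lit 304) (nat_lit 65521762115) (nat_lit 380) (nat_lit 178051412684) (nat_lit 43) (nat_lit 5) (nat_lit 47) (nat_lit 5) (nat_lit 48) (nat_lit 5) (nat_lit 300) (nat_lit 290) (nat_lit 130))) (XT.nd (nat_lit 78) (nat_lit 304) (nat_lit 0) (XT.lf (nat_lit 0) (nat_lit 160752047200) (nat_lit 380) (nat_lit 59791686788) (nat_lit 76) (nat_lit 91662194974) (nat_lit 43) (nat_lit 5) (nat_lit 48) (nat_lit 5) (nat_lit 44) (nat_lit 5) (nat_lit 301) (nat_lit 290) (nat_lit 129)) (XT.lf (nat_lit 0) (nat_lit 142136644037) (nat_lit 304)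 (nat_lit 66372640557) (nat_lit 380) (nat_lit 119238504909) (nat_lit 39) (nat_lit 5) (nat_lit 43) (nat_lit 5) (nat_lit 44) (nat_lit 5) (nat_lit 302) (nat_lit 290) (nat_lit 128)))))) (XT.nd (nat_lit 36894) (nat_lit 0) (nat_lit 532) (XT.nd (nat_lit 36582) (nat_lit 0) (nat_lit 1976) (XT.nd (nat_lit 156) (nat_lit 304) (nat_lit 0) (XT.nd (nat_lit 78) (nat_lit 0) (nat_lit 0) (XT.lf (nat_lit 0) (nat_lit 16831640213) (nat_lit 228) (nat_lit 246140090404) (nat_lit 304) (nat_lit 81417037372) (nat_lit 36) (nat_lit 5) (nat_lit 39) (nat_lit 5) (nat_lit 40) (nat_lit 5) (nat_lit 303) (nat_lit 290) (nat_lit 127)) (XT.lf (nat_lit 0) (nat_lit 240941678874) (nat_lit 228) (nat_lit 85183729422) (nat_lit 304) (nat_lit 36018905197) (nat_lit 36) (nat_lit 5) (nat_lit 39) (nat_lit 5) (nat_lit 40) (nat_lit 5) (nat_lit 304) (nat_lit 290) (nat_lit 126))) (XT.nd (nat_lit 78) (nat_lit 0) (nat_lit 0) (XT.lf (nat_lit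 0) (nat_lit 15645164516) (nat_lit 304) (nat_lit 277830955069) (nat_lit 76) (nat_lit 87681500423) (nat_lit 32) (nat_lit 5) (nat_lit 36) (nat_lit 5) (nat_lit 33) (nat_lit 5) (nat_lit 305) (nat_lit 290) (nat_lit 125)) (XT.lf (nat_lit 0) (nat_lit 73779447122) (nat_lit 304) (nat_lit 53518431457) (nat_lit 76) (nat_lit 274184638499) (nat_lit 32) (nat_lit 5) (nat_lit 36) (nat_lit 5) (nat_lit 33) (nat_lit 5) (nat_lit 306) (nat_lit 290) (nat_lit 124)))) (XT.nd (nat_lit 156) (nat_lit 0) (nat_lit 76) (XT.nd (nat_lit 78) (nat_lit 0) (nat_lit 0) (XT.lf (nat_lit 0) (nat_lit 86706665929) (nat_lit 684) (nat_lit 8980146121) (nat_lit 684) (nat_lit 8980146121) (nat_lit 58) (nat_lit 3) (nat_lit 67) (nat_lit 3) (nat_lit 67) (nat_lit 5) (nat_lit 291) (nat_lit 291) (nat_lit 138)) (XT.lf (nat_lit 76) (nat_lit 115111541907) (nat_lit 0) (nat_lit 67037518816) (nat_lit 684) (nat_lit 35468240284) (nat_lit 59) (nat_lit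 5) (nat_lit 58) (nat_lit 3) (nat_lit 67) (nat_lit 5) (nat_lit 292) (nat_lit 291) (nat_lit 137))) (XT.nd (nat_lit 78) (nat_lit 0) (nat_lit 0) (XT.lf (nat_lit 76) (nat_lit 32921313104) (nat_lit 0) (nat_lit 160544006038) (nat_lit 684) (nat_lit 33003954957) (nat_lit 60) (nat_lit 5) (nat_lit 59) (nat_lit 5) (nat_lit 68) (nat_lit 5) (nat_lit 293) (nat_lit 291) (nat_lit 136)) (XT.lf (nat_lit 76) (nat_lit 181675132778) (nat_lit 0) (nat_lit 26909287187) (nat_lit 684) (nat_lit 27300109120) (nat_lit 60) (nat_lit 5) (nat_lit 59) (nat_lit 5) (nat_lit 68) (nat_lit 5) (nat_lit 294) (nat_lit 291) (nat_lit 135))))) (XT.nd (nat_lit 312) (nat_lit 988) (nat_lit 0) (XT.nd (nat_lit 156) (nat_lit 608) (nat_lit 0) (XT.nd (nat_lit 78) (nat_lit 0) (nat_lit 76) (XT.lf (nat_lit 76) (nat_lit 97565649911) (nat_lit 0) (nat_lit 130703697381) (nat_lit 684) (nat_lit 17615843304) (nat_lit 61) (nat_lit 5) (nat_lit 60)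 (nat_lit 5) (nat_lit 69) (nat_lit 5) (nat_lit 295) (nat_lit 291) (nat_lit 134)) (XT.lf (nat_lit 76) (nat_lit 6348640401) (nat_lit 0) (nat_lit 244857924927) (nat_lit 684) (nat_lit 5395465844) (nat_lit 62) (nat_lit 5) (nat_lit 61) (nat_lit 5) (nat_lit 70) (nat_lit 5) (nat_lit 296) (nat_lit 291) (nat_lit 133))) (XT.nd (nat_lit 78) (nat_lit 0) (nat_lit 76) (XT.lf (nat_lit 0) (nat_lit 12382547576) (nat_lit 684) (nat_lit 91728518617) (nat_lit 760) (nat_lit 163817575886) (nat_lit 52) (nat_lit 5) (nat_lit 61) (nat_lit 5) (nat_lit 62) (nat_lit 5) (nat_lit 297) (nat_lit 291) (nat_lit 132)) (XT.lf (nat_lit 0) (nat_lit 33446862957) (nat_lit 684) (nat_lit 198850931938) (nat_lit 76) (nat_lit 47756510657) (nat_lit 53) (nat_lit 5) (nat_lit 62) (nat_lit 5) (nat_lit 54) (nat_lit 5) (nat_lit 298) (nat_lit 291) (nat_lit 131)))) (XT.nd (nat_lit 156) (nat_lit 608) (nat_lit 0) (XT.nd (nat_lit 78) (nat_lit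 456) (nat_lit 0) (XT.lf (nat_lit 0) (nat_lit 59575740091) (nat_lit 684) (nat_lit 23606530065) (nat_lit 76) (nat_lit 209798781855) (nat_lit 53) (nat_lit 5) (nat_lit 62) (nat_lit 5) (nat_lit 54) (nat_lit 5) (nat_lit 299) (nat_lit 291) (nat_lit 130)) (XT.lf (nat_lit 0) (nat_lit 91726150757) (nat_lit 532) (nat_lit 136933108835) (nat_lit 76) (nat_lit 78086118104) (nat_lit 47) (nat_lit 5) (nat_lit 54) (nat_lit 5) (nat_lit 48) (nat_lit 5) (nat_lit 300) (nat_lit 291) (nat_lit 129))) (XT.nd (nat_lit 78) (nat_lit 304) (nat_lit 0) (XT.lf (nat_lit 0) (nat_lit 58417534341) (nat_lit 304) (nat_lit 70763563350) (nat_lit 380) (nat_lit 192293127204) (nat_lit 43) (nat_lit 5) (nat_lit 47) (nat_lit 5) (nat_lit 48) (nat_lit 5) (nat_lit 301) (nat_lit 291) (nat_lit 128)) (XT.nd (nat_lit 78) (nat_lit 304) (nat_lit 0) (XT.lf (nat_lit 0) (nat_lit 173614314363) (nat_lit 380) (nat_lit 64572855833) (nat_lit 76)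 (nat_lit 98995116556) (nat_lit 43) (nat_lit 5) (nat_lit 48) (nat_lit 5) (nat_lit 44) (nat_lit 5) (nat_lit 302) (nat_lit 291) (nat_lit 127)) (XT.lf (nat_lit 0) (nat_lit 153509647331) (nat_lit 304) (nat_lit 71682359957) (nat_lit 380) (nat_lit 128775495863) (nat_lit 39) (nat_lit 5) (nat_lit 43) (nat_lit 5) (nat_lit 44) (nat_lit 5) (nat_lit 303) (nat_lit 291) (nat_lit 126))))))))
noncomputable def xc126 : XT := (XT.nd (nat_lit 74178) (nat_lit 0) (nat_lit 532) (XT.nd (nat_lit 37050) (nat_lit 0) (nat_lit 0) (XT.nd (nat_lit 36738) (nat_lit 0) (nat_lit 1748) (XT.nd (nat_lit 36582) (nat_lit 0) (nat_lit 1672) (XT.nd (nat_lit 78) (nat_lit 0) (nat_lit 0) (XT.lf (nat_lit 0) (nat_lit 18180256546) (nat_lit 228) (nat_lit 265831079668) (nat_lit 304) (nat_lit 87928430120) (nat_lit 36) (nat_lit 5) (nat_lit 39) (nat_lit 5) (nat_lit 40) (nat_lit 5) (nat_lit 304) (nat_lit 291) (nat_lit 125)) (XT.lf (nat_lit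 0) (nat_lit 260218943847) (nat_lit 228) (nat_lit 91998225953) (nat_lit 304) (nat_lit 38898593315) (nat_lit 36) (nat_lit 5) (nat_lit 39) (nat_lit 5) (nat_lit 40) (nat_lit 5) (nat_lit 305) (nat_lit 291) (nat_lit 124))) (XT.nd (nat_lit 78) (nat_lit 0) (nat_lit 0) (XT.lf (nat_lit 0) (nat_lit 93645133361) (nat_lit 684) (nat_lit 9697536418) (nat_lit 684) (nat_lit 9697536418) (nat_lit 58) (nat_lit 3) (nat_lit 67) (nat_lit 3) (nat_lit 67) (nat_lit 5) (nat_lit 292) (nat_lit 292) (nat_lit 136)) (XT.lf (nat_lit 76) (nat_lit 124322419268) (nat_lit 0) (nat_lit 72402178594) (nat_lit 684) (nat_lit 38301884538) (nat_lit 59) (nat_lit 5) (nat_lit 58) (nat_lit 3) (nat_lit 67) (nat_lit 5) (nat_lit 293) (nat_lit 292) (nat_lit 135)))) (XT.nd (nat_lit 156) (nat_lit 0) (nat_lit 76) (XT.nd (nat_lit 78) (nat_lit 0) (nat_lit 0) (XT.lf (nat_lit 76) (nat_lit 35557105887) (nat_lit 0) (nat_lit 173388792115) (nat_lit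 684) (nat_lit 35640729921) (nat_lit 60) (nat_lit 5) (nat_lit 59) (nat_lit 5) (nat_lit 68) (nat_lit 5) (nat_lit 294) (nat_lit 292) (nat_lit 134)) (XT.lf (nat_lit 76) (nat_lit 196211076487) (nat_lit 0) (nat_lit 29063202008) (nat_lit 684) (nat_lit 29480838746) (nat_lit 60) (nat_lit 5) (nat_lit 59) (nat_lit 5) (nat_lit 68) (nat_lit 5) (nat_lit 295) (nat_lit 292) (nat_lit 133))) (XT.nd (nat_lit 78) (nat_lit 0) (nat_lit 76) (XT.lf (nat_lit 76) (nat_lit 105372935085) (nat_lit 0) (nat_lit 141160849732) (nat_lit 684) (nat_lit 19022059017) (nat_lit 61) (nat_lit 5) (nat_lit 60) (nat_lit 5) (nat_lit 69) (nat_lit 5) (nat_lit 296) (nat_lit 292) (nat_lit 132)) (XT.lf (nat_lit 76) (nat_lit 6858644215) (nat_lit 0) (nat_lit 264447142626) (nat_lit 684) (nat_lit 5824255785) (nat_lit 62) (nat_lit 5) (nat_lit 61) (nat_lit 5) (nat_lit 70) (nat_lit 5) (nat_lit 297) (nat_lit 292) (nat_lit 131))))) (XT.nd (nat_lit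 312) (nat_lit 836) (nat_lit 0) (XT.nd (nat_lit 156) (nat_lit 380) (nat_lit 0) (XT.nd (nat_lit 78) (nat_lit 0) (nat_lit 76) (XT.lf (nat_lit 0) (nat_lit 13375703413) (nat_lit 684) (nat_lit 99064745323) (nat_lit 760) (nat_lit 176922342800) (nat_lit 52) (nat_lit 5) (nat_lit 61) (nat_lit 5) (nat_lit 62) (nat_lit 5) (nat_lit 298) (nat_lit 292) (nat_lit 130)) (XT.lf (nat_lit 0) (nat_lit 36124998987) (nat_lit 684) (nat_lit 214756901391) (nat_lit 76) (nat_lit 51576617020) (nat_lit 53) (nat_lit 5) (nat_lit 62) (nat_lit 5) (nat_lit 54) (nat_lit 5) (nat_lit 299) (nat_lit 292) (nat_lit 129))) (XT.nd (nat_lit 78) (nat_lit 456) (nat_lit 0) (XT.lf (nat_lit 0) (nat_lit 64344009477) (nat_lit 684) (nat_lit 25493103301) (nat_lit 76) (nat_lit 226582300618) (nat_lit 53) (nat_lit 5) (nat_lit 62) (nat_lit 5) (nat_lit 54) (nat_lit 5) (nat_lit 300) (nat_lit 292) (nat_lit 128)) (XT.lf (nat_lit 0) (nat_lit 99066315093)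 (nat_lit 532) (nat_lit 147885774649) (nat_lit 76) (nat_lit 84332803198) (nat_lit 47) (nat_lit 5) (nat_lit 54) (nat_lit 5) (nat_lit 48) (nat_lit 5) (nat_lit 301) (nat_lit 292) (nat_lit 127)))) (XT.nd (nat_lit 156) (nat_lit 532) (nat_lit 0) (XT.nd (nat_lit 78) (nat_lit 0) (nat_lit 0) (XT.lf (nat_lit 0) (nat_lit 63092833807) (nat_lit 304) (nat_lit 76424700086) (nat_lit 380) (nat_lit 207674521058) (nat_lit 43) (nat_lit 5) (nat_lit 47) (nat_lit 5) (nat_lit 48) (nat_lit 5) (nat_lit 302) (nat_lit 292) (nat_lit 126)) (XT.lf (nat_lit 0) (nat_lit 187505262827) (nat_lit 380) (nat_lit 69736827391) (nat_lit 76) (nat_lit 106914679571) (nat_lit 43) (nat_lit 5) (nat_lit 48) (nat_lit 5) (nat_lit 44) (nat_lit 5) (nat_lit 303) (nat_lit 292) (nat_lit 125))) (XT.nd (nat_lit 78) (nat_lit 228) (nat_lit 0) (XT.lf (nat_lit 0) (nat_lit 165792195327) (nat_lit 304) (nat_lit 77416870012) (nat_lit 380) (nat_lit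 139075744175) (nat_lit 39) (nat_lit 5) (nat_lit 43) (nat_lit 5) (nat_lit 44) (nat_lit 5) (nat_lit 304) (nat_lit 292) (nat_lit 124)) (XT.lf (nat_lit 0) (nat_lit 19636464720) (nat_lit 228) (nat_lit 287097379168) (nat_lit 304) (nat_lit 94961015365) (nat_lit 36) (nat_lit 5) (nat_lit 39) (nat_lit 5) (nat_lit 40) (nat_lit 5) (nat_lit 305) (nat_lit 292) (nat_lit 123)))))) (XT.nd (nat_lit 624) (nat_lit 684) (nat_lit 0) (XT.nd (nat_lit 312) (nat_lit 456) (nat_lit 0) (XT.nd (nat_lit 156) (nat_lit 0) (nat_lit 76) (XT.nd (nat_lit 78) (nat_lit 0) (nat_lit 0) (XT.lf (nat_lit 0) (nat_lit 101138402259) (nat_lit 684) (nat_lit 10472463652) (nat_lit 684) (nat_lit 10472463652) (nat_lit 58) (nat_lit 3) (nat_lit 67) (nat_lit 3) (nat_lit 67) (nat_lit 5) (nat_lit 293) (nat_lit 293) (nat_lit 134)) (XT.lf (nat_lit 76) (nat_lit 134269888057) (nat_lit 0) (nat_lit 78195774583) (nat_lit 684) (nat_lit 41362764580)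 (nat_lit 59) (nat_lit 5) (nat_lit 58) (nat_lit 3) (nat_lit 67) (nat_lit 5) (nat_lit 294) (nat_lit 293) (nat_lit 133))) (XT.nd (nat_lit 78) (nat_lit 0) (nat_lit 0) (XT.lf (nat_lit 76) (nat_lit 38403464253) (nat_lit 0) (nat_lit 187260980527) (nat_lit 684) (nat_lit 38488952107) (nat_lit 60) (nat_lit 5) (nat_lit 59) (nat_lit 5) (nat_lit 68) (nat_lit 5) (nat_lit 295) (nat_lit 293) (nat_lit 132)) (XT.lf (nat_lit 76) (nat_lit 211909619917) (nat_lit 0) (nat_lit 31389262838) (nat_lit 684) (nat_lit 31836494542) (nat_lit 60) (nat_lit 5) (nat_lit 59) (nat_lit 5) (nat_lit 68) (nat_lit 5) (nat_lit 296) (nat_lit 293) (nat_lit 131)))) (XT.nd (nat_lit 156) (nat_lit 608) (nat_lit 0) (XT.nd (nat_lit 78) (nat_lit 0) (nat_lit 76) (XT.lf (nat_lit 76) (nat_lit 113804513016) (nat_lit 0) (nat_lit 152454452074) (nat_lit 684) (nat_lit 20541207354) (nat_lit 61) (nat_lit 5) (nat_lit 60) (nat_lit 5) (nat_lit 69)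 (nat_lit 5) (nat_lit 297) (nat_lit 293) (nat_lit 130)) (XT.lf (nat_lit 76) (nat_lit 7409146950) (nat_lit 0) (nat_lit 285603414469) (nat_lit 684) (nat_lit 6287755125) (nat_lit 62) (nat_lit 5) (nat_lit 61) (nat_lit 5) (nat_lit 70) (nat_lit 5) (nat_lit 298) (nat_lit 293) (nat_lit 129))) (XT.nd (nat_lit 78) (nat_lit 0) (nat_lit 76) (XT.lf (nat_lit 0) (nat_lit 14447947642) (nat_lit 684) (nat_lit 106988163303) (nat_lit 760) (nat_lit 191075582250) (nat_lit 52) (nat_lit 5) (nat_lit 61) (nat_lit 5) (nat_lit 62) (nat_lit 5) (nat_lit 299) (nat_lit 293) (nat_lit 128)) (XT.lf (nat_lit 0) (nat_lit 39017045368) (nat_lit 684) (nat_lit 231935648717) (nat_lit 76) (nat_lit 55702391025) (nat_lit 53) (nat_lit 5) (nat_lit 62) (nat_lit 5) (nat_lit 54) (nat_lit 5) (nat_lit 300) (nat_lit 293) (nat_lit 127))))) (XT.nd (nat_lit 36972) (nat_lit 0) (nat_lit 1140) (XT.nd (nat_lit 156) (nat_lit 304) (nat_lit 0) (XT.nd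 (nat_lit 78) (nat_lit 456) (nat_lit 0) (XT.lf (nat_lit 0) (nat_lit 69493425107) (nat_lit 684) (nat_lit 27530880468) (nat_lit 76) (nat_lit 244708555633) (nat_lit 53) (nat_lit 5) (nat_lit 62) (nat_lit 5) (nat_lit 54) (nat_lit 5) (nat_lit 301) (nat_lit 293) (nat_lit 126)) (XT.lf (nat_lit 0) (nat_lit 106993396943) (nat_lit 532) (nat_lit 159714936610) (nat_lit 76) (nat_lit 91079252253) (nat_lit 47) (nat_lit 5) (nat_lit 54) (nat_lit 5) (nat_lit 48) (nat_lit 5) (nat_lit 302) (nat_lit 293) (nat_lit 125))) (XT.nd (nat_lit 78) (nat_lit 0) (nat_lit 0) (XT.lf (nat_lit 0) (nat_lit 68141886642) (nat_lit 304) (nat_lit 82538720390) (nat_lit 380) (nat_lit 224286719777) (nat_lit 43) (nat_lit 5) (nat_lit 47) (nat_lit 5) (nat_lit 48) (nat_lit 5) (nat_lit 303) (nat_lit 293) (nat_lit 124)) (XT.lf (nat_lit 0) (nat_lit 202507229905) (nat_lit 380) (nat_lit 75314181583) (nat_lit 76) (nat_lit 115467814234) (nat_lit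 43) (nat_lit 5) (nat_lit 48) (nat_lit 5) (nat_lit 44) (nat_lit 5) (nat_lit 304) (nat_lit 293) (nat_lit 123)))) (XT.nd (nat_lit 156) (nat_lit 0) (nat_lit 76) (XT.nd (nat_lit 78) (nat_lit 0) (nat_lit 0) (XT.lf (nat_lit 0) (nat_lit 109230896103) (nat_lit 684) (nat_lit 11309509990) (nat_lit 684) (nat_lit 11309509990) (nat_lit 58) (nat_lit 3) (nat_lit 67) (nat_lit 3) (nat_lit 67) (nat_lit 5) (nat_lit 294) (nat_lit 294) (nat_lit 132)) (XT.lf (nat_lit 76) (nat_lit 145012915356) (nat_lit 0) (nat_lit 84452655429) (nat_lit 684) (nat_lit 44668981630) (nat_lit 59) (nat_lit 5) (nat_lit 58) (nat_lit 3) (nat_lit 67) (nat_lit 5) (nat_lit 295) (nat_lit 294) (nat_lit 131))) (XT.nd (nat_lit 78) (nat_lit 0) (nat_lit 0) (XT.lf (nat_lit 76) (nat_lit 41477275940) (nat_lit 0) (nat_lit 202242789219) (nat_lit 684) (nat_lit 41565465217) (nat_lit 60) (nat_lit 5) (nat_lit 59) (nat_lit 5) (nat_lit 68) (nat_lit 5)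 (nat_lit 296) (nat_lit 294) (nat_lit 130)) (XT.nd (nat_lit 78) (nat_lit 0) (nat_lit 76) (XT.lf (nat_lit 76) (nat_lit 228863810387) (nat_lit 0) (nat_lit 33901265207) (nat_lit 684) (nat_lit 34381003866) (nat_lit 60) (nat_lit 5) (nat_lit 59) (nat_lit 5) (nat_lit 68) (nat_lit 5) (nat_lit 297) (nat_lit 294) (nat_lit 129)) (XT.lf (nat_lit 76) (nat_lit 122910368505) (nat_lit 0) (nat_lit 164651437838) (nat_lit 684) (nat_lit 22182260814) (nat_lit 61) (nat_lit 5) (nat_lit 60) (nat_lit 5) (nat_lit 69) (nat_lit 5) (nat_lit 298) (nat_lit 294) (nat_lit 128))))))))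
noncomputable def xc127 : XT := (XT.nd (nat_lit 74958) (nat_lit 0) (nat_lit 684) (XT.nd (nat_lit 37362) (nat_lit 0) (nat_lit 684) (XT.nd (nat_lit 312) (nat_lit 684) (nat_lit 0) (XT.nd (nat_lit 156) (nat_lit 0) (nat_lit 76) (XT.nd (nat_lit 78) (nat_lit 684) (nat_lit 0) (XT.lf (nat_lit 76) (nat_lit 8003431517) (nat_lit 0) (nat_lit 308452116667) (nat_lit 684) (nat_lit 6788682665) (nat_lit 62) (nat_lit 5) (nat_lit 61) (nat_lit 5) (nat_lit 70) (nat_lit 5) (nat_lit 299) (nat_lit 294) (nat_lit 127)) (XT.lf (nat_lit 0) (nat_lit 15605659272) (nat_lit 684) (nat_lit 115545706040) (nat_lit 760) (nat_lit 206361159031) (nat_lit 52) (nat_lit 5) (nat_lit 61) (nat_lit 5) (nat_lit 62) (nat_lit 5) (nat_lit 300) (nat_lit 294) (nat_lit 126))) (XT.nd (nat_lit 78) (nat_lit 0) (nat_lit 0) (XT.lf (nat_lit 0) (nat_lit 42140163509) (nat_lit 684) (nat_lit 250488953301) (nat_lit 76) (nat_lit 60158277646) (nat_lit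 53) (nat_lit 5) (nat_lit 62) (nat_lit 5) (nat_lit 54) (nat_lit 5) (nat_lit 301) (nat_lit 294) (nat_lit 125)) (XT.lf (nat_lit 0) (nat_lit 75054523663) (nat_lit 684) (nat_lit 29731918208) (nat_lit 76) (nat_lit 264284957989) (nat_lit 53) (nat_lit 5) (nat_lit 62) (nat_lit 5) (nat_lit 54) (nat_lit 5) (nat_lit 302) (nat_lit 294) (nat_lit 124)))) (XT.nd (nat_lit 36894) (nat_lit 0) (nat_lit 1140) (XT.nd (nat_lit 78) (nat_lit 304) (nat_lit 0) (XT.lf (nat_lit 0) (nat_lit 115554391883) (nat_lit 532) (nat_lit 172490674054) (nat_lit 76) (nat_lit 98365442226) (nat_lit 47) (nat_lit 5) (nat_lit 54) (nat_lit 5) (nat_lit 48) (nat_lit 5) (nat_lit 303) (nat_lit 294) (nat_lit 123)) (XT.lf (nat_lit 0) (nat_lit 73594631718) (nat_lit 304) (nat_lit 89141855999) (nat_lit 380) (nat_lit 242228145901) (nat_lit 43) (nat_lit 5) (nat_lit 47) (nat_lit 5) (nat_lit 48) (nat_lit 5) (nat_lit 304) (nat_lit 294) (nat_lit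 122))) (XT.nd (nat_lit 78) (nat_lit 0) (nat_lit 0) (XT.lf (nat_lit 0) (nat_lit 117970586639) (nat_lit 684) (nat_lit 12213627139) (nat_lit 684) (nat_lit 12213627139) (nat_lit 58) (nat_lit 3) (nat_lit 67) (nat_lit 3) (nat_lit 67) (nat_lit 5) (nat_lit 295) (nat_lit 295) (nat_lit 130)) (XT.lf (nat_lit 76) (nat_lit 156615179942) (nat_lit 0) (nat_lit 91209912857) (nat_lit 684) (nat_lit 48240096083) (nat_lit 59) (nat_lit 5) (nat_lit 58) (nat_lit 3) (nat_lit 67) (nat_lit 5) (nat_lit 296) (nat_lit 295) (nat_lit 129))))) (XT.nd (nat_lit 312) (nat_lit 532) (nat_lit 0) (XT.nd (nat_lit 156) (nat_lit 0) (nat_lit 76) (XT.nd (nat_lit 78) (nat_lit 0) (nat_lit 0) (XT.lf (nat_lit 76) (nat_lit 44796773642) (nat_lit 0) (nat_lit 218423009895) (nat_lit 684) (nat_lit 44888470731) (nat_lit 60) (nat_lit 5) (nat_lit 59) (nat_lit 5) (nat_lit 68) (nat_lit 5) (nat_lit 297) (nat_lit 295) (nat_lit 128)) (XT.lf (nat_lit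 76) (nat_lit 247174133391) (nat_lit 0) (nat_lit 36614104885) (nat_lit 684) (nat_lit 37129417783) (nat_lit 60) (nat_lit 5) (nat_lit 59) (nat_lit 5) (nat_lit 68) (nat_lit 5) (nat_lit 298) (nat_lit 295) (nat_lit 127))) (XT.nd (nat_lit 78) (nat_lit 0) (nat_lit 76) (XT.lf (nat_lit 76) (nat_lit 132744479234) (nat_lit 0) (nat_lit 177824092644) (nat_lit 684) (nat_lit 23954918559) (nat_lit 61) (nat_lit 5) (nat_lit 60) (nat_lit 5) (nat_lit 69) (nat_lit 5) (nat_lit 299) (nat_lit 295) (nat_lit 126)) (XT.lf (nat_lit 76) (nat_lit 8645037323) (nat_lit 0) (nat_lit 333128653834) (nat_lit 684) (nat_lit 7329982980) (nat_lit 62) (nat_lit 5) (nat_lit 61) (nat_lit 5) (nat_lit 70) (nat_lit 5) (nat_lit 300) (nat_lit 295) (nat_lit 125)))) (XT.nd (nat_lit 156) (nat_lit 0) (nat_lit 76) (XT.nd (nat_lit 78) (nat_lit 0) (nat_lit 76) (XT.lf (nat_lit 0) (nat_lit 16855720227) (nat_lit 684) (nat_lit 124788067661) (nat_lit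 760) (nat_lit 222869648976) (nat_lit 52) (nat_lit 5) (nat_lit 61) (nat_lit 5) (nat_lit 62) (nat_lit 5) (nat_lit 301) (nat_lit 295) (nat_lit 124)) (XT.lf (nat_lit 0) (nat_lit 45512880801) (nat_lit 684) (nat_lit 270526742994) (nat_lit 76) (nat_lit 64970678659) (nat_lit 53) (nat_lit 5) (nat_lit 62) (nat_lit 5) (nat_lit 54) (nat_lit 5) (nat_lit 302) (nat_lit 295) (nat_lit 123))) (XT.nd (nat_lit 36972) (nat_lit 0) (nat_lit 380) (XT.lf (nat_lit 0) (nat_lit 81060278344) (nat_lit 684) (nat_lit 32109243358) (nat_lit 76) (nat_lit 285427512778) (nat_lit 53) (nat_lit 5) (nat_lit 62) (nat_lit 5) (nat_lit 54) (nat_lit 5) (nat_lit 303) (nat_lit 295) (nat_lit 122)) (XT.nd (nat_lit 78) (nat_lit 0) (nat_lit 0) (XT.lf (nat_lit 0) (nat_lit 127409278536) (nat_lit 684) (nat_lit 13190165483) (nat_lit 684) (nat_lit 13190165483) (nat_lit 58) (nat_lit 3) (nat_lit 67) (nat_lit 3) (nat_lit 67) (nat_lit 5) (nat_lit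 296) (nat_lit 296) (nat_lit 128)) (XT.lf (nat_lit 76) (nat_lit 169145450027) (nat_lit 0) (nat_lit 98507601798) (nat_lit 684) (nat_lit 52097242661) (nat_lit 59) (nat_lit 5) (nat_lit 58) (nat_lit 3) (nat_lit 67) (nat_lit 5) (nat_lit 297) (nat_lit 296) (nat_lit 127))))))) (XT.nd (nat_lit 37596) (nat_lit 0) (nat_lit 456) (XT.nd (nat_lit 312) (nat_lit 532) (nat_lit 0) (XT.nd (nat_lit 156) (nat_lit 0) (nat_lit 76) (XT.nd (nat_lit 78) (nat_lit 0) (nat_lit 0) (XT.lf (nat_lit 76) (nat_lit 48381643471) (nat_lit 0) (nat_lit 235897534447) (nat_lit 684) (nat_lit 48477635064) (nat_lit 60) (nat_lit 5) (nat_lit 59) (nat_lit 5) (nat_lit 68) (nat_lit 5) (nat_lit 298) (nat_lit 296) (nat_lit 126)) (XT.lf (nat_lit 76) (nat_lit 266949108449) (nat_lit 0) (nat_lit 39543866388) (nat_lit 684) (nat_lit 40097999608) (nat_lit 60) (nat_lit 5) (nat_lit 59) (nat_lit 5) (nat_lit 68) (nat_lit 5) (nat_lit 299) (nat_lit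 296) (nat_lit 125))) (XT.nd (nat_lit 78) (nat_lit 0) (nat_lit 76) (XT.lf (nat_lit 76) (nat_lit 143365136036) (nat_lit 0) (nat_lit 192050482828) (nat_lit 684) (nat_lit 25869663277) (nat_lit 61) (nat_lit 5) (nat_lit 60) (nat_lit 5) (nat_lit 69) (nat_lit 5) (nat_lit 300) (nat_lit 296) (nat_lit 124)) (XT.lf (nat_lit 76) (nat_lit 9337781672) (nat_lit 0) (nat_lit 359779261498) (nat_lit 684) (nat_lit 7914843297) (nat_lit 62) (nat_lit 5) (nat_lit 61) (nat_lit 5) (nat_lit 70) (nat_lit 5) (nat_lit 301) (nat_lit 296) (nat_lit 123)))) (XT.nd (nat_lit 37128) (nat_lit 0) (nat_lit 456) (XT.nd (nat_lit 78) (nat_lit 0) (nat_lit 76) (XT.lf (nat_lit 0) (nat_lit 18205556628) (nat_lit 684) (nat_lit 134770002938) (nat_lit 760) (nat_lit 240698875578) (nat_lit 52) (nat_lit 5) (nat_lit 61) (nat_lit 5) (nat_lit 62) (nat_lit 5) (nat_lit 302) (nat_lit 296) (nat_lit 122)) (XT.lf (nat_lit 0) (nat_lit 49155200883)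 (nat_lit 684) (nat_lit 292167745112) (nat_lit 76) (nat_lit 70168109017) (nat_lit 53) (nat_lit 5) (nat_lit 62) (nat_lit 5) (nat_lit 54) (nat_lit 5) (nat_lit 303) (nat_lit 296) (nat_lit 121))) (XT.nd (nat_lit 78) (nat_lit 0) (nat_lit 0) (XT.lf (nat_lit 0) (nat_lit 137602916708) (nat_lit 684) (nat_lit 14244905620) (nat_lit 684) (nat_lit 14244905620) (nat_lit 58) (nat_lit 3) (nat_lit 67) (nat_lit 3) (nat_lit 67) (nat_lit 5) (nat_lit 297) (nat_lit 297) (nat_lit 126)) (XT.lf (nat_lit 76) (nat_lit 182677991113) (nat_lit 0) (nat_lit 106388978044) (nat_lit 684) (nat_lit 56263255005) (nat_lit 59) (nat_lit 5) (nat_lit 58) (nat_lit 3) (nat_lit 67) (nat_lit 5) (nat_lit 298) (nat_lit 297) (nat_lit 125))))) (XT.nd (nat_lit 37440) (nat_lit 76) (nat_lit 0) (XT.nd (nat_lit 156) (nat_lit 0) (nat_lit 76) (XT.nd (nat_lit 78) (nat_lit 0) (nat_lit 0) (XT.lf (nat_lit 76) (nat_lit 52253141974) (nat_lit 0) (nat_lit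 254769923418) (nat_lit 684) (nat_lit 52354205500) (nat_lit 60) (nat_lit 5) (nat_lit 59) (nat_lit 5) (nat_lit 68) (nat_lit 5) (nat_lit 299) (nat_lit 297) (nat_lit 124)) (XT.lf (nat_lit 76) (nat_lit 288305932518) (nat_lit 0) (nat_lit 42707918491) (nat_lit 684) (nat_lit 43304320717) (nat_lit 60) (nat_lit 5) (nat_lit 59) (nat_lit 5) (nat_lit 68) (nat_lit 5) (nat_lit 300) (nat_lit 297) (nat_lit 123))) (XT.nd (nat_lit 78) (nat_lit 0) (nat_lit 76) (XT.lf (nat_lit 76) (nat_lit 154835288675) (nat_lit 0) (nat_lit 207414918208) (nat_lit 684) (nat_lit 27937822788) (nat_lit 61) (nat_lit 5) (nat_lit 60) (nat_lit 5) (nat_lit 69) (nat_lit 5) (nat_lit 301) (nat_lit 297) (nat_lit 122)) (XT.lf (nat_lit 76) (nat_lit 10085782740) (nat_lit 0) (nat_lit 388561872786) (nat_lit 684) (nat_lit 8546711898) (nat_lit 62) (nat_lit 5) (nat_lit 61) (nat_lit 5) (nat_lit 70) (nat_lit 5) (nat_lit 302) (nat_lit 297) (nat_lit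 121)))) (XT.nd (nat_lit 156) (nat_lit 0) (nat_lit 0) (XT.nd (nat_lit 78) (nat_lit 0) (nat_lit 0) (XT.lf (nat_lit 0) (nat_lit 148611918125) (nat_lit 684) (nat_lit 15384092460) (nat_lit 684) (nat_lit 15384092460) (nat_lit 58) (nat_lit 3) (nat_lit 67) (nat_lit 3) (nat_lit 67) (nat_lit 5) (nat_lit 298) (nat_lit 298) (nat_lit 124)) (XT.lf (nat_lit 76) (nat_lit 197293006366) (nat_lit 0) (nat_lit 114900754810) (nat_lit 684) (nat_lit 60762800429) (nat_lit 59) (nat_lit 5) (nat_lit 58) (nat_lit 3) (nat_lit 67) (nat_lit 5) (nat_lit 299) (nat_lit 298) (nat_lit 123))) (XT.nd (nat_lit 78) (nat_lit 76) (nat_lit 0) (XT.lf (nat_lit 76) (nat_lit 56434222399) (nat_lit 0) (nat_lit 275152019876) (nat_lit 684) (nat_lit 56541135589) (nat_lit 60) (nat_lit 5) (nat_lit 59) (nat_lit 5) (nat_lit 68) (nat_lit 5) (nat_lit 300) (nat_lit 298) (nat_lit 122)) (XT.nd (nat_lit 37440) (nat_lit 76) (nat_lit 0) (XT.lf (nat_lit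 76) (nat_lit 311371174775) (nat_lit 0) (nat_lit 46125017326) (nat_lit 684) (nat_lit 46767364197) (nat_lit 60) (nat_lit 5) (nat_lit 59) (nat_lit 5) (nat_lit 68) (nat_lit 5) (nat_lit 301) (nat_lit 298) (nat_lit 121)) (XT.lf (nat_lit 76) (nat_lit 213077112139) (nat_lit 0) (nat_lit 124093379772) (nat_lit 684) (nat_lit 65622525615) (nat_lit 59) (nat_lit 5) (nat_lit 58) (nat_lit 3) (nat_lit 67) (nat_lit 5) (nat_lit 300) (nat_lit 299) (nat_lit 121))))))))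

set_option maxRecDepth 10000000 in
noncomputable def Tp : PT := (PT.nd (nat_lit 4586010) (PT.nd (nat_lit 4361682) pc0 pc1) (PT.nd (nat_lit 112944) pc2 pc3))

set_option maxRecDepth 10000000 in
noncomputable def Tx : XT := (XT.nd (nat_lit 7528560) (nat_lit 0) (nat_lit 76) XT.nil (XT.nd (nat_lit 3712800) (nat_lit 0) (nat_lit 0) (XT.nd (nat_lit 1722864) (nat_lit 0) (nat_lit 152) (XT.nd (nat_lit 1196520) (nat_lit 0) (nat_lit 0) (XT.nd (nat_lit 823914) (nat_lit 0) (nat_lit 0) (XT.nd (nat_lit 562380) (nat_lit 0) (nat_lit 0) (XT.nd (nat_lit 410982) (nat_lit 0) (nat_lit 0) (XT.nd (nat_lit 262314) (nat_lit 0) (nat_lit 0) (XT.nd (nat_lit 187044) (nat_lit 0) (nat_lit 0) xc0 xc1) (XT.nd (nat_lit 74646) (nat_lit 0) (nat_lit 0) xc2 xc3)) (XT.nd (nat_lit 75972) (nat_lit 0) (nat_lit 0) (XT.nd (nat_lit 38064) (nat_lit 0) (nat_lit 0) xc4 xc5) (XT.nd (nat_lit 37752) (nat_lit 0) (nat_lit 0) xc6 xc7)))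 (XT.nd (nat_lit 148902) (nat_lit 0) (nat_lit 0) (XT.nd (nat_lit 74724) (nat_lit 0) (nat_lit 0) (XT.nd (nat_lit 37440) (nat_lit 0) (nat_lit 0) xc8 xc9) (XT.nd (nat_lit 37128) (nat_lit 0) (nat_lit 0) xc10 xc11)) (XT.nd (nat_lit 73476) (nat_lit 0) (nat_lit 0) (XT.nd (nat_lit 36816) (nat_lit 0) (nat_lit 0) xc12 xc13) (XT.nd (nat_lit 2574) (nat_lit 0) (nat_lit 0) xc14 xc15)))) (XT.nd (nat_lit 188058) (nat_lit 0) (nat_lit 0) (XT.nd (nat_lit 111228) (nat_lit 0) (nat_lit 0) (XT.nd (nat_lit 38922) (nat_lit 0) (nat_lit 0) (XT.nd (nat_lit 36348) (nat_lit 0) (nat_lit 0) xc16 xc17) (XT.nd (nat_lit 36192) (nat_lit 0) (nat_lit 0) xc18 xc19)) (XT.nd (nat_lit 38454) (nat_lit 0) (nat_lit 0) (XT.nd (nat_lit 2574) (nat_lit 0) (nat_lit 0) xc20 xc21) (XT.nd (nat_lit 35724) (nat_lit 0) (nat_lit 152) xc22 xc23))) (XT.nd (nat_lit 109122) (nat_lit 0) (nat_lit 0) (XT.nd (nat_lit 38220) (nat_lit 0) (nat_lit 0)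 (XT.nd (nat_lit 35646) (nat_lit 0) (nat_lit 0) xc24 xc25) (XT.nd (nat_lit 35490) (nat_lit 0) (nat_lit 0) xc26 xc27)) (XT.nd (nat_lit 37752) (nat_lit 0) (nat_lit 0) (XT.nd (nat_lit 2574) (nat_lit 152) (nat_lit 0) xc28 xc29) (XT.nd (nat_lit 2574) (nat_lit 152) (nat_lit 0) xc30 xc31))))) (XT.nd (nat_lit 264264) (nat_lit 0) (nat_lit 152) (XT.nd (nat_lit 148902) (nat_lit 0) (nat_lit 76) (XT.nd (nat_lit 74724) (nat_lit 0) (nat_lit 76) (XT.nd (nat_lit 37440) (nat_lit 0) (nat_lit 0) (XT.nd (nat_lit 2574) (nat_lit 152) (nat_lit 0) xc32 xc33) (XT.nd (nat_lit 2574) (nat_lit 152) (nat_lit 0) xc34 xc35)) (XT.nd (nat_lit 37128) (nat_lit 0) (nat_lit 0) (XT.nd (nat_lit 2574) (nat_lit 76) (nat_lit 0) xc36 xc37) (XT.nd (nat_lit 2574) (nat_lit 152) (nat_lit 0) xc38 xc39))) (XT.nd (nat_lit 42042) (nat_lit 0) (nat_lit 76) (XT.nd (nat_lit 5148) (nat_lit 76) (nat_lit 0) (XT.nd (nat_lit 2574) (nat_lit 152)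 (nat_lit 0) xc40 xc41) (XT.nd (nat_lit 34242) (nat_lit 0) (nat_lit 76) xc42 xc43)) (XT.nd (nat_lit 36660) (nat_lit 0) (nat_lit 0) (XT.nd (nat_lit 34086) (nat_lit 0) (nat_lit 0) xc44 xc45) (XT.nd (nat_lit 34008) (nat_lit 0) (nat_lit 152) xc46 xc47)))) (XT.nd (nat_lit 114816) (nat_lit 0) (nat_lit 0) (XT.nd (nat_lit 73008) (nat_lit 0) (nat_lit 0) (XT.nd (nat_lit 36426) (nat_lit 0) (nat_lit 0) (XT.nd (nat_lit 33852) (nat_lit 0) (nat_lit 608) xc48 xc49) (XT.nd (nat_lit 2574) (nat_lit 0) (nat_lit 0) xc50 xc51)) (XT.nd (nat_lit 36582) (nat_lit 0) (nat_lit 0) (XT.nd (nat_lit 2574) (nat_lit 76) (nat_lit 0) xc52 xc53) (XT.nd (nat_lit 2574) (nat_lit 304) (nat_lit 0) xc54 xc55))) (XT.nd (nat_lit 73476) (nat_lit 0) (nat_lit 0) (XT.nd (nat_lit 36660) (nat_lit 0) (nat_lit 0) (XT.nd (nat_lit 34086) (nat_lit 0) (nat_lit 0) xc56 xc57) (XT.nd (nat_lit 34164) (nat_lit 0) (nat_lit 76) xc58 xc59)) (XT.nd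 (nat_lit 36816) (nat_lit 0) (nat_lit 0) (XT.nd (nat_lit 34242) (nat_lit 0) (nat_lit 304) xc60 xc61) (XT.nd (nat_lit 34320) (nat_lit 0) (nat_lit 608) xc62 xc63)))))) (XT.nd (nat_lit 636948) (nat_lit 0) (nat_lit 76) (XT.nd (nat_lit 298896) (nat_lit 0) (nat_lit 0) (XT.nd (nat_lit 148746) (nat_lit 0) (nat_lit 0) (XT.nd (nat_lit 74178) (nat_lit 0) (nat_lit 0) (XT.nd (nat_lit 37050) (nat_lit 0) (nat_lit 0) (XT.nd (nat_lit 2574) (nat_lit 0) (nat_lit 0) xc64 xc65) (XT.nd (nat_lit 2574) (nat_lit 0) (nat_lit 0) xc66 xc67)) (XT.nd (nat_lit 37206) (nat_lit 0) (nat_lit 0) (XT.nd (nat_lit 2574) (nat_lit 76) (nat_lit 0) xc68 xc69) (XT.nd (nat_lit 2574) (nat_lit 76) (nat_lit 0) xc70 xc71))) (XT.nd (nat_lit 74880) (nat_lit 0) (nat_lit 0) (XT.nd (nat_lit 37362) (nat_lit 0) (nat_lit 0) (XT.nd (nat_lit 2574) (nat_lit 152) (nat_lit 0) xc72 xc73) (XT.nd (nat_lit 2574) (nat_lit 228) (nat_lit 0) xc74 xc75))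 (XT.nd (nat_lit 37518) (nat_lit 0) (nat_lit 0) (XT.nd (nat_lit 2574) (nat_lit 304) (nat_lit 0) xc76 xc77) (XT.nd (nat_lit 2574) (nat_lit 304) (nat_lit 0) xc78 xc79)))) (XT.nd (nat_lit 151632) (nat_lit 0) (nat_lit 0) (XT.nd (nat_lit 75660) (nat_lit 0) (nat_lit 0) (XT.nd (nat_lit 37752) (nat_lit 0) (nat_lit 0) (XT.nd (nat_lit 2574) (nat_lit 228) (nat_lit 0) xc80 xc81) (XT.nd (nat_lit 2574) (nat_lit 152) (nat_lit 0) xc82 xc83)) (XT.nd (nat_lit 37908) (nat_lit 0) (nat_lit 0) (XT.nd (nat_lit 2574) (nat_lit 76) (nat_lit 0) xc84 xc85) (XT.nd (nat_lit 2574) (nat_lit 76) (nat_lit 0) xc86 xc87))) (XT.nd (nat_lit 76362) (nat_lit 0) (nat_lit 76) (XT.nd (nat_lit 38064) (nat_lit 0) (nat_lit 76) (XT.nd (nat_lit 35490) (nat_lit 0) (nat_lit 608) xc88 xc89) (XT.nd (nat_lit 35646) (nat_lit 0) (nat_lit 228) xc90 xc91)) (XT.nd (nat_lit 38298) (nat_lit 0) (nat_lit 0) (XT.nd (nat_lit 35724) (nat_lit 0) (nat_lit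 0) xc92 xc93) (XT.nd (nat_lit 35802) (nat_lit 0) (nat_lit 0) xc94 xc95))))) (XT.nd (nat_lit 414648) (nat_lit 0) (nat_lit 304) (XT.nd (nat_lit 188916) (nat_lit 0) (nat_lit 76) (XT.nd (nat_lit 77298) (nat_lit 0) (nat_lit 0) (XT.nd (nat_lit 38532) (nat_lit 0) (nat_lit 0) (XT.nd (nat_lit 2574) (nat_lit 228) (nat_lit 0) xc96 xc97) (XT.nd (nat_lit 36114) (nat_lit 0) (nat_lit 532) xc98 xc99)) (XT.nd (nat_lit 72540) (nat_lit 0) (nat_lit 76) (XT.nd (nat_lit 36192) (nat_lit 0) (nat_lit 0) xc100 xc101) (XT.nd (nat_lit 2574) (nat_lit 456) (nat_lit 0) xc102 xc103))) (XT.nd (nat_lit 112320) (nat_lit 0) (nat_lit 152) (XT.nd (nat_lit 39000) (nat_lit 0) (nat_lit 76) (XT.nd (nat_lit 36426) (nat_lit 0) (nat_lit 228) xc104 xc105) (XT.nd (nat_lit 36582) (nat_lit 0) (nat_lit 0) xc106 xc107)) (XT.nd (nat_lit 39390) (nat_lit 0) (nat_lit 0) (XT.nd (nat_lit 36816) (nat_lit 0) (nat_lit 76) xc108 xc109) (XT.nd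 (nat_lit 36894) (nat_lit 0) (nat_lit 0) xc110 xc111)))) (XT.nd (nat_lit 300378) (nat_lit 0) (nat_lit 608) (XT.nd (nat_lit 149370) (nat_lit 0) (nat_lit 304) (XT.nd (nat_lit 74490) (nat_lit 0) (nat_lit 228) (XT.nd (nat_lit 37206) (nat_lit 0) (nat_lit 0) xc112 xc113) (XT.nd (nat_lit 37362) (nat_lit 0) (nat_lit 0) xc114 xc115)) (XT.nd (nat_lit 75270) (nat_lit 0) (nat_lit 152) (XT.nd (nat_lit 37596) (nat_lit 0) (nat_lit 0) xc116 xc117) (XT.nd (nat_lit 37752) (nat_lit 0) (nat_lit 0) xc118 xc119))) (XT.nd (nat_lit 224406) (nat_lit 0) (nat_lit 760) (XT.nd (nat_lit 111696) (nat_lit 0) (nat_lit 304) (XT.nd (nat_lit 37986) (nat_lit 0) (nat_lit 0) xc120 xc121) (XT.nd (nat_lit 38298) (nat_lit 0) (nat_lit 0) xc122 xc123)) (XT.nd (nat_lit 113646) (nat_lit 0) (nat_lit 760) (XT.nd (nat_lit 38610) (nat_lit 0) (nat_lit 228) xc124 xc125) (XT.nd (nat_lit 112164) (nat_lit 0) (nat_lit 532) xc126 xc127)))))))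 XT.nil))

set_option maxRecDepth 10000000 in
noncomputable def Te : XT := XT.nil

set_option maxRecDepth 10000000 in
noncomputable def Tz : ZL := (ZL.cons (nat_lit 76) (nat_lit 3) (nat_lit 78366533311512146131) (ZL.cons (nat_lit 152) (nat_lit 6) (nat_lit 152008689648213342118) (ZL.cons (nat_lit 228) (nat_lit 6) (nat_lit 147748066368996466234) (ZL.cons (nat_lit 304) (nat_lit 3) (nat_lit 73671700527387908532) (ZL.cons (nat_lit 380) (nat_lit 6) (nat_lit 143146593227442240276) (ZL.cons (nat_lit 456) (nat_lit 6) (nat_lit 139393396193902486856) (ZL.cons (nat_lit 532) (nat_lit 3) (nat_lit 69509353044071313258) (ZL.cons (nat_lit 608) (nat_lit 6) (nat_lit 136061568786550395298) (ZL.cons (nat_lit 684) (nat_lit 6) (nat_lit 135339943397679553162) (ZL.cons (nat_lit 760) (nat_lit 6) (nat_lit 132088505080850276076) (ZL.cons (nat_lit 836) (nat_lit 3) (nat_lit 65870784898869647140) (ZL.cons (nat_lit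 912) (nat_lit 6) (nat_lit 129245123355036547696) (ZL.cons (nat_lit 988) (nat_lit 6) (nat_lit 128576951698674656826) (ZL.cons (nat_lit 1064) (nat_lit 6) (nat_lit 126792948550752064442) (ZL.cons (nat_lit 1140) (nat_lit 6) (nat_lit 125827335808046739248) (ZL.cons (nat_lit 1216) (nat_lit 3) (nat_lit 62753049717397915087) (ZL.cons (nat_lit 1292) (nat_lit 6) (nat_lit 123476428105762931658) (ZL.cons (nat_lit 1368) (nat_lit 6) (nat_lit 122857750646168588260) (ZL.cons (nat_lit 1444) (nat_lit 6) (nat_lit 121510297286920811494) (ZL.cons (nat_lit 1520) (nat_lit 6) (nat_lit 120616211414045510388) (ZL.cons (nat_lit 1596) (nat_lit 3) (nat_lit 60159385163851038032) (ZL.cons (nat_lit 1672) (nat_lit 6) (nat_lit 119917292205927240270) (ZL.cons (nat_lit 1748) (nat_lit 6) (nat_lit 118768198542976978320) (ZL.cons (nat_lit 1824) (nat_lit 6) (nat_lit 118195349043352586288) (ZL.cons (nat_lit 1900) (nat_lit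 6) (nat_lit 117293363792249457920) (ZL.cons (nat_lit 1976) (nat_lit 6) (nat_lit 117815054311611757506) (ZL.cons (nat_lit 2052) (nat_lit 6) (nat_lit 118687972832672626450) (ZL.cons (nat_lit 2128) (nat_lit 6) (nat_lit 117302760845578882240) (ZL.cons (nat_lit 2204) (nat_lit 6) (nat_lit 116474903555879529364) (ZL.cons (nat_lit 2280) (nat_lit 3) (nat_lit 58099747571299285828) (ZL.cons (nat_lit 2356) (nat_lit 6) (nat_lit 115126097966333798438) (ZL.cons (nat_lit 2432) (nat_lit 6) (nat_lit 115487090321772274838) (ZL.cons (nat_lit 2508) (nat_lit 6) (nat_lit 116211214246607381574) (ZL.cons (nat_lit 2584) (nat_lit 6) (nat_lit 115147238632764546438) (ZL.cons (nat_lit 2660) (nat_lit 6) (nat_lit 114616822429408627886) (ZL.cons (nat_lit 2736) (nat_lit 3) (nat_lit 56726811265353388533) (ZL.cons (nat_lit 2812) (nat_lit 6) (nat_lit 113641060869107524430) (ZL.cons (nat_lit 2888) (nat_lit 6) (nat_lit 114204486630018807980)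 (ZL.cons (nat_lit 2964) (nat_lit 6) (nat_lit 113437952102519407168) (ZL.cons (nat_lit 3040) (nat_lit 3) (nat_lit 56591472156222223162) (ZL.cons (nat_lit 3116) (nat_lit 6) (nat_lit 112266026519823937382) (ZL.cons (nat_lit 3192) (nat_lit 6) (nat_lit 112655898263697491896) (ZL.cons (nat_lit 3268) (nat_lit 6) (nat_lit 112164772149479048792) (ZL.cons (nat_lit 3344) (nat_lit 3) (nat_lit 55676919461111027703) (ZL.cons (nat_lit 3420) (nat_lit 6) (nat_lit 111556272327694862556) (ZL.cons (nat_lit 3496) (nat_lit 3) (nat_lit 55660077001775690148) (ZL.cons (nat_lit 3572) (nat_lit 6) (nat_lit 110899092520167941424) (ZL.cons (nat_lit 3648) (nat_lit 1) (nat_lit 18446744073709551617) ZL.nil))))))))))))))))))))))))))))))))))))))))))))))))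

noncomputable def vl : XL := ⟨(nat_lit 0), (nat_lit 76), (nat_lit 48221197), (nat_lit 228), (nat_lit 665807289), (nat_lit 76), (nat_lit 48221197), (nat_lit 1), (nat_lit 5), (nat_lit 3), (nat_lit 4), (nat_lit 1), (nat_lit 4), (nat_lit 0), (nat_lit 0), (nat_lit 0)⟩

noncomputable def cp0 : Nat := (nat_lit 266037987334380848450819790976172988946568168047556345566382047167305689389339284143758689921220795363049905455815533688302257148458212421951839328634543429874943233762780190402543361061783173602103519659441084772051901701766671109590041673506773875415497927079731845267228105189049238218627641828187764813734718423185679736735529719286365734196858727155545844324750212901664323540630597528595439821050980196296313387303576103585100880405449847814933390256192508235288973360643457927982159059589845408227730940451355297370639411104159322433094658105290589236317460966887419147019160776644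4138417463447084358496480106015076742861616576517440965251319499024257100429731853525752164697632539721010897209640826709518455012421779603120160111768170424791342823937905393342414438748137926907300131658487682776462461403871170790714007782953669388561174394201828499953627597638372895808317167878166702857057837697855052186597007839793522597368702257698396531190333642467370667141736109776361441376589474164713988496344073627537868774777279116025711959203544574727528334100092874928383149723832881815055063003387165432365449216)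

noncomputable def cp1 : Nat := (nat_lit 1566193552683923327600039203990679919889924739215620325502587357747109885035791825944148432212941705151363996953809917031213302421059001636978999795454611661638609997192237953612543497108563094636824363247476353406121921834355004153159562453097210556088098219667749759435035027032103143824026726618745888481424106864570063130735166808910273580374085140653547728582073252681790896772651028810603121503390744014722826791575763830844133236404793281581571783395578832970997248693853116993873801355599776402717134454580671876943179528533098637924917525494652068842919571331339828273154681889354550399941434762843490937162854772222451731104018482256147253434261555126896551676586168158438627035887242959425347995809361579808222080709244392873230894775092433112621762819450766579288645868007103609655528352814965081308000600700103530832011621667733724080263929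8303956194374587607766327326912207188541742883825041528402297001498495027608787430545188461611238222736048997235228828157271658941375537790204524456959705377130820835210793900645356455064357181514623795269686267083239132256650232878773238390012864866818912374725411492533415532532075560923024481531770432520461025432613403804528734759051526482040364584639488160485692153034059930217099184247464449216569944847073974686852825137388565339920437752119045530082562399649808859961275702903280369737504929311641732906232857888014771518079245341497094726947471669031771571495315911184002745651754484950241862783491703257247242251778165030318873257754651921718762918028188801822376611841923621290118631006082896636454264606041802449392623142278788421696718226331166849094718166375751453615458067516021440394046237231499523093321882492956300538599483205134408468594424611223861954266797126294993873813265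412567339555881278869280922546294481507092061591663272565941050483693613704107089657324684292851907640973589038887302226790168819936103297511009454195554726087686193805603528478837506775600462621013753332770316013320376422081804226047684046089216905446052848326744041413356764391429925029771030278977924174345493111542086629785865224588672715188265879144227709908366785933854480416611765296663347110573389539064505562504788351812794646467889945506066532873589903506162211511721251751160205946265199693217568653312)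

noncomputable def rc0 : Nat := (nat_lit 1566193552683923327600039203990679919889924739215620325502587357747109885035791825944148432212941705151363996953809917031213302421059001636978999795454611661638609997192237953612543497108563094636824363247476353406121921834355004153159562453097210556088098219667749759435035027032103143824026726618745888481424106864570063130735166808910273580374085140653547728582073252681790896772651028810603121503390744014722826791575763830844133236404793281581571783395578832970997248693853116993873801355599776402717134454580671876943179528533098637924917525494652068842919571331339828273154681889354550399941434762843490937162854772222451731104018482256147253434261555126896551676586168158438627035887242959425347995809361579808222080709244392873230894775092433112621762819450766579288645868007103609655528352814965081308000600700103530832011621667733724080263929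8303956194374587607766327326912207188541742883825041528402297001498495027608787430545188461611238222736048997235228828157271658941375537790204524456959705377130820835210793900645356455064357181514623795269686267083239132256650232878773238390012864866818912374725411492533415532532075560923024481531770432520461025432613403804528734759051526482040364584639488160485692153034059930217099184247464449216569944847073974686852825137388565339920437752119045530082562399649808859961275702903280369737504929311641732906232857888014771518079245341497094726947471669031771571495315911184002745651754484950241862783491703257247242251778165030318873257754651921718762918028188801822376611841923621290118631006082896636454264606041802449392623142278788421696718226331166849094718166375751453615458067516021440394046237231499523093321882492956300538599483205134408468594424611223861954266797126294993873813265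412567339555881278869280922546294481507092061591663272565941050483693613704107089657324684292851907640973589038887302226790168819936103297511009454195554726087686193805603528478837506775600462621013753332770316013320376422081804226047684046089216905446052848326744041413356764391429925029771030278977924174345493111542086629785865224588672715188265879144227709908366785933854480416611765296663347110573389539064505562504788351812794646467889945506066532873589903506162211511721251751160205946265199693217568653312)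

end Vale.Agent.Lib.P154.PChain.BX.S3
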