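import Vale.Agent.Lib.P154.PChain.BX.R3_0

set_option linter.all false

namespace Vale.Agent.Lib.P154.PChain.BX.S4

open Vale.Agent.Lib.P154.Chain

noncomputable def pc0 : PT := (PT.nd (nat_lit 3649464) (PT.nd (nat_lit 3537066) (PT.nd (nat_lit 3462186) (PT.nd (nat_lit 3462030) (PT.nd (nat_lit 3424668) (PT.nd (nat_lit 3424590) PT.nil (PT.lf (nat_lit 76) (nat_lit 6) (nat_lit 1) (nat_lit 3) (nat_lit 134) (nat_lit 91) (nat_lit 135))) (PT.lf (nat_lit 76) (nat_lit 6) (nat_lit 1) (nat_lit 1) (nat_lit 135) (nat_lit 91) (nat_lit 134))) (PT.nd (nat_lit 78) (PT.lf (nat_lit 152) (nat_lit 6) (nat_lit 2) (nat_lit 3) (nat_lit 133) (nat_lit 92) (nat_lit 135)) (PT.lf (nat_lit 228) (nat_lit 3) (nat_lit 3) (nat_lit 1) (nat_lit 134) (nat_lit 92) (nat_lit 134)))) (PT.nd (nat_lit 37440) (PT.nd (nat_lit 37362) (PT.lf (nat_lit 152) (nat_lit 6) (nat_lit 2) (nat_lit 1) (nat_lit 135) (nat_lit 92) (nat_lit 133))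 (PT.lf (nat_lit 304) (nat_lit 6) (nat_lit 4) (nat_lit 3) (nat_lit 133) (nat_lit 93) (nat_lit 134))) (PT.nd (nat_lit 37362) (PT.lf (nat_lit 304) (nat_lit 6) (nat_lit 4) (nat_lit 1) (nat_lit 134) (nat_lit 93) (nat_lit 133)) (PT.lf (nat_lit 380) (nat_lit 6) (nat_lit 5) (nat_lit 3) (nat_lit 132) (nat_lit 94) (nat_lit 134))))) (PT.nd (nat_lit 74880) (PT.nd (nat_lit 37440) (PT.nd (nat_lit 78) (PT.lf (nat_lit 456) (nat_lit 3) (nat_lit 6) (nat_lit 1) (nat_lit 133) (nat_lit 94) (nat_lit 133)) (PT.lf (nat_lit 380) (nat_lit 6) (nat_lit 5) (nat_lit 1) (nat_lit 134) (nat_lit 94) (nat_lit 132))) (PT.nd (nat_lit 78) (PT.lf (nat_lit 532) (nat_lit 6) (nat_lit 7) (nat_lit 3) (nat_lit 132) (nat_lit 95) (nat_lit 133)) (PT.lf (nat_lit 532) (nat_lit 6) (nat_lit 7) (nat_lit 1) (nat_lit 133) (nat_lit 95) (nat_lit 132)))) (PT.nd (nat_lit 156) (PT.nd (nat_lit 78) (PT.lf (nat_lit 608) (nat_lit 6) (nat_lit 8)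 (nat_lit 3) (nat_lit 131) (nat_lit 96) (nat_lit 133)) (PT.lf (nat_lit 684) (nat_lit 3) (nat_lit 9) (nat_lit 1) (nat_lit 132) (nat_lit 96) (nat_lit 132))) (PT.nd (nat_lit 37284) (PT.lf (nat_lit 608) (nat_lit 6) (nat_lit 8) (nat_lit 1) (nat_lit 133) (nat_lit 96) (nat_lit 131)) (PT.lf (nat_lit 760) (nat_lit 6) (nat_lit 10) (nat_lit 3) (nat_lit 130) (nat_lit 97) (nat_lit 133)))))) (PT.nd (nat_lit 75036) (PT.nd (nat_lit 37518) (PT.nd (nat_lit 156) (PT.nd (nat_lit 78) (PT.lf (nat_lit 836) (nat_lit 6) (nat_lit 11) (nat_lit 3) (nat_lit 131) (nat_lit 97) (nat_lit 132)) (PT.lf (nat_lit 836) (nat_lit 6) (nat_lit 11) (nat_lit 1) (nat_lit 132) (nat_lit 97) (nat_lit 131))) (PT.nd (nat_lit 37284) (PT.lf (nat_lit 760) (nat_lit 6) (nat_lit 10) (nat_lit 1) (nat_lit 133) (nat_lit 97) (nat_lit 130)) (PT.lf (nat_lit 912) (nat_lit 6) (nat_lit 12) (nat_lit 3) (nat_lit 130) (nat_lit 98) (nat_lit 132))))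 (PT.nd (nat_lit 37362) (PT.nd (nat_lit 78) (PT.lf (nat_lit 988) (nat_lit 3) (nat_lit 13) (nat_lit 1) (nat_lit 131) (nat_lit 98) (nat_lit 131)) (PT.lf (nat_lit 912) (nat_lit 6) (nat_lit 12) (nat_lit 1) (nat_lit 132) (nat_lit 98) (nat_lit 130))) (PT.nd (nat_lit 78) (PT.lf (nat_lit 1064) (nat_lit 6) (nat_lit 14) (nat_lit 3) (nat_lit 129) (nat_lit 99) (nat_lit 132)) (PT.lf (nat_lit 1140) (nat_lit 6) (nat_lit 15) (nat_lit 3) (nat_lit 130) (nat_lit 99) (nat_lit 131))))) (PT.nd (nat_lit 37518) (PT.nd (nat_lit 37362) (PT.nd (nat_lit 78) (PT.lf (nat_lit 1140) (nat_lit 6) (nat_lit 15) (nat_lit 1) (nat_lit 131) (nat_lit 99) (nat_lit 130)) (PT.lf (nat_lit 1064) (nat_lit 6) (nat_lit 14) (nat_lit 1) (nat_lit 132) (nat_lit 99) (nat_lit 129))) (PT.nd (nat_lit 78) (PT.lf (nat_lit 1216) (nat_lit 6) (nat_lit 16) (nat_lit 3) (nat_lit 129) (nat_lit 100) (nat_lit 131)) (PT.lf (nat_lit 1292) (nat_lit 3)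 (nat_lit 17) (nat_lit 1) (nat_lit 130) (nat_lit 100) (nat_lit 130)))) (PT.nd (nat_lit 37362) (PT.nd (nat_lit 37284) (PT.lf (nat_lit 1216) (nat_lit 6) (nat_lit 16) (nat_lit 1) (nat_lit 131) (nat_lit 100) (nat_lit 129)) (PT.lf (nat_lit 1368) (nat_lit 6) (nat_lit 18) (nat_lit 3) (nat_lit 128) (nat_lit 101) (nat_lit 131))) (PT.nd (nat_lit 78) (PT.lf (nat_lit 1444) (nat_lit 6) (nat_lit 19) (nat_lit 3) (nat_lit 129) (nat_lit 101) (nat_lit 130)) (PT.nd (nat_lit 78) (PT.lf (nat_lit 1444) (nat_lit 6) (nat_lit 19) (nat_lit 1) (nat_lit 130) (nat_lit 101) (nat_lit 129)) (PT.lf (nat_lit 1368) (nat_lit 6) (nat_lit 18) (nat_lit 1) (nat_lit 131) (nat_lit 101) (nat_lit 128))))))))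
noncomputable def pc1 : PT := (PT.nd (nat_lit 112398) (PT.nd (nat_lit 37674) (PT.nd (nat_lit 312) (PT.nd (nat_lit 156) (PT.nd (nat_lit 78) (PT.lf (nat_lit 1520) (nat_lit 6) (nat_lit 20) (nat_lit 3) (nat_lit 127) (nat_lit 102) (nat_lit 131)) (PT.lf (nat_lit 1596) (nat_lit 6) (nat_lit 21) (nat_lit 3) (nat_lit 128) (nat_lit 102) (nat_lit 130))) (PT.nd (nat_lit 78) (PT.lf (nat_lit 1672) (nat_lit 3) (nat_lit 22) (nat_lit 1) (nat_lit 129) (nat_lit 102) (nat_lit 129)) (PT.lf (nat_lit 1596) (nat_lit 6) (nat_lit 21) (nat_lit 1) (nat_lit 130) (nat_lit 102) (nat_lit 128)))) (PT.nd (nat_lit 37206) (PT.nd (nat_lit 37128) (PT.lf (nat_lit 1520) (nat_lit 6) (nat_lit 20) (nat_lit 1) (nat_lit 131) (nat_lit 102) (nat_lit 127)) (PT.lf (nat_lit 1748) (nat_lit 6) (nat_lit 23) (nat_lit 3) (nat_lit 126) (nat_lit 103) (nat_lit 131))) (PT.nd (nat_lit 78) (PT.lf (nat_lit 1824) (nat_lit 6) (nat_lit 24) (nat_lit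 3) (nat_lit 127) (nat_lit 103) (nat_lit 130)) (PT.lf (nat_lit 1900) (nat_lit 6) (nat_lit 25) (nat_lit 3) (nat_lit 128) (nat_lit 103) (nat_lit 129))))) (PT.nd (nat_lit 37362) (PT.nd (nat_lit 156) (PT.nd (nat_lit 78) (PT.lf (nat_lit 1900) (nat_lit 6) (nat_lit 25) (nat_lit 1) (nat_lit 129) (nat_lit 103) (nat_lit 128)) (PT.lf (nat_lit 1824) (nat_lit 6) (nat_lit 24) (nat_lit 1) (nat_lit 130) (nat_lit 103) (nat_lit 127))) (PT.nd (nat_lit 37128) (PT.lf (nat_lit 1748) (nat_lit 6) (nat_lit 23) (nat_lit 1) (nat_lit 131) (nat_lit 103) (nat_lit 126)) (PT.lf (nat_lit 1976) (nat_lit 6) (nat_lit 26) (nat_lit 3) (nat_lit 126) (nat_lit 104) (nat_lit 130)))) (PT.nd (nat_lit 156) (PT.nd (nat_lit 78) (PT.lf (nat_lit 2052) (nat_lit 6) (nat_lit 27) (nat_lit 3) (nat_lit 127) (nat_lit 104) (nat_lit 129)) (PT.lf (nat_lit 2128) (nat_lit 3) (nat_lit 28) (nat_lit 1) (nat_lit 128) (nat_lit 104) (nat_lit 128)))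 (PT.nd (nat_lit 78) (PT.lf (nat_lit 2052) (nat_lit 6) (nat_lit 27) (nat_lit 1) (nat_lit 129) (nat_lit 104) (nat_lit 127)) (PT.lf (nat_lit 1976) (nat_lit 6) (nat_lit 26) (nat_lit 1) (nat_lit 130) (nat_lit 104) (nat_lit 126)))))) (PT.nd (nat_lit 37596) (PT.nd (nat_lit 312) (PT.nd (nat_lit 156) (PT.nd (nat_lit 78) (PT.lf (nat_lit 2204) (nat_lit 6) (nat_lit 29) (nat_lit 3) (nat_lit 125) (nat_lit 105) (nat_lit 130)) (PT.lf (nat_lit 2280) (nat_lit 6) (nat_lit 30) (nat_lit 3) (nat_lit 126) (nat_lit 105) (nat_lit 129))) (PT.nd (nat_lit 78) (PT.lf (nat_lit 2356) (nat_lit 6) (nat_lit 31) (nat_lit 3) (nat_lit 127) (nat_lit 105) (nat_lit 128)) (PT.lf (nat_lit 2356) (nat_lit 6) (nat_lit 31) (nat_lit 1) (nat_lit 128) (nat_lit 105) (nat_lit 127)))) (PT.nd (nat_lit 37128) (PT.nd (nat_lit 78) (PT.lf (nat_lit 2280) (nat_lit 6) (nat_lit 30) (nat_lit 1) (nat_lit 129) (nat_lit 105) (nat_lit 126)) (PT.lf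 (nat_lit 2204) (nat_lit 6) (nat_lit 29) (nat_lit 1) (nat_lit 130) (nat_lit 105) (nat_lit 125))) (PT.nd (nat_lit 78) (PT.lf (nat_lit 2432) (nat_lit 6) (nat_lit 32) (nat_lit 3) (nat_lit 124) (nat_lit 106) (nat_lit 130)) (PT.lf (nat_lit 2508) (nat_lit 6) (nat_lit 33) (nat_lit 3) (nat_lit 125) (nat_lit 106) (nat_lit 129))))) (PT.nd (nat_lit 312) (PT.nd (nat_lit 156) (PT.nd (nat_lit 78) (PT.lf (nat_lit 2584) (nat_lit 6) (nat_lit 34) (nat_lit 3) (nat_lit 126) (nat_lit 106) (nat_lit 128)) (PT.lf (nat_lit 2660) (nat_lit 3) (nat_lit 35) (nat_lit 1) (nat_lit 127) (nat_lit 106) (nat_lit 127))) (PT.nd (nat_lit 78) (PT.lf (nat_lit 2584) (nat_lit 6) (nat_lit 34) (nat_lit 1) (nat_lit 128) (nat_lit 106) (nat_lit 126)) (PT.lf (nat_lit 2508) (nat_lit 6) (nat_lit 33) (nat_lit 1) (nat_lit 129) (nat_lit 106) (nat_lit 125)))) (PT.nd (nat_lit 37128) (PT.nd (nat_lit 37050) (PT.lf (nat_lit 2432) (nat_lit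 6) (nat_lit 32) (nat_lit 1) (nat_lit 130) (nat_lit 106) (nat_lit 124)) (PT.lf (nat_lit 2736) (nat_lit 6) (nat_lit 36) (nat_lit 3) (nat_lit 124) (nat_lit 107) (nat_lit 129))) (PT.nd (nat_lit 78) (PT.lf (nat_lit 2812) (nat_lit 6) (nat_lit 37) (nat_lit 3) (nat_lit 125) (nat_lit 107) (nat_lit 128)) (PT.nd (nat_lit 78) (PT.lf (nat_lit 2888) (nat_lit 6) (nat_lit 38) (nat_lit 3) (nat_lit 126) (nat_lit 107) (nat_lit 127)) (PT.lf (nat_lit 2888) (nat_lit 6) (nat_lit 38) (nat_lit 1) (nat_lit 127) (nat_lit 107) (nat_lit 126))))))))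
noncomputable def pc2 : PT := (PT.nd (nat_lit 75114) (PT.nd (nat_lit 37596) (PT.nd (nat_lit 37284) (PT.nd (nat_lit 37128) (PT.nd (nat_lit 78) (PT.lf (nat_lit 2812) (nat_lit 6) (nat_lit 37) (nat_lit 1) (nat_lit 128) (nat_lit 107) (nat_lit 125)) (PT.lf (nat_lit 2736) (nat_lit 6) (nat_lit 36) (nat_lit 1) (nat_lit 129) (nat_lit 107) (nat_lit 124))) (PT.nd (nat_lit 78) (PT.lf (nat_lit 2964) (nat_lit 6) (nat_lit 39) (nat_lit 3) (nat_lit 123) (nat_lit 108) (nat_lit 129)) (PT.lf (nat_lit 3040) (nat_lit 6) (nat_lit 40) (nat_lit 3) (nat_lit 124) (nat_lit 108) (nat_lit 128)))) (PT.nd (nat_lit 156) (PT.nd (nat_lit 78) (PT.lf (nat_lit 3116) (nat_lit 6) (nat_lit 41) (nat_lit 3) (nat_lit 125) (nat_lit 108) (nat_lit 127)) (PT.lf (nat_lit 3192) (nat_lit 3) (nat_lit 42) (nat_lit 1) (nat_lit 126) (nat_lit 108) (nat_lit 126))) (PT.nd (nat_lit 78) (PT.lf (nat_lit 3116) (nat_lit 6) (nat_lit 41) (nat_lit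 1) (nat_lit 127) (nat_lit 108) (nat_lit 125)) (PT.lf (nat_lit 3040) (nat_lit 6) (nat_lit 40) (nat_lit 1) (nat_lit 128) (nat_lit 108) (nat_lit 124))))) (PT.nd (nat_lit 37206) (PT.nd (nat_lit 37050) (PT.nd (nat_lit 36972) (PT.lf (nat_lit 2964) (nat_lit 6) (nat_lit 39) (nat_lit 1) (nat_lit 129) (nat_lit 108) (nat_lit 123)) (PT.lf (nat_lit 3268) (nat_lit 6) (nat_lit 43) (nat_lit 3) (nat_lit 122) (nat_lit 109) (nat_lit 129))) (PT.nd (nat_lit 78) (PT.lf (nat_lit 3344) (nat_lit 6) (nat_lit 44) (nat_lit 3) (nat_lit 123) (nat_lit 109) (nat_lit 128)) (PT.lf (nat_lit 3420) (nat_lit 6) (nat_lit 45) (nat_lit 3) (nat_lit 124) (nat_lit 109) (nat_lit 127)))) (PT.nd (nat_lit 156) (PT.nd (nat_lit 78) (PT.lf (nat_lit 3496) (nat_lit 6) (nat_lit 46) (nat_lit 3) (nat_lit 125) (nat_lit 109) (nat_lit 126)) (PT.lf (nat_lit 3496) (nat_lit 6) (nat_lit 46) (nat_lit 1) (nat_lit 126) (nat_lit 109) (nat_lit 125)))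 (PT.nd (nat_lit 78) (PT.lf (nat_lit 3420) (nat_lit 6) (nat_lit 45) (nat_lit 1) (nat_lit 127) (nat_lit 109) (nat_lit 124)) (PT.lf (nat_lit 3344) (nat_lit 6) (nat_lit 44) (nat_lit 1) (nat_lit 128) (nat_lit 109) (nat_lit 123)))))) (PT.nd (nat_lit 37440) (PT.nd (nat_lit 37128) (PT.nd (nat_lit 36972) (PT.nd (nat_lit 36894) (PT.lf (nat_lit 3268) (nat_lit 6) (nat_lit 43) (nat_lit 1) (nat_lit 129) (nat_lit 109) (nat_lit 122)) (PT.lf (nat_lit 3572) (nat_lit 6) (nat_lit 47) (nat_lit 3) (nat_lit 121) (nat_lit 110) (nat_lit 129))) (PT.nd (nat_lit 78) (PT.lf (nat_lit 3648) (nat_lit 6) (nat_lit 48) (nat_lit 3) (nat_lit 122) (nat_lit 110) (nat_lit 128)) (PT.lf (nat_lit 3724) (nat_lit 6) (nat_lit 49) (nat_lit 3) (nat_lit 123) (nat_lit 110) (nat_lit 127)))) (PT.nd (nat_lit 156) (PT.nd (nat_lit 78) (PT.lf (nat_lit 3800) (nat_lit 6) (nat_lit 50) (nat_lit 3) (nat_lit 124) (nat_lit 110) (nat_lit 126))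 (PT.lf (nat_lit 3876) (nat_lit 3) (nat_lit 51) (nat_lit 1) (nat_lit 125) (nat_lit 110) (nat_lit 125))) (PT.nd (nat_lit 78) (PT.lf (nat_lit 3800) (nat_lit 6) (nat_lit 50) (nat_lit 1) (nat_lit 126) (nat_lit 110) (nat_lit 124)) (PT.lf (nat_lit 3724) (nat_lit 6) (nat_lit 49) (nat_lit 1) (nat_lit 127) (nat_lit 110) (nat_lit 123))))) (PT.nd (nat_lit 37050) (PT.nd (nat_lit 36894) (PT.nd (nat_lit 78) (PT.lf (nat_lit 3648) (nat_lit 6) (nat_lit 48) (nat_lit 1) (nat_lit 128) (nat_lit 110) (nat_lit 122)) (PT.lf (nat_lit 3572) (nat_lit 6) (nat_lit 47) (nat_lit 1) (nat_lit 129) (nat_lit 110) (nat_lit 121))) (PT.nd (nat_lit 78) (PT.lf (nat_lit 4028) (nat_lit 6) (nat_lit 53) (nat_lit 3) (nat_lit 120) (nat_lit 111) (nat_lit 129)) (PT.lf (nat_lit 4104) (nat_lit 6) (nat_lit 54) (nat_lit 3) (nat_lit 121) (nat_lit 111) (nat_lit 128)))) (PT.nd (nat_lit 156) (PT.nd (nat_lit 78) (PT.lf (nat_lit 4180) (nat_lit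 6) (nat_lit 55) (nat_lit 3) (nat_lit 122) (nat_lit 111) (nat_lit 127)) (PT.lf (nat_lit 4256) (nat_lit 6) (nat_lit 56) (nat_lit 3) (nat_lit 123) (nat_lit 111) (nat_lit 126))) (PT.nd (nat_lit 78) (PT.lf (nat_lit 4332) (nat_lit 6) (nat_lit 57) (nat_lit 3) (nat_lit 124) (nat_lit 111) (nat_lit 125)) (PT.nd (nat_lit 78) (PT.lf (nat_lit 4332) (nat_lit 6) (nat_lit 57) (nat_lit 1) (nat_lit 125) (nat_lit 111) (nat_lit 124)) (PT.lf (nat_lit 4256) (nat_lit 6) (nat_lit 56) (nat_lit 1) (nat_lit 126) (nat_lit 111) (nat_lit 123))))))))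
noncomputable def pc3 : PT := (PT.nd (nat_lit 74568) (PT.nd (nat_lit 37284) (PT.nd (nat_lit 36972) (PT.nd (nat_lit 156) (PT.nd (nat_lit 78) (PT.lf (nat_lit 4180) (nat_lit 6) (nat_lit 55) (nat_lit 1) (nat_lit 127) (nat_lit 111) (nat_lit 122)) (PT.lf (nat_lit 4104) (nat_lit 6) (nat_lit 54) (nat_lit 1) (nat_lit 128) (nat_lit 111) (nat_lit 121))) (PT.nd (nat_lit 36738) (PT.lf (nat_lit 4028) (nat_lit 6) (nat_lit 53) (nat_lit 1) (nat_lit 129) (nat_lit 111) (nat_lit 120)) (PT.lf (nat_lit 3952) (nat_lit 6) (nat_lit 52) (nat_lit 3) (nat_lit 119) (nat_lit 112) (nat_lit 129)))) (PT.nd (nat_lit 156) (PT.nd (nat_lit 78) (PT.lf (nat_lit 4712) (nat_lit 6) (nat_lit 62) (nat_lit 3) (nat_lit 120) (nat_lit 112) (nat_lit 128)) (PT.lf (nat_lit 4788) (nat_lit 6) (nat_lit 63) (nat_lit 3) (nat_lit 121) (nat_lit 112) (nat_lit 127))) (PT.nd (nat_lit 78) (PT.lf (nat_lit 4864) (nat_lit 6) (nat_lit 64) (nat_lit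 3) (nat_lit 122) (nat_lit 112) (nat_lit 126)) (PT.lf (nat_lit 4940) (nat_lit 6) (nat_lit 65) (nat_lit 3) (nat_lit 123) (nat_lit 112) (nat_lit 125))))) (PT.nd (nat_lit 312) (PT.nd (nat_lit 156) (PT.nd (nat_lit 78) (PT.lf (nat_lit 5016) (nat_lit 3) (nat_lit 66) (nat_lit 1) (nat_lit 124) (nat_lit 112) (nat_lit 124)) (PT.lf (nat_lit 4940) (nat_lit 6) (nat_lit 65) (nat_lit 1) (nat_lit 125) (nat_lit 112) (nat_lit 123))) (PT.nd (nat_lit 78) (PT.lf (nat_lit 4864) (nat_lit 6) (nat_lit 64) (nat_lit 1) (nat_lit 126) (nat_lit 112) (nat_lit 122)) (PT.lf (nat_lit 4788) (nat_lit 6) (nat_lit 63) (nat_lit 1) (nat_lit 127) (nat_lit 112) (nat_lit 121)))) (PT.nd (nat_lit 36816) (PT.nd (nat_lit 78) (PT.lf (nat_lit 4712) (nat_lit 6) (nat_lit 62) (nat_lit 1) (nat_lit 128) (nat_lit 112) (nat_lit 120)) (PT.lf (nat_lit 3952) (nat_lit 6) (nat_lit 52) (nat_lit 1) (nat_lit 129) (nat_lit 112) (nat_lit 119))) (PT.nd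 (nat_lit 78) (PT.lf (nat_lit 4636) (nat_lit 6) (nat_lit 61) (nat_lit 3) (nat_lit 119) (nat_lit 113) (nat_lit 128)) (PT.lf (nat_lit 5320) (nat_lit 6) (nat_lit 70) (nat_lit 3) (nat_lit 120) (nat_lit 113) (nat_lit 127)))))) (PT.nd (nat_lit 37284) (PT.nd (nat_lit 312) (PT.nd (nat_lit 156) (PT.nd (nat_lit 78) (PT.lf (nat_lit 5396) (nat_lit 6) (nat_lit 71) (nat_lit 3) (nat_lit 121) (nat_lit 113) (nat_lit 126)) (PT.lf (nat_lit 5472) (nat_lit 6) (nat_lit 72) (nat_lit 3) (nat_lit 122) (nat_lit 113) (nat_lit 125))) (PT.nd (nat_lit 78) (PT.lf (nat_lit 5548) (nat_lit 6) (nat_lit 73) (nat_lit 3) (nat_lit 123) (nat_lit 113) (nat_lit 124)) (PT.lf (nat_lit 5548) (nat_lit 6) (nat_lit 73) (nat_lit 1) (nat_lit 124) (nat_lit 113) (nat_lit 123)))) (PT.nd (nat_lit 156) (PT.nd (nat_lit 78) (PT.lf (nat_lit 5472) (nat_lit 6) (nat_lit 72) (nat_lit 1) (nat_lit 125) (nat_lit 113) (nat_lit 122)) (PT.lf (nat_lit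 5396) (nat_lit 6) (nat_lit 71) (nat_lit 1) (nat_lit 126) (nat_lit 113) (nat_lit 121))) (PT.nd (nat_lit 78) (PT.lf (nat_lit 5320) (nat_lit 6) (nat_lit 70) (nat_lit 1) (nat_lit 127) (nat_lit 113) (nat_lit 120)) (PT.lf (nat_lit 4636) (nat_lit 6) (nat_lit 61) (nat_lit 1) (nat_lit 128) (nat_lit 113) (nat_lit 119))))) (PT.nd (nat_lit 312) (PT.nd (nat_lit 156) (PT.nd (nat_lit 78) (PT.lf (nat_lit 4560) (nat_lit 6) (nat_lit 60) (nat_lit 3) (nat_lit 118) (nat_lit 114) (nat_lit 128)) (PT.lf (nat_lit 5244) (nat_lit 6) (nat_lit 69) (nat_lit 3) (nat_lit 119) (nat_lit 114) (nat_lit 127))) (PT.nd (nat_lit 78) (PT.lf (nat_lit 5852) (nat_lit 6) (nat_lit 77) (nat_lit 3) (nat_lit 120) (nat_lit 114) (nat_lit 126)) (PT.lf (nat_lit 5928) (nat_lit 6) (nat_lit 78) (nat_lit 3) (nat_lit 121) (nat_lit 114) (nat_lit 125)))) (PT.nd (nat_lit 156) (PT.nd (nat_lit 78) (PT.lf (nat_lit 6004) (nat_lit 6) (nat_lit 79)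 (nat_lit 3) (nat_lit 122) (nat_lit 114) (nat_lit 124)) (PT.lf (nat_lit 6080) (nat_lit 3) (nat_lit 80) (nat_lit 1) (nat_lit 123) (nat_lit 114) (nat_lit 123))) (PT.nd (nat_lit 78) (PT.lf (nat_lit 6004) (nat_lit 6) (nat_lit 79) (nat_lit 1) (nat_lit 124) (nat_lit 114) (nat_lit 122)) (PT.nd (nat_lit 78) (PT.lf (nat_lit 5928) (nat_lit 6) (nat_lit 78) (nat_lit 1) (nat_lit 125) (nat_lit 114) (nat_lit 121)) (PT.lf (nat_lit 5852) (nat_lit 6) (nat_lit 77) (nat_lit 1) (nat_lit 126) (nat_lit 114) (nat_lit 120))))))))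
noncomputable def pc4 : PT := (PT.nd (nat_lit 74334) (PT.nd (nat_lit 37206) (PT.nd (nat_lit 36894) (PT.nd (nat_lit 36738) (PT.nd (nat_lit 78) (PT.lf (nat_lit 5244) (nat_lit 6) (nat_lit 69) (nat_lit 1) (nat_lit 127) (nat_lit 114) (nat_lit 119)) (PT.lf (nat_lit 4560) (nat_lit 6) (nat_lit 60) (nat_lit 1) (nat_lit 128) (nat_lit 114) (nat_lit 118))) (PT.nd (nat_lit 78) (PT.lf (nat_lit 4484) (nat_lit 6) (nat_lit 59) (nat_lit 3) (nat_lit 117) (nat_lit 115) (nat_lit 128)) (PT.lf (nat_lit 5168) (nat_lit 6) (nat_lit 68) (nat_lit 3) (nat_lit 118) (nat_lit 115) (nat_lit 127)))) (PT.nd (nat_lit 156) (PT.nd (nat_lit 78) (PT.lf (nat_lit 5776) (nat_lit 6) (nat_lit 76) (nat_lit 3) (nat_lit 119) (nat_lit 115) (nat_lit 126)) (PT.lf (nat_lit 6308) (nat_lit 6) (nat_lit 83) (nat_lit 3) (nat_lit 120) (nat_lit 115) (nat_lit 125))) (PT.nd (nat_lit 78) (PT.lf (nat_lit 6384) (nat_lit 6) (nat_lit 84) (nat_lit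 3) (nat_lit 121) (nat_lit 115) (nat_lit 124)) (PT.lf (nat_lit 6460) (nat_lit 6) (nat_lit 85) (nat_lit 3) (nat_lit 122) (nat_lit 115) (nat_lit 123))))) (PT.nd (nat_lit 312) (PT.nd (nat_lit 156) (PT.nd (nat_lit 78) (PT.lf (nat_lit 6460) (nat_lit 6) (nat_lit 85) (nat_lit 1) (nat_lit 123) (nat_lit 115) (nat_lit 122)) (PT.lf (nat_lit 6384) (nat_lit 6) (nat_lit 84) (nat_lit 1) (nat_lit 124) (nat_lit 115) (nat_lit 121))) (PT.nd (nat_lit 78) (PT.lf (nat_lit 6308) (nat_lit 6) (nat_lit 83) (nat_lit 1) (nat_lit 125) (nat_lit 115) (nat_lit 120)) (PT.lf (nat_lit 5776) (nat_lit 6) (nat_lit 76) (nat_lit 1) (nat_lit 126) (nat_lit 115) (nat_lit 119)))) (PT.nd (nat_lit 36660) (PT.nd (nat_lit 78) (PT.lf (nat_lit 5168) (nat_lit 6) (nat_lit 68) (nat_lit 1) (nat_lit 127) (nat_lit 115) (nat_lit 118)) (PT.lf (nat_lit 4484) (nat_lit 6) (nat_lit 59) (nat_lit 1) (nat_lit 128) (nat_lit 115) (nat_lit 117))) (PT.nd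 (nat_lit 78) (PT.lf (nat_lit 4408) (nat_lit 3) (nat_lit 58) (nat_lit 3) (nat_lit 116) (nat_lit 116) (nat_lit 128)) (PT.lf (nat_lit 5092) (nat_lit 6) (nat_lit 67) (nat_lit 3) (nat_lit 117) (nat_lit 116) (nat_lit 127)))))) (PT.nd (nat_lit 624) (PT.nd (nat_lit 312) (PT.nd (nat_lit 156) (PT.nd (nat_lit 78) (PT.lf (nat_lit 5700) (nat_lit 6) (nat_lit 75) (nat_lit 3) (nat_lit 118) (nat_lit 116) (nat_lit 126)) (PT.lf (nat_lit 6232) (nat_lit 6) (nat_lit 82) (nat_lit 3) (nat_lit 119) (nat_lit 116) (nat_lit 125))) (PT.nd (nat_lit 78) (PT.lf (nat_lit 6688) (nat_lit 6) (nat_lit 88) (nat_lit 3) (nat_lit 120) (nat_lit 116) (nat_lit 124)) (PT.lf (nat_lit 6764) (nat_lit 6) (nat_lit 89) (nat_lit 3) (nat_lit 121) (nat_lit 116) (nat_lit 123)))) (PT.nd (nat_lit 156) (PT.nd (nat_lit 78) (PT.lf (nat_lit 6840) (nat_lit 3) (nat_lit 90) (nat_lit 1) (nat_lit 122) (nat_lit 116) (nat_lit 122)) (PT.lf (nat_lit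 6764) (nat_lit 6) (nat_lit 89) (nat_lit 1) (nat_lit 123) (nat_lit 116) (nat_lit 121))) (PT.nd (nat_lit 78) (PT.lf (nat_lit 6688) (nat_lit 6) (nat_lit 88) (nat_lit 1) (nat_lit 124) (nat_lit 116) (nat_lit 120)) (PT.lf (nat_lit 6232) (nat_lit 6) (nat_lit 82) (nat_lit 1) (nat_lit 125) (nat_lit 116) (nat_lit 119))))) (PT.nd (nat_lit 36738) (PT.nd (nat_lit 156) (PT.nd (nat_lit 78) (PT.lf (nat_lit 5700) (nat_lit 6) (nat_lit 75) (nat_lit 1) (nat_lit 126) (nat_lit 116) (nat_lit 118)) (PT.lf (nat_lit 5092) (nat_lit 6) (nat_lit 67) (nat_lit 1) (nat_lit 127) (nat_lit 116) (nat_lit 117))) (PT.nd (nat_lit 36504) (PT.lf (nat_lit 4408) (nat_lit 3) (nat_lit 58) (nat_lit 0) (nat_lit 128) (nat_lit 116) (nat_lit 116)) (PT.lf (nat_lit 4484) (nat_lit 6) (nat_lit 59) (nat_lit 5) (nat_lit 115) (nat_lit 117) (nat_lit 128)))) (PT.nd (nat_lit 156) (PT.nd (nat_lit 78) (PT.lf (nat_lit 5092) (nat_lit 6) (nat_lit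 67) (nat_lit 5) (nat_lit 116) (nat_lit 117) (nat_lit 127)) (PT.lf (nat_lit 5624) (nat_lit 3) (nat_lit 74) (nat_lit 3) (nat_lit 117) (nat_lit 117) (nat_lit 126))) (PT.nd (nat_lit 78) (PT.lf (nat_lit 6156) (nat_lit 6) (nat_lit 81) (nat_lit 3) (nat_lit 118) (nat_lit 117) (nat_lit 125)) (PT.nd (nat_lit 78) (PT.lf (nat_lit 6612) (nat_lit 6) (nat_lit 87) (nat_lit 3) (nat_lit 119) (nat_lit 117) (nat_lit 124)) (PT.lf (nat_lit 6992) (nat_lit 6) (nat_lit 92) (nat_lit 3) (nat_lit 120) (nat_lit 117) (nat_lit 123))))))))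
noncomputable def pc5 : PT := (PT.nd (nat_lit 37596) (PT.nd (nat_lit 36972) (PT.nd (nat_lit 312) (PT.nd (nat_lit 156) (PT.nd (nat_lit 78) (PT.lf (nat_lit 7068) (nat_lit 6) (nat_lit 93) (nat_lit 3) (nat_lit 121) (nat_lit 117) (nat_lit 122)) (PT.lf (nat_lit 7068) (nat_lit 6) (nat_lit 93) (nat_lit 1) (nat_lit 122) (nat_lit 117) (nat_lit 121))) (PT.nd (nat_lit 78) (PT.lf (nat_lit 6992) (nat_lit 6) (nat_lit 92) (nat_lit 1) (nat_lit 123) (nat_lit 117) (nat_lit 120)) (PT.lf (nat_lit 6612) (nat_lit 6) (nat_lit 87) (nat_lit 1) (nat_lit 124) (nat_lit 117) (nat_lit 119)))) (PT.nd (nat_lit 156) (PT.nd (nat_lit 78) (PT.lf (nat_lit 6156) (nat_lit 6) (nat_lit 81) (nat_lit 1) (nat_lit 125) (nat_lit 117) (nat_lit 118)) (PT.lf (nat_lit 5624) (nat_lit 3) (nat_lit 74) (nat_lit 0) (nat_lit 126) (nat_lit 117) (nat_lit 117))) (PT.nd (nat_lit 78) (PT.lf (nat_lit 5092) (nat_lit 6) (nat_lit 67) (nat_lit 0)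 (nat_lit 127) (nat_lit 117) (nat_lit 116)) (PT.lf (nat_lit 4484) (nat_lit 6) (nat_lit 59) (nat_lit 0) (nat_lit 128) (nat_lit 117) (nat_lit 115))))) (PT.nd (nat_lit 312) (PT.nd (nat_lit 156) (PT.nd (nat_lit 78) (PT.lf (nat_lit 4560) (nat_lit 6) (nat_lit 60) (nat_lit 5) (nat_lit 114) (nat_lit 118) (nat_lit 128)) (PT.lf (nat_lit 5168) (nat_lit 6) (nat_lit 68) (nat_lit 5) (nat_lit 115) (nat_lit 118) (nat_lit 127))) (PT.nd (nat_lit 78) (PT.lf (nat_lit 5700) (nat_lit 6) (nat_lit 75) (nat_lit 5) (nat_lit 116) (nat_lit 118) (nat_lit 126)) (PT.lf (nat_lit 6156) (nat_lit 6) (nat_lit 81) (nat_lit 5) (nat_lit 117) (nat_lit 118) (nat_lit 125)))) (PT.nd (nat_lit 156) (PT.nd (nat_lit 78) (PT.lf (nat_lit 6536) (nat_lit 3) (nat_lit 86) (nat_lit 3) (nat_lit 118) (nat_lit 118) (nat_lit 124)) (PT.lf (nat_lit 6916) (nat_lit 6) (nat_lit 91) (nat_lit 3) (nat_lit 119) (nat_lit 118) (nat_lit 123))) (PT.nd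 (nat_lit 78) (PT.lf (nat_lit 7220) (nat_lit 6) (nat_lit 95) (nat_lit 3) (nat_lit 120) (nat_lit 118) (nat_lit 122)) (PT.lf (nat_lit 7296) (nat_lit 3) (nat_lit 96) (nat_lit 1) (nat_lit 121) (nat_lit 118) (nat_lit 121)))))) (PT.nd (nat_lit 36816) (PT.nd (nat_lit 312) (PT.nd (nat_lit 156) (PT.nd (nat_lit 78) (PT.lf (nat_lit 7220) (nat_lit 6) (nat_lit 95) (nat_lit 1) (nat_lit 122) (nat_lit 118) (nat_lit 120)) (PT.lf (nat_lit 6916) (nat_lit 6) (nat_lit 91) (nat_lit 1) (nat_lit 123) (nat_lit 118) (nat_lit 119))) (PT.nd (nat_lit 78) (PT.lf (nat_lit 6536) (nat_lit 3) (nat_lit 86) (nat_lit 0) (nat_lit 124) (nat_lit 118) (nat_lit 118)) (PT.lf (nat_lit 6156) (nat_lit 6) (nat_lit 81) (nat_lit 0) (nat_lit 125) (nat_lit 118) (nat_lit 117)))) (PT.nd (nat_lit 156) (PT.nd (nat_lit 78) (PT.lf (nat_lit 5700) (nat_lit 6) (nat_lit 75) (nat_lit 0) (nat_lit 126) (nat_lit 118) (nat_lit 116)) (PT.lf (nat_lit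 5168) (nat_lit 6) (nat_lit 68) (nat_lit 0) (nat_lit 127) (nat_lit 118) (nat_lit 115))) (PT.nd (nat_lit 36270) (PT.lf (nat_lit 4560) (nat_lit 6) (nat_lit 60) (nat_lit 0) (nat_lit 128) (nat_lit 118) (nat_lit 114)) (PT.lf (nat_lit 3952) (nat_lit 6) (nat_lit 52) (nat_lit 5) (nat_lit 112) (nat_lit 119) (nat_lit 129))))) (PT.nd (nat_lit 312) (PT.nd (nat_lit 156) (PT.nd (nat_lit 78) (PT.lf (nat_lit 4636) (nat_lit 6) (nat_lit 61) (nat_lit 5) (nat_lit 113) (nat_lit 119) (nat_lit 128)) (PT.lf (nat_lit 5244) (nat_lit 6) (nat_lit 69) (nat_lit 5) (nat_lit 114) (nat_lit 119) (nat_lit 127))) (PT.nd (nat_lit 78) (PT.lf (nat_lit 5776) (nat_lit 6) (nat_lit 76) (nat_lit 5) (nat_lit 115) (nat_lit 119) (nat_lit 126)) (PT.lf (nat_lit 6232) (nat_lit 6) (nat_lit 82) (nat_lit 5) (nat_lit 116) (nat_lit 119) (nat_lit 125)))) (PT.nd (nat_lit 156) (PT.nd (nat_lit 78) (PT.lf (nat_lit 6612) (nat_lit 6) (nat_lit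 87) (nat_lit 5) (nat_lit 117) (nat_lit 119) (nat_lit 124)) (PT.lf (nat_lit 6916) (nat_lit 6) (nat_lit 91) (nat_lit 5) (nat_lit 118) (nat_lit 119) (nat_lit 123))) (PT.nd (nat_lit 78) (PT.lf (nat_lit 7144) (nat_lit 3) (nat_lit 94) (nat_lit 3) (nat_lit 119) (nat_lit 119) (nat_lit 122)) (PT.nd (nat_lit 78) (PT.lf (nat_lit 7372) (nat_lit 6) (nat_lit 97) (nat_lit 3) (nat_lit 120) (nat_lit 119) (nat_lit 121)) (PT.lf (nat_lit 7372) (nat_lit 6) (nat_lit 97) (nat_lit 1) (nat_lit 121) (nat_lit 119) (nat_lit 120))))))))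
noncomputable def pc6 : PT := (PT.nd (nat_lit 37284) (PT.nd (nat_lit 36660) (PT.nd (nat_lit 312) (PT.nd (nat_lit 156) (PT.nd (nat_lit 78) (PT.lf (nat_lit 7144) (nat_lit 3) (nat_lit 94) (nat_lit 0) (nat_lit 122) (nat_lit 119) (nat_lit 119)) (PT.lf (nat_lit 6916) (nat_lit 6) (nat_lit 91) (nat_lit 0) (nat_lit 123) (nat_lit 119) (nat_lit 118))) (PT.nd (nat_lit 78) (PT.lf (nat_lit 6612) (nat_lit 6) (nat_lit 87) (nat_lit 0) (nat_lit 124) (nat_lit 119) (nat_lit 117)) (PT.lf (nat_lit 6232) (nat_lit 6) (nat_lit 82) (nat_lit 0) (nat_lit 125) (nat_lit 119) (nat_lit 116)))) (PT.nd (nat_lit 156) (PT.nd (nat_lit 78) (PT.lf (nat_lit 5776) (nat_lit 6) (nat_lit 76) (nat_lit 0) (nat_lit 126) (nat_lit 119) (nat_lit 115)) (PT.lf (nat_lit 5244) (nat_lit 6) (nat_lit 69) (nat_lit 0) (nat_lit 127) (nat_lit 119) (nat_lit 114))) (PT.nd (nat_lit 78) (PT.lf (nat_lit 4636) (nat_lit 6) (nat_lit 61) (nat_lit 0)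 (nat_lit 128) (nat_lit 119) (nat_lit 113)) (PT.lf (nat_lit 3952) (nat_lit 6) (nat_lit 52) (nat_lit 0) (nat_lit 129) (nat_lit 119) (nat_lit 112))))) (PT.nd (nat_lit 312) (PT.nd (nat_lit 156) (PT.nd (nat_lit 78) (PT.lf (nat_lit 4028) (nat_lit 6) (nat_lit 53) (nat_lit 5) (nat_lit 111) (nat_lit 120) (nat_lit 129)) (PT.lf (nat_lit 4712) (nat_lit 6) (nat_lit 62) (nat_lit 5) (nat_lit 112) (nat_lit 120) (nat_lit 128))) (PT.nd (nat_lit 78) (PT.lf (nat_lit 5320) (nat_lit 6) (nat_lit 70) (nat_lit 5) (nat_lit 113) (nat_lit 120) (nat_lit 127)) (PT.lf (nat_lit 5852) (nat_lit 6) (nat_lit 77) (nat_lit 5) (nat_lit 114) (nat_lit 120) (nat_lit 126)))) (PT.nd (nat_lit 156) (PT.nd (nat_lit 78) (PT.lf (nat_lit 6308) (nat_lit 6) (nat_lit 83) (nat_lit 5) (nat_lit 115) (nat_lit 120) (nat_lit 125)) (PT.lf (nat_lit 6688) (nat_lit 6) (nat_lit 88) (nat_lit 5) (nat_lit 116) (nat_lit 120) (nat_lit 124))) (PT.nd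 (nat_lit 78) (PT.lf (nat_lit 6992) (nat_lit 6) (nat_lit 92) (nat_lit 5) (nat_lit 117) (nat_lit 120) (nat_lit 123)) (PT.lf (nat_lit 7220) (nat_lit 6) (nat_lit 95) (nat_lit 5) (nat_lit 118) (nat_lit 120) (nat_lit 122)))))) (PT.nd (nat_lit 624) (PT.nd (nat_lit 312) (PT.nd (nat_lit 156) (PT.nd (nat_lit 78) (PT.lf (nat_lit 7372) (nat_lit 6) (nat_lit 97) (nat_lit 5) (nat_lit 119) (nat_lit 120) (nat_lit 121)) (PT.lf (nat_lit 7448) (nat_lit 1) (nat_lit 98) (nat_lit 0) (nat_lit 120) (nat_lit 120) (nat_lit 120))) (PT.nd (nat_lit 78) (PT.lf (nat_lit 7372) (nat_lit 6) (nat_lit 97) (nat_lit 0) (nat_lit 121) (nat_lit 120) (nat_lit 119)) (PT.lf (nat_lit 7220) (nat_lit 6) (nat_lit 95) (nat_lit 0) (nat_lit 122) (nat_lit 120) (nat_lit 118)))) (PT.nd (nat_lit 156) (PT.nd (nat_lit 78) (PT.lf (nat_lit 6992) (nat_lit 6) (nat_lit 92) (nat_lit 0) (nat_lit 123) (nat_lit 120) (nat_lit 117)) (PT.lf (nat_lit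 6688) (nat_lit 6) (nat_lit 88) (nat_lit 0) (nat_lit 124) (nat_lit 120) (nat_lit 116))) (PT.nd (nat_lit 78) (PT.lf (nat_lit 6308) (nat_lit 6) (nat_lit 83) (nat_lit 0) (nat_lit 125) (nat_lit 120) (nat_lit 115)) (PT.lf (nat_lit 5852) (nat_lit 6) (nat_lit 77) (nat_lit 0) (nat_lit 126) (nat_lit 120) (nat_lit 114))))) (PT.nd (nat_lit 36270) (PT.nd (nat_lit 156) (PT.nd (nat_lit 78) (PT.lf (nat_lit 5320) (nat_lit 6) (nat_lit 70) (nat_lit 0) (nat_lit 127) (nat_lit 120) (nat_lit 113)) (PT.lf (nat_lit 4712) (nat_lit 6) (nat_lit 62) (nat_lit 0) (nat_lit 128) (nat_lit 120) (nat_lit 112))) (PT.nd (nat_lit 36036) (PT.lf (nat_lit 4028) (nat_lit 6) (nat_lit 53) (nat_lit 0) (nat_lit 129) (nat_lit 120) (nat_lit 111)) (PT.lf (nat_lit 3572) (nat_lit 6) (nat_lit 47) (nat_lit 5) (nat_lit 110) (nat_lit 121) (nat_lit 129)))) (PT.nd (nat_lit 156) (PT.nd (nat_lit 78) (PT.lf (nat_lit 4104) (nat_lit 6) (nat_lit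 54) (nat_lit 5) (nat_lit 111) (nat_lit 121) (nat_lit 128)) (PT.lf (nat_lit 4788) (nat_lit 6) (nat_lit 63) (nat_lit 5) (nat_lit 112) (nat_lit 121) (nat_lit 127))) (PT.nd (nat_lit 78) (PT.lf (nat_lit 5396) (nat_lit 6) (nat_lit 71) (nat_lit 5) (nat_lit 113) (nat_lit 121) (nat_lit 126)) (PT.nd (nat_lit 78) (PT.lf (nat_lit 5928) (nat_lit 6) (nat_lit 78) (nat_lit 5) (nat_lit 114) (nat_lit 121) (nat_lit 125)) (PT.lf (nat_lit 6384) (nat_lit 6) (nat_lit 84) (nat_lit 5) (nat_lit 115) (nat_lit 121) (nat_lit 124))))))))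
noncomputable def pc7 : PT := (PT.nd (nat_lit 37128) (PT.nd (nat_lit 624) (PT.nd (nat_lit 312) (PT.nd (nat_lit 156) (PT.nd (nat_lit 78) (PT.lf (nat_lit 6764) (nat_lit 6) (nat_lit 89) (nat_lit 5) (nat_lit 116) (nat_lit 121) (nat_lit 123)) (PT.lf (nat_lit 7068) (nat_lit 6) (nat_lit 93) (nat_lit 5) (nat_lit 117) (nat_lit 121) (nat_lit 122))) (PT.nd (nat_lit 78) (PT.lf (nat_lit 7296) (nat_lit 3) (nat_lit 96) (nat_lit 4) (nat_lit 118) (nat_lit 121) (nat_lit 121)) (PT.lf (nat_lit 7372) (nat_lit 6) (nat_lit 97) (nat_lit 4) (nat_lit 119) (nat_lit 121) (nat_lit 120)))) (PT.nd (nat_lit 156) (PT.nd (nat_lit 78) (PT.lf (nat_lit 7372) (nat_lit 6) (nat_lit 97) (nat_lit 2) (nat_lit 120) (nat_lit 121) (nat_lit 119)) (PT.lf (nat_lit 7296) (nat_lit 3) (nat_lit 96) (nat_lit 0) (nat_lit 121) (nat_lit 121) (nat_lit 118))) (PT.nd (nat_lit 78) (PT.lf (nat_lit 7068) (nat_lit 6) (nat_lit 93) (nat_lit 0) (nat_lit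 122) (nat_lit 121) (nat_lit 117)) (PT.lf (nat_lit 6764) (nat_lit 6) (nat_lit 89) (nat_lit 0) (nat_lit 123) (nat_lit 121) (nat_lit 116))))) (PT.nd (nat_lit 312) (PT.nd (nat_lit 156) (PT.nd (nat_lit 78) (PT.lf (nat_lit 6384) (nat_lit 6) (nat_lit 84) (nat_lit 0) (nat_lit 124) (nat_lit 121) (nat_lit 115)) (PT.lf (nat_lit 5928) (nat_lit 6) (nat_lit 78) (nat_lit 0) (nat_lit 125) (nat_lit 121) (nat_lit 114))) (PT.nd (nat_lit 78) (PT.lf (nat_lit 5396) (nat_lit 6) (nat_lit 71) (nat_lit 0) (nat_lit 126) (nat_lit 121) (nat_lit 113)) (PT.lf (nat_lit 4788) (nat_lit 6) (nat_lit 63) (nat_lit 0) (nat_lit 127) (nat_lit 121) (nat_lit 112)))) (PT.nd (nat_lit 36036) (PT.nd (nat_lit 78) (PT.lf (nat_lit 4104) (nat_lit 6) (nat_lit 54) (nat_lit 0) (nat_lit 128) (nat_lit 121) (nat_lit 111)) (PT.lf (nat_lit 3572) (nat_lit 6) (nat_lit 47) (nat_lit 0) (nat_lit 129) (nat_lit 121) (nat_lit 110))) (PT.nd (nat_lit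 78) (PT.lf (nat_lit 3268) (nat_lit 6) (nat_lit 43) (nat_lit 5) (nat_lit 109) (nat_lit 122) (nat_lit 129)) (PT.lf (nat_lit 3648) (nat_lit 6) (nat_lit 48) (nat_lit 5) (nat_lit 110) (nat_lit 122) (nat_lit 128)))))) (PT.nd (nat_lit 624) (PT.nd (nat_lit 312) (PT.nd (nat_lit 156) (PT.nd (nat_lit 78) (PT.lf (nat_lit 4180) (nat_lit 6) (nat_lit 55) (nat_lit 5) (nat_lit 111) (nat_lit 122) (nat_lit 127)) (PT.lf (nat_lit 4864) (nat_lit 6) (nat_lit 64) (nat_lit 5) (nat_lit 112) (nat_lit 122) (nat_lit 126))) (PT.nd (nat_lit 78) (PT.lf (nat_lit 5472) (nat_lit 6) (nat_lit 72) (nat_lit 5) (nat_lit 113) (nat_lit 122) (nat_lit 125)) (PT.lf (nat_lit 6004) (nat_lit 6) (nat_lit 79) (nat_lit 5) (nat_lit 114) (nat_lit 122) (nat_lit 124)))) (PT.nd (nat_lit 156) (PT.nd (nat_lit 78) (PT.lf (nat_lit 6460) (nat_lit 6) (nat_lit 85) (nat_lit 5) (nat_lit 115) (nat_lit 122) (nat_lit 123)) (PT.lf (nat_lit 6840) (nat_lit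 3) (nat_lit 90) (nat_lit 4) (nat_lit 116) (nat_lit 122) (nat_lit 122))) (PT.nd (nat_lit 78) (PT.lf (nat_lit 7068) (nat_lit 6) (nat_lit 93) (nat_lit 4) (nat_lit 117) (nat_lit 122) (nat_lit 121)) (PT.lf (nat_lit 7220) (nat_lit 6) (nat_lit 95) (nat_lit 4) (nat_lit 118) (nat_lit 122) (nat_lit 120))))) (PT.nd (nat_lit 312) (PT.nd (nat_lit 156) (PT.nd (nat_lit 78) (PT.lf (nat_lit 7144) (nat_lit 3) (nat_lit 94) (nat_lit 2) (nat_lit 119) (nat_lit 122) (nat_lit 119)) (PT.lf (nat_lit 7220) (nat_lit 6) (nat_lit 95) (nat_lit 2) (nat_lit 120) (nat_lit 122) (nat_lit 118))) (PT.nd (nat_lit 78) (PT.lf (nat_lit 7068) (nat_lit 6) (nat_lit 93) (nat_lit 2) (nat_lit 121) (nat_lit 122) (nat_lit 117)) (PT.lf (nat_lit 6840) (nat_lit 3) (nat_lit 90) (nat_lit 0) (nat_lit 122) (nat_lit 122) (nat_lit 116)))) (PT.nd (nat_lit 156) (PT.nd (nat_lit 78) (PT.lf (nat_lit 6460) (nat_lit 6) (nat_lit 85) (nat_lit 0) (nat_lit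 123) (nat_lit 122) (nat_lit 115)) (PT.lf (nat_lit 6004) (nat_lit 6) (nat_lit 79) (nat_lit 0) (nat_lit 124) (nat_lit 122) (nat_lit 114))) (PT.nd (nat_lit 78) (PT.lf (nat_lit 5472) (nat_lit 6) (nat_lit 72) (nat_lit 0) (nat_lit 125) (nat_lit 122) (nat_lit 113)) (PT.nd (nat_lit 78) (PT.lf (nat_lit 4864) (nat_lit 6) (nat_lit 64) (nat_lit 0) (nat_lit 126) (nat_lit 122) (nat_lit 112)) (PT.lf (nat_lit 4180) (nat_lit 6) (nat_lit 55) (nat_lit 0) (nat_lit 127) (nat_lit 122) (nat_lit 111))))))))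
noncomputable def pc8 : PT := (PT.nd (nat_lit 37050) (PT.nd (nat_lit 36426) (PT.nd (nat_lit 36114) (PT.nd (nat_lit 35958) (PT.nd (nat_lit 78) (PT.lf (nat_lit 3648) (nat_lit 6) (nat_lit 48) (nat_lit 0) (nat_lit 128) (nat_lit 122) (nat_lit 110)) (PT.lf (nat_lit 3268) (nat_lit 6) (nat_lit 43) (nat_lit 0) (nat_lit 129) (nat_lit 122) (nat_lit 109))) (PT.nd (nat_lit 78) (PT.lf (nat_lit 2964) (nat_lit 6) (nat_lit 39) (nat_lit 5) (nat_lit 108) (nat_lit 123) (nat_lit 129)) (PT.lf (nat_lit 3344) (nat_lit 6) (nat_lit 44) (nat_lit 5) (nat_lit 109) (nat_lit 123) (nat_lit 128)))) (PT.nd (nat_lit 156) (PT.nd (nat_lit 78) (PT.lf (nat_lit 3724) (nat_lit 6) (nat_lit 49) (nat_lit 5) (nat_lit 110) (nat_lit 123) (nat_lit 127)) (PT.lf (nat_lit 4256) (nat_lit 6) (nat_lit 56) (nat_lit 5) (nat_lit 111) (nat_lit 123) (nat_lit 126))) (PT.nd (nat_lit 78) (PT.lf (nat_lit 4940) (nat_lit 6) (nat_lit 65) (nat_lit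 5) (nat_lit 112) (nat_lit 123) (nat_lit 125)) (PT.lf (nat_lit 5548) (nat_lit 6) (nat_lit 73) (nat_lit 5) (nat_lit 113) (nat_lit 123) (nat_lit 124))))) (PT.nd (nat_lit 312) (PT.nd (nat_lit 156) (PT.nd (nat_lit 78) (PT.lf (nat_lit 6080) (nat_lit 3) (nat_lit 80) (nat_lit 4) (nat_lit 114) (nat_lit 123) (nat_lit 123)) (PT.lf (nat_lit 6460) (nat_lit 6) (nat_lit 85) (nat_lit 4) (nat_lit 115) (nat_lit 123) (nat_lit 122))) (PT.nd (nat_lit 78) (PT.lf (nat_lit 6764) (nat_lit 6) (nat_lit 89) (nat_lit 4) (nat_lit 116) (nat_lit 123) (nat_lit 121)) (PT.lf (nat_lit 6992) (nat_lit 6) (nat_lit 92) (nat_lit 4) (nat_lit 117) (nat_lit 123) (nat_lit 120)))) (PT.nd (nat_lit 156) (PT.nd (nat_lit 78) (PT.lf (nat_lit 6916) (nat_lit 6) (nat_lit 91) (nat_lit 4) (nat_lit 118) (nat_lit 123) (nat_lit 119)) (PT.lf (nat_lit 6916) (nat_lit 6) (nat_lit 91) (nat_lit 2) (nat_lit 119) (nat_lit 123) (nat_lit 118))) (PT.nd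 (nat_lit 78) (PT.lf (nat_lit 6992) (nat_lit 6) (nat_lit 92) (nat_lit 2) (nat_lit 120) (nat_lit 123) (nat_lit 117)) (PT.lf (nat_lit 6764) (nat_lit 6) (nat_lit 89) (nat_lit 2) (nat_lit 121) (nat_lit 123) (nat_lit 116)))))) (PT.nd (nat_lit 36270) (PT.nd (nat_lit 312) (PT.nd (nat_lit 156) (PT.nd (nat_lit 78) (PT.lf (nat_lit 6460) (nat_lit 6) (nat_lit 85) (nat_lit 2) (nat_lit 122) (nat_lit 123) (nat_lit 115)) (PT.lf (nat_lit 6080) (nat_lit 3) (nat_lit 80) (nat_lit 0) (nat_lit 123) (nat_lit 123) (nat_lit 114))) (PT.nd (nat_lit 78) (PT.lf (nat_lit 5548) (nat_lit 6) (nat_lit 73) (nat_lit 0) (nat_lit 124) (nat_lit 123) (nat_lit 113)) (PT.lf (nat_lit 4940) (nat_lit 6) (nat_lit 65) (nat_lit 0) (nat_lit 125) (nat_lit 123) (nat_lit 112)))) (PT.nd (nat_lit 156) (PT.nd (nat_lit 78) (PT.lf (nat_lit 4256) (nat_lit 6) (nat_lit 56) (nat_lit 0) (nat_lit 126) (nat_lit 123) (nat_lit 111)) (PT.lf (nat_lit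 3724) (nat_lit 6) (nat_lit 49) (nat_lit 0) (nat_lit 127) (nat_lit 123) (nat_lit 110))) (PT.nd (nat_lit 78) (PT.lf (nat_lit 3344) (nat_lit 6) (nat_lit 44) (nat_lit 0) (nat_lit 128) (nat_lit 123) (nat_lit 109)) (PT.lf (nat_lit 2964) (nat_lit 6) (nat_lit 39) (nat_lit 0) (nat_lit 129) (nat_lit 123) (nat_lit 108))))) (PT.nd (nat_lit 312) (PT.nd (nat_lit 156) (PT.nd (nat_lit 78) (PT.lf (nat_lit 2432) (nat_lit 6) (nat_lit 32) (nat_lit 5) (nat_lit 106) (nat_lit 124) (nat_lit 130)) (PT.lf (nat_lit 2736) (nat_lit 6) (nat_lit 36) (nat_lit 5) (nat_lit 107) (nat_lit 124) (nat_lit 129))) (PT.nd (nat_lit 78) (PT.lf (nat_lit 3040) (nat_lit 6) (nat_lit 40) (nat_lit 5) (nat_lit 108) (nat_lit 124) (nat_lit 128)) (PT.lf (nat_lit 3420) (nat_lit 6) (nat_lit 45) (nat_lit 5) (nat_lit 109) (nat_lit 124) (nat_lit 127)))) (PT.nd (nat_lit 156) (PT.nd (nat_lit 78) (PT.lf (nat_lit 3800) (nat_lit 6) (nat_lit 50)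 (nat_lit 5) (nat_lit 110) (nat_lit 124) (nat_lit 126)) (PT.lf (nat_lit 4332) (nat_lit 6) (nat_lit 57) (nat_lit 5) (nat_lit 111) (nat_lit 124) (nat_lit 125))) (PT.nd (nat_lit 78) (PT.lf (nat_lit 5016) (nat_lit 3) (nat_lit 66) (nat_lit 4) (nat_lit 112) (nat_lit 124) (nat_lit 124)) (PT.nd (nat_lit 78) (PT.lf (nat_lit 5548) (nat_lit 6) (nat_lit 73) (nat_lit 4) (nat_lit 113) (nat_lit 124) (nat_lit 123)) (PT.lf (nat_lit 6004) (nat_lit 6) (nat_lit 79) (nat_lit 4) (nat_lit 114) (nat_lit 124) (nat_lit 122))))))))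
noncomputable def pc9 : PT := (PT.nd (nat_lit 36738) (PT.nd (nat_lit 624) (PT.nd (nat_lit 312) (PT.nd (nat_lit 156) (PT.nd (nat_lit 78) (PT.lf (nat_lit 6384) (nat_lit 6) (nat_lit 84) (nat_lit 4) (nat_lit 115) (nat_lit 124) (nat_lit 121)) (PT.lf (nat_lit 6688) (nat_lit 6) (nat_lit 88) (nat_lit 4) (nat_lit 116) (nat_lit 124) (nat_lit 120))) (PT.nd (nat_lit 78) (PT.lf (nat_lit 6612) (nat_lit 6) (nat_lit 87) (nat_lit 4) (nat_lit 117) (nat_lit 124) (nat_lit 119)) (PT.lf (nat_lit 6536) (nat_lit 3) (nat_lit 86) (nat_lit 2) (nat_lit 118) (nat_lit 124) (nat_lit 118)))) (PT.nd (nat_lit 156) (PT.nd (nat_lit 78) (PT.lf (nat_lit 6612) (nat_lit 6) (nat_lit 87) (nat_lit 2) (nat_lit 119) (nat_lit 124) (nat_lit 117)) (PT.lf (nat_lit 6688) (nat_lit 6) (nat_lit 88) (nat_lit 2) (nat_lit 120) (nat_lit 124) (nat_lit 116))) (PT.nd (nat_lit 78) (PT.lf (nat_lit 6384) (nat_lit 6) (nat_lit 84) (nat_lit 2) (nat_lit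 121) (nat_lit 124) (nat_lit 115)) (PT.lf (nat_lit 6004) (nat_lit 6) (nat_lit 79) (nat_lit 2) (nat_lit 122) (nat_lit 124) (nat_lit 114))))) (PT.nd (nat_lit 312) (PT.nd (nat_lit 156) (PT.nd (nat_lit 78) (PT.lf (nat_lit 5548) (nat_lit 6) (nat_lit 73) (nat_lit 2) (nat_lit 123) (nat_lit 124) (nat_lit 113)) (PT.lf (nat_lit 5016) (nat_lit 3) (nat_lit 66) (nat_lit 0) (nat_lit 124) (nat_lit 124) (nat_lit 112))) (PT.nd (nat_lit 78) (PT.lf (nat_lit 4332) (nat_lit 6) (nat_lit 57) (nat_lit 0) (nat_lit 125) (nat_lit 124) (nat_lit 111)) (PT.lf (nat_lit 3800) (nat_lit 6) (nat_lit 50) (nat_lit 0) (nat_lit 126) (nat_lit 124) (nat_lit 110)))) (PT.nd (nat_lit 156) (PT.nd (nat_lit 78) (PT.lf (nat_lit 3420) (nat_lit 6) (nat_lit 45) (nat_lit 0) (nat_lit 127) (nat_lit 124) (nat_lit 109)) (PT.lf (nat_lit 3040) (nat_lit 6) (nat_lit 40) (nat_lit 0) (nat_lit 128) (nat_lit 124) (nat_lit 108))) (PT.nd (nat_lit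 78) (PT.lf (nat_lit 2736) (nat_lit 6) (nat_lit 36) (nat_lit 0) (nat_lit 129) (nat_lit 124) (nat_lit 107)) (PT.lf (nat_lit 2432) (nat_lit 6) (nat_lit 32) (nat_lit 0) (nat_lit 130) (nat_lit 124) (nat_lit 106)))))) (PT.nd (nat_lit 624) (PT.nd (nat_lit 312) (PT.nd (nat_lit 156) (PT.nd (nat_lit 78) (PT.lf (nat_lit 2204) (nat_lit 6) (nat_lit 29) (nat_lit 5) (nat_lit 105) (nat_lit 125) (nat_lit 130)) (PT.lf (nat_lit 2508) (nat_lit 6) (nat_lit 33) (nat_lit 5) (nat_lit 106) (nat_lit 125) (nat_lit 129))) (PT.nd (nat_lit 78) (PT.lf (nat_lit 2812) (nat_lit 6) (nat_lit 37) (nat_lit 5) (nat_lit 107) (nat_lit 125) (nat_lit 128)) (PT.lf (nat_lit 3116) (nat_lit 6) (nat_lit 41) (nat_lit 5) (nat_lit 108) (nat_lit 125) (nat_lit 127)))) (PT.nd (nat_lit 156) (PT.nd (nat_lit 78) (PT.lf (nat_lit 3496) (nat_lit 6) (nat_lit 46) (nat_lit 5) (nat_lit 109) (nat_lit 125) (nat_lit 126)) (PT.lf (nat_lit 3876) (nat_lit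 3) (nat_lit 51) (nat_lit 4) (nat_lit 110) (nat_lit 125) (nat_lit 125))) (PT.nd (nat_lit 78) (PT.lf (nat_lit 4332) (nat_lit 6) (nat_lit 57) (nat_lit 4) (nat_lit 111) (nat_lit 125) (nat_lit 124)) (PT.lf (nat_lit 4940) (nat_lit 6) (nat_lit 65) (nat_lit 4) (nat_lit 112) (nat_lit 125) (nat_lit 123))))) (PT.nd (nat_lit 312) (PT.nd (nat_lit 156) (PT.nd (nat_lit 78) (PT.lf (nat_lit 5472) (nat_lit 6) (nat_lit 72) (nat_lit 4) (nat_lit 113) (nat_lit 125) (nat_lit 122)) (PT.lf (nat_lit 5928) (nat_lit 6) (nat_lit 78) (nat_lit 4) (nat_lit 114) (nat_lit 125) (nat_lit 121))) (PT.nd (nat_lit 78) (PT.lf (nat_lit 6308) (nat_lit 6) (nat_lit 83) (nat_lit 4) (nat_lit 115) (nat_lit 125) (nat_lit 120)) (PT.lf (nat_lit 6232) (nat_lit 6) (nat_lit 82) (nat_lit 4) (nat_lit 116) (nat_lit 125) (nat_lit 119)))) (PT.nd (nat_lit 156) (PT.nd (nat_lit 78) (PT.lf (nat_lit 6156) (nat_lit 6) (nat_lit 81) (nat_lit 4) (nat_lit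 117) (nat_lit 125) (nat_lit 118)) (PT.lf (nat_lit 6156) (nat_lit 6) (nat_lit 81) (nat_lit 2) (nat_lit 118) (nat_lit 125) (nat_lit 117))) (PT.nd (nat_lit 78) (PT.lf (nat_lit 6232) (nat_lit 6) (nat_lit 82) (nat_lit 2) (nat_lit 119) (nat_lit 125) (nat_lit 116)) (PT.nd (nat_lit 78) (PT.lf (nat_lit 6308) (nat_lit 6) (nat_lit 83) (nat_lit 2) (nat_lit 120) (nat_lit 125) (nat_lit 115)) (PT.lf (nat_lit 5928) (nat_lit 6) (nat_lit 78) (nat_lit 2) (nat_lit 121) (nat_lit 125) (nat_lit 114))))))))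
noncomputable def pc10 : PT := (PT.nd (nat_lit 36582) (PT.nd (nat_lit 624) (PT.nd (nat_lit 312) (PT.nd (nat_lit 156) (PT.nd (nat_lit 78) (PT.lf (nat_lit 5472) (nat_lit 6) (nat_lit 72) (nat_lit 2) (nat_lit 122) (nat_lit 125) (nat_lit 113)) (PT.lf (nat_lit 4940) (nat_lit 6) (nat_lit 65) (nat_lit 2) (nat_lit 123) (nat_lit 125) (nat_lit 112))) (PT.nd (nat_lit 78) (PT.lf (nat_lit 4332) (nat_lit 6) (nat_lit 57) (nat_lit 2) (nat_lit 124) (nat_lit 125) (nat_lit 111)) (PT.lf (nat_lit 3876) (nat_lit 3) (nat_lit 51) (nat_lit 0) (nat_lit 125) (nat_lit 125) (nat_lit 110)))) (PT.nd (nat_lit 156) (PT.nd (nat_lit 78) (PT.lf (nat_lit 3496) (nat_lit 6) (nat_lit 46) (nat_lit 0) (nat_lit 126) (nat_lit 125) (nat_lit 109)) (PT.lf (nat_lit 3116) (nat_lit 6) (nat_lit 41) (nat_lit 0) (nat_lit 127) (nat_lit 125) (nat_lit 108))) (PT.nd (nat_lit 78) (PT.lf (nat_lit 2812) (nat_lit 6) (nat_lit 37) (nat_lit 0)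 (nat_lit 128) (nat_lit 125) (nat_lit 107)) (PT.lf (nat_lit 2508) (nat_lit 6) (nat_lit 33) (nat_lit 0) (nat_lit 129) (nat_lit 125) (nat_lit 106))))) (PT.nd (nat_lit 35646) (PT.nd (nat_lit 35490) (PT.nd (nat_lit 35412) (PT.lf (nat_lit 2204) (nat_lit 6) (nat_lit 29) (nat_lit 0) (nat_lit 130) (nat_lit 125) (nat_lit 105)) (PT.lf (nat_lit 1748) (nat_lit 6) (nat_lit 23) (nat_lit 5) (nat_lit 103) (nat_lit 126) (nat_lit 131))) (PT.nd (nat_lit 78) (PT.lf (nat_lit 1976) (nat_lit 6) (nat_lit 26) (nat_lit 5) (nat_lit 104) (nat_lit 126) (nat_lit 130)) (PT.lf (nat_lit 2280) (nat_lit 6) (nat_lit 30) (nat_lit 5) (nat_lit 105) (nat_lit 126) (nat_lit 129)))) (PT.nd (nat_lit 156) (PT.nd (nat_lit 78) (PT.lf (nat_lit 2584) (nat_lit 6) (nat_lit 34) (nat_lit 5) (nat_lit 106) (nat_lit 126) (nat_lit 128)) (PT.lf (nat_lit 2888) (nat_lit 6) (nat_lit 38) (nat_lit 5) (nat_lit 107) (nat_lit 126) (nat_lit 127)))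 (PT.nd (nat_lit 78) (PT.lf (nat_lit 3192) (nat_lit 3) (nat_lit 42) (nat_lit 4) (nat_lit 108) (nat_lit 126) (nat_lit 126)) (PT.lf (nat_lit 3496) (nat_lit 6) (nat_lit 46) (nat_lit 4) (nat_lit 109) (nat_lit 126) (nat_lit 125)))))) (PT.nd (nat_lit 624) (PT.nd (nat_lit 312) (PT.nd (nat_lit 156) (PT.nd (nat_lit 78) (PT.lf (nat_lit 3800) (nat_lit 6) (nat_lit 50) (nat_lit 4) (nat_lit 110) (nat_lit 126) (nat_lit 124)) (PT.lf (nat_lit 4256) (nat_lit 6) (nat_lit 56) (nat_lit 4) (nat_lit 111) (nat_lit 126) (nat_lit 123))) (PT.nd (nat_lit 78) (PT.lf (nat_lit 4864) (nat_lit 6) (nat_lit 64) (nat_lit 4) (nat_lit 112) (nat_lit 126) (nat_lit 122)) (PT.lf (nat_lit 5396) (nat_lit 6) (nat_lit 71) (nat_lit 4) (nat_lit 113) (nat_lit 126) (nat_lit 121)))) (PT.nd (nat_lit 156) (PT.nd (nat_lit 78) (PT.lf (nat_lit 5852) (nat_lit 6) (nat_lit 77) (nat_lit 4) (nat_lit 114) (nat_lit 126) (nat_lit 120)) (PT.lf (nat_lit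 5776) (nat_lit 6) (nat_lit 76) (nat_lit 4) (nat_lit 115) (nat_lit 126) (nat_lit 119))) (PT.nd (nat_lit 78) (PT.lf (nat_lit 5700) (nat_lit 6) (nat_lit 75) (nat_lit 4) (nat_lit 116) (nat_lit 126) (nat_lit 118)) (PT.lf (nat_lit 5624) (nat_lit 3) (nat_lit 74) (nat_lit 2) (nat_lit 117) (nat_lit 126) (nat_lit 117))))) (PT.nd (nat_lit 312) (PT.nd (nat_lit 156) (PT.nd (nat_lit 78) (PT.lf (nat_lit 5700) (nat_lit 6) (nat_lit 75) (nat_lit 2) (nat_lit 118) (nat_lit 126) (nat_lit 116)) (PT.lf (nat_lit 5776) (nat_lit 6) (nat_lit 76) (nat_lit 2) (nat_lit 119) (nat_lit 126) (nat_lit 115))) (PT.nd (nat_lit 78) (PT.lf (nat_lit 5852) (nat_lit 6) (nat_lit 77) (nat_lit 2) (nat_lit 120) (nat_lit 126) (nat_lit 114)) (PT.lf (nat_lit 5396) (nat_lit 6) (nat_lit 71) (nat_lit 2) (nat_lit 121) (nat_lit 126) (nat_lit 113)))) (PT.nd (nat_lit 156) (PT.nd (nat_lit 78) (PT.lf (nat_lit 4864) (nat_lit 6) (nat_lit 64)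 (nat_lit 2) (nat_lit 122) (nat_lit 126) (nat_lit 112)) (PT.lf (nat_lit 4256) (nat_lit 6) (nat_lit 56) (nat_lit 2) (nat_lit 123) (nat_lit 126) (nat_lit 111))) (PT.nd (nat_lit 78) (PT.lf (nat_lit 3800) (nat_lit 6) (nat_lit 50) (nat_lit 2) (nat_lit 124) (nat_lit 126) (nat_lit 110)) (PT.nd (nat_lit 78) (PT.lf (nat_lit 3496) (nat_lit 6) (nat_lit 46) (nat_lit 2) (nat_lit 125) (nat_lit 126) (nat_lit 109)) (PT.lf (nat_lit 3192) (nat_lit 3) (nat_lit 42) (nat_lit 0) (nat_lit 126) (nat_lit 126) (nat_lit 108))))))))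
noncomputable def pc11 : PT := (PT.nd (nat_lit 36426) (PT.nd (nat_lit 35802) (PT.nd (nat_lit 312) (PT.nd (nat_lit 156) (PT.nd (nat_lit 78) (PT.lf (nat_lit 2888) (nat_lit 6) (nat_lit 38) (nat_lit 0) (nat_lit 127) (nat_lit 126) (nat_lit 107)) (PT.lf (nat_lit 2584) (nat_lit 6) (nat_lit 34) (nat_lit 0) (nat_lit 128) (nat_lit 126) (nat_lit 106))) (PT.nd (nat_lit 78) (PT.lf (nat_lit 2280) (nat_lit 6) (nat_lit 30) (nat_lit 0) (nat_lit 129) (nat_lit 126) (nat_lit 105)) (PT.lf (nat_lit 1976) (nat_lit 6) (nat_lit 26) (nat_lit 0) (nat_lit 130) (nat_lit 126) (nat_lit 104)))) (PT.nd (nat_lit 35334) (PT.nd (nat_lit 35256) (PT.lf (nat_lit 1748) (nat_lit 6) (nat_lit 23) (nat_lit 0) (nat_lit 131) (nat_lit 126) (nat_lit 103)) (PT.lf (nat_lit 1520) (nat_lit 6) (nat_lit 20) (nat_lit 5) (nat_lit 102) (nat_lit 127) (nat_lit 131))) (PT.nd (nat_lit 78) (PT.lf (nat_lit 1824) (nat_lit 6) (nat_lit 24) (nat_lit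 5) (nat_lit 103) (nat_lit 127) (nat_lit 130)) (PT.lf (nat_lit 2052) (nat_lit 6) (nat_lit 27) (nat_lit 5) (nat_lit 104) (nat_lit 127) (nat_lit 129))))) (PT.nd (nat_lit 312) (PT.nd (nat_lit 156) (PT.nd (nat_lit 78) (PT.lf (nat_lit 2356) (nat_lit 6) (nat_lit 31) (nat_lit 5) (nat_lit 105) (nat_lit 127) (nat_lit 128)) (PT.lf (nat_lit 2660) (nat_lit 3) (nat_lit 35) (nat_lit 4) (nat_lit 106) (nat_lit 127) (nat_lit 127))) (PT.nd (nat_lit 78) (PT.lf (nat_lit 2888) (nat_lit 6) (nat_lit 38) (nat_lit 4) (nat_lit 107) (nat_lit 127) (nat_lit 126)) (PT.lf (nat_lit 3116) (nat_lit 6) (nat_lit 41) (nat_lit 4) (nat_lit 108) (nat_lit 127) (nat_lit 125)))) (PT.nd (nat_lit 156) (PT.nd (nat_lit 78) (PT.lf (nat_lit 3420) (nat_lit 6) (nat_lit 45) (nat_lit 4) (nat_lit 109) (nat_lit 127) (nat_lit 124)) (PT.lf (nat_lit 3724) (nat_lit 6) (nat_lit 49) (nat_lit 4) (nat_lit 110) (nat_lit 127) (nat_lit 123))) (PT.nd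 (nat_lit 78) (PT.lf (nat_lit 4180) (nat_lit 6) (nat_lit 55) (nat_lit 4) (nat_lit 111) (nat_lit 127) (nat_lit 122)) (PT.lf (nat_lit 4788) (nat_lit 6) (nat_lit 63) (nat_lit 4) (nat_lit 112) (nat_lit 127) (nat_lit 121)))))) (PT.nd (nat_lit 624) (PT.nd (nat_lit 312) (PT.nd (nat_lit 156) (PT.nd (nat_lit 78) (PT.lf (nat_lit 5320) (nat_lit 6) (nat_lit 70) (nat_lit 4) (nat_lit 113) (nat_lit 127) (nat_lit 120)) (PT.lf (nat_lit 5244) (nat_lit 6) (nat_lit 69) (nat_lit 4) (nat_lit 114) (nat_lit 127) (nat_lit 119))) (PT.nd (nat_lit 78) (PT.lf (nat_lit 5168) (nat_lit 6) (nat_lit 68) (nat_lit 4) (nat_lit 115) (nat_lit 127) (nat_lit 118)) (PT.lf (nat_lit 5092) (nat_lit 6) (nat_lit 67) (nat_lit 4) (nat_lit 116) (nat_lit 127) (nat_lit 117)))) (PT.nd (nat_lit 156) (PT.nd (nat_lit 78) (PT.lf (nat_lit 5092) (nat_lit 6) (nat_lit 67) (nat_lit 2) (nat_lit 117) (nat_lit 127) (nat_lit 116)) (PT.lf (nat_lit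 5168) (nat_lit 6) (nat_lit 68) (nat_lit 2) (nat_lit 118) (nat_lit 127) (nat_lit 115))) (PT.nd (nat_lit 78) (PT.lf (nat_lit 5244) (nat_lit 6) (nat_lit 69) (nat_lit 2) (nat_lit 119) (nat_lit 127) (nat_lit 114)) (PT.lf (nat_lit 5320) (nat_lit 6) (nat_lit 70) (nat_lit 2) (nat_lit 120) (nat_lit 127) (nat_lit 113))))) (PT.nd (nat_lit 312) (PT.nd (nat_lit 156) (PT.nd (nat_lit 78) (PT.lf (nat_lit 4788) (nat_lit 6) (nat_lit 63) (nat_lit 2) (nat_lit 121) (nat_lit 127) (nat_lit 112)) (PT.lf (nat_lit 4180) (nat_lit 6) (nat_lit 55) (nat_lit 2) (nat_lit 122) (nat_lit 127) (nat_lit 111))) (PT.nd (nat_lit 78) (PT.lf (nat_lit 3724) (nat_lit 6) (nat_lit 49) (nat_lit 2) (nat_lit 123) (nat_lit 127) (nat_lit 110)) (PT.lf (nat_lit 3420) (nat_lit 6) (nat_lit 45) (nat_lit 2) (nat_lit 124) (nat_lit 127) (nat_lit 109)))) (PT.nd (nat_lit 156) (PT.nd (nat_lit 78) (PT.lf (nat_lit 3116) (nat_lit 6) (nat_lit 41)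 (nat_lit 2) (nat_lit 125) (nat_lit 127) (nat_lit 108)) (PT.lf (nat_lit 2888) (nat_lit 6) (nat_lit 38) (nat_lit 2) (nat_lit 126) (nat_lit 127) (nat_lit 107))) (PT.nd (nat_lit 78) (PT.lf (nat_lit 2660) (nat_lit 3) (nat_lit 35) (nat_lit 0) (nat_lit 127) (nat_lit 127) (nat_lit 106)) (PT.nd (nat_lit 78) (PT.lf (nat_lit 2356) (nat_lit 6) (nat_lit 31) (nat_lit 0) (nat_lit 128) (nat_lit 127) (nat_lit 105)) (PT.lf (nat_lit 2052) (nat_lit 6) (nat_lit 27) (nat_lit 0) (nat_lit 129) (nat_lit 127) (nat_lit 104))))))))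
noncomputable def pc12 : PT := (PT.nd (nat_lit 36348) (PT.nd (nat_lit 35724) (PT.nd (nat_lit 35412) (PT.nd (nat_lit 35256) (PT.nd (nat_lit 78) (PT.lf (nat_lit 1824) (nat_lit 6) (nat_lit 24) (nat_lit 0) (nat_lit 130) (nat_lit 127) (nat_lit 103)) (PT.lf (nat_lit 1520) (nat_lit 6) (nat_lit 20) (nat_lit 0) (nat_lit 131) (nat_lit 127) (nat_lit 102))) (PT.nd (nat_lit 78) (PT.lf (nat_lit 1368) (nat_lit 6) (nat_lit 18) (nat_lit 5) (nat_lit 101) (nat_lit 128) (nat_lit 131)) (PT.lf (nat_lit 1596) (nat_lit 6) (nat_lit 21) (nat_lit 5) (nat_lit 102) (nat_lit 128) (nat_lit 130)))) (PT.nd (nat_lit 156) (PT.nd (nat_lit 78) (PT.lf (nat_lit 1900) (nat_lit 6) (nat_lit 25) (nat_lit 5) (nat_lit 103) (nat_lit 128) (nat_lit 129)) (PT.lf (nat_lit 2128) (nat_lit 3) (nat_lit 28) (nat_lit 4) (nat_lit 104) (nat_lit 128) (nat_lit 128))) (PT.nd (nat_lit 78) (PT.lf (nat_lit 2356) (nat_lit 6) (nat_lit 31) (nat_lit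 4) (nat_lit 105) (nat_lit 128) (nat_lit 127)) (PT.lf (nat_lit 2584) (nat_lit 6) (nat_lit 34) (nat_lit 4) (nat_lit 106) (nat_lit 128) (nat_lit 126))))) (PT.nd (nat_lit 312) (PT.nd (nat_lit 156) (PT.nd (nat_lit 78) (PT.lf (nat_lit 2812) (nat_lit 6) (nat_lit 37) (nat_lit 4) (nat_lit 107) (nat_lit 128) (nat_lit 125)) (PT.lf (nat_lit 3040) (nat_lit 6) (nat_lit 40) (nat_lit 4) (nat_lit 108) (nat_lit 128) (nat_lit 124))) (PT.nd (nat_lit 78) (PT.lf (nat_lit 3344) (nat_lit 6) (nat_lit 44) (nat_lit 4) (nat_lit 109) (nat_lit 128) (nat_lit 123)) (PT.lf (nat_lit 3648) (nat_lit 6) (nat_lit 48) (nat_lit 4) (nat_lit 110) (nat_lit 128) (nat_lit 122)))) (PT.nd (nat_lit 156) (PT.nd (nat_lit 78) (PT.lf (nat_lit 4104) (nat_lit 6) (nat_lit 54) (nat_lit 4) (nat_lit 111) (nat_lit 128) (nat_lit 121)) (PT.lf (nat_lit 4712) (nat_lit 6) (nat_lit 62) (nat_lit 4) (nat_lit 112) (nat_lit 128) (nat_lit 120))) (PT.nd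 (nat_lit 78) (PT.lf (nat_lit 4636) (nat_lit 6) (nat_lit 61) (nat_lit 4) (nat_lit 113) (nat_lit 128) (nat_lit 119)) (PT.lf (nat_lit 4560) (nat_lit 6) (nat_lit 60) (nat_lit 4) (nat_lit 114) (nat_lit 128) (nat_lit 118)))))) (PT.nd (nat_lit 624) (PT.nd (nat_lit 312) (PT.nd (nat_lit 156) (PT.nd (nat_lit 78) (PT.lf (nat_lit 4484) (nat_lit 6) (nat_lit 59) (nat_lit 4) (nat_lit 115) (nat_lit 128) (nat_lit 117)) (PT.lf (nat_lit 4408) (nat_lit 3) (nat_lit 58) (nat_lit 2) (nat_lit 116) (nat_lit 128) (nat_lit 116))) (PT.nd (nat_lit 78) (PT.lf (nat_lit 4484) (nat_lit 6) (nat_lit 59) (nat_lit 2) (nat_lit 117) (nat_lit 128) (nat_lit 115)) (PT.lf (nat_lit 4560) (nat_lit 6) (nat_lit 60) (nat_lit 2) (nat_lit 118) (nat_lit 128) (nat_lit 114)))) (PT.nd (nat_lit 156) (PT.nd (nat_lit 78) (PT.lf (nat_lit 4636) (nat_lit 6) (nat_lit 61) (nat_lit 2) (nat_lit 119) (nat_lit 128) (nat_lit 113)) (PT.lf (nat_lit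 4712) (nat_lit 6) (nat_lit 62) (nat_lit 2) (nat_lit 120) (nat_lit 128) (nat_lit 112))) (PT.nd (nat_lit 78) (PT.lf (nat_lit 4104) (nat_lit 6) (nat_lit 54) (nat_lit 2) (nat_lit 121) (nat_lit 128) (nat_lit 111)) (PT.lf (nat_lit 3648) (nat_lit 6) (nat_lit 48) (nat_lit 2) (nat_lit 122) (nat_lit 128) (nat_lit 110))))) (PT.nd (nat_lit 312) (PT.nd (nat_lit 156) (PT.nd (nat_lit 78) (PT.lf (nat_lit 3344) (nat_lit 6) (nat_lit 44) (nat_lit 2) (nat_lit 123) (nat_lit 128) (nat_lit 109)) (PT.lf (nat_lit 3040) (nat_lit 6) (nat_lit 40) (nat_lit 2) (nat_lit 124) (nat_lit 128) (nat_lit 108))) (PT.nd (nat_lit 78) (PT.lf (nat_lit 2812) (nat_lit 6) (nat_lit 37) (nat_lit 2) (nat_lit 125) (nat_lit 128) (nat_lit 107)) (PT.lf (nat_lit 2584) (nat_lit 6) (nat_lit 34) (nat_lit 2) (nat_lit 126) (nat_lit 128) (nat_lit 106)))) (PT.nd (nat_lit 156) (PT.nd (nat_lit 78) (PT.lf (nat_lit 2356) (nat_lit 6) (nat_lit 31)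 (nat_lit 2) (nat_lit 127) (nat_lit 128) (nat_lit 105)) (PT.lf (nat_lit 2128) (nat_lit 3) (nat_lit 28) (nat_lit 0) (nat_lit 128) (nat_lit 128) (nat_lit 104))) (PT.nd (nat_lit 78) (PT.lf (nat_lit 1900) (nat_lit 6) (nat_lit 25) (nat_lit 0) (nat_lit 129) (nat_lit 128) (nat_lit 103)) (PT.nd (nat_lit 78) (PT.lf (nat_lit 1596) (nat_lit 6) (nat_lit 21) (nat_lit 0) (nat_lit 130) (nat_lit 128) (nat_lit 102)) (PT.lf (nat_lit 1368) (nat_lit 6) (nat_lit 18) (nat_lit 0) (nat_lit 131) (nat_lit 128) (nat_lit 101))))))))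
noncomputable def pc13 : PT := (PT.nd (nat_lit 1716) (PT.nd (nat_lit 624) (PT.nd (nat_lit 312) (PT.nd (nat_lit 156) (PT.nd (nat_lit 78) (PT.lf (nat_lit 1064) (nat_lit 6) (nat_lit 14) (nat_lit 5) (nat_lit 99) (nat_lit 129) (nat_lit 132)) (PT.lf (nat_lit 1216) (nat_lit 6) (nat_lit 16) (nat_lit 5) (nat_lit 100) (nat_lit 129) (nat_lit 131))) (PT.nd (nat_lit 78) (PT.lf (nat_lit 1444) (nat_lit 6) (nat_lit 19) (nat_lit 5) (nat_lit 101) (nat_lit 129) (nat_lit 130)) (PT.lf (nat_lit 1672) (nat_lit 3) (nat_lit 22) (nat_lit 4) (nat_lit 102) (nat_lit 129) (nat_lit 129)))) (PT.nd (nat_lit 156) (PT.nd (nat_lit 78) (PT.lf (nat_lit 1900) (nat_lit 6) (nat_lit 25) (nat_lit 4) (nat_lit 103) (nat_lit 129) (nat_lit 128)) (PT.lf (nat_lit 2052) (nat_lit 6) (nat_lit 27) (nat_lit 4) (nat_lit 104) (nat_lit 129) (nat_lit 127))) (PT.nd (nat_lit 78) (PT.lf (nat_lit 2280) (nat_lit 6) (nat_lit 30) (nat_lit 4) (nat_lit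 105) (nat_lit 129) (nat_lit 126)) (PT.lf (nat_lit 2508) (nat_lit 6) (nat_lit 33) (nat_lit 4) (nat_lit 106) (nat_lit 129) (nat_lit 125))))) (PT.nd (nat_lit 312) (PT.nd (nat_lit 156) (PT.nd (nat_lit 78) (PT.lf (nat_lit 2736) (nat_lit 6) (nat_lit 36) (nat_lit 4) (nat_lit 107) (nat_lit 129) (nat_lit 124)) (PT.lf (nat_lit 2964) (nat_lit 6) (nat_lit 39) (nat_lit 4) (nat_lit 108) (nat_lit 129) (nat_lit 123))) (PT.nd (nat_lit 78) (PT.lf (nat_lit 3268) (nat_lit 6) (nat_lit 43) (nat_lit 4) (nat_lit 109) (nat_lit 129) (nat_lit 122)) (PT.lf (nat_lit 3572) (nat_lit 6) (nat_lit 47) (nat_lit 4) (nat_lit 110) (nat_lit 129) (nat_lit 121)))) (PT.nd (nat_lit 624) (PT.nd (nat_lit 78) (PT.lf (nat_lit 4028) (nat_lit 6) (nat_lit 53) (nat_lit 4) (nat_lit 111) (nat_lit 129) (nat_lit 120)) (PT.lf (nat_lit 3952) (nat_lit 6) (nat_lit 52) (nat_lit 4) (nat_lit 112) (nat_lit 129) (nat_lit 119))) (PT.nd (nat_lit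 78) (PT.lf (nat_lit 3952) (nat_lit 6) (nat_lit 52) (nat_lit 2) (nat_lit 119) (nat_lit 129) (nat_lit 112)) (PT.lf (nat_lit 4028) (nat_lit 6) (nat_lit 53) (nat_lit 2) (nat_lit 120) (nat_lit 129) (nat_lit 111)))))) (PT.nd (nat_lit 624) (PT.nd (nat_lit 312) (PT.nd (nat_lit 156) (PT.nd (nat_lit 78) (PT.lf (nat_lit 3572) (nat_lit 6) (nat_lit 47) (nat_lit 2) (nat_lit 121) (nat_lit 129) (nat_lit 110)) (PT.lf (nat_lit 3268) (nat_lit 6) (nat_lit 43) (nat_lit 2) (nat_lit 122) (nat_lit 129) (nat_lit 109))) (PT.nd (nat_lit 78) (PT.lf (nat_lit 2964) (nat_lit 6) (nat_lit 39) (nat_lit 2) (nat_lit 123) (nat_lit 129) (nat_lit 108)) (PT.lf (nat_lit 2736) (nat_lit 6) (nat_lit 36) (nat_lit 2) (nat_lit 124) (nat_lit 129) (nat_lit 107)))) (PT.nd (nat_lit 156) (PT.nd (nat_lit 78) (PT.lf (nat_lit 2508) (nat_lit 6) (nat_lit 33) (nat_lit 2) (nat_lit 125) (nat_lit 129) (nat_lit 106)) (PT.lf (nat_lit 2280) (nat_lit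 6) (nat_lit 30) (nat_lit 2) (nat_lit 126) (nat_lit 129) (nat_lit 105))) (PT.nd (nat_lit 78) (PT.lf (nat_lit 2052) (nat_lit 6) (nat_lit 27) (nat_lit 2) (nat_lit 127) (nat_lit 129) (nat_lit 104)) (PT.lf (nat_lit 1900) (nat_lit 6) (nat_lit 25) (nat_lit 2) (nat_lit 128) (nat_lit 129) (nat_lit 103))))) (PT.nd (nat_lit 35022) (PT.nd (nat_lit 156) (PT.nd (nat_lit 78) (PT.lf (nat_lit 1672) (nat_lit 3) (nat_lit 22) (nat_lit 0) (nat_lit 129) (nat_lit 129) (nat_lit 102)) (PT.lf (nat_lit 1444) (nat_lit 6) (nat_lit 19) (nat_lit 0) (nat_lit 130) (nat_lit 129) (nat_lit 101))) (PT.nd (nat_lit 78) (PT.lf (nat_lit 1216) (nat_lit 6) (nat_lit 16) (nat_lit 0) (nat_lit 131) (nat_lit 129) (nat_lit 100)) (PT.lf (nat_lit 1064) (nat_lit 6) (nat_lit 14) (nat_lit 0) (nat_lit 132) (nat_lit 129) (nat_lit 99)))) (PT.nd (nat_lit 156) (PT.nd (nat_lit 78) (PT.lf (nat_lit 760) (nat_lit 6) (nat_lit 10) (nat_lit 5) (nat_lit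 97) (nat_lit 130) (nat_lit 133)) (PT.lf (nat_lit 912) (nat_lit 6) (nat_lit 12) (nat_lit 5) (nat_lit 98) (nat_lit 130) (nat_lit 132))) (PT.nd (nat_lit 78) (PT.lf (nat_lit 1140) (nat_lit 6) (nat_lit 15) (nat_lit 5) (nat_lit 99) (nat_lit 130) (nat_lit 131)) (PT.nd (nat_lit 78) (PT.lf (nat_lit 1292) (nat_lit 3) (nat_lit 17) (nat_lit 4) (nat_lit 100) (nat_lit 130) (nat_lit 130)) (PT.lf (nat_lit 1444) (nat_lit 6) (nat_lit 19) (nat_lit 4) (nat_lit 101) (nat_lit 130) (nat_lit 129))))))))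
noncomputable def pc14 : PT := (PT.nd (nat_lit 37128) (PT.nd (nat_lit 1950) (PT.nd (nat_lit 312) (PT.nd (nat_lit 156) (PT.nd (nat_lit 78) (PT.lf (nat_lit 1596) (nat_lit 6) (nat_lit 21) (nat_lit 4) (nat_lit 102) (nat_lit 130) (nat_lit 128)) (PT.lf (nat_lit 1824) (nat_lit 6) (nat_lit 24) (nat_lit 4) (nat_lit 103) (nat_lit 130) (nat_lit 127))) (PT.nd (nat_lit 78) (PT.lf (nat_lit 1976) (nat_lit 6) (nat_lit 26) (nat_lit 4) (nat_lit 104) (nat_lit 130) (nat_lit 126)) (PT.lf (nat_lit 2204) (nat_lit 6) (nat_lit 29) (nat_lit 4) (nat_lit 105) (nat_lit 130) (nat_lit 125)))) (PT.nd (nat_lit 1482) (PT.nd (nat_lit 1404) (PT.lf (nat_lit 2432) (nat_lit 6) (nat_lit 32) (nat_lit 4) (nat_lit 106) (nat_lit 130) (nat_lit 124)) (PT.lf (nat_lit 2432) (nat_lit 6) (nat_lit 32) (nat_lit 2) (nat_lit 124) (nat_lit 130) (nat_lit 106))) (PT.nd (nat_lit 78) (PT.lf (nat_lit 2204) (nat_lit 6) (nat_lit 29) (nat_lit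 2) (nat_lit 125) (nat_lit 130) (nat_lit 105)) (PT.lf (nat_lit 1976) (nat_lit 6) (nat_lit 26) (nat_lit 2) (nat_lit 126) (nat_lit 130) (nat_lit 104))))) (PT.nd (nat_lit 312) (PT.nd (nat_lit 156) (PT.nd (nat_lit 78) (PT.lf (nat_lit 1824) (nat_lit 6) (nat_lit 24) (nat_lit 2) (nat_lit 127) (nat_lit 130) (nat_lit 103)) (PT.lf (nat_lit 1596) (nat_lit 6) (nat_lit 21) (nat_lit 2) (nat_lit 128) (nat_lit 130) (nat_lit 102))) (PT.nd (nat_lit 78) (PT.lf (nat_lit 1444) (nat_lit 6) (nat_lit 19) (nat_lit 2) (nat_lit 129) (nat_lit 130) (nat_lit 101)) (PT.lf (nat_lit 1292) (nat_lit 3) (nat_lit 17) (nat_lit 0) (nat_lit 130) (nat_lit 130) (nat_lit 100)))) (PT.nd (nat_lit 156) (PT.nd (nat_lit 78) (PT.lf (nat_lit 1140) (nat_lit 6) (nat_lit 15) (nat_lit 0) (nat_lit 131) (nat_lit 130) (nat_lit 99)) (PT.lf (nat_lit 912) (nat_lit 6) (nat_lit 12) (nat_lit 0) (nat_lit 132) (nat_lit 130) (nat_lit 98))) (PT.nd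 (nat_lit 34632) (PT.lf (nat_lit 760) (nat_lit 6) (nat_lit 10) (nat_lit 0) (nat_lit 133) (nat_lit 130) (nat_lit 97)) (PT.lf (nat_lit 608) (nat_lit 6) (nat_lit 8) (nat_lit 5) (nat_lit 96) (nat_lit 131) (nat_lit 133)))))) (PT.nd (nat_lit 2340) (PT.nd (nat_lit 312) (PT.nd (nat_lit 156) (PT.nd (nat_lit 78) (PT.lf (nat_lit 836) (nat_lit 6) (nat_lit 11) (nat_lit 5) (nat_lit 97) (nat_lit 131) (nat_lit 132)) (PT.lf (nat_lit 988) (nat_lit 3) (nat_lit 13) (nat_lit 4) (nat_lit 98) (nat_lit 131) (nat_lit 131))) (PT.nd (nat_lit 78) (PT.lf (nat_lit 1140) (nat_lit 6) (nat_lit 15) (nat_lit 4) (nat_lit 99) (nat_lit 131) (nat_lit 130)) (PT.lf (nat_lit 1216) (nat_lit 6) (nat_lit 16) (nat_lit 4) (nat_lit 100) (nat_lit 131) (nat_lit 129)))) (PT.nd (nat_lit 156) (PT.nd (nat_lit 78) (PT.lf (nat_lit 1368) (nat_lit 6) (nat_lit 18) (nat_lit 4) (nat_lit 101) (nat_lit 131) (nat_lit 128)) (PT.lf (nat_lit 1520)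 (nat_lit 6) (nat_lit 20) (nat_lit 4) (nat_lit 102) (nat_lit 131) (nat_lit 127))) (PT.nd (nat_lit 1794) (PT.lf (nat_lit 1748) (nat_lit 6) (nat_lit 23) (nat_lit 4) (nat_lit 103) (nat_lit 131) (nat_lit 126)) (PT.lf (nat_lit 1748) (nat_lit 6) (nat_lit 23) (nat_lit 2) (nat_lit 126) (nat_lit 131) (nat_lit 103))))) (PT.nd (nat_lit 312) (PT.nd (nat_lit 156) (PT.nd (nat_lit 78) (PT.lf (nat_lit 1520) (nat_lit 6) (nat_lit 20) (nat_lit 2) (nat_lit 127) (nat_lit 131) (nat_lit 102)) (PT.lf (nat_lit 1368) (nat_lit 6) (nat_lit 18) (nat_lit 2) (nat_lit 128) (nat_lit 131) (nat_lit 101))) (PT.nd (nat_lit 78) (PT.lf (nat_lit 1216) (nat_lit 6) (nat_lit 16) (nat_lit 2) (nat_lit 129) (nat_lit 131) (nat_lit 100)) (PT.lf (nat_lit 1140) (nat_lit 6) (nat_lit 15) (nat_lit 2) (nat_lit 130) (nat_lit 131) (nat_lit 99)))) (PT.nd (nat_lit 156) (PT.nd (nat_lit 78) (PT.lf (nat_lit 988) (nat_lit 3) (nat_lit 13) (nat_lit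 0) (nat_lit 131) (nat_lit 131) (nat_lit 98)) (PT.lf (nat_lit 836) (nat_lit 6) (nat_lit 11) (nat_lit 0) (nat_lit 132) (nat_lit 131) (nat_lit 97))) (PT.nd (nat_lit 34476) (PT.lf (nat_lit 608) (nat_lit 6) (nat_lit 8) (nat_lit 0) (nat_lit 133) (nat_lit 131) (nat_lit 96)) (PT.nd (nat_lit 78) (PT.lf (nat_lit 380) (nat_lit 6) (nat_lit 5) (nat_lit 5) (nat_lit 94) (nat_lit 132) (nat_lit 134)) (PT.lf (nat_lit 532) (nat_lit 6) (nat_lit 7) (nat_lit 5) (nat_lit 95) (nat_lit 132) (nat_lit 133))))))))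
noncomputable def pc15 : PT := (PT.nd (nat_lit 40248) (PT.nd (nat_lit 2886) (PT.nd (nat_lit 2574) (PT.nd (nat_lit 156) (PT.nd (nat_lit 78) (PT.lf (nat_lit 684) (nat_lit 3) (nat_lit 9) (nat_lit 4) (nat_lit 96) (nat_lit 132) (nat_lit 132)) (PT.lf (nat_lit 836) (nat_lit 6) (nat_lit 11) (nat_lit 4) (nat_lit 97) (nat_lit 132) (nat_lit 131))) (PT.nd (nat_lit 78) (PT.lf (nat_lit 912) (nat_lit 6) (nat_lit 12) (nat_lit 4) (nat_lit 98) (nat_lit 132) (nat_lit 130)) (PT.lf (nat_lit 1064) (nat_lit 6) (nat_lit 14) (nat_lit 4) (nat_lit 99) (nat_lit 132) (nat_lit 129)))) (PT.nd (nat_lit 156) (PT.nd (nat_lit 78) (PT.lf (nat_lit 1064) (nat_lit 6) (nat_lit 14) (nat_lit 2) (nat_lit 129) (nat_lit 132) (nat_lit 99)) (PT.lf (nat_lit 912) (nat_lit 6) (nat_lit 12) (nat_lit 2) (nat_lit 130) (nat_lit 132) (nat_lit 98))) (PT.nd (nat_lit 78) (PT.lf (nat_lit 836) (nat_lit 6) (nat_lit 11) (nat_lit 2) (nat_lit 131)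 (nat_lit 132) (nat_lit 97)) (PT.lf (nat_lit 684) (nat_lit 3) (nat_lit 9) (nat_lit 0) (nat_lit 132) (nat_lit 132) (nat_lit 96))))) (PT.nd (nat_lit 34476) (PT.nd (nat_lit 34320) (PT.nd (nat_lit 78) (PT.lf (nat_lit 532) (nat_lit 6) (nat_lit 7) (nat_lit 0) (nat_lit 133) (nat_lit 132) (nat_lit 95)) (PT.lf (nat_lit 380) (nat_lit 6) (nat_lit 5) (nat_lit 0) (nat_lit 134) (nat_lit 132) (nat_lit 94))) (PT.nd (nat_lit 78) (PT.lf (nat_lit 152) (nat_lit 6) (nat_lit 2) (nat_lit 5) (nat_lit 92) (nat_lit 133) (nat_lit 135)) (PT.lf (nat_lit 304) (nat_lit 6) (nat_lit 4) (nat_lit 5) (nat_lit 93) (nat_lit 133) (nat_lit 134)))) (PT.nd (nat_lit 156) (PT.nd (nat_lit 78) (PT.lf (nat_lit 456) (nat_lit 3) (nat_lit 6) (nat_lit 4) (nat_lit 94) (nat_lit 133) (nat_lit 133)) (PT.lf (nat_lit 532) (nat_lit 6) (nat_lit 7) (nat_lit 4) (nat_lit 95) (nat_lit 133) (nat_lit 132))) (PT.nd (nat_lit 78) (PT.lf (nat_lit 608)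 (nat_lit 6) (nat_lit 8) (nat_lit 4) (nat_lit 96) (nat_lit 133) (nat_lit 131)) (PT.nd (nat_lit 2574) (PT.lf (nat_lit 760) (nat_lit 6) (nat_lit 10) (nat_lit 4) (nat_lit 97) (nat_lit 133) (nat_lit 130)) (PT.lf (nat_lit 760) (nat_lit 6) (nat_lit 10) (nat_lit 2) (nat_lit 130) (nat_lit 133) (nat_lit 97))))))) (PT.nd (nat_lit 34632) (PT.nd (nat_lit 312) (PT.nd (nat_lit 156) (PT.nd (nat_lit 78) (PT.lf (nat_lit 608) (nat_lit 6) (nat_lit 8) (nat_lit 2) (nat_lit 131) (nat_lit 133) (nat_lit 96)) (PT.lf (nat_lit 532) (nat_lit 6) (nat_lit 7) (nat_lit 2) (nat_lit 132) (nat_lit 133) (nat_lit 95))) (PT.nd (nat_lit 78) (PT.lf (nat_lit 456) (nat_lit 3) (nat_lit 6) (nat_lit 0) (nat_lit 133) (nat_lit 133) (nat_lit 94)) (PT.lf (nat_lit 304) (nat_lit 6) (nat_lit 4) (nat_lit 0) (nat_lit 134) (nat_lit 133) (nat_lit 93)))) (PT.nd (nat_lit 34164) (PT.nd (nat_lit 34086) (PT.lf (nat_lit 152) (nat_lit 6) (nat_lit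 2) (nat_lit 0) (nat_lit 135) (nat_lit 133) (nat_lit 92)) (PT.lf (nat_lit 76) (nat_lit 6) (nat_lit 1) (nat_lit 5) (nat_lit 91) (nat_lit 134) (nat_lit 135))) (PT.nd (nat_lit 78) (PT.lf (nat_lit 228) (nat_lit 3) (nat_lit 3) (nat_lit 4) (nat_lit 92) (nat_lit 134) (nat_lit 134)) (PT.lf (nat_lit 304) (nat_lit 6) (nat_lit 4) (nat_lit 4) (nat_lit 93) (nat_lit 134) (nat_lit 133))))) (PT.nd (nat_lit 3198) (PT.nd (nat_lit 3042) (PT.nd (nat_lit 2964) (PT.lf (nat_lit 380) (nat_lit 6) (nat_lit 5) (nat_lit 4) (nat_lit 94) (nat_lit 134) (nat_lit 132)) (PT.lf (nat_lit 380) (nat_lit 6) (nat_lit 5) (nat_lit 2) (nat_lit 132) (nat_lit 134) (nat_lit 94))) (PT.nd (nat_lit 78) (PT.lf (nat_lit 304) (nat_lit 6) (nat_lit 4) (nat_lit 2) (nat_lit 133) (nat_lit 134) (nat_lit 93)) (PT.lf (nat_lit 228) (nat_lit 3) (nat_lit 3) (nat_lit 0) (nat_lit 134) (nat_lit 134) (nat_lit 92)))) (PT.nd (nat_lit 34164) (PT.nd (nat_lit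 34086) (PT.lf (nat_lit 76) (nat_lit 6) (nat_lit 1) (nat_lit 0) (nat_lit 135) (nat_lit 134) (nat_lit 91)) (PT.lf (nat_lit 76) (nat_lit 6) (nat_lit 1) (nat_lit 4) (nat_lit 91) (nat_lit 135) (nat_lit 134))) (PT.nd (nat_lit 3198) (PT.lf (nat_lit 152) (nat_lit 6) (nat_lit 2) (nat_lit 4) (nat_lit 92) (nat_lit 135) (nat_lit 133)) (PT.nd (nat_lit 78) (PT.lf (nat_lit 152) (nat_lit 6) (nat_lit 2) (nat_lit 2) (nat_lit 133) (nat_lit 135) (nat_lit 92)) (PT.lf (nat_lit 76) (nat_lit 6) (nat_lit 1) (nat_lit 2) (nat_lit 134) (nat_lit 135) (nat_lit 91))))))))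
noncomputable def xc0 : XT := (XT.nd (nat_lit 150072) (nat_lit 0) (nat_lit 0) (XT.nd (nat_lit 112164) (nat_lit 0) (nat_lit 0) (XT.nd (nat_lit 74724) (nat_lit 0) (nat_lit 0) (XT.nd (nat_lit 37440) (nat_lit 0) (nat_lit 0) (XT.nd (nat_lit 156) (nat_lit 0) (nat_lit 0) (XT.nd (nat_lit 78) (nat_lit 0) (nat_lit 0) (XT.lf (nat_lit 0) (nat_lit 11000363947) (nat_lit 152) (nat_lit 219492553407) (nat_lit 0) (nat_lit 11000363947) (nat_lit 1) (nat_lit 5) (nat_lit 3) (nat_lit 4) (nat_lit 1) (nat_lit 4) (nat_lit 358) (nat_lit 181) (nat_lit 181)) (XT.lf (nat_lit 0) (nat_lit 23765385917) (nat_lit 152) (nat_lit 459637939317) (nat_lit 0) (nat_lit 23693964766) (nat_lit 1) (nat_lit 5) (nat_lit 3) (nat_lit 4) (nat_lit 1) (nat_lit 4) (nat_lit 359) (nat_lit 181) (nat_lit 180))) (XT.nd (nat_lit 37206) (nat_lit 0) (nat_lit 0) (XT.lf (nat_lit 0) (nat_lit 25594986391) (nat_lit 152) (nat_lit 481364237820) (nat_lit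 0) (nat_lit 25455545096) (nat_lit 1) (nat_lit 5) (nat_lit 3) (nat_lit 4) (nat_lit 1) (nat_lit 4) (nat_lit 360) (nat_lit 181) (nat_lit 179)) (XT.lf (nat_lit 0) (nat_lit 9368547739) (nat_lit 152) (nat_lit 200341814706) (nat_lit 0) (nat_lit 9368547739) (nat_lit 1) (nat_lit 5) (nat_lit 3) (nat_lit 4) (nat_lit 1) (nat_lit 4) (nat_lit 356) (nat_lit 182) (nat_lit 182)))) (XT.nd (nat_lit 156) (nat_lit 0) (nat_lit 0) (XT.nd (nat_lit 78) (nat_lit 0) (nat_lit 0) (XT.lf (nat_lit 0) (nat_lit 20371802963) (nat_lit 152) (nat_lit 419356566903) (nat_lit 0) (nat_lit 20296810754) (nat_lit 1) (nat_lit 5) (nat_lit 3) (nat_lit 4) (nat_lit 1) (nat_lit 4) (nat_lit 357) (nat_lit 182) (nat_lit 181)) (XT.lf (nat_lit 0) (nat_lit 22063790847) (nat_lit 152) (nat_lit 439006016861) (nat_lit 0) (nat_lit 21917377487) (nat_lit 1) (nat_lit 5) (nat_lit 3) (nat_lit 4) (nat_lit 1) (nat_lit 4) (nat_lit 358) (nat_lit 182)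 (nat_lit 180))) (XT.nd (nat_lit 78) (nat_lit 0) (nat_lit 0) (XT.lf (nat_lit 0) (nat_lit 23817087675) (nat_lit 152) (nat_lit 459678763693) (nat_lit 0) (nat_lit 23602654171) (nat_lit 1) (nat_lit 5) (nat_lit 3) (nat_lit 4) (nat_lit 1) (nat_lit 4) (nat_lit 359) (nat_lit 182) (nat_lit 179)) (XT.lf (nat_lit 0) (nat_lit 25635867962) (nat_lit 152) (nat_lit 481424028223) (nat_lit 0) (nat_lit 25356653369) (nat_lit 1) (nat_lit 5) (nat_lit 3) (nat_lit 4) (nat_lit 1) (nat_lit 4) (nat_lit 360) (nat_lit 182) (nat_lit 178))))) (XT.nd (nat_lit 312) (nat_lit 0) (nat_lit 0) (XT.nd (nat_lit 156) (nat_lit 0) (nat_lit 0) (XT.nd (nat_lit 78) (nat_lit 0) (nat_lit 0) (XT.lf (nat_lit 0) (nat_lit 7857987003) (nat_lit 152) (nat_lit 183034310093) (nat_lit 0) (nat_lit 7857987003) (nat_lit 1) (nat_lit 5) (nat_lit 3) (nat_lit 4) (nat_lit 1) (nat_lit 4) (nat_lit 354) (nat_lit 183) (nat_lit 183)) (XT.lf (nat_lit 0)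 (nat_lit 17234518053) (nat_lit 152) (nat_lit 382942745016) (nat_lit 0) (nat_lit 17155776234) (nat_lit 1) (nat_lit 5) (nat_lit 3) (nat_lit 4) (nat_lit 1) (nat_lit 4) (nat_lit 355) (nat_lit 183) (nat_lit 182))) (XT.nd (nat_lit 78) (nat_lit 0) (nat_lit 0) (XT.lf (nat_lit 0) (nat_lit 18803311579) (nat_lit 152) (nat_lit 400705584961) (nat_lit 0) (nat_lit 18649577552) (nat_lit 1) (nat_lit 5) (nat_lit 3) (nat_lit 4) (nat_lit 1) (nat_lit 4) (nat_lit 356) (nat_lit 183) (nat_lit 181)) (XT.lf (nat_lit 0) (nat_lit 20426089808) (nat_lit 152) (nat_lit 419399432497) (nat_lit 0) (nat_lit 20200934629) (nat_lit 1) (nat_lit 5) (nat_lit 3) (nat_lit 4) (nat_lit 1) (nat_lit 4) (nat_lit 357) (nat_lit 183) (nat_lit 180)))) (XT.nd (nat_lit 156) (nat_lit 0) (nat_lit 0) (XT.nd (nat_lit 78) (nat_lit 0) (nat_lit 0) (XT.lf (nat_lit 0) (nat_lit 22106716497) (nat_lit 152) (nat_lit 439068796784) (nat_lit 0) (nat_lit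 21813541174) (nat_lit 1) (nat_lit 5) (nat_lit 3) (nat_lit 4) (nat_lit 1) (nat_lit 4) (nat_lit 358) (nat_lit 183) (nat_lit 179)) (XT.lf (nat_lit 0) (nat_lit 23849193138) (nat_lit 152) (nat_lit 459760509644) (nat_lit 0) (nat_lit 23491236726) (nat_lit 1) (nat_lit 5) (nat_lit 3) (nat_lit 4) (nat_lit 1) (nat_lit 4) (nat_lit 359) (nat_lit 183) (nat_lit 178))) (XT.nd (nat_lit 36894) (nat_lit 0) (nat_lit 0) (XT.lf (nat_lit 0) (nat_lit 25657668486) (nat_lit 152) (nat_lit 481523837057) (nat_lit 0) (nat_lit 25238015798) (nat_lit 1) (nat_lit 5) (nat_lit 3) (nat_lit 4) (nat_lit 1) (nat_lit 4) (nat_lit 360) (nat_lit 183) (nat_lit 177)) (XT.lf (nat_lit 0) (nat_lit 6455885789) (nat_lit 152) (nat_lit 167401812130) (nat_lit 0) (nat_lit 6455885789) (nat_lit 1) (nat_lit 5) (nat_lit 3) (nat_lit 4) (nat_lit 1) (nat_lit 4) (nat_lit 352) (nat_lit 184) (nat_lit 184)))))) (XT.nd (nat_lit 37284) (nat_lit 0)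 (nat_lit 0) (XT.nd (nat_lit 312) (nat_lit 0) (nat_lit 0) (XT.nd (nat_lit 156) (nat_lit 0) (nat_lit 0) (XT.nd (nat_lit 78) (nat_lit 0) (nat_lit 0) (XT.lf (nat_lit 0) (nat_lit 14326742770) (nat_lit 152) (nat_lit 350043033985) (nat_lit 0) (nat_lit 14244063860) (nat_lit 1) (nat_lit 5) (nat_lit 3) (nat_lit 4) (nat_lit 1) (nat_lit 4) (nat_lit 353) (nat_lit 184) (nat_lit 183)) (XT.lf (nat_lit 0) (nat_lit 15785500913) (nat_lit 152) (nat_lit 366091673512) (nat_lit 0) (nat_lit 15624080184) (nat_lit 1) (nat_lit 5) (nat_lit 3) (nat_lit 4) (nat_lit 1) (nat_lit 4) (nat_lit 354) (nat_lit 184) (nat_lit 182))) (XT.nd (nat_lit 78) (nat_lit 0) (nat_lit 0) (XT.lf (nat_lit 0) (nat_lit 17291519241) (nat_lit 152) (nat_lit 382987753890) (nat_lit 0) (nat_lit 17055106303) (nat_lit 1) (nat_lit 5) (nat_lit 3) (nat_lit 4) (nat_lit 1) (nat_lit 4) (nat_lit 355) (nat_lit 184) (nat_lit 181)) (XT.lf (nat_lit 0) (nat_lit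 18848383512) (nat_lit 152) (nat_lit 400771503880) (nat_lit 0) (nat_lit 18540549423) (nat_lit 1) (nat_lit 5) (nat_lit 3) (nat_lit 4) (nat_lit 1) (nat_lit 4) (nat_lit 356) (nat_lit 184) (nat_lit 180)))) (XT.nd (nat_lit 156) (nat_lit 0) (nat_lit 0) (XT.nd (nat_lit 78) (nat_lit 0) (nat_lit 0) (XT.lf (nat_lit 0) (nat_lit 20459800545) (nat_lit 152) (nat_lit 419485265745) (nat_lit 0) (nat_lit 20083946312) (nat_lit 1) (nat_lit 5) (nat_lit 3) (nat_lit 4) (nat_lit 1) (nat_lit 4) (nat_lit 357) (nat_lit 184) (nat_lit 179)) (XT.lf (nat_lit 0) (nat_lit 22129607047) (nat_lit 152) (nat_lit 439173596061) (nat_lit 0) (nat_lit 21688971725) (nat_lit 1) (nat_lit 5) (nat_lit 3) (nat_lit 4) (nat_lit 1) (nat_lit 4) (nat_lit 358) (nat_lit 184) (nat_lit 178))) (XT.nd (nat_lit 78) (nat_lit 0) (nat_lit 0) (XT.lf (nat_lit 0) (nat_lit 23861778749) (nat_lit 152) (nat_lit 459883371804) (nat_lit 0) (nat_lit 23359447151)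 (nat_lit 1) (nat_lit 5) (nat_lit 3) (nat_lit 4) (nat_lit 1) (nat_lit 4) (nat_lit 359) (nat_lit 184) (nat_lit 177)) (XT.lf (nat_lit 0) (nat_lit 25660439869) (nat_lit 152) (nat_lit 481663901964) (nat_lit 0) (nat_lit 25099349913) (nat_lit 1) (nat_lit 5) (nat_lit 3) (nat_lit 4) (nat_lit 1) (nat_lit 4) (nat_lit 360) (nat_lit 184) (nat_lit 176))))) (XT.nd (nat_lit 312) (nat_lit 0) (nat_lit 0) (XT.nd (nat_lit 156) (nat_lit 0) (nat_lit 0) (XT.nd (nat_lit 78) (nat_lit 0) (nat_lit 0) (XT.lf (nat_lit 0) (nat_lit 5150561653) (nat_lit 152) (nat_lit 153291890521) (nat_lit 0) (nat_lit 5150561653) (nat_lit 1) (nat_lit 5) (nat_lit 3) (nat_lit 4) (nat_lit 1) (nat_lit 4) (nat_lit 350) (nat_lit 185) (nat_lit 185)) (XT.lf (nat_lit 0) (nat_lit 11624031214) (nat_lit 152) (nat_lit 320337160031) (nat_lit 0) (nat_lit 11537218359) (nat_lit 1) (nat_lit 5) (nat_lit 3) (nat_lit 4) (nat_lit 1) (nat_lit 4) (nat_lit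 351) (nat_lit 185) (nat_lit 184))) (XT.nd (nat_lit 78) (nat_lit 0) (nat_lit 0) (XT.lf (nat_lit 0) (nat_lit 12984774830) (nat_lit 152) (nat_lit 334827830252) (nat_lit 0) (nat_lit 12815283064) (nat_lit 1) (nat_lit 5) (nat_lit 3) (nat_lit 4) (nat_lit 1) (nat_lit 4) (nat_lit 352) (nat_lit 185) (nat_lit 183)) (XT.lf (nat_lit 0) (nat_lit 14386594018) (nat_lit 152) (nat_lit 350090293302) (nat_lit 0) (nat_lit 14138360433) (nat_lit 1) (nat_lit 5) (nat_lit 3) (nat_lit 4) (nat_lit 1) (nat_lit 4) (nat_lit 353) (nat_lit 185) (nat_lit 182)))) (XT.nd (nat_lit 156) (nat_lit 0) (nat_lit 0) (XT.nd (nat_lit 78) (nat_lit 0) (nat_lit 0) (XT.lf (nat_lit 0) (nat_lit 15832826442) (nat_lit 152) (nat_lit 366160888378) (nat_lit 0) (nat_lit 15509600649) (nat_lit 1) (nat_lit 5) (nat_lit 3) (nat_lit 4) (nat_lit 1) (nat_lit 4) (nat_lit 354) (nat_lit 185) (nat_lit 181)) (XT.lf (nat_lit 0) (nat_lit 17326915515) (nat_lit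 152) (nat_lit 383077878801) (nat_lit 0) (nat_lit 16932268570) (nat_lit 1) (nat_lit 5) (nat_lit 3) (nat_lit 4) (nat_lit 1) (nat_lit 4) (nat_lit 355) (nat_lit 185) (nat_lit 180))) (XT.nd (nat_lit 78) (nat_lit 0) (nat_lit 0) (XT.lf (nat_lit 0) (nat_lit 18872418590) (nat_lit 152) (nat_lit 400881543121) (nat_lit 0) (nat_lit 18409751501) (nat_lit 1) (nat_lit 5) (nat_lit 3) (nat_lit 4) (nat_lit 1) (nat_lit 4) (nat_lit 356) (nat_lit 185) (nat_lit 179)) (XT.lf (nat_lit 0) (nat_lit 20473015436) (nat_lit 152) (nat_lit 419614271014) (nat_lit 0) (nat_lit 19945567258) (nat_lit 1) (nat_lit 5) (nat_lit 3) (nat_lit 4) (nat_lit 1) (nat_lit 4) (nat_lit 357) (nat_lit 185) (nat_lit 178))))))) (XT.nd (nat_lit 74100) (nat_lit 0) (nat_lit 0) (XT.nd (nat_lit 37128) (nat_lit 0) (nat_lit 0) (XT.nd (nat_lit 36816) (nat_lit 0) (nat_lit 0) (XT.nd (nat_lit 156) (nat_lit 0) (nat_lit 0) (XT.nd (nat_lit 78) (nat_lit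 0) (nat_lit 0) (XT.lf (nat_lit 0) (nat_lit 22132516999) (nat_lit 152) (nat_lit 439320664213) (nat_lit 0) (nat_lit 21543372546) (nat_lit 1) (nat_lit 5) (nat_lit 3) (nat_lit 4) (nat_lit 1) (nat_lit 4) (nat_lit 358) (nat_lit 185) (nat_lit 177)) (XT.lf (nat_lit 0) (nat_lit 23854874473) (nat_lit 152) (nat_lit 460047642702) (nat_lit 0) (nat_lit 23206971662) (nat_lit 1) (nat_lit 5) (nat_lit 3) (nat_lit 4) (nat_lit 1) (nat_lit 4) (nat_lit 359) (nat_lit 185) (nat_lit 176))) (XT.nd (nat_lit 36582) (nat_lit 0) (nat_lit 0) (XT.lf (nat_lit 0) (nat_lit 25644188709) (nat_lit 152) (nat_lit 481844556431) (nat_lit 0) (nat_lit 24940325557) (nat_lit 1) (nat_lit 5) (nat_lit 3) (nat_lit 4) (nat_lit 1) (nat_lit 4) (nat_lit 360) (nat_lit 185) (nat_lit 175)) (XT.lf (nat_lit 0) (nat_lit 3931338328) (nat_lit 152) (nat_lit 140566451291) (nat_lit 0) (nat_lit 3931338328) (nat_lit 1) (nat_lit 5) (nat_lit 3) (nat_lit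 4) (nat_lit 1) (nat_lit 4) (nat_lit 348) (nat_lit 186) (nat_lit 186)))) (XT.nd (nat_lit 156) (nat_lit 0) (nat_lit 0) (XT.nd (nat_lit 78) (nat_lit 0) (nat_lit 0) (XT.lf (nat_lit 0) (nat_lit 9104054821) (nat_lit 152) (nat_lit 293534947145) (nat_lit 0) (nat_lit 9012901323) (nat_lit 1) (nat_lit 5) (nat_lit 3) (nat_lit 4) (nat_lit 1) (nat_lit 4) (nat_lit 349) (nat_lit 186) (nat_lit 185)) (XT.lf (nat_lit 0) (nat_lit 10377776719) (nat_lit 152) (nat_lit 306609197333) (nat_lit 0) (nat_lit 10199810365) (nat_lit 1) (nat_lit 5) (nat_lit 3) (nat_lit 4) (nat_lit 1) (nat_lit 4) (nat_lit 350) (nat_lit 186) (nat_lit 184))) (XT.nd (nat_lit 78) (nat_lit 0) (nat_lit 0) (XT.lf (nat_lit 0) (nat_lit 11686875024) (nat_lit 152) (nat_lit 320386782314) (nat_lit 0) (nat_lit 11426229760) (nat_lit 1) (nat_lit 5) (nat_lit 3) (nat_lit 4) (nat_lit 1) (nat_lit 4) (nat_lit 351) (nat_lit 186) (nat_lit 183)) (XT.lf (nat_lit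 0) (nat_lit 13034466635) (nat_lit 152) (nat_lit 334900505861) (nat_lit 0) (nat_lit 12695079552) (nat_lit 1) (nat_lit 5) (nat_lit 3) (nat_lit 4) (nat_lit 1) (nat_lit 4) (nat_lit 352) (nat_lit 186) (nat_lit 182))))) (XT.nd (nat_lit 312) (nat_lit 0) (nat_lit 0) (XT.nd (nat_lit 156) (nat_lit 0) (nat_lit 0) (XT.nd (nat_lit 78) (nat_lit 0) (nat_lit 0) (XT.lf (nat_lit 0) (nat_lit 14423760105) (nat_lit 152) (nat_lit 350184924458) (nat_lit 0) (nat_lit 14009380813) (nat_lit 1) (nat_lit 5) (nat_lit 3) (nat_lit 4) (nat_lit 1) (nat_lit 4) (nat_lit 353) (nat_lit 186) (nat_lit 181)) (XT.lf (nat_lit 0) (nat_lit 15858063274) (nat_lit 152) (nat_lit 366276429580) (nat_lit 0) (nat_lit 15372262831) (nat_lit 1) (nat_lit 5) (nat_lit 3) (nat_lit 4) (nat_lit 1) (nat_lit 4) (nat_lit 354) (nat_lit 186) (nat_lit 180))) (XT.nd (nat_lit 78) (nat_lit 0) (nat_lit 0) (XT.lf (nat_lit 0) (nat_lit 17340791151) (nat_lit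 152) (nat_lit 383213334333) (nat_lit 0) (nat_lit 16786970564) (nat_lit 1) (nat_lit 5) (nat_lit 3) (nat_lit 4) (nat_lit 1) (nat_lit 4) (nat_lit 355) (nat_lit 186) (nat_lit 179)) (XT.lf (nat_lit 0) (nat_lit 18875474039) (nat_lit 152) (nat_lit 401035964680) (nat_lit 0) (nat_lit 18256872363) (nat_lit 1) (nat_lit 5) (nat_lit 3) (nat_lit 4) (nat_lit 1) (nat_lit 4) (nat_lit 356) (nat_lit 186) (nat_lit 178)))) (XT.nd (nat_lit 156) (nat_lit 0) (nat_lit 0) (XT.nd (nat_lit 78) (nat_lit 0) (nat_lit 0) (XT.lf (nat_lit 0) (nat_lit 20465765947) (nat_lit 152) (nat_lit 419786755457) (nat_lit 0) (nat_lit 19785467994) (nat_lit 1) (nat_lit 5) (nat_lit 3) (nat_lit 4) (nat_lit 1) (nat_lit 4) (nat_lit 357) (nat_lit 186) (nat_lit 177)) (XT.lf (nat_lit 0) (nat_lit 22115453282) (nat_lit 152) (nat_lit 439510351403) (nat_lit 0) (nat_lit 21376396972) (nat_lit 1) (nat_lit 5) (nat_lit 3) (nat_lit 4) (nat_lit 1)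 (nat_lit 4) (nat_lit 358) (nat_lit 186) (nat_lit 176))) (XT.nd (nat_lit 78) (nat_lit 0) (nat_lit 0) (XT.lf (nat_lit 0) (nat_lit 23828463872) (nat_lit 152) (nat_lit 460253713460) (nat_lit 0) (nat_lit 23033447221) (nat_lit 1) (nat_lit 5) (nat_lit 3) (nat_lit 4) (nat_lit 1) (nat_lit 4) (nat_lit 359) (nat_lit 186) (nat_lit 175)) (XT.lf (nat_lit 0) (nat_lit 25608876314) (nat_lit 152) (nat_lit 482066230587) (nat_lit 0) (nat_lit 24760564100) (nat_lit 1) (nat_lit 5) (nat_lit 3) (nat_lit 4) (nat_lit 1) (nat_lit 4) (nat_lit 360) (nat_lit 186) (nat_lit 174)))))) (XT.nd (nat_lit 624) (nat_lit 0) (nat_lit 0) (XT.nd (nat_lit 312) (nat_lit 0) (nat_lit 0) (XT.nd (nat_lit 156) (nat_lit 0) (nat_lit 0) (XT.nd (nat_lit 78) (nat_lit 0) (nat_lit 0) (XT.lf (nat_lit 0) (nat_lit 2788448187) (nat_lit 152) (nat_lit 129100412172) (nat_lit 0) (nat_lit 2788448187) (nat_lit 1) (nat_lit 5) (nat_lit 3) (nat_lit 4)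 (nat_lit 1) (nat_lit 4) (nat_lit 346) (nat_lit 187) (nat_lit 187)) (XT.lf (nat_lit 0) (nat_lit 6746397740) (nat_lit 152) (nat_lit 269373534967) (nat_lit 0) (nat_lit 6650686566) (nat_lit 1) (nat_lit 5) (nat_lit 3) (nat_lit 4) (nat_lit 1) (nat_lit 4) (nat_lit 347) (nat_lit 187) (nat_lit 186))) (XT.nd (nat_lit 78) (nat_lit 0) (nat_lit 0) (XT.lf (nat_lit 0) (nat_lit 7943162742) (nat_lit 152) (nat_lit 281159589688) (nat_lit 0) (nat_lit 7756298070) (nat_lit 1) (nat_lit 5) (nat_lit 3) (nat_lit 4) (nat_lit 1) (nat_lit 4) (nat_lit 348) (nat_lit 187) (nat_lit 185)) (XT.lf (nat_lit 0) (nat_lit 9170040821) (nat_lit 152) (nat_lit 293587050542) (nat_lit 0) (nat_lit 8896363294) (nat_lit 1) (nat_lit 5) (nat_lit 3) (nat_lit 4) (nat_lit 1) (nat_lit 4) (nat_lit 349) (nat_lit 187) (nat_lit 184)))) (XT.nd (nat_lit 156) (nat_lit 0) (nat_lit 0) (XT.nd (nat_lit 78) (nat_lit 0) (nat_lit 0) (XT.lf (nat_lit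 0) (nat_lit 10429953115) (nat_lit 152) (nat_lit 306685506722) (nat_lit 0) (nat_lit 10073596678) (nat_lit 1) (nat_lit 5) (nat_lit 3) (nat_lit 4) (nat_lit 1) (nat_lit 4) (nat_lit 350) (nat_lit 187) (nat_lit 183)) (XT.lf (nat_lit 0) (nat_lit 11725899416) (nat_lit 152) (nat_lit 320486145028) (nat_lit 0) (nat_lit 11290801159) (nat_lit 1) (nat_lit 5) (nat_lit 3) (nat_lit 4) (nat_lit 1) (nat_lit 4) (nat_lit 351) (nat_lit 187) (nat_lit 182))) (XT.nd (nat_lit 78) (nat_lit 0) (nat_lit 0) (XT.lf (nat_lit 0) (nat_lit 13060965309) (nat_lit 152) (nat_lit 335021824123) (nat_lit 0) (nat_lit 12550874843) (nat_lit 1) (nat_lit 5) (nat_lit 3) (nat_lit 4) (nat_lit 1) (nat_lit 4) (nat_lit 352) (nat_lit 187) (nat_lit 181)) (XT.lf (nat_lit 0) (nat_lit 14438329523) (nat_lit 152) (nat_lit 350327152767) (nat_lit 0) (nat_lit 13856817906) (nat_lit 1) (nat_lit 5) (nat_lit 3) (nat_lit 4) (nat_lit 1) (nat_lit 4)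 (nat_lit 353) (nat_lit 187) (nat_lit 180))))) (XT.nd (nat_lit 312) (nat_lit 0) (nat_lit 0) (XT.nd (nat_lit 156) (nat_lit 0) (nat_lit 0) (XT.nd (nat_lit 78) (nat_lit 0) (nat_lit 0) (XT.lf (nat_lit 0) (nat_lit 15861271496) (nat_lit 152) (nat_lit 366438572218) (nat_lit 0) (nat_lit 15211739736) (nat_lit 1) (nat_lit 5) (nat_lit 3) (nat_lit 4) (nat_lit 1) (nat_lit 4) (nat_lit 354) (nat_lit 187) (nat_lit 179)) (XT.lf (nat_lit 0) (nat_lit 17333179187) (nat_lit 152) (nat_lit 383394442998) (nat_lit 0) (nat_lit 16618866337) (nat_lit 1) (nat_lit 5) (nat_lit 3) (nat_lit 4) (nat_lit 1) (nat_lit 4) (nat_lit 355) (nat_lit 187) (nat_lit 178))) (XT.nd (nat_lit 78) (nat_lit 0) (nat_lit 0) (XT.lf (nat_lit 0) (nat_lit 18857557136) (nat_lit 152) (nat_lit 401235136230) (nat_lit 0) (nat_lit 18081548010) (nat_lit 1) (nat_lit 5) (nat_lit 3) (nat_lit 4) (nat_lit 1) (nat_lit 4) (nat_lit 356) (nat_lit 187) (nat_lit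 177)) (XT.lf (nat_lit 0) (nat_lit 20438034815) (nat_lit 152) (nat_lit 420003129753) (nat_lit 0) (nat_lit 19603267332) (nat_lit 1) (nat_lit 5) (nat_lit 3) (nat_lit 4) (nat_lit 1) (nat_lit 4) (nat_lit 357) (nat_lit 187) (nat_lit 176)))) (XT.nd (nat_lit 156) (nat_lit 0) (nat_lit 0) (XT.nd (nat_lit 78) (nat_lit 0) (nat_lit 0) (XT.lf (nat_lit 0) (nat_lit 22078375267) (nat_lit 152) (nat_lit 439743109267) (nat_lit 0) (nat_lit 21187647442) (nat_lit 1) (nat_lit 5) (nat_lit 3) (nat_lit 4) (nat_lit 1) (nat_lit 4) (nat_lit 358) (nat_lit 187) (nat_lit 175)) (XT.lf (nat_lit 0) (nat_lit 23782484063) (nat_lit 152) (nat_lit 460502074722) (nat_lit 0) (nat_lit 22838460676) (nat_lit 1) (nat_lit 5) (nat_lit 3) (nat_lit 4) (nat_lit 1) (nat_lit 4) (nat_lit 359) (nat_lit 187) (nat_lit 174))) (XT.nd (nat_lit 36270) (nat_lit 0) (nat_lit 0) (XT.lf (nat_lit 0) (nat_lit 25554418606) (nat_lit 152) (nat_lit 482329452228)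 (nat_lit 0) (nat_lit 24559637540) (nat_lit 1) (nat_lit 5) (nat_lit 3) (nat_lit 4) (nat_lit 1) (nat_lit 4) (nat_lit 360) (nat_lit 187) (nat_lit 173)) (XT.lf (nat_lit 0) (nat_lit 1712943559) (nat_lit 152) (nat_lit 118780501549) (nat_lit 0) (nat_lit 1712943559) (nat_lit 1) (nat_lit 5) (nat_lit 3) (nat_lit 4) (nat_lit 1) (nat_lit 4) (nat_lit 344) (nat_lit 188) (nat_lit 188))))))))
noncomputable def xc1 : XT := (XT.nd (nat_lit 37284) (nat_lit 0) (nat_lit 0) (XT.nd (nat_lit 624) (nat_lit 0) (nat_lit 0) (XT.nd (nat_lit 312) (nat_lit 0) (nat_lit 0) (XT.nd (nat_lit 156) (nat_lit 0) (nat_lit 0) (XT.nd (nat_lit 78) (nat_lit 0) (nat_lit 0) (XT.lf (nat_lit 0) (nat_lit 4532370849) (nat_lit 152) (nat_lit 247614856128) (nat_lit 0) (nat_lit 4431874117) (nat_lit 1) (nat_lit 5) (nat_lit 3) (nat_lit 4) (nat_lit 1) (nat_lit 4) (nat_lit 345) (nat_lit 188) (nat_lit 187)) (XT.lf (nat_lit 0) (nat_lit 5661406763)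 (nat_lit 152) (nat_lit 258228845806) (nat_lit 0) (nat_lit 5465198857) (nat_lit 1) (nat_lit 5) (nat_lit 3) (nat_lit 4) (nat_lit 1) (nat_lit 4) (nat_lit 346) (nat_lit 188) (nat_lit 186))) (XT.nd (nat_lit 78) (nat_lit 0) (nat_lit 0) (XT.lf (nat_lit 0) (nat_lit 6815683040) (nat_lit 152) (nat_lit 269428243534) (nat_lit 0) (nat_lit 6528321636) (nat_lit 1) (nat_lit 5) (nat_lit 3) (nat_lit 4) (nat_lit 1) (nat_lit 4) (nat_lit 347) (nat_lit 188) (nat_lit 185)) (XT.lf (nat_lit 0) (nat_lit 7997947957) (nat_lit 152) (nat_lit 281239714546) (nat_lit 0) (nat_lit 7623773698) (nat_lit 1) (nat_lit 5) (nat_lit 3) (nat_lit 4) (nat_lit 1) (nat_lit 4) (nat_lit 348) (nat_lit 188) (nat_lit 184)))) (XT.nd (nat_lit 156) (nat_lit 0) (nat_lit 0) (XT.nd (nat_lit 78) (nat_lit 0) (nat_lit 0) (XT.lf (nat_lit 0) (nat_lit 9211016432) (nat_lit 152) (nat_lit 293691381392) (nat_lit 0) (nat_lit 8754163263) (nat_lit 1)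 (nat_lit 5) (nat_lit 3) (nat_lit 4) (nat_lit 1) (nat_lit 4) (nat_lit 349) (nat_lit 188) (nat_lit 183)) (XT.lf (nat_lit 0) (nat_lit 10457776722) (nat_lit 152) (nat_lit 306812890898) (nat_lit 0) (nat_lit 9922181734) (nat_lit 1) (nat_lit 5) (nat_lit 3) (nat_lit 4) (nat_lit 1) (nat_lit 4) (nat_lit 350) (nat_lit 188) (nat_lit 182))) (XT.nd (nat_lit 78) (nat_lit 0) (nat_lit 0) (XT.lf (nat_lit 0) (nat_lit 11741197304) (nat_lit 152) (nat_lit 320635484752) (nat_lit 0) (nat_lit 11130610107) (nat_lit 1) (nat_lit 5) (nat_lit 3) (nat_lit 4) (nat_lit 1) (nat_lit 4) (nat_lit 351) (nat_lit 188) (nat_lit 181)) (XT.lf (nat_lit 0) (nat_lit 13064333942) (nat_lit 152) (nat_lit 335192073893) (nat_lit 0) (nat_lit 12382325593) (nat_lit 1) (nat_lit 5) (nat_lit 3) (nat_lit 4) (nat_lit 1) (nat_lit 4) (nat_lit 352) (nat_lit 188) (nat_lit 180))))) (XT.nd (nat_lit 312) (nat_lit 0) (nat_lit 0) (XT.nd (nat_lit 156)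 (nat_lit 0) (nat_lit 0) (XT.nd (nat_lit 78) (nat_lit 0) (nat_lit 0) (XT.lf (nat_lit 0) (nat_lit 14430336960) (nat_lit 152) (nat_lit 350517316866) (nat_lit 0) (nat_lit 13680308468) (nat_lit 1) (nat_lit 5) (nat_lit 3) (nat_lit 4) (nat_lit 1) (nat_lit 4) (nat_lit 353) (nat_lit 188) (nat_lit 179)) (XT.lf (nat_lit 0) (nat_lit 15842458748) (nat_lit 152) (nat_lit 366647702345) (nat_lit 0) (nat_lit 15027649166) (nat_lit 1) (nat_lit 5) (nat_lit 3) (nat_lit 4) (nat_lit 1) (nat_lit 4) (nat_lit 354) (nat_lit 188) (nat_lit 178))) (XT.nd (nat_lit 78) (nat_lit 0) (nat_lit 0) (XT.lf (nat_lit 0) (nat_lit 17304061499) (nat_lit 152) (nat_lit 383621636009) (nat_lit 0) (nat_lit 16427555641) (nat_lit 1) (nat_lit 5) (nat_lit 3) (nat_lit 4) (nat_lit 1) (nat_lit 4) (nat_lit 355) (nat_lit 188) (nat_lit 177)) (XT.lf (nat_lit 0) (nat_lit 18818625220) (nat_lit 152) (nat_lit 401479531987) (nat_lit 0) (nat_lit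 17883361004) (nat_lit 1) (nat_lit 5) (nat_lit 3) (nat_lit 4) (nat_lit 1) (nat_lit 4) (nat_lit 356) (nat_lit 188) (nat_lit 176)))) (XT.nd (nat_lit 156) (nat_lit 0) (nat_lit 0) (XT.nd (nat_lit 78) (nat_lit 0) (nat_lit 0) (XT.lf (nat_lit 0) (nat_lit 20389756015) (nat_lit 152) (nat_lit 420263909078) (nat_lit 0) (nat_lit 19398531459) (nat_lit 1) (nat_lit 5) (nat_lit 3) (nat_lit 4) (nat_lit 1) (nat_lit 4) (nat_lit 357) (nat_lit 188) (nat_lit 175)) (XT.lf (nat_lit 0) (nat_lit 22021194673) (nat_lit 152) (nat_lit 440019491990) (nat_lit 0) (nat_lit 20976674554) (nat_lit 1) (nat_lit 5) (nat_lit 3) (nat_lit 4) (nat_lit 1) (nat_lit 4) (nat_lit 358) (nat_lit 188) (nat_lit 174))) (XT.nd (nat_lit 78) (nat_lit 0) (nat_lit 0) (XT.lf (nat_lit 0) (nat_lit 23716825570) (nat_lit 152) (nat_lit 460793317824) (nat_lit 0) (nat_lit 22621547772) (nat_lit 1) (nat_lit 5) (nat_lit 3) (nat_lit 4) (nat_lit 1) (nat_lit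 4) (nat_lit 359) (nat_lit 188) (nat_lit 173)) (XT.lf (nat_lit 0) (nat_lit 25480685923) (nat_lit 152) (nat_lit 482634848072) (nat_lit 0) (nat_lit 24337067479) (nat_lit 1) (nat_lit 5) (nat_lit 3) (nat_lit 4) (nat_lit 1) (nat_lit 4) (nat_lit 360) (nat_lit 188) (nat_lit 172)))))) (XT.nd (nat_lit 624) (nat_lit 0) (nat_lit 0) (XT.nd (nat_lit 312) (nat_lit 0) (nat_lit 0) (XT.nd (nat_lit 156) (nat_lit 0) (nat_lit 0) (XT.nd (nat_lit 78) (nat_lit 0) (nat_lit 0) (XT.lf (nat_lit 0) (nat_lit 696616100) (nat_lit 152) (nat_lit 109504169500) (nat_lit 0) (nat_lit 696616100) (nat_lit 1) (nat_lit 5) (nat_lit 3) (nat_lit 4) (nat_lit 1) (nat_lit 4) (nat_lit 342) (nat_lit 189) (nat_lit 189)) (XT.lf (nat_lit 0) (nat_lit 2444842654) (nat_lit 152) (nat_lit 228043348969) (nat_lit 0) (nat_lit 2339321086) (nat_lit 1) (nat_lit 5) (nat_lit 3) (nat_lit 4) (nat_lit 1) (nat_lit 4) (nat_lit 343) (nat_lit 189) (nat_lit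 188))) (XT.nd (nat_lit 78) (nat_lit 0) (nat_lit 0) (XT.lf (nat_lit 0) (nat_lit 3514623027) (nat_lit 152) (nat_lit 237590425632) (nat_lit 0) (nat_lit 3308604726) (nat_lit 1) (nat_lit 5) (nat_lit 3) (nat_lit 4) (nat_lit 1) (nat_lit 4) (nat_lit 344) (nat_lit 189) (nat_lit 187)) (XT.lf (nat_lit 0) (nat_lit 4605120414) (nat_lit 152) (nat_lit 247672300124) (nat_lit 0) (nat_lit 4303390940) (nat_lit 1) (nat_lit 5) (nat_lit 3) (nat_lit 4) (nat_lit 1) (nat_lit 4) (nat_lit 345) (nat_lit 189) (nat_lit 186)))) (XT.nd (nat_lit 156) (nat_lit 0) (nat_lit 0) (XT.nd (nat_lit 78) (nat_lit 0) (nat_lit 0) (XT.lf (nat_lit 0) (nat_lit 5718931239) (nat_lit 152) (nat_lit 258312976907) (nat_lit 0) (nat_lit 5326048266) (nat_lit 1) (nat_lit 5) (nat_lit 3) (nat_lit 4) (nat_lit 1) (nat_lit 4) (nat_lit 346) (nat_lit 189) (nat_lit 185)) (XT.lf (nat_lit 0) (nat_lit 6858707431) (nat_lit 152) (nat_lit 269537790927)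 (nat_lit 0) (nat_lit 6379011603) (nat_lit 1) (nat_lit 5) (nat_lit 3) (nat_lit 4) (nat_lit 1) (nat_lit 4) (nat_lit 347) (nat_lit 189) (nat_lit 184))) (XT.nd (nat_lit 78) (nat_lit 0) (nat_lit 0) (XT.lf (nat_lit 0) (nat_lit 8027162745) (nat_lit 152) (nat_lit 281373467931) (nat_lit 0) (nat_lit 7464788007) (nat_lit 1) (nat_lit 5) (nat_lit 3) (nat_lit 4) (nat_lit 1) (nat_lit 4) (nat_lit 348) (nat_lit 189) (nat_lit 183)) (XT.lf (nat_lit 0) (nat_lit 9227079215) (nat_lit 152) (nat_lit 293848188102) (nat_lit 0) (nat_lit 8585962658) (nat_lit 1) (nat_lit 5) (nat_lit 3) (nat_lit 4) (nat_lit 1) (nat_lit 4) (nat_lit 349) (nat_lit 189) (nat_lit 182))))) (XT.nd (nat_lit 312) (nat_lit 0) (nat_lit 0) (XT.nd (nat_lit 156) (nat_lit 0) (nat_lit 0) (XT.nd (nat_lit 78) (nat_lit 0) (nat_lit 0) (XT.lf (nat_lit 0) (nat_lit 10461313787) (nat_lit 152) (nat_lit 306991653156) (nat_lit 0) (nat_lit 9745205021) (nat_lit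 1) (nat_lit 5) (nat_lit 3) (nat_lit 4) (nat_lit 1) (nat_lit 4) (nat_lit 350) (nat_lit 189) (nat_lit 181)) (XT.lf (nat_lit 0) (nat_lit 11732805114) (nat_lit 152) (nat_lit 320835157056) (nat_lit 0) (nat_lit 10945275197) (nat_lit 1) (nat_lit 5) (nat_lit 3) (nat_lit 4) (nat_lit 1) (nat_lit 4) (nat_lit 351) (nat_lit 189) (nat_lit 180))) (XT.nd (nat_lit 78) (nat_lit 0) (nat_lit 0) (XT.lf (nat_lit 0) (nat_lit 13044580556) (nat_lit 152) (nat_lit 335411660526) (nat_lit 0) (nat_lit 12189030495) (nat_lit 1) (nat_lit 5) (nat_lit 3) (nat_lit 4) (nat_lit 1) (nat_lit 4) (nat_lit 352) (nat_lit 189) (nat_lit 179)) (XT.lf (nat_lit 0) (nat_lit 14399763388) (nat_lit 152) (nat_lit 350755869527) (nat_lit 0) (nat_lit 13479432237) (nat_lit 1) (nat_lit 5) (nat_lit 3) (nat_lit 4) (nat_lit 1) (nat_lit 4) (nat_lit 353) (nat_lit 189) (nat_lit 178)))) (XT.nd (nat_lit 156) (nat_lit 0) (nat_lit 0) (XT.nd (nat_lit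 78) (nat_lit 0) (nat_lit 0) (XT.lf (nat_lit 0) (nat_lit 15801580236) (nat_lit 152) (nat_lit 366904317889) (nat_lit 0) (nat_lit 14819552810) (nat_lit 1) (nat_lit 5) (nat_lit 3) (nat_lit 4) (nat_lit 1) (nat_lit 4) (nat_lit 354) (nat_lit 189) (nat_lit 177)) (XT.lf (nat_lit 0) (nat_lit 17253368759) (nat_lit 152) (nat_lit 383895454300) (nat_lit 0) (nat_lit 16212582975) (nat_lit 1) (nat_lit 5) (nat_lit 3) (nat_lit 4) (nat_lit 1) (nat_lit 4) (nat_lit 355) (nat_lit 189) (nat_lit 176))) (XT.nd (nat_lit 78) (nat_lit 0) (nat_lit 0) (XT.lf (nat_lit 0) (nat_lit 18758585596) (nat_lit 152) (nat_lit 401769733846) (nat_lit 0) (nat_lit 17661839471) (nat_lit 1) (nat_lit 5) (nat_lit 3) (nat_lit 4) (nat_lit 1) (nat_lit 4) (nat_lit 356) (nat_lit 189) (nat_lit 175)) (XT.lf (nat_lit 0) (nat_lit 20320814598) (nat_lit 152) (nat_lit 420569714335) (nat_lit 0) (nat_lit 19170772910) (nat_lit 1) (nat_lit 5) (nat_lit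 3) (nat_lit 4) (nat_lit 1) (nat_lit 4) (nat_lit 357) (nat_lit 189) (nat_lit 174)))))))
noncomputable def xc2 : XT := (XT.nd (nat_lit 37128) (nat_lit 0) (nat_lit 0) (XT.nd (nat_lit 36504) (nat_lit 0) (nat_lit 0) (XT.nd (nat_lit 36192) (nat_lit 0) (nat_lit 0) (XT.nd (nat_lit 156) (nat_lit 0) (nat_lit 0) (XT.nd (nat_lit 78) (nat_lit 0) (nat_lit 0) (XT.lf (nat_lit 0) (nat_lit 21943775356) (nat_lit 152) (nat_lit 440340157626) (nat_lit 0) (nat_lit 20742975990) (nat_lit 1) (nat_lit 5) (nat_lit 3) (nat_lit 4) (nat_lit 1) (nat_lit 4) (nat_lit 358) (nat_lit 189) (nat_lit 173)) (XT.lf (nat_lit 0) (nat_lit 23631332063) (nat_lit 152) (nat_lit 461128136203) (nat_lit 0) (nat_lit 22382192051) (nat_lit 1) (nat_lit 5) (nat_lit 3) (nat_lit 4) (nat_lit 1) (nat_lit 4) (nat_lit 359) (nat_lit 189) (nat_lit 172))) (XT.nd (nat_lit 35958) (nat_lit 0) (nat_lit 152) (XT.lf (nat_lit 0) (nat_lit 25387502712) (nat_lit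 152) (nat_lit 482983145253) (nat_lit 0) (nat_lit 24092323989) (nat_lit 1) (nat_lit 5) (nat_lit 3) (nat_lit 4) (nat_lit 1) (nat_lit 4) (nat_lit 360) (nat_lit 189) (nat_lit 171)) (XT.lf (nat_lit 0) (nat_lit 100114097696) (nat_lit 76) (nat_lit 263752758) (nat_lit 76) (nat_lit 263752758) (nat_lit 3) (nat_lit 4) (nat_lit 4) (nat_lit 5) (nat_lit 4) (nat_lit 4) (nat_lit 340) (nat_lit 190) (nat_lit 190)))) (XT.nd (nat_lit 156) (nat_lit 0) (nat_lit 0) (XT.nd (nat_lit 78) (nat_lit 0) (nat_lit 0) (XT.lf (nat_lit 0) (nat_lit 468085479) (nat_lit 152) (nat_lit 210463883795) (nat_lit 0) (nat_lit 357287832) (nat_lit 1) (nat_lit 5) (nat_lit 3) (nat_lit 4) (nat_lit 1) (nat_lit 4) (nat_lit 341) (nat_lit 190) (nat_lit 189)) (XT.lf (nat_lit 0) (nat_lit 1486404905) (nat_lit 152) (nat_lit 219039232661) (nat_lit 0) (nat_lit 1270085689) (nat_lit 1) (nat_lit 5) (nat_lit 3) (nat_lit 4) (nat_lit 1) (nat_lit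 4) (nat_lit 342) (nat_lit 190) (nat_lit 188))) (XT.nd (nat_lit 78) (nat_lit 0) (nat_lit 0) (XT.lf (nat_lit 0) (nat_lit 2521229698) (nat_lit 152) (nat_lit 228103665164) (nat_lit 0) (nat_lit 2204413750) (nat_lit 1) (nat_lit 5) (nat_lit 3) (nat_lit 4) (nat_lit 1) (nat_lit 4) (nat_lit 343) (nat_lit 190) (nat_lit 187)) (XT.lf (nat_lit 0) (nat_lit 3575023727) (nat_lit 152) (nat_lit 237678763289) (nat_lit 0) (nat_lit 3162496606) (nat_lit 1) (nat_lit 5) (nat_lit 3) (nat_lit 4) (nat_lit 1) (nat_lit 4) (nat_lit 344) (nat_lit 190) (nat_lit 186))))) (XT.nd (nat_lit 312) (nat_lit 0) (nat_lit 0) (XT.nd (nat_lit 156) (nat_lit 0) (nat_lit 0) (XT.nd (nat_lit 78) (nat_lit 0) (nat_lit 0) (XT.lf (nat_lit 0) (nat_lit 4650296025) (nat_lit 152) (nat_lit 247787324886) (nat_lit 0) (nat_lit 4146615406) (nat_lit 1) (nat_lit 5) (nat_lit 3) (nat_lit 4) (nat_lit 1) (nat_lit 4) (nat_lit 345) (nat_lit 190) (nat_lit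 185)) (XT.lf (nat_lit 0) (nat_lit 5749606765) (nat_lit 152) (nat_lit 258453417961) (nat_lit 0) (nat_lit 5159113291) (nat_lit 1) (nat_lit 5) (nat_lit 3) (nat_lit 4) (nat_lit 1) (nat_lit 4) (nat_lit 346) (nat_lit 190) (nat_lit 184))) (XT.nd (nat_lit 78) (nat_lit 0) (nat_lit 0) (XT.lf (nat_lit 0) (nat_lit 6875573354) (nat_lit 152) (nat_lit 269702437972) (nat_lit 0) (nat_lit 6202400969) (nat_lit 1) (nat_lit 5) (nat_lit 3) (nat_lit 4) (nat_lit 1) (nat_lit 4) (nat_lit 347) (nat_lit 190) (nat_lit 183)) (XT.lf (nat_lit 0) (nat_lit 8030876663) (nat_lit 152) (nat_lit 281561168302) (nat_lit 0) (nat_lit 7278962459) (nat_lit 1) (nat_lit 5) (nat_lit 3) (nat_lit 4) (nat_lit 1) (nat_lit 4) (nat_lit 348) (nat_lit 190) (nat_lit 182)))) (XT.nd (nat_lit 156) (nat_lit 0) (nat_lit 0) (XT.nd (nat_lit 78) (nat_lit 0) (nat_lit 0) (XT.lf (nat_lit 0) (nat_lit 9218267415) (nat_lit 152) (nat_lit 294057844021)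 (nat_lit 0) (nat_lit 8391361003) (nat_lit 1) (nat_lit 5) (nat_lit 3) (nat_lit 4) (nat_lit 1) (nat_lit 4) (nat_lit 349) (nat_lit 190) (nat_lit 181)) (XT.lf (nat_lit 0) (nat_lit 10440572732) (nat_lit 152) (nat_lit 307222219121) (nat_lit 0) (nat_lit 9542245168) (nat_lit 1) (nat_lit 5) (nat_lit 3) (nat_lit 4) (nat_lit 1) (nat_lit 4) (nat_lit 350) (nat_lit 190) (nat_lit 180))) (XT.nd (nat_lit 78) (nat_lit 0) (nat_lit 0) (XT.lf (nat_lit 0) (nat_lit 11700702863) (nat_lit 152) (nat_lit 321085637350) (nat_lit 0) (nat_lit 10734355155) (nat_lit 1) (nat_lit 5) (nat_lit 3) (nat_lit 4) (nat_lit 1) (nat_lit 4) (nat_lit 351) (nat_lit 190) (nat_lit 179)) (XT.lf (nat_lit 0) (nat_lit 13001658118) (nat_lit 152) (nat_lit 335681106848) (nat_lit 0) (nat_lit 11970529321) (nat_lit 1) (nat_lit 5) (nat_lit 3) (nat_lit 4) (nat_lit 1) (nat_lit 4) (nat_lit 352) (nat_lit 190) (nat_lit 178)))))) (XT.nd (nat_lit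 36348) (nat_lit 0) (nat_lit 0) (XT.nd (nat_lit 312) (nat_lit 0) (nat_lit 0) (XT.nd (nat_lit 156) (nat_lit 0) (nat_lit 0) (XT.nd (nat_lit 78) (nat_lit 0) (nat_lit 0) (XT.lf (nat_lit 0) (nat_lit 14346536011) (nat_lit 152) (nat_lit 351043378733) (nat_lit 0) (nat_lit 13253710938) (nat_lit 1) (nat_lit 5) (nat_lit 3) (nat_lit 4) (nat_lit 1) (nat_lit 4) (nat_lit 353) (nat_lit 190) (nat_lit 177)) (XT.lf (nat_lit 0) (nat_lit 15738538631) (nat_lit 152) (nat_lit 367209029842) (nat_lit 0) (nat_lit 14586955200) (nat_lit 1) (nat_lit 5) (nat_lit 3) (nat_lit 4) (nat_lit 1) (nat_lit 4) (nat_lit 354) (nat_lit 190) (nat_lit 176))) (XT.nd (nat_lit 78) (nat_lit 0) (nat_lit 0) (XT.lf (nat_lit 0) (nat_lit 17180980270) (nat_lit 152) (nat_lit 384216549820) (nat_lit 0) (nat_lit 15973436499) (nat_lit 1) (nat_lit 5) (nat_lit 3) (nat_lit 4) (nat_lit 1) (nat_lit 4) (nat_lit 355) (nat_lit 190) (nat_lit 175)) (XT.lf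 (nat_lit 0) (nat_lit 18677295314) (nat_lit 152) (nat_lit 402106432764) (nat_lit 0) (nat_lit 17416455979) (nat_lit 1) (nat_lit 5) (nat_lit 3) (nat_lit 4) (nat_lit 1) (nat_lit 4) (nat_lit 356) (nat_lit 190) (nat_lit 174)))) (XT.nd (nat_lit 156) (nat_lit 0) (nat_lit 0) (XT.nd (nat_lit 78) (nat_lit 0) (nat_lit 0) (XT.lf (nat_lit 0) (nat_lit 20231046416) (nat_lit 152) (nat_lit 420921273633) (nat_lit 0) (nat_lit 18919449403) (nat_lit 1) (nat_lit 5) (nat_lit 3) (nat_lit 4) (nat_lit 1) (nat_lit 4) (nat_lit 357) (nat_lit 190) (nat_lit 173)) (XT.lf (nat_lit 0) (nat_lit 21845932985) (nat_lit 152) (nat_lit 440705869666) (nat_lit 0) (nat_lit 20485995325) (nat_lit 1) (nat_lit 5) (nat_lit 3) (nat_lit 4) (nat_lit 1) (nat_lit 4) (nat_lit 358) (nat_lit 190) (nat_lit 172))) (XT.nd (nat_lit 78) (nat_lit 0) (nat_lit 0) (XT.lf (nat_lit 0) (nat_lit 23525799988) (nat_lit 152) (nat_lit 461507327044) (nat_lit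 0) (nat_lit 22119823617) (nat_lit 1) (nat_lit 5) (nat_lit 3) (nat_lit 4) (nat_lit 1) (nat_lit 4) (nat_lit 359) (nat_lit 190) (nat_lit 171)) (XT.lf (nat_lit 0) (nat_lit 25274647108) (nat_lit 152) (nat_lit 483375173048) (nat_lit 0) (nat_lit 23824824347) (nat_lit 1) (nat_lit 5) (nat_lit 3) (nat_lit 4) (nat_lit 1) (nat_lit 4) (nat_lit 360) (nat_lit 190) (nat_lit 170))))) (XT.nd (nat_lit 312) (nat_lit 0) (nat_lit 0) (XT.nd (nat_lit 156) (nat_lit 152) (nat_lit 0) (XT.nd (nat_lit 78) (nat_lit 0) (nat_lit 0) (XT.lf (nat_lit 0) (nat_lit 89002091772) (nat_lit 76) (nat_lit 1168915120) (nat_lit 76) (nat_lit 1168915120) (nat_lit 3) (nat_lit 4) (nat_lit 4) (nat_lit 5) (nat_lit 4) (nat_lit 4) (nat_lit 338) (nat_lit 191) (nat_lit 191)) (XT.lf (nat_lit 0) (nat_lit 188860555673) (nat_lit 76) (nat_lit 1507892183) (nat_lit 76) (nat_lit 1385737777) (nat_lit 3) (nat_lit 4) (nat_lit 4) (nat_lit 5) (nat_lit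 4) (nat_lit 4) (nat_lit 339) (nat_lit 191) (nat_lit 190))) (XT.nd (nat_lit 78) (nat_lit 152) (nat_lit 0) (XT.lf (nat_lit 0) (nat_lit 200198146807) (nat_lit 76) (nat_lit 662233923) (nat_lit 76) (nat_lit 423741988) (nat_lit 3) (nat_lit 4) (nat_lit 4) (nat_lit 5) (nat_lit 4) (nat_lit 4) (nat_lit 340) (nat_lit 191) (nat_lit 189)) (XT.lf (nat_lit 0) (nat_lit 548291874) (nat_lit 152) (nat_lit 210527215800) (nat_lit 0) (nat_lit 215635129) (nat_lit 1) (nat_lit 5) (nat_lit 3) (nat_lit 4) (nat_lit 1) (nat_lit 4) (nat_lit 341) (nat_lit 191) (nat_lit 188)))) (XT.nd (nat_lit 156) (nat_lit 0) (nat_lit 0) (XT.nd (nat_lit 78) (nat_lit 0) (nat_lit 0) (XT.lf (nat_lit 0) (nat_lit 1549825640) (nat_lit 152) (nat_lit 219131987200) (nat_lit 0) (nat_lit 1116672163) (nat_lit 1) (nat_lit 5) (nat_lit 3) (nat_lit 4) (nat_lit 1) (nat_lit 4) (nat_lit 342) (nat_lit 191) (nat_lit 187)) (XT.lf (nat_lit 0) (nat_lit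 2568664089) (nat_lit 152) (nat_lit 228224441165) (nat_lit 0) (nat_lit 2039799439) (nat_lit 1) (nat_lit 5) (nat_lit 3) (nat_lit 4) (nat_lit 1) (nat_lit 4) (nat_lit 343) (nat_lit 191) (nat_lit 186))) (XT.nd (nat_lit 78) (nat_lit 0) (nat_lit 0) (XT.lf (nat_lit 0) (nat_lit 3607233030) (nat_lit 152) (nat_lit 237826226395) (nat_lit 0) (nat_lit 2987214881) (nat_lit 1) (nat_lit 5) (nat_lit 3) (nat_lit 4) (nat_lit 1) (nat_lit 4) (nat_lit 344) (nat_lit 191) (nat_lit 185)) (XT.nd (nat_lit 78) (nat_lit 0) (nat_lit 0) (XT.lf (nat_lit 0) (nat_lit 4668005244) (nat_lit 152) (nat_lit 247960204284) (nat_lit 0) (nat_lit 3961174239) (nat_lit 1) (nat_lit 5) (nat_lit 3) (nat_lit 4) (nat_lit 1) (nat_lit 4) (nat_lit 345) (nat_lit 191) (nat_lit 184)) (XT.lf (nat_lit 0) (nat_lit 5753506380) (nat_lit 152) (nat_lit 258650503350) (nat_lit 0) (nat_lit 4963996465) (nat_lit 1) (nat_lit 5) (nat_lit 3) (nat_lit 4)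 (nat_lit 1) (nat_lit 4) (nat_lit 346) (nat_lit 191) (nat_lit 183))))))))
noncomputable def xc3 : XT := (XT.nd (nat_lit 38064) (nat_lit 0) (nat_lit 0) (XT.nd (nat_lit 36816) (nat_lit 0) (nat_lit 0) (XT.nd (nat_lit 624) (nat_lit 0) (nat_lit 0) (XT.nd (nat_lit 312) (nat_lit 0) (nat_lit 0) (XT.nd (nat_lit 156) (nat_lit 0) (nat_lit 0) (XT.nd (nat_lit 78) (nat_lit 0) (nat_lit 0) (XT.lf (nat_lit 0) (nat_lit 6866320964) (nat_lit 152) (nat_lit 269922576687) (nat_lit 0) (nat_lit 5998069230) (nat_lit 1) (nat_lit 5) (nat_lit 3) (nat_lit 4) (nat_lit 1) (nat_lit 4) (nat_lit 347) (nat_lit 191) (nat_lit 182)) (XT.lf (nat_lit 0) (nat_lit 8009098555) (nat_lit 152) (nat_lit 281803262565) (nat_lit 0) (nat_lit 7065854613) (nat_lit 1) (nat_lit 5) (nat_lit 3) (nat_lit 4) (nat_lit 1) (nat_lit 4) (nat_lit 348) (nat_lit 191) (nat_lit 181))) (XT.nd (nat_lit 78) (nat_lit 0) (nat_lit 0) (XT.lf (nat_lit 0) (nat_lit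 9184560052) (nat_lit 152) (nat_lit 294320848330) (nat_lit 0) (nat_lit 8169894958) (nat_lit 1) (nat_lit 5) (nat_lit 3) (nat_lit 4) (nat_lit 1) (nat_lit 4) (nat_lit 349) (nat_lit 191) (nat_lit 180)) (XT.lf (nat_lit 0) (nat_lit 10395504173) (nat_lit 152) (nat_lit 307505137759) (nat_lit 0) (nat_lit 9312818935) (nat_lit 1) (nat_lit 5) (nat_lit 3) (nat_lit 4) (nat_lit 1) (nat_lit 4) (nat_lit 350) (nat_lit 191) (nat_lit 179)))) (XT.nd (nat_lit 156) (nat_lit 0) (nat_lit 0) (XT.nd (nat_lit 78) (nat_lit 0) (nat_lit 0) (XT.lf (nat_lit 0) (nat_lit 11644814117) (nat_lit 152) (nat_lit 321387522016) (nat_lit 0) (nat_lit 10497347790) (nat_lit 1) (nat_lit 5) (nat_lit 3) (nat_lit 4) (nat_lit 1) (nat_lit 4) (nat_lit 351) (nat_lit 191) (nat_lit 178)) (XT.lf (nat_lit 0) (nat_lit 12935464433) (nat_lit 152) (nat_lit 336001054398) (nat_lit 0) (nat_lit 11726301831) (nat_lit 1) (nat_lit 5) (nat_lit 3) (nat_lit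 4) (nat_lit 1) (nat_lit 4) (nat_lit 352) (nat_lit 191) (nat_lit 177))) (XT.nd (nat_lit 78) (nat_lit 0) (nat_lit 0) (XT.lf (nat_lit 0) (nat_lit 14270528098) (nat_lit 152) (nat_lit 351380529029) (nat_lit 0) (nat_lit 13002607138) (nat_lit 1) (nat_lit 5) (nat_lit 3) (nat_lit 4) (nat_lit 1) (nat_lit 4) (nat_lit 353) (nat_lit 191) (nat_lit 176)) (XT.lf (nat_lit 0) (nat_lit 15653183834) (nat_lit 152) (nat_lit 367562563706) (nat_lit 0) (nat_lit 14329302533) (nat_lit 1) (nat_lit 5) (nat_lit 3) (nat_lit 4) (nat_lit 1) (nat_lit 4) (nat_lit 354) (nat_lit 191) (nat_lit 175))))) (XT.nd (nat_lit 312) (nat_lit 0) (nat_lit 0) (XT.nd (nat_lit 156) (nat_lit 0) (nat_lit 0) (XT.nd (nat_lit 78) (nat_lit 0) (nat_lit 0) (XT.lf (nat_lit 0) (nat_lit 17086723680) (nat_lit 152) (nat_lit 384585687083) (nat_lit 0) (nat_lit 15709546816) (nat_lit 1) (nat_lit 5) (nat_lit 3) (nat_lit 4) (nat_lit 1) (nat_lit 4) (nat_lit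 355) (nat_lit 191) (nat_lit 174)) (XT.lf (nat_lit 0) (nat_lit 18574560824) (nat_lit 152) (nat_lit 402490430406) (nat_lit 0) (nat_lit 17146626281) (nat_lit 1) (nat_lit 5) (nat_lit 3) (nat_lit 4) (nat_lit 1) (nat_lit 4) (nat_lit 356) (nat_lit 191) (nat_lit 173))) (XT.nd (nat_lit 78) (nat_lit 0) (nat_lit 0) (XT.lf (nat_lit 0) (nat_lit 20120237736) (nat_lit 152) (nat_lit 421319424016) (nat_lit 0) (nat_lit 18643962547) (nat_lit 1) (nat_lit 5) (nat_lit 3) (nat_lit 4) (nat_lit 1) (nat_lit 4) (nat_lit 357) (nat_lit 191) (nat_lit 172)) (XT.lf (nat_lit 0) (nat_lit 21727434601) (nat_lit 152) (nat_lit 441117498851) (nat_lit 0) (nat_lit 20205120701) (nat_lit 1) (nat_lit 5) (nat_lit 3) (nat_lit 4) (nat_lit 1) (nat_lit 4) (nat_lit 358) (nat_lit 191) (nat_lit 171)))) (XT.nd (nat_lit 35724) (nat_lit 0) (nat_lit 152) (XT.nd (nat_lit 78) (nat_lit 0) (nat_lit 0) (XT.lf (nat_lit 0) (nat_lit 23399978076)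 (nat_lit 152) (nat_lit 461931793184) (nat_lit 0) (nat_lit 21833817784) (nat_lit 1) (nat_lit 5) (nat_lit 3) (nat_lit 4) (nat_lit 1) (nat_lit 4) (nat_lit 359) (nat_lit 191) (nat_lit 170)) (XT.lf (nat_lit 0) (nat_lit 25141850408) (nat_lit 152) (nat_lit 483811864859) (nat_lit 0) (nat_lit 23533931649) (nat_lit 1) (nat_lit 5) (nat_lit 3) (nat_lit 4) (nat_lit 1) (nat_lit 4) (nat_lit 360) (nat_lit 191) (nat_lit 169))) (XT.nd (nat_lit 78) (nat_lit 0) (nat_lit 0) (XT.lf (nat_lit 0) (nat_lit 78832957531) (nat_lit 76) (nat_lit 2036408245) (nat_lit 76) (nat_lit 2036408245) (nat_lit 3) (nat_lit 4) (nat_lit 4) (nat_lit 5) (nat_lit 4) (nat_lit 4) (nat_lit 336) (nat_lit 192) (nat_lit 192)) (XT.lf (nat_lit 0) (nat_lit 167603181915) (nat_lit 76) (nat_lit 3282286267) (nat_lit 76) (nat_lit 3154024141) (nat_lit 3) (nat_lit 4) (nat_lit 4) (nat_lit 5) (nat_lit 4) (nat_lit 4) (nat_lit 337) (nat_lit 192) (nat_lit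 191)))))) (XT.nd (nat_lit 624) (nat_lit 0) (nat_lit 0) (XT.nd (nat_lit 312) (nat_lit 0) (nat_lit 0) (XT.nd (nat_lit 156) (nat_lit 152) (nat_lit 0) (XT.nd (nat_lit 78) (nat_lit 0) (nat_lit 0) (XT.lf (nat_lit 0) (nat_lit 177972632529) (nat_lit 76) (nat_lit 2479295068) (nat_lit 76) (nat_lit 2228878536) (nat_lit 3) (nat_lit 4) (nat_lit 4) (nat_lit 5) (nat_lit 4) (nat_lit 4) (nat_lit 338) (nat_lit 192) (nat_lit 190)) (XT.lf (nat_lit 0) (nat_lit 188798956072) (nat_lit 76) (nat_lit 1661931010) (nat_lit 76) (nat_lit 1295176949) (nat_lit 3) (nat_lit 4) (nat_lit 4) (nat_lit 5) (nat_lit 4) (nat_lit 4) (nat_lit 339) (nat_lit 192) (nat_lit 189))) (XT.nd (nat_lit 78) (nat_lit 152) (nat_lit 0) (XT.lf (nat_lit 0) (nat_lit 200107929505) (nat_lit 76) (nat_lit 828247989) (nat_lit 76) (nat_lit 350696281) (nat_lit 3) (nat_lit 4) (nat_lit 4) (nat_lit 5) (nat_lit 4) (nat_lit 4) (nat_lit 340) (nat_lit 192)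 (nat_lit 188)) (XT.lf (nat_lit 0) (nat_lit 598097986) (nat_lit 152) (nat_lit 210654030601) (nat_lit 0) (nat_lit 42790103) (nat_lit 1) (nat_lit 5) (nat_lit 3) (nat_lit 4) (nat_lit 1) (nat_lit 4) (nat_lit 341) (nat_lit 192) (nat_lit 187)))) (XT.nd (nat_lit 156) (nat_lit 0) (nat_lit 0) (XT.nd (nat_lit 78) (nat_lit 0) (nat_lit 0) (XT.lf (nat_lit 0) (nat_lit 1583645408) (nat_lit 152) (nat_lit 219286823462) (nat_lit 0) (nat_lit 932626352) (nat_lit 1) (nat_lit 5) (nat_lit 3) (nat_lit 4) (nat_lit 1) (nat_lit 4) (nat_lit 342) (nat_lit 192) (nat_lit 186)) (XT.lf (nat_lit 0) (nat_lit 2587258769) (nat_lit 152) (nat_lit 228405964532) (nat_lit 0) (nat_lit 1845086214) (nat_lit 1) (nat_lit 5) (nat_lit 3) (nat_lit 4) (nat_lit 1) (nat_lit 4) (nat_lit 343) (nat_lit 192) (nat_lit 185))) (XT.nd (nat_lit 78) (nat_lit 0) (nat_lit 0) (XT.lf (nat_lit 0) (nat_lit 3611327625) (nat_lit 152) (nat_lit 238033166054)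 (nat_lit 0) (nat_lit 2782342215) (nat_lit 1) (nat_lit 5) (nat_lit 3) (nat_lit 4) (nat_lit 1) (nat_lit 4) (nat_lit 344) (nat_lit 192) (nat_lit 184)) (XT.lf (nat_lit 0) (nat_lit 4658290234) (nat_lit 152) (nat_lit 248191349935) (nat_lit 0) (nat_lit 3746625914) (nat_lit 1) (nat_lit 5) (nat_lit 3) (nat_lit 4) (nat_lit 1) (nat_lit 4) (nat_lit 345) (nat_lit 192) (nat_lit 183))))) (XT.nd (nat_lit 312) (nat_lit 0) (nat_lit 0) (XT.nd (nat_lit 156) (nat_lit 0) (nat_lit 0) (XT.nd (nat_lit 78) (nat_lit 0) (nat_lit 0) (XT.lf (nat_lit 0) (nat_lit 5730639366) (nat_lit 152) (nat_lit 258904702327) (nat_lit 0) (nat_lit 4740233227) (nat_lit 1) (nat_lit 5) (nat_lit 3) (nat_lit 4) (nat_lit 1) (nat_lit 4) (nat_lit 346) (nat_lit 192) (nat_lit 182)) (XT.lf (nat_lit 0) (nat_lit 6830928232) (nat_lit 152) (nat_lit 270198731212) (nat_lit 0) (nat_lit 5765529884) (nat_lit 1) (nat_lit 5) (nat_lit 3) (nat_lit 4)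 (nat_lit 1) (nat_lit 4) (nat_lit 347) (nat_lit 192) (nat_lit 181))) (XT.nd (nat_lit 78) (nat_lit 0) (nat_lit 0) (XT.lf (nat_lit 0) (nat_lit 7961776568) (nat_lit 152) (nat_lit 282100327135) (nat_lit 0) (nat_lit 6824957068) (nat_lit 1) (nat_lit 5) (nat_lit 3) (nat_lit 4) (nat_lit 1) (nat_lit 4) (nat_lit 348) (nat_lit 192) (nat_lit 180)) (XT.lf (nat_lit 0) (nat_lit 9125876869) (nat_lit 152) (nat_lit 294637827229) (nat_lit 0) (nat_lit 7921037226) (nat_lit 1) (nat_lit 5) (nat_lit 3) (nat_lit 4) (nat_lit 1) (nat_lit 4) (nat_lit 349) (nat_lit 192) (nat_lit 179)))) (XT.nd (nat_lit 156) (nat_lit 0) (nat_lit 0) (XT.nd (nat_lit 78) (nat_lit 0) (nat_lit 0) (XT.lf (nat_lit 0) (nat_lit 10326000803) (nat_lit 152) (nat_lit 307841082686) (nat_lit 0) (nat_lit 9056380071) (nat_lit 1) (nat_lit 5) (nat_lit 3) (nat_lit 4) (nat_lit 1) (nat_lit 4) (nat_lit 350) (nat_lit 192) (nat_lit 178)) (XT.lf (nat_lit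 0) (nat_lit 11565005809) (nat_lit 152) (nat_lit 321741529827) (nat_lit 0) (nat_lit 10233688800) (nat_lit 1) (nat_lit 5) (nat_lit 3) (nat_lit 4) (nat_lit 1) (nat_lit 4) (nat_lit 351) (nat_lit 192) (nat_lit 177))) (XT.nd (nat_lit 78) (nat_lit 0) (nat_lit 0) (XT.lf (nat_lit 0) (nat_lit 12845841897) (nat_lit 152) (nat_lit 336372264955) (nat_lit 0) (nat_lit 11455766531) (nat_lit 1) (nat_lit 5) (nat_lit 3) (nat_lit 4) (nat_lit 1) (nat_lit 4) (nat_lit 352) (nat_lit 192) (nat_lit 176)) (XT.lf (nat_lit 0) (nat_lit 14171558678) (nat_lit 152) (nat_lit 351768123154) (nat_lit 0) (nat_lit 12725522971) (nat_lit 1) (nat_lit 5) (nat_lit 3) (nat_lit 4) (nat_lit 1) (nat_lit 4) (nat_lit 353) (nat_lit 192) (nat_lit 175))))))) (XT.nd (nat_lit 36660) (nat_lit 0) (nat_lit 0) (XT.nd (nat_lit 36036) (nat_lit 0) (nat_lit 0) (XT.nd (nat_lit 312) (nat_lit 0) (nat_lit 0) (XT.nd (nat_lit 156) (nat_lit 0) (nat_lit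 0) (XT.nd (nat_lit 78) (nat_lit 0) (nat_lit 0) (XT.lf (nat_lit 0) (nat_lit 15545312620) (nat_lit 152) (nat_lit 367965761229) (nat_lit 0) (nat_lit 14045981350) (nat_lit 1) (nat_lit 5) (nat_lit 3) (nat_lit 4) (nat_lit 1) (nat_lit 4) (nat_lit 354) (nat_lit 192) (nat_lit 174)) (XT.lf (nat_lit 0) (nat_lit 16970374566) (nat_lit 152) (nat_lit 385003744985) (nat_lit 0) (nat_lit 15420285618) (nat_lit 1) (nat_lit 5) (nat_lit 3) (nat_lit 4) (nat_lit 1) (nat_lit 4) (nat_lit 355) (nat_lit 192) (nat_lit 173))) (XT.nd (nat_lit 78) (nat_lit 0) (nat_lit 0) (XT.lf (nat_lit 0) (nat_lit 18450137521) (nat_lit 152) (nat_lit 402922641051) (nat_lit 0) (nat_lit 16851707926) (nat_lit 1) (nat_lit 5) (nat_lit 3) (nat_lit 4) (nat_lit 1) (nat_lit 4) (nat_lit 356) (nat_lit 192) (nat_lit 172)) (XT.lf (nat_lit 0) (nat_lit 19988124729) (nat_lit 152) (nat_lit 421765113463) (nat_lit 0) (nat_lit 18343656423) (nat_lit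 1) (nat_lit 5) (nat_lit 3) (nat_lit 4) (nat_lit 1) (nat_lit 4) (nat_lit 357) (nat_lit 192) (nat_lit 171)))) (XT.nd (nat_lit 156) (nat_lit 0) (nat_lit 0) (XT.nd (nat_lit 78) (nat_lit 0) (nat_lit 0) (XT.lf (nat_lit 0) (nat_lit 21587998065) (nat_lit 152) (nat_lit 441576025252) (nat_lit 0) (nat_lit 19899683368) (nat_lit 1) (nat_lit 5) (nat_lit 3) (nat_lit 4) (nat_lit 1) (nat_lit 4) (nat_lit 358) (nat_lit 192) (nat_lit 170)) (XT.lf (nat_lit 0) (nat_lit 23253566751) (nat_lit 152) (nat_lit 462402545256) (nat_lit 0) (nat_lit 21523493587) (nat_lit 1) (nat_lit 5) (nat_lit 3) (nat_lit 4) (nat_lit 1) (nat_lit 4) (nat_lit 359) (nat_lit 192) (nat_lit 169))) (XT.nd (nat_lit 35490) (nat_lit 0) (nat_lit 152) (XT.lf (nat_lit 0) (nat_lit 24988796428) (nat_lit 152) (nat_lit 484294260426) (nat_lit 0) (nat_lit 23218953293) (nat_lit 1) (nat_lit 5) (nat_lit 3) (nat_lit 4) (nat_lit 1) (nat_lit 4) (nat_lit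 360) (nat_lit 192) (nat_lit 168)) (XT.lf (nat_lit 0) (nat_lit 69514524837) (nat_lit 76) (nat_lit 2872058471) (nat_lit 76) (nat_lit 2872058471) (nat_lit 3) (nat_lit 4) (nat_lit 4) (nat_lit 5) (nat_lit 4) (nat_lit 4) (nat_lit 334) (nat_lit 193) (nat_lit 193))))) (XT.nd (nat_lit 312) (nat_lit 152) (nat_lit 0) (XT.nd (nat_lit 156) (nat_lit 0) (nat_lit 0) (XT.nd (nat_lit 78) (nat_lit 0) (nat_lit 0) (XT.lf (nat_lit 0) (nat_lit 148137171812) (nat_lit 76) (nat_lit 4987443188) (nat_lit 76) (nat_lit 4852767956) (nat_lit 3) (nat_lit 4) (nat_lit 4) (nat_lit 5) (nat_lit 4) (nat_lit 4) (nat_lit 335) (nat_lit 193) (nat_lit 192)) (XT.lf (nat_lit 0) (nat_lit 157632786497) (nat_lit 76) (nat_lit 4221354559) (nat_lit 76) (nat_lit 3958417201) (nat_lit 3) (nat_lit 4) (nat_lit 4) (nat_lit 5) (nat_lit 4) (nat_lit 4) (nat_lit 336) (nat_lit 193) (nat_lit 191))) (XT.nd (nat_lit 78) (nat_lit 0) (nat_lit 0) (XT.lf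 (nat_lit 0) (nat_lit 167538502334) (nat_lit 76) (nat_lit 3444027036) (nat_lit 76) (nat_lit 3058935271) (nat_lit 3) (nat_lit 4) (nat_lit 4) (nat_lit 5) (nat_lit 4) (nat_lit 4) (nat_lit 337) (nat_lit 193) (nat_lit 190)) (XT.lf (nat_lit 0) (nat_lit 177877904361) (nat_lit 76) (nat_lit 2653609838) (nat_lit 76) (nat_lit 2152180544) (nat_lit 3) (nat_lit 4) (nat_lit 4) (nat_lit 5) (nat_lit 4) (nat_lit 4) (nat_lit 338) (nat_lit 193) (nat_lit 189)))) (XT.nd (nat_lit 156) (nat_lit 152) (nat_lit 0) (XT.nd (nat_lit 78) (nat_lit 0) (nat_lit 0) (XT.lf (nat_lit 0) (nat_lit 188675610203) (nat_lit 76) (nat_lit 1848221019) (nat_lit 76) (nat_lit 1235994078) (nat_lit 3) (nat_lit 4) (nat_lit 4) (nat_lit 5) (nat_lit 4) (nat_lit 4) (nat_lit 339) (nat_lit 193) (nat_lit 188)) (XT.lf (nat_lit 0) (nat_lit 199957328683) (nat_lit 76) (nat_lit 1025942987) (nat_lit 76) (nat_lit 308194478) (nat_lit 3) (nat_lit 4)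 (nat_lit 4) (nat_lit 5) (nat_lit 4) (nat_lit 4) (nat_lit 340) (nat_lit 193) (nat_lit 187))) (XT.nd (nat_lit 78) (nat_lit 0) (nat_lit 0) (XT.lf (nat_lit 0) (nat_lit 453225847) (nat_lit 76) (nat_lit 167003951) (nat_lit 152) (nat_lit 210680233585) (nat_lit 1) (nat_lit 5) (nat_lit 2) (nat_lit 5) (nat_lit 3) (nat_lit 4) (nat_lit 341) (nat_lit 193) (nat_lit 186)) (XT.lf (nat_lit 0) (nat_lit 1587944732) (nat_lit 152) (nat_lit 219504110103) (nat_lit 0) (nat_lit 717510052) (nat_lit 1) (nat_lit 5) (nat_lit 3) (nat_lit 4) (nat_lit 1) (nat_lit 4) (nat_lit 342) (nat_lit 193) (nat_lit 185)))))) (XT.nd (nat_lit 624) (nat_lit 0) (nat_lit 0) (XT.nd (nat_lit 312) (nat_lit 0) (nat_lit 0) (XT.nd (nat_lit 156) (nat_lit 0) (nat_lit 0) (XT.nd (nat_lit 78) (nat_lit 0) (nat_lit 0) (XT.lf (nat_lit 0) (nat_lit 2577058009) (nat_lit 152) (nat_lit 228648667466) (nat_lit 0) (nat_lit 1619810473) (nat_lit 1) (nat_lit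 5) (nat_lit 3) (nat_lit 4) (nat_lit 1) (nat_lit 4) (nat_lit 343) (nat_lit 193) (nat_lit 184)) (XT.lf (nat_lit 0) (nat_lit 3587317260) (nat_lit 152) (nat_lit 238300074979) (nat_lit 0) (nat_lit 2547390814) (nat_lit 1) (nat_lit 5) (nat_lit 3) (nat_lit 4) (nat_lit 1) (nat_lit 4) (nat_lit 344) (nat_lit 193) (nat_lit 183))) (XT.nd (nat_lit 78) (nat_lit 0) (nat_lit 0) (XT.lf (nat_lit 0) (nat_lit 4621127866) (nat_lit 152) (nat_lit 248481312185) (nat_lit 0) (nat_lit 3502459600) (nat_lit 1) (nat_lit 5) (nat_lit 3) (nat_lit 4) (nat_lit 1) (nat_lit 4) (nat_lit 345) (nat_lit 193) (nat_lit 182)) (XT.lf (nat_lit 0) (nat_lit 5680951279) (nat_lit 152) (nat_lit 259216620125) (nat_lit 0) (nat_lit 4487290805) (nat_lit 1) (nat_lit 5) (nat_lit 3) (nat_lit 4) (nat_lit 1) (nat_lit 4) (nat_lit 346) (nat_lit 193) (nat_lit 181)))) (XT.nd (nat_lit 156) (nat_lit 0) (nat_lit 0) (XT.nd (nat_lit 78) (nat_lit 0)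 (nat_lit 0) (XT.lf (nat_lit 0) (nat_lit 6769310890) (nat_lit 152) (nat_lit 270531559056) (nat_lit 0) (nat_lit 5504229265) (nat_lit 1) (nat_lit 5) (nat_lit 3) (nat_lit 4) (nat_lit 1) (nat_lit 4) (nat_lit 347) (nat_lit 193) (nat_lit 180)) (XT.lf (nat_lit 0) (nat_lit 7888798030) (nat_lit 152) (nat_lit 282453069309) (nat_lit 0) (nat_lit 6555696261) (nat_lit 1) (nat_lit 5) (nat_lit 3) (nat_lit 4) (nat_lit 1) (nat_lit 4) (nat_lit 348) (nat_lit 193) (nat_lit 179))) (XT.nd (nat_lit 78) (nat_lit 0) (nat_lit 0) (XT.lf (nat_lit 0) (nat_lit 9042078145) (nat_lit 152) (nat_lit 295009535431) (nat_lit 0) (nat_lit 7644195286) (nat_lit 1) (nat_lit 5) (nat_lit 3) (nat_lit 4) (nat_lit 1) (nat_lit 4) (nat_lit 349) (nat_lit 193) (nat_lit 178)) (XT.lf (nat_lit 0) (nat_lit 10231897140) (nat_lit 152) (nat_lit 308230853771) (nat_lit 0) (nat_lit 8772318005) (nat_lit 1) (nat_lit 5) (nat_lit 3) (nat_lit 4) (nat_lit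 1) (nat_lit 4) (nat_lit 350) (nat_lit 193) (nat_lit 177))))) (XT.nd (nat_lit 312) (nat_lit 0) (nat_lit 0) (XT.nd (nat_lit 156) (nat_lit 0) (nat_lit 0) (XT.nd (nat_lit 78) (nat_lit 0) (nat_lit 0) (XT.lf (nat_lit 0) (nat_lit 11461087917) (nat_lit 152) (nat_lit 322148503659) (nat_lit 0) (nat_lit 9942750425) (nat_lit 1) (nat_lit 5) (nat_lit 3) (nat_lit 4) (nat_lit 1) (nat_lit 4) (nat_lit 351) (nat_lit 193) (nat_lit 176)) (XT.lf (nat_lit 0) (nat_lit 12732577122) (nat_lit 152) (nat_lit 336795622355) (nat_lit 0) (nat_lit 11158279289) (nat_lit 1) (nat_lit 5) (nat_lit 3) (nat_lit 4) (nat_lit 1) (nat_lit 4) (nat_lit 352) (nat_lit 193) (nat_lit 175))) (XT.nd (nat_lit 78) (nat_lit 0) (nat_lit 0) (XT.lf (nat_lit 0) (nat_lit 14049392109) (nat_lit 152) (nat_lit 352207083952) (nat_lit 0) (nat_lit 12421798713) (nat_lit 1) (nat_lit 5) (nat_lit 3) (nat_lit 4) (nat_lit 1) (nat_lit 4) (nat_lit 353) (nat_lit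 193) (nat_lit 174)) (XT.lf (nat_lit 0) (nat_lit 15414668152) (nat_lit 152) (nat_lit 368419582406) (nat_lit 0) (nat_lit 13736317077) (nat_lit 1) (nat_lit 5) (nat_lit 3) (nat_lit 4) (nat_lit 1) (nat_lit 4) (nat_lit 354) (nat_lit 193) (nat_lit 173)))) (XT.nd (nat_lit 156) (nat_lit 0) (nat_lit 0) (XT.nd (nat_lit 78) (nat_lit 0) (nat_lit 0) (XT.lf (nat_lit 0) (nat_lit 16831655908) (nat_lit 152) (nat_lit 385471718905) (nat_lit 0) (nat_lit 15104964187) (nat_lit 1) (nat_lit 5) (nat_lit 3) (nat_lit 4) (nat_lit 1) (nat_lit 4) (nat_lit 355) (nat_lit 193) (nat_lit 172)) (XT.lf (nat_lit 0) (nat_lit 18303729158) (nat_lit 152) (nat_lit 403404093772) (nat_lit 0) (nat_lit 16530998726) (nat_lit 1) (nat_lit 5) (nat_lit 3) (nat_lit 4) (nat_lit 1) (nat_lit 4) (nat_lit 356) (nat_lit 193) (nat_lit 171))) (XT.nd (nat_lit 78) (nat_lit 0) (nat_lit 0) (XT.lf (nat_lit 0) (nat_lit 19834392838) (nat_lit 152) (nat_lit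 422259403138) (nat_lit 0) (nat_lit 18017816015) (nat_lit 1) (nat_lit 5) (nat_lit 3) (nat_lit 4) (nat_lit 1) (nat_lit 4) (nat_lit 357) (nat_lit 193) (nat_lit 170)) (XT.lf (nat_lit 0) (nat_lit 21427291386) (nat_lit 152) (nat_lit 442082540598) (nat_lit 0) (nat_lit 19568956095) (nat_lit 1) (nat_lit 5) (nat_lit 3) (nat_lit 4) (nat_lit 1) (nat_lit 4) (nat_lit 358) (nat_lit 193) (nat_lit 169))))))))
noncomputable def xc4 : XT := (XT.nd (nat_lit 36504) (nat_lit 0) (nat_lit 0) (XT.nd (nat_lit 35880) (nat_lit 0) (nat_lit 0) (XT.nd (nat_lit 35568) (nat_lit 0) (nat_lit 152) (XT.nd (nat_lit 35412) (nat_lit 0) (nat_lit 152) (XT.nd (nat_lit 78) (nat_lit 0) (nat_lit 0) (XT.lf (nat_lit 0) (nat_lit 23086217416) (nat_lit 152) (nat_lit 462920704098) (nat_lit 0) (nat_lit 21188112156) (nat_lit 1) (nat_lit 5) (nat_lit 3) (nat_lit 4) (nat_lit 1) (nat_lit 4) (nat_lit 359) (nat_lit 193) (nat_lit 168)) (XT.lf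 (nat_lit 0) (nat_lit 24815120754) (nat_lit 152) (nat_lit 484823508312) (nat_lit 0) (nat_lit 22879139332) (nat_lit 1) (nat_lit 5) (nat_lit 3) (nat_lit 4) (nat_lit 1) (nat_lit 4) (nat_lit 360) (nat_lit 193) (nat_lit 167))) (XT.nd (nat_lit 78) (nat_lit 0) (nat_lit 0) (XT.lf (nat_lit 0) (nat_lit 60962967114) (nat_lit 76) (nat_lit 3681266667) (nat_lit 76) (nat_lit 3681266667) (nat_lit 3) (nat_lit 4) (nat_lit 4) (nat_lit 5) (nat_lit 4) (nat_lit 4) (nat_lit 332) (nat_lit 194) (nat_lit 194)) (XT.lf (nat_lit 0) (nat_lit 130286734078) (nat_lit 76) (nat_lit 6634586420) (nat_lit 76) (nat_lit 6493177426) (nat_lit 3) (nat_lit 4) (nat_lit 4) (nat_lit 5) (nat_lit 4) (nat_lit 4) (nat_lit 333) (nat_lit 194) (nat_lit 193)))) (XT.nd (nat_lit 156) (nat_lit 0) (nat_lit 0) (XT.nd (nat_lit 78) (nat_lit 0) (nat_lit 0) (XT.lf (nat_lit 0) (nat_lit 138994264680) (nat_lit 76) (nat_lit 5900081914) (nat_lit 76)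 (nat_lit 5623997687) (nat_lit 3) (nat_lit 4) (nat_lit 4) (nat_lit 5) (nat_lit 4) (nat_lit 4) (nat_lit 334) (nat_lit 194) (nat_lit 192)) (XT.lf (nat_lit 0) (nat_lit 148069258252) (nat_lit 76) (nat_lit 5157270995) (nat_lit 76) (nat_lit 4752924643) (nat_lit 3) (nat_lit 4) (nat_lit 4) (nat_lit 5) (nat_lit 4) (nat_lit 4) (nat_lit 335) (nat_lit 194) (nat_lit 191))) (XT.nd (nat_lit 78) (nat_lit 0) (nat_lit 0) (XT.lf (nat_lit 0) (nat_lit 157533321921) (nat_lit 76) (nat_lit 4404385067) (nat_lit 76) (nat_lit 3877884309) (nat_lit 3) (nat_lit 4) (nat_lit 4) (nat_lit 5) (nat_lit 4) (nat_lit 4) (nat_lit 336) (nat_lit 194) (nat_lit 190)) (XT.lf (nat_lit 0) (nat_lit 167408989172) (nat_lit 76) (nat_lit 3639631545) (nat_lit 76) (nat_lit 2996793257) (nat_lit 3) (nat_lit 4) (nat_lit 4) (nat_lit 5) (nat_lit 4) (nat_lit 4) (nat_lit 337) (nat_lit 194) (nat_lit 189))))) (XT.nd (nat_lit 312) (nat_lit 0) (nat_lit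 0) (XT.nd (nat_lit 156) (nat_lit 152) (nat_lit 0) (XT.nd (nat_lit 78) (nat_lit 0) (nat_lit 0) (XT.lf (nat_lit 0) (nat_lit 177719773498) (nat_lit 76) (nat_lit 2861189585) (nat_lit 76) (nat_lit 2107553650) (nat_lit 3) (nat_lit 4) (nat_lit 4) (nat_lit 5) (nat_lit 4) (nat_lit 4) (nat_lit 338) (nat_lit 194) (nat_lit 188)) (XT.lf (nat_lit 0) (nat_lit 188490224387) (nat_lit 76) (nat_lit 2067205755) (nat_lit 76) (nat_lit 1208048252) (nat_lit 3) (nat_lit 4) (nat_lit 4) (nat_lit 5) (nat_lit 4) (nat_lit 4) (nat_lit 339) (nat_lit 194) (nat_lit 187))) (XT.nd (nat_lit 78) (nat_lit 152) (nat_lit 0) (XT.lf (nat_lit 0) (nat_lit 199745985768) (nat_lit 76) (nat_lit 1255789618) (nat_lit 76) (nat_lit 296135383) (nat_lit 3) (nat_lit 4) (nat_lit 4) (nat_lit 5) (nat_lit 4) (nat_lit 4) (nat_lit 340) (nat_lit 194) (nat_lit 186)) (XT.lf (nat_lit 0) (nat_lit 201969609) (nat_lit 76) (nat_lit 411364545) (nat_lit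 152) (nat_lit 210694526225) (nat_lit 1) (nat_lit 5) (nat_lit 2) (nat_lit 5) (nat_lit 3) (nat_lit 4) (nat_lit 341) (nat_lit 194) (nat_lit 185)))) (XT.nd (nat_lit 156) (nat_lit 0) (nat_lit 0) (XT.nd (nat_lit 78) (nat_lit 0) (nat_lit 0) (XT.lf (nat_lit 0) (nat_lit 1562733850) (nat_lit 152) (nat_lit 219784364475) (nat_lit 0) (nat_lit 470811081) (nat_lit 1) (nat_lit 5) (nat_lit 3) (nat_lit 4) (nat_lit 1) (nat_lit 4) (nat_lit 342) (nat_lit 194) (nat_lit 184)) (XT.lf (nat_lit 0) (nat_lit 2538037522) (nat_lit 152) (nat_lit 228953127829) (nat_lit 0) (nat_lit 1363435843) (nat_lit 1) (nat_lit 5) (nat_lit 3) (nat_lit 4) (nat_lit 1) (nat_lit 4) (nat_lit 343) (nat_lit 194) (nat_lit 183))) (XT.nd (nat_lit 78) (nat_lit 0) (nat_lit 0) (XT.lf (nat_lit 0) (nat_lit 3535144769) (nat_lit 152) (nat_lit 238627588667) (nat_lit 0) (nat_lit 2281801272) (nat_lit 1) (nat_lit 5) (nat_lit 3) (nat_lit 4) (nat_lit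 1) (nat_lit 4) (nat_lit 344) (nat_lit 194) (nat_lit 182)) (XT.lf (nat_lit 0) (nat_lit 4556429657) (nat_lit 152) (nat_lit 248830781422) (nat_lit 0) (nat_lit 3228093950) (nat_lit 1) (nat_lit 5) (nat_lit 3) (nat_lit 4) (nat_lit 1) (nat_lit 4) (nat_lit 345) (nat_lit 194) (nat_lit 181)))))) (XT.nd (nat_lit 624) (nat_lit 0) (nat_lit 0) (XT.nd (nat_lit 312) (nat_lit 0) (nat_lit 0) (XT.nd (nat_lit 156) (nat_lit 0) (nat_lit 0) (XT.nd (nat_lit 78) (nat_lit 0) (nat_lit 0) (XT.lf (nat_lit 0) (nat_lit 5604323815) (nat_lit 152) (nat_lit 259586999407) (nat_lit 0) (nat_lit 4204566957) (nat_lit 1) (nat_lit 5) (nat_lit 3) (nat_lit 4) (nat_lit 1) (nat_lit 4) (nat_lit 346) (nat_lit 194) (nat_lit 180)) (XT.lf (nat_lit 0) (nat_lit 6681322230) (nat_lit 152) (nat_lit 270921852668) (nat_lit 0) (nat_lit 5213545228) (nat_lit 1) (nat_lit 5) (nat_lit 3) (nat_lit 4) (nat_lit 1) (nat_lit 4) (nat_lit 347) (nat_lit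 194) (nat_lit 179))) (XT.nd (nat_lit 78) (nat_lit 0) (nat_lit 0) (XT.lf (nat_lit 0) (nat_lit 7789989183) (nat_lit 152) (nat_lit 282862328948) (nat_lit 0) (nat_lit 6257431092) (nat_lit 1) (nat_lit 5) (nat_lit 3) (nat_lit 4) (nat_lit 1) (nat_lit 4) (nat_lit 348) (nat_lit 194) (nat_lit 178)) (XT.lf (nat_lit 0) (nat_lit 8932964359) (nat_lit 152) (nat_lit 295436857954) (nat_lit 0) (nat_lit 7338709992) (nat_lit 1) (nat_lit 5) (nat_lit 3) (nat_lit 4) (nat_lit 1) (nat_lit 4) (nat_lit 349) (nat_lit 194) (nat_lit 177)))) (XT.nd (nat_lit 156) (nat_lit 0) (nat_lit 0) (XT.nd (nat_lit 78) (nat_lit 0) (nat_lit 0) (XT.lf (nat_lit 0) (nat_lit 10112969126) (nat_lit 152) (nat_lit 308675379041) (nat_lit 0) (nat_lit 8459956401) (nat_lit 1) (nat_lit 5) (nat_lit 3) (nat_lit 4) (nat_lit 1) (nat_lit 4) (nat_lit 350) (nat_lit 194) (nat_lit 176)) (XT.lf (nat_lit 0) (nat_lit 11332813020) (nat_lit 152) (nat_lit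 322609412496) (nat_lit 0) (nat_lit 9623839954) (nat_lit 1) (nat_lit 5) (nat_lit 3) (nat_lit 4) (nat_lit 1) (nat_lit 4) (nat_lit 351) (nat_lit 194) (nat_lit 175))) (XT.nd (nat_lit 78) (nat_lit 0) (nat_lit 0) (XT.lf (nat_lit 0) (nat_lit 12595400430) (nat_lit 152) (nat_lit 337272134591) (nat_lit 0) (nat_lit 10833131802) (nat_lit 1) (nat_lit 5) (nat_lit 3) (nat_lit 4) (nat_lit 1) (nat_lit 4) (nat_lit 352) (nat_lit 194) (nat_lit 174)) (XT.lf (nat_lit 0) (nat_lit 13903737518) (nat_lit 152) (nat_lit 352698456567) (nat_lit 0) (nat_lit 12090711211) (nat_lit 1) (nat_lit 5) (nat_lit 3) (nat_lit 4) (nat_lit 1) (nat_lit 4) (nat_lit 353) (nat_lit 194) (nat_lit 173))))) (XT.nd (nat_lit 312) (nat_lit 0) (nat_lit 0) (XT.nd (nat_lit 156) (nat_lit 0) (nat_lit 0) (XT.nd (nat_lit 78) (nat_lit 0) (nat_lit 0) (XT.lf (nat_lit 0) (nat_lit 15260939371) (nat_lit 152) (nat_lit 368925107763) (nat_lit 0) (nat_lit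 13399572418) (nat_lit 1) (nat_lit 5) (nat_lit 3) (nat_lit 4) (nat_lit 1) (nat_lit 4) (nat_lit 354) (nat_lit 194) (nat_lit 172)) (XT.lf (nat_lit 0) (nat_lit 16670237423) (nat_lit 152) (nat_lit 385990723064) (nat_lit 0) (nat_lit 14762831759) (nat_lit 1) (nat_lit 5) (nat_lit 3) (nat_lit 4) (nat_lit 1) (nat_lit 4) (nat_lit 355) (nat_lit 194) (nat_lit 171))) (XT.nd (nat_lit 78) (nat_lit 0) (nat_lit 0) (XT.lf (nat_lit 0) (nat_lit 18134987145) (nat_lit 152) (nat_lit 403935934885) (nat_lit 0) (nat_lit 16183735090) (nat_lit 1) (nat_lit 5) (nat_lit 3) (nat_lit 4) (nat_lit 1) (nat_lit 4) (nat_lit 356) (nat_lit 194) (nat_lit 170)) (XT.lf (nat_lit 0) (nat_lit 19658676037) (nat_lit 152) (nat_lit 422803469922) (nat_lit 0) (nat_lit 17665665513) (nat_lit 1) (nat_lit 5) (nat_lit 3) (nat_lit 4) (nat_lit 1) (nat_lit 4) (nat_lit 357) (nat_lit 194) (nat_lit 169)))) (XT.nd (nat_lit 156) (nat_lit 0) (nat_lit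 0) (XT.nd (nat_lit 78) (nat_lit 0) (nat_lit 0) (XT.lf (nat_lit 0) (nat_lit 21244931928) (nat_lit 152) (nat_lit 442638250878) (nat_lit 0) (nat_lit 19212151436) (nat_lit 1) (nat_lit 5) (nat_lit 3) (nat_lit 4) (nat_lit 1) (nat_lit 4) (nat_lit 358) (nat_lit 194) (nat_lit 168)) (XT.lf (nat_lit 0) (nat_lit 22897531620) (nat_lit 152) (nat_lit 463487503421) (nat_lit 0) (nat_lit 20826874966) (nat_lit 1) (nat_lit 5) (nat_lit 3) (nat_lit 4) (nat_lit 1) (nat_lit 4) (nat_lit 359) (nat_lit 194) (nat_lit 167))) (XT.nd (nat_lit 35178) (nat_lit 0) (nat_lit 152) (XT.lf (nat_lit 0) (nat_lit 24620409873) (nat_lit 152) (nat_lit 485400868630) (nat_lit 0) (nat_lit 22513680684) (nat_lit 1) (nat_lit 5) (nat_lit 3) (nat_lit 4) (nat_lit 1) (nat_lit 4) (nat_lit 360) (nat_lit 194) (nat_lit 166)) (XT.lf (nat_lit 0) (nat_lit 53102014369) (nat_lit 76) (nat_lit 4469053604) (nat_lit 76) (nat_lit 4469053604) (nat_lit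 3) (nat_lit 4) (nat_lit 4) (nat_lit 5) (nat_lit 4) (nat_lit 4) (nat_lit 330) (nat_lit 195) (nat_lit 195)))))))
noncomputable def xc5 : XT := (XT.nd (nat_lit 1248) (nat_lit 0) (nat_lit 0) (XT.nd (nat_lit 624) (nat_lit 152) (nat_lit 0) (XT.nd (nat_lit 312) (nat_lit 0) (nat_lit 0) (XT.nd (nat_lit 156) (nat_lit 0) (nat_lit 0) (XT.nd (nat_lit 78) (nat_lit 0) (nat_lit 0) (XT.lf (nat_lit 0) (nat_lit 113891958468) (nat_lit 76) (nat_lit 8234135308) (nat_lit 76) (nat_lit 8085655864) (nat_lit 3) (nat_lit 4) (nat_lit 4) (nat_lit 5) (nat_lit 4) (nat_lit 4) (nat_lit 331) (nat_lit 195) (nat_lit 194)) (XT.lf (nat_lit 0) (nat_lit 121889409985) (nat_lit 76) (nat_lit 7526296555) (nat_lit 76) (nat_lit 7236408117) (nat_lit 3) (nat_lit 4) (nat_lit 4) (nat_lit 5) (nat_lit 4) (nat_lit 4) (nat_lit 332) (nat_lit 195) (nat_lit 193))) (XT.nd (nat_lit 78) (nat_lit 0) (nat_lit 0) (XT.lf (nat_lit 0) (nat_lit 130215424839)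 (nat_lit 76) (nat_lit 6812905618) (nat_lit 76) (nat_lit 6388341948) (nat_lit 3) (nat_lit 4) (nat_lit 4) (nat_lit 5) (nat_lit 4) (nat_lit 4) (nat_lit 333) (nat_lit 195) (nat_lit 192)) (XT.lf (nat_lit 0) (nat_lit 138889826875) (nat_lit 76) (nat_lit 6092263947) (nat_lit 76) (nat_lit 5539438151) (nat_lit 3) (nat_lit 4) (nat_lit 4) (nat_lit 5) (nat_lit 4) (nat_lit 4) (nat_lit 334) (nat_lit 195) (nat_lit 191)))) (XT.nd (nat_lit 156) (nat_lit 0) (nat_lit 0) (XT.nd (nat_lit 78) (nat_lit 0) (nat_lit 0) (XT.lf (nat_lit 0) (nat_lit 147933269432) (nat_lit 76) (nat_lit 5362655730) (nat_lit 76) (nat_lit 4687675527) (nat_lit 3) (nat_lit 4) (nat_lit 4) (nat_lit 5) (nat_lit 4) (nat_lit 4) (nat_lit 335) (nat_lit 195) (nat_lit 190)) (XT.lf (nat_lit 0) (nat_lit 157367284515) (nat_lit 76) (nat_lit 4622343802) (nat_lit 76) (nat_lit 3831026071) (nat_lit 3) (nat_lit 4) (nat_lit 4) (nat_lit 5) (nat_lit 4)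 (nat_lit 4) (nat_lit 336) (nat_lit 195) (nat_lit 189))) (XT.nd (nat_lit 78) (nat_lit 0) (nat_lit 0) (XT.lf (nat_lit 0) (nat_lit 167214334065) (nat_lit 76) (nat_lit 3869565518) (nat_lit 76) (nat_lit 2967450140) (nat_lit 3) (nat_lit 4) (nat_lit 4) (nat_lit 5) (nat_lit 4) (nat_lit 4) (nat_lit 337) (nat_lit 195) (nat_lit 188)) (XT.lf (nat_lit 0) (nat_lit 177497863438) (nat_lit 76) (nat_lit 3102528548) (nat_lit 76) (nat_lit 2094891601) (nat_lit 3) (nat_lit 4) (nat_lit 4) (nat_lit 5) (nat_lit 4) (nat_lit 4) (nat_lit 338) (nat_lit 195) (nat_lit 187))))) (XT.nd (nat_lit 312) (nat_lit 0) (nat_lit 0) (XT.nd (nat_lit 156) (nat_lit 152) (nat_lit 0) (XT.nd (nat_lit 78) (nat_lit 0) (nat_lit 0) (XT.lf (nat_lit 0) (nat_lit 188242357228) (nat_lit 76) (nat_lit 2319406613) (nat_lit 76) (nat_lit 1211272934) (nat_lit 3) (nat_lit 4) (nat_lit 4) (nat_lit 5) (nat_lit 4) (nat_lit 4) (nat_lit 339) (nat_lit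 195) (nat_lit 186)) (XT.lf (nat_lit 0) (nat_lit 199473397563) (nat_lit 76) (nat_lit 1518335137) (nat_lit 76) (nat_lit 314490285) (nat_lit 3) (nat_lit 4) (nat_lit 4) (nat_lit 5) (nat_lit 4) (nat_lit 4) (nat_lit 340) (nat_lit 195) (nat_lit 185))) (XT.nd (nat_lit 78) (nat_lit 76) (nat_lit 0) (XT.lf (nat_lit 0) (nat_lit 578464881) (nat_lit 152) (nat_lit 109145344) (nat_lit 76) (nat_lit 210629463552) (nat_lit 2) (nat_lit 5) (nat_lit 4) (nat_lit 5) (nat_lit 3) (nat_lit 4) (nat_lit 341) (nat_lit 195) (nat_lit 184)) (XT.lf (nat_lit 0) (nat_lit 1507952734) (nat_lit 152) (nat_lit 220128253848) (nat_lit 0) (nat_lit 191942062) (nat_lit 1) (nat_lit 5) (nat_lit 3) (nat_lit 4) (nat_lit 1) (nat_lit 4) (nat_lit 342) (nat_lit 195) (nat_lit 183)))) (XT.nd (nat_lit 156) (nat_lit 0) (nat_lit 0) (XT.nd (nat_lit 78) (nat_lit 0) (nat_lit 0) (XT.lf (nat_lit 0) (nat_lit 2470104403) (nat_lit 152) (nat_lit 229320070527)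 (nat_lit 0) (nat_lit 1075351911) (nat_lit 1) (nat_lit 5) (nat_lit 3) (nat_lit 4) (nat_lit 1) (nat_lit 4) (nat_lit 343) (nat_lit 195) (nat_lit 182)) (XT.lf (nat_lit 0) (nat_lit 3454685932) (nat_lit 152) (nat_lit 239016486914) (nat_lit 0) (nat_lit 1984941231) (nat_lit 1) (nat_lit 5) (nat_lit 3) (nat_lit 4) (nat_lit 1) (nat_lit 4) (nat_lit 344) (nat_lit 195) (nat_lit 181))) (XT.nd (nat_lit 78) (nat_lit 0) (nat_lit 0) (XT.lf (nat_lit 0) (nat_lit 4464041564) (nat_lit 152) (nat_lit 249240589714) (nat_lit 0) (nat_lit 2922875712) (nat_lit 1) (nat_lit 5) (nat_lit 3) (nat_lit 4) (nat_lit 1) (nat_lit 4) (nat_lit 345) (nat_lit 195) (nat_lit 180)) (XT.lf (nat_lit 0) (nat_lit 5500574526) (nat_lit 152) (nat_lit 260016722029) (nat_lit 0) (nat_lit 3891388530) (nat_lit 1) (nat_lit 5) (nat_lit 3) (nat_lit 4) (nat_lit 1) (nat_lit 4) (nat_lit 346) (nat_lit 195) (nat_lit 179)))))) (XT.nd (nat_lit 624)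 (nat_lit 0) (nat_lit 0) (XT.nd (nat_lit 312) (nat_lit 0) (nat_lit 0) (XT.nd (nat_lit 156) (nat_lit 0) (nat_lit 0) (XT.nd (nat_lit 78) (nat_lit 0) (nat_lit 0) (XT.lf (nat_lit 0) (nat_lit 6566752754) (nat_lit 152) (nat_lit 271370541317) (nat_lit 0) (nat_lit 4892785669) (nat_lit 1) (nat_lit 5) (nat_lit 3) (nat_lit 4) (nat_lit 1) (nat_lit 4) (nat_lit 347) (nat_lit 195) (nat_lit 178)) (XT.lf (nat_lit 0) (nat_lit 7665114769) (nat_lit 152) (nat_lit 283329080481) (nat_lit 0) (nat_lit 5929451408) (nat_lit 1) (nat_lit 5) (nat_lit 3) (nat_lit 4) (nat_lit 1) (nat_lit 4) (nat_lit 348) (nat_lit 195) (nat_lit 177))) (XT.nd (nat_lit 78) (nat_lit 0) (nat_lit 0) (XT.lf (nat_lit 0) (nat_lit 8798275716) (nat_lit 152) (nat_lit 295920812234) (nat_lit 0) (nat_lit 7003853997) (nat_lit 1) (nat_lit 5) (nat_lit 3) (nat_lit 4) (nat_lit 1) (nat_lit 4) (nat_lit 349) (nat_lit 195) (nat_lit 176)) (XT.lf (nat_lit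 0) (nat_lit 9968933600) (nat_lit 152) (nat_lit 309175716889) (nat_lit 0) (nat_lit 8118551540) (nat_lit 1) (nat_lit 5) (nat_lit 3) (nat_lit 4) (nat_lit 1) (nat_lit 4) (nat_lit 350) (nat_lit 195) (nat_lit 175)))) (XT.nd (nat_lit 156) (nat_lit 0) (nat_lit 0) (XT.nd (nat_lit 78) (nat_lit 0) (nat_lit 0) (XT.lf (nat_lit 0) (nat_lit 11179875699) (nat_lit 152) (nat_lit 323125353742) (nat_lit 0) (nat_lit 9276198077) (nat_lit 1) (nat_lit 5) (nat_lit 3) (nat_lit 4) (nat_lit 1) (nat_lit 4) (nat_lit 351) (nat_lit 195) (nat_lit 174)) (XT.lf (nat_lit 0) (nat_lit 12433985210) (nat_lit 152) (nat_lit 337802936216) (nat_lit 0) (nat_lit 10479549909) (nat_lit 1) (nat_lit 5) (nat_lit 3) (nat_lit 4) (nat_lit 1) (nat_lit 4) (nat_lit 352) (nat_lit 195) (nat_lit 173))) (XT.nd (nat_lit 78) (nat_lit 0) (nat_lit 0) (XT.lf (nat_lit 0) (nat_lit 13734248108) (nat_lit 152) (nat_lit 353243410934) (nat_lit 0) (nat_lit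 11731472161) (nat_lit 1) (nat_lit 5) (nat_lit 3) (nat_lit 4) (nat_lit 1) (nat_lit 4) (nat_lit 353) (nat_lit 195) (nat_lit 172)) (XT.lf (nat_lit 0) (nat_lit 15083760257) (nat_lit 152) (nat_lit 369483540932) (nat_lit 0) (nat_lit 13034945599) (nat_lit 1) (nat_lit 5) (nat_lit 3) (nat_lit 4) (nat_lit 1) (nat_lit 4) (nat_lit 354) (nat_lit 195) (nat_lit 171))))) (XT.nd (nat_lit 312) (nat_lit 0) (nat_lit 0) (XT.nd (nat_lit 156) (nat_lit 0) (nat_lit 0) (XT.nd (nat_lit 78) (nat_lit 0) (nat_lit 0) (XT.lf (nat_lit 0) (nat_lit 16485734781) (nat_lit 152) (nat_lit 386561993187) (nat_lit 0) (nat_lit 14393073732) (nat_lit 1) (nat_lit 5) (nat_lit 3) (nat_lit 4) (nat_lit 1) (nat_lit 4) (nat_lit 355) (nat_lit 195) (nat_lit 170)) (XT.lf (nat_lit 0) (nat_lit 17943509715) (nat_lit 152) (nat_lit 404519430679) (nat_lit 0) (nat_lit 15809090197) (nat_lit 1) (nat_lit 5) (nat_lit 3) (nat_lit 4) (nat_lit 1) (nat_lit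 4) (nat_lit 356) (nat_lit 195) (nat_lit 169))) (XT.nd (nat_lit 78) (nat_lit 0) (nat_lit 0) (XT.lf (nat_lit 0) (nat_lit 19460555951) (nat_lit 152) (nat_lit 423398609212) (nat_lit 0) (nat_lit 17286366464) (nat_lit 1) (nat_lit 5) (nat_lit 3) (nat_lit 4) (nat_lit 1) (nat_lit 4) (nat_lit 357) (nat_lit 195) (nat_lit 168)) (XT.lf (nat_lit 0) (nat_lit 21040485504) (nat_lit 152) (nat_lit 443244479212) (nat_lit 0) (nat_lit 18828419855) (nat_lit 1) (nat_lit 5) (nat_lit 3) (nat_lit 4) (nat_lit 1) (nat_lit 4) (nat_lit 358) (nat_lit 195) (nat_lit 167)))) (XT.nd (nat_lit 35100) (nat_lit 0) (nat_lit 152) (XT.nd (nat_lit 78) (nat_lit 0) (nat_lit 0) (XT.lf (nat_lit 0) (nat_lit 22687060111) (nat_lit 152) (nat_lit 464104292749) (nat_lit 0) (nat_lit 20438921928) (nat_lit 1) (nat_lit 5) (nat_lit 3) (nat_lit 4) (nat_lit 1) (nat_lit 4) (nat_lit 359) (nat_lit 195) (nat_lit 166)) (XT.lf (nat_lit 0) (nat_lit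 24404200188) (nat_lit 152) (nat_lit 486027716047) (nat_lit 0) (nat_lit 22121707210) (nat_lit 1) (nat_lit 5) (nat_lit 3) (nat_lit 4) (nat_lit 1) (nat_lit 4) (nat_lit 360) (nat_lit 195) (nat_lit 165))) (XT.nd (nat_lit 78) (nat_lit 0) (nat_lit 0) (XT.lf (nat_lit 0) (nat_lit 45862238805) (nat_lit 76) (nat_lit 5240101389) (nat_lit 76) (nat_lit 5240101389) (nat_lit 3) (nat_lit 4) (nat_lit 4) (nat_lit 5) (nat_lit 4) (nat_lit 4) (nat_lit 328) (nat_lit 196) (nat_lit 196)) (XT.nd (nat_lit 78) (nat_lit 0) (nat_lit 0) (XT.lf (nat_lit 0) (nat_lit 98807316199) (nat_lit 76) (nat_lit 9795791794) (nat_lit 76) (nat_lit 9639888378) (nat_lit 3) (nat_lit 4) (nat_lit 4) (nat_lit 5) (nat_lit 4) (nat_lit 4) (nat_lit 329) (nat_lit 196) (nat_lit 195)) (XT.lf (nat_lit 0) (nat_lit 106165678281) (nat_lit 76) (nat_lit 9110058589) (nat_lit 76) (nat_lit 8805675730) (nat_lit 3) (nat_lit 4) (nat_lit 4) (nat_lit 5)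 (nat_lit 4) (nat_lit 4) (nat_lit 330) (nat_lit 196) (nat_lit 194))))))))
noncomputable def xc6 : XT := (XT.nd (nat_lit 37284) (nat_lit 0) (nat_lit 0) (XT.nd (nat_lit 1248) (nat_lit 0) (nat_lit 0) (XT.nd (nat_lit 624) (nat_lit 152) (nat_lit 0) (XT.nd (nat_lit 312) (nat_lit 0) (nat_lit 0) (XT.nd (nat_lit 156) (nat_lit 0) (nat_lit 0) (XT.nd (nat_lit 78) (nat_lit 0) (nat_lit 0) (XT.lf (nat_lit 0) (nat_lit 113817083768) (nat_lit 76) (nat_lit 8421370466) (nat_lit 76) (nat_lit 7975578612) (nat_lit 3) (nat_lit 4) (nat_lit 4) (nat_lit 5) (nat_lit 4) (nat_lit 4) (nat_lit 331) (nat_lit 196) (nat_lit 193)) (XT.lf (nat_lit 0) (nat_lit 121779750290) (nat_lit 76) (nat_lit 7728087690) (nat_lit 76) (nat_lit 7147620604) (nat_lit 3) (nat_lit 4) (nat_lit 4) (nat_lit 5) (nat_lit 4) (nat_lit 4) (nat_lit 332) (nat_lit 196) (nat_lit 192))) (XT.nd (nat_lit 78) (nat_lit 0) (nat_lit 0) (XT.lf (nat_lit 0) (nat_lit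 130072636578) (nat_lit 76) (nat_lit 7028559589) (nat_lit 76) (nat_lit 6319830376) (nat_lit 3) (nat_lit 4) (nat_lit 4) (nat_lit 5) (nat_lit 4) (nat_lit 4) (nat_lit 333) (nat_lit 196) (nat_lit 191)) (XT.lf (nat_lit 0) (nat_lit 138715487599) (nat_lit 76) (nat_lit 6321120619) (nat_lit 76) (nat_lit 5490237001) (nat_lit 3) (nat_lit 4) (nat_lit 4) (nat_lit 5) (nat_lit 4) (nat_lit 4) (nat_lit 334) (nat_lit 196) (nat_lit 190)))) (XT.nd (nat_lit 156) (nat_lit 0) (nat_lit 0) (XT.nd (nat_lit 78) (nat_lit 0) (nat_lit 0) (XT.lf (nat_lit 0) (nat_lit 147728881569) (nat_lit 76) (nat_lit 5604086402) (nat_lit 76) (nat_lit 4656865254) (nat_lit 3) (nat_lit 4) (nat_lit 4) (nat_lit 5) (nat_lit 4) (nat_lit 4) (nat_lit 335) (nat_lit 196) (nat_lit 189)) (XT.lf (nat_lit 0) (nat_lit 157134278951) (nat_lit 76) (nat_lit 4875749713) (nat_lit 76) (nat_lit 3817730919) (nat_lit 3) (nat_lit 4) (nat_lit 4) (nat_lit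 5) (nat_lit 4) (nat_lit 4) (nat_lit 336) (nat_lit 196) (nat_lit 188))) (XT.nd (nat_lit 78) (nat_lit 0) (nat_lit 0) (XT.lf (nat_lit 0) (nat_lit 166954073548) (nat_lit 76) (nat_lit 4134376418) (nat_lit 76) (nat_lit 2970836055) (nat_lit 3) (nat_lit 4) (nat_lit 4) (nat_lit 5) (nat_lit 4) (nat_lit 4) (nat_lit 337) (nat_lit 196) (nat_lit 187)) (XT.lf (nat_lit 0) (nat_lit 177211645823) (nat_lit 76) (nat_lit 3378201343) (nat_lit 76) (nat_lit 2114164248) (nat_lit 3) (nat_lit 4) (nat_lit 4) (nat_lit 5) (nat_lit 4) (nat_lit 4) (nat_lit 338) (nat_lit 196) (nat_lit 186))))) (XT.nd (nat_lit 312) (nat_lit 0) (nat_lit 0) (XT.nd (nat_lit 156) (nat_lit 152) (nat_lit 0) (XT.nd (nat_lit 78) (nat_lit 0) (nat_lit 0) (XT.lf (nat_lit 0) (nat_lit 187931418567) (nat_lit 76) (nat_lit 2605424069) (nat_lit 76) (nat_lit 1245675801) (nat_lit 3) (nat_lit 4) (nat_lit 4) (nat_lit 5) (nat_lit 4) (nat_lit 4) (nat_lit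 339) (nat_lit 196) (nat_lit 185)) (XT.lf (nat_lit 0) (nat_lit 199138915049) (nat_lit 76) (nat_lit 1814204652) (nat_lit 76) (nat_lit 363302885) (nat_lit 3) (nat_lit 4) (nat_lit 4) (nat_lit 5) (nat_lit 4) (nat_lit 4) (nat_lit 340) (nat_lit 196) (nat_lit 184))) (XT.nd (nat_lit 78) (nat_lit 76) (nat_lit 0) (XT.lf (nat_lit 0) (nat_lit 517930272) (nat_lit 152) (nat_lit 475957563) (nat_lit 76) (nat_lit 210334118111) (nat_lit 2) (nat_lit 5) (nat_lit 4) (nat_lit 5) (nat_lit 3) (nat_lit 4) (nat_lit 341) (nat_lit 196) (nat_lit 183)) (XT.lf (nat_lit 0) (nat_lit 1301681764) (nat_lit 76) (nat_lit 123720819) (nat_lit 152) (nat_lit 220414807816) (nat_lit 1) (nat_lit 5) (nat_lit 2) (nat_lit 5) (nat_lit 3) (nat_lit 4) (nat_lit 342) (nat_lit 196) (nat_lit 182)))) (XT.nd (nat_lit 156) (nat_lit 0) (nat_lit 0) (XT.nd (nat_lit 78) (nat_lit 0) (nat_lit 0) (XT.lf (nat_lit 0) (nat_lit 2373096905) (nat_lit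 152) (nat_lit 229750369234) (nat_lit 0) (nat_lit 754872760) (nat_lit 1) (nat_lit 5) (nat_lit 3) (nat_lit 4) (nat_lit 1) (nat_lit 4) (nat_lit 343) (nat_lit 196) (nat_lit 181)) (XT.lf (nat_lit 0) (nat_lit 3345749178) (nat_lit 152) (nat_lit 239467695666) (nat_lit 0) (nat_lit 1656103883) (nat_lit 1) (nat_lit 5) (nat_lit 3) (nat_lit 4) (nat_lit 1) (nat_lit 4) (nat_lit 344) (nat_lit 196) (nat_lit 180))) (XT.nd (nat_lit 78) (nat_lit 0) (nat_lit 0) (XT.lf (nat_lit 0) (nat_lit 4343743615) (nat_lit 152) (nat_lit 249711712796) (nat_lit 0) (nat_lit 2586078175) (nat_lit 1) (nat_lit 5) (nat_lit 3) (nat_lit 4) (nat_lit 1) (nat_lit 4) (nat_lit 345) (nat_lit 196) (nat_lit 179)) (XT.lf (nat_lit 0) (nat_lit 5369456391) (nat_lit 152) (nat_lit 260506811139) (nat_lit 0) (nat_lit 3547009862) (nat_lit 1) (nat_lit 5) (nat_lit 3) (nat_lit 4) (nat_lit 1) (nat_lit 4) (nat_lit 346) (nat_lit 196) (nat_lit 178))))))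 (XT.nd (nat_lit 624) (nat_lit 0) (nat_lit 0) (XT.nd (nat_lit 312) (nat_lit 0) (nat_lit 0) (XT.nd (nat_lit 156) (nat_lit 0) (nat_lit 0) (XT.nd (nat_lit 78) (nat_lit 0) (nat_lit 0) (XT.lf (nat_lit 0) (nat_lit 6425329680) (nat_lit 152) (nat_lit 271878693311) (nat_lit 0) (nat_lit 4541186875) (nat_lit 1) (nat_lit 5) (nat_lit 3) (nat_lit 4) (nat_lit 1) (nat_lit 4) (nat_lit 347) (nat_lit 196) (nat_lit 177)) (XT.lf (nat_lit 0) (nat_lit 7513877466) (nat_lit 152) (nat_lit 283854435221) (nat_lit 0) (nat_lit 5570976303) (nat_lit 1) (nat_lit 5) (nat_lit 3) (nat_lit 4) (nat_lit 1) (nat_lit 4) (nat_lit 348) (nat_lit 196) (nat_lit 176))) (XT.nd (nat_lit 78) (nat_lit 0) (nat_lit 0) (XT.lf (nat_lit 0) (nat_lit 8637691530) (nat_lit 152) (nat_lit 296462550542) (nat_lit 0) (nat_lit 6638830026) (nat_lit 1) (nat_lit 5) (nat_lit 3) (nat_lit 4) (nat_lit 1) (nat_lit 4) (nat_lit 349) (nat_lit 196) (nat_lit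 175)) (XT.lf (nat_lit 0) (nat_lit 9799447619) (nat_lit 152) (nat_lit 309733058595) (nat_lit 0) (nat_lit 7747290553) (nat_lit 1) (nat_lit 5) (nat_lit 3) (nat_lit 4) (nat_lit 1) (nat_lit 4) (nat_lit 350) (nat_lit 196) (nat_lit 174)))) (XT.nd (nat_lit 156) (nat_lit 0) (nat_lit 0) (XT.nd (nat_lit 78) (nat_lit 0) (nat_lit 0) (XT.lf (nat_lit 0) (nat_lit 11001911819) (nat_lit 152) (nat_lit 323697555828) (nat_lit 0) (nat_lit 8898997075) (nat_lit 1) (nat_lit 5) (nat_lit 3) (nat_lit 4) (nat_lit 1) (nat_lit 4) (nat_lit 351) (nat_lit 196) (nat_lit 173)) (XT.lf (nat_lit 0) (nat_lit 12247947141) (nat_lit 152) (nat_lit 338389291043) (nat_lit 0) (nat_lit 10096691750) (nat_lit 1) (nat_lit 5) (nat_lit 3) (nat_lit 4) (nat_lit 1) (nat_lit 4) (nat_lit 352) (nat_lit 196) (nat_lit 172))) (XT.nd (nat_lit 78) (nat_lit 0) (nat_lit 0) (XT.lf (nat_lit 0) (nat_lit 13540520335) (nat_lit 152) (nat_lit 353843244563)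 (nat_lit 0) (nat_lit 11343226233) (nat_lit 1) (nat_lit 5) (nat_lit 3) (nat_lit 4) (nat_lit 1) (nat_lit 4) (nat_lit 353) (nat_lit 196) (nat_lit 171)) (XT.lf (nat_lit 0) (nat_lit 14882708956) (nat_lit 152) (nat_lit 370096211516) (nat_lit 0) (nat_lit 12641568462) (nat_lit 1) (nat_lit 5) (nat_lit 3) (nat_lit 4) (nat_lit 1) (nat_lit 4) (nat_lit 354) (nat_lit 196) (nat_lit 170))))) (XT.nd (nat_lit 312) (nat_lit 0) (nat_lit 0) (XT.nd (nat_lit 156) (nat_lit 0) (nat_lit 0) (XT.nd (nat_lit 78) (nat_lit 0) (nat_lit 0) (XT.lf (nat_lit 0) (nat_lit 16277708691) (nat_lit 152) (nat_lit 387186889441) (nat_lit 0) (nat_lit 13994809730) (nat_lit 1) (nat_lit 5) (nat_lit 3) (nat_lit 4) (nat_lit 1) (nat_lit 4) (nat_lit 355) (nat_lit 196) (nat_lit 169)) (XT.lf (nat_lit 0) (nat_lit 17728840969) (nat_lit 152) (nat_lit 405155970429) (nat_lit 0) (nat_lit 15406172038) (nat_lit 1) (nat_lit 5) (nat_lit 3) (nat_lit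 4) (nat_lit 1) (nat_lit 4) (nat_lit 356) (nat_lit 196) (nat_lit 168))) (XT.nd (nat_lit 78) (nat_lit 0) (nat_lit 0) (XT.lf (nat_lit 0) (nat_lit 19239560866) (nat_lit 152) (nat_lit 424046238006) (nat_lit 0) (nat_lit 16879015774) (nat_lit 1) (nat_lit 5) (nat_lit 3) (nat_lit 4) (nat_lit 1) (nat_lit 4) (nat_lit 357) (nat_lit 196) (nat_lit 167)) (XT.lf (nat_lit 0) (nat_lit 20813465334) (nat_lit 152) (nat_lit 443902669000) (nat_lit 0) (nat_lit 18416847707) (nat_lit 1) (nat_lit 5) (nat_lit 3) (nat_lit 4) (nat_lit 1) (nat_lit 4) (nat_lit 358) (nat_lit 196) (nat_lit 166)))) (XT.nd (nat_lit 34944) (nat_lit 0) (nat_lit 152) (XT.nd (nat_lit 78) (nat_lit 0) (nat_lit 0) (XT.lf (nat_lit 0) (nat_lit 22454301765) (nat_lit 152) (nat_lit 464772540626) (nat_lit 0) (nat_lit 20023329344) (nat_lit 1) (nat_lit 5) (nat_lit 3) (nat_lit 4) (nat_lit 1) (nat_lit 4) (nat_lit 359) (nat_lit 196) (nat_lit 165)) (XT.lf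 (nat_lit 0) (nat_lit 24165976913) (nat_lit 152) (nat_lit 486705543057) (nat_lit 0) (nat_lit 21702285639) (nat_lit 1) (nat_lit 5) (nat_lit 3) (nat_lit 4) (nat_lit 1) (nat_lit 4) (nat_lit 360) (nat_lit 196) (nat_lit 164))) (XT.nd (nat_lit 78) (nat_lit 0) (nat_lit 0) (XT.lf (nat_lit 0) (nat_lit 39180406271) (nat_lit 76) (nat_lit 5998791361) (nat_lit 76) (nat_lit 5998791361) (nat_lit 3) (nat_lit 4) (nat_lit 4) (nat_lit 5) (nat_lit 4) (nat_lit 4) (nat_lit 326) (nat_lit 197) (nat_lit 197)) (XT.lf (nat_lit 0) (nat_lit 84900298613) (nat_lit 76) (nat_lit 11328619679) (nat_lit 76) (nat_lit 11164921093) (nat_lit 3) (nat_lit 4) (nat_lit 4) (nat_lit 5) (nat_lit 4) (nat_lit 4) (nat_lit 327) (nat_lit 197) (nat_lit 196))))))) (XT.nd (nat_lit 1248) (nat_lit 0) (nat_lit 0) (XT.nd (nat_lit 624) (nat_lit 152) (nat_lit 0) (XT.nd (nat_lit 312) (nat_lit 0) (nat_lit 0) (XT.nd (nat_lit 156) (nat_lit 0) (nat_lit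 0) (XT.nd (nat_lit 78) (nat_lit 0) (nat_lit 0) (XT.lf (nat_lit 0) (nat_lit 91684209630) (nat_lit 76) (nat_lit 10660751729) (nat_lit 76) (nat_lit 10341149726) (nat_lit 3) (nat_lit 4) (nat_lit 4) (nat_lit 5) (nat_lit 4) (nat_lit 4) (nat_lit 328) (nat_lit 197) (nat_lit 195)) (XT.lf (nat_lit 0) (nat_lit 98728697763) (nat_lit 76) (nat_lit 9992388710) (nat_lit 76) (nat_lit 9524307263) (nat_lit 3) (nat_lit 4) (nat_lit 4) (nat_lit 5) (nat_lit 4) (nat_lit 4) (nat_lit 329) (nat_lit 197) (nat_lit 194))) (XT.nd (nat_lit 78) (nat_lit 0) (nat_lit 0) (XT.lf (nat_lit 0) (nat_lit 106050535602) (nat_lit 76) (nat_lit 9321939281) (nat_lit 76) (nat_lit 8712448841) (nat_lit 3) (nat_lit 4) (nat_lit 4) (nat_lit 5) (nat_lit 4) (nat_lit 4) (nat_lit 330) (nat_lit 197) (nat_lit 193)) (XT.lf (nat_lit 0) (nat_lit 113667156094) (nat_lit 76) (nat_lit 8647807135) (nat_lit 76) (nat_lit 7903641462) (nat_lit 3) (nat_lit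 4) (nat_lit 4) (nat_lit 5) (nat_lit 4) (nat_lit 4) (nat_lit 331) (nat_lit 197) (nat_lit 192)))) (XT.nd (nat_lit 156) (nat_lit 0) (nat_lit 0) (XT.nd (nat_lit 78) (nat_lit 0) (nat_lit 0) (XT.lf (nat_lit 0) (nat_lit 121596694050) (nat_lit 76) (nat_lit 7968387195) (nat_lit 76) (nat_lit 7095959396) (nat_lit 3) (nat_lit 4) (nat_lit 4) (nat_lit 5) (nat_lit 4) (nat_lit 4) (nat_lit 332) (nat_lit 197) (nat_lit 191)) (XT.lf (nat_lit 0) (nat_lit 129858029323) (nat_lit 76) (nat_lit 7282061795) (nat_lit 76) (nat_lit 6287479590) (nat_lit 3) (nat_lit 4) (nat_lit 4) (nat_lit 5) (nat_lit 4) (nat_lit 4) (nat_lit 333) (nat_lit 197) (nat_lit 190))) (XT.nd (nat_lit 78) (nat_lit 0) (nat_lit 0) (XT.lf (nat_lit 0) (nat_lit 138470831757) (nat_lit 76) (nat_lit 6587196825) (nat_lit 76) (nat_lit 5476277091) (nat_lit 3) (nat_lit 4) (nat_lit 4) (nat_lit 5) (nat_lit 4) (nat_lit 4) (nat_lit 334) (nat_lit 197) (nat_lit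 189)) (XT.lf (nat_lit 0) (nat_lit 147455608027) (nat_lit 76) (nat_lit 5882137847) (nat_lit 76) (nat_lit 4660420466) (nat_lit 3) (nat_lit 4) (nat_lit 4) (nat_lit 5) (nat_lit 4) (nat_lit 4) (nat_lit 335) (nat_lit 197) (nat_lit 188))))) (XT.nd (nat_lit 312) (nat_lit 152) (nat_lit 0) (XT.nd (nat_lit 156) (nat_lit 0) (nat_lit 0) (XT.nd (nat_lit 78) (nat_lit 0) (nat_lit 0) (XT.lf (nat_lit 0) (nat_lit 156833750455) (nat_lit 76) (nat_lit 5165206148) (nat_lit 76) (nat_lit 3837967198) (nat_lit 3) (nat_lit 4) (nat_lit 4) (nat_lit 5) (nat_lit 4) (nat_lit 4) (nat_lit 336) (nat_lit 197) (nat_lit 187)) (XT.lf (nat_lit 0) (nat_lit 166627587954) (nat_lit 76) (nat_lit 4434694748) (nat_lit 76) (nat_lit 3006959066) (nat_lit 3) (nat_lit 4) (nat_lit 4) (nat_lit 5) (nat_lit 4) (nat_lit 4) (nat_lit 337) (nat_lit 197) (nat_lit 186))) (XT.nd (nat_lit 78) (nat_lit 0) (nat_lit 0) (XT.lf (nat_lit 0) (nat_lit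 176860439182) (nat_lit 76) (nat_lit 3688864333) (nat_lit 76) (nat_lit 2165417478) (nat_lit 3) (nat_lit 4) (nat_lit 4) (nat_lit 5) (nat_lit 4) (nat_lit 4) (nat_lit 338) (nat_lit 197) (nat_lit 185)) (XT.lf (nat_lit 0) (nat_lit 187556668073) (nat_lit 76) (nat_lit 2925939118) (nat_lit 76) (nat_lit 1311338765) (nat_lit 3) (nat_lit 4) (nat_lit 4) (nat_lit 5) (nat_lit 4) (nat_lit 4) (nat_lit 339) (nat_lit 197) (nat_lit 184)))) (XT.nd (nat_lit 156) (nat_lit 76) (nat_lit 0) (XT.nd (nat_lit 78) (nat_lit 76) (nat_lit 0) (XT.lf (nat_lit 0) (nat_lit 198741741837) (nat_lit 76) (nat_lit 2144102614) (nat_lit 76) (nat_lit 442689405) (nat_lit 3) (nat_lit 4) (nat_lit 4) (nat_lit 5) (nat_lit 4) (nat_lit 4) (nat_lit 340) (nat_lit 197) (nat_lit 183)) (XT.lf (nat_lit 0) (nat_lit 428432887) (nat_lit 152) (nat_lit 905804699) (nat_lit 76) (nat_lit 210006602997) (nat_lit 2) (nat_lit 5) (nat_lit 4) (nat_lit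 5) (nat_lit 3) (nat_lit 4) (nat_lit 341) (nat_lit 197) (nat_lit 182))) (XT.nd (nat_lit 78) (nat_lit 0) (nat_lit 0) (XT.lf (nat_lit 0) (nat_lit 836171487) (nat_lit 76) (nat_lit 480416525) (nat_lit 152) (nat_lit 220537450320) (nat_lit 1) (nat_lit 5) (nat_lit 2) (nat_lit 5) (nat_lit 3) (nat_lit 4) (nat_lit 342) (nat_lit 197) (nat_lit 181)) (XT.lf (nat_lit 0) (nat_lit 2246784058) (nat_lit 152) (nat_lit 230245048470) (nat_lit 0) (nat_lit 401235347) (nat_lit 1) (nat_lit 5) (nat_lit 3) (nat_lit 4) (nat_lit 1) (nat_lit 4) (nat_lit 343) (nat_lit 197) (nat_lit 180)))))) (XT.nd (nat_lit 624) (nat_lit 0) (nat_lit 0) (XT.nd (nat_lit 312) (nat_lit 0) (nat_lit 0) (XT.nd (nat_lit 156) (nat_lit 0) (nat_lit 0) (XT.nd (nat_lit 78) (nat_lit 0) (nat_lit 0) (XT.lf (nat_lit 0) (nat_lit 3208075136) (nat_lit 152) (nat_lit 239982289232) (nat_lit 0) (nat_lit 1294506281) (nat_lit 1) (nat_lit 5) (nat_lit 3) (nat_lit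 4) (nat_lit 1) (nat_lit 4) (nat_lit 344) (nat_lit 197) (nat_lit 179)) (XT.lf (nat_lit 0) (nat_lit 4195249386) (nat_lit 152) (nat_lit 250245272389) (nat_lit 0) (nat_lit 2216899441) (nat_lit 1) (nat_lit 5) (nat_lit 3) (nat_lit 4) (nat_lit 1) (nat_lit 4) (nat_lit 345) (nat_lit 197) (nat_lit 178))) (XT.nd (nat_lit 78) (nat_lit 0) (nat_lit 0) (XT.lf (nat_lit 0) (nat_lit 5210657223) (nat_lit 152) (nat_lit 261058433616) (nat_lit 0) (nat_lit 3170611002) (nat_lit 1) (nat_lit 5) (nat_lit 3) (nat_lit 4) (nat_lit 1) (nat_lit 4) (nat_lit 346) (nat_lit 197) (nat_lit 177)) (XT.lf (nat_lit 0) (nat_lit 6256716284) (nat_lit 152) (nat_lit 272447518534) (nat_lit 0) (nat_lit 4157911705) (nat_lit 1) (nat_lit 5) (nat_lit 3) (nat_lit 4) (nat_lit 1) (nat_lit 4) (nat_lit 347) (nat_lit 197) (nat_lit 176)))) (XT.nd (nat_lit 156) (nat_lit 0) (nat_lit 0) (XT.nd (nat_lit 78) (nat_lit 0) (nat_lit 0) (XT.lf (nat_lit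 0) (nat_lit 7335917186) (nat_lit 152) (nat_lit 284439644013) (nat_lit 0) (nat_lit 5181152267) (nat_lit 1) (nat_lit 5) (nat_lit 3) (nat_lit 4) (nat_lit 1) (nat_lit 4) (nat_lit 348) (nat_lit 197) (nat_lit 175)) (XT.lf (nat_lit 0) (nat_lit 8450829456) (nat_lit 152) (nat_lit 297063362732) (nat_lit 0) (nat_lit 6242768974) (nat_lit 1) (nat_lit 5) (nat_lit 3) (nat_lit 4) (nat_lit 1) (nat_lit 4) (nat_lit 349) (nat_lit 197) (nat_lit 174))) (XT.nd (nat_lit 78) (nat_lit 0) (nat_lit 0) (XT.lf (nat_lit 0) (nat_lit 9604107646) (nat_lit 152) (nat_lit 310348731164) (nat_lit 0) (nat_lit 7345289485) (nat_lit 1) (nat_lit 5) (nat_lit 3) (nat_lit 4) (nat_lit 1) (nat_lit 4) (nat_lit 350) (nat_lit 197) (nat_lit 173)) (XT.lf (nat_lit 0) (nat_lit 10798497657) (nat_lit 152) (nat_lit 324327381138) (nat_lit 0) (nat_lit 8491338850) (nat_lit 1) (nat_lit 5) (nat_lit 3) (nat_lit 4) (nat_lit 1) (nat_lit 4) (nat_lit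 351) (nat_lit 197) (nat_lit 172))))) (XT.nd (nat_lit 312) (nat_lit 0) (nat_lit 0) (XT.nd (nat_lit 156) (nat_lit 0) (nat_lit 0) (XT.nd (nat_lit 78) (nat_lit 0) (nat_lit 0) (XT.lf (nat_lit 0) (nat_lit 12036843274) (nat_lit 152) (nat_lit 339032595156) (nat_lit 0) (nat_lit 9683645756) (nat_lit 1) (nat_lit 5) (nat_lit 3) (nat_lit 4) (nat_lit 1) (nat_lit 4) (nat_lit 352) (nat_lit 197) (nat_lit 171)) (XT.lf (nat_lit 0) (nat_lit 13322092940) (nat_lit 152) (nat_lit 354499385630) (nat_lit 0) (nat_lit 10925049031) (nat_lit 1) (nat_lit 5) (nat_lit 3) (nat_lit 4) (nat_lit 1) (nat_lit 4) (nat_lit 353) (nat_lit 197) (nat_lit 170))) (XT.nd (nat_lit 78) (nat_lit 0) (nat_lit 0) (XT.lf (nat_lit 0) (nat_lit 14657306772) (nat_lit 152) (nat_lit 370764578254) (nat_lit 0) (nat_lit 12218504395) (nat_lit 1) (nat_lit 5) (nat_lit 3) (nat_lit 4) (nat_lit 1) (nat_lit 4) (nat_lit 354) (nat_lit 197) (nat_lit 169))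 (XT.lf (nat_lit 0) (nat_lit 16045663852) (nat_lit 152) (nat_lit 387866899675) (nat_lit 0) (nat_lit 13567091505) (nat_lit 1) (nat_lit 5) (nat_lit 3) (nat_lit 4) (nat_lit 1) (nat_lit 4) (nat_lit 355) (nat_lit 197) (nat_lit 168)))) (XT.nd (nat_lit 156) (nat_lit 0) (nat_lit 0) (XT.nd (nat_lit 78) (nat_lit 0) (nat_lit 0) (XT.lf (nat_lit 0) (nat_lit 17490469790) (nat_lit 152) (nat_lit 405847069706) (nat_lit 0) (nat_lit 14974021283) (nat_lit 1) (nat_lit 5) (nat_lit 3) (nat_lit 4) (nat_lit 1) (nat_lit 4) (nat_lit 356) (nat_lit 197) (nat_lit 167)) (XT.lf (nat_lit 0) (nat_lit 18995164603) (nat_lit 152) (nat_lit 424747898277) (nat_lit 0) (nat_lit 16442643560) (nat_lit 1) (nat_lit 5) (nat_lit 3) (nat_lit 4) (nat_lit 1) (nat_lit 4) (nat_lit 357) (nat_lit 197) (nat_lit 166))) (XT.nd (nat_lit 78) (nat_lit 0) (nat_lit 0) (XT.lf (nat_lit 0) (nat_lit 20563330895) (nat_lit 152) (nat_lit 444614387360)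 (nat_lit 0) (nat_lit 17976455058) (nat_lit 1) (nat_lit 5) (nat_lit 3) (nat_lit 4) (nat_lit 1) (nat_lit 4) (nat_lit 358) (nat_lit 197) (nat_lit 165)) (XT.lf (nat_lit 0) (nat_lit 22198702397) (nat_lit 152) (nat_lit 465493838120) (nat_lit 0) (nat_lit 19579107708) (nat_lit 1) (nat_lit 5) (nat_lit 3) (nat_lit 4) (nat_lit 1) (nat_lit 4) (nat_lit 359) (nat_lit 197) (nat_lit 164))))))))
noncomputable def xc7 : XT := (XT.nd (nat_lit 35880) (nat_lit 0) (nat_lit 0) (XT.nd (nat_lit 35256) (nat_lit 0) (nat_lit 152) (XT.nd (nat_lit 34944) (nat_lit 0) (nat_lit 152) (XT.nd (nat_lit 34788) (nat_lit 0) (nat_lit 152) (XT.nd (nat_lit 34710) (nat_lit 0) (nat_lit 152) (XT.lf (nat_lit 0) (nat_lit 23905172850) (nat_lit 152) (nat_lit 487435963535) (nat_lit 0) (nat_lit 21254417349) (nat_lit 1) (nat_lit 5) (nat_lit 3) (nat_lit 4) (nat_lit 1) (nat_lit 4) (nat_lit 360) (nat_lit 197) (nat_lit 163)) (XT.lf (nat_lit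 0) (nat_lit 32998887379) (nat_lit 76) (nat_lit 6749238777) (nat_lit 76) (nat_lit 6749238777) (nat_lit 3) (nat_lit 4) (nat_lit 4) (nat_lit 5) (nat_lit 4) (nat_lit 4) (nat_lit 324) (nat_lit 198) (nat_lit 198))) (XT.nd (nat_lit 78) (nat_lit 0) (nat_lit 0) (XT.lf (nat_lit 0) (nat_lit 72050181212) (nat_lit 76) (nat_lit 12841117145) (nat_lit 76) (nat_lit 12669233629) (nat_lit 3) (nat_lit 4) (nat_lit 4) (nat_lit 5) (nat_lit 4) (nat_lit 4) (nat_lit 325) (nat_lit 198) (nat_lit 197)) (XT.lf (nat_lit 0) (nat_lit 78318531164) (nat_lit 76) (nat_lit 12187159121) (nat_lit 76) (nat_lit 11851577018) (nat_lit 3) (nat_lit 4) (nat_lit 4) (nat_lit 5) (nat_lit 4) (nat_lit 4) (nat_lit 326) (nat_lit 198) (nat_lit 196)))) (XT.nd (nat_lit 156) (nat_lit 0) (nat_lit 0) (XT.nd (nat_lit 78) (nat_lit 0) (nat_lit 0) (XT.lf (nat_lit 0) (nat_lit 84817749256) (nat_lit 76) (nat_lit 11535046441) (nat_lit 76) (nat_lit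 11043560922) (nat_lit 3) (nat_lit 4) (nat_lit 4) (nat_lit 5) (nat_lit 4) (nat_lit 4) (nat_lit 327) (nat_lit 198) (nat_lit 195)) (XT.lf (nat_lit 0) (nat_lit 91563309817) (nat_lit 76) (nat_lit 10883226456) (nat_lit 76) (nat_lit 10243261493) (nat_lit 3) (nat_lit 4) (nat_lit 4) (nat_lit 5) (nat_lit 4) (nat_lit 4) (nat_lit 328) (nat_lit 198) (nat_lit 194))) (XT.nd (nat_lit 78) (nat_lit 0) (nat_lit 0) (XT.lf (nat_lit 0) (nat_lit 98571273705) (nat_lit 76) (nat_lit 10230147213) (nat_lit 76) (nat_lit 9448773256) (nat_lit 3) (nat_lit 4) (nat_lit 4) (nat_lit 5) (nat_lit 4) (nat_lit 4) (nat_lit 329) (nat_lit 198) (nat_lit 193)) (XT.lf (nat_lit 0) (nat_lit 105858326550) (nat_lit 76) (nat_lit 9574253762) (nat_lit 76) (nat_lit 8658204573) (nat_lit 3) (nat_lit 4) (nat_lit 4) (nat_lit 5) (nat_lit 4) (nat_lit 4) (nat_lit 330) (nat_lit 198) (nat_lit 192))))) (XT.nd (nat_lit 312) (nat_lit 0) (nat_lit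 0) (XT.nd (nat_lit 156) (nat_lit 0) (nat_lit 0) (XT.nd (nat_lit 78) (nat_lit 0) (nat_lit 0) (XT.lf (nat_lit 0) (nat_lit 113441818476) (nat_lit 76) (nat_lit 8913984451) (nat_lit 76) (nat_lit 7869673136) (nat_lit 3) (nat_lit 4) (nat_lit 4) (nat_lit 5) (nat_lit 4) (nat_lit 4) (nat_lit 331) (nat_lit 198) (nat_lit 191)) (XT.lf (nat_lit 0) (nat_lit 121339805416) (nat_lit 76) (nat_lit 8247767212) (nat_lit 76) (nat_lit 7081301491) (nat_lit 3) (nat_lit 4) (nat_lit 4) (nat_lit 5) (nat_lit 4) (nat_lit 4) (nat_lit 332) (nat_lit 198) (nat_lit 190))) (XT.nd (nat_lit 78) (nat_lit 0) (nat_lit 0) (XT.lf (nat_lit 0) (nat_lit 129571092103) (nat_lit 76) (nat_lit 7574015812) (nat_lit 76) (nat_lit 6291212562) (nat_lit 3) (nat_lit 4) (nat_lit 4) (nat_lit 5) (nat_lit 4) (nat_lit 4) (nat_lit 333) (nat_lit 198) (nat_lit 189)) (XT.lf (nat_lit 0) (nat_lit 138155276837) (nat_lit 76) (nat_lit 6891126082) (nat_lit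 76) (nat_lit 5497525184) (nat_lit 3) (nat_lit 4) (nat_lit 4) (nat_lit 5) (nat_lit 4) (nat_lit 4) (nat_lit 334) (nat_lit 198) (nat_lit 188)))) (XT.nd (nat_lit 156) (nat_lit 0) (nat_lit 0) (XT.nd (nat_lit 78) (nat_lit 0) (nat_lit 0) (XT.lf (nat_lit 0) (nat_lit 147112798153) (nat_lit 76) (nat_lit 6197472093) (nat_lit 76) (nat_lit 4698349627) (nat_lit 3) (nat_lit 4) (nat_lit 4) (nat_lit 5) (nat_lit 4) (nat_lit 4) (nat_lit 335) (nat_lit 198) (nat_lit 187)) (XT.lf (nat_lit 0) (nat_lit 156464983483) (nat_lit 76) (nat_lit 5491402288) (nat_lit 76) (nat_lit 3891783090) (nat_lit 3) (nat_lit 4) (nat_lit 4) (nat_lit 5) (nat_lit 4) (nat_lit 4) (nat_lit 336) (nat_lit 198) (nat_lit 186))) (XT.nd (nat_lit 78) (nat_lit 0) (nat_lit 0) (XT.lf (nat_lit 0) (nat_lit 166234099935) (nat_lit 76) (nat_lit 4771235549) (nat_lit 76) (nat_lit 3075905178) (nat_lit 3) (nat_lit 4) (nat_lit 4) (nat_lit 5) (nat_lit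 4) (nat_lit 4) (nat_lit 337) (nat_lit 198) (nat_lit 185)) (XT.lf (nat_lit 0) (nat_lit 176443407310) (nat_lit 76) (nat_lit 4035257193) (nat_lit 76) (nat_lit 2248773324) (nat_lit 3) (nat_lit 4) (nat_lit 4) (nat_lit 5) (nat_lit 4) (nat_lit 4) (nat_lit 338) (nat_lit 198) (nat_lit 184)))))) (XT.nd (nat_lit 624) (nat_lit 0) (nat_lit 0) (XT.nd (nat_lit 312) (nat_lit 0) (nat_lit 0) (XT.nd (nat_lit 156) (nat_lit 152) (nat_lit 0) (XT.nd (nat_lit 78) (nat_lit 0) (nat_lit 0) (XT.lf (nat_lit 0) (nat_lit 187117213483) (nat_lit 76) (nat_lit 3281714891) (nat_lit 76) (nat_lit 1408418166) (nat_lit 3) (nat_lit 4) (nat_lit 4) (nat_lit 5) (nat_lit 4) (nat_lit 4) (nat_lit 339) (nat_lit 198) (nat_lit 183)) (XT.lf (nat_lit 0) (nat_lit 198280932278) (nat_lit 76) (nat_lit 2508814495) (nat_lit 76) (nat_lit 552838859) (nat_lit 3) (nat_lit 4) (nat_lit 4) (nat_lit 5) (nat_lit 4) (nat_lit 4) (nat_lit 340) (nat_lit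 198) (nat_lit 182))) (XT.nd (nat_lit 78) (nat_lit 76) (nat_lit 0) (XT.lf (nat_lit 0) (nat_lit 309759637) (nat_lit 152) (nat_lit 1399710198) (nat_lit 76) (nat_lit 209646138412) (nat_lit 2) (nat_lit 5) (nat_lit 4) (nat_lit 5) (nat_lit 3) (nat_lit 4) (nat_lit 341) (nat_lit 198) (nat_lit 181)) (XT.lf (nat_lit 0) (nat_lit 305506239) (nat_lit 76) (nat_lit 872647859) (nat_lit 152) (nat_lit 220691666059) (nat_lit 1) (nat_lit 5) (nat_lit 2) (nat_lit 5) (nat_lit 3) (nat_lit 4) (nat_lit 342) (nat_lit 198) (nat_lit 180)))) (XT.nd (nat_lit 156) (nat_lit 0) (nat_lit 0) (XT.nd (nat_lit 78) (nat_lit 0) (nat_lit 0) (XT.lf (nat_lit 0) (nat_lit 2090865118) (nat_lit 152) (nat_lit 230805286043) (nat_lit 0) (nat_lit 13597676) (nat_lit 1) (nat_lit 5) (nat_lit 3) (nat_lit 4) (nat_lit 1) (nat_lit 4) (nat_lit 343) (nat_lit 198) (nat_lit 179)) (XT.lf (nat_lit 0) (nat_lit 3041336010) (nat_lit 152) (nat_lit 240561492833)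 (nat_lit 0) (nat_lit 899287478) (nat_lit 1) (nat_lit 5) (nat_lit 3) (nat_lit 4) (nat_lit 1) (nat_lit 4) (nat_lit 344) (nat_lit 198) (nat_lit 178))) (XT.nd (nat_lit 78) (nat_lit 0) (nat_lit 0) (XT.lf (nat_lit 0) (nat_lit 4018205320) (nat_lit 152) (nat_lit 250842538874) (nat_lit 0) (nat_lit 1814460513) (nat_lit 1) (nat_lit 5) (nat_lit 3) (nat_lit 4) (nat_lit 1) (nat_lit 4) (nat_lit 345) (nat_lit 198) (nat_lit 177)) (XT.lf (nat_lit 0) (nat_lit 5023798929) (nat_lit 152) (nat_lit 261672902847) (nat_lit 0) (nat_lit 2761295764) (nat_lit 1) (nat_lit 5) (nat_lit 3) (nat_lit 4) (nat_lit 1) (nat_lit 4) (nat_lit 346) (nat_lit 198) (nat_lit 176))))) (XT.nd (nat_lit 312) (nat_lit 0) (nat_lit 0) (XT.nd (nat_lit 156) (nat_lit 0) (nat_lit 0) (XT.nd (nat_lit 78) (nat_lit 0) (nat_lit 0) (XT.lf (nat_lit 0) (nat_lit 6060511107) (nat_lit 152) (nat_lit 273078371333) (nat_lit 0) (nat_lit 3742047601) (nat_lit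 1) (nat_lit 5) (nat_lit 3) (nat_lit 4) (nat_lit 1) (nat_lit 4) (nat_lit 347) (nat_lit 198) (nat_lit 175)) (XT.lf (nat_lit 0) (nat_lit 7130810215) (nat_lit 152) (nat_lit 285086100210) (nat_lit 0) (nat_lit 4759051146) (nat_lit 1) (nat_lit 5) (nat_lit 3) (nat_lit 4) (nat_lit 1) (nat_lit 4) (nat_lit 348) (nat_lit 198) (nat_lit 174))) (XT.nd (nat_lit 78) (nat_lit 0) (nat_lit 0) (XT.lf (nat_lit 0) (nat_lit 8237244586) (nat_lit 152) (nat_lit 297724679308) (nat_lit 0) (nat_lit 5814727838) (nat_lit 1) (nat_lit 5) (nat_lit 3) (nat_lit 4) (nat_lit 1) (nat_lit 4) (nat_lit 349) (nat_lit 198) (nat_lit 173)) (XT.lf (nat_lit 0) (nat_lit 9382448586) (nat_lit 152) (nat_lit 311024200482) (nat_lit 0) (nat_lit 6911591192) (nat_lit 1) (nat_lit 5) (nat_lit 3) (nat_lit 4) (nat_lit 1) (nat_lit 4) (nat_lit 350) (nat_lit 198) (nat_lit 172)))) (XT.nd (nat_lit 156) (nat_lit 0) (nat_lit 0) (XT.nd (nat_lit 78)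 (nat_lit 0) (nat_lit 0) (XT.lf (nat_lit 0) (nat_lit 10569148892) (nat_lit 152) (nat_lit 325016329259) (nat_lit 0) (nat_lit 8052252788) (nat_lit 1) (nat_lit 5) (nat_lit 3) (nat_lit 4) (nat_lit 1) (nat_lit 4) (nat_lit 351) (nat_lit 198) (nat_lit 171)) (XT.lf (nat_lit 0) (nat_lit 11800170981) (nat_lit 152) (nat_lit 339734380230) (nat_lit 0) (nat_lit 9239428486) (nat_lit 1) (nat_lit 5) (nat_lit 3) (nat_lit 4) (nat_lit 1) (nat_lit 4) (nat_lit 352) (nat_lit 198) (nat_lit 170))) (XT.nd (nat_lit 78) (nat_lit 0) (nat_lit 0) (XT.lf (nat_lit 0) (nat_lit 13078445859) (nat_lit 152) (nat_lit 355213396376) (nat_lit 0) (nat_lit 10475944895) (nat_lit 1) (nat_lit 5) (nat_lit 3) (nat_lit 4) (nat_lit 1) (nat_lit 4) (nat_lit 353) (nat_lit 198) (nat_lit 169)) (XT.lf (nat_lit 0) (nat_lit 14407017035) (nat_lit 152) (nat_lit 371490232495) (nat_lit 0) (nat_lit 11764746102) (nat_lit 1) (nat_lit 5) (nat_lit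 3) (nat_lit 4) (nat_lit 1) (nat_lit 4) (nat_lit 354) (nat_lit 198) (nat_lit 168)))))))
noncomputable def xc8 : XT := (XT.nd (nat_lit 35724) (nat_lit 0) (nat_lit 0) (XT.nd (nat_lit 35100) (nat_lit 0) (nat_lit 152) (XT.nd (nat_lit 312) (nat_lit 0) (nat_lit 0) (XT.nd (nat_lit 156) (nat_lit 0) (nat_lit 0) (XT.nd (nat_lit 78) (nat_lit 0) (nat_lit 0) (XT.lf (nat_lit 0) (nat_lit 15789047776) (nat_lit 152) (nat_lit 388603642960) (nat_lit 0) (nat_lit 13108900681) (nat_lit 1) (nat_lit 5) (nat_lit 3) (nat_lit 4) (nat_lit 1) (nat_lit 4) (nat_lit 355) (nat_lit 198) (nat_lit 167)) (XT.lf (nat_lit 0) (nat_lit 17227828630) (nat_lit 152) (nat_lit 406594373985) (nat_lit 0) (nat_lit 14511609001) (nat_lit 1) (nat_lit 5) (nat_lit 3) (nat_lit 4) (nat_lit 1) (nat_lit 4) (nat_lit 356) (nat_lit 198) (nat_lit 166))) (XT.nd (nat_lit 78) (nat_lit 0) (nat_lit 0) (XT.lf (nat_lit 0) (nat_lit 18726785266) (nat_lit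 152) (nat_lit 425505260646) (nat_lit 0) (nat_lit 15976210842) (nat_lit 1) (nat_lit 5) (nat_lit 3) (nat_lit 4) (nat_lit 1) (nat_lit 4) (nat_lit 357) (nat_lit 198) (nat_lit 165)) (XT.lf (nat_lit 0) (nat_lit 20289486630) (nat_lit 152) (nat_lit 445381328862) (nat_lit 0) (nat_lit 17506193353) (nat_lit 1) (nat_lit 5) (nat_lit 3) (nat_lit 4) (nat_lit 1) (nat_lit 4) (nat_lit 358) (nat_lit 198) (nat_lit 164)))) (XT.nd (nat_lit 34632) (nat_lit 0) (nat_lit 152) (XT.nd (nat_lit 78) (nat_lit 0) (nat_lit 0) (XT.lf (nat_lit 0) (nat_lit 21919653437) (nat_lit 152) (nat_lit 466269902605) (nat_lit 0) (nat_lit 19105199349) (nat_lit 1) (nat_lit 5) (nat_lit 3) (nat_lit 4) (nat_lit 1) (nat_lit 4) (nat_lit 359) (nat_lit 198) (nat_lit 163)) (XT.lf (nat_lit 0) (nat_lit 23621167038) (nat_lit 152) (nat_lit 488220716576) (nat_lit 0) (nat_lit 20777035986) (nat_lit 1) (nat_lit 5) (nat_lit 3) (nat_lit 4) (nat_lit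 1) (nat_lit 4) (nat_lit 360) (nat_lit 198) (nat_lit 162))) (XT.nd (nat_lit 78) (nat_lit 0) (nat_lit 0) (XT.lf (nat_lit 0) (nat_lit 27265122718) (nat_lit 76) (nat_lit 7495324615) (nat_lit 76) (nat_lit 7495324615) (nat_lit 3) (nat_lit 4) (nat_lit 4) (nat_lit 5) (nat_lit 4) (nat_lit 4) (nat_lit 322) (nat_lit 199) (nat_lit 199)) (XT.lf (nat_lit 0) (nat_lit 60146901310) (nat_lit 76) (nat_lit 14341283189) (nat_lit 76) (nat_lit 14160805497) (nat_lit 3) (nat_lit 4) (nat_lit 4) (nat_lit 5) (nat_lit 4) (nat_lit 4) (nat_lit 323) (nat_lit 199) (nat_lit 198))))) (XT.nd (nat_lit 312) (nat_lit 0) (nat_lit 0) (XT.nd (nat_lit 156) (nat_lit 0) (nat_lit 0) (XT.nd (nat_lit 78) (nat_lit 0) (nat_lit 0) (XT.lf (nat_lit 0) (nat_lit 65953379311) (nat_lit 76) (nat_lit 13697532773) (nat_lit 76) (nat_lit 13345171565) (nat_lit 3) (nat_lit 4) (nat_lit 4) (nat_lit 5) (nat_lit 4) (nat_lit 4) (nat_lit 324) (nat_lit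 199) (nat_lit 197)) (XT.lf (nat_lit 0) (nat_lit 71963504387) (nat_lit 76) (nat_lit 13057865244) (nat_lit 76) (nat_lit 12541805449) (nat_lit 3) (nat_lit 4) (nat_lit 4) (nat_lit 5) (nat_lit 4) (nat_lit 4) (nat_lit 325) (nat_lit 199) (nat_lit 196))) (XT.nd (nat_lit 78) (nat_lit 0) (nat_lit 0) (XT.lf (nat_lit 0) (nat_lit 78191586360) (nat_lit 76) (nat_lit 12420757583) (nat_lit 76) (nat_lit 11748794373) (nat_lit 3) (nat_lit 4) (nat_lit 4) (nat_lit 5) (nat_lit 4) (nat_lit 4) (nat_lit 326) (nat_lit 199) (nat_lit 195)) (XT.lf (nat_lit 0) (nat_lit 84652453995) (nat_lit 76) (nat_lit 11784692869) (nat_lit 76) (nat_lit 10964250214) (nat_lit 3) (nat_lit 4) (nat_lit 4) (nat_lit 5) (nat_lit 4) (nat_lit 4) (nat_lit 327) (nat_lit 199) (nat_lit 194)))) (XT.nd (nat_lit 156) (nat_lit 0) (nat_lit 0) (XT.nd (nat_lit 78) (nat_lit 0) (nat_lit 0) (XT.lf (nat_lit 0) (nat_lit 91361490312) (nat_lit 76) (nat_lit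 11148156660) (nat_lit 76) (nat_lit 10186305012) (nat_lit 3) (nat_lit 4) (nat_lit 4) (nat_lit 5) (nat_lit 4) (nat_lit 4) (nat_lit 328) (nat_lit 199) (nat_lit 193)) (XT.lf (nat_lit 0) (nat_lit 98334669206) (nat_lit 76) (nat_lit 10509633395) (nat_lit 76) (nat_lit 9413106514) (nat_lit 3) (nat_lit 4) (nat_lit 4) (nat_lit 5) (nat_lit 4) (nat_lit 4) (nat_lit 329) (nat_lit 199) (nat_lit 192))) (XT.nd (nat_lit 78) (nat_lit 0) (nat_lit 0) (XT.lf (nat_lit 0) (nat_lit 105588593484) (nat_lit 76) (nat_lit 9867602779) (nat_lit 76) (nat_lit 8642813772) (nat_lit 3) (nat_lit 4) (nat_lit 4) (nat_lit 5) (nat_lit 4) (nat_lit 4) (nat_lit 330) (nat_lit 199) (nat_lit 191)) (XT.lf (nat_lit 0) (nat_lit 113140534395) (nat_lit 76) (nat_lit 9220536170) (nat_lit 76) (nat_lit 7873592757) (nat_lit 3) (nat_lit 4) (nat_lit 4) (nat_lit 5) (nat_lit 4) (nat_lit 4) (nat_lit 331) (nat_lit 199) (nat_lit 190)))))) (XT.nd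 (nat_lit 624) (nat_lit 152) (nat_lit 0) (XT.nd (nat_lit 312) (nat_lit 0) (nat_lit 0) (XT.nd (nat_lit 156) (nat_lit 0) (nat_lit 0) (XT.nd (nat_lit 78) (nat_lit 0) (nat_lit 0) (XT.lf (nat_lit 0) (nat_lit 121008472750) (nat_lit 76) (nat_lit 8566892931) (nat_lit 76) (nat_lit 7103611989) (nat_lit 3) (nat_lit 4) (nat_lit 4) (nat_lit 5) (nat_lit 4) (nat_lit 4) (nat_lit 332) (nat_lit 199) (nat_lit 189)) (XT.lf (nat_lit 0) (nat_lit 129211141735) (nat_lit 76) (nat_lit 7905116770) (nat_lit 76) (nat_lit 6331038181) (nat_lit 3) (nat_lit 4) (nat_lit 4) (nat_lit 5) (nat_lit 4) (nat_lit 4) (nat_lit 333) (nat_lit 199) (nat_lit 188))) (XT.nd (nat_lit 78) (nat_lit 0) (nat_lit 0) (XT.lf (nat_lit 0) (nat_lit 137768071516) (nat_lit 76) (nat_lit 7233632029) (nat_lit 76) (nat_lit 5554031871) (nat_lit 3) (nat_lit 4) (nat_lit 4) (nat_lit 5) (nat_lit 4) (nat_lit 4) (nat_lit 334) (nat_lit 199) (nat_lit 187))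 (XT.lf (nat_lit 0) (nat_lit 146699635733) (nat_lit 76) (nat_lit 6550839934) (nat_lit 76) (nat_lit 4770743045) (nat_lit 3) (nat_lit 4) (nat_lit 4) (nat_lit 5) (nat_lit 4) (nat_lit 4) (nat_lit 335) (nat_lit 199) (nat_lit 186)))) (XT.nd (nat_lit 156) (nat_lit 0) (nat_lit 0) (XT.nd (nat_lit 78) (nat_lit 0) (nat_lit 0) (XT.lf (nat_lit 0) (nat_lit 156027100017) (nat_lit 76) (nat_lit 5855114791) (nat_lit 76) (nat_lit 3979306728) (nat_lit 3) (nat_lit 4) (nat_lit 4) (nat_lit 5) (nat_lit 4) (nat_lit 4) (nat_lit 336) (nat_lit 199) (nat_lit 185)) (XT.lf (nat_lit 0) (nat_lit 165772672616) (nat_lit 76) (nat_lit 5144800111) (nat_lit 76) (nat_lit 3177838549) (nat_lit 3) (nat_lit 4) (nat_lit 4) (nat_lit 5) (nat_lit 4) (nat_lit 4) (nat_lit 337) (nat_lit 199) (nat_lit 184))) (XT.nd (nat_lit 78) (nat_lit 0) (nat_lit 0) (XT.lf (nat_lit 0) (nat_lit 175959557274) (nat_lit 76) (nat_lit 4418204668) (nat_lit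 76) (nat_lit 2364430251) (nat_lit 3) (nat_lit 4) (nat_lit 4) (nat_lit 5) (nat_lit 4) (nat_lit 4) (nat_lit 338) (nat_lit 199) (nat_lit 183)) (XT.lf (nat_lit 0) (nat_lit 186612008478) (nat_lit 76) (nat_lit 3673598474) (nat_lit 76) (nat_lit 1537145146) (nat_lit 3) (nat_lit 4) (nat_lit 4) (nat_lit 5) (nat_lit 4) (nat_lit 4) (nat_lit 339) (nat_lit 199) (nat_lit 182))))) (XT.nd (nat_lit 312) (nat_lit 0) (nat_lit 0) (XT.nd (nat_lit 156) (nat_lit 76) (nat_lit 0) (XT.nd (nat_lit 78) (nat_lit 76) (nat_lit 0) (XT.lf (nat_lit 0) (nat_lit 197755389207) (nat_lit 76) (nat_lit 2909208655) (nat_lit 76) (nat_lit 694013509) (nat_lit 3) (nat_lit 4) (nat_lit 4) (nat_lit 5) (nat_lit 4) (nat_lit 4) (nat_lit 340) (nat_lit 199) (nat_lit 181)) (XT.lf (nat_lit 0) (nat_lit 161627966) (nat_lit 152) (nat_lit 1958850024) (nat_lit 76) (nat_lit 209251866106) (nat_lit 2) (nat_lit 5) (nat_lit 4) (nat_lit 5) (nat_lit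 3) (nat_lit 4) (nat_lit 341) (nat_lit 199) (nat_lit 180))) (XT.nd (nat_lit 78) (nat_lit 76) (nat_lit 0) (XT.lf (nat_lit 0) (nat_lit 1014323579) (nat_lit 152) (nat_lit 282245168) (nat_lit 76) (nat_lit 220590797088) (nat_lit 2) (nat_lit 5) (nat_lit 4) (nat_lit 5) (nat_lit 3) (nat_lit 4) (nat_lit 342) (nat_lit 199) (nat_lit 179)) (XT.lf (nat_lit 0) (nat_lit 1489079662) (nat_lit 76) (nat_lit 422485368) (nat_lit 152) (nat_lit 231016526664) (nat_lit 1) (nat_lit 5) (nat_lit 2) (nat_lit 5) (nat_lit 3) (nat_lit 4) (nat_lit 343) (nat_lit 199) (nat_lit 178)))) (XT.nd (nat_lit 156) (nat_lit 0) (nat_lit 0) (XT.nd (nat_lit 78) (nat_lit 0) (nat_lit 0) (XT.lf (nat_lit 0) (nat_lit 2845134802) (nat_lit 152) (nat_lit 241206685525) (nat_lit 0) (nat_lit 469506478) (nat_lit 1) (nat_lit 5) (nat_lit 3) (nat_lit 4) (nat_lit 1) (nat_lit 4) (nat_lit 344) (nat_lit 199) (nat_lit 177)) (XT.lf (nat_lit 0) (nat_lit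 3812189884) (nat_lit 152) (nat_lit 251504934313) (nat_lit 0) (nat_lit 1377803203) (nat_lit 1) (nat_lit 5) (nat_lit 3) (nat_lit 4) (nat_lit 1) (nat_lit 4) (nat_lit 345) (nat_lit 199) (nat_lit 176))) (XT.nd (nat_lit 78) (nat_lit 0) (nat_lit 0) (XT.lf (nat_lit 0) (nat_lit 4808436609) (nat_lit 152) (nat_lit 262351681854) (nat_lit 0) (nat_lit 2318089587) (nat_lit 1) (nat_lit 5) (nat_lit 3) (nat_lit 4) (nat_lit 1) (nat_lit 4) (nat_lit 346) (nat_lit 199) (nat_lit 175)) (XT.nd (nat_lit 78) (nat_lit 0) (nat_lit 0) (XT.lf (nat_lit 0) (nat_lit 5836246992) (nat_lit 152) (nat_lit 273772753739) (nat_lit 0) (nat_lit 3292604408) (nat_lit 1) (nat_lit 5) (nat_lit 3) (nat_lit 4) (nat_lit 1) (nat_lit 4) (nat_lit 347) (nat_lit 199) (nat_lit 174)) (XT.lf (nat_lit 0) (nat_lit 6898068202) (nat_lit 152) (nat_lit 285795342994) (nat_lit 0) (nat_lit 4303667938) (nat_lit 1) (nat_lit 5) (nat_lit 3) (nat_lit 4)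 (nat_lit 1) (nat_lit 4) (nat_lit 348) (nat_lit 199) (nat_lit 173))))))))
noncomputable def xc9 : XT := (XT.nd (nat_lit 35568) (nat_lit 0) (nat_lit 152) (XT.nd (nat_lit 624) (nat_lit 0) (nat_lit 0) (XT.nd (nat_lit 312) (nat_lit 0) (nat_lit 0) (XT.nd (nat_lit 156) (nat_lit 0) (nat_lit 0) (XT.nd (nat_lit 78) (nat_lit 0) (nat_lit 0) (XT.lf (nat_lit 0) (nat_lit 7996428383) (nat_lit 152) (nat_lit 298448074834) (nat_lit 0) (nat_lit 5353687473) (nat_lit 1) (nat_lit 5) (nat_lit 3) (nat_lit 4) (nat_lit 1) (nat_lit 4) (nat_lit 349) (nat_lit 199) (nat_lit 172)) (XT.lf (nat_lit 0) (nat_lit 9133942679) (nat_lit 152) (nat_lit 311761074810) (nat_lit 0) (nat_lit 6445163058) (nat_lit 1) (nat_lit 5) (nat_lit 3) (nat_lit 4) (nat_lit 1) (nat_lit 4) (nat_lit 350) (nat_lit 199) (nat_lit 171))) (XT.nd (nat_lit 78) (nat_lit 0) (nat_lit 0) (XT.lf (nat_lit 0) (nat_lit 10313319457) (nat_lit 152) (nat_lit 325766040541)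 (nat_lit 0) (nat_lit 7580693445) (nat_lit 1) (nat_lit 5) (nat_lit 3) (nat_lit 4) (nat_lit 1) (nat_lit 4) (nat_lit 351) (nat_lit 199) (nat_lit 170)) (XT.lf (nat_lit 0) (nat_lit 11537366758) (nat_lit 152) (nat_lit 340496317184) (nat_lit 0) (nat_lit 8762982278) (nat_lit 1) (nat_lit 5) (nat_lit 3) (nat_lit 4) (nat_lit 1) (nat_lit 4) (nat_lit 352) (nat_lit 199) (nat_lit 169)))) (XT.nd (nat_lit 156) (nat_lit 0) (nat_lit 0) (XT.nd (nat_lit 78) (nat_lit 0) (nat_lit 0) (XT.lf (nat_lit 0) (nat_lit 12808998979) (nat_lit 152) (nat_lit 355986976825) (nat_lit 0) (nat_lit 9994844530) (nat_lit 1) (nat_lit 5) (nat_lit 3) (nat_lit 4) (nat_lit 1) (nat_lit 4) (nat_lit 353) (nat_lit 199) (nat_lit 168)) (XT.lf (nat_lit 0) (nat_lit 14131243816) (nat_lit 152) (nat_lit 372274901988) (nat_lit 0) (nat_lit 11279213206) (nat_lit 1) (nat_lit 5) (nat_lit 3) (nat_lit 4) (nat_lit 1) (nat_lit 4) (nat_lit 354) (nat_lit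 199) (nat_lit 167))) (XT.nd (nat_lit 78) (nat_lit 0) (nat_lit 0) (XT.lf (nat_lit 0) (nat_lit 15507249473) (nat_lit 152) (nat_lit 389398873446) (nat_lit 0) (nat_lit 12619146327) (nat_lit 1) (nat_lit 5) (nat_lit 3) (nat_lit 4) (nat_lit 1) (nat_lit 4) (nat_lit 355) (nat_lit 199) (nat_lit 166)) (XT.lf (nat_lit 0) (nat_lit 16940292151) (nat_lit 152) (nat_lit 407399662562) (nat_lit 0) (nat_lit 14017834211) (nat_lit 1) (nat_lit 5) (nat_lit 3) (nat_lit 4) (nat_lit 1) (nat_lit 4) (nat_lit 356) (nat_lit 199) (nat_lit 165))))) (XT.nd (nat_lit 34632) (nat_lit 0) (nat_lit 152) (XT.nd (nat_lit 156) (nat_lit 0) (nat_lit 0) (XT.nd (nat_lit 78) (nat_lit 0) (nat_lit 0) (XT.lf (nat_lit 0) (nat_lit 18433783858) (nat_lit 152) (nat_lit 426320128355) (nat_lit 0) (nat_lit 15478607066) (nat_lit 1) (nat_lit 5) (nat_lit 3) (nat_lit 4) (nat_lit 1) (nat_lit 4) (nat_lit 357) (nat_lit 199) (nat_lit 164)) (XT.lf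 (nat_lit 0) (nat_lit 19991280527) (nat_lit 152) (nat_lit 446205319555) (nat_lit 0) (nat_lit 17004942922) (nat_lit 1) (nat_lit 5) (nat_lit 3) (nat_lit 4) (nat_lit 1) (nat_lit 4) (nat_lit 358) (nat_lit 199) (nat_lit 163))) (XT.nd (nat_lit 78) (nat_lit 0) (nat_lit 0) (XT.lf (nat_lit 0) (nat_lit 21616490482) (nat_lit 152) (nat_lit 467102581854) (nat_lit 0) (nat_lit 18600475914) (nat_lit 1) (nat_lit 5) (nat_lit 3) (nat_lit 4) (nat_lit 1) (nat_lit 4) (nat_lit 359) (nat_lit 199) (nat_lit 162)) (XT.lf (nat_lit 0) (nat_lit 23313283271) (nat_lit 152) (nat_lit 489061670640) (nat_lit 0) (nat_lit 20269004929) (nat_lit 1) (nat_lit 5) (nat_lit 3) (nat_lit 4) (nat_lit 1) (nat_lit 4) (nat_lit 360) (nat_lit 199) (nat_lit 161)))) (XT.nd (nat_lit 156) (nat_lit 0) (nat_lit 0) (XT.nd (nat_lit 78) (nat_lit 0) (nat_lit 0) (XT.lf (nat_lit 0) (nat_lit 21931137104) (nat_lit 76) (nat_lit 8240724767) (nat_lit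 76) (nat_lit 8240724767) (nat_lit 3) (nat_lit 4) (nat_lit 4) (nat_lit 5) (nat_lit 4) (nat_lit 4) (nat_lit 320) (nat_lit 200) (nat_lit 200)) (XT.lf (nat_lit 0) (nat_lit 49090038700) (nat_lit 76) (nat_lit 15836678584) (nat_lit 76) (nat_lit 15647177007) (nat_lit 3) (nat_lit 4) (nat_lit 4) (nat_lit 5) (nat_lit 4) (nat_lit 4) (nat_lit 321) (nat_lit 200) (nat_lit 199))) (XT.nd (nat_lit 78) (nat_lit 0) (nat_lit 0) (XT.lf (nat_lit 0) (nat_lit 54483630217) (nat_lit 76) (nat_lit 15199657209) (nat_lit 76) (nat_lit 14829677940) (nat_lit 3) (nat_lit 4) (nat_lit 4) (nat_lit 5) (nat_lit 4) (nat_lit 4) (nat_lit 322) (nat_lit 200) (nat_lit 198)) (XT.lf (nat_lit 0) (nat_lit 60055890644) (nat_lit 76) (nat_lit 14568868693) (nat_lit 76) (nat_lit 14027005909) (nat_lit 3) (nat_lit 4) (nat_lit 4) (nat_lit 5) (nat_lit 4) (nat_lit 4) (nat_lit 323) (nat_lit 200) (nat_lit 197)))))) (XT.nd (nat_lit 624) (nat_lit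 0) (nat_lit 0) (XT.nd (nat_lit 312) (nat_lit 0) (nat_lit 0) (XT.nd (nat_lit 156) (nat_lit 0) (nat_lit 0) (XT.nd (nat_lit 78) (nat_lit 0) (nat_lit 0) (XT.lf (nat_lit 0) (nat_lit 65820087267) (nat_lit 76) (nat_lit 13942811159) (nat_lit 76) (nat_lit 13237249788) (nat_lit 3) (nat_lit 4) (nat_lit 4) (nat_lit 5) (nat_lit 4) (nat_lit 4) (nat_lit 324) (nat_lit 200) (nat_lit 196)) (XT.lf (nat_lit 0) (nat_lit 71789944364) (nat_lit 76) (nat_lit 13319993993) (nat_lit 76) (nat_lit 12458529206) (nat_lit 3) (nat_lit 4) (nat_lit 4) (nat_lit 5) (nat_lit 4) (nat_lit 4) (nat_lit 325) (nat_lit 200) (nat_lit 195))) (XT.nd (nat_lit 78) (nat_lit 0) (nat_lit 0) (XT.lf (nat_lit 0) (nat_lit 77979675880) (nat_lit 76) (nat_lit 12698934298) (nat_lit 76) (nat_lit 11688990067) (nat_lit 3) (nat_lit 4) (nat_lit 4) (nat_lit 5) (nat_lit 4) (nat_lit 4) (nat_lit 326) (nat_lit 200) (nat_lit 194)) (XT.lf (nat_lit 0) (nat_lit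 84404019271) (nat_lit 76) (nat_lit 12078153360) (nat_lit 76) (nat_lit 10926800135) (nat_lit 3) (nat_lit 4) (nat_lit 4) (nat_lit 5) (nat_lit 4) (nat_lit 4) (nat_lit 327) (nat_lit 200) (nat_lit 193)))) (XT.nd (nat_lit 156) (nat_lit 0) (nat_lit 0) (XT.nd (nat_lit 78) (nat_lit 0) (nat_lit 0) (XT.lf (nat_lit 0) (nat_lit 91078270593) (nat_lit 76) (nat_lit 11456173129) (nat_lit 76) (nat_lit 10170144671) (nat_lit 3) (nat_lit 4) (nat_lit 4) (nat_lit 5) (nat_lit 4) (nat_lit 4) (nat_lit 328) (nat_lit 200) (nat_lit 192)) (XT.lf (nat_lit 0) (nat_lit 98018320921) (nat_lit 76) (nat_lit 10831512699) (nat_lit 76) (nat_lit 9417222116) (nat_lit 3) (nat_lit 4) (nat_lit 4) (nat_lit 5) (nat_lit 4) (nat_lit 4) (nat_lit 329) (nat_lit 200) (nat_lit 191))) (XT.nd (nat_lit 78) (nat_lit 0) (nat_lit 0) (XT.lf (nat_lit 0) (nat_lit 105240694184) (nat_lit 76) (nat_lit 10202684784) (nat_lit 76) (nat_lit 8666239795)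 (nat_lit 3) (nat_lit 4) (nat_lit 4) (nat_lit 5) (nat_lit 4) (nat_lit 4) (nat_lit 330) (nat_lit 200) (nat_lit 190)) (XT.lf (nat_lit 0) (nat_lit 112762586509) (nat_lit 76) (nat_lit 9568192176) (nat_lit 76) (nat_lit 7915409657) (nat_lit 3) (nat_lit 4) (nat_lit 4) (nat_lit 5) (nat_lit 4) (nat_lit 4) (nat_lit 331) (nat_lit 200) (nat_lit 189))))) (XT.nd (nat_lit 312) (nat_lit 0) (nat_lit 0) (XT.nd (nat_lit 156) (nat_lit 0) (nat_lit 0) (XT.nd (nat_lit 78) (nat_lit 0) (nat_lit 0) (XT.lf (nat_lit 0) (nat_lit 120601907163) (nat_lit 76) (nat_lit 8926524176) (nat_lit 76) (nat_lit 7162944010) (nat_lit 3) (nat_lit 4) (nat_lit 4) (nat_lit 5) (nat_lit 4) (nat_lit 4) (nat_lit 332) (nat_lit 200) (nat_lit 188)) (XT.lf (nat_lit 0) (nat_lit 128777321195) (nat_lit 76) (nat_lit 8276153004) (nat_lit 76) (nat_lit 6407051269) (nat_lit 3) (nat_lit 4) (nat_lit 4) (nat_lit 5) (nat_lit 4) (nat_lit 4) (nat_lit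 333) (nat_lit 200) (nat_lit 187))) (XT.nd (nat_lit 78) (nat_lit 0) (nat_lit 0) (XT.lf (nat_lit 0) (nat_lit 137308293877) (nat_lit 76) (nat_lit 7615530157) (nat_lit 76) (nat_lit 5645931691) (nat_lit 3) (nat_lit 4) (nat_lit 4) (nat_lit 5) (nat_lit 4) (nat_lit 4) (nat_lit 334) (nat_lit 200) (nat_lit 186)) (XT.lf (nat_lit 0) (nat_lit 146215137048) (nat_lit 76) (nat_lit 6943082724) (nat_lit 76) (nat_lit 4877773085) (nat_lit 3) (nat_lit 4) (nat_lit 4) (nat_lit 5) (nat_lit 4) (nat_lit 4) (nat_lit 335) (nat_lit 200) (nat_lit 185)))) (XT.nd (nat_lit 156) (nat_lit 0) (nat_lit 0) (XT.nd (nat_lit 78) (nat_lit 0) (nat_lit 0) (XT.lf (nat_lit 0) (nat_lit 155519057479) (nat_lit 76) (nat_lit 6257209640) (nat_lit 76) (nat_lit 4100746502) (nat_lit 3) (nat_lit 4) (nat_lit 4) (nat_lit 5) (nat_lit 4) (nat_lit 4) (nat_lit 336) (nat_lit 200) (nat_lit 184)) (XT.lf (nat_lit 0) (nat_lit 165242207360) (nat_lit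 76) (nat_lit 5556277872) (nat_lit 76) (nat_lit 3313001879) (nat_lit 3) (nat_lit 4) (nat_lit 4) (nat_lit 5) (nat_lit 4) (nat_lit 4) (nat_lit 337) (nat_lit 200) (nat_lit 183))) (XT.nd (nat_lit 78) (nat_lit 0) (nat_lit 0) (XT.lf (nat_lit 0) (nat_lit 175407737049) (nat_lit 76) (nat_lit 4838618537) (nat_lit 76) (nat_lit 2512663633) (nat_lit 3) (nat_lit 4) (nat_lit 4) (nat_lit 5) (nat_lit 4) (nat_lit 4) (nat_lit 338) (nat_lit 200) (nat_lit 182)) (XT.lf (nat_lit 0) (nat_lit 186039850187) (nat_lit 76) (nat_lit 4102522921) (nat_lit 76) (nat_lit 1697826198) (nat_lit 3) (nat_lit 4) (nat_lit 4) (nat_lit 5) (nat_lit 4) (nat_lit 4) (nat_lit 339) (nat_lit 200) (nat_lit 181)))))))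
noncomputable def xc10 : XT := (XT.nd (nat_lit 1248) (nat_lit 0) (nat_lit 0) (XT.nd (nat_lit 624) (nat_lit 0) (nat_lit 0) (XT.nd (nat_lit 312) (nat_lit 0) (nat_lit 0) (XT.nd (nat_lit 156) (nat_lit 152) (nat_lit 0) (XT.nd (nat_lit 78) (nat_lit 0) (nat_lit 0) (XT.lf (nat_lit 0) (nat_lit 197163861330) (nat_lit 76) (nat_lit 3346238416) (nat_lit 76) (nat_lit 866549484) (nat_lit 3) (nat_lit 4) (nat_lit 4) (nat_lit 5) (nat_lit 4) (nat_lit 4) (nat_lit 340) (nat_lit 200) (nat_lit 180)) (XT.lf (nat_lit 0) (nat_lit 208806256218) (nat_lit 76) (nat_lit 2567964344) (nat_lit 76) (nat_lit 16854261) (nat_lit 3) (nat_lit 4) (nat_lit 4) (nat_lit 5) (nat_lit 4) (nat_lit 4) (nat_lit 341) (nat_lit 200) (nat_lit 179))) (XT.nd (nat_lit 78) (nat_lit 76) (nat_lit 0) (XT.lf (nat_lit 0) (nat_lit 825972183) (nat_lit 152) (nat_lit 925887250) (nat_lit 76) (nat_lit 220154794417) (nat_lit 2) (nat_lit 5) (nat_lit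 4) (nat_lit 5) (nat_lit 3) (nat_lit 4) (nat_lit 342) (nat_lit 200) (nat_lit 178)) (XT.lf (nat_lit 0) (nat_lit 806508525) (nat_lit 76) (nat_lit 896135299) (nat_lit 152) (nat_lit 231245786946) (nat_lit 1) (nat_lit 5) (nat_lit 2) (nat_lit 5) (nat_lit 3) (nat_lit 4) (nat_lit 343) (nat_lit 200) (nat_lit 177)))) (XT.nd (nat_lit 156) (nat_lit 0) (nat_lit 0) (XT.nd (nat_lit 78) (nat_lit 0) (nat_lit 0) (XT.lf (nat_lit 0) (nat_lit 2619004366) (nat_lit 152) (nat_lit 241919403483) (nat_lit 0) (nat_lit 4139992) (nat_lit 1) (nat_lit 5) (nat_lit 3) (nat_lit 4) (nat_lit 1) (nat_lit 4) (nat_lit 344) (nat_lit 200) (nat_lit 176)) (XT.lf (nat_lit 0) (nat_lit 3576712564) (nat_lit 152) (nat_lit 252234035838) (nat_lit 0) (nat_lit 905887850) (nat_lit 1) (nat_lit 5) (nat_lit 3) (nat_lit 4) (nat_lit 1) (nat_lit 4) (nat_lit 345) (nat_lit 200) (nat_lit 175))) (XT.nd (nat_lit 78) (nat_lit 0) (nat_lit 0) (XT.lf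 (nat_lit 0) (nat_lit 4564057495) (nat_lit 152) (nat_lit 263096386778) (nat_lit 0) (nat_lit 1839937219) (nat_lit 1) (nat_lit 5) (nat_lit 3) (nat_lit 4) (nat_lit 1) (nat_lit 4) (nat_lit 346) (nat_lit 200) (nat_lit 174)) (XT.lf (nat_lit 0) (nat_lit 5583389979) (nat_lit 152) (nat_lit 274532319041) (nat_lit 0) (nat_lit 2808512024) (nat_lit 1) (nat_lit 5) (nat_lit 3) (nat_lit 4) (nat_lit 1) (nat_lit 4) (nat_lit 347) (nat_lit 200) (nat_lit 173))))) (XT.nd (nat_lit 312) (nat_lit 0) (nat_lit 0) (XT.nd (nat_lit 156) (nat_lit 0) (nat_lit 0) (XT.nd (nat_lit 78) (nat_lit 0) (nat_lit 0) (XT.lf (nat_lit 0) (nat_lit 6637136999) (nat_lit 152) (nat_lit 286569061039) (nat_lit 0) (nat_lit 3813918397) (nat_lit 1) (nat_lit 5) (nat_lit 3) (nat_lit 4) (nat_lit 1) (nat_lit 4) (nat_lit 348) (nat_lit 200) (nat_lit 172)) (XT.lf (nat_lit 0) (nat_lit 7727807476) (nat_lit 152) (nat_lit 299235271681) (nat_lit 0)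 (nat_lit 4858550163) (nat_lit 1) (nat_lit 5) (nat_lit 3) (nat_lit 4) (nat_lit 1) (nat_lit 4) (nat_lit 349) (nat_lit 200) (nat_lit 171))) (XT.nd (nat_lit 78) (nat_lit 0) (nat_lit 0) (XT.lf (nat_lit 0) (nat_lit 8857998244) (nat_lit 152) (nat_lit 312561108611) (nat_lit 0) (nat_lit 5944894540) (nat_lit 1) (nat_lit 5) (nat_lit 3) (nat_lit 4) (nat_lit 1) (nat_lit 4) (nat_lit 350) (nat_lit 200) (nat_lit 170)) (XT.lf (nat_lit 0) (nat_lit 10030400233) (nat_lit 152) (nat_lit 326578300013) (nat_lit 0) (nat_lit 7075538062) (nat_lit 1) (nat_lit 5) (nat_lit 3) (nat_lit 4) (nat_lit 1) (nat_lit 4) (nat_lit 351) (nat_lit 200) (nat_lit 169)))) (XT.nd (nat_lit 156) (nat_lit 0) (nat_lit 0) (XT.nd (nat_lit 78) (nat_lit 0) (nat_lit 0) (XT.lf (nat_lit 0) (nat_lit 11247804878) (nat_lit 152) (nat_lit 341320220151) (nat_lit 0) (nat_lit 8253172737) (nat_lit 1) (nat_lit 5) (nat_lit 3) (nat_lit 4) (nat_lit 1)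 (nat_lit 4) (nat_lit 352) (nat_lit 200) (nat_lit 168)) (XT.lf (nat_lit 0) (nat_lit 12513110760) (nat_lit 152) (nat_lit 356821968836) (nat_lit 0) (nat_lit 9480602458) (nat_lit 1) (nat_lit 5) (nat_lit 3) (nat_lit 4) (nat_lit 1) (nat_lit 4) (nat_lit 353) (nat_lit 200) (nat_lit 167))) (XT.nd (nat_lit 78) (nat_lit 0) (nat_lit 0) (XT.lf (nat_lit 0) (nat_lit 13829330514) (nat_lit 152) (nat_lit 373120454993) (nat_lit 0) (nat_lit 10760749676) (nat_lit 1) (nat_lit 5) (nat_lit 3) (nat_lit 4) (nat_lit 1) (nat_lit 4) (nat_lit 354) (nat_lit 200) (nat_lit 166)) (XT.lf (nat_lit 0) (nat_lit 15199597994) (nat_lit 152) (nat_lit 390254484541) (nat_lit 0) (nat_lit 12096662362) (nat_lit 1) (nat_lit 5) (nat_lit 3) (nat_lit 4) (nat_lit 1) (nat_lit 4) (nat_lit 355) (nat_lit 200) (nat_lit 165)))))) (XT.nd (nat_lit 34788) (nat_lit 0) (nat_lit 152) (XT.nd (nat_lit 312) (nat_lit 0) (nat_lit 0) (XT.nd (nat_lit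 156) (nat_lit 0) (nat_lit 0) (XT.nd (nat_lit 78) (nat_lit 0) (nat_lit 0) (XT.lf (nat_lit 0) (nat_lit 16627175743) (nat_lit 152) (nat_lit 408264852789) (nat_lit 0) (nat_lit 13491521258) (nat_lit 1) (nat_lit 5) (nat_lit 3) (nat_lit 4) (nat_lit 1) (nat_lit 4) (nat_lit 356) (nat_lit 200) (nat_lit 164)) (XT.lf (nat_lit 0) (nat_lit 18115462755) (nat_lit 152) (nat_lit 427194441567) (nat_lit 0) (nat_lit 14948647459) (nat_lit 1) (nat_lit 5) (nat_lit 3) (nat_lit 4) (nat_lit 1) (nat_lit 4) (nat_lit 357) (nat_lit 200) (nat_lit 163))) (XT.nd (nat_lit 78) (nat_lit 0) (nat_lit 0) (XT.lf (nat_lit 0) (nat_lit 19668002572) (nat_lit 152) (nat_lit 447088321322) (nat_lit 0) (nat_lit 16471510312) (nat_lit 1) (nat_lit 5) (nat_lit 3) (nat_lit 4) (nat_lit 1) (nat_lit 4) (nat_lit 358) (nat_lit 200) (nat_lit 162)) (XT.lf (nat_lit 0) (nat_lit 21288491715) (nat_lit 152) (nat_lit 467993858437) (nat_lit 0) (nat_lit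 18063735681) (nat_lit 1) (nat_lit 5) (nat_lit 3) (nat_lit 4) (nat_lit 1) (nat_lit 4) (nat_lit 359) (nat_lit 200) (nat_lit 161)))) (XT.nd (nat_lit 34320) (nat_lit 0) (nat_lit 152) (XT.nd (nat_lit 34242) (nat_lit 0) (nat_lit 152) (XT.lf (nat_lit 0) (nat_lit 22980788494) (nat_lit 152) (nat_lit 489960827999) (nat_lit 0) (nat_lit 19729114579) (nat_lit 1) (nat_lit 5) (nat_lit 3) (nat_lit 4) (nat_lit 1) (nat_lit 4) (nat_lit 360) (nat_lit 200) (nat_lit 160)) (XT.lf (nat_lit 0) (nat_lit 16953098267) (nat_lit 76) (nat_lit 8988936898) (nat_lit 76) (nat_lit 8988936898) (nat_lit 3) (nat_lit 4) (nat_lit 4) (nat_lit 5) (nat_lit 4) (nat_lit 4) (nat_lit 318) (nat_lit 201) (nat_lit 201))) (XT.nd (nat_lit 78) (nat_lit 0) (nat_lit 0) (XT.lf (nat_lit 0) (nat_lit 38787889682) (nat_lit 76) (nat_lit 17334481887) (nat_lit 76) (nat_lit 17135505232) (nat_lit 3) (nat_lit 4) (nat_lit 4) (nat_lit 5) (nat_lit 4)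 (nat_lit 4) (nat_lit 319) (nat_lit 201) (nat_lit 200)) (XT.lf (nat_lit 0) (nat_lit 43813328227) (nat_lit 76) (nat_lit 16700907912) (nat_lit 76) (nat_lit 16312429681) (nat_lit 3) (nat_lit 4) (nat_lit 4) (nat_lit 5) (nat_lit 4) (nat_lit 4) (nat_lit 320) (nat_lit 201) (nat_lit 199))))) (XT.nd (nat_lit 312) (nat_lit 0) (nat_lit 0) (XT.nd (nat_lit 156) (nat_lit 0) (nat_lit 0) (XT.nd (nat_lit 78) (nat_lit 0) (nat_lit 0) (XT.lf (nat_lit 0) (nat_lit 48994477500) (nat_lit 76) (nat_lit 16075643363) (nat_lit 76) (nat_lit 15506687439) (nat_lit 3) (nat_lit 4) (nat_lit 4) (nat_lit 5) (nat_lit 4) (nat_lit 4) (nat_lit 321) (nat_lit 201) (nat_lit 198)) (XT.lf (nat_lit 0) (nat_lit 54343673571) (nat_lit 76) (nat_lit 15457199514) (nat_lit 76) (nat_lit 14716360074) (nat_lit 3) (nat_lit 4) (nat_lit 4) (nat_lit 5) (nat_lit 4) (nat_lit 4) (nat_lit 322) (nat_lit 201) (nat_lit 197))) (XT.nd (nat_lit 78) (nat_lit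 0) (nat_lit 0) (XT.lf (nat_lit 0) (nat_lit 59873652619) (nat_lit 76) (nat_lit 14844103880) (nat_lit 76) (nat_lit 13939565853) (nat_lit 3) (nat_lit 4) (nat_lit 4) (nat_lit 5) (nat_lit 4) (nat_lit 4) (nat_lit 323) (nat_lit 201) (nat_lit 196)) (XT.lf (nat_lit 0) (nat_lit 65597581263) (nat_lit 76) (nat_lit 14234896709) (nat_lit 76) (nat_lit 13174455267) (nat_lit 3) (nat_lit 4) (nat_lit 4) (nat_lit 5) (nat_lit 4) (nat_lit 4) (nat_lit 324) (nat_lit 201) (nat_lit 195)))) (XT.nd (nat_lit 156) (nat_lit 0) (nat_lit 0) (XT.nd (nat_lit 78) (nat_lit 0) (nat_lit 0) (XT.lf (nat_lit 0) (nat_lit 71529087903) (nat_lit 76) (nat_lit 13628127509) (nat_lit 76) (nat_lit 12419206623) (nat_lit 3) (nat_lit 4) (nat_lit 4) (nat_lit 5) (nat_lit 4) (nat_lit 4) (nat_lit 325) (nat_lit 201) (nat_lit 194)) (XT.lf (nat_lit 0) (nat_lit 77682295175) (nat_lit 76) (nat_lit 13022351590) (nat_lit 76) (nat_lit 11672021710)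 (nat_lit 3) (nat_lit 4) (nat_lit 4) (nat_lit 5) (nat_lit 4) (nat_lit 4) (nat_lit 326) (nat_lit 201) (nat_lit 193))) (XT.nd (nat_lit 78) (nat_lit 0) (nat_lit 0) (XT.lf (nat_lit 0) (nat_lit 84071853572) (nat_lit 76) (nat_lit 12416126629) (nat_lit 76) (nat_lit 10931121517) (nat_lit 3) (nat_lit 4) (nat_lit 4) (nat_lit 5) (nat_lit 4) (nat_lit 4) (nat_lit 327) (nat_lit 201) (nat_lit 192)) (XT.nd (nat_lit 78) (nat_lit 0) (nat_lit 0) (XT.lf (nat_lit 0) (nat_lit 90712976328) (nat_lit 76) (nat_lit 11808009234) (nat_lit 76) (nat_lit 10194741995) (nat_lit 3) (nat_lit 4) (nat_lit 4) (nat_lit 5) (nat_lit 4) (nat_lit 4) (nat_lit 328) (nat_lit 201) (nat_lit 191)) (XT.lf (nat_lit 0) (nat_lit 97621475641) (nat_lit 76) (nat_lit 11196551505) (nat_lit 76) (nat_lit 9461129860) (nat_lit 3) (nat_lit 4) (nat_lit 4) (nat_lit 5) (nat_lit 4) (nat_lit 4) (nat_lit 329) (nat_lit 201) (nat_lit 190))))))))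
noncomputable def xc11 : XT := (XT.nd (nat_lit 1248) (nat_lit 0) (nat_lit 0) (XT.nd (nat_lit 624) (nat_lit 152) (nat_lit 0) (XT.nd (nat_lit 312) (nat_lit 0) (nat_lit 0) (XT.nd (nat_lit 156) (nat_lit 0) (nat_lit 0) (XT.nd (nat_lit 78) (nat_lit 0) (nat_lit 0) (XT.lf (nat_lit 0) (nat_lit 104813800318) (nat_lit 76) (nat_lit 10580297591) (nat_lit 76) (nat_lit 8728538417) (nat_lit 3) (nat_lit 4) (nat_lit 4) (nat_lit 5) (nat_lit 4) (nat_lit 4) (nat_lit 330) (nat_lit 201) (nat_lit 189)) (XT.lf (nat_lit 0) (nat_lit 112307074941) (nat_lit 76) (nat_lit 9957780221) (nat_lit 76) (nat_lit 7995223400) (nat_lit 3) (nat_lit 4) (nat_lit 4) (nat_lit 5) (nat_lit 4) (nat_lit 4) (nat_lit 331) (nat_lit 201) (nat_lit 188))) (XT.nd (nat_lit 78) (nat_lit 0) (nat_lit 0) (XT.lf (nat_lit 0) (nat_lit 120119140642) (nat_lit 76) (nat_lit 9327517210) (nat_lit 76) (nat_lit 7259438821) (nat_lit 3) (nat_lit 4) (nat_lit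 4) (nat_lit 5) (nat_lit 4) (nat_lit 4) (nat_lit 332) (nat_lit 201) (nat_lit 187)) (XT.lf (nat_lit 0) (nat_lit 128268597575) (nat_lit 76) (nat_lit 8688007933) (nat_lit 76) (nat_lit 6519432812) (nat_lit 3) (nat_lit 4) (nat_lit 4) (nat_lit 5) (nat_lit 4) (nat_lit 4) (nat_lit 333) (nat_lit 201) (nat_lit 186)))) (XT.nd (nat_lit 156) (nat_lit 0) (nat_lit 0) (XT.nd (nat_lit 78) (nat_lit 0) (nat_lit 0) (XT.lf (nat_lit 0) (nat_lit 136774849211) (nat_lit 76) (nat_lit 8037729748) (nat_lit 76) (nat_lit 5773443453) (nat_lit 3) (nat_lit 4) (nat_lit 4) (nat_lit 5) (nat_lit 4) (nat_lit 4) (nat_lit 334) (nat_lit 201) (nat_lit 185)) (XT.lf (nat_lit 0) (nat_lit 145658148530) (nat_lit 76) (nat_lit 7375134373) (nat_lit 76) (nat_lit 5019694580) (nat_lit 3) (nat_lit 4) (nat_lit 4) (nat_lit 5) (nat_lit 4) (nat_lit 4) (nat_lit 335) (nat_lit 201) (nat_lit 184))) (XT.nd (nat_lit 78) (nat_lit 0) (nat_lit 0)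 (XT.lf (nat_lit 0) (nat_lit 154939646243) (nat_lit 76) (nat_lit 6698644202) (nat_lit 76) (nat_lit 4256391553) (nat_lit 3) (nat_lit 4) (nat_lit 4) (nat_lit 5) (nat_lit 4) (nat_lit 4) (nat_lit 336) (nat_lit 201) (nat_lit 183)) (XT.lf (nat_lit 0) (nat_lit 164641441155) (nat_lit 76) (nat_lit 6006648542) (nat_lit 76) (nat_lit 3481716983) (nat_lit 3) (nat_lit 4) (nat_lit 4) (nat_lit 5) (nat_lit 4) (nat_lit 4) (nat_lit 337) (nat_lit 201) (nat_lit 182))))) (XT.nd (nat_lit 312) (nat_lit 152) (nat_lit 0) (XT.nd (nat_lit 156) (nat_lit 0) (nat_lit 0) (XT.nd (nat_lit 78) (nat_lit 0) (nat_lit 0) (XT.lf (nat_lit 0) (nat_lit 174786632777) (nat_lit 76) (nat_lit 5297499785) (nat_lit 76) (nat_lit 2693826407) (nat_lit 3) (nat_lit 4) (nat_lit 4) (nat_lit 5) (nat_lit 4) (nat_lit 4) (nat_lit 338) (nat_lit 201) (nat_lit 181)) (XT.lf (nat_lit 0) (nat_lit 185399376329) (nat_lit 76) (nat_lit 4569509482) (nat_lit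 76) (nat_lit 1890843895) (nat_lit 3) (nat_lit 4) (nat_lit 4) (nat_lit 5) (nat_lit 4) (nat_lit 4) (nat_lit 339) (nat_lit 201) (nat_lit 180))) (XT.nd (nat_lit 78) (nat_lit 0) (nat_lit 0) (XT.lf (nat_lit 0) (nat_lit 196504940247) (nat_lit 76) (nat_lit 3820944323) (nat_lit 76) (nat_lit 1070857585) (nat_lit 3) (nat_lit 4) (nat_lit 4) (nat_lit 5) (nat_lit 4) (nat_lit 4) (nat_lit 340) (nat_lit 201) (nat_lit 179)) (XT.lf (nat_lit 0) (nat_lit 208129766349) (nat_lit 76) (nat_lit 3050022009) (nat_lit 76) (nat_lit 231915127) (nat_lit 3) (nat_lit 4) (nat_lit 4) (nat_lit 5) (nat_lit 4) (nat_lit 4) (nat_lit 341) (nat_lit 201) (nat_lit 178)))) (XT.nd (nat_lit 156) (nat_lit 0) (nat_lit 0) (XT.nd (nat_lit 78) (nat_lit 76) (nat_lit 0) (XT.lf (nat_lit 0) (nat_lit 607881647) (nat_lit 152) (nat_lit 1636730593) (nat_lit 76) (nat_lit 219683356376) (nat_lit 2) (nat_lit 5) (nat_lit 4) (nat_lit 5) (nat_lit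 3) (nat_lit 4) (nat_lit 342) (nat_lit 201) (nat_lit 177)) (XT.lf (nat_lit 0) (nat_lit 55354499) (nat_lit 76) (nat_lit 1408030255) (nat_lit 152) (nat_lit 231507440708) (nat_lit 1) (nat_lit 5) (nat_lit 2) (nat_lit 5) (nat_lit 3) (nat_lit 4) (nat_lit 343) (nat_lit 201) (nat_lit 176))) (XT.nd (nat_lit 78) (nat_lit 0) (nat_lit 0) (XT.lf (nat_lit 0) (nat_lit 1856053786) (nat_lit 76) (nat_lit 514383477) (nat_lit 152) (nat_lit 242194991143) (nat_lit 1) (nat_lit 5) (nat_lit 2) (nat_lit 5) (nat_lit 3) (nat_lit 4) (nat_lit 344) (nat_lit 201) (nat_lit 175)) (XT.lf (nat_lit 0) (nat_lit 3311212701) (nat_lit 152) (nat_lit 253031579406) (nat_lit 0) (nat_lit 397590848) (nat_lit 1) (nat_lit 5) (nat_lit 3) (nat_lit 4) (nat_lit 1) (nat_lit 4) (nat_lit 345) (nat_lit 201) (nat_lit 174)))))) (XT.nd (nat_lit 624) (nat_lit 0) (nat_lit 0) (XT.nd (nat_lit 312) (nat_lit 0) (nat_lit 0) (XT.nd (nat_lit 156) (nat_lit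 0) (nat_lit 0) (XT.nd (nat_lit 78) (nat_lit 0) (nat_lit 0) (XT.lf (nat_lit 0) (nat_lit 4290079732) (nat_lit 152) (nat_lit 263908790725) (nat_lit 0) (nat_lit 1325700201) (nat_lit 1) (nat_lit 5) (nat_lit 3) (nat_lit 4) (nat_lit 1) (nat_lit 4) (nat_lit 346) (nat_lit 201) (nat_lit 173)) (XT.lf (nat_lit 0) (nat_lit 5301338027) (nat_lit 152) (nat_lit 275358875730) (nat_lit 0) (nat_lit 2288617849) (nat_lit 1) (nat_lit 5) (nat_lit 3) (nat_lit 4) (nat_lit 1) (nat_lit 4) (nat_lit 347) (nat_lit 201) (nat_lit 172))) (XT.nd (nat_lit 78) (nat_lit 0) (nat_lit 0) (XT.lf (nat_lit 0) (nat_lit 6347395342) (nat_lit 152) (nat_lit 287409096530) (nat_lit 0) (nat_lit 3288636453) (nat_lit 1) (nat_lit 5) (nat_lit 3) (nat_lit 4) (nat_lit 1) (nat_lit 4) (nat_lit 348) (nat_lit 201) (nat_lit 171)) (XT.lf (nat_lit 0) (nat_lit 7430742291) (nat_lit 152) (nat_lit 300088144126) (nat_lit 0) (nat_lit 4328137010) (nat_lit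 1) (nat_lit 5) (nat_lit 3) (nat_lit 4) (nat_lit 1) (nat_lit 4) (nat_lit 349) (nat_lit 201) (nat_lit 170)))) (XT.nd (nat_lit 156) (nat_lit 0) (nat_lit 0) (XT.nd (nat_lit 78) (nat_lit 0) (nat_lit 0) (XT.lf (nat_lit 0) (nat_lit 8553958270) (nat_lit 152) (nat_lit 313426206727) (nat_lit 0) (nat_lit 5409594522) (nat_lit 1) (nat_lit 5) (nat_lit 3) (nat_lit 4) (nat_lit 1) (nat_lit 4) (nat_lit 350) (nat_lit 201) (nat_lit 169)) (XT.lf (nat_lit 0) (nat_lit 9719717604) (nat_lit 152) (nat_lit 327455041625) (nat_lit 0) (nat_lit 6535583886) (nat_lit 1) (nat_lit 5) (nat_lit 3) (nat_lit 4) (nat_lit 1) (nat_lit 4) (nat_lit 351) (nat_lit 201) (nat_lit 168))) (XT.nd (nat_lit 78) (nat_lit 0) (nat_lit 0) (XT.lf (nat_lit 0) (nat_lit 10930795910) (nat_lit 152) (nat_lit 342208050807) (nat_lit 0) (nat_lit 7708786031) (nat_lit 1) (nat_lit 5) (nat_lit 3) (nat_lit 4) (nat_lit 1) (nat_lit 4) (nat_lit 352) (nat_lit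 201) (nat_lit 167)) (XT.lf (nat_lit 0) (nat_lit 12190076708) (nat_lit 152) (nat_lit 357720360486) (nat_lit 0) (nat_lit 8931994294) (nat_lit 1) (nat_lit 5) (nat_lit 3) (nat_lit 4) (nat_lit 1) (nat_lit 4) (nat_lit 353) (nat_lit 201) (nat_lit 166))))) (XT.nd (nat_lit 312) (nat_lit 0) (nat_lit 0) (XT.nd (nat_lit 156) (nat_lit 0) (nat_lit 0) (XT.nd (nat_lit 78) (nat_lit 0) (nat_lit 0) (XT.lf (nat_lit 0) (nat_lit 13500558285) (nat_lit 152) (nat_lit 374028904732) (nat_lit 0) (nat_lit 10208121076) (nat_lit 1) (nat_lit 5) (nat_lit 3) (nat_lit 4) (nat_lit 1) (nat_lit 4) (nat_lit 354) (nat_lit 201) (nat_lit 165)) (XT.lf (nat_lit 0) (nat_lit 14865360836) (nat_lit 152) (nat_lit 391172513413) (nat_lit 0) (nat_lit 11540204775) (nat_lit 1) (nat_lit 5) (nat_lit 3) (nat_lit 4) (nat_lit 1) (nat_lit 4) (nat_lit 355) (nat_lit 201) (nat_lit 164))) (XT.nd (nat_lit 78) (nat_lit 0) (nat_lit 0) (XT.lf (nat_lit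 0) (nat_lit 16287733890) (nat_lit 152) (nat_lit 409192004645) (nat_lit 0) (nat_lit 12931417018) (nat_lit 1) (nat_lit 5) (nat_lit 3) (nat_lit 4) (nat_lit 1) (nat_lit 4) (nat_lit 356) (nat_lit 201) (nat_lit 163)) (XT.lf (nat_lit 0) (nat_lit 17771064051) (nat_lit 152) (nat_lit 428130281978) (nat_lit 0) (nat_lit 14385070215) (nat_lit 1) (nat_lit 5) (nat_lit 3) (nat_lit 4) (nat_lit 1) (nat_lit 4) (nat_lit 357) (nat_lit 201) (nat_lit 162)))) (XT.nd (nat_lit 34242) (nat_lit 0) (nat_lit 152) (XT.nd (nat_lit 78) (nat_lit 0) (nat_lit 0) (XT.lf (nat_lit 0) (nat_lit 19318883056) (nat_lit 152) (nat_lit 448032436549) (nat_lit 0) (nat_lit 15904625445) (nat_lit 1) (nat_lit 5) (nat_lit 3) (nat_lit 4) (nat_lit 1) (nat_lit 4) (nat_lit 358) (nat_lit 201) (nat_lit 161)) (XT.lf (nat_lit 0) (nat_lit 20934876188) (nat_lit 152) (nat_lit 468945854440) (nat_lit 0) (nat_lit 17493700697) (nat_lit 1) (nat_lit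 5) (nat_lit 3) (nat_lit 4) (nat_lit 1) (nat_lit 4) (nat_lit 359) (nat_lit 201) (nat_lit 160))) (XT.nd (nat_lit 78) (nat_lit 0) (nat_lit 0) (XT.lf (nat_lit 0) (nat_lit 12290915818) (nat_lit 76) (nat_lit 9743305188) (nat_lit 76) (nat_lit 9743305188) (nat_lit 3) (nat_lit 4) (nat_lit 4) (nat_lit 5) (nat_lit 4) (nat_lit 4) (nat_lit 316) (nat_lit 202) (nat_lit 202)) (XT.lf (nat_lit 0) (nat_lit 29156625705) (nat_lit 76) (nat_lit 18841541015) (nat_lit 76) (nat_lit 18632615527) (nat_lit 3) (nat_lit 4) (nat_lit 4) (nat_lit 5) (nat_lit 4) (nat_lit 4) (nat_lit 317) (nat_lit 202) (nat_lit 201)))))))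
noncomputable def xc12 : XT := (XT.nd (nat_lit 1248) (nat_lit 152) (nat_lit 0) (XT.nd (nat_lit 624) (nat_lit 0) (nat_lit 0) (XT.nd (nat_lit 312) (nat_lit 0) (nat_lit 0) (XT.nd (nat_lit 156) (nat_lit 0) (nat_lit 0) (XT.nd (nat_lit 78) (nat_lit 0) (nat_lit 0) (XT.lf (nat_lit 0) (nat_lit 33854803255) (nat_lit 76) (nat_lit 18208305093) (nat_lit 76) (nat_lit 17800402950) (nat_lit 3) (nat_lit 4) (nat_lit 4) (nat_lit 5) (nat_lit 4) (nat_lit 4) (nat_lit 318) (nat_lit 202) (nat_lit 200)) (XT.lf (nat_lit 0) (nat_lit 38687550422) (nat_lit 76) (nat_lit 17585394906) (nat_lit 76) (nat_lit 16987991186) (nat_lit 3) (nat_lit 4) (nat_lit 4) (nat_lit 5) (nat_lit 4) (nat_lit 4) (nat_lit 319) (nat_lit 202) (nat_lit 199))) (XT.nd (nat_lit 78) (nat_lit 0) (nat_lit 0) (XT.lf (nat_lit 0) (nat_lit 43666373748) (nat_lit 76) (nat_lit 16971327333) (nat_lit 76) (nat_lit 16193445921) (nat_lit 3) (nat_lit 4) (nat_lit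 4) (nat_lit 5) (nat_lit 4) (nat_lit 4) (nat_lit 320) (nat_lit 202) (nat_lit 198)) (XT.lf (nat_lit 0) (nat_lit 48803127574) (nat_lit 76) (nat_lit 16364640309) (nat_lit 76) (nat_lit 15414875382) (nat_lit 3) (nat_lit 4) (nat_lit 4) (nat_lit 5) (nat_lit 4) (nat_lit 4) (nat_lit 321) (nat_lit 202) (nat_lit 197)))) (XT.nd (nat_lit 156) (nat_lit 0) (nat_lit 0) (XT.nd (nat_lit 78) (nat_lit 0) (nat_lit 0) (XT.lf (nat_lit 0) (nat_lit 54110042266) (nat_lit 76) (nat_lit 15763889342) (nat_lit 76) (nat_lit 14650425827) (nat_lit 3) (nat_lit 4) (nat_lit 4) (nat_lit 5) (nat_lit 4) (nat_lit 4) (nat_lit 322) (nat_lit 202) (nat_lit 196)) (XT.lf (nat_lit 0) (nat_lit 59599753336) (nat_lit 76) (nat_lit 15167644071) (nat_lit 76) (nat_lit 13898277141) (nat_lit 3) (nat_lit 4) (nat_lit 4) (nat_lit 5) (nat_lit 4) (nat_lit 4) (nat_lit 323) (nat_lit 202) (nat_lit 195))) (XT.nd (nat_lit 78) (nat_lit 0) (nat_lit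 0) (XT.lf (nat_lit 0) (nat_lit 65285331523) (nat_lit 76) (nat_lit 14574484866) (nat_lit 76) (nat_lit 13156638492) (nat_lit 3) (nat_lit 4) (nat_lit 4) (nat_lit 5) (nat_lit 4) (nat_lit 4) (nat_lit 324) (nat_lit 202) (nat_lit 194)) (XT.lf (nat_lit 0) (nat_lit 71180313919) (nat_lit 76) (nat_lit 13982999442) (nat_lit 76) (nat_lit 12423744074) (nat_lit 3) (nat_lit 4) (nat_lit 4) (nat_lit 5) (nat_lit 4) (nat_lit 4) (nat_lit 325) (nat_lit 202) (nat_lit 193))))) (XT.nd (nat_lit 312) (nat_lit 0) (nat_lit 0) (XT.nd (nat_lit 156) (nat_lit 0) (nat_lit 0) (XT.nd (nat_lit 78) (nat_lit 0) (nat_lit 0) (XT.lf (nat_lit 0) (nat_lit 77298736197) (nat_lit 76) (nat_lit 13391779501) (nat_lit 76) (nat_lit 11697848900) (nat_lit 3) (nat_lit 4) (nat_lit 4) (nat_lit 5) (nat_lit 4) (nat_lit 4) (nat_lit 326) (nat_lit 202) (nat_lit 192)) (XT.lf (nat_lit 0) (nat_lit 83655166028) (nat_lit 76) (nat_lit 12799417376)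 (nat_lit 76) (nat_lit 10977224649) (nat_lit 3) (nat_lit 4) (nat_lit 4) (nat_lit 5) (nat_lit 4) (nat_lit 4) (nat_lit 327) (nat_lit 202) (nat_lit 191))) (XT.nd (nat_lit 78) (nat_lit 0) (nat_lit 0) (XT.lf (nat_lit 0) (nat_lit 90264737768) (nat_lit 76) (nat_lit 12204502681) (nat_lit 76) (nat_lit 10260155548) (nat_lit 3) (nat_lit 4) (nat_lit 4) (nat_lit 5) (nat_lit 4) (nat_lit 4) (nat_lit 328) (nat_lit 202) (nat_lit 190)) (XT.lf (nat_lit 0) (nat_lit 97143188495) (nat_lit 76) (nat_lit 11605618953) (nat_lit 76) (nat_lit 9544934291) (nat_lit 3) (nat_lit 4) (nat_lit 4) (nat_lit 5) (nat_lit 4) (nat_lit 4) (nat_lit 329) (nat_lit 202) (nat_lit 189)))) (XT.nd (nat_lit 156) (nat_lit 0) (nat_lit 0) (XT.nd (nat_lit 78) (nat_lit 0) (nat_lit 0) (XT.lf (nat_lit 0) (nat_lit 104306895471) (nat_lit 76) (nat_lit 11001340278) (nat_lit 76) (nat_lit 8829857969) (nat_lit 3) (nat_lit 4) (nat_lit 4) (nat_lit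 5) (nat_lit 4) (nat_lit 4) (nat_lit 330) (nat_lit 202) (nat_lit 188)) (XT.lf (nat_lit 0) (nat_lit 111772915141) (nat_lit 76) (nat_lit 10390227897) (nat_lit 76) (nat_lit 8113224019) (nat_lit 3) (nat_lit 4) (nat_lit 4) (nat_lit 5) (nat_lit 4) (nat_lit 4) (nat_lit 331) (nat_lit 202) (nat_lit 187))) (XT.nd (nat_lit 78) (nat_lit 0) (nat_lit 0) (XT.lf (nat_lit 0) (nat_lit 119559023743) (nat_lit 76) (nat_lit 9770826781) (nat_lit 76) (nat_lit 7393326171) (nat_lit 3) (nat_lit 4) (nat_lit 4) (nat_lit 5) (nat_lit 4) (nat_lit 4) (nat_lit 332) (nat_lit 202) (nat_lit 186)) (XT.lf (nat_lit 0) (nat_lit 127683759631) (nat_lit 76) (nat_lit 9141662165) (nat_lit 76) (nat_lit 6668450382) (nat_lit 3) (nat_lit 4) (nat_lit 4) (nat_lit 5) (nat_lit 4) (nat_lit 4) (nat_lit 333) (nat_lit 202) (nat_lit 185)))))) (XT.nd (nat_lit 624) (nat_lit 152) (nat_lit 0) (XT.nd (nat_lit 312) (nat_lit 0) (nat_lit 0) (XT.nd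 (nat_lit 156) (nat_lit 0) (nat_lit 0) (XT.nd (nat_lit 78) (nat_lit 0) (nat_lit 0) (XT.lf (nat_lit 0) (nat_lit 136166467413) (nat_lit 76) (nat_lit 8501236038) (nat_lit 76) (nat_lit 5936870757) (nat_lit 3) (nat_lit 4) (nat_lit 4) (nat_lit 5) (nat_lit 4) (nat_lit 4) (nat_lit 334) (nat_lit 202) (nat_lit 184)) (XT.lf (nat_lit 0) (nat_lit 145027344014) (nat_lit 76) (nat_lit 7848023577) (nat_lit 76) (nat_lit 5196845440) (nat_lit 3) (nat_lit 4) (nat_lit 4) (nat_lit 5) (nat_lit 4) (nat_lit 4) (nat_lit 335) (nat_lit 202) (nat_lit 183))) (XT.nd (nat_lit 78) (nat_lit 0) (nat_lit 0) (XT.lf (nat_lit 0) (nat_lit 154287486758) (nat_lit 76) (nat_lit 7180469513) (nat_lit 76) (nat_lit 4446612465) (nat_lit 3) (nat_lit 4) (nat_lit 4) (nat_lit 5) (nat_lit 4) (nat_lit 4) (nat_lit 336) (nat_lit 202) (nat_lit 182)) (XT.lf (nat_lit 0) (nat_lit 163968943604) (nat_lit 76) (nat_lit 6496984431) (nat_lit 76) (nat_lit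 3684385565) (nat_lit 3) (nat_lit 4) (nat_lit 4) (nat_lit 5) (nat_lit 4) (nat_lit 4) (nat_lit 337) (nat_lit 202) (nat_lit 181)))) (XT.nd (nat_lit 156) (nat_lit 0) (nat_lit 0) (XT.nd (nat_lit 78) (nat_lit 0) (nat_lit 0) (XT.lf (nat_lit 0) (nat_lit 174094765640) (nat_lit 76) (nat_lit 5795940988) (nat_lit 76) (nat_lit 2908349913) (nat_lit 3) (nat_lit 4) (nat_lit 4) (nat_lit 5) (nat_lit 4) (nat_lit 4) (nat_lit 338) (nat_lit 202) (nat_lit 180)) (XT.lf (nat_lit 0) (nat_lit 184689061967) (nat_lit 76) (nat_lit 5075670030) (nat_lit 76) (nat_lit 2116657804) (nat_lit 3) (nat_lit 4) (nat_lit 4) (nat_lit 5) (nat_lit 4) (nat_lit 4) (nat_lit 339) (nat_lit 202) (nat_lit 179))) (XT.nd (nat_lit 78) (nat_lit 0) (nat_lit 0) (XT.lf (nat_lit 0) (nat_lit 195777057098) (nat_lit 76) (nat_lit 4334456628) (nat_lit 76) (nat_lit 1307424258) (nat_lit 3) (nat_lit 4) (nat_lit 4) (nat_lit 5) (nat_lit 4) (nat_lit 4)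 (nat_lit 340) (nat_lit 202) (nat_lit 178)) (XT.lf (nat_lit 0) (nat_lit 207385151023) (nat_lit 76) (nat_lit 3570535989) (nat_lit 76) (nat_lit 478722529) (nat_lit 3) (nat_lit 4) (nat_lit 4) (nat_lit 5) (nat_lit 4) (nat_lit 4) (nat_lit 341) (nat_lit 202) (nat_lit 177))))) (XT.nd (nat_lit 312) (nat_lit 0) (nat_lit 0) (XT.nd (nat_lit 156) (nat_lit 76) (nat_lit 0) (XT.nd (nat_lit 78) (nat_lit 0) (nat_lit 0) (XT.lf (nat_lit 0) (nat_lit 359532708) (nat_lit 152) (nat_lit 2416467683) (nat_lit 76) (nat_lit 219175360493) (nat_lit 2) (nat_lit 5) (nat_lit 4) (nat_lit 5) (nat_lit 3) (nat_lit 4) (nat_lit 342) (nat_lit 202) (nat_lit 176)) (XT.lf (nat_lit 0) (nat_lit 1205180227) (nat_lit 152) (nat_lit 741648626) (nat_lit 76) (nat_lit 231047902128) (nat_lit 2) (nat_lit 5) (nat_lit 4) (nat_lit 5) (nat_lit 3) (nat_lit 4) (nat_lit 343) (nat_lit 202) (nat_lit 175))) (XT.nd (nat_lit 78) (nat_lit 0) (nat_lit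 0) (XT.lf (nat_lit 0) (nat_lit 1019283971) (nat_lit 76) (nat_lit 1072185494) (nat_lit 152) (nat_lit 242498922123) (nat_lit 1) (nat_lit 5) (nat_lit 2) (nat_lit 5) (nat_lit 3) (nat_lit 4) (nat_lit 344) (nat_lit 202) (nat_lit 174)) (XT.lf (nat_lit 0) (nat_lit 2864248616) (nat_lit 76) (nat_lit 153201438) (nat_lit 152) (nat_lit 253748654395) (nat_lit 1) (nat_lit 5) (nat_lit 2) (nat_lit 5) (nat_lit 3) (nat_lit 4) (nat_lit 345) (nat_lit 202) (nat_lit 173)))) (XT.nd (nat_lit 156) (nat_lit 0) (nat_lit 0) (XT.nd (nat_lit 78) (nat_lit 0) (nat_lit 0) (XT.lf (nat_lit 0) (nat_lit 3985850993) (nat_lit 152) (nat_lit 264790827990) (nat_lit 0) (nat_lit 774154159) (nat_lit 1) (nat_lit 5) (nat_lit 3) (nat_lit 4) (nat_lit 1) (nat_lit 4) (nat_lit 346) (nat_lit 202) (nat_lit 172)) (XT.lf (nat_lit 0) (nat_lit 4989419583) (nat_lit 152) (nat_lit 276254391798) (nat_lit 0) (nat_lit 1731684039) (nat_lit 1) (nat_lit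 5) (nat_lit 3) (nat_lit 4) (nat_lit 1) (nat_lit 4) (nat_lit 347) (nat_lit 202) (nat_lit 171))) (XT.nd (nat_lit 78) (nat_lit 0) (nat_lit 0) (XT.lf (nat_lit 0) (nat_lit 6028153370) (nat_lit 152) (nat_lit 288317449552) (nat_lit 0) (nat_lit 2726571434) (nat_lit 1) (nat_lit 5) (nat_lit 3) (nat_lit 4) (nat_lit 1) (nat_lit 4) (nat_lit 348) (nat_lit 202) (nat_lit 170)) (XT.nd (nat_lit 78) (nat_lit 0) (nat_lit 0) (XT.lf (nat_lit 0) (nat_lit 7104525530) (nat_lit 152) (nat_lit 301008722819) (nat_lit 0) (nat_lit 3761185127) (nat_lit 1) (nat_lit 5) (nat_lit 3) (nat_lit 4) (nat_lit 1) (nat_lit 4) (nat_lit 349) (nat_lit 202) (nat_lit 169)) (XT.lf (nat_lit 0) (nat_lit 8221098854) (nat_lit 152) (nat_lit 314358428916) (nat_lit 0) (nat_lit 4837988481) (nat_lit 1) (nat_lit 5) (nat_lit 3) (nat_lit 4) (nat_lit 1) (nat_lit 4) (nat_lit 350) (nat_lit 202) (nat_lit 168))))))))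
noncomputable def xc13 : XT := (XT.nd (nat_lit 36426) (nat_lit 0) (nat_lit 0) (XT.nd (nat_lit 35178) (nat_lit 0) (nat_lit 152) (XT.nd (nat_lit 624) (nat_lit 0) (nat_lit 0) (XT.nd (nat_lit 312) (nat_lit 0) (nat_lit 0) (XT.nd (nat_lit 156) (nat_lit 0) (nat_lit 0) (XT.nd (nat_lit 78) (nat_lit 0) (nat_lit 0) (XT.lf (nat_lit 0) (nat_lit 9380531849) (nat_lit 152) (nat_lit 328398352857) (nat_lit 0) (nat_lit 5959545314) (nat_lit 1) (nat_lit 5) (nat_lit 3) (nat_lit 4) (nat_lit 1) (nat_lit 4) (nat_lit 351) (nat_lit 202) (nat_lit 167)) (XT.lf (nat_lit 0) (nat_lit 10585585070) (nat_lit 152) (nat_lit 343161923033) (nat_lit 0) (nat_lit 7128526001) (nat_lit 1) (nat_lit 5) (nat_lit 3) (nat_lit 4) (nat_lit 1) (nat_lit 4) (nat_lit 352) (nat_lit 202) (nat_lit 166))) (XT.nd (nat_lit 78) (nat_lit 0) (nat_lit 0) (XT.lf (nat_lit 0) (nat_lit 11839127692) (nat_lit 152) (nat_lit 358684290801) (nat_lit 0) (nat_lit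 8347713828) (nat_lit 1) (nat_lit 5) (nat_lit 3) (nat_lit 4) (nat_lit 1) (nat_lit 4) (nat_lit 353) (nat_lit 202) (nat_lit 165)) (XT.lf (nat_lit 0) (nat_lit 13144144340) (nat_lit 152) (nat_lit 375002414181) (nat_lit 0) (nat_lit 9620011624) (nat_lit 1) (nat_lit 5) (nat_lit 3) (nat_lit 4) (nat_lit 1) (nat_lit 4) (nat_lit 354) (nat_lit 202) (nat_lit 164)))) (XT.nd (nat_lit 156) (nat_lit 0) (nat_lit 0) (XT.nd (nat_lit 78) (nat_lit 0) (nat_lit 0) (XT.lf (nat_lit 0) (nat_lit 14503742196) (nat_lit 152) (nat_lit 392155145846) (nat_lit 0) (nat_lit 10948448668) (nat_lit 1) (nat_lit 5) (nat_lit 3) (nat_lit 4) (nat_lit 1) (nat_lit 4) (nat_lit 355) (nat_lit 202) (nat_lit 163)) (XT.lf (nat_lit 0) (nat_lit 15921158398) (nat_lit 152) (nat_lit 410183325633) (nat_lit 0) (nat_lit 12336187907) (nat_lit 1) (nat_lit 5) (nat_lit 3) (nat_lit 4) (nat_lit 1) (nat_lit 4) (nat_lit 356) (nat_lit 202) (nat_lit 162)))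 (XT.nd (nat_lit 78) (nat_lit 0) (nat_lit 0) (XT.lf (nat_lit 0) (nat_lit 17399767747) (nat_lit 152) (nat_lit 429129877782) (nat_lit 0) (nat_lit 13786533481) (nat_lit 1) (nat_lit 5) (nat_lit 3) (nat_lit 4) (nat_lit 1) (nat_lit 4) (nat_lit 357) (nat_lit 202) (nat_lit 161)) (XT.lf (nat_lit 0) (nat_lit 18943090741) (nat_lit 152) (nat_lit 449039913129) (nat_lit 0) (nat_lit 15302938595) (nat_lit 1) (nat_lit 5) (nat_lit 3) (nat_lit 4) (nat_lit 1) (nat_lit 4) (nat_lit 358) (nat_lit 202) (nat_lit 160))))) (XT.nd (nat_lit 34242) (nat_lit 0) (nat_lit 152) (XT.nd (nat_lit 34086) (nat_lit 0) (nat_lit 152) (XT.nd (nat_lit 34008) (nat_lit 0) (nat_lit 152) (XT.lf (nat_lit 0) (nat_lit 20554801959) (nat_lit 152) (nat_lit 469960836521) (nat_lit 0) (nat_lit 16889013735) (nat_lit 1) (nat_lit 5) (nat_lit 3) (nat_lit 4) (nat_lit 1) (nat_lit 4) (nat_lit 359) (nat_lit 202) (nat_lit 159)) (XT.lf (nat_lit 0)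 (nat_lit 7907876700) (nat_lit 76) (nat_lit 10507043186) (nat_lit 76) (nat_lit 10507043186) (nat_lit 3) (nat_lit 4) (nat_lit 4) (nat_lit 5) (nat_lit 4) (nat_lit 4) (nat_lit 314) (nat_lit 203) (nat_lit 203))) (XT.nd (nat_lit 78) (nat_lit 0) (nat_lit 0) (XT.lf (nat_lit 0) (nat_lit 20119528681) (nat_lit 76) (nat_lit 20364420817) (nat_lit 76) (nat_lit 20145049055) (nat_lit 3) (nat_lit 4) (nat_lit 4) (nat_lit 5) (nat_lit 4) (nat_lit 4) (nat_lit 315) (nat_lit 203) (nat_lit 202)) (XT.lf (nat_lit 0) (nat_lit 24527868693) (nat_lit 76) (nat_lit 19728563237) (nat_lit 76) (nat_lit 19300265986) (nat_lit 3) (nat_lit 4) (nat_lit 4) (nat_lit 5) (nat_lit 4) (nat_lit 4) (nat_lit 316) (nat_lit 203) (nat_lit 201)))) (XT.nd (nat_lit 156) (nat_lit 0) (nat_lit 0) (XT.nd (nat_lit 78) (nat_lit 0) (nat_lit 0) (XT.lf (nat_lit 0) (nat_lit 29051269482) (nat_lit 76) (nat_lit 19104999684) (nat_lit 76) (nat_lit 18477725779)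 (nat_lit 3) (nat_lit 4) (nat_lit 4) (nat_lit 5) (nat_lit 4) (nat_lit 4) (nat_lit 317) (nat_lit 203) (nat_lit 200)) (XT.lf (nat_lit 0) (nat_lit 33700501052) (nat_lit 76) (nat_lit 18492245485) (nat_lit 76) (nat_lit 17675470002) (nat_lit 3) (nat_lit 4) (nat_lit 4) (nat_lit 5) (nat_lit 4) (nat_lit 4) (nat_lit 318) (nat_lit 203) (nat_lit 199))) (XT.nd (nat_lit 78) (nat_lit 0) (nat_lit 0) (XT.lf (nat_lit 0) (nat_lit 38486633000) (nat_lit 76) (nat_lit 17888841699) (nat_lit 76) (nat_lit 16891588525) (nat_lit 3) (nat_lit 4) (nat_lit 4) (nat_lit 5) (nat_lit 4) (nat_lit 4) (nat_lit 319) (nat_lit 203) (nat_lit 198)) (XT.lf (nat_lit 0) (nat_lit 43421060879) (nat_lit 76) (nat_lit 17293351652) (nat_lit 76) (nat_lit 16124214962) (nat_lit 3) (nat_lit 4) (nat_lit 4) (nat_lit 5) (nat_lit 4) (nat_lit 4) (nat_lit 320) (nat_lit 203) (nat_lit 197)))))) (XT.nd (nat_lit 624) (nat_lit 0) (nat_lit 0) (XT.nd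 (nat_lit 312) (nat_lit 0) (nat_lit 0) (XT.nd (nat_lit 156) (nat_lit 0) (nat_lit 0) (XT.nd (nat_lit 78) (nat_lit 0) (nat_lit 0) (XT.lf (nat_lit 0) (nat_lit 48515533327) (nat_lit 76) (nat_lit 16704357510) (nat_lit 76) (nat_lit 15371522233) (nat_lit 3) (nat_lit 4) (nat_lit 4) (nat_lit 5) (nat_lit 4) (nat_lit 4) (nat_lit 321) (nat_lit 203) (nat_lit 196)) (XT.lf (nat_lit 0) (nat_lit 53782180039) (nat_lit 76) (nat_lit 16120456906) (nat_lit 76) (nat_lit 14631718213) (nat_lit 3) (nat_lit 4) (nat_lit 4) (nat_lit 5) (nat_lit 4) (nat_lit 4) (nat_lit 322) (nat_lit 203) (nat_lit 195))) (XT.nd (nat_lit 78) (nat_lit 0) (nat_lit 0) (XT.lf (nat_lit 0) (nat_lit 59233540653) (nat_lit 76) (nat_lit 15540259601) (nat_lit 76) (nat_lit 13903041464) (nat_lit 3) (nat_lit 4) (nat_lit 4) (nat_lit 5) (nat_lit 4) (nat_lit 4) (nat_lit 323) (nat_lit 203) (nat_lit 194)) (XT.lf (nat_lit 0) (nat_lit 64882594596) (nat_lit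 76) (nat_lit 14962384172) (nat_lit 76) (nat_lit 13183757041) (nat_lit 3) (nat_lit 4) (nat_lit 4) (nat_lit 5) (nat_lit 4) (nat_lit 4) (nat_lit 324) (nat_lit 203) (nat_lit 193)))) (XT.nd (nat_lit 156) (nat_lit 0) (nat_lit 0) (XT.nd (nat_lit 78) (nat_lit 0) (nat_lit 0) (XT.lf (nat_lit 0) (nat_lit 70742791998) (nat_lit 76) (nat_lit 14385454726) (nat_lit 76) (nat_lit 12472152363) (nat_lit 3) (nat_lit 4) (nat_lit 4) (nat_lit 5) (nat_lit 4) (nat_lit 4) (nat_lit 325) (nat_lit 203) (nat_lit 192)) (XT.lf (nat_lit 0) (nat_lit 76828085709) (nat_lit 76) (nat_lit 13808097620) (nat_lit 76) (nat_lit 11766533131) (nat_lit 3) (nat_lit 4) (nat_lit 4) (nat_lit 5) (nat_lit 4) (nat_lit 4) (nat_lit 326) (nat_lit 203) (nat_lit 191))) (XT.nd (nat_lit 78) (nat_lit 0) (nat_lit 0) (XT.lf (nat_lit 0) (nat_lit 83152964524) (nat_lit 76) (nat_lit 13228938196) (nat_lit 76) (nat_lit 11065219301) (nat_lit 3) (nat_lit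 4) (nat_lit 4) (nat_lit 5) (nat_lit 4) (nat_lit 4) (nat_lit 327) (nat_lit 203) (nat_lit 190)) (XT.lf (nat_lit 0) (nat_lit 89732487679) (nat_lit 76) (nat_lit 12646597502) (nat_lit 76) (nat_lit 10366541077) (nat_lit 3) (nat_lit 4) (nat_lit 4) (nat_lit 5) (nat_lit 4) (nat_lit 4) (nat_lit 328) (nat_lit 203) (nat_lit 189))))) (XT.nd (nat_lit 312) (nat_lit 0) (nat_lit 0) (XT.nd (nat_lit 156) (nat_lit 0) (nat_lit 0) (XT.nd (nat_lit 78) (nat_lit 0) (nat_lit 0) (XT.lf (nat_lit 0) (nat_lit 96582320705) (nat_lit 76) (nat_lit 12059689012) (nat_lit 76) (nat_lit 9668834941) (nat_lit 3) (nat_lit 4) (nat_lit 4) (nat_lit 5) (nat_lit 4) (nat_lit 4) (nat_lit 329) (nat_lit 203) (nat_lit 188)) (XT.lf (nat_lit 0) (nat_lit 103718772727) (nat_lit 76) (nat_lit 11466815327) (nat_lit 76) (nat_lit 8970439686) (nat_lit 3) (nat_lit 4) (nat_lit 4) (nat_lit 5) (nat_lit 4) (nat_lit 4) (nat_lit 330) (nat_lit 203)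 (nat_lit 187))) (XT.nd (nat_lit 78) (nat_lit 0) (nat_lit 0) (XT.lf (nat_lit 0) (nat_lit 111158835299) (nat_lit 76) (nat_lit 10866564840) (nat_lit 76) (nat_lit 8269692468) (nat_lit 3) (nat_lit 4) (nat_lit 4) (nat_lit 5) (nat_lit 4) (nat_lit 4) (nat_lit 331) (nat_lit 203) (nat_lit 186)) (XT.lf (nat_lit 0) (nat_lit 118920222855) (nat_lit 76) (nat_lit 10257508386) (nat_lit 76) (nat_lit 7564924840) (nat_lit 3) (nat_lit 4) (nat_lit 4) (nat_lit 5) (nat_lit 4) (nat_lit 4) (nat_lit 332) (nat_lit 203) (nat_lit 185)))) (XT.nd (nat_lit 156) (nat_lit 0) (nat_lit 0) (XT.nd (nat_lit 78) (nat_lit 0) (nat_lit 0) (XT.lf (nat_lit 0) (nat_lit 127021414889) (nat_lit 76) (nat_lit 9638195828) (nat_lit 76) (nat_lit 6854458784) (nat_lit 3) (nat_lit 4) (nat_lit 4) (nat_lit 5) (nat_lit 4) (nat_lit 4) (nat_lit 333) (nat_lit 203) (nat_lit 184)) (XT.lf (nat_lit 0) (nat_lit 135481699954) (nat_lit 76) (nat_lit 9007152615)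 (nat_lit 76) (nat_lit 6136602715) (nat_lit 3) (nat_lit 4) (nat_lit 4) (nat_lit 5) (nat_lit 4) (nat_lit 4) (nat_lit 334) (nat_lit 203) (nat_lit 183))) (XT.nd (nat_lit 78) (nat_lit 0) (nat_lit 0) (XT.lf (nat_lit 0) (nat_lit 144321221586) (nat_lit 76) (nat_lit 8362876261) (nat_lit 76) (nat_lit 5409647451) (nat_lit 3) (nat_lit 4) (nat_lit 4) (nat_lit 5) (nat_lit 4) (nat_lit 4) (nat_lit 335) (nat_lit 203) (nat_lit 182)) (XT.lf (nat_lit 0) (nat_lit 153561026264) (nat_lit 76) (nat_lit 7703832775) (nat_lit 76) (nat_lit 4671862146) (nat_lit 3) (nat_lit 4) (nat_lit 4) (nat_lit 5) (nat_lit 4) (nat_lit 4) (nat_lit 336) (nat_lit 203) (nat_lit 181))))))) (XT.nd (nat_lit 1248) (nat_lit 0) (nat_lit 0) (XT.nd (nat_lit 624) (nat_lit 0) (nat_lit 0) (XT.nd (nat_lit 312) (nat_lit 152) (nat_lit 0) (XT.nd (nat_lit 156) (nat_lit 0) (nat_lit 0) (XT.nd (nat_lit 78) (nat_lit 0) (nat_lit 0) (XT.lf (nat_lit 0)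 (nat_lit 163223113524) (nat_lit 76) (nat_lit 7028453007) (nat_lit 76) (nat_lit 3921490169) (nat_lit 3) (nat_lit 4) (nat_lit 4) (nat_lit 5) (nat_lit 4) (nat_lit 4) (nat_lit 337) (nat_lit 203) (nat_lit 180)) (XT.lf (nat_lit 0) (nat_lit 173330488335) (nat_lit 76) (nat_lit 6335128909) (nat_lit 76) (nat_lit 3156744920) (nat_lit 3) (nat_lit 4) (nat_lit 4) (nat_lit 5) (nat_lit 4) (nat_lit 4) (nat_lit 338) (nat_lit 203) (nat_lit 179))) (XT.nd (nat_lit 78) (nat_lit 0) (nat_lit 0) (XT.lf (nat_lit 0) (nat_lit 183907215875) (nat_lit 76) (nat_lit 5622209709) (nat_lit 76) (nat_lit 2375805577) (nat_lit 3) (nat_lit 4) (nat_lit 4) (nat_lit 5) (nat_lit 4) (nat_lit 4) (nat_lit 339) (nat_lit 203) (nat_lit 178)) (XT.lf (nat_lit 0) (nat_lit 194978478830) (nat_lit 76) (nat_lit 4887997981) (nat_lit 76) (nat_lit 1576812759) (nat_lit 3) (nat_lit 4) (nat_lit 4) (nat_lit 5) (nat_lit 4) (nat_lit 4) (nat_lit 340)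 (nat_lit 203) (nat_lit 177)))) (XT.nd (nat_lit 156) (nat_lit 76) (nat_lit 0) (XT.nd (nat_lit 78) (nat_lit 76) (nat_lit 0) (XT.lf (nat_lit 0) (nat_lit 206570637348) (nat_lit 76) (nat_lit 4130745602) (nat_lit 76) (nat_lit 757864105) (nat_lit 3) (nat_lit 4) (nat_lit 4) (nat_lit 5) (nat_lit 4) (nat_lit 4) (nat_lit 341) (nat_lit 203) (nat_lit 176)) (XT.lf (nat_lit 0) (nat_lit 80334057) (nat_lit 152) (nat_lit 3266955036) (nat_lit 76) (nat_lit 218629597254) (nat_lit 2) (nat_lit 5) (nat_lit 4) (nat_lit 5) (nat_lit 3) (nat_lit 4) (nat_lit 342) (nat_lit 203) (nat_lit 175))) (XT.nd (nat_lit 78) (nat_lit 76) (nat_lit 0) (XT.lf (nat_lit 0) (nat_lit 917418388) (nat_lit 152) (nat_lit 1606892498) (nat_lit 76) (nat_lit 230496393216) (nat_lit 2) (nat_lit 5) (nat_lit 4) (nat_lit 5) (nat_lit 3) (nat_lit 4) (nat_lit 343) (nat_lit 203) (nat_lit 174)) (XT.lf (nat_lit 0) (nat_lit 110912717) (nat_lit 76)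 (nat_lit 1670457271) (nat_lit 152) (nat_lit 242836130174) (nat_lit 1) (nat_lit 5) (nat_lit 2) (nat_lit 5) (nat_lit 3) (nat_lit 4) (nat_lit 344) (nat_lit 203) (nat_lit 173))))) (XT.nd (nat_lit 312) (nat_lit 0) (nat_lit 0) (XT.nd (nat_lit 156) (nat_lit 0) (nat_lit 0) (XT.nd (nat_lit 78) (nat_lit 0) (nat_lit 0) (XT.lf (nat_lit 0) (nat_lit 1942050208) (nat_lit 76) (nat_lit 757317423) (nat_lit 152) (nat_lit 254094262224) (nat_lit 1) (nat_lit 5) (nat_lit 2) (nat_lit 5) (nat_lit 3) (nat_lit 4) (nat_lit 345) (nat_lit 203) (nat_lit 172)) (XT.lf (nat_lit 0) (nat_lit 3650646922) (nat_lit 152) (nat_lit 265744598663) (nat_lit 0) (nat_lit 183985890) (nat_lit 1) (nat_lit 5) (nat_lit 3) (nat_lit 4) (nat_lit 1) (nat_lit 4) (nat_lit 346) (nat_lit 203) (nat_lit 171))) (XT.nd (nat_lit 78) (nat_lit 0) (nat_lit 0) (XT.lf (nat_lit 0) (nat_lit 4646891984) (nat_lit 152) (nat_lit 277220999425) (nat_lit 0)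 (nat_lit 1136384560) (nat_lit 1) (nat_lit 5) (nat_lit 3) (nat_lit 4) (nat_lit 1) (nat_lit 4) (nat_lit 347) (nat_lit 203) (nat_lit 170)) (XT.lf (nat_lit 0) (nat_lit 5678650983) (nat_lit 152) (nat_lit 289296282850) (nat_lit 0) (nat_lit 2126385091) (nat_lit 1) (nat_lit 5) (nat_lit 3) (nat_lit 4) (nat_lit 1) (nat_lit 4) (nat_lit 348) (nat_lit 203) (nat_lit 169)))) (XT.nd (nat_lit 156) (nat_lit 0) (nat_lit 0) (XT.nd (nat_lit 78) (nat_lit 0) (nat_lit 0) (XT.lf (nat_lit 0) (nat_lit 6748380487) (nat_lit 152) (nat_lit 301999199612) (nat_lit 0) (nat_lit 3156344626) (nat_lit 1) (nat_lit 5) (nat_lit 3) (nat_lit 4) (nat_lit 1) (nat_lit 4) (nat_lit 349) (nat_lit 203) (nat_lit 168)) (XT.lf (nat_lit 0) (nat_lit 7858627472) (nat_lit 152) (nat_lit 315359994753) (nat_lit 0) (nat_lit 4228715449) (nat_lit 1) (nat_lit 5) (nat_lit 3) (nat_lit 4) (nat_lit 1) (nat_lit 4) (nat_lit 350) (nat_lit 203) (nat_lit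 167))) (XT.nd (nat_lit 78) (nat_lit 0) (nat_lit 0) (XT.lf (nat_lit 0) (nat_lit 9012035382) (nat_lit 152) (nat_lit 329410479688) (nat_lit 0) (nat_lit 5346050825) (nat_lit 1) (nat_lit 5) (nat_lit 3) (nat_lit 4) (nat_lit 1) (nat_lit 4) (nat_lit 351) (nat_lit 203) (nat_lit 166)) (XT.lf (nat_lit 0) (nat_lit 10211350428) (nat_lit 152) (nat_lit 344184107954) (nat_lit 0) (nat_lit 6511011076) (nat_lit 1) (nat_lit 5) (nat_lit 3) (nat_lit 4) (nat_lit 1) (nat_lit 4) (nat_lit 352) (nat_lit 203) (nat_lit 165)))))) (XT.nd (nat_lit 34398) (nat_lit 0) (nat_lit 152) (XT.nd (nat_lit 312) (nat_lit 0) (nat_lit 0) (XT.nd (nat_lit 156) (nat_lit 0) (nat_lit 0) (XT.nd (nat_lit 78) (nat_lit 0) (nat_lit 0) (XT.lf (nat_lit 0) (nat_lit 11459428120) (nat_lit 152) (nat_lit 359716054855) (nat_lit 0) (nat_lit 7726369916) (nat_lit 1) (nat_lit 5) (nat_lit 3) (nat_lit 4) (nat_lit 1) (nat_lit 4) (nat_lit 353) (nat_lit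 203) (nat_lit 164)) (XT.lf (nat_lit 0) (nat_lit 12759240073) (nat_lit 152) (nat_lit 376043301218) (nat_lit 0) (nat_lit 8995021057) (nat_lit 1) (nat_lit 5) (nat_lit 3) (nat_lit 4) (nat_lit 1) (nat_lit 4) (nat_lit 354) (nat_lit 203) (nat_lit 163))) (XT.nd (nat_lit 78) (nat_lit 0) (nat_lit 0) (XT.lf (nat_lit 0) (nat_lit 14113881077) (nat_lit 152) (nat_lit 393204721439) (nat_lit 0) (nat_lit 10319985098) (nat_lit 1) (nat_lit 5) (nat_lit 3) (nat_lit 4) (nat_lit 1) (nat_lit 4) (nat_lit 355) (nat_lit 203) (nat_lit 162)) (XT.lf (nat_lit 0) (nat_lit 15526576468) (nat_lit 152) (nat_lit 411241176042) (nat_lit 0) (nat_lit 11704416714) (nat_lit 1) (nat_lit 5) (nat_lit 3) (nat_lit 4) (nat_lit 1) (nat_lit 4) (nat_lit 356) (nat_lit 203) (nat_lit 161)))) (XT.nd (nat_lit 156) (nat_lit 0) (nat_lit 0) (XT.nd (nat_lit 78) (nat_lit 0) (nat_lit 0) (XT.lf (nat_lit 0) (nat_lit 17000689806) (nat_lit 152) (nat_lit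 430195608967) (nat_lit 0) (nat_lit 13151612172) (nat_lit 1) (nat_lit 5) (nat_lit 3) (nat_lit 4) (nat_lit 1) (nat_lit 4) (nat_lit 357) (nat_lit 203) (nat_lit 160)) (XT.lf (nat_lit 0) (nat_lit 18539730885) (nat_lit 152) (nat_lit 450113149815) (nat_lit 0) (nat_lit 14665017174) (nat_lit 1) (nat_lit 5) (nat_lit 3) (nat_lit 4) (nat_lit 1) (nat_lit 4) (nat_lit 358) (nat_lit 203) (nat_lit 159))) (XT.nd (nat_lit 33852) (nat_lit 0) (nat_lit 152) (XT.lf (nat_lit 0) (nat_lit 20147364089) (nat_lit 152) (nat_lit 471041221304) (nat_lit 0) (nat_lit 16248235066) (nat_lit 1) (nat_lit 5) (nat_lit 3) (nat_lit 4) (nat_lit 1) (nat_lit 4) (nat_lit 359) (nat_lit 203) (nat_lit 158)) (XT.lf (nat_lit 0) (nat_lit 3770313701) (nat_lit 76) (nat_lit 11283254972) (nat_lit 76) (nat_lit 11283254972) (nat_lit 3) (nat_lit 4) (nat_lit 4) (nat_lit 5) (nat_lit 4) (nat_lit 4) (nat_lit 312) (nat_lit 204) (nat_lit 204)))))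 (XT.nd (nat_lit 312) (nat_lit 0) (nat_lit 0) (XT.nd (nat_lit 156) (nat_lit 0) (nat_lit 0) (XT.nd (nat_lit 78) (nat_lit 0) (nat_lit 0) (XT.lf (nat_lit 0) (nat_lit 11606295764) (nat_lit 76) (nat_lit 21909447075) (nat_lit 76) (nat_lit 21679106724) (nat_lit 3) (nat_lit 4) (nat_lit 4) (nat_lit 5) (nat_lit 4) (nat_lit 4) (nat_lit 313) (nat_lit 204) (nat_lit 203)) (XT.lf (nat_lit 0) (nat_lit 15759092309) (nat_lit 76) (nat_lit 21268136876) (nat_lit 76) (nat_lit 20818424763) (nat_lit 3) (nat_lit 4) (nat_lit 4) (nat_lit 5) (nat_lit 4) (nat_lit 4) (nat_lit 314) (nat_lit 204) (nat_lit 202))) (XT.nd (nat_lit 78) (nat_lit 0) (nat_lit 0) (XT.lf (nat_lit 0) (nat_lit 20008904647) (nat_lit 76) (nat_lit 20641052420) (nat_lit 76) (nat_lit 19982414819) (nat_lit 3) (nat_lit 4) (nat_lit 4) (nat_lit 5) (nat_lit 4) (nat_lit 4) (nat_lit 315) (nat_lit 204) (nat_lit 201)) (XT.lf (nat_lit 0) (nat_lit 24365851379)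 (nat_lit 76) (nat_lit 20026700648) (nat_lit 76) (nat_lit 19169086392) (nat_lit 3) (nat_lit 4) (nat_lit 4) (nat_lit 5) (nat_lit 4) (nat_lit 4) (nat_lit 316) (nat_lit 204) (nat_lit 200)))) (XT.nd (nat_lit 156) (nat_lit 0) (nat_lit 0) (XT.nd (nat_lit 78) (nat_lit 0) (nat_lit 0) (XT.lf (nat_lit 0) (nat_lit 28840306189) (nat_lit 76) (nat_lit 19423618818) (nat_lit 76) (nat_lit 18376502985) (nat_lit 3) (nat_lit 4) (nat_lit 4) (nat_lit 5) (nat_lit 4) (nat_lit 4) (nat_lit 317) (nat_lit 204) (nat_lit 199)) (XT.lf (nat_lit 0) (nat_lit 33442922539) (nat_lit 76) (nat_lit 18830371020) (nat_lit 76) (nat_lit 17602777495) (nat_lit 3) (nat_lit 4) (nat_lit 4) (nat_lit 5) (nat_lit 4) (nat_lit 4) (nat_lit 318) (nat_lit 204) (nat_lit 198))) (XT.nd (nat_lit 78) (nat_lit 0) (nat_lit 0) (XT.lf (nat_lit 0) (nat_lit 38184659040) (nat_lit 76) (nat_lit 18245544760) (nat_lit 76) (nat_lit 16846067719) (nat_lit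 3) (nat_lit 4) (nat_lit 4) (nat_lit 5) (nat_lit 4) (nat_lit 4) (nat_lit 319) (nat_lit 204) (nat_lit 197)) (XT.lf (nat_lit 0) (nat_lit 43076805541) (nat_lit 76) (nat_lit 17667747595) (nat_lit 76) (nat_lit 16104571967) (nat_lit 3) (nat_lit 4) (nat_lit 4) (nat_lit 5) (nat_lit 4) (nat_lit 4) (nat_lit 320) (nat_lit 204) (nat_lit 196))))))))
noncomputable def xc14 : XT := (XT.nd (nat_lit 1248) (nat_lit 152) (nat_lit 0) (XT.nd (nat_lit 624) (nat_lit 0) (nat_lit 0) (XT.nd (nat_lit 312) (nat_lit 0) (nat_lit 0) (XT.nd (nat_lit 156) (nat_lit 0) (nat_lit 0) (XT.nd (nat_lit 78) (nat_lit 0) (nat_lit 0) (XT.lf (nat_lit 0) (nat_lit 48131010009) (nat_lit 76) (nat_lit 17095603816) (nat_lit 76) (nat_lit 15376524773) (nat_lit 3) (nat_lit 4) (nat_lit 4) (nat_lit 5) (nat_lit 4) (nat_lit 4) (nat_lit 321) (nat_lit 204) (nat_lit 195)) (XT.lf (nat_lit 0) (nat_lit 53359306266) (nat_lit 76) (nat_lit 16527751178)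 (nat_lit 76) (nat_lit 14660192691) (nat_lit 3) (nat_lit 4) (nat_lit 4) (nat_lit 5) (nat_lit 4) (nat_lit 4) (nat_lit 322) (nat_lit 204) (nat_lit 194))) (XT.nd (nat_lit 78) (nat_lit 0) (nat_lit 0) (XT.lf (nat_lit 0) (nat_lit 58774142635) (nat_lit 76) (nat_lit 15962837649) (nat_lit 76) (nat_lit 13953870168) (nat_lit 3) (nat_lit 4) (nat_lit 4) (nat_lit 5) (nat_lit 4) (nat_lit 4) (nat_lit 323) (nat_lit 204) (nat_lit 193)) (XT.lf (nat_lit 0) (nat_lit 64388411584) (nat_lit 76) (nat_lit 15399518198) (nat_lit 76) (nat_lit 13255875484) (nat_lit 3) (nat_lit 4) (nat_lit 4) (nat_lit 5) (nat_lit 4) (nat_lit 4) (nat_lit 324) (nat_lit 204) (nat_lit 192)))) (XT.nd (nat_lit 156) (nat_lit 0) (nat_lit 0) (XT.nd (nat_lit 78) (nat_lit 0) (nat_lit 0) (XT.lf (nat_lit 0) (nat_lit 70215480419) (nat_lit 76) (nat_lit 14836451587) (nat_lit 76) (nat_lit 12564546747) (nat_lit 3) (nat_lit 4) (nat_lit 4) (nat_lit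 5) (nat_lit 4) (nat_lit 4) (nat_lit 325) (nat_lit 204) (nat_lit 191)) (XT.lf (nat_lit 0) (nat_lit 76269223115) (nat_lit 76) (nat_lit 14272297182) (nat_lit 76) (nat_lit 11878237936) (nat_lit 3) (nat_lit 4) (nat_lit 4) (nat_lit 5) (nat_lit 4) (nat_lit 4) (nat_lit 326) (nat_lit 204) (nat_lit 190))) (XT.nd (nat_lit 78) (nat_lit 0) (nat_lit 0) (XT.lf (nat_lit 0) (nat_lit 82564053345) (nat_lit 76) (nat_lit 13705711758) (nat_lit 76) (nat_lit 11195314983) (nat_lit 3) (nat_lit 4) (nat_lit 4) (nat_lit 5) (nat_lit 4) (nat_lit 4) (nat_lit 327) (nat_lit 204) (nat_lit 189)) (XT.lf (nat_lit 0) (nat_lit 89114958798) (nat_lit 76) (nat_lit 13135346303) (nat_lit 76) (nat_lit 10514151881) (nat_lit 3) (nat_lit 4) (nat_lit 4) (nat_lit 5) (nat_lit 4) (nat_lit 4) (nat_lit 328) (nat_lit 204) (nat_lit 188))))) (XT.nd (nat_lit 312) (nat_lit 0) (nat_lit 0) (XT.nd (nat_lit 156) (nat_lit 0) (nat_lit 0) (XT.nd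 (nat_lit 78) (nat_lit 0) (nat_lit 0) (XT.lf (nat_lit 0) (nat_lit 95937536871) (nat_lit 76) (nat_lit 12559842803) (nat_lit 76) (nat_lit 9833126812) (nat_lit 3) (nat_lit 4) (nat_lit 4) (nat_lit 5) (nat_lit 4) (nat_lit 4) (nat_lit 329) (nat_lit 204) (nat_lit 187)) (XT.lf (nat_lit 0) (nat_lit 103048031795) (nat_lit 76) (nat_lit 11977831012) (nat_lit 76) (nat_lit 9150618289) (nat_lit 3) (nat_lit 4) (nat_lit 4) (nat_lit 5) (nat_lit 4) (nat_lit 4) (nat_lit 330) (nat_lit 204) (nat_lit 186))) (XT.nd (nat_lit 78) (nat_lit 0) (nat_lit 0) (XT.lf (nat_lit 0) (nat_lit 110463373321) (nat_lit 76) (nat_lit 11387925187) (nat_lit 76) (nat_lit 8465001291) (nat_lit 3) (nat_lit 4) (nat_lit 4) (nat_lit 5) (nat_lit 4) (nat_lit 4) (nat_lit 331) (nat_lit 204) (nat_lit 185)) (XT.lf (nat_lit 0) (nat_lit 118201217023) (nat_lit 76) (nat_lit 10788720791) (nat_lit 76) (nat_lit 7774643396) (nat_lit 3) (nat_lit 4)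 (nat_lit 4) (nat_lit 5) (nat_lit 4) (nat_lit 4) (nat_lit 332) (nat_lit 204) (nat_lit 184)))) (XT.nd (nat_lit 156) (nat_lit 0) (nat_lit 0) (XT.nd (nat_lit 78) (nat_lit 0) (nat_lit 0) (XT.lf (nat_lit 0) (nat_lit 126279986340) (nat_lit 76) (nat_lit 10178791146) (nat_lit 76) (nat_lit 7077900896) (nat_lit 3) (nat_lit 4) (nat_lit 4) (nat_lit 5) (nat_lit 4) (nat_lit 4) (nat_lit 333) (nat_lit 204) (nat_lit 183)) (XT.lf (nat_lit 0) (nat_lit 134718916435) (nat_lit 76) (nat_lit 9556684040) (nat_lit 76) (nat_lit 6373114880) (nat_lit 3) (nat_lit 4) (nat_lit 4) (nat_lit 5) (nat_lit 4) (nat_lit 4) (nat_lit 334) (nat_lit 204) (nat_lit 182))) (XT.nd (nat_lit 78) (nat_lit 0) (nat_lit 0) (XT.lf (nat_lit 0) (nat_lit 143538100001) (nat_lit 76) (nat_lit 8920918265) (nat_lit 76) (nat_lit 5658607285) (nat_lit 3) (nat_lit 4) (nat_lit 4) (nat_lit 5) (nat_lit 4) (nat_lit 4) (nat_lit 335) (nat_lit 204) (nat_lit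 181)) (XT.lf (nat_lit 0) (nat_lit 152758535093) (nat_lit 76) (nat_lit 8269980092) (nat_lit 76) (nat_lit 4932676904) (nat_lit 3) (nat_lit 4) (nat_lit 4) (nat_lit 5) (nat_lit 4) (nat_lit 4) (nat_lit 336) (nat_lit 204) (nat_lit 180)))))) (XT.nd (nat_lit 624) (nat_lit 76) (nat_lit 0) (XT.nd (nat_lit 312) (nat_lit 76) (nat_lit 0) (XT.nd (nat_lit 156) (nat_lit 0) (nat_lit 0) (XT.nd (nat_lit 78) (nat_lit 0) (nat_lit 0) (XT.lf (nat_lit 0) (nat_lit 162402175127) (nat_lit 76) (nat_lit 7602319669) (nat_lit 76) (nat_lit 4193595330) (nat_lit 3) (nat_lit 4) (nat_lit 4) (nat_lit 5) (nat_lit 4) (nat_lit 4) (nat_lit 337) (nat_lit 204) (nat_lit 179)) (XT.lf (nat_lit 0) (nat_lit 172491981153) (nat_lit 76) (nat_lit 6916347329) (nat_lit 76) (nat_lit 3439602846) (nat_lit 3) (nat_lit 4) (nat_lit 4) (nat_lit 5) (nat_lit 4) (nat_lit 4) (nat_lit 338) (nat_lit 204) (nat_lit 178))) (XT.nd (nat_lit 78) (nat_lit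 0) (nat_lit 0) (XT.lf (nat_lit 0) (nat_lit 183051976516) (nat_lit 76) (nat_lit 6210429804) (nat_lit 76) (nat_lit 2668904231) (nat_lit 3) (nat_lit 4) (nat_lit 4) (nat_lit 5) (nat_lit 4) (nat_lit 4) (nat_lit 339) (nat_lit 204) (nat_lit 177)) (XT.lf (nat_lit 0) (nat_lit 194107304064) (nat_lit 76) (nat_lit 5482886337) (nat_lit 76) (nat_lit 1879664489) (nat_lit 3) (nat_lit 4) (nat_lit 4) (nat_lit 5) (nat_lit 4) (nat_lit 4) (nat_lit 340) (nat_lit 204) (nat_lit 176)))) (XT.nd (nat_lit 156) (nat_lit 76) (nat_lit 0) (XT.nd (nat_lit 78) (nat_lit 0) (nat_lit 0) (XT.lf (nat_lit 0) (nat_lit 205684286004) (nat_lit 76) (nat_lit 4731984683) (nat_lit 76) (nat_lit 1070004477) (nat_lit 3) (nat_lit 4) (nat_lit 4) (nat_lit 5) (nat_lit 4) (nat_lit 4) (nat_lit 341) (nat_lit 204) (nat_lit 175)) (XT.lf (nat_lit 0) (nat_lit 217810486580) (nat_lit 76) (nat_lit 3955936980) (nat_lit 76) (nat_lit 237996433) (nat_lit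 3) (nat_lit 4) (nat_lit 4) (nat_lit 5) (nat_lit 4) (nat_lit 4) (nat_lit 342) (nat_lit 204) (nat_lit 174))) (XT.nd (nat_lit 78) (nat_lit 0) (nat_lit 0) (XT.lf (nat_lit 0) (nat_lit 598549851) (nat_lit 152) (nat_lit 2544208913) (nat_lit 76) (nat_lit 229906091115) (nat_lit 2) (nat_lit 5) (nat_lit 4) (nat_lit 5) (nat_lit 3) (nat_lit 4) (nat_lit 343) (nat_lit 204) (nat_lit 173)) (XT.lf (nat_lit 0) (nat_lit 1453002728) (nat_lit 152) (nat_lit 843338195) (nat_lit 76) (nat_lit 242349797637) (nat_lit 2) (nat_lit 5) (nat_lit 4) (nat_lit 5) (nat_lit 3) (nat_lit 4) (nat_lit 344) (nat_lit 204) (nat_lit 172))))) (XT.nd (nat_lit 312) (nat_lit 0) (nat_lit 0) (XT.nd (nat_lit 156) (nat_lit 0) (nat_lit 0) (XT.nd (nat_lit 78) (nat_lit 0) (nat_lit 0) (XT.lf (nat_lit 0) (nat_lit 946746008) (nat_lit 76) (nat_lit 1403049329) (nat_lit 152) (nat_lit 254473550011) (nat_lit 1) (nat_lit 5) (nat_lit 2) (nat_lit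 5) (nat_lit 3) (nat_lit 4) (nat_lit 345) (nat_lit 204) (nat_lit 171)) (XT.lf (nat_lit 0) (nat_lit 2829902867) (nat_lit 76) (nat_lit 460963480) (nat_lit 152) (nat_lit 266318607077) (nat_lit 1) (nat_lit 5) (nat_lit 2) (nat_lit 5) (nat_lit 3) (nat_lit 4) (nat_lit 346) (nat_lit 204) (nat_lit 170))) (XT.nd (nat_lit 78) (nat_lit 0) (nat_lit 0) (XT.lf (nat_lit 0) (nat_lit 4272939689) (nat_lit 152) (nat_lit 278261000058) (nat_lit 0) (nat_lit 501302035) (nat_lit 1) (nat_lit 5) (nat_lit 3) (nat_lit 4) (nat_lit 1) (nat_lit 4) (nat_lit 347) (nat_lit 204) (nat_lit 169)) (XT.lf (nat_lit 0) (nat_lit 5298056032) (nat_lit 152) (nat_lit 290347926979) (nat_lit 0) (nat_lit 1486648408) (nat_lit 1) (nat_lit 5) (nat_lit 3) (nat_lit 4) (nat_lit 1) (nat_lit 4) (nat_lit 348) (nat_lit 204) (nat_lit 168)))) (XT.nd (nat_lit 156) (nat_lit 0) (nat_lit 0) (XT.nd (nat_lit 78) (nat_lit 0) (nat_lit 0) (XT.lf (nat_lit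 0) (nat_lit 6361459197) (nat_lit 152) (nat_lit 303061932785) (nat_lit 0) (nat_lit 2512175412) (nat_lit 1) (nat_lit 5) (nat_lit 3) (nat_lit 4) (nat_lit 1) (nat_lit 4) (nat_lit 349) (nat_lit 204) (nat_lit 167)) (XT.lf (nat_lit 0) (nat_lit 7465681097) (nat_lit 152) (nat_lit 316433288920) (nat_lit 0) (nat_lit 3580324778) (nat_lit 1) (nat_lit 5) (nat_lit 3) (nat_lit 4) (nat_lit 1) (nat_lit 4) (nat_lit 350) (nat_lit 204) (nat_lit 166))) (XT.nd (nat_lit 78) (nat_lit 0) (nat_lit 0) (XT.lf (nat_lit 0) (nat_lit 8613350832) (nat_lit 152) (nat_lit 330493831945) (nat_lit 0) (nat_lit 4693639717) (nat_lit 1) (nat_lit 5) (nat_lit 3) (nat_lit 4) (nat_lit 1) (nat_lit 4) (nat_lit 351) (nat_lit 204) (nat_lit 165)) (XT.lf (nat_lit 0) (nat_lit 9807200948) (nat_lit 152) (nat_lit 345277039343) (nat_lit 0) (nat_lit 5854770981) (nat_lit 1) (nat_lit 5) (nat_lit 3) (nat_lit 4) (nat_lit 1) (nat_lit 4) (nat_lit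 352) (nat_lit 204) (nat_lit 164)))))))
noncomputable def xc15 : XT := (XT.nd (nat_lit 34866) (nat_lit 0) (nat_lit 152) (XT.nd (nat_lit 34242) (nat_lit 0) (nat_lit 152) (XT.nd (nat_lit 312) (nat_lit 0) (nat_lit 0) (XT.nd (nat_lit 156) (nat_lit 0) (nat_lit 0) (XT.nd (nat_lit 78) (nat_lit 0) (nat_lit 0) (XT.lf (nat_lit 0) (nat_lit 11050073946) (nat_lit 152) (nat_lit 360818109228) (nat_lit 0) (nat_lit 7066483167) (nat_lit 1) (nat_lit 5) (nat_lit 3) (nat_lit 4) (nat_lit 1) (nat_lit 4) (nat_lit 353) (nat_lit 204) (nat_lit 163)) (XT.lf (nat_lit 0) (nat_lit 12344929047) (nat_lit 152) (nat_lit 377154044147) (nat_lit 0) (nat_lit 8331661305) (nat_lit 1) (nat_lit 5) (nat_lit 3) (nat_lit 4) (nat_lit 1) (nat_lit 4) (nat_lit 354) (nat_lit 204) (nat_lit 162))) (XT.nd (nat_lit 78) (nat_lit 0) (nat_lit 0) (XT.lf (nat_lit 0) (nat_lit 13694849240) (nat_lit 152) (nat_lit 394323739183) (nat_lit 0) (nat_lit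 9653317723) (nat_lit 1) (nat_lit 5) (nat_lit 3) (nat_lit 4) (nat_lit 1) (nat_lit 4) (nat_lit 355) (nat_lit 204) (nat_lit 161)) (XT.lf (nat_lit 0) (nat_lit 15103048619) (nat_lit 152) (nat_lit 412368074563) (nat_lit 0) (nat_lit 11034599222) (nat_lit 1) (nat_lit 5) (nat_lit 3) (nat_lit 4) (nat_lit 1) (nat_lit 4) (nat_lit 356) (nat_lit 204) (nat_lit 160)))) (XT.nd (nat_lit 156) (nat_lit 0) (nat_lit 0) (XT.nd (nat_lit 78) (nat_lit 0) (nat_lit 0) (XT.lf (nat_lit 0) (nat_lit 16572880042) (nat_lit 152) (nat_lit 431330012988) (nat_lit 0) (nat_lit 12478794568) (nat_lit 1) (nat_lit 5) (nat_lit 3) (nat_lit 4) (nat_lit 1) (nat_lit 4) (nat_lit 357) (nat_lit 204) (nat_lit 159)) (XT.lf (nat_lit 0) (nat_lit 18107843107) (nat_lit 152) (nat_lit 451254701933) (nat_lit 0) (nat_lit 13989342321) (nat_lit 1) (nat_lit 5) (nat_lit 3) (nat_lit 4) (nat_lit 1) (nat_lit 4) (nat_lit 358) (nat_lit 204) (nat_lit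 158))) (XT.nd (nat_lit 33696) (nat_lit 0) (nat_lit 228) (XT.lf (nat_lit 0) (nat_lit 19711592487) (nat_lit 152) (nat_lit 472189581133) (nat_lit 0) (nat_lit 15569839024) (nat_lit 1) (nat_lit 5) (nat_lit 3) (nat_lit 4) (nat_lit 1) (nat_lit 4) (nat_lit 359) (nat_lit 204) (nat_lit 157)) (XT.lf (nat_lit 0) (nat_lit 11924642725) (nat_lit 152) (nat_lit 147808858) (nat_lit 0) (nat_lit 11924642725) (nat_lit 4) (nat_lit 5) (nat_lit 6) (nat_lit 4) (nat_lit 4) (nat_lit 4) (nat_lit 310) (nat_lit 205) (nat_lit 205))))) (XT.nd (nat_lit 312) (nat_lit 0) (nat_lit 0) (XT.nd (nat_lit 156) (nat_lit 0) (nat_lit 0) (XT.nd (nat_lit 78) (nat_lit 0) (nat_lit 0) (XT.lf (nat_lit 0) (nat_lit 3552407060) (nat_lit 76) (nat_lit 23482747290) (nat_lit 76) (nat_lit 23240889922) (nat_lit 3) (nat_lit 4) (nat_lit 4) (nat_lit 5) (nat_lit 4) (nat_lit 4) (nat_lit 311) (nat_lit 205) (nat_lit 204)) (XT.lf (nat_lit 0) (nat_lit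 7481133257) (nat_lit 76) (nat_lit 22833262974) (nat_lit 76) (nat_lit 22361065256) (nat_lit 3) (nat_lit 4) (nat_lit 4) (nat_lit 5) (nat_lit 4) (nat_lit 4) (nat_lit 312) (nat_lit 205) (nat_lit 203))) (XT.nd (nat_lit 78) (nat_lit 0) (nat_lit 0) (XT.lf (nat_lit 0) (nat_lit 11490140529) (nat_lit 76) (nat_lit 22199910258) (nat_lit 76) (nat_lit 21508340777) (nat_lit 3) (nat_lit 4) (nat_lit 4) (nat_lit 5) (nat_lit 4) (nat_lit 4) (nat_lit 313) (nat_lit 205) (nat_lit 202)) (XT.lf (nat_lit 0) (nat_lit 15588974130) (nat_lit 76) (nat_lit 21581181158) (nat_lit 76) (nat_lit 20680686189) (nat_lit 3) (nat_lit 4) (nat_lit 4) (nat_lit 5) (nat_lit 4) (nat_lit 4) (nat_lit 314) (nat_lit 205) (nat_lit 201)))) (XT.nd (nat_lit 156) (nat_lit 0) (nat_lit 0) (XT.nd (nat_lit 78) (nat_lit 0) (nat_lit 0) (XT.lf (nat_lit 0) (nat_lit 19787393189) (nat_lit 76) (nat_lit 20975602510) (nat_lit 76) (nat_lit 19876130886)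 (nat_lit 3) (nat_lit 4) (nat_lit 4) (nat_lit 5) (nat_lit 4) (nat_lit 4) (nat_lit 315) (nat_lit 205) (nat_lit 200)) (XT.lf (nat_lit 0) (nat_lit 24095393941) (nat_lit 76) (nat_lit 20381732460) (nat_lit 76) (nat_lit 19092759259) (nat_lit 3) (nat_lit 4) (nat_lit 4) (nat_lit 5) (nat_lit 4) (nat_lit 4) (nat_lit 316) (nat_lit 205) (nat_lit 199))) (XT.nd (nat_lit 78) (nat_lit 0) (nat_lit 0) (XT.lf (nat_lit 0) (nat_lit 28523233531) (nat_lit 76) (nat_lit 19798157032) (nat_lit 76) (nat_lit 18328706139) (nat_lit 3) (nat_lit 4) (nat_lit 4) (nat_lit 5) (nat_lit 4) (nat_lit 4) (nat_lit 317) (nat_lit 205) (nat_lit 198)) (XT.lf (nat_lit 0) (nat_lit 33081454434) (nat_lit 76) (nat_lit 19223486760) (nat_lit 76) (nat_lit 17582152351) (nat_lit 3) (nat_lit 4) (nat_lit 4) (nat_lit 5) (nat_lit 4) (nat_lit 4) (nat_lit 318) (nat_lit 205) (nat_lit 197)))))) (XT.nd (nat_lit 624) (nat_lit 0) (nat_lit 0) (XT.nd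 (nat_lit 312) (nat_lit 0) (nat_lit 0) (XT.nd (nat_lit 156) (nat_lit 0) (nat_lit 0) (XT.nd (nat_lit 78) (nat_lit 0) (nat_lit 0) (XT.lf (nat_lit 0) (nat_lit 37780909557) (nat_lit 76) (nat_lit 18656353382) (nat_lit 76) (nat_lit 16851320386) (nat_lit 3) (nat_lit 4) (nat_lit 4) (nat_lit 5) (nat_lit 4) (nat_lit 4) (nat_lit 319) (nat_lit 205) (nat_lit 196)) (XT.lf (nat_lit 0) (nat_lit 42632788078) (nat_lit 76) (nat_lit 18095406580) (nat_lit 76) (nat_lit 16134470168) (nat_lit 3) (nat_lit 4) (nat_lit 4) (nat_lit 5) (nat_lit 4) (nat_lit 4) (nat_lit 320) (nat_lit 205) (nat_lit 195))) (XT.nd (nat_lit 78) (nat_lit 0) (nat_lit 0) (XT.lf (nat_lit 0) (nat_lit 47648642091) (nat_lit 76) (nat_lit 17539310767) (nat_lit 76) (nat_lit 15429894911) (nat_lit 3) (nat_lit 4) (nat_lit 4) (nat_lit 5) (nat_lit 4) (nat_lit 4) (nat_lit 321) (nat_lit 205) (nat_lit 194)) (XT.lf (nat_lit 0) (nat_lit 52840414103) (nat_lit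 76) (nat_lit 16986741905) (nat_lit 76) (nat_lit 14735917055) (nat_lit 3) (nat_lit 4) (nat_lit 4) (nat_lit 5) (nat_lit 4) (nat_lit 4) (nat_lit 322) (nat_lit 205) (nat_lit 193)))) (XT.nd (nat_lit 156) (nat_lit 0) (nat_lit 0) (XT.nd (nat_lit 78) (nat_lit 0) (nat_lit 0) (XT.lf (nat_lit 0) (nat_lit 58220465478) (nat_lit 76) (nat_lit 16436384353) (nat_lit 76) (nat_lit 14050884271) (nat_lit 3) (nat_lit 4) (nat_lit 4) (nat_lit 5) (nat_lit 4) (nat_lit 4) (nat_lit 323) (nat_lit 205) (nat_lit 192)) (XT.lf (nat_lit 0) (nat_lit 63801605860) (nat_lit 76) (nat_lit 15886927737) (nat_lit 76) (nat_lit 13373165529) (nat_lit 3) (nat_lit 4) (nat_lit 4) (nat_lit 5) (nat_lit 4) (nat_lit 4) (nat_lit 324) (nat_lit 205) (nat_lit 191))) (XT.nd (nat_lit 78) (nat_lit 0) (nat_lit 0) (XT.lf (nat_lit 0) (nat_lit 69597123681) (nat_lit 76) (nat_lit 15337063827) (nat_lit 76) (nat_lit 12701147214) (nat_lit 3) (nat_lit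 4) (nat_lit 4) (nat_lit 5) (nat_lit 4) (nat_lit 4) (nat_lit 325) (nat_lit 205) (nat_lit 190)) (XT.lf (nat_lit 0) (nat_lit 75620817790) (nat_lit 76) (nat_lit 14785483423) (nat_lit 76) (nat_lit 12033229280) (nat_lit 3) (nat_lit 4) (nat_lit 4) (nat_lit 5) (nat_lit 4) (nat_lit 4) (nat_lit 326) (nat_lit 205) (nat_lit 189))))) (XT.nd (nat_lit 312) (nat_lit 0) (nat_lit 0) (XT.nd (nat_lit 156) (nat_lit 0) (nat_lit 0) (XT.nd (nat_lit 78) (nat_lit 0) (nat_lit 0) (XT.lf (nat_lit 0) (nat_lit 81887030319) (nat_lit 76) (nat_lit 14230873239) (nat_lit 76) (nat_lit 11367821448) (nat_lit 3) (nat_lit 4) (nat_lit 4) (nat_lit 5) (nat_lit 4) (nat_lit 4) (nat_lit 327) (nat_lit 205) (nat_lit 188)) (XT.lf (nat_lit 0) (nat_lit 88410680819) (nat_lit 76) (nat_lit 13671912772) (nat_lit 76) (nat_lit 10703339414) (nat_lit 3) (nat_lit 4) (nat_lit 4) (nat_lit 5) (nat_lit 4) (nat_lit 4) (nat_lit 328) (nat_lit 205)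 (nat_lit 187))) (XT.nd (nat_lit 78) (nat_lit 0) (nat_lit 0) (XT.lf (nat_lit 0) (nat_lit 95207301793) (nat_lit 76) (nat_lit 13107271167) (nat_lit 76) (nat_lit 10038201076) (nat_lit 3) (nat_lit 4) (nat_lit 4) (nat_lit 5) (nat_lit 4) (nat_lit 4) (nat_lit 329) (nat_lit 205) (nat_lit 186)) (XT.lf (nat_lit 0) (nat_lit 102293075671) (nat_lit 76) (nat_lit 12535604037) (nat_lit 76) (nat_lit 9370822773) (nat_lit 3) (nat_lit 4) (nat_lit 4) (nat_lit 5) (nat_lit 4) (nat_lit 4) (nat_lit 330) (nat_lit 205) (nat_lit 185)))) (XT.nd (nat_lit 156) (nat_lit 0) (nat_lit 0) (XT.nd (nat_lit 78) (nat_lit 0) (nat_lit 0) (XT.lf (nat_lit 0) (nat_lit 109684873343) (nat_lit 76) (nat_lit 11955550271) (nat_lit 76) (nat_lit 8699615508) (nat_lit 3) (nat_lit 4) (nat_lit 4) (nat_lit 5) (nat_lit 4) (nat_lit 4) (nat_lit 331) (nat_lit 205) (nat_lit 184)) (XT.lf (nat_lit 0) (nat_lit 117400294328) (nat_lit 76) (nat_lit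 11365728788) (nat_lit 76) (nat_lit 8022981169) (nat_lit 3) (nat_lit 4) (nat_lit 4) (nat_lit 5) (nat_lit 4) (nat_lit 4) (nat_lit 332) (nat_lit 205) (nat_lit 183))) (XT.nd (nat_lit 78) (nat_lit 0) (nat_lit 0) (XT.lf (nat_lit 0) (nat_lit 125457708676) (nat_lit 76) (nat_lit 10764735251) (nat_lit 76) (nat_lit 7339308722) (nat_lit 3) (nat_lit 4) (nat_lit 4) (nat_lit 5) (nat_lit 4) (nat_lit 4) (nat_lit 333) (nat_lit 205) (nat_lit 182)) (XT.nd (nat_lit 78) (nat_lit 0) (nat_lit 0) (XT.lf (nat_lit 0) (nat_lit 133876300706) (nat_lit 76) (nat_lit 10151138723) (nat_lit 76) (nat_lit 6646970376) (nat_lit 3) (nat_lit 4) (nat_lit 4) (nat_lit 5) (nat_lit 4) (nat_lit 4) (nat_lit 334) (nat_lit 205) (nat_lit 181)) (XT.lf (nat_lit 0) (nat_lit 142676114685) (nat_lit 76) (nat_lit 9523478261) (nat_lit 76) (nat_lit 5944317704) (nat_lit 3) (nat_lit 4) (nat_lit 4) (nat_lit 5) (nat_lit 4) (nat_lit 4) (nat_lit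 335) (nat_lit 205) (nat_lit 180))))))))
noncomputable def xc16 : XT := (XT.nd (nat_lit 1248) (nat_lit 0) (nat_lit 0) (XT.nd (nat_lit 624) (nat_lit 76) (nat_lit 0) (XT.nd (nat_lit 312) (nat_lit 76) (nat_lit 0) (XT.nd (nat_lit 156) (nat_lit 0) (nat_lit 0) (XT.nd (nat_lit 78) (nat_lit 0) (nat_lit 0) (XT.lf (nat_lit 0) (nat_lit 151878102552) (nat_lit 76) (nat_lit 8880259434) (nat_lit 76) (nat_lit 5229677726) (nat_lit 3) (nat_lit 4) (nat_lit 4) (nat_lit 5) (nat_lit 4) (nat_lit 4) (nat_lit 336) (nat_lit 205) (nat_lit 179)) (XT.lf (nat_lit 0) (nat_lit 161504173800) (nat_lit 76) (nat_lit 8219950769) (nat_lit 76) (nat_lit 4501348918) (nat_lit 3) (nat_lit 4) (nat_lit 4) (nat_lit 5) (nat_lit 4) (nat_lit 4) (nat_lit 337) (nat_lit 205) (nat_lit 178))) (XT.nd (nat_lit 78) (nat_lit 0) (nat_lit 0) (XT.lf (nat_lit 0) (nat_lit 171577247648) (nat_lit 76) (nat_lit 7540980103) (nat_lit 76) (nat_lit 3757597162)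 (nat_lit 3) (nat_lit 4) (nat_lit 4) (nat_lit 5) (nat_lit 4) (nat_lit 4) (nat_lit 338) (nat_lit 205) (nat_lit 177)) (XT.lf (nat_lit 0) (nat_lit 182121307605) (nat_lit 76) (nat_lit 6841730838) (nat_lit 76) (nat_lit 2996651622) (nat_lit 3) (nat_lit 4) (nat_lit 4) (nat_lit 5) (nat_lit 4) (nat_lit 4) (nat_lit 339) (nat_lit 205) (nat_lit 176)))) (XT.nd (nat_lit 156) (nat_lit 76) (nat_lit 0) (XT.nd (nat_lit 78) (nat_lit 0) (nat_lit 0) (XT.lf (nat_lit 0) (nat_lit 193161458575) (nat_lit 76) (nat_lit 6120538096) (nat_lit 76) (nat_lit 2216700522) (nat_lit 3) (nat_lit 4) (nat_lit 4) (nat_lit 5) (nat_lit 4) (nat_lit 4) (nat_lit 340) (nat_lit 205) (nat_lit 175)) (XT.lf (nat_lit 0) (nat_lit 204723986632) (nat_lit 76) (nat_lit 5375684751) (nat_lit 76) (nat_lit 1415886836) (nat_lit 3) (nat_lit 4) (nat_lit 4) (nat_lit 5) (nat_lit 4) (nat_lit 4) (nat_lit 341) (nat_lit 205) (nat_lit 174))) (XT.nd (nat_lit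 78) (nat_lit 76) (nat_lit 0) (XT.lf (nat_lit 0) (nat_lit 216836421604) (nat_lit 76) (nat_lit 4605397343) (nat_lit 76) (nat_lit 592303866) (nat_lit 3) (nat_lit 4) (nat_lit 4) (nat_lit 5) (nat_lit 4) (nat_lit 4) (nat_lit 342) (nat_lit 205) (nat_lit 173)) (XT.lf (nat_lit 0) (nat_lit 247815405) (nat_lit 152) (nat_lit 3555829575) (nat_lit 76) (nat_lit 229275590344) (nat_lit 2) (nat_lit 5) (nat_lit 4) (nat_lit 5) (nat_lit 3) (nat_lit 4) (nat_lit 343) (nat_lit 205) (nat_lit 172))))) (XT.nd (nat_lit 312) (nat_lit 0) (nat_lit 0) (XT.nd (nat_lit 156) (nat_lit 76) (nat_lit 0) (XT.nd (nat_lit 78) (nat_lit 0) (nat_lit 0) (XT.lf (nat_lit 0) (nat_lit 1094871077) (nat_lit 152) (nat_lit 1867706093) (nat_lit 76) (nat_lit 241714333538) (nat_lit 2) (nat_lit 5) (nat_lit 4) (nat_lit 5) (nat_lit 3) (nat_lit 4) (nat_lit 344) (nat_lit 205) (nat_lit 171)) (XT.lf (nat_lit 0) (nat_lit 1969837372) (nat_lit 152)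 (nat_lit 120063899) (nat_lit 76) (nat_lit 254765323583) (nat_lit 2) (nat_lit 5) (nat_lit 4) (nat_lit 5) (nat_lit 3) (nat_lit 4) (nat_lit 345) (nat_lit 205) (nat_lit 170))) (XT.nd (nat_lit 78) (nat_lit 0) (nat_lit 0) (XT.lf (nat_lit 0) (nat_lit 1747178688) (nat_lit 76) (nat_lit 1154897210) (nat_lit 152) (nat_lit 266739733933) (nat_lit 1) (nat_lit 5) (nat_lit 2) (nat_lit 5) (nat_lit 3) (nat_lit 4) (nat_lit 346) (nat_lit 205) (nat_lit 169)) (XT.lf (nat_lit 0) (nat_lit 3688631705) (nat_lit 76) (nat_lit 180864430) (nat_lit 152) (nat_lit 279198829260) (nat_lit 1) (nat_lit 5) (nat_lit 2) (nat_lit 5) (nat_lit 3) (nat_lit 4) (nat_lit 347) (nat_lit 205) (nat_lit 168)))) (XT.nd (nat_lit 156) (nat_lit 0) (nat_lit 0) (XT.nd (nat_lit 78) (nat_lit 0) (nat_lit 0) (XT.lf (nat_lit 0) (nat_lit 4885462338) (nat_lit 152) (nat_lit 291474885854) (nat_lit 0) (nat_lit 805838203) (nat_lit 1) (nat_lit 5) (nat_lit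 3) (nat_lit 4) (nat_lit 1) (nat_lit 4) (nat_lit 348) (nat_lit 205) (nat_lit 167)) (XT.lf (nat_lit 0) (nat_lit 5942840419) (nat_lit 152) (nat_lit 304199452655) (nat_lit 0) (nat_lit 1827143749) (nat_lit 1) (nat_lit 5) (nat_lit 3) (nat_lit 4) (nat_lit 1) (nat_lit 4) (nat_lit 349) (nat_lit 205) (nat_lit 166))) (XT.nd (nat_lit 78) (nat_lit 0) (nat_lit 0) (XT.lf (nat_lit 0) (nat_lit 7041324143) (nat_lit 152) (nat_lit 317580866879) (nat_lit 0) (nat_lit 2891272678) (nat_lit 1) (nat_lit 5) (nat_lit 3) (nat_lit 4) (nat_lit 1) (nat_lit 4) (nat_lit 350) (nat_lit 205) (nat_lit 165)) (XT.lf (nat_lit 0) (nat_lit 8183528948) (nat_lit 152) (nat_lit 331650989037) (nat_lit 0) (nat_lit 4000758631) (nat_lit 1) (nat_lit 5) (nat_lit 3) (nat_lit 4) (nat_lit 1) (nat_lit 4) (nat_lit 351) (nat_lit 205) (nat_lit 164)))))) (XT.nd (nat_lit 34086) (nat_lit 0) (nat_lit 152) (XT.nd (nat_lit 312) (nat_lit 0) (nat_lit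 0) (XT.nd (nat_lit 156) (nat_lit 0) (nat_lit 0) (XT.nd (nat_lit 78) (nat_lit 0) (nat_lit 0) (XT.lf (nat_lit 0) (nat_lit 9372174370) (nat_lit 152) (nat_lit 346443319419) (nat_lit 0) (nat_lit 5158243241) (nat_lit 1) (nat_lit 5) (nat_lit 3) (nat_lit 4) (nat_lit 1) (nat_lit 4) (nat_lit 352) (nat_lit 205) (nat_lit 163)) (XT.lf (nat_lit 0) (nat_lit 10610090516) (nat_lit 152) (nat_lit 361993077860) (nat_lit 0) (nat_lit 6366482423) (nat_lit 1) (nat_lit 5) (nat_lit 3) (nat_lit 4) (nat_lit 1) (nat_lit 4) (nat_lit 353) (nat_lit 205) (nat_lit 162))) (XT.nd (nat_lit 78) (nat_lit 0) (nat_lit 0) (XT.lf (nat_lit 0) (nat_lit 11900224806) (nat_lit 152) (nat_lit 378337287594) (nat_lit 0) (nat_lit 7628352938) (nat_lit 1) (nat_lit 5) (nat_lit 3) (nat_lit 4) (nat_lit 1) (nat_lit 4) (nat_lit 354) (nat_lit 205) (nat_lit 161)) (XT.lf (nat_lit 0) (nat_lit 13245648987) (nat_lit 152) (nat_lit 395514863406) (nat_lit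 0) (nat_lit 8946859239) (nat_lit 1) (nat_lit 5) (nat_lit 3) (nat_lit 4) (nat_lit 1) (nat_lit 4) (nat_lit 355) (nat_lit 205) (nat_lit 160)))) (XT.nd (nat_lit 156) (nat_lit 0) (nat_lit 0) (XT.nd (nat_lit 78) (nat_lit 0) (nat_lit 0) (XT.lf (nat_lit 0) (nat_lit 14649566452) (nat_lit 152) (nat_lit 413566704287) (nat_lit 0) (nat_lit 10325140627) (nat_lit 1) (nat_lit 5) (nat_lit 3) (nat_lit 4) (nat_lit 1) (nat_lit 4) (nat_lit 356) (nat_lit 205) (nat_lit 159)) (XT.lf (nat_lit 0) (nat_lit 16115319861) (nat_lit 152) (nat_lit 432535790809) (nat_lit 0) (nat_lit 11766478725) (nat_lit 1) (nat_lit 5) (nat_lit 3) (nat_lit 4) (nat_lit 1) (nat_lit 4) (nat_lit 357) (nat_lit 205) (nat_lit 158))) (XT.nd (nat_lit 78) (nat_lit 0) (nat_lit 0) (XT.lf (nat_lit 0) (nat_lit 17646399102) (nat_lit 152) (nat_lit 452467287465) (nat_lit 0) (nat_lit 13274305288) (nat_lit 1) (nat_lit 5) (nat_lit 3) (nat_lit 4) (nat_lit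 1) (nat_lit 4) (nat_lit 358) (nat_lit 205) (nat_lit 157)) (XT.lf (nat_lit 0) (nat_lit 19246449602) (nat_lit 152) (nat_lit 473408650199) (nat_lit 0) (nat_lit 14852210382) (nat_lit 1) (nat_lit 5) (nat_lit 3) (nat_lit 4) (nat_lit 1) (nat_lit 4) (nat_lit 359) (nat_lit 205) (nat_lit 156))))) (XT.nd (nat_lit 312) (nat_lit 0) (nat_lit 0) (XT.nd (nat_lit 156) (nat_lit 76) (nat_lit 0) (XT.nd (nat_lit 78) (nat_lit 0) (nat_lit 0) (XT.lf (nat_lit 0) (nat_lit 9056207323) (nat_lit 152) (nat_lit 3765114022) (nat_lit 0) (nat_lit 9056207323) (nat_lit 4) (nat_lit 5) (nat_lit 6) (nat_lit 4) (nat_lit 4) (nat_lit 4) (nat_lit 308) (nat_lit 206) (nat_lit 206)) (XT.lf (nat_lit 0) (nat_lit 21052874056) (nat_lit 152) (nat_lit 3970177674) (nat_lit 0) (nat_lit 20798923819) (nat_lit 4) (nat_lit 5) (nat_lit 6) (nat_lit 4) (nat_lit 4) (nat_lit 4) (nat_lit 309) (nat_lit 206) (nat_lit 205))) (XT.nd (nat_lit 78) (nat_lit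 76) (nat_lit 0) (XT.lf (nat_lit 0) (nat_lit 24067882593) (nat_lit 152) (nat_lit 356087174) (nat_lit 0) (nat_lit 23572074988) (nat_lit 4) (nat_lit 5) (nat_lit 6) (nat_lit 4) (nat_lit 4) (nat_lit 4) (nat_lit 310) (nat_lit 206) (nat_lit 204)) (XT.lf (nat_lit 0) (nat_lit 3430444062) (nat_lit 76) (nat_lit 23787733632) (nat_lit 76) (nat_lit 23061585677) (nat_lit 3) (nat_lit 4) (nat_lit 4) (nat_lit 5) (nat_lit 4) (nat_lit 4) (nat_lit 311) (nat_lit 206) (nat_lit 203)))) (XT.nd (nat_lit 156) (nat_lit 0) (nat_lit 0) (XT.nd (nat_lit 78) (nat_lit 0) (nat_lit 0) (XT.lf (nat_lit 0) (nat_lit 7302509169) (nat_lit 76) (nat_lit 23161959470) (nat_lit 76) (nat_lit 22216439752) (nat_lit 3) (nat_lit 4) (nat_lit 4) (nat_lit 5) (nat_lit 4) (nat_lit 4) (nat_lit 312) (nat_lit 206) (nat_lit 202)) (XT.lf (nat_lit 0) (nat_lit 11257553498) (nat_lit 76) (nat_lit 22551187852) (nat_lit 76) (nat_lit 21396742647) (nat_lit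 3) (nat_lit 4) (nat_lit 4) (nat_lit 5) (nat_lit 4) (nat_lit 4) (nat_lit 313) (nat_lit 206) (nat_lit 201))) (XT.nd (nat_lit 78) (nat_lit 0) (nat_lit 0) (XT.lf (nat_lit 0) (nat_lit 15304993820) (nat_lit 76) (nat_lit 21953964561) (nat_lit 76) (nat_lit 20600542700) (nat_lit 3) (nat_lit 4) (nat_lit 4) (nat_lit 5) (nat_lit 4) (nat_lit 4) (nat_lit 314) (nat_lit 206) (nat_lit 200)) (XT.lf (nat_lit 0) (nat_lit 19454466898) (nat_lit 76) (nat_lit 21368867635) (nat_lit 76) (nat_lit 19825944197) (nat_lit 3) (nat_lit 4) (nat_lit 4) (nat_lit 5) (nat_lit 4) (nat_lit 4) (nat_lit 315) (nat_lit 206) (nat_lit 199)))))))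
noncomputable def xc17 : XT := (XT.nd (nat_lit 1248) (nat_lit 152) (nat_lit 0) (XT.nd (nat_lit 624) (nat_lit 0) (nat_lit 0) (XT.nd (nat_lit 312) (nat_lit 0) (nat_lit 0) (XT.nd (nat_lit 156) (nat_lit 0) (nat_lit 0) (XT.nd (nat_lit 78) (nat_lit 0) (nat_lit 0) (XT.lf (nat_lit 0) (nat_lit 23715852431) (nat_lit 76) (nat_lit 20794503987) (nat_lit 76) (nat_lit 19071102858) (nat_lit 3) (nat_lit 4) (nat_lit 4) (nat_lit 5) (nat_lit 4) (nat_lit 4) (nat_lit 316) (nat_lit 206) (nat_lit 198)) (XT.lf (nat_lit 0) (nat_lit 28099296573) (nat_lit 76) (nat_lit 20229506084) (nat_lit 76) (nat_lit 18334221439) (nat_lit 3) (nat_lit 4) (nat_lit 4) (nat_lit 5) (nat_lit 4) (nat_lit 4) (nat_lit 317) (nat_lit 206) (nat_lit 197))) (XT.nd (nat_lit 78) (nat_lit 0) (nat_lit 0) (XT.lf (nat_lit 0) (nat_lit 32615236098) (nat_lit 76) (nat_lit 19672528694) (nat_lit 76) (nat_lit 17613545462) (nat_lit 3) (nat_lit 4) (nat_lit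 4) (nat_lit 5) (nat_lit 4) (nat_lit 4) (nat_lit 318) (nat_lit 206) (nat_lit 196)) (XT.lf (nat_lit 0) (nat_lit 37274423242) (nat_lit 76) (nat_lit 19122245680) (nat_lit 76) (nat_lit 16907359031) (nat_lit 3) (nat_lit 4) (nat_lit 4) (nat_lit 5) (nat_lit 4) (nat_lit 4) (nat_lit 319) (nat_lit 206) (nat_lit 195)))) (XT.nd (nat_lit 156) (nat_lit 0) (nat_lit 0) (XT.nd (nat_lit 78) (nat_lit 0) (nat_lit 0) (XT.lf (nat_lit 0) (nat_lit 42087951307) (nat_lit 76) (nat_lit 18577346843) (nat_lit 76) (nat_lit 16213980751) (nat_lit 3) (nat_lit 4) (nat_lit 4) (nat_lit 5) (nat_lit 4) (nat_lit 4) (nat_lit 320) (nat_lit 206) (nat_lit 194)) (XT.lf (nat_lit 0) (nat_lit 47067281075) (nat_lit 76) (nat_lit 18036534806) (nat_lit 76) (nat_lit 15531759720) (nat_lit 3) (nat_lit 4) (nat_lit 4) (nat_lit 5) (nat_lit 4) (nat_lit 4) (nat_lit 321) (nat_lit 206) (nat_lit 193))) (XT.nd (nat_lit 78) (nat_lit 0) (nat_lit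 0) (XT.lf (nat_lit 0) (nat_lit 52224268093) (nat_lit 76) (nat_lit 17498521921) (nat_lit 76) (nat_lit 14859071603) (nat_lit 3) (nat_lit 4) (nat_lit 4) (nat_lit 5) (nat_lit 4) (nat_lit 4) (nat_lit 322) (nat_lit 206) (nat_lit 192)) (XT.lf (nat_lit 0) (nat_lit 57571190902) (nat_lit 76) (nat_lit 16962027206) (nat_lit 76) (nat_lit 14194314761) (nat_lit 3) (nat_lit 4) (nat_lit 4) (nat_lit 5) (nat_lit 4) (nat_lit 4) (nat_lit 323) (nat_lit 206) (nat_lit 191))))) (XT.nd (nat_lit 312) (nat_lit 0) (nat_lit 0) (XT.nd (nat_lit 156) (nat_lit 0) (nat_lit 0) (XT.nd (nat_lit 78) (nat_lit 0) (nat_lit 0) (XT.lf (nat_lit 0) (nat_lit 63120780269) (nat_lit 76) (nat_lit 16425773291) (nat_lit 76) (nat_lit 13535906440) (nat_lit 3) (nat_lit 4) (nat_lit 4) (nat_lit 5) (nat_lit 4) (nat_lit 4) (nat_lit 324) (nat_lit 206) (nat_lit 190)) (XT.lf (nat_lit 0) (nat_lit 68886249503) (nat_lit 76) (nat_lit 15888483382)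 (nat_lit 76) (nat_lit 12882279002) (nat_lit 3) (nat_lit 4) (nat_lit 4) (nat_lit 5) (nat_lit 4) (nat_lit 4) (nat_lit 325) (nat_lit 206) (nat_lit 189))) (XT.nd (nat_lit 78) (nat_lit 0) (nat_lit 0) (XT.lf (nat_lit 0) (nat_lit 74881325912) (nat_lit 76) (nat_lit 15348878216) (nat_lit 76) (nat_lit 12231876189) (nat_lit 3) (nat_lit 4) (nat_lit 4) (nat_lit 5) (nat_lit 4) (nat_lit 4) (nat_lit 326) (nat_lit 206) (nat_lit 188)) (XT.lf (nat_lit 0) (nat_lit 81120283488) (nat_lit 76) (nat_lit 14805673021) (nat_lit 76) (nat_lit 11583149425) (nat_lit 3) (nat_lit 4) (nat_lit 4) (nat_lit 5) (nat_lit 4) (nat_lit 4) (nat_lit 327) (nat_lit 206) (nat_lit 187)))) (XT.nd (nat_lit 156) (nat_lit 0) (nat_lit 0) (XT.nd (nat_lit 78) (nat_lit 0) (nat_lit 0) (XT.lf (nat_lit 0) (nat_lit 87617976890) (nat_lit 76) (nat_lit 14257574449) (nat_lit 76) (nat_lit 10934554122) (nat_lit 3) (nat_lit 4) (nat_lit 4) (nat_lit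 5) (nat_lit 4) (nat_lit 4) (nat_lit 328) (nat_lit 206) (nat_lit 186)) (XT.lf (nat_lit 0) (nat_lit 94389876817) (nat_lit 76) (nat_lit 13703277505) (nat_lit 76) (nat_lit 10284546004) (nat_lit 3) (nat_lit 4) (nat_lit 4) (nat_lit 5) (nat_lit 4) (nat_lit 4) (nat_lit 329) (nat_lit 206) (nat_lit 185))) (XT.nd (nat_lit 78) (nat_lit 0) (nat_lit 0) (XT.lf (nat_lit 0) (nat_lit 101452106842) (nat_lit 76) (nat_lit 13141462434) (nat_lit 76) (nat_lit 9631577435) (nat_lit 3) (nat_lit 4) (nat_lit 4) (nat_lit 5) (nat_lit 4) (nat_lit 4) (nat_lit 330) (nat_lit 206) (nat_lit 184)) (XT.lf (nat_lit 0) (nat_lit 108821481797) (nat_lit 76) (nat_lit 12570791580) (nat_lit 76) (nat_lit 8974093726) (nat_lit 3) (nat_lit 4) (nat_lit 4) (nat_lit 5) (nat_lit 4) (nat_lit 4) (nat_lit 331) (nat_lit 206) (nat_lit 183)))))) (XT.nd (nat_lit 624) (nat_lit 152) (nat_lit 0) (XT.nd (nat_lit 312) (nat_lit 0) (nat_lit 0) (XT.nd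 (nat_lit 156) (nat_lit 0) (nat_lit 0) (XT.nd (nat_lit 78) (nat_lit 0) (nat_lit 0) (XT.lf (nat_lit 0) (nat_lit 116515547812) (nat_lit 76) (nat_lit 11989906205) (nat_lit 76) (nat_lit 8310529440) (nat_lit 3) (nat_lit 4) (nat_lit 4) (nat_lit 5) (nat_lit 4) (nat_lit 4) (nat_lit 332) (nat_lit 206) (nat_lit 182)) (XT.lf (nat_lit 0) (nat_lit 124552624094) (nat_lit 76) (nat_lit 11397423246) (nat_lit 76) (nat_lit 7639304662) (nat_lit 3) (nat_lit 4) (nat_lit 4) (nat_lit 5) (nat_lit 4) (nat_lit 4) (nat_lit 333) (nat_lit 206) (nat_lit 181))) (XT.nd (nat_lit 78) (nat_lit 0) (nat_lit 0) (XT.lf (nat_lit 0) (nat_lit 132951846538) (nat_lit 76) (nat_lit 10791932032) (nat_lit 76) (nat_lit 6958821239) (nat_lit 3) (nat_lit 4) (nat_lit 4) (nat_lit 5) (nat_lit 4) (nat_lit 4) (nat_lit 334) (nat_lit 206) (nat_lit 180)) (XT.lf (nat_lit 0) (nat_lit 141733213292) (nat_lit 76) (nat_lit 10171990915) (nat_lit 76)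 (nat_lit 6267458971) (nat_lit 3) (nat_lit 4) (nat_lit 4) (nat_lit 5) (nat_lit 4) (nat_lit 4) (nat_lit 335) (nat_lit 206) (nat_lit 179)))) (XT.nd (nat_lit 156) (nat_lit 0) (nat_lit 0) (XT.nd (nat_lit 78) (nat_lit 0) (nat_lit 0) (XT.lf (nat_lit 0) (nat_lit 150917632372) (nat_lit 76) (nat_lit 9536123846) (nat_lit 76) (nat_lit 5563571758) (nat_lit 3) (nat_lit 4) (nat_lit 4) (nat_lit 5) (nat_lit 4) (nat_lit 4) (nat_lit 336) (nat_lit 206) (nat_lit 178)) (XT.lf (nat_lit 0) (nat_lit 160526971444) (nat_lit 76) (nat_lit 8882816855) (nat_lit 76) (nat_lit 4845483678) (nat_lit 3) (nat_lit 4) (nat_lit 4) (nat_lit 5) (nat_lit 4) (nat_lit 4) (nat_lit 337) (nat_lit 206) (nat_lit 177))) (XT.nd (nat_lit 78) (nat_lit 0) (nat_lit 0) (XT.lf (nat_lit 0) (nat_lit 170584109885) (nat_lit 76) (nat_lit 8210514450) (nat_lit 76) (nat_lit 4111484997) (nat_lit 3) (nat_lit 4) (nat_lit 4) (nat_lit 5) (nat_lit 4) (nat_lit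 4) (nat_lit 338) (nat_lit 206) (nat_lit 176)) (XT.lf (nat_lit 0) (nat_lit 181112993264) (nat_lit 76) (nat_lit 7517615910) (nat_lit 76) (nat_lit 3359828099) (nat_lit 3) (nat_lit 4) (nat_lit 4) (nat_lit 5) (nat_lit 4) (nat_lit 4) (nat_lit 339) (nat_lit 206) (nat_lit 175))))) (XT.nd (nat_lit 312) (nat_lit 152) (nat_lit 0) (XT.nd (nat_lit 156) (nat_lit 0) (nat_lit 0) (XT.nd (nat_lit 78) (nat_lit 0) (nat_lit 0) (XT.lf (nat_lit 0) (nat_lit 192138690350) (nat_lit 76) (nat_lit 6802471478) (nat_lit 76) (nat_lit 2588723326) (nat_lit 3) (nat_lit 4) (nat_lit 4) (nat_lit 5) (nat_lit 4) (nat_lit 4) (nat_lit 340) (nat_lit 206) (nat_lit 174)) (XT.lf (nat_lit 0) (nat_lit 203687452804) (nat_lit 76) (nat_lit 6063378427) (nat_lit 76) (nat_lit 1796334713) (nat_lit 3) (nat_lit 4) (nat_lit 4) (nat_lit 5) (nat_lit 4) (nat_lit 4) (nat_lit 341) (nat_lit 206) (nat_lit 173))) (XT.nd (nat_lit 78) (nat_lit 0)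 (nat_lit 0) (XT.lf (nat_lit 0) (nat_lit 215786777678) (nat_lit 76) (nat_lit 5298577014) (nat_lit 76) (nat_lit 980775621) (nat_lit 3) (nat_lit 4) (nat_lit 4) (nat_lit 5) (nat_lit 4) (nat_lit 4) (nat_lit 342) (nat_lit 206) (nat_lit 172)) (XT.lf (nat_lit 0) (nat_lit 228465472889) (nat_lit 76) (nat_lit 4506246282) (nat_lit 76) (nat_lit 140104242) (nat_lit 3) (nat_lit 4) (nat_lit 4) (nat_lit 5) (nat_lit 4) (nat_lit 4) (nat_lit 343) (nat_lit 206) (nat_lit 171)))) (XT.nd (nat_lit 156) (nat_lit 76) (nat_lit 0) (XT.nd (nat_lit 78) (nat_lit 0) (nat_lit 0) (XT.lf (nat_lit 0) (nat_lit 704390683) (nat_lit 152) (nat_lit 2968179849) (nat_lit 76) (nat_lit 241037405926) (nat_lit 2) (nat_lit 5) (nat_lit 4) (nat_lit 5) (nat_lit 3) (nat_lit 4) (nat_lit 344) (nat_lit 206) (nat_lit 170)) (XT.lf (nat_lit 0) (nat_lit 1572647496) (nat_lit 152) (nat_lit 1232099774) (nat_lit 76) (nat_lit 254083894085) (nat_lit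 2) (nat_lit 5) (nat_lit 4) (nat_lit 5) (nat_lit 3) (nat_lit 4) (nat_lit 345) (nat_lit 206) (nat_lit 169))) (XT.nd (nat_lit 78) (nat_lit 0) (nat_lit 0) (XT.lf (nat_lit 0) (nat_lit 586998252) (nat_lit 76) (nat_lit 1893384119) (nat_lit 152) (nat_lit 267196083693) (nat_lit 1) (nat_lit 5) (nat_lit 2) (nat_lit 5) (nat_lit 3) (nat_lit 4) (nat_lit 346) (nat_lit 206) (nat_lit 168)) (XT.nd (nat_lit 78) (nat_lit 0) (nat_lit 0) (XT.lf (nat_lit 0) (nat_lit 2517617332) (nat_lit 76) (nat_lit 923930429) (nat_lit 152) (nat_lit 279661760467) (nat_lit 1) (nat_lit 5) (nat_lit 2) (nat_lit 5) (nat_lit 3) (nat_lit 4) (nat_lit 347) (nat_lit 206) (nat_lit 167)) (XT.lf (nat_lit 0) (nat_lit 4439887537) (nat_lit 152) (nat_lit 292679842711) (nat_lit 0) (nat_lit 82333499) (nat_lit 1) (nat_lit 5) (nat_lit 3) (nat_lit 4) (nat_lit 1) (nat_lit 4) (nat_lit 348) (nat_lit 206) (nat_lit 166))))))))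
noncomputable def xc18 : XT := (XT.nd (nat_lit 34554) (nat_lit 0) (nat_lit 152) (XT.nd (nat_lit 624) (nat_lit 0) (nat_lit 0) (XT.nd (nat_lit 312) (nat_lit 0) (nat_lit 0) (XT.nd (nat_lit 156) (nat_lit 0) (nat_lit 0) (XT.nd (nat_lit 78) (nat_lit 0) (nat_lit 0) (XT.lf (nat_lit 0) (nat_lit 5491527442) (nat_lit 152) (nat_lit 305414467601) (nat_lit 0) (nat_lit 1099618609) (nat_lit 1) (nat_lit 5) (nat_lit 3) (nat_lit 4) (nat_lit 1) (nat_lit 4) (nat_lit 349) (nat_lit 206) (nat_lit 165)) (XT.lf (nat_lit 0) (nat_lit 6584546237) (nat_lit 152) (nat_lit 318805460958) (nat_lit 0) (nat_lit 2159918551) (nat_lit 1) (nat_lit 5) (nat_lit 3) (nat_lit 4) (nat_lit 1) (nat_lit 4) (nat_lit 350) (nat_lit 206) (nat_lit 164))) (XT.nd (nat_lit 78) (nat_lit 0) (nat_lit 0) (XT.lf (nat_lit 0) (nat_lit 7721546347) (nat_lit 152) (nat_lit 332884706100) (nat_lit 0) (nat_lit 3265757850) (nat_lit 1) (nat_lit 5) (nat_lit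 3) (nat_lit 4) (nat_lit 1) (nat_lit 4) (nat_lit 351) (nat_lit 206) (nat_lit 163)) (XT.lf (nat_lit 0) (nat_lit 8905234917) (nat_lit 152) (nat_lit 347685725038) (nat_lit 0) (nat_lit 4419769456) (nat_lit 1) (nat_lit 5) (nat_lit 3) (nat_lit 4) (nat_lit 1) (nat_lit 4) (nat_lit 352) (nat_lit 206) (nat_lit 162)))) (XT.nd (nat_lit 156) (nat_lit 0) (nat_lit 0) (XT.nd (nat_lit 78) (nat_lit 0) (nat_lit 0) (XT.lf (nat_lit 0) (nat_lit 10138430251) (nat_lit 152) (nat_lit 363243758294) (nat_lit 0) (nat_lit 5624701016) (nat_lit 1) (nat_lit 5) (nat_lit 3) (nat_lit 4) (nat_lit 1) (nat_lit 4) (nat_lit 353) (nat_lit 206) (nat_lit 161)) (XT.lf (nat_lit 0) (nat_lit 11424068530) (nat_lit 152) (nat_lit 379595848804) (nat_lit 0) (nat_lit 6883421414) (nat_lit 1) (nat_lit 5) (nat_lit 3) (nat_lit 4) (nat_lit 1) (nat_lit 4) (nat_lit 354) (nat_lit 206) (nat_lit 160))) (XT.nd (nat_lit 78) (nat_lit 0) (nat_lit 0)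 (XT.lf (nat_lit 0) (nat_lit 12765210796) (nat_lit 152) (nat_lit 396780930118) (nat_lit 0) (nat_lit 8198927604) (nat_lit 1) (nat_lit 5) (nat_lit 3) (nat_lit 4) (nat_lit 1) (nat_lit 4) (nat_lit 355) (nat_lit 206) (nat_lit 159)) (XT.lf (nat_lit 0) (nat_lit 14165050247) (nat_lit 152) (nat_lit 414839919095) (nat_lit 0) (nat_lit 9574351743) (nat_lit 1) (nat_lit 5) (nat_lit 3) (nat_lit 4) (nat_lit 1) (nat_lit 4) (nat_lit 356) (nat_lit 206) (nat_lit 158))))) (XT.nd (nat_lit 33618) (nat_lit 0) (nat_lit 228) (XT.nd (nat_lit 156) (nat_lit 0) (nat_lit 0) (XT.nd (nat_lit 78) (nat_lit 0) (nat_lit 0) (XT.lf (nat_lit 0) (nat_lit 15626919832) (nat_lit 152) (nat_lit 433815813328) (nat_lit 0) (nat_lit 11012968650) (nat_lit 1) (nat_lit 5) (nat_lit 3) (nat_lit 4) (nat_lit 1) (nat_lit 4) (nat_lit 357) (nat_lit 206) (nat_lit 157)) (XT.lf (nat_lit 0) (nat_lit 17154300194) (nat_lit 152) (nat_lit 453753793518)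 (nat_lit 0) (nat_lit 12518203605) (nat_lit 1) (nat_lit 5) (nat_lit 3) (nat_lit 4) (nat_lit 1) (nat_lit 4) (nat_lit 358) (nat_lit 206) (nat_lit 156))) (XT.nd (nat_lit 33384) (nat_lit 0) (nat_lit 228) (XT.lf (nat_lit 0) (nat_lit 18750827952) (nat_lit 152) (nat_lit 474701331046) (nat_lit 0) (nat_lit 14093640500) (nat_lit 1) (nat_lit 5) (nat_lit 3) (nat_lit 4) (nat_lit 1) (nat_lit 4) (nat_lit 359) (nat_lit 206) (nat_lit 155)) (XT.lf (nat_lit 0) (nat_lit 6366462099) (nat_lit 152) (nat_lit 7227668791) (nat_lit 0) (nat_lit 6366462099) (nat_lit 4) (nat_lit 5) (nat_lit 6) (nat_lit 4) (nat_lit 4) (nat_lit 4) (nat_lit 306) (nat_lit 207) (nat_lit 207)))) (XT.nd (nat_lit 156) (nat_lit 0) (nat_lit 0) (XT.nd (nat_lit 78) (nat_lit 0) (nat_lit 0) (XT.lf (nat_lit 0) (nat_lit 15506151019) (nat_lit 152) (nat_lit 11044714599) (nat_lit 0) (nat_lit 15239503271) (nat_lit 4) (nat_lit 5) (nat_lit 6) (nat_lit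 4) (nat_lit 4) (nat_lit 4) (nat_lit 307) (nat_lit 207) (nat_lit 206)) (XT.lf (nat_lit 0) (nat_lit 18341941646) (nat_lit 152) (nat_lit 7593720977) (nat_lit 0) (nat_lit 17821343661) (nat_lit 4) (nat_lit 5) (nat_lit 6) (nat_lit 4) (nat_lit 4) (nat_lit 4) (nat_lit 308) (nat_lit 207) (nat_lit 205))) (XT.nd (nat_lit 78) (nat_lit 0) (nat_lit 0) (XT.lf (nat_lit 0) (nat_lit 21247047961) (nat_lit 152) (nat_lit 4094140064) (nat_lit 0) (nat_lit 20484592608) (nat_lit 4) (nat_lit 5) (nat_lit 6) (nat_lit 4) (nat_lit 4) (nat_lit 4) (nat_lit 309) (nat_lit 207) (nat_lit 204)) (XT.lf (nat_lit 0) (nat_lit 24228386885) (nat_lit 152) (nat_lit 537639526) (nat_lit 0) (nat_lit 23235591181) (nat_lit 4) (nat_lit 5) (nat_lit 6) (nat_lit 4) (nat_lit 4) (nat_lit 4) (nat_lit 310) (nat_lit 207) (nat_lit 203)))))) (XT.nd (nat_lit 624) (nat_lit 0) (nat_lit 0) (XT.nd (nat_lit 312) (nat_lit 0) (nat_lit 0) (XT.nd (nat_lit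 156) (nat_lit 0) (nat_lit 0) (XT.nd (nat_lit 78) (nat_lit 0) (nat_lit 0) (XT.lf (nat_lit 0) (nat_lit 3186227680) (nat_lit 76) (nat_lit 24156575106) (nat_lit 76) (nat_lit 22944407640) (nat_lit 3) (nat_lit 4) (nat_lit 4) (nat_lit 5) (nat_lit 4) (nat_lit 4) (nat_lit 311) (nat_lit 207) (nat_lit 202)) (XT.lf (nat_lit 0) (nat_lit 7004329843) (nat_lit 76) (nat_lit 23553382043) (nat_lit 76) (nat_lit 22132289089) (nat_lit 3) (nat_lit 4) (nat_lit 4) (nat_lit 5) (nat_lit 4) (nat_lit 4) (nat_lit 312) (nat_lit 207) (nat_lit 201))) (XT.nd (nat_lit 78) (nat_lit 0) (nat_lit 0) (XT.lf (nat_lit 0) (nat_lit 10907980892) (nat_lit 76) (nat_lit 22964116233) (nat_lit 76) (nat_lit 21344046624) (nat_lit 3) (nat_lit 4) (nat_lit 4) (nat_lit 5) (nat_lit 4) (nat_lit 4) (nat_lit 313) (nat_lit 207) (nat_lit 200)) (XT.lf (nat_lit 0) (nat_lit 14906475234) (nat_lit 76) (nat_lit 22387374664) (nat_lit 76) (nat_lit 20577803478)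 (nat_lit 3) (nat_lit 4) (nat_lit 4) (nat_lit 5) (nat_lit 4) (nat_lit 4) (nat_lit 314) (nat_lit 207) (nat_lit 199)))) (XT.nd (nat_lit 156) (nat_lit 0) (nat_lit 0) (XT.nd (nat_lit 78) (nat_lit 0) (nat_lit 0) (XT.lf (nat_lit 0) (nat_lit 19009333093) (nat_lit 76) (nat_lit 21821784140) (nat_lit 76) (nat_lit 19831735262) (nat_lit 3) (nat_lit 4) (nat_lit 4) (nat_lit 5) (nat_lit 4) (nat_lit 4) (nat_lit 315) (nat_lit 207) (nat_lit 198)) (XT.lf (nat_lit 0) (nat_lit 23226323178) (nat_lit 76) (nat_lit 21265998018) (nat_lit 76) (nat_lit 19104065624) (nat_lit 3) (nat_lit 4) (nat_lit 4) (nat_lit 5) (nat_lit 4) (nat_lit 4) (nat_lit 316) (nat_lit 207) (nat_lit 197))) (XT.nd (nat_lit 78) (nat_lit 0) (nat_lit 0) (XT.lf (nat_lit 0) (nat_lit 27567485943) (nat_lit 76) (nat_lit 20718692997) (nat_lit 76) (nat_lit 18393062016) (nat_lit 3) (nat_lit 4) (nat_lit 4) (nat_lit 5) (nat_lit 4) (nat_lit 4) (nat_lit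 317) (nat_lit 207) (nat_lit 196)) (XT.lf (nat_lit 0) (nat_lit 32043157489) (nat_lit 76) (nat_lit 20178565970) (nat_lit 76) (nat_lit 17697031574) (nat_lit 3) (nat_lit 4) (nat_lit 4) (nat_lit 5) (nat_lit 4) (nat_lit 4) (nat_lit 318) (nat_lit 207) (nat_lit 195))))) (XT.nd (nat_lit 312) (nat_lit 0) (nat_lit 0) (XT.nd (nat_lit 156) (nat_lit 0) (nat_lit 0) (XT.nd (nat_lit 78) (nat_lit 0) (nat_lit 0) (XT.lf (nat_lit 0) (nat_lit 36663994176) (nat_lit 76) (nat_lit 19644330921) (nat_lit 76) (nat_lit 17014317081) (nat_lit 3) (nat_lit 4) (nat_lit 4) (nat_lit 5) (nat_lit 4) (nat_lit 4) (nat_lit 319) (nat_lit 207) (nat_lit 194)) (XT.lf (nat_lit 0) (nat_lit 41440997997) (nat_lit 76) (nat_lit 19114715861) (nat_lit 76) (nat_lit 16343293026) (nat_lit 3) (nat_lit 4) (nat_lit 4) (nat_lit 5) (nat_lit 4) (nat_lit 4) (nat_lit 320) (nat_lit 207) (nat_lit 193))) (XT.nd (nat_lit 78) (nat_lit 0) (nat_lit 0)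 (XT.lf (nat_lit 0) (nat_lit 46385542771) (nat_lit 76) (nat_lit 18588459801) (nat_lit 76) (nat_lit 15682361735) (nat_lit 3) (nat_lit 4) (nat_lit 4) (nat_lit 5) (nat_lit 4) (nat_lit 4) (nat_lit 321) (nat_lit 207) (nat_lit 192)) (XT.lf (nat_lit 0) (nat_lit 51509401223) (nat_lit 76) (nat_lit 18064309753) (nat_lit 76) (nat_lit 15029949560) (nat_lit 3) (nat_lit 4) (nat_lit 4) (nat_lit 5) (nat_lit 4) (nat_lit 4) (nat_lit 322) (nat_lit 207) (nat_lit 191)))) (XT.nd (nat_lit 156) (nat_lit 0) (nat_lit 0) (XT.nd (nat_lit 78) (nat_lit 0) (nat_lit 0) (XT.lf (nat_lit 0) (nat_lit 56824773016) (nat_lit 76) (nat_lit 17541017738) (nat_lit 76) (nat_lit 14384503139) (nat_lit 3) (nat_lit 4) (nat_lit 4) (nat_lit 5) (nat_lit 4) (nat_lit 4) (nat_lit 323) (nat_lit 207) (nat_lit 190)) (XT.lf (nat_lit 0) (nat_lit 62344313797) (nat_lit 76) (nat_lit 17017337823) (nat_lit 76) (nat_lit 13744485695) (nat_lit 3) (nat_lit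 4) (nat_lit 4) (nat_lit 5) (nat_lit 4) (nat_lit 4) (nat_lit 324) (nat_lit 207) (nat_lit 189))) (XT.nd (nat_lit 78) (nat_lit 0) (nat_lit 0) (XT.lf (nat_lit 0) (nat_lit 68081165331) (nat_lit 76) (nat_lit 16492023153) (nat_lit 76) (nat_lit 13108373378) (nat_lit 3) (nat_lit 4) (nat_lit 4) (nat_lit 5) (nat_lit 4) (nat_lit 4) (nat_lit 325) (nat_lit 207) (nat_lit 188)) (XT.lf (nat_lit 0) (nat_lit 74048986786) (nat_lit 76) (nat_lit 15963822977) (nat_lit 76) (nat_lit 12474651633) (nat_lit 3) (nat_lit 4) (nat_lit 4) (nat_lit 5) (nat_lit 4) (nat_lit 4) (nat_lit 326) (nat_lit 207) (nat_lit 187)))))))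
noncomputable def xc19 : XT := (XT.nd (nat_lit 1248) (nat_lit 152) (nat_lit 0) (XT.nd (nat_lit 624) (nat_lit 0) (nat_lit 0) (XT.nd (nat_lit 312) (nat_lit 0) (nat_lit 0) (XT.nd (nat_lit 156) (nat_lit 0) (nat_lit 0) (XT.nd (nat_lit 78) (nat_lit 0) (nat_lit 0) (XT.lf (nat_lit 0) (nat_lit 80261987263) (nat_lit 76) (nat_lit 15431479676) (nat_lit 76) (nat_lit 11841811600) (nat_lit 3) (nat_lit 4) (nat_lit 4) (nat_lit 5) (nat_lit 4) (nat_lit 4) (nat_lit 327) (nat_lit 207) (nat_lit 186)) (XT.lf (nat_lit 0) (nat_lit 86734959619) (nat_lit 76) (nat_lit 14893725766) (nat_lit 76) (nat_lit 11208346517) (nat_lit 3) (nat_lit 4) (nat_lit 4) (nat_lit 5) (nat_lit 4) (nat_lit 4) (nat_lit 328) (nat_lit 207) (nat_lit 185))) (XT.nd (nat_lit 78) (nat_lit 0) (nat_lit 0) (XT.lf (nat_lit 0) (nat_lit 93483315693) (nat_lit 76) (nat_lit 14349280880) (nat_lit 76) (nat_lit 10572748133) (nat_lit 3) (nat_lit 4) (nat_lit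 4) (nat_lit 5) (nat_lit 4) (nat_lit 4) (nat_lit 329) (nat_lit 207) (nat_lit 184)) (XT.lf (nat_lit 0) (nat_lit 100523123000) (nat_lit 76) (nat_lit 13796848722) (nat_lit 76) (nat_lit 9933503119) (nat_lit 3) (nat_lit 4) (nat_lit 4) (nat_lit 5) (nat_lit 4) (nat_lit 4) (nat_lit 330) (nat_lit 207) (nat_lit 183)))) (XT.nd (nat_lit 156) (nat_lit 0) (nat_lit 0) (XT.nd (nat_lit 78) (nat_lit 0) (nat_lit 0) (XT.lf (nat_lit 0) (nat_lit 107871142986) (nat_lit 76) (nat_lit 13235113976) (nat_lit 76) (nat_lit 9289089463) (nat_lit 3) (nat_lit 4) (nat_lit 4) (nat_lit 5) (nat_lit 4) (nat_lit 4) (nat_lit 331) (nat_lit 207) (nat_lit 182)) (XT.lf (nat_lit 0) (nat_lit 115544870936) (nat_lit 76) (nat_lit 12662739179) (nat_lit 76) (nat_lit 8637972846) (nat_lit 3) (nat_lit 4) (nat_lit 4) (nat_lit 5) (nat_lit 4) (nat_lit 4) (nat_lit 332) (nat_lit 207) (nat_lit 181))) (XT.nd (nat_lit 78) (nat_lit 0) (nat_lit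 0) (XT.lf (nat_lit 0) (nat_lit 123562577631) (nat_lit 76) (nat_lit 12078361533) (nat_lit 76) (nat_lit 7978602992) (nat_lit 3) (nat_lit 4) (nat_lit 4) (nat_lit 5) (nat_lit 4) (nat_lit 4) (nat_lit 333) (nat_lit 207) (nat_lit 180)) (XT.lf (nat_lit 0) (nat_lit 131943352849) (nat_lit 76) (nat_lit 11480589664) (nat_lit 76) (nat_lit 7309409972) (nat_lit 3) (nat_lit 4) (nat_lit 4) (nat_lit 5) (nat_lit 4) (nat_lit 4) (nat_lit 334) (nat_lit 207) (nat_lit 179))))) (XT.nd (nat_lit 312) (nat_lit 0) (nat_lit 0) (XT.nd (nat_lit 156) (nat_lit 0) (nat_lit 0) (XT.nd (nat_lit 78) (nat_lit 0) (nat_lit 0) (XT.lf (nat_lit 0) (nat_lit 140707150817) (nat_lit 76) (nat_lit 10868000305) (nat_lit 76) (nat_lit 6628800469) (nat_lit 3) (nat_lit 4) (nat_lit 4) (nat_lit 5) (nat_lit 4) (nat_lit 4) (nat_lit 335) (nat_lit 207) (nat_lit 178)) (XT.lf (nat_lit 0) (nat_lit 149874837721) (nat_lit 76) (nat_lit 10239134910)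 (nat_lit 76) (nat_lit 5935153985) (nat_lit 3) (nat_lit 4) (nat_lit 4) (nat_lit 5) (nat_lit 4) (nat_lit 4) (nat_lit 336) (nat_lit 207) (nat_lit 177))) (XT.nd (nat_lit 78) (nat_lit 0) (nat_lit 0) (XT.lf (nat_lit 0) (nat_lit 159468241386) (nat_lit 76) (nat_lit 9592496181) (nat_lit 76) (nat_lit 5226818979) (nat_lit 3) (nat_lit 4) (nat_lit 4) (nat_lit 5) (nat_lit 4) (nat_lit 4) (nat_lit 337) (nat_lit 207) (nat_lit 176)) (XT.lf (nat_lit 0) (nat_lit 169510203249) (nat_lit 76) (nat_lit 8926544500) (nat_lit 76) (nat_lit 4502108941) (nat_lit 3) (nat_lit 4) (nat_lit 4) (nat_lit 5) (nat_lit 4) (nat_lit 4) (nat_lit 338) (nat_lit 207) (nat_lit 175)))) (XT.nd (nat_lit 156) (nat_lit 0) (nat_lit 0) (XT.nd (nat_lit 78) (nat_lit 0) (nat_lit 0) (XT.lf (nat_lit 0) (nat_lit 180024632744) (nat_lit 76) (nat_lit 8239694270) (nat_lit 76) (nat_lit 3759298370) (nat_lit 3) (nat_lit 4) (nat_lit 4) (nat_lit 5)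 (nat_lit 4) (nat_lit 4) (nat_lit 339) (nat_lit 207) (nat_lit 174)) (XT.lf (nat_lit 0) (nat_lit 191036564227) (nat_lit 76) (nat_lit 7530310132) (nat_lit 76) (nat_lit 2996618669) (nat_lit 3) (nat_lit 4) (nat_lit 4) (nat_lit 5) (nat_lit 4) (nat_lit 4) (nat_lit 340) (nat_lit 207) (nat_lit 173))) (XT.nd (nat_lit 78) (nat_lit 0) (nat_lit 0) (XT.lf (nat_lit 0) (nat_lit 202572216582) (nat_lit 76) (nat_lit 6796703076) (nat_lit 76) (nat_lit 2212253935) (nat_lit 3) (nat_lit 4) (nat_lit 4) (nat_lit 5) (nat_lit 4) (nat_lit 4) (nat_lit 341) (nat_lit 207) (nat_lit 172)) (XT.lf (nat_lit 0) (nat_lit 214659055648) (nat_lit 76) (nat_lit 6037126420) (nat_lit 76) (nat_lit 1404336632) (nat_lit 3) (nat_lit 4) (nat_lit 4) (nat_lit 5) (nat_lit 4) (nat_lit 4) (nat_lit 342) (nat_lit 207) (nat_lit 171)))))) (XT.nd (nat_lit 624) (nat_lit 0) (nat_lit 0) (XT.nd (nat_lit 312) (nat_lit 76) (nat_lit 0) (XT.nd (nat_lit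 156) (nat_lit 0) (nat_lit 0) (XT.nd (nat_lit 78) (nat_lit 76) (nat_lit 0) (XT.lf (nat_lit 0) (nat_lit 227325859613) (nat_lit 76) (nat_lit 5249771647) (nat_lit 76) (nat_lit 570943148) (nat_lit 3) (nat_lit 4) (nat_lit 4) (nat_lit 5) (nat_lit 4) (nat_lit 4) (nat_lit 343) (nat_lit 207) (nat_lit 170)) (XT.lf (nat_lit 0) (nat_lit 280631830) (nat_lit 152) (nat_lit 4147379636) (nat_lit 76) (nat_lit 240317403068) (nat_lit 2) (nat_lit 5) (nat_lit 4) (nat_lit 5) (nat_lit 3) (nat_lit 4) (nat_lit 344) (nat_lit 207) (nat_lit 169))) (XT.nd (nat_lit 78) (nat_lit 0) (nat_lit 0) (XT.lf (nat_lit 0) (nat_lit 1142498660) (nat_lit 152) (nat_lit 2422311104) (nat_lit 76) (nat_lit 253359603718) (nat_lit 2) (nat_lit 5) (nat_lit 4) (nat_lit 5) (nat_lit 3) (nat_lit 4) (nat_lit 345) (nat_lit 207) (nat_lit 168)) (XT.lf (nat_lit 0) (nat_lit 2034983149) (nat_lit 152) (nat_lit 632487870) (nat_lit 76) (nat_lit 267045543547)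 (nat_lit 2) (nat_lit 5) (nat_lit 4) (nat_lit 5) (nat_lit 3) (nat_lit 4) (nat_lit 346) (nat_lit 207) (nat_lit 167)))) (XT.nd (nat_lit 156) (nat_lit 0) (nat_lit 0) (XT.nd (nat_lit 78) (nat_lit 0) (nat_lit 0) (XT.lf (nat_lit 0) (nat_lit 1266900268) (nat_lit 76) (nat_lit 1713089856) (nat_lit 152) (nat_lit 280160687723) (nat_lit 1) (nat_lit 5) (nat_lit 2) (nat_lit 5) (nat_lit 3) (nat_lit 4) (nat_lit 347) (nat_lit 207) (nat_lit 166)) (XT.lf (nat_lit 0) (nat_lit 3263071630) (nat_lit 76) (nat_lit 708256980) (nat_lit 152) (nat_lit 293268467390) (nat_lit 1) (nat_lit 5) (nat_lit 2) (nat_lit 5) (nat_lit 3) (nat_lit 4) (nat_lit 348) (nat_lit 207) (nat_lit 165))) (XT.nd (nat_lit 78) (nat_lit 0) (nat_lit 0) (XT.lf (nat_lit 0) (nat_lit 5006445710) (nat_lit 152) (nat_lit 306709870517) (nat_lit 0) (nat_lit 327867788) (nat_lit 1) (nat_lit 5) (nat_lit 3) (nat_lit 4) (nat_lit 1) (nat_lit 4) (nat_lit 349)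 (nat_lit 207) (nat_lit 164)) (XT.lf (nat_lit 0) (nat_lit 6094259811) (nat_lit 152) (nat_lit 320109986858) (nat_lit 0) (nat_lit 1384521077) (nat_lit 1) (nat_lit 5) (nat_lit 3) (nat_lit 4) (nat_lit 1) (nat_lit 4) (nat_lit 350) (nat_lit 207) (nat_lit 163))))) (XT.nd (nat_lit 312) (nat_lit 0) (nat_lit 0) (XT.nd (nat_lit 156) (nat_lit 0) (nat_lit 0) (XT.nd (nat_lit 78) (nat_lit 0) (nat_lit 0) (XT.lf (nat_lit 0) (nat_lit 7226303069) (nat_lit 152) (nat_lit 334197920555) (nat_lit 0) (nat_lit 2486887372) (nat_lit 1) (nat_lit 5) (nat_lit 3) (nat_lit 4) (nat_lit 1) (nat_lit 4) (nat_lit 351) (nat_lit 207) (nat_lit 162)) (XT.lf (nat_lit 0) (nat_lit 8405270827) (nat_lit 152) (nat_lit 349007214309) (nat_lit 0) (nat_lit 3637591355) (nat_lit 1) (nat_lit 5) (nat_lit 3) (nat_lit 4) (nat_lit 1) (nat_lit 4) (nat_lit 352) (nat_lit 207) (nat_lit 161))) (XT.nd (nat_lit 78) (nat_lit 0) (nat_lit 0) (XT.lf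 (nat_lit 0) (nat_lit 9633970151) (nat_lit 152) (nat_lit 364573128341) (nat_lit 0) (nat_lit 4839372798) (nat_lit 1) (nat_lit 5) (nat_lit 3) (nat_lit 4) (nat_lit 1) (nat_lit 4) (nat_lit 353) (nat_lit 207) (nat_lit 160)) (XT.lf (nat_lit 0) (nat_lit 10915326514) (nat_lit 152) (nat_lit 380932724353) (nat_lit 0) (nat_lit 6095093085) (nat_lit 1) (nat_lit 5) (nat_lit 3) (nat_lit 4) (nat_lit 1) (nat_lit 4) (nat_lit 354) (nat_lit 207) (nat_lit 159)))) (XT.nd (nat_lit 156) (nat_lit 0) (nat_lit 0) (XT.nd (nat_lit 78) (nat_lit 0) (nat_lit 0) (XT.lf (nat_lit 0) (nat_lit 12252390766) (nat_lit 152) (nat_lit 398124953763) (nat_lit 0) (nat_lit 7407742026) (nat_lit 1) (nat_lit 5) (nat_lit 3) (nat_lit 4) (nat_lit 1) (nat_lit 4) (nat_lit 355) (nat_lit 207) (nat_lit 158)) (XT.lf (nat_lit 0) (nat_lit 13648346394) (nat_lit 152) (nat_lit 416190750451) (nat_lit 0) (nat_lit 8780444975) (nat_lit 1) (nat_lit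 5) (nat_lit 3) (nat_lit 4) (nat_lit 1) (nat_lit 4) (nat_lit 356) (nat_lit 207) (nat_lit 157))) (XT.nd (nat_lit 78) (nat_lit 0) (nat_lit 0) (XT.lf (nat_lit 0) (nat_lit 15106517099) (nat_lit 152) (nat_lit 435173128218) (nat_lit 0) (nat_lit 10216470274) (nat_lit 1) (nat_lit 5) (nat_lit 3) (nat_lit 4) (nat_lit 1) (nat_lit 4) (nat_lit 357) (nat_lit 207) (nat_lit 156)) (XT.nd (nat_lit 78) (nat_lit 0) (nat_lit 0) (XT.lf (nat_lit 0) (nat_lit 16630374719) (nat_lit 152) (nat_lit 455117283203) (nat_lit 0) (nat_lit 11719237030) (nat_lit 1) (nat_lit 5) (nat_lit 3) (nat_lit 4) (nat_lit 1) (nat_lit 4) (nat_lit 358) (nat_lit 207) (nat_lit 155)) (XT.lf (nat_lit 0) (nat_lit 18223547485) (nat_lit 152) (nat_lit 476070701488) (nat_lit 0) (nat_lit 13292323259) (nat_lit 1) (nat_lit 5) (nat_lit 3) (nat_lit 4) (nat_lit 1) (nat_lit 4) (nat_lit 359) (nat_lit 207) (nat_lit 154))))))))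
noncomputable def xc20 : XT := (XT.nd (nat_lit 2496) (nat_lit 152) (nat_lit 0) (XT.nd (nat_lit 1248) (nat_lit 0) (nat_lit 0) (XT.nd (nat_lit 624) (nat_lit 0) (nat_lit 0) (XT.nd (nat_lit 312) (nat_lit 76) (nat_lit 0) (XT.nd (nat_lit 156) (nat_lit 0) (nat_lit 0) (XT.nd (nat_lit 78) (nat_lit 0) (nat_lit 0) (XT.lf (nat_lit 0) (nat_lit 3834394646) (nat_lit 152) (nat_lit 10558938005) (nat_lit 0) (nat_lit 3834394646) (nat_lit 4) (nat_lit 5) (nat_lit 6) (nat_lit 4) (nat_lit 4) (nat_lit 4) (nat_lit 304) (nat_lit 208) (nat_lit 208)) (XT.lf (nat_lit 0) (nat_lit 10295638398) (nat_lit 152) (nat_lit 17833710457) (nat_lit 0) (nat_lit 10015658262) (nat_lit 4) (nat_lit 5) (nat_lit 6) (nat_lit 4) (nat_lit 4) (nat_lit 4) (nat_lit 305) (nat_lit 208) (nat_lit 207))) (XT.nd (nat_lit 78) (nat_lit 0) (nat_lit 0) (XT.lf (nat_lit 0) (nat_lit 12973927548) (nat_lit 152) (nat_lit 14522005160) (nat_lit 0) (nat_lit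 12427299664) (nat_lit 4) (nat_lit 5) (nat_lit 6) (nat_lit 4) (nat_lit 4) (nat_lit 4) (nat_lit 306) (nat_lit 208) (nat_lit 206)) (XT.lf (nat_lit 0) (nat_lit 15710033620) (nat_lit 152) (nat_lit 11174875109) (nat_lit 0) (nat_lit 14909455499) (nat_lit 4) (nat_lit 5) (nat_lit 6) (nat_lit 4) (nat_lit 4) (nat_lit 4) (nat_lit 307) (nat_lit 208) (nat_lit 205)))) (XT.nd (nat_lit 156) (nat_lit 76) (nat_lit 0) (XT.nd (nat_lit 78) (nat_lit 0) (nat_lit 0) (XT.lf (nat_lit 0) (nat_lit 18510471153) (nat_lit 152) (nat_lit 7784350946) (nat_lit 0) (nat_lit 17468035664) (nat_lit 4) (nat_lit 5) (nat_lit 6) (nat_lit 4) (nat_lit 4) (nat_lit 4) (nat_lit 308) (nat_lit 208) (nat_lit 204)) (XT.lf (nat_lit 0) (nat_lit 21381907855) (nat_lit 152) (nat_lit 4342359994) (nat_lit 0) (nat_lit 20109132015) (nat_lit 4) (nat_lit 5) (nat_lit 6) (nat_lit 4) (nat_lit 4) (nat_lit 4) (nat_lit 309) (nat_lit 208) (nat_lit 203)))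 (XT.nd (nat_lit 78) (nat_lit 76) (nat_lit 0) (XT.lf (nat_lit 0) (nat_lit 24331180480) (nat_lit 152) (nat_lit 840707038) (nat_lit 0) (nat_lit 22839032878) (nat_lit 4) (nat_lit 5) (nat_lit 6) (nat_lit 4) (nat_lit 4) (nat_lit 4) (nat_lit 310) (nat_lit 208) (nat_lit 202)) (XT.lf (nat_lit 0) (nat_lit 2819176444) (nat_lit 76) (nat_lit 24590149906) (nat_lit 76) (nat_lit 22889076816) (nat_lit 3) (nat_lit 4) (nat_lit 4) (nat_lit 5) (nat_lit 4) (nat_lit 4) (nat_lit 311) (nat_lit 208) (nat_lit 201))))) (XT.nd (nat_lit 312) (nat_lit 0) (nat_lit 0) (XT.nd (nat_lit 156) (nat_lit 0) (nat_lit 0) (XT.nd (nat_lit 78) (nat_lit 0) (nat_lit 0) (XT.lf (nat_lit 0) (nat_lit 6585885328) (nat_lit 76) (nat_lit 24008462651) (nat_lit 76) (nat_lit 22108412906) (nat_lit 3) (nat_lit 4) (nat_lit 4) (nat_lit 5) (nat_lit 4) (nat_lit 4) (nat_lit 312) (nat_lit 208) (nat_lit 200)) (XT.lf (nat_lit 0) (nat_lit 10440590397)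 (nat_lit 76) (nat_lit 23439678564) (nat_lit 76) (nat_lit 21350127242) (nat_lit 3) (nat_lit 4) (nat_lit 4) (nat_lit 5) (nat_lit 4) (nat_lit 4) (nat_lit 313) (nat_lit 208) (nat_lit 199))) (XT.nd (nat_lit 78) (nat_lit 0) (nat_lit 0) (XT.lf (nat_lit 0) (nat_lit 14392469519) (nat_lit 76) (nat_lit 22882443396) (nat_lit 76) (nat_lit 20612414383) (nat_lit 3) (nat_lit 4) (nat_lit 4) (nat_lit 5) (nat_lit 4) (nat_lit 4) (nat_lit 314) (nat_lit 208) (nat_lit 198)) (XT.lf (nat_lit 0) (nat_lit 18450931931) (nat_lit 76) (nat_lit 22335430398) (nat_lit 76) (nat_lit 19893517869) (nat_lit 3) (nat_lit 4) (nat_lit 4) (nat_lit 5) (nat_lit 4) (nat_lit 4) (nat_lit 315) (nat_lit 208) (nat_lit 197)))) (XT.nd (nat_lit 156) (nat_lit 0) (nat_lit 0) (XT.nd (nat_lit 78) (nat_lit 0) (nat_lit 0) (XT.lf (nat_lit 0) (nat_lit 22625640638) (nat_lit 76) (nat_lit 21797337158) (nat_lit 76) (nat_lit 19191726041) (nat_lit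 3) (nat_lit 4) (nat_lit 4) (nat_lit 5) (nat_lit 4) (nat_lit 4) (nat_lit 316) (nat_lit 208) (nat_lit 196)) (XT.lf (nat_lit 0) (nat_lit 26926535424) (nat_lit 76) (nat_lit 21266882500) (nat_lit 76) (nat_lit 18505367968) (nat_lit 3) (nat_lit 4) (nat_lit 4) (nat_lit 5) (nat_lit 4) (nat_lit 4) (nat_lit 317) (nat_lit 208) (nat_lit 195))) (XT.nd (nat_lit 78) (nat_lit 0) (nat_lit 0) (XT.lf (nat_lit 0) (nat_lit 31363856513) (nat_lit 76) (nat_lit 20742803439) (nat_lit 76) (nat_lit 17832809463) (nat_lit 3) (nat_lit 4) (nat_lit 4) (nat_lit 5) (nat_lit 4) (nat_lit 4) (nat_lit 318) (nat_lit 208) (nat_lit 194)) (XT.lf (nat_lit 0) (nat_lit 35948168956) (nat_lit 76) (nat_lit 20223852166) (nat_lit 76) (nat_lit 17172449196) (nat_lit 3) (nat_lit 4) (nat_lit 4) (nat_lit 5) (nat_lit 4) (nat_lit 4) (nat_lit 319) (nat_lit 208) (nat_lit 193)))))) (XT.nd (nat_lit 624) (nat_lit 0) (nat_lit 0) (XT.nd (nat_lit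 312) (nat_lit 0) (nat_lit 0) (XT.nd (nat_lit 156) (nat_lit 0) (nat_lit 0) (XT.nd (nat_lit 78) (nat_lit 0) (nat_lit 0) (XT.lf (nat_lit 0) (nat_lit 40690387783) (nat_lit 76) (nat_lit 19708793083) (nat_lit 76) (nat_lit 16522714881) (nat_lit 3) (nat_lit 4) (nat_lit 4) (nat_lit 5) (nat_lit 4) (nat_lit 4) (nat_lit 320) (nat_lit 208) (nat_lit 192)) (XT.lf (nat_lit 0) (nat_lit 45601803991) (nat_lit 76) (nat_lit 19196399860) (nat_lit 76) (nat_lit 15882059531) (nat_lit 3) (nat_lit 4) (nat_lit 4) (nat_lit 5) (nat_lit 4) (nat_lit 4) (nat_lit 321) (nat_lit 208) (nat_lit 191))) (XT.nd (nat_lit 78) (nat_lit 0) (nat_lit 0) (XT.lf (nat_lit 0) (nat_lit 50694111427) (nat_lit 76) (nat_lit 18685452512) (nat_lit 76) (nat_lit 15248957777) (nat_lit 3) (nat_lit 4) (nat_lit 4) (nat_lit 5) (nat_lit 4) (nat_lit 4) (nat_lit 322) (nat_lit 208) (nat_lit 190)) (XT.lf (nat_lit 0) (nat_lit 55979434634) (nat_lit 76)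 (nat_lit 18174734497) (nat_lit 76) (nat_lit 14621902233) (nat_lit 3) (nat_lit 4) (nat_lit 4) (nat_lit 5) (nat_lit 4) (nat_lit 4) (nat_lit 323) (nat_lit 208) (nat_lit 189)))) (XT.nd (nat_lit 156) (nat_lit 0) (nat_lit 0) (XT.nd (nat_lit 78) (nat_lit 0) (nat_lit 0) (XT.lf (nat_lit 0) (nat_lit 61470357715) (nat_lit 76) (nat_lit 17663029822) (nat_lit 76) (nat_lit 13999399911) (nat_lit 3) (nat_lit 4) (nat_lit 4) (nat_lit 5) (nat_lit 4) (nat_lit 4) (nat_lit 324) (nat_lit 208) (nat_lit 188)) (XT.lf (nat_lit 0) (nat_lit 67179954295) (nat_lit 76) (nat_lit 17149120141) (nat_lit 76) (nat_lit 13379968661) (nat_lit 3) (nat_lit 4) (nat_lit 4) (nat_lit 5) (nat_lit 4) (nat_lit 4) (nat_lit 325) (nat_lit 208) (nat_lit 187))) (XT.nd (nat_lit 78) (nat_lit 0) (nat_lit 0) (XT.lf (nat_lit 0) (nat_lit 73121818652) (nat_lit 76) (nat_lit 16631781859) (nat_lit 76) (nat_lit 12762133648) (nat_lit 3) (nat_lit 4)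 (nat_lit 4) (nat_lit 5) (nat_lit 4) (nat_lit 4) (nat_lit 326) (nat_lit 208) (nat_lit 186)) (XT.lf (nat_lit 0) (nat_lit 79310098082) (nat_lit 76) (nat_lit 16109783219) (nat_lit 76) (nat_lit 12144423835) (nat_lit 3) (nat_lit 4) (nat_lit 4) (nat_lit 5) (nat_lit 4) (nat_lit 4) (nat_lit 327) (nat_lit 208) (nat_lit 185))))) (XT.nd (nat_lit 312) (nat_lit 0) (nat_lit 0) (XT.nd (nat_lit 156) (nat_lit 0) (nat_lit 0) (XT.nd (nat_lit 78) (nat_lit 0) (nat_lit 0) (XT.lf (nat_lit 0) (nat_lit 85759526585) (nat_lit 76) (nat_lit 15581881368) (nat_lit 76) (nat_lit 11525368485) (nat_lit 3) (nat_lit 4) (nat_lit 4) (nat_lit 5) (nat_lit 4) (nat_lit 4) (nat_lit 328) (nat_lit 208) (nat_lit 184)) (XT.lf (nat_lit 0) (nat_lit 92485459942) (nat_lit 76) (nat_lit 15046819395) (nat_lit 76) (nat_lit 10903493656) (nat_lit 3) (nat_lit 4) (nat_lit 4) (nat_lit 5) (nat_lit 4) (nat_lit 4) (nat_lit 329) (nat_lit 208) (nat_lit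 183))) (XT.nd (nat_lit 78) (nat_lit 0) (nat_lit 0) (XT.lf (nat_lit 0) (nat_lit 99503912280) (nat_lit 76) (nat_lit 14503323344) (nat_lit 76) (nat_lit 10277318695) (nat_lit 3) (nat_lit 4) (nat_lit 4) (nat_lit 5) (nat_lit 4) (nat_lit 4) (nat_lit 330) (nat_lit 208) (nat_lit 182)) (XT.lf (nat_lit 0) (nat_lit 106831594199) (nat_lit 76) (nat_lit 13950099177) (nat_lit 76) (nat_lit 9645352709) (nat_lit 3) (nat_lit 4) (nat_lit 4) (nat_lit 5) (nat_lit 4) (nat_lit 4) (nat_lit 331) (nat_lit 208) (nat_lit 181)))) (XT.nd (nat_lit 156) (nat_lit 0) (nat_lit 0) (XT.nd (nat_lit 78) (nat_lit 0) (nat_lit 0) (XT.lf (nat_lit 0) (nat_lit 114485952563) (nat_lit 76) (nat_lit 13385829693) (nat_lit 76) (nat_lit 9006091016) (nat_lit 3) (nat_lit 4) (nat_lit 4) (nat_lit 5) (nat_lit 4) (nat_lit 4) (nat_lit 332) (nat_lit 208) (nat_lit 180)) (XT.lf (nat_lit 0) (nat_lit 122485212033) (nat_lit 76) (nat_lit 12809171393)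 (nat_lit 76) (nat_lit 8358011565) (nat_lit 3) (nat_lit 4) (nat_lit 4) (nat_lit 5) (nat_lit 4) (nat_lit 4) (nat_lit 333) (nat_lit 208) (nat_lit 179))) (XT.nd (nat_lit 78) (nat_lit 0) (nat_lit 0) (XT.lf (nat_lit 0) (nat_lit 130848418465) (nat_lit 76) (nat_lit 12218751282) (nat_lit 76) (nat_lit 7699571310) (nat_lit 3) (nat_lit 4) (nat_lit 4) (nat_lit 5) (nat_lit 4) (nat_lit 4) (nat_lit 334) (nat_lit 208) (nat_lit 178)) (XT.lf (nat_lit 0) (nat_lit 139595484256) (nat_lit 76) (nat_lit 11613163597) (nat_lit 76) (nat_lit 7029202536) (nat_lit 3) (nat_lit 4) (nat_lit 4) (nat_lit 5) (nat_lit 4) (nat_lit 4) (nat_lit 335) (nat_lit 208) (nat_lit 177))))))) (XT.nd (nat_lit 1248) (nat_lit 0) (nat_lit 0) (XT.nd (nat_lit 624) (nat_lit 152) (nat_lit 0) (XT.nd (nat_lit 312) (nat_lit 0) (nat_lit 0) (XT.nd (nat_lit 156) (nat_lit 0) (nat_lit 0) (XT.nd (nat_lit 78) (nat_lit 0) (nat_lit 0) (XT.lf (nat_lit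 0) (nat_lit 148747235753) (nat_lit 76) (nat_lit 10990966463) (nat_lit 76) (nat_lit 6345309126) (nat_lit 3) (nat_lit 4) (nat_lit 4) (nat_lit 5) (nat_lit 4) (nat_lit 4) (nat_lit 336) (nat_lit 208) (nat_lit 176)) (XT.lf (nat_lit 0) (nat_lit 158325462840) (nat_lit 76) (nat_lit 10350678458) (nat_lit 76) (nat_lit 5646262763) (nat_lit 3) (nat_lit 4) (nat_lit 4) (nat_lit 5) (nat_lit 4) (nat_lit 4) (nat_lit 337) (nat_lit 208) (nat_lit 175))) (XT.nd (nat_lit 78) (nat_lit 0) (nat_lit 0) (XT.lf (nat_lit 0) (nat_lit 168352970820) (nat_lit 76) (nat_lit 9690775087) (nat_lit 76) (nat_lit 4930399051) (nat_lit 3) (nat_lit 4) (nat_lit 4) (nat_lit 5) (nat_lit 4) (nat_lit 4) (nat_lit 338) (nat_lit 208) (nat_lit 174)) (XT.lf (nat_lit 0) (nat_lit 178853634712) (nat_lit 76) (nat_lit 9009685151) (nat_lit 76) (nat_lit 4196013553) (nat_lit 3) (nat_lit 4) (nat_lit 4) (nat_lit 5) (nat_lit 4) (nat_lit 4) (nat_lit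 339) (nat_lit 208) (nat_lit 173)))) (XT.nd (nat_lit 156) (nat_lit 0) (nat_lit 0) (XT.nd (nat_lit 78) (nat_lit 0) (nat_lit 0) (XT.lf (nat_lit 0) (nat_lit 189852456096) (nat_lit 76) (nat_lit 8305787008) (nat_lit 76) (nat_lit 3441357731) (nat_lit 3) (nat_lit 4) (nat_lit 4) (nat_lit 5) (nat_lit 4) (nat_lit 4) (nat_lit 340) (nat_lit 208) (nat_lit 172)) (XT.lf (nat_lit 0) (nat_lit 201375622642) (nat_lit 76) (nat_lit 7577404710) (nat_lit 76) (nat_lit 2664634786) (nat_lit 3) (nat_lit 4) (nat_lit 4) (nat_lit 5) (nat_lit 4) (nat_lit 4) (nat_lit 341) (nat_lit 208) (nat_lit 171))) (XT.nd (nat_lit 78) (nat_lit 0) (nat_lit 0) (XT.lf (nat_lit 0) (nat_lit 213450570463) (nat_lit 76) (nat_lit 6822804013) (nat_lit 76) (nat_lit 1863995378) (nat_lit 3) (nat_lit 4) (nat_lit 4) (nat_lit 5) (nat_lit 4) (nat_lit 4) (nat_lit 342) (nat_lit 208) (nat_lit 170)) (XT.lf (nat_lit 0) (nat_lit 226106049432) (nat_lit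 76) (nat_lit 6040188248) (nat_lit 76) (nat_lit 1037533222) (nat_lit 3) (nat_lit 4) (nat_lit 4) (nat_lit 5) (nat_lit 4) (nat_lit 4) (nat_lit 343) (nat_lit 208) (nat_lit 169))))) (XT.nd (nat_lit 312) (nat_lit 76) (nat_lit 0) (XT.nd (nat_lit 156) (nat_lit 0) (nat_lit 0) (XT.nd (nat_lit 78) (nat_lit 76) (nat_lit 0) (XT.lf (nat_lit 0) (nat_lit 239372191643) (nat_lit 76) (nat_lit 5227694045) (nat_lit 76) (nat_lit 183280552) (nat_lit 3) (nat_lit 4) (nat_lit 4) (nat_lit 5) (nat_lit 4) (nat_lit 4) (nat_lit 344) (nat_lit 208) (nat_lit 168)) (XT.lf (nat_lit 0) (nat_lit 678366700) (nat_lit 152) (nat_lit 3693531726) (nat_lit 76) (nat_lit 252590727979) (nat_lit 2) (nat_lit 5) (nat_lit 4) (nat_lit 5) (nat_lit 3) (nat_lit 4) (nat_lit 345) (nat_lit 208) (nat_lit 167))) (XT.nd (nat_lit 78) (nat_lit 0) (nat_lit 0) (XT.lf (nat_lit 0) (nat_lit 1565055287) (nat_lit 152) (nat_lit 1913696285) (nat_lit 76)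 (nat_lit 266272778911) (nat_lit 2) (nat_lit 5) (nat_lit 4) (nat_lit 5) (nat_lit 3) (nat_lit 4) (nat_lit 346) (nat_lit 208) (nat_lit 166)) (XT.lf (nat_lit 0) (nat_lit 2484762491) (nat_lit 152) (nat_lit 64369051) (nat_lit 76) (nat_lit 280631339780) (nat_lit 2) (nat_lit 5) (nat_lit 4) (nat_lit 5) (nat_lit 3) (nat_lit 4) (nat_lit 347) (nat_lit 208) (nat_lit 165)))) (XT.nd (nat_lit 156) (nat_lit 0) (nat_lit 0) (XT.nd (nat_lit 78) (nat_lit 0) (nat_lit 0) (XT.lf (nat_lit 0) (nat_lit 1920315217) (nat_lit 76) (nat_lit 1549344378) (nat_lit 152) (nat_lit 293810263919) (nat_lit 1) (nat_lit 5) (nat_lit 2) (nat_lit 5) (nat_lit 3) (nat_lit 4) (nat_lit 348) (nat_lit 208) (nat_lit 164)) (XT.lf (nat_lit 0) (nat_lit 3988196579) (nat_lit 76) (nat_lit 506146047) (nat_lit 152) (nat_lit 307590502007) (nat_lit 1) (nat_lit 5) (nat_lit 2) (nat_lit 5) (nat_lit 3) (nat_lit 4) (nat_lit 349) (nat_lit 208) (nat_lit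 163))) (XT.nd (nat_lit 78) (nat_lit 0) (nat_lit 0) (XT.lf (nat_lit 0) (nat_lit 5569297517) (nat_lit 152) (nat_lit 321497550592) (nat_lit 0) (nat_lit 563234071) (nat_lit 1) (nat_lit 5) (nat_lit 3) (nat_lit 4) (nat_lit 1) (nat_lit 4) (nat_lit 350) (nat_lit 208) (nat_lit 162)) (XT.lf (nat_lit 0) (nat_lit 6696619964) (nat_lit 152) (nat_lit 335593759105) (nat_lit 0) (nat_lit 1662292744) (nat_lit 1) (nat_lit 5) (nat_lit 3) (nat_lit 4) (nat_lit 1) (nat_lit 4) (nat_lit 351) (nat_lit 208) (nat_lit 161)))))) (XT.nd (nat_lit 33618) (nat_lit 0) (nat_lit 228) (XT.nd (nat_lit 312) (nat_lit 0) (nat_lit 0) (XT.nd (nat_lit 156) (nat_lit 0) (nat_lit 0) (XT.nd (nat_lit 78) (nat_lit 0) (nat_lit 0) (XT.lf (nat_lit 0) (nat_lit 7871091711) (nat_lit 152) (nat_lit 350410933635) (nat_lit 0) (nat_lit 2809846610) (nat_lit 1) (nat_lit 5) (nat_lit 3) (nat_lit 4) (nat_lit 1) (nat_lit 4) (nat_lit 352) (nat_lit 208)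 (nat_lit 160)) (XT.lf (nat_lit 0) (nat_lit 9095509119) (nat_lit 152) (nat_lit 365984353168) (nat_lit 0) (nat_lit 4008627941) (nat_lit 1) (nat_lit 5) (nat_lit 3) (nat_lit 4) (nat_lit 1) (nat_lit 4) (nat_lit 353) (nat_lit 208) (nat_lit 159))) (XT.nd (nat_lit 78) (nat_lit 0) (nat_lit 0) (XT.lf (nat_lit 0) (nat_lit 10372787468) (nat_lit 152) (nat_lit 382351097277) (nat_lit 0) (nat_lit 5261490979) (nat_lit 1) (nat_lit 5) (nat_lit 3) (nat_lit 4) (nat_lit 1) (nat_lit 4) (nat_lit 354) (nat_lit 208) (nat_lit 158)) (XT.lf (nat_lit 0) (nat_lit 11705967897) (nat_lit 152) (nat_lit 399550134398) (nat_lit 0) (nat_lit 6571418731) (nat_lit 1) (nat_lit 5) (nat_lit 3) (nat_lit 4) (nat_lit 1) (nat_lit 4) (nat_lit 355) (nat_lit 208) (nat_lit 157)))) (XT.nd (nat_lit 156) (nat_lit 0) (nat_lit 0) (XT.nd (nat_lit 78) (nat_lit 0) (nat_lit 0) (XT.lf (nat_lit 0) (nat_lit 13098224645) (nat_lit 152) (nat_lit 417622414620)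 (nat_lit 0) (nat_lit 7941530071) (nat_lit 1) (nat_lit 5) (nat_lit 3) (nat_lit 4) (nat_lit 1) (nat_lit 4) (nat_lit 356) (nat_lit 208) (nat_lit 156)) (XT.lf (nat_lit 0) (nat_lit 14552872609) (nat_lit 152) (nat_lit 436610967182) (nat_lit 0) (nat_lit 9375087171) (nat_lit 1) (nat_lit 5) (nat_lit 3) (nat_lit 4) (nat_lit 1) (nat_lit 4) (nat_lit 357) (nat_lit 208) (nat_lit 155))) (XT.nd (nat_lit 78) (nat_lit 0) (nat_lit 0) (XT.lf (nat_lit 0) (nat_lit 16073375236) (nat_lit 152) (nat_lit 456561002923) (nat_lit 0) (nat_lit 10875503261) (nat_lit 1) (nat_lit 5) (nat_lit 3) (nat_lit 4) (nat_lit 1) (nat_lit 4) (nat_lit 358) (nat_lit 208) (nat_lit 154)) (XT.lf (nat_lit 0) (nat_lit 17663352771) (nat_lit 152) (nat_lit 477520021928) (nat_lit 0) (nat_lit 12446350761) (nat_lit 1) (nat_lit 5) (nat_lit 3) (nat_lit 4) (nat_lit 1) (nat_lit 4) (nat_lit 359) (nat_lit 208) (nat_lit 153))))) (XT.nd (nat_lit 312)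 (nat_lit 0) (nat_lit 0) (XT.nd (nat_lit 156) (nat_lit 0) (nat_lit 0) (XT.nd (nat_lit 78) (nat_lit 0) (nat_lit 0) (XT.lf (nat_lit 0) (nat_lit 1440726117) (nat_lit 152) (nat_lit 13780658852) (nat_lit 0) (nat_lit 1440726117) (nat_lit 4) (nat_lit 5) (nat_lit 6) (nat_lit 4) (nat_lit 4) (nat_lit 4) (nat_lit 302) (nat_lit 209) (nat_lit 209)) (XT.lf (nat_lit 0) (nat_lit 5381104970) (nat_lit 152) (nat_lit 24382321266) (nat_lit 0) (nat_lit 5087125827) (nat_lit 4) (nat_lit 5) (nat_lit 6) (nat_lit 4) (nat_lit 4) (nat_lit 4) (nat_lit 303) (nat_lit 209) (nat_lit 208))) (XT.nd (nat_lit 78) (nat_lit 0) (nat_lit 0) (XT.lf (nat_lit 0) (nat_lit 7921842809) (nat_lit 152) (nat_lit 21187876969) (nat_lit 0) (nat_lit 7347883531) (nat_lit 4) (nat_lit 5) (nat_lit 6) (nat_lit 4) (nat_lit 4) (nat_lit 4) (nat_lit 304) (nat_lit 209) (nat_lit 207)) (XT.lf (nat_lit 0) (nat_lit 10509715129) (nat_lit 152) (nat_lit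 17970378992) (nat_lit 0) (nat_lit 9669108102) (nat_lit 4) (nat_lit 5) (nat_lit 6) (nat_lit 4) (nat_lit 4) (nat_lit 4) (nat_lit 305) (nat_lit 209) (nat_lit 206)))) (XT.nd (nat_lit 156) (nat_lit 0) (nat_lit 0) (XT.nd (nat_lit 78) (nat_lit 0) (nat_lit 0) (XT.lf (nat_lit 0) (nat_lit 13150883530) (nat_lit 152) (nat_lit 14722166628) (nat_lit 0) (nat_lit 12056326267) (nat_lit 4) (nat_lit 5) (nat_lit 6) (nat_lit 4) (nat_lit 4) (nat_lit 4) (nat_lit 306) (nat_lit 209) (nat_lit 205)) (XT.lf (nat_lit 0) (nat_lit 15851636508) (nat_lit 152) (nat_lit 11435506035) (nat_lit 0) (nat_lit 14515221876) (nat_lit 4) (nat_lit 5) (nat_lit 6) (nat_lit 4) (nat_lit 4) (nat_lit 4) (nat_lit 307) (nat_lit 209) (nat_lit 204))) (XT.nd (nat_lit 78) (nat_lit 0) (nat_lit 0) (XT.lf (nat_lit 0) (nat_lit 18618404427) (nat_lit 152) (nat_lit 8102571833) (nat_lit 0) (nat_lit 17051649445) (nat_lit 4) (nat_lit 5) (nat_lit 6)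 (nat_lit 4) (nat_lit 4) (nat_lit 4) (nat_lit 308) (nat_lit 209) (nat_lit 203)) (XT.lf (nat_lit 0) (nat_lit 21457774831) (nat_lit 152) (nat_lit 4715428463) (nat_lit 0) (nat_lit 19671648086) (nat_lit 4) (nat_lit 5) (nat_lit 6) (nat_lit 4) (nat_lit 4) (nat_lit 4) (nat_lit 309) (nat_lit 209) (nat_lit 202))))))))
noncomputable def xc21 : XT := (XT.nd (nat_lit 1248) (nat_lit 0) (nat_lit 0) (XT.nd (nat_lit 624) (nat_lit 0) (nat_lit 0) (XT.nd (nat_lit 312) (nat_lit 0) (nat_lit 0) (XT.nd (nat_lit 156) (nat_lit 0) (nat_lit 0) (XT.nd (nat_lit 78) (nat_lit 76) (nat_lit 0) (XT.lf (nat_lit 0) (nat_lit 24376508124) (nat_lit 152) (nat_lit 1266011299) (nat_lit 0) (nat_lit 22381455891) (nat_lit 4) (nat_lit 5) (nat_lit 6) (nat_lit 4) (nat_lit 4) (nat_lit 4) (nat_lit 310) (nat_lit 209) (nat_lit 201)) (XT.lf (nat_lit 0) (nat_lit 2328416424) (nat_lit 76) (nat_lit 25089490353) (nat_lit 76) (nat_lit 22895461465)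 (nat_lit 3) (nat_lit 4) (nat_lit 4) (nat_lit 5) (nat_lit 4) (nat_lit 4) (nat_lit 311) (nat_lit 209) (nat_lit 200))) (XT.nd (nat_lit 78) (nat_lit 0) (nat_lit 0) (XT.lf (nat_lit 0) (nat_lit 6046179328) (nat_lit 76) (nat_lit 24528284820) (nat_lit 76) (nat_lit 22144754356) (nat_lit 3) (nat_lit 4) (nat_lit 4) (nat_lit 5) (nat_lit 4) (nat_lit 4) (nat_lit 312) (nat_lit 209) (nat_lit 199)) (XT.lf (nat_lit 0) (nat_lit 9854269177) (nat_lit 76) (nat_lit 23979007135) (nat_lit 76) (nat_lit 21414998979) (nat_lit 3) (nat_lit 4) (nat_lit 4) (nat_lit 5) (nat_lit 4) (nat_lit 4) (nat_lit 313) (nat_lit 209) (nat_lit 198)))) (XT.nd (nat_lit 156) (nat_lit 0) (nat_lit 0) (XT.nd (nat_lit 78) (nat_lit 0) (nat_lit 0) (XT.lf (nat_lit 0) (nat_lit 13761752852) (nat_lit 76) (nat_lit 23440349493) (nat_lit 76) (nat_lit 20704457821) (nat_lit 3) (nat_lit 4) (nat_lit 4) (nat_lit 5) (nat_lit 4) (nat_lit 4) (nat_lit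 314) (nat_lit 209) (nat_lit 197)) (XT.lf (nat_lit 0) (nat_lit 17777933886) (nat_lit 76) (nat_lit 22911029377) (nat_lit 76) (nat_lit 20011439118) (nat_lit 3) (nat_lit 4) (nat_lit 4) (nat_lit 5) (nat_lit 4) (nat_lit 4) (nat_lit 315) (nat_lit 209) (nat_lit 196))) (XT.nd (nat_lit 78) (nat_lit 0) (nat_lit 0) (XT.lf (nat_lit 0) (nat_lit 21912374614) (nat_lit 76) (nat_lit 22389786500) (nat_lit 76) (nat_lit 19334292825) (nat_lit 3) (nat_lit 4) (nat_lit 4) (nat_lit 5) (nat_lit 4) (nat_lit 4) (nat_lit 316) (nat_lit 209) (nat_lit 195)) (XT.lf (nat_lit 0) (nat_lit 26174918943) (nat_lit 76) (nat_lit 21875379808) (nat_lit 76) (nat_lit 18671406689) (nat_lit 3) (nat_lit 4) (nat_lit 4) (nat_lit 5) (nat_lit 4) (nat_lit 4) (nat_lit 317) (nat_lit 209) (nat_lit 194))))) (XT.nd (nat_lit 312) (nat_lit 0) (nat_lit 0) (XT.nd (nat_lit 156) (nat_lit 0) (nat_lit 0) (XT.nd (nat_lit 78) (nat_lit 0) (nat_lit 0)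 (XT.lf (nat_lit 0) (nat_lit 30575715788) (nat_lit 76) (nat_lit 21366584523) (nat_lit 76) (nat_lit 18021202410) (nat_lit 3) (nat_lit 4) (nat_lit 4) (nat_lit 5) (nat_lit 4) (nat_lit 4) (nat_lit 318) (nat_lit 209) (nat_lit 193)) (XT.lf (nat_lit 0) (nat_lit 35125243237) (nat_lit 76) (nat_lit 20862189227) (nat_lit 76) (nat_lit 17382131882) (nat_lit 3) (nat_lit 4) (nat_lit 4) (nat_lit 5) (nat_lit 4) (nat_lit 4) (nat_lit 319) (nat_lit 209) (nat_lit 192))) (XT.nd (nat_lit 78) (nat_lit 0) (nat_lit 0) (XT.lf (nat_lit 0) (nat_lit 39834333498) (nat_lit 76) (nat_lit 20360992980) (nat_lit 76) (nat_lit 16752673509) (nat_lit 3) (nat_lit 4) (nat_lit 4) (nat_lit 5) (nat_lit 4) (nat_lit 4) (nat_lit 320) (nat_lit 209) (nat_lit 191)) (XT.lf (nat_lit 0) (nat_lit 44714198690) (nat_lit 76) (nat_lit 19861802458) (nat_lit 76) (nat_lit 16131328581) (nat_lit 3) (nat_lit 4) (nat_lit 4) (nat_lit 5) (nat_lit 4)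 (nat_lit 4) (nat_lit 321) (nat_lit 209) (nat_lit 190)))) (XT.nd (nat_lit 156) (nat_lit 0) (nat_lit 0) (XT.nd (nat_lit 78) (nat_lit 0) (nat_lit 0) (XT.lf (nat_lit 0) (nat_lit 49776457541) (nat_lit 76) (nat_lit 19363429110) (nat_lit 76) (nat_lit 15516617704) (nat_lit 3) (nat_lit 4) (nat_lit 4) (nat_lit 5) (nat_lit 4) (nat_lit 4) (nat_lit 322) (nat_lit 209) (nat_lit 189)) (XT.lf (nat_lit 0) (nat_lit 55033163047) (nat_lit 76) (nat_lit 18864686335) (nat_lit 76) (nat_lit 14907077281) (nat_lit 3) (nat_lit 4) (nat_lit 4) (nat_lit 5) (nat_lit 4) (nat_lit 4) (nat_lit 323) (nat_lit 209) (nat_lit 188))) (XT.nd (nat_lit 78) (nat_lit 0) (nat_lit 0) (XT.lf (nat_lit 0) (nat_lit 60496831174) (nat_lit 76) (nat_lit 18364386648) (nat_lit 76) (nat_lit 14301256026) (nat_lit 3) (nat_lit 4) (nat_lit 4) (nat_lit 5) (nat_lit 4) (nat_lit 4) (nat_lit 324) (nat_lit 209) (nat_lit 187)) (XT.lf (nat_lit 0) (nat_lit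 66180470655) (nat_lit 76) (nat_lit 17861338862) (nat_lit 76) (nat_lit 13697711508) (nat_lit 3) (nat_lit 4) (nat_lit 4) (nat_lit 5) (nat_lit 4) (nat_lit 4) (nat_lit 325) (nat_lit 209) (nat_lit 186)))))) (XT.nd (nat_lit 624) (nat_lit 0) (nat_lit 0) (XT.nd (nat_lit 312) (nat_lit 0) (nat_lit 0) (XT.nd (nat_lit 156) (nat_lit 0) (nat_lit 0) (XT.nd (nat_lit 78) (nat_lit 0) (nat_lit 0) (XT.lf (nat_lit 0) (nat_lit 72097613966) (nat_lit 76) (nat_lit 17354345241) (nat_lit 76) (nat_lit 13095006714) (nat_lit 3) (nat_lit 4) (nat_lit 4) (nat_lit 5) (nat_lit 4) (nat_lit 4) (nat_lit 326) (nat_lit 209) (nat_lit 185)) (XT.lf (nat_lit 0) (nat_lit 78262349543) (nat_lit 76) (nat_lit 16842198660) (nat_lit 76) (nat_lit 12491706635) (nat_lit 3) (nat_lit 4) (nat_lit 4) (nat_lit 5) (nat_lit 4) (nat_lit 4) (nat_lit 327) (nat_lit 209) (nat_lit 184))) (XT.nd (nat_lit 78) (nat_lit 0) (nat_lit 0) (XT.lf (nat_lit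 0) (nat_lit 84689355328) (nat_lit 76) (nat_lit 16323679722) (nat_lit 76) (nat_lit 11886374840) (nat_lit 3) (nat_lit 4) (nat_lit 4) (nat_lit 5) (nat_lit 4) (nat_lit 4) (nat_lit 328) (nat_lit 209) (nat_lit 183)) (XT.lf (nat_lit 0) (nat_lit 91393933716) (nat_lit 76) (nat_lit 15797553857) (nat_lit 76) (nat_lit 11277570065) (nat_lit 3) (nat_lit 4) (nat_lit 4) (nat_lit 5) (nat_lit 4) (nat_lit 4) (nat_lit 329) (nat_lit 209) (nat_lit 182)))) (XT.nd (nat_lit 156) (nat_lit 0) (nat_lit 0) (XT.nd (nat_lit 78) (nat_lit 0) (nat_lit 0) (XT.lf (nat_lit 0) (nat_lit 98392047988) (nat_lit 76) (nat_lit 15262568384) (nat_lit 76) (nat_lit 10663842774) (nat_lit 3) (nat_lit 4) (nat_lit 4) (nat_lit 5) (nat_lit 4) (nat_lit 4) (nat_lit 330) (nat_lit 209) (nat_lit 181)) (XT.lf (nat_lit 0) (nat_lit 105700360321) (nat_lit 76) (nat_lit 14717449530) (nat_lit 76) (nat_lit 10043731711) (nat_lit 3) (nat_lit 4) (nat_lit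 4) (nat_lit 5) (nat_lit 4) (nat_lit 4) (nat_lit 331) (nat_lit 209) (nat_lit 180))) (XT.nd (nat_lit 78) (nat_lit 0) (nat_lit 0) (XT.lf (nat_lit 0) (nat_lit 113336271460) (nat_lit 76) (nat_lit 14160899392) (nat_lit 76) (nat_lit 9415760421) (nat_lit 3) (nat_lit 4) (nat_lit 4) (nat_lit 5) (nat_lit 4) (nat_lit 4) (nat_lit 332) (nat_lit 209) (nat_lit 179)) (XT.lf (nat_lit 0) (nat_lit 121317962144) (nat_lit 76) (nat_lit 13591592850) (nat_lit 76) (nat_lit 8778433735) (nat_lit 3) (nat_lit 4) (nat_lit 4) (nat_lit 5) (nat_lit 4) (nat_lit 4) (nat_lit 333) (nat_lit 209) (nat_lit 178))))) (XT.nd (nat_lit 312) (nat_lit 0) (nat_lit 0) (XT.nd (nat_lit 156) (nat_lit 0) (nat_lit 0) (XT.nd (nat_lit 78) (nat_lit 0) (nat_lit 0) (XT.lf (nat_lit 0) (nat_lit 129664436399) (nat_lit 76) (nat_lit 13008174413) (nat_lit 76) (nat_lit 8130234209) (nat_lit 3) (nat_lit 4) (nat_lit 4) (nat_lit 5) (nat_lit 4) (nat_lit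 4) (nat_lit 334) (nat_lit 209) (nat_lit 177)) (XT.lf (nat_lit 0) (nat_lit 138395566783) (nat_lit 76) (nat_lit 12409254989) (nat_lit 76) (nat_lit 7469618509) (nat_lit 3) (nat_lit 4) (nat_lit 4) (nat_lit 5) (nat_lit 4) (nat_lit 4) (nat_lit 335) (nat_lit 209) (nat_lit 176))) (XT.nd (nat_lit 78) (nat_lit 0) (nat_lit 0) (XT.lf (nat_lit 0) (nat_lit 147532141702) (nat_lit 76) (nat_lit 11793408580) (nat_lit 76) (nat_lit 6795013742) (nat_lit 3) (nat_lit 4) (nat_lit 4) (nat_lit 5) (nat_lit 4) (nat_lit 4) (nat_lit 336) (nat_lit 209) (nat_lit 175)) (XT.lf (nat_lit 0) (nat_lit 157095914906) (nat_lit 76) (nat_lit 11159168884) (nat_lit 76) (nat_lit 6104813706) (nat_lit 3) (nat_lit 4) (nat_lit 4) (nat_lit 5) (nat_lit 4) (nat_lit 4) (nat_lit 337) (nat_lit 209) (nat_lit 174)))) (XT.nd (nat_lit 156) (nat_lit 0) (nat_lit 0) (XT.nd (nat_lit 78) (nat_lit 0) (nat_lit 0) (XT.lf (nat_lit 0) (nat_lit 167109657282)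 (nat_lit 76) (nat_lit 10505025807) (nat_lit 76) (nat_lit 5397375066) (nat_lit 3) (nat_lit 4) (nat_lit 4) (nat_lit 5) (nat_lit 4) (nat_lit 4) (nat_lit 338) (nat_lit 209) (nat_lit 173)) (XT.lf (nat_lit 0) (nat_lit 177597211075) (nat_lit 76) (nat_lit 9829421866) (nat_lit 76) (nat_lit 4671013447) (nat_lit 3) (nat_lit 4) (nat_lit 4) (nat_lit 5) (nat_lit 4) (nat_lit 4) (nat_lit 339) (nat_lit 209) (nat_lit 172))) (XT.nd (nat_lit 78) (nat_lit 0) (nat_lit 0) (XT.lf (nat_lit 0) (nat_lit 188583546651) (nat_lit 76) (nat_lit 9130748480) (nat_lit 76) (nat_lit 3923999414) (nat_lit 3) (nat_lit 4) (nat_lit 4) (nat_lit 5) (nat_lit 4) (nat_lit 4) (nat_lit 340) (nat_lit 209) (nat_lit 171)) (XT.lf (nat_lit 0) (nat_lit 200094821952) (nat_lit 76) (nat_lit 8407342141) (nat_lit 76) (nat_lit 3154554364) (nat_lit 3) (nat_lit 4) (nat_lit 4) (nat_lit 5) (nat_lit 4) (nat_lit 4) (nat_lit 341) (nat_lit 209) (nat_lit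 170)))))))
noncomputable def xc22 : XT := (XT.nd (nat_lit 1248) (nat_lit 0) (nat_lit 0) (XT.nd (nat_lit 624) (nat_lit 0) (nat_lit 0) (XT.nd (nat_lit 312) (nat_lit 76) (nat_lit 0) (XT.nd (nat_lit 156) (nat_lit 76) (nat_lit 0) (XT.nd (nat_lit 78) (nat_lit 0) (nat_lit 0) (XT.lf (nat_lit 0) (nat_lit 212158444776) (nat_lit 76) (nat_lit 7657480452) (nat_lit 76) (nat_lit 2360846284) (nat_lit 3) (nat_lit 4) (nat_lit 4) (nat_lit 5) (nat_lit 4) (nat_lit 4) (nat_lit 342) (nat_lit 209) (nat_lit 169)) (XT.lf (nat_lit 0) (nat_lit 224803138035) (nat_lit 76) (nat_lit 6879378029) (nat_lit 76) (nat_lit 1540985393) (nat_lit 3) (nat_lit 4) (nat_lit 4) (nat_lit 5) (nat_lit 4) (nat_lit 4) (nat_lit 343) (nat_lit 209) (nat_lit 168))) (XT.nd (nat_lit 78) (nat_lit 76) (nat_lit 0) (XT.lf (nat_lit 0) (nat_lit 238059008140) (nat_lit 76) (nat_lit 6071182247) (nat_lit 76) (nat_lit 693019642) (nat_lit 3) (nat_lit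 4) (nat_lit 4) (nat_lit 5) (nat_lit 4) (nat_lit 4) (nat_lit 344) (nat_lit 209) (nat_lit 167)) (XT.lf (nat_lit 0) (nat_lit 179146542) (nat_lit 152) (nat_lit 5048788355) (nat_lit 76) (nat_lit 251775436213) (nat_lit 2) (nat_lit 5) (nat_lit 4) (nat_lit 5) (nat_lit 3) (nat_lit 4) (nat_lit 345) (nat_lit 209) (nat_lit 166)))) (XT.nd (nat_lit 156) (nat_lit 76) (nat_lit 0) (XT.nd (nat_lit 78) (nat_lit 0) (nat_lit 0) (XT.lf (nat_lit 0) (nat_lit 1060315220) (nat_lit 152) (nat_lit 3278465099) (nat_lit 76) (nat_lit 265453783433) (nat_lit 2) (nat_lit 5) (nat_lit 4) (nat_lit 5) (nat_lit 3) (nat_lit 4) (nat_lit 346) (nat_lit 209) (nat_lit 165)) (XT.lf (nat_lit 0) (nat_lit 1974765370) (nat_lit 152) (nat_lit 1438197087) (nat_lit 76) (nat_lit 279808816956) (nat_lit 2) (nat_lit 5) (nat_lit 4) (nat_lit 5) (nat_lit 3) (nat_lit 4) (nat_lit 347) (nat_lit 209) (nat_lit 164))) (XT.nd (nat_lit 78) (nat_lit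 0) (nat_lit 0) (XT.lf (nat_lit 0) (nat_lit 492149115) (nat_lit 76) (nat_lit 2440208964) (nat_lit 152) (nat_lit 294390250146) (nat_lit 1) (nat_lit 5) (nat_lit 2) (nat_lit 5) (nat_lit 3) (nat_lit 4) (nat_lit 348) (nat_lit 209) (nat_lit 163)) (XT.lf (nat_lit 0) (nat_lit 2551541804) (nat_lit 76) (nat_lit 1400598470) (nat_lit 152) (nat_lit 308175644969) (nat_lit 1) (nat_lit 5) (nat_lit 2) (nat_lit 5) (nat_lit 3) (nat_lit 4) (nat_lit 349) (nat_lit 209) (nat_lit 162))))) (XT.nd (nat_lit 312) (nat_lit 0) (nat_lit 0) (XT.nd (nat_lit 156) (nat_lit 0) (nat_lit 0) (XT.nd (nat_lit 78) (nat_lit 0) (nat_lit 0) (XT.lf (nat_lit 0) (nat_lit 4697331004) (nat_lit 76) (nat_lit 316012277) (nat_lit 152) (nat_lit 322660377445) (nat_lit 1) (nat_lit 5) (nat_lit 2) (nat_lit 5) (nat_lit 3) (nat_lit 4) (nat_lit 350) (nat_lit 209) (nat_lit 161)) (XT.lf (nat_lit 0) (nat_lit 6131235881) (nat_lit 152) (nat_lit 337075545174)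 (nat_lit 0) (nat_lit 790010644) (nat_lit 1) (nat_lit 5) (nat_lit 3) (nat_lit 4) (nat_lit 1) (nat_lit 4) (nat_lit 351) (nat_lit 209) (nat_lit 160))) (XT.nd (nat_lit 78) (nat_lit 0) (nat_lit 0) (XT.lf (nat_lit 0) (nat_lit 7301425712) (nat_lit 152) (nat_lit 351900225205) (nat_lit 0) (nat_lit 1934564399) (nat_lit 1) (nat_lit 5) (nat_lit 3) (nat_lit 4) (nat_lit 1) (nat_lit 4) (nat_lit 352) (nat_lit 209) (nat_lit 159)) (XT.lf (nat_lit 0) (nat_lit 8521765106) (nat_lit 152) (nat_lit 367480792835) (nat_lit 0) (nat_lit 3130488482) (nat_lit 1) (nat_lit 5) (nat_lit 3) (nat_lit 4) (nat_lit 1) (nat_lit 4) (nat_lit 353) (nat_lit 209) (nat_lit 158)))) (XT.nd (nat_lit 156) (nat_lit 0) (nat_lit 0) (XT.nd (nat_lit 78) (nat_lit 0) (nat_lit 0) (XT.lf (nat_lit 0) (nat_lit 9795159632) (nat_lit 152) (nat_lit 383854344654) (nat_lit 0) (nat_lit 4380630330) (nat_lit 1) (nat_lit 5) (nat_lit 3) (nat_lit 4) (nat_lit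 1) (nat_lit 4) (nat_lit 354) (nat_lit 209) (nat_lit 157)) (XT.lf (nat_lit 0) (nat_lit 11124641182) (nat_lit 152) (nat_lit 401059865309) (nat_lit 0) (nat_lit 5687966473) (nat_lit 1) (nat_lit 5) (nat_lit 3) (nat_lit 4) (nat_lit 1) (nat_lit 4) (nat_lit 355) (nat_lit 209) (nat_lit 156))) (XT.nd (nat_lit 78) (nat_lit 0) (nat_lit 0) (XT.lf (nat_lit 0) (nat_lit 12513375188) (nat_lit 152) (nat_lit 419138320326) (nat_lit 0) (nat_lit 7055609614) (nat_lit 1) (nat_lit 5) (nat_lit 3) (nat_lit 4) (nat_lit 1) (nat_lit 4) (nat_lit 356) (nat_lit 209) (nat_lit 155)) (XT.lf (nat_lit 0) (nat_lit 13964668159) (nat_lit 152) (nat_lit 438132753644) (nat_lit 0) (nat_lit 8486816048) (nat_lit 1) (nat_lit 5) (nat_lit 3) (nat_lit 4) (nat_lit 1) (nat_lit 4) (nat_lit 357) (nat_lit 209) (nat_lit 154)))))) (XT.nd (nat_lit 33462) (nat_lit 0) (nat_lit 152) (XT.nd (nat_lit 33150) (nat_lit 0) (nat_lit 228) (XT.nd (nat_lit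 32994) (nat_lit 0) (nat_lit 228) (XT.nd (nat_lit 78) (nat_lit 0) (nat_lit 0) (XT.lf (nat_lit 0) (nat_lit 15481975555) (nat_lit 152) (nat_lit 458088390106) (nat_lit 0) (nat_lit 9984993409) (nat_lit 1) (nat_lit 5) (nat_lit 3) (nat_lit 4) (nat_lit 1) (nat_lit 4) (nat_lit 358) (nat_lit 209) (nat_lit 153)) (XT.lf (nat_lit 0) (nat_lit 17068910013) (nat_lit 152) (nat_lit 479052743131) (nat_lit 0) (nat_lit 11553708786) (nat_lit 1) (nat_lit 5) (nat_lit 3) (nat_lit 4) (nat_lit 1) (nat_lit 4) (nat_lit 359) (nat_lit 209) (nat_lit 152))) (XT.nd (nat_lit 78) (nat_lit 152) (nat_lit 0) (XT.lf (nat_lit 0) (nat_lit 13608206736) (nat_lit 76) (nat_lit 818837379) (nat_lit 76) (nat_lit 818837379) (nat_lit 6) (nat_lit 4) (nat_lit 7) (nat_lit 5) (nat_lit 7) (nat_lit 4) (nat_lit 300) (nat_lit 210) (nat_lit 210)) (XT.lf (nat_lit 0) (nat_lit 725611149) (nat_lit 152) (nat_lit 30732435321) (nat_lit 0) (nat_lit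 416933049) (nat_lit 4) (nat_lit 5) (nat_lit 6) (nat_lit 4) (nat_lit 4) (nat_lit 4) (nat_lit 301) (nat_lit 210) (nat_lit 209)))) (XT.nd (nat_lit 156) (nat_lit 0) (nat_lit 0) (XT.nd (nat_lit 78) (nat_lit 0) (nat_lit 0) (XT.lf (nat_lit 0) (nat_lit 3147158427) (nat_lit 152) (nat_lit 27634818709) (nat_lit 0) (nat_lit 2544501185) (nat_lit 4) (nat_lit 5) (nat_lit 6) (nat_lit 4) (nat_lit 4) (nat_lit 4) (nat_lit 302) (nat_lit 210) (nat_lit 208)) (XT.lf (nat_lit 0) (nat_lit 5605885537) (nat_lit 152) (nat_lit 24525823228) (nat_lit 0) (nat_lit 4723248159) (nat_lit 4) (nat_lit 5) (nat_lit 6) (nat_lit 4) (nat_lit 4) (nat_lit 4) (nat_lit 303) (nat_lit 210) (nat_lit 207))) (XT.nd (nat_lit 78) (nat_lit 0) (nat_lit 0) (XT.lf (nat_lit 0) (nat_lit 8107646590) (nat_lit 152) (nat_lit 21398046510) (nat_lit 0) (nat_lit 6958361464) (nat_lit 4) (nat_lit 5) (nat_lit 6) (nat_lit 4) (nat_lit 4) (nat_lit 4) (nat_lit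 304) (nat_lit 210) (nat_lit 206)) (XT.lf (nat_lit 0) (nat_lit 10658398161) (nat_lit 152) (nat_lit 18244041465) (nat_lit 0) (nat_lit 9255162798) (nat_lit 4) (nat_lit 5) (nat_lit 6) (nat_lit 4) (nat_lit 4) (nat_lit 4) (nat_lit 305) (nat_lit 210) (nat_lit 205))))) (XT.nd (nat_lit 312) (nat_lit 76) (nat_lit 0) (XT.nd (nat_lit 156) (nat_lit 0) (nat_lit 0) (XT.nd (nat_lit 78) (nat_lit 0) (nat_lit 0) (XT.lf (nat_lit 0) (nat_lit 13264213468) (nat_lit 152) (nat_lit 15056298559) (nat_lit 0) (nat_lit 11619120737) (nat_lit 4) (nat_lit 5) (nat_lit 6) (nat_lit 4) (nat_lit 4) (nat_lit 4) (nat_lit 306) (nat_lit 210) (nat_lit 204)) (XT.lf (nat_lit 0) (nat_lit 15931296833) (nat_lit 152) (nat_lit 11827227928) (nat_lit 0) (nat_lit 14055863751) (nat_lit 4) (nat_lit 5) (nat_lit 6) (nat_lit 4) (nat_lit 4) (nat_lit 4) (nat_lit 307) (nat_lit 210) (nat_lit 203))) (XT.nd (nat_lit 78) (nat_lit 0) (nat_lit 0)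 (XT.lf (nat_lit 0) (nat_lit 18665998453) (nat_lit 152) (nat_lit 8549141307) (nat_lit 0) (nat_lit 16571193609) (nat_lit 4) (nat_lit 5) (nat_lit 6) (nat_lit 4) (nat_lit 4) (nat_lit 4) (nat_lit 308) (nat_lit 210) (nat_lit 202)) (XT.lf (nat_lit 0) (nat_lit 21474829525) (nat_lit 152) (nat_lit 5214233730) (nat_lit 0) (nat_lit 19171099193) (nat_lit 4) (nat_lit 5) (nat_lit 6) (nat_lit 4) (nat_lit 4) (nat_lit 4) (nat_lit 309) (nat_lit 210) (nat_lit 201)))) (XT.nd (nat_lit 156) (nat_lit 0) (nat_lit 0) (XT.nd (nat_lit 78) (nat_lit 76) (nat_lit 0) (XT.lf (nat_lit 0) (nat_lit 24364477740) (nat_lit 152) (nat_lit 1814564939) (nat_lit 0) (nat_lit 21861770753) (nat_lit 4) (nat_lit 5) (nat_lit 6) (nat_lit 4) (nat_lit 4) (nat_lit 4) (nat_lit 310) (nat_lit 210) (nat_lit 200)) (XT.lf (nat_lit 0) (nat_lit 1712779143) (nat_lit 76) (nat_lit 25655785353) (nat_lit 76) (nat_lit 22963576789) (nat_lit 3) (nat_lit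 4) (nat_lit 4) (nat_lit 5) (nat_lit 4) (nat_lit 4) (nat_lit 311) (nat_lit 210) (nat_lit 199))) (XT.nd (nat_lit 78) (nat_lit 0) (nat_lit 0) (XT.lf (nat_lit 0) (nat_lit 5383926827) (nat_lit 76) (nat_lit 25114086222) (nat_lit 76) (nat_lit 22241399966) (nat_lit 3) (nat_lit 4) (nat_lit 4) (nat_lit 5) (nat_lit 4) (nat_lit 4) (nat_lit 312) (nat_lit 210) (nat_lit 198)) (XT.nd (nat_lit 78) (nat_lit 0) (nat_lit 0) (XT.lf (nat_lit 0) (nat_lit 9147621229) (nat_lit 76) (nat_lit 24583386063) (nat_lit 76) (nat_lit 21538816291) (nat_lit 3) (nat_lit 4) (nat_lit 4) (nat_lit 5) (nat_lit 4) (nat_lit 4) (nat_lit 313) (nat_lit 210) (nat_lit 197)) (XT.lf (nat_lit 0) (nat_lit 13012823527) (nat_lit 76) (nat_lit 24062421303) (nat_lit 76) (nat_lit 20854152944) (nat_lit 3) (nat_lit 4) (nat_lit 4) (nat_lit 5) (nat_lit 4) (nat_lit 4) (nat_lit 314) (nat_lit 210) (nat_lit 196))))))))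
noncomputable def xc23 : XT := (XT.nd (nat_lit 1248) (nat_lit 76) (nat_lit 0) (XT.nd (nat_lit 624) (nat_lit 0) (nat_lit 0) (XT.nd (nat_lit 312) (nat_lit 0) (nat_lit 0) (XT.nd (nat_lit 156) (nat_lit 0) (nat_lit 0) (XT.nd (nat_lit 78) (nat_lit 0) (nat_lit 0) (XT.lf (nat_lit 0) (nat_lit 16988736581) (nat_lit 76) (nat_lit 23549951550) (nat_lit 76) (nat_lit 20185779775) (nat_lit 3) (nat_lit 4) (nat_lit 4) (nat_lit 5) (nat_lit 4) (nat_lit 4) (nat_lit 315) (nat_lit 210) (nat_lit 195)) (XT.lf (nat_lit 0) (nat_lit 21084826853) (nat_lit 76) (nat_lit 23044756638) (nat_lit 76) (nat_lit 19532105420) (nat_lit 3) (nat_lit 4) (nat_lit 4) (nat_lit 5) (nat_lit 4) (nat_lit 4) (nat_lit 316) (nat_lit 210) (nat_lit 194))) (XT.nd (nat_lit 78) (nat_lit 0) (nat_lit 0) (XT.lf (nat_lit 0) (nat_lit 25310846938) (nat_lit 76) (nat_lit 22545633722) (nat_lit 76) (nat_lit 18891573510) (nat_lit 3) (nat_lit 4) (nat_lit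 4) (nat_lit 5) (nat_lit 4) (nat_lit 4) (nat_lit 317) (nat_lit 210) (nat_lit 193)) (XT.lf (nat_lit 0) (nat_lit 29676858789) (nat_lit 76) (nat_lit 22051394415) (nat_lit 76) (nat_lit 18262658970) (nat_lit 3) (nat_lit 4) (nat_lit 4) (nat_lit 5) (nat_lit 4) (nat_lit 4) (nat_lit 318) (nat_lit 210) (nat_lit 192)))) (XT.nd (nat_lit 156) (nat_lit 0) (nat_lit 0) (XT.nd (nat_lit 78) (nat_lit 0) (nat_lit 0) (XT.lf (nat_lit 0) (nat_lit 34193257672) (nat_lit 76) (nat_lit 21560861955) (nat_lit 76) (nat_lit 17643864384) (nat_lit 3) (nat_lit 4) (nat_lit 4) (nat_lit 5) (nat_lit 4) (nat_lit 4) (nat_lit 319) (nat_lit 210) (nat_lit 191)) (XT.lf (nat_lit 0) (nat_lit 38870796917) (nat_lit 76) (nat_lit 21072868409) (nat_lit 76) (nat_lit 17033716432) (nat_lit 3) (nat_lit 4) (nat_lit 4) (nat_lit 5) (nat_lit 4) (nat_lit 4) (nat_lit 320) (nat_lit 210) (nat_lit 190))) (XT.nd (nat_lit 78) (nat_lit 0) (nat_lit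 0) (XT.lf (nat_lit 0) (nat_lit 43720613523) (nat_lit 76) (nat_lit 20586251887) (nat_lit 76) (nat_lit 16430762380) (nat_lit 3) (nat_lit 4) (nat_lit 4) (nat_lit 5) (nat_lit 4) (nat_lit 4) (nat_lit 321) (nat_lit 210) (nat_lit 189)) (XT.lf (nat_lit 0) (nat_lit 48754254673) (nat_lit 76) (nat_lit 20099853778) (nat_lit 76) (nat_lit 15833566625) (nat_lit 3) (nat_lit 4) (nat_lit 4) (nat_lit 5) (nat_lit 4) (nat_lit 4) (nat_lit 322) (nat_lit 210) (nat_lit 188))))) (XT.nd (nat_lit 312) (nat_lit 0) (nat_lit 0) (XT.nd (nat_lit 156) (nat_lit 0) (nat_lit 0) (XT.nd (nat_lit 78) (nat_lit 0) (nat_lit 0) (XT.lf (nat_lit 0) (nat_lit 53983705225) (nat_lit 76) (nat_lit 19612515992) (nat_lit 76) (nat_lit 15240707270) (nat_lit 3) (nat_lit 4) (nat_lit 4) (nat_lit 5) (nat_lit 4) (nat_lit 4) (nat_lit 323) (nat_lit 210) (nat_lit 187)) (XT.lf (nat_lit 0) (nat_lit 59421416254) (nat_lit 76) (nat_lit 19123078200)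 (nat_lit 76) (nat_lit 14650772746) (nat_lit 3) (nat_lit 4) (nat_lit 4) (nat_lit 5) (nat_lit 4) (nat_lit 4) (nat_lit 324) (nat_lit 210) (nat_lit 186))) (XT.nd (nat_lit 78) (nat_lit 0) (nat_lit 0) (XT.lf (nat_lit 0) (nat_lit 65080334689) (nat_lit 76) (nat_lit 18630375075) (nat_lit 76) (nat_lit 14062358448) (nat_lit 3) (nat_lit 4) (nat_lit 4) (nat_lit 5) (nat_lit 4) (nat_lit 4) (nat_lit 325) (nat_lit 210) (nat_lit 185)) (XT.lf (nat_lit 0) (nat_lit 70973934147) (nat_lit 76) (nat_lit 18133233513) (nat_lit 76) (nat_lit 13474063388) (nat_lit 3) (nat_lit 4) (nat_lit 4) (nat_lit 5) (nat_lit 4) (nat_lit 4) (nat_lit 326) (nat_lit 210) (nat_lit 184)))) (XT.nd (nat_lit 156) (nat_lit 0) (nat_lit 0) (XT.nd (nat_lit 78) (nat_lit 0) (nat_lit 0) (XT.lf (nat_lit 0) (nat_lit 77116247007) (nat_lit 76) (nat_lit 17630469845) (nat_lit 76) (nat_lit 12884486864) (nat_lit 3) (nat_lit 4) (nat_lit 4) (nat_lit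 5) (nat_lit 4) (nat_lit 4) (nat_lit 327) (nat_lit 210) (nat_lit 183)) (XT.lf (nat_lit 0) (nat_lit 83521897822) (nat_lit 76) (nat_lit 17120887014) (nat_lit 76) (nat_lit 12292225123) (nat_lit 3) (nat_lit 4) (nat_lit 4) (nat_lit 5) (nat_lit 4) (nat_lit 4) (nat_lit 328) (nat_lit 210) (nat_lit 182))) (XT.nd (nat_lit 78) (nat_lit 0) (nat_lit 0) (XT.lf (nat_lit 0) (nat_lit 90206138144) (nat_lit 76) (nat_lit 16603271727) (nat_lit 76) (nat_lit 11695868017) (nat_lit 3) (nat_lit 4) (nat_lit 4) (nat_lit 5) (nat_lit 4) (nat_lit 4) (nat_lit 329) (nat_lit 210) (nat_lit 181)) (XT.lf (nat_lit 0) (nat_lit 97184882830) (nat_lit 76) (nat_lit 16076391568) (nat_lit 76) (nat_lit 11093995649) (nat_lit 3) (nat_lit 4) (nat_lit 4) (nat_lit 5) (nat_lit 4) (nat_lit 4) (nat_lit 330) (nat_lit 210) (nat_lit 180)))))) (XT.nd (nat_lit 624) (nat_lit 76) (nat_lit 0) (XT.nd (nat_lit 312) (nat_lit 0) (nat_lit 0) (XT.nd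 (nat_lit 156) (nat_lit 0) (nat_lit 0) (XT.nd (nat_lit 78) (nat_lit 0) (nat_lit 0) (XT.lf (nat_lit 0) (nat_lit 104474747938) (nat_lit 76) (nat_lit 15538992059) (nat_lit 76) (nat_lit 10485174989) (nat_lit 3) (nat_lit 4) (nat_lit 4) (nat_lit 5) (nat_lit 4) (nat_lit 4) (nat_lit 331) (nat_lit 210) (nat_lit 179)) (XT.lf (nat_lit 0) (nat_lit 112093090290) (nat_lit 76) (nat_lit 14989793679) (nat_lit 76) (nat_lit 9867956465) (nat_lit 3) (nat_lit 4) (nat_lit 4) (nat_lit 5) (nat_lit 4) (nat_lit 4) (nat_lit 332) (nat_lit 210) (nat_lit 178))) (XT.nd (nat_lit 78) (nat_lit 0) (nat_lit 0) (XT.lf (nat_lit 0) (nat_lit 120058048797) (nat_lit 76) (nat_lit 14427488811) (nat_lit 76) (nat_lit 9240870507) (nat_lit 3) (nat_lit 4) (nat_lit 4) (nat_lit 5) (nat_lit 4) (nat_lit 4) (nat_lit 333) (nat_lit 210) (nat_lit 177)) (XT.lf (nat_lit 0) (nat_lit 128388587646) (nat_lit 76) (nat_lit 13850738635) (nat_lit 76)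 (nat_lit 8602424055) (nat_lit 3) (nat_lit 4) (nat_lit 4) (nat_lit 5) (nat_lit 4) (nat_lit 4) (nat_lit 334) (nat_lit 210) (nat_lit 176)))) (XT.nd (nat_lit 156) (nat_lit 0) (nat_lit 0) (XT.nd (nat_lit 78) (nat_lit 0) (nat_lit 0) (XT.lf (nat_lit 0) (nat_lit 137104541452) (nat_lit 76) (nat_lit 13258169936) (nat_lit 76) (nat_lit 7951096999) (nat_lit 3) (nat_lit 4) (nat_lit 4) (nat_lit 5) (nat_lit 4) (nat_lit 4) (nat_lit 335) (nat_lit 210) (nat_lit 175)) (XT.lf (nat_lit 0) (nat_lit 146226662488) (nat_lit 76) (nat_lit 12648371836) (nat_lit 76) (nat_lit 7285338558) (nat_lit 3) (nat_lit 4) (nat_lit 4) (nat_lit 5) (nat_lit 4) (nat_lit 4) (nat_lit 336) (nat_lit 210) (nat_lit 174))) (XT.nd (nat_lit 78) (nat_lit 0) (nat_lit 0) (XT.lf (nat_lit 0) (nat_lit 155776670087) (nat_lit 76) (nat_lit 12019892435) (nat_lit 76) (nat_lit 6603563594) (nat_lit 3) (nat_lit 4) (nat_lit 4) (nat_lit 5) (nat_lit 4)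 (nat_lit 4) (nat_lit 337) (nat_lit 210) (nat_lit 173)) (XT.lf (nat_lit 0) (nat_lit 165777302365) (nat_lit 76) (nat_lit 11371235353) (nat_lit 76) (nat_lit 5904148834) (nat_lit 3) (nat_lit 4) (nat_lit 4) (nat_lit 5) (nat_lit 4) (nat_lit 4) (nat_lit 338) (nat_lit 210) (nat_lit 172))))) (XT.nd (nat_lit 312) (nat_lit 76) (nat_lit 0) (XT.nd (nat_lit 156) (nat_lit 0) (nat_lit 0) (XT.nd (nat_lit 78) (nat_lit 0) (nat_lit 0) (XT.lf (nat_lit 0) (nat_lit 176252370350) (nat_lit 76) (nat_lit 10700856169) (nat_lit 76) (nat_lit 5185429003) (nat_lit 3) (nat_lit 4) (nat_lit 4) (nat_lit 5) (nat_lit 4) (nat_lit 4) (nat_lit 339) (nat_lit 210) (nat_lit 171)) (XT.lf (nat_lit 0) (nat_lit 187226814680) (nat_lit 76) (nat_lit 10007158742) (nat_lit 76) (nat_lit 4445692866) (nat_lit 3) (nat_lit 4) (nat_lit 4) (nat_lit 5) (nat_lit 4) (nat_lit 4) (nat_lit 340) (nat_lit 210) (nat_lit 170))) (XT.nd (nat_lit 78) (nat_lit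 0) (nat_lit 0) (XT.lf (nat_lit 0) (nat_lit 198726764985) (nat_lit 76) (nat_lit 9288491411) (nat_lit 76) (nat_lit 3683179143) (nat_lit 3) (nat_lit 4) (nat_lit 4) (nat_lit 5) (nat_lit 4) (nat_lit 4) (nat_lit 341) (nat_lit 210) (nat_lit 169)) (XT.lf (nat_lit 0) (nat_lit 210779602099) (nat_lit 76) (nat_lit 8543143064) (nat_lit 76) (nat_lit 2896072328) (nat_lit 3) (nat_lit 4) (nat_lit 4) (nat_lit 5) (nat_lit 4) (nat_lit 4) (nat_lit 342) (nat_lit 210) (nat_lit 168)))) (XT.nd (nat_lit 156) (nat_lit 76) (nat_lit 0) (XT.nd (nat_lit 78) (nat_lit 0) (nat_lit 0) (XT.lf (nat_lit 0) (nat_lit 223414023252) (nat_lit 76) (nat_lit 7769339062) (nat_lit 76) (nat_lit 2082498357) (nat_lit 3) (nat_lit 4) (nat_lit 4) (nat_lit 5) (nat_lit 4) (nat_lit 4) (nat_lit 343) (nat_lit 210) (nat_lit 167)) (XT.lf (nat_lit 0) (nat_lit 236660110400) (nat_lit 76) (nat_lit 6965237013) (nat_lit 76) (nat_lit 1240520147) (nat_lit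 3) (nat_lit 4) (nat_lit 4) (nat_lit 5) (nat_lit 4) (nat_lit 4) (nat_lit 344) (nat_lit 210) (nat_lit 166))) (XT.nd (nat_lit 78) (nat_lit 76) (nat_lit 0) (XT.lf (nat_lit 0) (nat_lit 250549401846) (nat_lit 76) (nat_lit 6128922391) (nat_lit 76) (nat_lit 368132990) (nat_lit 3) (nat_lit 4) (nat_lit 4) (nat_lit 5) (nat_lit 4) (nat_lit 4) (nat_lit 345) (nat_lit 210) (nat_lit 165)) (XT.lf (nat_lit 0) (nat_lit 519561187) (nat_lit 152) (nat_lit 4730043760) (nat_lit 76) (nat_lit 264586607123) (nat_lit 2) (nat_lit 5) (nat_lit 4) (nat_lit 5) (nat_lit 3) (nat_lit 4) (nat_lit 346) (nat_lit 210) (nat_lit 164)))))))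
noncomputable def xc24 : XT := (XT.nd (nat_lit 33930) (nat_lit 0) (nat_lit 152) (XT.nd (nat_lit 624) (nat_lit 0) (nat_lit 0) (XT.nd (nat_lit 312) (nat_lit 0) (nat_lit 0) (XT.nd (nat_lit 156) (nat_lit 76) (nat_lit 0) (XT.nd (nat_lit 78) (nat_lit 0) (nat_lit 0) (XT.lf (nat_lit 0) (nat_lit 1429004618) (nat_lit 152) (nat_lit 2898403580) (nat_lit 76) (nat_lit 278938281271) (nat_lit 2) (nat_lit 5) (nat_lit 4) (nat_lit 5) (nat_lit 3) (nat_lit 4) (nat_lit 347) (nat_lit 210) (nat_lit 163)) (XT.lf (nat_lit 0) (nat_lit 2374145197) (nat_lit 152) (nat_lit 992026204) (nat_lit 76) (nat_lit 294000980344) (nat_lit 2) (nat_lit 5) (nat_lit 4) (nat_lit 5) (nat_lit 3) (nat_lit 4) (nat_lit 348) (nat_lit 210) (nat_lit 162))) (XT.nd (nat_lit 78) (nat_lit 0) (nat_lit 0) (XT.lf (nat_lit 0) (nat_lit 1026481167) (nat_lit 76) (nat_lit 2346778340) (nat_lit 152) (nat_lit 308800112991) (nat_lit 1) (nat_lit 5) (nat_lit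 2) (nat_lit 5) (nat_lit 3) (nat_lit 4) (nat_lit 349) (nat_lit 210) (nat_lit 161)) (XT.lf (nat_lit 0) (nat_lit 3164570890) (nat_lit 76) (nat_lit 1265446420) (nat_lit 152) (nat_lit 323289522777) (nat_lit 1) (nat_lit 5) (nat_lit 2) (nat_lit 5) (nat_lit 3) (nat_lit 4) (nat_lit 350) (nat_lit 210) (nat_lit 160)))) (XT.nd (nat_lit 156) (nat_lit 0) (nat_lit 0) (XT.nd (nat_lit 78) (nat_lit 0) (nat_lit 0) (XT.lf (nat_lit 0) (nat_lit 5394532789) (nat_lit 76) (nat_lit 136401487) (nat_lit 152) (nat_lit 338512534945) (nat_lit 1) (nat_lit 5) (nat_lit 2) (nat_lit 5) (nat_lit 3) (nat_lit 4) (nat_lit 351) (nat_lit 210) (nat_lit 159)) (XT.lf (nat_lit 0) (nat_lit 6694916485) (nat_lit 152) (nat_lit 353478634951) (nat_lit 0) (nat_lit 1009660717) (nat_lit 1) (nat_lit 5) (nat_lit 3) (nat_lit 4) (nat_lit 1) (nat_lit 4) (nat_lit 352) (nat_lit 210) (nat_lit 158))) (XT.nd (nat_lit 78) (nat_lit 0) (nat_lit 0)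 (XT.lf (nat_lit 0) (nat_lit 7911372055) (nat_lit 152) (nat_lit 369066010292) (nat_lit 0) (nat_lit 2202863611) (nat_lit 1) (nat_lit 5) (nat_lit 3) (nat_lit 4) (nat_lit 1) (nat_lit 4) (nat_lit 353) (nat_lit 210) (nat_lit 157)) (XT.lf (nat_lit 0) (nat_lit 9181067702) (nat_lit 152) (nat_lit 385446045645) (nat_lit 0) (nat_lit 3450413850) (nat_lit 1) (nat_lit 5) (nat_lit 3) (nat_lit 4) (nat_lit 1) (nat_lit 4) (nat_lit 354) (nat_lit 210) (nat_lit 156))))) (XT.nd (nat_lit 312) (nat_lit 0) (nat_lit 0) (XT.nd (nat_lit 156) (nat_lit 0) (nat_lit 0) (XT.nd (nat_lit 78) (nat_lit 0) (nat_lit 0) (XT.lf (nat_lit 0) (nat_lit 10507026509) (nat_lit 152) (nat_lit 402657741095) (nat_lit 0) (nat_lit 4755281794) (nat_lit 1) (nat_lit 5) (nat_lit 3) (nat_lit 4) (nat_lit 1) (nat_lit 4) (nat_lit 355) (nat_lit 210) (nat_lit 155)) (XT.lf (nat_lit 0) (nat_lit 11892405522) (nat_lit 152) (nat_lit 420742076868) (nat_lit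 0) (nat_lit 6120574270) (nat_lit 1) (nat_lit 5) (nat_lit 3) (nat_lit 4) (nat_lit 1) (nat_lit 4) (nat_lit 356) (nat_lit 210) (nat_lit 154))) (XT.nd (nat_lit 78) (nat_lit 0) (nat_lit 0) (XT.lf (nat_lit 0) (nat_lit 13340503263) (nat_lit 152) (nat_lit 439742110907) (nat_lit 0) (nat_lit 7549541974) (nat_lit 1) (nat_lit 5) (nat_lit 3) (nat_lit 4) (nat_lit 1) (nat_lit 4) (nat_lit 357) (nat_lit 210) (nat_lit 153)) (XT.lf (nat_lit 0) (nat_lit 14854767582) (nat_lit 152) (nat_lit 459703081389) (nat_lit 0) (nat_lit 9045587212) (nat_lit 1) (nat_lit 5) (nat_lit 3) (nat_lit 4) (nat_lit 1) (nat_lit 4) (nat_lit 358) (nat_lit 210) (nat_lit 152)))) (XT.nd (nat_lit 32838) (nat_lit 0) (nat_lit 380) (XT.nd (nat_lit 32760) (nat_lit 0) (nat_lit 380) (XT.lf (nat_lit 0) (nat_lit 16438803871) (nat_lit 152) (nat_lit 480672514432) (nat_lit 0) (nat_lit 10612271995) (nat_lit 1) (nat_lit 5) (nat_lit 3) (nat_lit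 4) (nat_lit 1) (nat_lit 4) (nat_lit 359) (nat_lit 210) (nat_lit 151)) (XT.lf (nat_lit 0) (nat_lit 8058685413) (nat_lit 76) (nat_lit 2952478031) (nat_lit 76) (nat_lit 2952478031) (nat_lit 6) (nat_lit 4) (nat_lit 7) (nat_lit 5) (nat_lit 7) (nat_lit 4) (nat_lit 298) (nat_lit 211) (nat_lit 211))) (XT.nd (nat_lit 78) (nat_lit 0) (nat_lit 0) (XT.lf (nat_lit 0) (nat_lit 21568082765) (nat_lit 76) (nat_lit 3974665312) (nat_lit 76) (nat_lit 3634347707) (nat_lit 6) (nat_lit 4) (nat_lit 7) (nat_lit 5) (nat_lit 7) (nat_lit 4) (nat_lit 299) (nat_lit 211) (nat_lit 210)) (XT.lf (nat_lit 0) (nat_lit 27145064111) (nat_lit 76) (nat_lit 2006689830) (nat_lit 76) (nat_lit 1342260220) (nat_lit 6) (nat_lit 4) (nat_lit 7) (nat_lit 5) (nat_lit 7) (nat_lit 4) (nat_lit 300) (nat_lit 211) (nat_lit 209)))))) (XT.nd (nat_lit 624) (nat_lit 76) (nat_lit 0) (XT.nd (nat_lit 312) (nat_lit 0) (nat_lit 0) (XT.nd (nat_lit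 156) (nat_lit 0) (nat_lit 0) (XT.nd (nat_lit 78) (nat_lit 0) (nat_lit 0) (XT.lf (nat_lit 0) (nat_lit 961630745) (nat_lit 152) (nat_lit 30883112382) (nat_lit 0) (nat_lit 34861498) (nat_lit 4) (nat_lit 5) (nat_lit 6) (nat_lit 4) (nat_lit 4) (nat_lit 4) (nat_lit 301) (nat_lit 211) (nat_lit 208)) (XT.lf (nat_lit 0) (nat_lit 3342252397) (nat_lit 152) (nat_lit 27855496727) (nat_lit 0) (nat_lit 2135503015) (nat_lit 4) (nat_lit 5) (nat_lit 6) (nat_lit 4) (nat_lit 4) (nat_lit 4) (nat_lit 302) (nat_lit 211) (nat_lit 207))) (XT.nd (nat_lit 78) (nat_lit 0) (nat_lit 0) (XT.lf (nat_lit 0) (nat_lit 5762002721) (nat_lit 152) (nat_lit 24813168825) (nat_lit 0) (nat_lit 4288605590) (nat_lit 4) (nat_lit 5) (nat_lit 6) (nat_lit 4) (nat_lit 4) (nat_lit 4) (nat_lit 303) (nat_lit 211) (nat_lit 206)) (XT.lf (nat_lit 0) (nat_lit 8226643025) (nat_lit 152) (nat_lit 21748885038) (nat_lit 0) (nat_lit 6499295658)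 (nat_lit 4) (nat_lit 5) (nat_lit 6) (nat_lit 4) (nat_lit 4) (nat_lit 4) (nat_lit 304) (nat_lit 211) (nat_lit 205)))) (XT.nd (nat_lit 156) (nat_lit 0) (nat_lit 0) (XT.nd (nat_lit 78) (nat_lit 0) (nat_lit 0) (XT.lf (nat_lit 0) (nat_lit 10742041502) (nat_lit 152) (nat_lit 18655349452) (nat_lit 0) (nat_lit 8772836767) (nat_lit 4) (nat_lit 5) (nat_lit 6) (nat_lit 4) (nat_lit 4) (nat_lit 4) (nat_lit 305) (nat_lit 211) (nat_lit 204)) (XT.lf (nat_lit 0) (nat_lit 13314187196) (nat_lit 152) (nat_lit 15525196507) (nat_lit 0) (nat_lit 11114642109) (nat_lit 4) (nat_lit 5) (nat_lit 6) (nat_lit 4) (nat_lit 4) (nat_lit 4) (nat_lit 306) (nat_lit 211) (nat_lit 203))) (XT.nd (nat_lit 78) (nat_lit 0) (nat_lit 0) (XT.lf (nat_lit 0) (nat_lit 15949204262) (nat_lit 152) (nat_lit 12350973458) (nat_lit 0) (nat_lit 13530287413) (nat_lit 4) (nat_lit 5) (nat_lit 6) (nat_lit 4) (nat_lit 4) (nat_lit 4) (nat_lit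 307) (nat_lit 211) (nat_lit 202)) (XT.lf (nat_lit 0) (nat_lit 18653366551) (nat_lit 152) (nat_lit 9125122629) (nat_lit 0) (nat_lit 16025524214) (nat_lit 4) (nat_lit 5) (nat_lit 6) (nat_lit 4) (nat_lit 4) (nat_lit 4) (nat_lit 308) (nat_lit 211) (nat_lit 201))))) (XT.nd (nat_lit 312) (nat_lit 0) (nat_lit 0) (XT.nd (nat_lit 156) (nat_lit 76) (nat_lit 0) (XT.nd (nat_lit 78) (nat_lit 0) (nat_lit 0) (XT.lf (nat_lit 0) (nat_lit 21433112544) (nat_lit 152) (nat_lit 5839963425) (nat_lit 0) (nat_lit 18606293552) (nat_lit 4) (nat_lit 5) (nat_lit 6) (nat_lit 4) (nat_lit 4) (nat_lit 4) (nat_lit 309) (nat_lit 211) (nat_lit 200)) (XT.lf (nat_lit 0) (nat_lit 24295060685) (nat_lit 152) (nat_lit 2487674038) (nat_lit 0) (nat_lit 21278740116) (nat_lit 4) (nat_lit 5) (nat_lit 6) (nat_lit 4) (nat_lit 4) (nat_lit 4) (nat_lit 310) (nat_lit 211) (nat_lit 199))) (XT.nd (nat_lit 78) (nat_lit 0) (nat_lit 0) (XT.lf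 (nat_lit 0) (nat_lit 970798798) (nat_lit 76) (nat_lit 26290383227) (nat_lit 76) (nat_lit 23093584966) (nat_lit 3) (nat_lit 4) (nat_lit 4) (nat_lit 5) (nat_lit 4) (nat_lit 4) (nat_lit 311) (nat_lit 211) (nat_lit 198)) (XT.lf (nat_lit 0) (nat_lit 4597551035) (nat_lit 76) (nat_lit 25767261622) (nat_lit 76) (nat_lit 22398579845) (nat_lit 3) (nat_lit 4) (nat_lit 4) (nat_lit 5) (nat_lit 4) (nat_lit 4) (nat_lit 312) (nat_lit 211) (nat_lit 197)))) (XT.nd (nat_lit 156) (nat_lit 0) (nat_lit 0) (XT.nd (nat_lit 78) (nat_lit 0) (nat_lit 0) (XT.lf (nat_lit 0) (nat_lit 8318964059) (nat_lit 76) (nat_lit 25254254344) (nat_lit 76) (nat_lit 21721873981) (nat_lit 3) (nat_lit 4) (nat_lit 4) (nat_lit 5) (nat_lit 4) (nat_lit 4) (nat_lit 313) (nat_lit 211) (nat_lit 196)) (XT.lf (nat_lit 0) (nat_lit 12143898377) (nat_lit 76) (nat_lit 24750139947) (nat_lit 76) (nat_lit 21061856168) (nat_lit 3) (nat_lit 4)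 (nat_lit 4) (nat_lit 5) (nat_lit 4) (nat_lit 4) (nat_lit 314) (nat_lit 211) (nat_lit 195))) (XT.nd (nat_lit 78) (nat_lit 0) (nat_lit 0) (XT.lf (nat_lit 0) (nat_lit 16081460976) (nat_lit 76) (nat_lit 24253718160) (nat_lit 76) (nat_lit 20416954937) (nat_lit 3) (nat_lit 4) (nat_lit 4) (nat_lit 5) (nat_lit 4) (nat_lit 4) (nat_lit 315) (nat_lit 211) (nat_lit 194)) (XT.nd (nat_lit 78) (nat_lit 0) (nat_lit 0) (XT.lf (nat_lit 0) (nat_lit 20141027004) (nat_lit 76) (nat_lit 23763807024) (nat_lit 76) (nat_lit 19785634807) (nat_lit 3) (nat_lit 4) (nat_lit 4) (nat_lit 5) (nat_lit 4) (nat_lit 4) (nat_lit 316) (nat_lit 211) (nat_lit 193)) (XT.lf (nat_lit 0) (nat_lit 24332262094) (nat_lit 76) (nat_lit 23279240086) (nat_lit 76) (nat_lit 19166392637) (nat_lit 3) (nat_lit 4) (nat_lit 4) (nat_lit 5) (nat_lit 4) (nat_lit 4) (nat_lit 317) (nat_lit 211) (nat_lit 192))))))))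
noncomputable def xc25 : XT := (XT.nd (nat_lit 1248) (nat_lit 76) (nat_lit 0) (XT.nd (nat_lit 624) (nat_lit 0) (nat_lit 0) (XT.nd (nat_lit 312) (nat_lit 0) (nat_lit 0) (XT.nd (nat_lit 156) (nat_lit 0) (nat_lit 0) (XT.nd (nat_lit 78) (nat_lit 0) (nat_lit 0) (XT.lf (nat_lit 0) (nat_lit 28665145379) (nat_lit 76) (nat_lit 22798863614) (nat_lit 76) (nat_lit 18557754039) (nat_lit 3) (nat_lit 4) (nat_lit 4) (nat_lit 5) (nat_lit 4) (nat_lit 4) (nat_lit 318) (nat_lit 211) (nat_lit 191)) (XT.lf (nat_lit 0) (nat_lit 33149993246) (nat_lit 76) (nat_lit 22321533855) (nat_lit 76) (nat_lit 17958269874) (nat_lit 3) (nat_lit 4) (nat_lit 4) (nat_lit 5) (nat_lit 4) (nat_lit 4) (nat_lit 319) (nat_lit 211) (nat_lit 190))) (XT.nd (nat_lit 78) (nat_lit 0) (nat_lit 0) (XT.lf (nat_lit 0) (nat_lit 37797483905) (nat_lit 76) (nat_lit 21846114310) (nat_lit 76) (nat_lit 17366512799) (nat_lit 3) (nat_lit 4) (nat_lit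 4) (nat_lit 5) (nat_lit 4) (nat_lit 4) (nat_lit 320) (nat_lit 211) (nat_lit 189)) (XT.lf (nat_lit 0) (nat_lit 42618682811) (nat_lit 76) (nat_lit 21371473026) (nat_lit 76) (nat_lit 16781073869) (nat_lit 3) (nat_lit 4) (nat_lit 4) (nat_lit 5) (nat_lit 4) (nat_lit 4) (nat_lit 321) (nat_lit 211) (nat_lit 188)))) (XT.nd (nat_lit 156) (nat_lit 0) (nat_lit 0) (XT.nd (nat_lit 78) (nat_lit 0) (nat_lit 0) (XT.lf (nat_lit 0) (nat_lit 47625069007) (nat_lit 76) (nat_lit 20896479907) (nat_lit 76) (nat_lit 16200559181) (nat_lit 3) (nat_lit 4) (nat_lit 4) (nat_lit 5) (nat_lit 4) (nat_lit 4) (nat_lit 322) (nat_lit 211) (nat_lit 187)) (XT.lf (nat_lit 0) (nat_lit 52828562461) (nat_lit 76) (nat_lit 20420004015) (nat_lit 76) (nat_lit 15623586557) (nat_lit 3) (nat_lit 4) (nat_lit 4) (nat_lit 5) (nat_lit 4) (nat_lit 4) (nat_lit 323) (nat_lit 211) (nat_lit 186))) (XT.nd (nat_lit 78) (nat_lit 0) (nat_lit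 0) (XT.lf (nat_lit 0) (nat_lit 58241552443) (nat_lit 76) (nat_lit 19940910885) (nat_lit 76) (nat_lit 15048782253) (nat_lit 3) (nat_lit 4) (nat_lit 4) (nat_lit 5) (nat_lit 4) (nat_lit 4) (nat_lit 324) (nat_lit 211) (nat_lit 185)) (XT.lf (nat_lit 0) (nat_lit 63876927025) (nat_lit 76) (nat_lit 19458059818) (nat_lit 76) (nat_lit 14474777688) (nat_lit 3) (nat_lit 4) (nat_lit 4) (nat_lit 5) (nat_lit 4) (nat_lit 4) (nat_lit 325) (nat_lit 211) (nat_lit 184))))) (XT.nd (nat_lit 312) (nat_lit 0) (nat_lit 0) (XT.nd (nat_lit 156) (nat_lit 0) (nat_lit 0) (XT.nd (nat_lit 78) (nat_lit 0) (nat_lit 0) (XT.lf (nat_lit 0) (nat_lit 69748103766) (nat_lit 76) (nat_lit 18970301170) (nat_lit 76) (nat_lit 13900206184) (nat_lit 3) (nat_lit 4) (nat_lit 4) (nat_lit 5) (nat_lit 4) (nat_lit 4) (nat_lit 326) (nat_lit 211) (nat_lit 183)) (XT.lf (nat_lit 0) (nat_lit 75869061656) (nat_lit 76) (nat_lit 18476473609)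 (nat_lit 76) (nat_lit 13323699713) (nat_lit 3) (nat_lit 4) (nat_lit 4) (nat_lit 5) (nat_lit 4) (nat_lit 4) (nat_lit 327) (nat_lit 211) (nat_lit 182))) (XT.nd (nat_lit 78) (nat_lit 0) (nat_lit 0) (XT.lf (nat_lit 0) (nat_lit 82254374406) (nat_lit 76) (nat_lit 17975401357) (nat_lit 76) (nat_lit 12743885642) (nat_lit 3) (nat_lit 4) (nat_lit 4) (nat_lit 5) (nat_lit 4) (nat_lit 4) (nat_lit 328) (nat_lit 211) (nat_lit 181)) (XT.lf (nat_lit 0) (nat_lit 88919245141) (nat_lit 76) (nat_lit 17465891383) (nat_lit 76) (nat_lit 12159383459) (nat_lit 3) (nat_lit 4) (nat_lit 4) (nat_lit 5) (nat_lit 4) (nat_lit 4) (nat_lit 329) (nat_lit 211) (nat_lit 180)))) (XT.nd (nat_lit 156) (nat_lit 0) (nat_lit 0) (XT.nd (nat_lit 78) (nat_lit 0) (nat_lit 0) (XT.lf (nat_lit 0) (nat_lit 95879542602) (nat_lit 76) (nat_lit 16946730569) (nat_lit 76) (nat_lit 11568801495) (nat_lit 3) (nat_lit 4) (nat_lit 4) (nat_lit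 5) (nat_lit 4) (nat_lit 4) (nat_lit 330) (nat_lit 211) (nat_lit 179)) (XT.lf (nat_lit 0) (nat_lit 103151838924) (nat_lit 76) (nat_lit 16416682819) (nat_lit 76) (nat_lit 10970733600) (nat_lit 3) (nat_lit 4) (nat_lit 4) (nat_lit 5) (nat_lit 4) (nat_lit 4) (nat_lit 331) (nat_lit 211) (nat_lit 178))) (XT.nd (nat_lit 78) (nat_lit 0) (nat_lit 0) (XT.lf (nat_lit 0) (nat_lit 110753449099) (nat_lit 76) (nat_lit 15874486112) (nat_lit 76) (nat_lit 10363755804) (nat_lit 3) (nat_lit 4) (nat_lit 4) (nat_lit 5) (nat_lit 4) (nat_lit 4) (nat_lit 332) (nat_lit 211) (nat_lit 177)) (XT.lf (nat_lit 0) (nat_lit 118702472200) (nat_lit 76) (nat_lit 15318849505) (nat_lit 76) (nat_lit 9746422921) (nat_lit 3) (nat_lit 4) (nat_lit 4) (nat_lit 5) (nat_lit 4) (nat_lit 4) (nat_lit 333) (nat_lit 211) (nat_lit 176)))))) (XT.nd (nat_lit 624) (nat_lit 76) (nat_lit 0) (XT.nd (nat_lit 312) (nat_lit 0) (nat_lit 0) (XT.nd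 (nat_lit 156) (nat_lit 0) (nat_lit 0) (XT.nd (nat_lit 78) (nat_lit 0) (nat_lit 0) (XT.lf (nat_lit 0) (nat_lit 127017834470) (nat_lit 76) (nat_lit 14748450054) (nat_lit 76) (nat_lit 9117265112) (nat_lit 3) (nat_lit 4) (nat_lit 4) (nat_lit 5) (nat_lit 4) (nat_lit 4) (nat_lit 334) (nat_lit 211) (nat_lit 175)) (XT.lf (nat_lit 0) (nat_lit 135719334393) (nat_lit 76) (nat_lit 14161929664) (nat_lit 76) (nat_lit 8474784382) (nat_lit 3) (nat_lit 4) (nat_lit 4) (nat_lit 5) (nat_lit 4) (nat_lit 4) (nat_lit 335) (nat_lit 211) (nat_lit 174))) (XT.nd (nat_lit 78) (nat_lit 0) (nat_lit 0) (XT.lf (nat_lit 0) (nat_lit 144827689825) (nat_lit 76) (nat_lit 13557891859) (nat_lit 76) (nat_lit 7817451013) (nat_lit 3) (nat_lit 4) (nat_lit 4) (nat_lit 5) (nat_lit 4) (nat_lit 4) (nat_lit 336) (nat_lit 211) (nat_lit 173)) (XT.lf (nat_lit 0) (nat_lit 154364587326) (nat_lit 76) (nat_lit 12934898453) (nat_lit 76)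 (nat_lit 7143699929) (nat_lit 3) (nat_lit 4) (nat_lit 4) (nat_lit 5) (nat_lit 4) (nat_lit 4) (nat_lit 337) (nat_lit 211) (nat_lit 172)))) (XT.nd (nat_lit 156) (nat_lit 0) (nat_lit 0) (XT.nd (nat_lit 78) (nat_lit 0) (nat_lit 0) (XT.lf (nat_lit 0) (nat_lit 164352733796) (nat_lit 76) (nat_lit 12291466128) (nat_lit 76) (nat_lit 6451926958) (nat_lit 3) (nat_lit 4) (nat_lit 4) (nat_lit 5) (nat_lit 4) (nat_lit 4) (nat_lit 338) (nat_lit 211) (nat_lit 171)) (XT.lf (nat_lit 0) (nat_lit 174815910535) (nat_lit 76) (nat_lit 11626062903) (nat_lit 76) (nat_lit 5740485022) (nat_lit 3) (nat_lit 4) (nat_lit 4) (nat_lit 5) (nat_lit 4) (nat_lit 4) (nat_lit 339) (nat_lit 211) (nat_lit 170))) (XT.nd (nat_lit 78) (nat_lit 0) (nat_lit 0) (XT.lf (nat_lit 0) (nat_lit 185779029869) (nat_lit 76) (nat_lit 10937104485) (nat_lit 76) (nat_lit 5007680212) (nat_lit 3) (nat_lit 4) (nat_lit 4) (nat_lit 5) (nat_lit 4)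 (nat_lit 4) (nat_lit 340) (nat_lit 211) (nat_lit 169)) (XT.lf (nat_lit 0) (nat_lit 197268194463) (nat_lit 76) (nat_lit 10222950495) (nat_lit 76) (nat_lit 4251767755) (nat_lit 3) (nat_lit 4) (nat_lit 4) (nat_lit 5) (nat_lit 4) (nat_lit 4) (nat_lit 341) (nat_lit 211) (nat_lit 168))))) (XT.nd (nat_lit 312) (nat_lit 76) (nat_lit 0) (XT.nd (nat_lit 156) (nat_lit 0) (nat_lit 0) (XT.nd (nat_lit 78) (nat_lit 0) (nat_lit 0) (XT.lf (nat_lit 0) (nat_lit 209310759471) (nat_lit 76) (nat_lit 9481900569) (nat_lit 76) (nat_lit 3470947859) (nat_lit 3) (nat_lit 4) (nat_lit 4) (nat_lit 5) (nat_lit 4) (nat_lit 4) (nat_lit 342) (nat_lit 211) (nat_lit 167)) (XT.lf (nat_lit 0) (nat_lit 221935397667) (nat_lit 76) (nat_lit 8712190300) (nat_lit 76) (nat_lit 2663361429) (nat_lit 3) (nat_lit 4) (nat_lit 4) (nat_lit 5) (nat_lit 4) (nat_lit 4) (nat_lit 343) (nat_lit 211) (nat_lit 166))) (XT.nd (nat_lit 78) (nat_lit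 0) (nat_lit 0) (XT.lf (nat_lit 0) (nat_lit 235172167713) (nat_lit 76) (nat_lit 7911987046) (nat_lit 76) (nat_lit 1827085640) (nat_lit 3) (nat_lit 4) (nat_lit 4) (nat_lit 5) (nat_lit 4) (nat_lit 4) (nat_lit 344) (nat_lit 211) (nat_lit 165)) (XT.lf (nat_lit 0) (nat_lit 249052585729) (nat_lit 76) (nat_lit 7079385560) (nat_lit 76) (nat_lit 960129360) (nat_lit 3) (nat_lit 4) (nat_lit 4) (nat_lit 5) (nat_lit 4) (nat_lit 4) (nat_lit 345) (nat_lit 211) (nat_lit 164)))) (XT.nd (nat_lit 156) (nat_lit 0) (nat_lit 0) (XT.nd (nat_lit 78) (nat_lit 76) (nat_lit 0) (XT.lf (nat_lit 0) (nat_lit 263609700328) (nat_lit 76) (nat_lit 6212403459) (nat_lit 76) (nat_lit 60428406) (nat_lit 3) (nat_lit 4) (nat_lit 4) (nat_lit 5) (nat_lit 4) (nat_lit 4) (nat_lit 346) (nat_lit 211) (nat_lit 163)) (XT.lf (nat_lit 0) (nat_lit 846180806) (nat_lit 152) (nat_lit 4448465211) (nat_lit 76) (nat_lit 278017660019) (nat_lit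 2) (nat_lit 5) (nat_lit 4) (nat_lit 5) (nat_lit 3) (nat_lit 4) (nat_lit 347) (nat_lit 211) (nat_lit 162))) (XT.nd (nat_lit 78) (nat_lit 0) (nat_lit 0) (XT.lf (nat_lit 0) (nat_lit 1786780143) (nat_lit 152) (nat_lit 2549913533) (nat_lit 76) (nat_lit 293077312039) (nat_lit 2) (nat_lit 5) (nat_lit 4) (nat_lit 5) (nat_lit 3) (nat_lit 4) (nat_lit 348) (nat_lit 211) (nat_lit 161)) (XT.lf (nat_lit 0) (nat_lit 2765543213) (nat_lit 152) (nat_lit 571713014) (nat_lit 76) (nat_lit 308883997651) (nat_lit 2) (nat_lit 5) (nat_lit 4) (nat_lit 5) (nat_lit 3) (nat_lit 4) (nat_lit 349) (nat_lit 211) (nat_lit 160)))))))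
noncomputable def xc26 : XT := (XT.nd (nat_lit 33774) (nat_lit 0) (nat_lit 152) (XT.nd (nat_lit 624) (nat_lit 0) (nat_lit 0) (XT.nd (nat_lit 312) (nat_lit 0) (nat_lit 0) (XT.nd (nat_lit 156) (nat_lit 0) (nat_lit 0) (XT.nd (nat_lit 78) (nat_lit 0) (nat_lit 0) (XT.lf (nat_lit 0) (nat_lit 1540140460) (nat_lit 76) (nat_lit 2268705853) (nat_lit 152) (nat_lit 323959257269) (nat_lit 1) (nat_lit 5) (nat_lit 2) (nat_lit 5) (nat_lit 3) (nat_lit 4) (nat_lit 350) (nat_lit 211) (nat_lit 159)) (XT.lf (nat_lit 0) (nat_lit 3763118706) (nat_lit 76) (nat_lit 1142612643) (nat_lit 152) (nat_lit 339186511896) (nat_lit 1) (nat_lit 5) (nat_lit 2) (nat_lit 5) (nat_lit 3) (nat_lit 4) (nat_lit 351) (nat_lit 211) (nat_lit 158))) (XT.nd (nat_lit 78) (nat_lit 0) (nat_lit 0) (XT.lf (nat_lit 0) (nat_lit 6050119958) (nat_lit 152) (nat_lit 355149920992) (nat_lit 0) (nat_lit 32933413) (nat_lit 1) (nat_lit 5) (nat_lit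 3) (nat_lit 4) (nat_lit 1) (nat_lit 4) (nat_lit 352) (nat_lit 211) (nat_lit 157)) (XT.lf (nat_lit 0) (nat_lit 7262876649) (nat_lit 152) (nat_lit 370743779867) (nat_lit 0) (nat_lit 1223544698) (nat_lit 1) (nat_lit 5) (nat_lit 3) (nat_lit 4) (nat_lit 1) (nat_lit 4) (nat_lit 353) (nat_lit 211) (nat_lit 156)))) (XT.nd (nat_lit 156) (nat_lit 0) (nat_lit 0) (XT.nd (nat_lit 78) (nat_lit 0) (nat_lit 0) (XT.lf (nat_lit 0) (nat_lit 8529049554) (nat_lit 152) (nat_lit 387129990015) (nat_lit 0) (nat_lit 2468626738) (nat_lit 1) (nat_lit 5) (nat_lit 3) (nat_lit 4) (nat_lit 1) (nat_lit 4) (nat_lit 354) (nat_lit 211) (nat_lit 155)) (XT.lf (nat_lit 0) (nat_lit 9851653369) (nat_lit 152) (nat_lit 404347566221) (nat_lit 0) (nat_lit 3771144016) (nat_lit 1) (nat_lit 5) (nat_lit 3) (nat_lit 4) (nat_lit 1) (nat_lit 4) (nat_lit 355) (nat_lit 211) (nat_lit 154))) (XT.nd (nat_lit 78) (nat_lit 0) (nat_lit 0)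 (XT.lf (nat_lit 0) (nat_lit 11233837151) (nat_lit 152) (nat_lit 422437502715) (nat_lit 0) (nat_lit 5134197763) (nat_lit 1) (nat_lit 5) (nat_lit 3) (nat_lit 4) (nat_lit 1) (nat_lit 4) (nat_lit 356) (nat_lit 211) (nat_lit 153)) (XT.lf (nat_lit 0) (nat_lit 12678891814) (nat_lit 152) (nat_lit 441442870774) (nat_lit 0) (nat_lit 6561033344) (nat_lit 1) (nat_lit 5) (nat_lit 3) (nat_lit 4) (nat_lit 1) (nat_lit 4) (nat_lit 357) (nat_lit 211) (nat_lit 152))))) (XT.nd (nat_lit 32838) (nat_lit 0) (nat_lit 228) (XT.nd (nat_lit 32682) (nat_lit 0) (nat_lit 380) (XT.nd (nat_lit 78) (nat_lit 0) (nat_lit 0) (XT.lf (nat_lit 0) (nat_lit 14190257964) (nat_lit 152) (nat_lit 461408921274) (nat_lit 0) (nat_lit 8055047989) (nat_lit 1) (nat_lit 5) (nat_lit 3) (nat_lit 4) (nat_lit 1) (nat_lit 4) (nat_lit 358) (nat_lit 211) (nat_lit 151)) (XT.lf (nat_lit 0) (nat_lit 15771534092) (nat_lit 152) (nat_lit 482383192431)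 (nat_lit 0) (nat_lit 9619798873) (nat_lit 1) (nat_lit 5) (nat_lit 3) (nat_lit 4) (nat_lit 1) (nat_lit 4) (nat_lit 359) (nat_lit 211) (nat_lit 150))) (XT.nd (nat_lit 78) (nat_lit 0) (nat_lit 0) (XT.lf (nat_lit 0) (nat_lit 2810888019) (nat_lit 76) (nat_lit 4998241419) (nat_lit 76) (nat_lit 4998241419) (nat_lit 6) (nat_lit 4) (nat_lit 7) (nat_lit 5) (nat_lit 7) (nat_lit 4) (nat_lit 296) (nat_lit 212) (nat_lit 212)) (XT.lf (nat_lit 0) (nat_lit 10779950408) (nat_lit 76) (nat_lit 8159491498) (nat_lit 76) (nat_lit 7802158013) (nat_lit 6) (nat_lit 4) (nat_lit 7) (nat_lit 5) (nat_lit 7) (nat_lit 4) (nat_lit 297) (nat_lit 212) (nat_lit 211)))) (XT.nd (nat_lit 156) (nat_lit 152) (nat_lit 0) (XT.nd (nat_lit 78) (nat_lit 0) (nat_lit 0) (XT.lf (nat_lit 0) (nat_lit 16042453997) (nat_lit 76) (nat_lit 6292421888) (nat_lit 76) (nat_lit 5594770798) (nat_lit 6) (nat_lit 4) (nat_lit 7) (nat_lit 5) (nat_lit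 7) (nat_lit 4) (nat_lit 298) (nat_lit 212) (nat_lit 210)) (XT.lf (nat_lit 0) (nat_lit 21421816575) (nat_lit 76) (nat_lit 4390828603) (nat_lit 76) (nat_lit 3369065509) (nat_lit 6) (nat_lit 4) (nat_lit 7) (nat_lit 5) (nat_lit 7) (nat_lit 4) (nat_lit 299) (nat_lit 212) (nat_lit 209))) (XT.nd (nat_lit 78) (nat_lit 152) (nat_lit 0) (XT.lf (nat_lit 0) (nat_lit 26930846149) (nat_lit 76) (nat_lit 2450184042) (nat_lit 76) (nat_lit 1119742847) (nat_lit 6) (nat_lit 4) (nat_lit 7) (nat_lit 5) (nat_lit 7) (nat_lit 4) (nat_lit 300) (nat_lit 212) (nat_lit 208)) (XT.lf (nat_lit 0) (nat_lit 696902058) (nat_lit 76) (nat_lit 435450329) (nat_lit 152) (nat_lit 30756173529) (nat_lit 4) (nat_lit 5) (nat_lit 5) (nat_lit 5) (nat_lit 6) (nat_lit 4) (nat_lit 301) (nat_lit 212) (nat_lit 207)))))) (XT.nd (nat_lit 624) (nat_lit 76) (nat_lit 0) (XT.nd (nat_lit 312) (nat_lit 0) (nat_lit 0) (XT.nd (nat_lit 156) (nat_lit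 0) (nat_lit 0) (XT.nd (nat_lit 78) (nat_lit 0) (nat_lit 0) (XT.lf (nat_lit 0) (nat_lit 3467198654) (nat_lit 152) (nat_lit 28223877182) (nat_lit 0) (nat_lit 1653483918) (nat_lit 4) (nat_lit 5) (nat_lit 6) (nat_lit 4) (nat_lit 4) (nat_lit 4) (nat_lit 302) (nat_lit 212) (nat_lit 206)) (XT.lf (nat_lit 0) (nat_lit 5849828229) (nat_lit 152) (nat_lit 25245042211) (nat_lit 0) (nat_lit 3782163256) (nat_lit 4) (nat_lit 5) (nat_lit 6) (nat_lit 4) (nat_lit 4) (nat_lit 4) (nat_lit 303) (nat_lit 212) (nat_lit 205))) (XT.nd (nat_lit 78) (nat_lit 0) (nat_lit 0) (XT.lf (nat_lit 0) (nat_lit 8279115439) (nat_lit 152) (nat_lit 22241227883) (nat_lit 0) (nat_lit 5969593099) (nat_lit 4) (nat_lit 5) (nat_lit 6) (nat_lit 4) (nat_lit 4) (nat_lit 4) (nat_lit 304) (nat_lit 212) (nat_lit 204)) (XT.lf (nat_lit 0) (nat_lit 10760844303) (nat_lit 152) (nat_lit 19205282259) (nat_lit 0) (nat_lit 8220981612) (nat_lit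 4) (nat_lit 5) (nat_lit 6) (nat_lit 4) (nat_lit 4) (nat_lit 4) (nat_lit 305) (nat_lit 212) (nat_lit 203)))) (XT.nd (nat_lit 156) (nat_lit 0) (nat_lit 0) (XT.nd (nat_lit 78) (nat_lit 0) (nat_lit 0) (XT.lf (nat_lit 0) (nat_lit 13300923698) (nat_lit 152) (nat_lit 16129976895) (nat_lit 0) (nat_lit 10541689244) (nat_lit 4) (nat_lit 5) (nat_lit 6) (nat_lit 4) (nat_lit 4) (nat_lit 4) (nat_lit 306) (nat_lit 212) (nat_lit 202)) (XT.lf (nat_lit 0) (nat_lit 15905401432) (nat_lit 152) (nat_lit 13007989638) (nat_lit 0) (nat_lit 12937241490) (nat_lit 4) (nat_lit 5) (nat_lit 6) (nat_lit 4) (nat_lit 4) (nat_lit 4) (nat_lit 307) (nat_lit 212) (nat_lit 201))) (XT.nd (nat_lit 78) (nat_lit 0) (nat_lit 0) (XT.lf (nat_lit 0) (nat_lit 18580478643) (nat_lit 152) (nat_lit 9831887183) (nat_lit 0) (nat_lit 15413342046) (nat_lit 4) (nat_lit 5) (nat_lit 6) (nat_lit 4) (nat_lit 4) (nat_lit 4) (nat_lit 308) (nat_lit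 212) (nat_lit 200)) (XT.lf (nat_lit 0) (nat_lit 21332524562) (nat_lit 152) (nat_lit 6594107382) (nat_lit 0) (nat_lit 17975886388) (nat_lit 4) (nat_lit 5) (nat_lit 6) (nat_lit 4) (nat_lit 4) (nat_lit 4) (nat_lit 309) (nat_lit 212) (nat_lit 199))))) (XT.nd (nat_lit 312) (nat_lit 0) (nat_lit 0) (XT.nd (nat_lit 156) (nat_lit 0) (nat_lit 0) (XT.nd (nat_lit 78) (nat_lit 76) (nat_lit 0) (XT.lf (nat_lit 0) (nat_lit 24168091680) (nat_lit 152) (nat_lit 3286941236) (nat_lit 0) (nat_lit 20630975814) (nat_lit 4) (nat_lit 5) (nat_lit 6) (nat_lit 4) (nat_lit 4) (nat_lit 4) (nat_lit 310) (nat_lit 212) (nat_lit 198)) (XT.lf (nat_lit 0) (nat_lit 100708770) (nat_lit 76) (nat_lit 26994794922) (nat_lit 76) (nat_lit 23285795541) (nat_lit 3) (nat_lit 4) (nat_lit 4) (nat_lit 5) (nat_lit 4) (nat_lit 4) (nat_lit 311) (nat_lit 212) (nat_lit 197))) (XT.nd (nat_lit 78) (nat_lit 0) (nat_lit 0) (XT.lf (nat_lit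 0) (nat_lit 3685179629) (nat_lit 76) (nat_lit 26489366199) (nat_lit 76) (nat_lit 22616668231) (nat_lit 3) (nat_lit 4) (nat_lit 4) (nat_lit 5) (nat_lit 4) (nat_lit 4) (nat_lit 312) (nat_lit 212) (nat_lit 196)) (XT.lf (nat_lit 0) (nat_lit 7366324674) (nat_lit 76) (nat_lit 25993209285) (nat_lit 76) (nat_lit 21964607900) (nat_lit 3) (nat_lit 4) (nat_lit 4) (nat_lit 5) (nat_lit 4) (nat_lit 4) (nat_lit 313) (nat_lit 212) (nat_lit 195)))) (XT.nd (nat_lit 156) (nat_lit 0) (nat_lit 0) (XT.nd (nat_lit 78) (nat_lit 0) (nat_lit 0) (XT.lf (nat_lit 0) (nat_lit 11152908535) (nat_lit 76) (nat_lit 25505142853) (nat_lit 76) (nat_lit 21328062025) (nat_lit 3) (nat_lit 4) (nat_lit 4) (nat_lit 5) (nat_lit 4) (nat_lit 4) (nat_lit 314) (nat_lit 212) (nat_lit 194)) (XT.lf (nat_lit 0) (nat_lit 15053946890) (nat_lit 76) (nat_lit 25024004842) (nat_lit 76) (nat_lit 20705515020) (nat_lit 3) (nat_lit 4) (nat_lit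 4) (nat_lit 5) (nat_lit 4) (nat_lit 4) (nat_lit 315) (nat_lit 212) (nat_lit 193))) (XT.nd (nat_lit 78) (nat_lit 0) (nat_lit 0) (XT.lf (nat_lit 0) (nat_lit 19078727923) (nat_lit 76) (nat_lit 24548649684) (nat_lit 76) (nat_lit 20095484630) (nat_lit 3) (nat_lit 4) (nat_lit 4) (nat_lit 5) (nat_lit 4) (nat_lit 4) (nat_lit 316) (nat_lit 212) (nat_lit 192)) (XT.nd (nat_lit 78) (nat_lit 0) (nat_lit 0) (XT.lf (nat_lit 0) (nat_lit 23236834447) (nat_lit 76) (nat_lit 24077945582) (nat_lit 76) (nat_lit 19496518401) (nat_lit 3) (nat_lit 4) (nat_lit 4) (nat_lit 5) (nat_lit 4) (nat_lit 4) (nat_lit 317) (nat_lit 212) (nat_lit 191)) (XT.lf (nat_lit 0) (nat_lit 27538166717) (nat_lit 76) (nat_lit 23610771811) (nat_lit 76) (nat_lit 18907190224) (nat_lit 3) (nat_lit 4) (nat_lit 4) (nat_lit 5) (nat_lit 4) (nat_lit 4) (nat_lit 318) (nat_lit 212) (nat_lit 190))))))))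
noncomputable def xc27 : XT := (XT.nd (nat_lit 2496) (nat_lit 76) (nat_lit 0) (XT.nd (nat_lit 1248) (nat_lit 76) (nat_lit 0) (XT.nd (nat_lit 624) (nat_lit 0) (nat_lit 0) (XT.nd (nat_lit 312) (nat_lit 0) (nat_lit 0) (XT.nd (nat_lit 156) (nat_lit 0) (nat_lit 0) (XT.nd (nat_lit 78) (nat_lit 0) (nat_lit 0) (XT.lf (nat_lit 0) (nat_lit 31992965998) (nat_lit 76) (nat_lit 23146016052) (nat_lit 76) (nat_lit 18326096937) (nat_lit 3) (nat_lit 4) (nat_lit 4) (nat_lit 5) (nat_lit 4) (nat_lit 4) (nat_lit 319) (nat_lit 212) (nat_lit 189)) (XT.lf (nat_lit 0) (nat_lit 36611838956) (nat_lit 76) (nat_lit 22682571746) (nat_lit 76) (nat_lit 17751854983) (nat_lit 3) (nat_lit 4) (nat_lit 4) (nat_lit 5) (nat_lit 4) (nat_lit 4) (nat_lit 320) (nat_lit 212) (nat_lit 188))) (XT.nd (nat_lit 78) (nat_lit 0) (nat_lit 0) (XT.lf (nat_lit 0) (nat_lit 41405782908) (nat_lit 76) (nat_lit 22219335451) (nat_lit 76) (nat_lit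 17183097120) (nat_lit 3) (nat_lit 4) (nat_lit 4) (nat_lit 5) (nat_lit 4) (nat_lit 4) (nat_lit 321) (nat_lit 212) (nat_lit 187)) (XT.lf (nat_lit 0) (nat_lit 46386212006) (nat_lit 76) (nat_lit 21755204226) (nat_lit 76) (nat_lit 16618469163) (nat_lit 3) (nat_lit 4) (nat_lit 4) (nat_lit 5) (nat_lit 4) (nat_lit 4) (nat_lit 322) (nat_lit 212) (nat_lit 186)))) (XT.nd (nat_lit 156) (nat_lit 0) (nat_lit 0) (XT.nd (nat_lit 78) (nat_lit 0) (nat_lit 0) (XT.lf (nat_lit 0) (nat_lit 51564984414) (nat_lit 76) (nat_lit 21289072996) (nat_lit 76) (nat_lit 16056626760) (nat_lit 3) (nat_lit 4) (nat_lit 4) (nat_lit 5) (nat_lit 4) (nat_lit 4) (nat_lit 323) (nat_lit 212) (nat_lit 185)) (XT.lf (nat_lit 0) (nat_lit 56954430543) (nat_lit 76) (nat_lit 20819831925) (nat_lit 76) (nat_lit 15496232190) (nat_lit 3) (nat_lit 4) (nat_lit 4) (nat_lit 5) (nat_lit 4) (nat_lit 4) (nat_lit 324) (nat_lit 212) (nat_lit 184)))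 (XT.nd (nat_lit 78) (nat_lit 0) (nat_lit 0) (XT.lf (nat_lit 0) (nat_lit 62567382408) (nat_lit 76) (nat_lit 20346363771) (nat_lit 76) (nat_lit 14935951180) (nat_lit 3) (nat_lit 4) (nat_lit 4) (nat_lit 5) (nat_lit 4) (nat_lit 4) (nat_lit 325) (nat_lit 212) (nat_lit 183)) (XT.lf (nat_lit 0) (nat_lit 68417204179) (nat_lit 76) (nat_lit 19867541230) (nat_lit 76) (nat_lit 14374449729) (nat_lit 3) (nat_lit 4) (nat_lit 4) (nat_lit 5) (nat_lit 4) (nat_lit 4) (nat_lit 326) (nat_lit 212) (nat_lit 182))))) (XT.nd (nat_lit 312) (nat_lit 0) (nat_lit 0) (XT.nd (nat_lit 156) (nat_lit 0) (nat_lit 0) (XT.nd (nat_lit 78) (nat_lit 0) (nat_lit 0) (XT.lf (nat_lit 0) (nat_lit 74517824003) (nat_lit 76) (nat_lit 19382224248) (nat_lit 76) (nat_lit 13810390928) (nat_lit 3) (nat_lit 4) (nat_lit 4) (nat_lit 5) (nat_lit 4) (nat_lit 4) (nat_lit 327) (nat_lit 212) (nat_lit 181)) (XT.lf (nat_lit 0) (nat_lit 80883767167)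 (nat_lit 76) (nat_lit 18889257308) (nat_lit 76) (nat_lit 13242431780) (nat_lit 3) (nat_lit 4) (nat_lit 4) (nat_lit 5) (nat_lit 4) (nat_lit 4) (nat_lit 328) (nat_lit 212) (nat_lit 180))) (XT.nd (nat_lit 78) (nat_lit 0) (nat_lit 0) (XT.lf (nat_lit 0) (nat_lit 87530190677) (nat_lit 76) (nat_lit 18387466680) (nat_lit 76) (nat_lit 12669220000) (nat_lit 3) (nat_lit 4) (nat_lit 4) (nat_lit 5) (nat_lit 4) (nat_lit 4) (nat_lit 329) (nat_lit 212) (nat_lit 179)) (XT.lf (nat_lit 0) (nat_lit 94472919351) (nat_lit 76) (nat_lit 17875657624) (nat_lit 76) (nat_lit 12089390801) (nat_lit 3) (nat_lit 4) (nat_lit 4) (nat_lit 5) (nat_lit 4) (nat_lit 4) (nat_lit 330) (nat_lit 212) (nat_lit 178)))) (XT.nd (nat_lit 156) (nat_lit 0) (nat_lit 0) (XT.nd (nat_lit 78) (nat_lit 0) (nat_lit 0) (XT.lf (nat_lit 0) (nat_lit 101728483497) (nat_lit 76) (nat_lit 17352611548) (nat_lit 76) (nat_lit 11501563634) (nat_lit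 3) (nat_lit 4) (nat_lit 4) (nat_lit 5) (nat_lit 4) (nat_lit 4) (nat_lit 331) (nat_lit 212) (nat_lit 177)) (XT.lf (nat_lit 0) (nat_lit 109314158265) (nat_lit 76) (nat_lit 16817083102) (nat_lit 76) (nat_lit 10904338913) (nat_lit 3) (nat_lit 4) (nat_lit 4) (nat_lit 5) (nat_lit 4) (nat_lit 4) (nat_lit 332) (nat_lit 212) (nat_lit 176))) (XT.nd (nat_lit 78) (nat_lit 0) (nat_lit 0) (XT.lf (nat_lit 0) (nat_lit 117248004788) (nat_lit 76) (nat_lit 16267797220) (nat_lit 76) (nat_lit 10296294673) (nat_lit 3) (nat_lit 4) (nat_lit 4) (nat_lit 5) (nat_lit 4) (nat_lit 4) (nat_lit 333) (nat_lit 212) (nat_lit 175)) (XT.lf (nat_lit 0) (nat_lit 125548913175) (nat_lit 76) (nat_lit 15703446078) (nat_lit 76) (nat_lit 9675983191) (nat_lit 3) (nat_lit 4) (nat_lit 4) (nat_lit 5) (nat_lit 4) (nat_lit 4) (nat_lit 334) (nat_lit 212) (nat_lit 174)))))) (XT.nd (nat_lit 624) (nat_lit 76) (nat_lit 0) (XT.nd (nat_lit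 312) (nat_lit 0) (nat_lit 0) (XT.nd (nat_lit 156) (nat_lit 0) (nat_lit 0) (XT.nd (nat_lit 78) (nat_lit 0) (nat_lit 0) (XT.lf (nat_lit 0) (nat_lit 134236647494) (nat_lit 76) (nat_lit 15122685983) (nat_lit 76) (nat_lit 9041927533) (nat_lit 3) (nat_lit 4) (nat_lit 4) (nat_lit 5) (nat_lit 4) (nat_lit 4) (nat_lit 335) (nat_lit 212) (nat_lit 173)) (XT.lf (nat_lit 0) (nat_lit 143331892827) (nat_lit 76) (nat_lit 14524134172) (nat_lit 76) (nat_lit 8392618043) (nat_lit 3) (nat_lit 4) (nat_lit 4) (nat_lit 5) (nat_lit 4) (nat_lit 4) (nat_lit 336) (nat_lit 212) (nat_lit 172))) (XT.nd (nat_lit 78) (nat_lit 0) (nat_lit 0) (XT.lf (nat_lit 0) (nat_lit 152856304520) (nat_lit 76) (nat_lit 13906365523) (nat_lit 76) (nat_lit 7726508748) (nat_lit 3) (nat_lit 4) (nat_lit 4) (nat_lit 5) (nat_lit 4) (nat_lit 4) (nat_lit 337) (nat_lit 212) (nat_lit 171)) (XT.lf (nat_lit 0) (nat_lit 162832559744) (nat_lit 76)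 (nat_lit 13267909157) (nat_lit 76) (nat_lit 7042013671) (nat_lit 3) (nat_lit 4) (nat_lit 4) (nat_lit 5) (nat_lit 4) (nat_lit 4) (nat_lit 338) (nat_lit 212) (nat_lit 170)))) (XT.nd (nat_lit 156) (nat_lit 0) (nat_lit 0) (XT.nd (nat_lit 78) (nat_lit 0) (nat_lit 0) (XT.lf (nat_lit 0) (nat_lit 173284411487) (nat_lit 76) (nat_lit 12607244941) (nat_lit 76) (nat_lit 6337503064) (nat_lit 3) (nat_lit 4) (nat_lit 4) (nat_lit 5) (nat_lit 4) (nat_lit 4) (nat_lit 339) (nat_lit 212) (nat_lit 169)) (XT.lf (nat_lit 0) (nat_lit 184236745111) (nat_lit 76) (nat_lit 11922799864) (nat_lit 76) (nat_lit 5611299519) (nat_lit 3) (nat_lit 4) (nat_lit 4) (nat_lit 5) (nat_lit 4) (nat_lit 4) (nat_lit 340) (nat_lit 212) (nat_lit 168))) (XT.nd (nat_lit 78) (nat_lit 0) (nat_lit 0) (XT.lf (nat_lit 0) (nat_lit 195715637600) (nat_lit 76) (nat_lit 11212944296) (nat_lit 76) (nat_lit 4861673981) (nat_lit 3) (nat_lit 4)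 (nat_lit 4) (nat_lit 5) (nat_lit 4) (nat_lit 4) (nat_lit 341) (nat_lit 212) (nat_lit 167)) (XT.lf (nat_lit 0) (nat_lit 207748419650) (nat_lit 76) (nat_lit 10475988103) (nat_lit 76) (nat_lit 4086841627) (nat_lit 3) (nat_lit 4) (nat_lit 4) (nat_lit 5) (nat_lit 4) (nat_lit 4) (nat_lit 342) (nat_lit 212) (nat_lit 166))))) (XT.nd (nat_lit 312) (nat_lit 76) (nat_lit 0) (XT.nd (nat_lit 156) (nat_lit 0) (nat_lit 0) (XT.nd (nat_lit 78) (nat_lit 0) (nat_lit 0) (XT.lf (nat_lit 0) (nat_lit 220363740744) (nat_lit 76) (nat_lit 9710176628) (nat_lit 76) (nat_lit 3284957618) (nat_lit 3) (nat_lit 4) (nat_lit 4) (nat_lit 5) (nat_lit 4) (nat_lit 4) (nat_lit 343) (nat_lit 212) (nat_lit 165)) (XT.lf (nat_lit 0) (nat_lit 233591637359) (nat_lit 76) (nat_lit 8913686511) (nat_lit 76) (nat_lit 2454112706) (nat_lit 3) (nat_lit 4) (nat_lit 4) (nat_lit 5) (nat_lit 4) (nat_lit 4) (nat_lit 344) (nat_lit 212) (nat_lit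 164))) (XT.nd (nat_lit 78) (nat_lit 0) (nat_lit 0) (XT.lf (nat_lit 0) (nat_lit 247463604488) (nat_lit 76) (nat_lit 8084621347) (nat_lit 76) (nat_lit 1592328689) (nat_lit 3) (nat_lit 4) (nat_lit 4) (nat_lit 5) (nat_lit 4) (nat_lit 4) (nat_lit 345) (nat_lit 212) (nat_lit 163)) (XT.lf (nat_lit 0) (nat_lit 262012670624) (nat_lit 76) (nat_lit 7221007171) (nat_lit 76) (nat_lit 697553701) (nat_lit 3) (nat_lit 4) (nat_lit 4) (nat_lit 5) (nat_lit 4) (nat_lit 4) (nat_lit 346) (nat_lit 212) (nat_lit 162)))) (XT.nd (nat_lit 156) (nat_lit 0) (nat_lit 0) (XT.nd (nat_lit 78) (nat_lit 0) (nat_lit 0) (XT.lf (nat_lit 0) (nat_lit 224906257) (nat_lit 152) (nat_lit 6092072604) (nat_lit 76) (nat_lit 277044761246) (nat_lit 2) (nat_lit 5) (nat_lit 4) (nat_lit 5) (nat_lit 3) (nat_lit 4) (nat_lit 347) (nat_lit 212) (nat_lit 161)) (XT.lf (nat_lit 0) (nat_lit 1161180603) (nat_lit 152) (nat_lit 4200973971) (nat_lit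 76) (nat_lit 292101511310) (nat_lit 2) (nat_lit 5) (nat_lit 4) (nat_lit 5) (nat_lit 3) (nat_lit 4) (nat_lit 348) (nat_lit 212) (nat_lit 160))) (XT.nd (nat_lit 78) (nat_lit 0) (nat_lit 0) (XT.lf (nat_lit 0) (nat_lit 2135824633) (nat_lit 152) (nat_lit 2229871590) (nat_lit 76) (nat_lit 307905433155) (nat_lit 2) (nat_lit 5) (nat_lit 4) (nat_lit 5) (nat_lit 3) (nat_lit 4) (nat_lit 349) (nat_lit 212) (nat_lit 159)) (XT.lf (nat_lit 0) (nat_lit 3151158929) (nat_lit 152) (nat_lit 174072360) (nat_lit 76) (nat_lit 324494155166) (nat_lit 2) (nat_lit 5) (nat_lit 4) (nat_lit 5) (nat_lit 3) (nat_lit 4) (nat_lit 350) (nat_lit 212) (nat_lit 158))))))) (XT.nd (nat_lit 33618) (nat_lit 0) (nat_lit 152) (XT.nd (nat_lit 624) (nat_lit 0) (nat_lit 0) (XT.nd (nat_lit 312) (nat_lit 0) (nat_lit 0) (XT.nd (nat_lit 156) (nat_lit 0) (nat_lit 0) (XT.nd (nat_lit 78) (nat_lit 0) (nat_lit 0) (XT.lf (nat_lit 0) (nat_lit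 2036499169) (nat_lit 76) (nat_lit 2204897243) (nat_lit 152) (nat_lit 339902470589) (nat_lit 1) (nat_lit 5) (nat_lit 2) (nat_lit 5) (nat_lit 3) (nat_lit 4) (nat_lit 351) (nat_lit 212) (nat_lit 157)) (XT.lf (nat_lit 0) (nat_lit 4350657200) (nat_lit 76) (nat_lit 1030939557) (nat_lit 152) (nat_lit 355903218877) (nat_lit 1) (nat_lit 5) (nat_lit 2) (nat_lit 5) (nat_lit 3) (nat_lit 4) (nat_lit 352) (nat_lit 212) (nat_lit 156))) (XT.nd (nat_lit 78) (nat_lit 0) (nat_lit 0) (XT.lf (nat_lit 0) (nat_lit 6574734851) (nat_lit 152) (nat_lit 372518096249) (nat_lit 0) (nat_lit 190200031) (nat_lit 1) (nat_lit 5) (nat_lit 3) (nat_lit 4) (nat_lit 1) (nat_lit 4) (nat_lit 353) (nat_lit 212) (nat_lit 155)) (XT.lf (nat_lit 0) (nat_lit 7837552763) (nat_lit 152) (nat_lit 388910187154) (nat_lit 0) (nat_lit 1432931406) (nat_lit 1) (nat_lit 5) (nat_lit 3) (nat_lit 4) (nat_lit 1) (nat_lit 4) (nat_lit 354) (nat_lit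 212) (nat_lit 154)))) (XT.nd (nat_lit 156) (nat_lit 0) (nat_lit 0) (XT.nd (nat_lit 78) (nat_lit 0) (nat_lit 0) (XT.lf (nat_lit 0) (nat_lit 9156961347) (nat_lit 152) (nat_lit 406133364081) (nat_lit 0) (nat_lit 2733209954) (nat_lit 1) (nat_lit 5) (nat_lit 3) (nat_lit 4) (nat_lit 1) (nat_lit 4) (nat_lit 355) (nat_lit 212) (nat_lit 153)) (XT.lf (nat_lit 0) (nat_lit 10536102052) (nat_lit 152) (nat_lit 424228634594) (nat_lit 0) (nat_lit 4094131578) (nat_lit 1) (nat_lit 5) (nat_lit 3) (nat_lit 4) (nat_lit 1) (nat_lit 4) (nat_lit 356) (nat_lit 212) (nat_lit 152))) (XT.nd (nat_lit 78) (nat_lit 0) (nat_lit 0) (XT.lf (nat_lit 0) (nat_lit 11978258546) (nat_lit 152) (nat_lit 443239082672) (nat_lit 0) (nat_lit 5518936566) (nat_lit 1) (nat_lit 5) (nat_lit 3) (nat_lit 4) (nat_lit 1) (nat_lit 4) (nat_lit 357) (nat_lit 212) (nat_lit 151)) (XT.lf (nat_lit 0) (nat_lit 13486864536) (nat_lit 152) (nat_lit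 463209971285) (nat_lit 0) (nat_lit 7011017312) (nat_lit 1) (nat_lit 5) (nat_lit 3) (nat_lit 4) (nat_lit 1) (nat_lit 4) (nat_lit 358) (nat_lit 212) (nat_lit 150))))) (XT.nd (nat_lit 32682) (nat_lit 0) (nat_lit 380) (XT.nd (nat_lit 32526) (nat_lit 0) (nat_lit 380) (XT.nd (nat_lit 32448) (nat_lit 0) (nat_lit 456) (XT.lf (nat_lit 0) (nat_lit 15065511939) (nat_lit 152) (nat_lit 484188850168) (nat_lit 0) (nat_lit 8573926389) (nat_lit 1) (nat_lit 5) (nat_lit 3) (nat_lit 4) (nat_lit 1) (nat_lit 4) (nat_lit 359) (nat_lit 212) (nat_lit 149)) (XT.lf (nat_lit 0) (nat_lit 4829815602) (nat_lit 152) (nat_lit 2104367868) (nat_lit 0) (nat_lit 4829815602) (nat_lit 7) (nat_lit 5) (nat_lit 9) (nat_lit 4) (nat_lit 7) (nat_lit 4) (nat_lit 294) (nat_lit 213) (nat_lit 213))) (XT.nd (nat_lit 78) (nat_lit 0) (nat_lit 0) (XT.lf (nat_lit 0) (nat_lit 555649521) (nat_lit 76) (nat_lit 12182969856) (nat_lit 76)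 (nat_lit 11807769697) (nat_lit 6) (nat_lit 4) (nat_lit 7) (nat_lit 5) (nat_lit 7) (nat_lit 4) (nat_lit 295) (nat_lit 213) (nat_lit 212)) (XT.lf (nat_lit 0) (nat_lit 5543113369) (nat_lit 76) (nat_lit 10403321955) (nat_lit 76) (nat_lit 9670788310) (nat_lit 6) (nat_lit 4) (nat_lit 7) (nat_lit 5) (nat_lit 7) (nat_lit 4) (nat_lit 296) (nat_lit 213) (nat_lit 211)))) (XT.nd (nat_lit 156) (nat_lit 0) (nat_lit 0) (XT.nd (nat_lit 78) (nat_lit 0) (nat_lit 0) (XT.lf (nat_lit 0) (nat_lit 10626370909) (nat_lit 76) (nat_lit 8596462954) (nat_lit 76) (nat_lit 7523611705) (nat_lit 6) (nat_lit 4) (nat_lit 7) (nat_lit 5) (nat_lit 7) (nat_lit 4) (nat_lit 297) (nat_lit 213) (nat_lit 210)) (XT.lf (nat_lit 0) (nat_lit 15817525137) (nat_lit 76) (nat_lit 6758090811) (nat_lit 76) (nat_lit 5361127556) (nat_lit 6) (nat_lit 4) (nat_lit 7) (nat_lit 5) (nat_lit 7) (nat_lit 4) (nat_lit 298) (nat_lit 213) (nat_lit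 209))) (XT.nd (nat_lit 78) (nat_lit 0) (nat_lit 0) (XT.lf (nat_lit 0) (nat_lit 21128935942) (nat_lit 76) (nat_lit 4883828446) (nat_lit 76) (nat_lit 3178187093) (nat_lit 6) (nat_lit 4) (nat_lit 7) (nat_lit 5) (nat_lit 7) (nat_lit 4) (nat_lit 299) (nat_lit 213) (nat_lit 208)) (XT.lf (nat_lit 0) (nat_lit 26573249542) (nat_lit 76) (nat_lit 2969213333) (nat_lit 76) (nat_lit 969592836) (nat_lit 6) (nat_lit 4) (nat_lit 7) (nat_lit 5) (nat_lit 7) (nat_lit 4) (nat_lit 300) (nat_lit 213) (nat_lit 207)))))) (XT.nd (nat_lit 624) (nat_lit 76) (nat_lit 0) (XT.nd (nat_lit 312) (nat_lit 0) (nat_lit 0) (XT.nd (nat_lit 156) (nat_lit 0) (nat_lit 0) (XT.nd (nat_lit 78) (nat_lit 0) (nat_lit 0) (XT.lf (nat_lit 0) (nat_lit 248348703) (nat_lit 76) (nat_lit 984797313) (nat_lit 152) (nat_lit 30668870446) (nat_lit 4) (nat_lit 5) (nat_lit 5) (nat_lit 5) (nat_lit 6) (nat_lit 4) (nat_lit 301) (nat_lit 213) (nat_lit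 206)) (XT.lf (nat_lit 0) (nat_lit 3522294689) (nat_lit 152) (nat_lit 28740837169) (nat_lit 0) (nat_lit 1097296231) (nat_lit 4) (nat_lit 5) (nat_lit 6) (nat_lit 4) (nat_lit 4) (nat_lit 4) (nat_lit 302) (nat_lit 213) (nat_lit 205))) (XT.nd (nat_lit 78) (nat_lit 0) (nat_lit 0) (XT.lf (nat_lit 0) (nat_lit 5869571169) (nat_lit 152) (nat_lit 25822471658) (nat_lit 0) (nat_lit 3202715344) (nat_lit 4) (nat_lit 5) (nat_lit 6) (nat_lit 4) (nat_lit 4) (nat_lit 4) (nat_lit 303) (nat_lit 213) (nat_lit 204)) (XT.lf (nat_lit 0) (nat_lit 8265188766) (nat_lit 152) (nat_lit 22876247291) (nat_lit 0) (nat_lit 5367992590) (nat_lit 4) (nat_lit 5) (nat_lit 6) (nat_lit 4) (nat_lit 4) (nat_lit 4) (nat_lit 304) (nat_lit 213) (nat_lit 203)))) (XT.nd (nat_lit 156) (nat_lit 0) (nat_lit 0) (XT.nd (nat_lit 78) (nat_lit 0) (nat_lit 0) (XT.lf (nat_lit 0) (nat_lit 10714851331) (nat_lit 152) (nat_lit 19895149248) (nat_lit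 0) (nat_lit 7598283393) (nat_lit 4) (nat_lit 5) (nat_lit 6) (nat_lit 4) (nat_lit 4) (nat_lit 4) (nat_lit 305) (nat_lit 213) (nat_lit 202)) (XT.lf (nat_lit 0) (nat_lit 13224391394) (nat_lit 152) (nat_lit 16872079677) (nat_lit 0) (nat_lit 9898897968) (nat_lit 4) (nat_lit 5) (nat_lit 6) (nat_lit 4) (nat_lit 4) (nat_lit 4) (nat_lit 306) (nat_lit 213) (nat_lit 201))) (XT.nd (nat_lit 78) (nat_lit 0) (nat_lit 0) (XT.lf (nat_lit 0) (nat_lit 15799784051) (nat_lit 152) (nat_lit 13799840793) (nat_lit 0) (nat_lit 12275313968) (nat_lit 4) (nat_lit 5) (nat_lit 6) (nat_lit 4) (nat_lit 4) (nat_lit 4) (nat_lit 307) (nat_lit 213) (nat_lit 200)) (XT.lf (nat_lit 0) (nat_lit 18447161187) (nat_lit 152) (nat_lit 10671117741) (nat_lit 0) (nat_lit 14733189529) (nat_lit 4) (nat_lit 5) (nat_lit 6) (nat_lit 4) (nat_lit 4) (nat_lit 4) (nat_lit 308) (nat_lit 213) (nat_lit 199))))) (XT.nd (nat_lit 312) (nat_lit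 0) (nat_lit 0) (XT.nd (nat_lit 156) (nat_lit 76) (nat_lit 0) (XT.nd (nat_lit 78) (nat_lit 0) (nat_lit 0) (XT.lf (nat_lit 0) (nat_lit 21172826083) (nat_lit 152) (nat_lit 7478461181) (nat_lit 0) (nat_lit 17278376733) (nat_lit 4) (nat_lit 5) (nat_lit 6) (nat_lit 4) (nat_lit 4) (nat_lit 4) (nat_lit 309) (nat_lit 213) (nat_lit 198)) (XT.lf (nat_lit 0) (nat_lit 23983268417) (nat_lit 152) (nat_lit 4214269551) (nat_lit 0) (nat_lit 19916935550) (nat_lit 4) (nat_lit 5) (nat_lit 6) (nat_lit 4) (nat_lit 4) (nat_lit 4) (nat_lit 310) (nat_lit 213) (nat_lit 197))) (XT.nd (nat_lit 78) (nat_lit 76) (nat_lit 0) (XT.lf (nat_lit 0) (nat_lit 26885179718) (nat_lit 152) (nat_lit 870770964) (nat_lit 0) (nat_lit 22655148265) (nat_lit 4) (nat_lit 5) (nat_lit 6) (nat_lit 4) (nat_lit 4) (nat_lit 4) (nat_lit 311) (nat_lit 213) (nat_lit 196)) (XT.lf (nat_lit 0) (nat_lit 2644640295) (nat_lit 76) (nat_lit 27282119250)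 (nat_lit 76) (nat_lit 22896184381) (nat_lit 3) (nat_lit 4) (nat_lit 4) (nat_lit 5) (nat_lit 4) (nat_lit 4) (nat_lit 312) (nat_lit 213) (nat_lit 195)))) (XT.nd (nat_lit 156) (nat_lit 0) (nat_lit 0) (XT.nd (nat_lit 78) (nat_lit 0) (nat_lit 0) (XT.lf (nat_lit 0) (nat_lit 6287434883) (nat_lit 76) (nat_lit 26802010301) (nat_lit 76) (nat_lit 22267595988) (nat_lit 3) (nat_lit 4) (nat_lit 4) (nat_lit 5) (nat_lit 4) (nat_lit 4) (nat_lit 313) (nat_lit 213) (nat_lit 194)) (XT.lf (nat_lit 0) (nat_lit 10037494501) (nat_lit 76) (nat_lit 26329227646) (nat_lit 76) (nat_lit 21653404339) (nat_lit 3) (nat_lit 4) (nat_lit 4) (nat_lit 5) (nat_lit 4) (nat_lit 4) (nat_lit 314) (nat_lit 213) (nat_lit 193))) (XT.nd (nat_lit 78) (nat_lit 0) (nat_lit 0) (XT.lf (nat_lit 0) (nat_lit 13903747861) (nat_lit 76) (nat_lit 25862645612) (nat_lit 76) (nat_lit 21052147073) (nat_lit 3) (nat_lit 4) (nat_lit 4) (nat_lit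 5) (nat_lit 4) (nat_lit 4) (nat_lit 315) (nat_lit 213) (nat_lit 192)) (XT.lf (nat_lit 0) (nat_lit 17895400328) (nat_lit 76) (nat_lit 25401153290) (nat_lit 76) (nat_lit 20462392625) (nat_lit 3) (nat_lit 4) (nat_lit 4) (nat_lit 5) (nat_lit 4) (nat_lit 4) (nat_lit 316) (nat_lit 213) (nat_lit 191))))))))
noncomputable def xc28 : XT := (XT.nd (nat_lit 1248) (nat_lit 76) (nat_lit 0) (XT.nd (nat_lit 624) (nat_lit 0) (nat_lit 0) (XT.nd (nat_lit 312) (nat_lit 0) (nat_lit 0) (XT.nd (nat_lit 156) (nat_lit 0) (nat_lit 0) (XT.nd (nat_lit 78) (nat_lit 0) (nat_lit 0) (XT.lf (nat_lit 0) (nat_lit 22021955837) (nat_lit 76) (nat_lit 24943651888) (nat_lit 76) (nat_lit 19882736817) (nat_lit 3) (nat_lit 4) (nat_lit 4) (nat_lit 5) (nat_lit 4) (nat_lit 4) (nat_lit 317) (nat_lit 213) (nat_lit 190)) (XT.lf (nat_lit 0) (nat_lit 26293239520) (nat_lit 76) (nat_lit 24489052118) (nat_lit 76) (nat_lit 19311799517)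 (nat_lit 3) (nat_lit 4) (nat_lit 4) (nat_lit 5) (nat_lit 4) (nat_lit 4) (nat_lit 318) (nat_lit 213) (nat_lit 189))) (XT.nd (nat_lit 78) (nat_lit 0) (nat_lit 0) (XT.lf (nat_lit 0) (nat_lit 30719421100) (nat_lit 76) (nat_lit 24036271598) (nat_lit 76) (nat_lit 18748221351) (nat_lit 3) (nat_lit 4) (nat_lit 4) (nat_lit 5) (nat_lit 4) (nat_lit 4) (nat_lit 319) (nat_lit 213) (nat_lit 188)) (XT.lf (nat_lit 0) (nat_lit 35311039105) (nat_lit 76) (nat_lit 23584232281) (nat_lit 76) (nat_lit 18190660465) (nat_lit 3) (nat_lit 4) (nat_lit 4) (nat_lit 5) (nat_lit 4) (nat_lit 4) (nat_lit 320) (nat_lit 213) (nat_lit 187)))) (XT.nd (nat_lit 156) (nat_lit 0) (nat_lit 0) (XT.nd (nat_lit 78) (nat_lit 0) (nat_lit 0) (XT.lf (nat_lit 0) (nat_lit 40079025959) (nat_lit 76) (nat_lit 23131857881) (nat_lit 76) (nat_lit 17637789333) (nat_lit 3) (nat_lit 4) (nat_lit 4) (nat_lit 5) (nat_lit 4) (nat_lit 4) (nat_lit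 321) (nat_lit 213) (nat_lit 186)) (XT.lf (nat_lit 0) (nat_lit 45034734011) (nat_lit 76) (nat_lit 22678071318) (nat_lit 76) (nat_lit 17088291596) (nat_lit 3) (nat_lit 4) (nat_lit 4) (nat_lit 5) (nat_lit 4) (nat_lit 4) (nat_lit 322) (nat_lit 213) (nat_lit 185))) (XT.nd (nat_lit 78) (nat_lit 0) (nat_lit 0) (XT.lf (nat_lit 0) (nat_lit 50189962565) (nat_lit 76) (nat_lit 22221792146) (nat_lit 76) (nat_lit 16540858926) (nat_lit 3) (nat_lit 4) (nat_lit 4) (nat_lit 5) (nat_lit 4) (nat_lit 4) (nat_lit 323) (nat_lit 213) (nat_lit 184)) (XT.lf (nat_lit 0) (nat_lit 55556985977) (nat_lit 76) (nat_lit 21761933987) (nat_lit 76) (nat_lit 15994187912) (nat_lit 3) (nat_lit 4) (nat_lit 4) (nat_lit 5) (nat_lit 4) (nat_lit 4) (nat_lit 324) (nat_lit 213) (nat_lit 183))))) (XT.nd (nat_lit 312) (nat_lit 0) (nat_lit 0) (XT.nd (nat_lit 156) (nat_lit 0) (nat_lit 0) (XT.nd (nat_lit 78) (nat_lit 0) (nat_lit 0)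 (XT.lf (nat_lit 0) (nat_lit 61148582872) (nat_lit 76) (nat_lit 21297401941) (nat_lit 76) (nat_lit 15446976955) (nat_lit 3) (nat_lit 4) (nat_lit 4) (nat_lit 5) (nat_lit 4) (nat_lit 4) (nat_lit 325) (nat_lit 213) (nat_lit 182)) (XT.lf (nat_lit 0) (nat_lit 66978066577) (nat_lit 76) (nat_lit 20827089979) (nat_lit 76) (nat_lit 14897923174) (nat_lit 3) (nat_lit 4) (nat_lit 4) (nat_lit 5) (nat_lit 4) (nat_lit 4) (nat_lit 326) (nat_lit 213) (nat_lit 181))) (XT.nd (nat_lit 78) (nat_lit 0) (nat_lit 0) (XT.lf (nat_lit 0) (nat_lit 73059316815) (nat_lit 76) (nat_lit 20349878310) (nat_lit 76) (nat_lit 14345719296) (nat_lit 3) (nat_lit 4) (nat_lit 4) (nat_lit 5) (nat_lit 4) (nat_lit 4) (nat_lit 327) (nat_lit 213) (nat_lit 180)) (XT.lf (nat_lit 0) (nat_lit 79406812754) (nat_lit 76) (nat_lit 19864630716) (nat_lit 76) (nat_lit 13789050551) (nat_lit 3) (nat_lit 4) (nat_lit 4) (nat_lit 5) (nat_lit 4)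 (nat_lit 4) (nat_lit 328) (nat_lit 213) (nat_lit 179)))) (XT.nd (nat_lit 156) (nat_lit 0) (nat_lit 0) (XT.nd (nat_lit 78) (nat_lit 0) (nat_lit 0) (XT.lf (nat_lit 0) (nat_lit 86035667478) (nat_lit 76) (nat_lit 19370191846) (nat_lit 76) (nat_lit 13226591537) (nat_lit 3) (nat_lit 4) (nat_lit 4) (nat_lit 5) (nat_lit 4) (nat_lit 4) (nat_lit 329) (nat_lit 213) (nat_lit 178)) (XT.lf (nat_lit 0) (nat_lit 92961663975) (nat_lit 76) (nat_lit 18865384464) (nat_lit 76) (nat_lit 12657003066) (nat_lit 3) (nat_lit 4) (nat_lit 4) (nat_lit 5) (nat_lit 4) (nat_lit 4) (nat_lit 330) (nat_lit 213) (nat_lit 177))) (XT.nd (nat_lit 78) (nat_lit 0) (nat_lit 0) (XT.lf (nat_lit 0) (nat_lit 100201292714) (nat_lit 76) (nat_lit 18349006648) (nat_lit 76) (nat_lit 12078928974) (nat_lit 3) (nat_lit 4) (nat_lit 4) (nat_lit 5) (nat_lit 4) (nat_lit 4) (nat_lit 331) (nat_lit 213) (nat_lit 176)) (XT.lf (nat_lit 0) (nat_lit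 107771790905) (nat_lit 76) (nat_lit 17819828927) (nat_lit 76) (nat_lit 11490992895) (nat_lit 3) (nat_lit 4) (nat_lit 4) (nat_lit 5) (nat_lit 4) (nat_lit 4) (nat_lit 332) (nat_lit 213) (nat_lit 175)))))) (XT.nd (nat_lit 624) (nat_lit 76) (nat_lit 0) (XT.nd (nat_lit 312) (nat_lit 0) (nat_lit 0) (XT.nd (nat_lit 156) (nat_lit 0) (nat_lit 0) (XT.nd (nat_lit 78) (nat_lit 0) (nat_lit 0) (XT.lf (nat_lit 0) (nat_lit 115691183543) (nat_lit 76) (nat_lit 17276591355) (nat_lit 76) (nat_lit 10891794982) (nat_lit 3) (nat_lit 4) (nat_lit 4) (nat_lit 5) (nat_lit 4) (nat_lit 4) (nat_lit 333) (nat_lit 213) (nat_lit 174)) (XT.lf (nat_lit 0) (nat_lit 123978326327) (nat_lit 76) (nat_lit 16718000507) (nat_lit 76) (nat_lit 10279908572) (nat_lit 3) (nat_lit 4) (nat_lit 4) (nat_lit 5) (nat_lit 4) (nat_lit 4) (nat_lit 334) (nat_lit 213) (nat_lit 173))) (XT.nd (nat_lit 78) (nat_lit 0) (nat_lit 0) (XT.lf (nat_lit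 0) (nat_lit 132652950548) (nat_lit 76) (nat_lit 16142726407) (nat_lit 76) (nat_lit 9653876793) (nat_lit 3) (nat_lit 4) (nat_lit 4) (nat_lit 5) (nat_lit 4) (nat_lit 4) (nat_lit 335) (nat_lit 213) (nat_lit 172)) (XT.lf (nat_lit 0) (nat_lit 141735710073) (nat_lit 76) (nat_lit 15549399353) (nat_lit 76) (nat_lit 9012209093) (nat_lit 3) (nat_lit 4) (nat_lit 4) (nat_lit 5) (nat_lit 4) (nat_lit 4) (nat_lit 336) (nat_lit 213) (nat_lit 171)))) (XT.nd (nat_lit 156) (nat_lit 0) (nat_lit 0) (XT.nd (nat_lit 78) (nat_lit 0) (nat_lit 0) (XT.lf (nat_lit 0) (nat_lit 151248230520) (nat_lit 76) (nat_lit 14936606663) (nat_lit 76) (nat_lit 8353377692) (nat_lit 3) (nat_lit 4) (nat_lit 4) (nat_lit 5) (nat_lit 4) (nat_lit 4) (nat_lit 337) (nat_lit 213) (nat_lit 170)) (XT.lf (nat_lit 0) (nat_lit 161213160748) (nat_lit 76) (nat_lit 14302889306) (nat_lit 76) (nat_lit 7675813944) (nat_lit 3) (nat_lit 4) (nat_lit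 4) (nat_lit 5) (nat_lit 4) (nat_lit 4) (nat_lit 338) (nat_lit 213) (nat_lit 169))) (XT.nd (nat_lit 78) (nat_lit 0) (nat_lit 0) (XT.lf (nat_lit 0) (nat_lit 171654226780) (nat_lit 76) (nat_lit 13646738431) (nat_lit 76) (nat_lit 6977904601) (nat_lit 3) (nat_lit 4) (nat_lit 4) (nat_lit 5) (nat_lit 4) (nat_lit 4) (nat_lit 339) (nat_lit 213) (nat_lit 168)) (XT.lf (nat_lit 0) (nat_lit 182596288298) (nat_lit 76) (nat_lit 12966591775) (nat_lit 76) (nat_lit 6257987975) (nat_lit 3) (nat_lit 4) (nat_lit 4) (nat_lit 5) (nat_lit 4) (nat_lit 4) (nat_lit 340) (nat_lit 213) (nat_lit 167))))) (XT.nd (nat_lit 312) (nat_lit 76) (nat_lit 0) (XT.nd (nat_lit 156) (nat_lit 0) (nat_lit 0) (XT.nd (nat_lit 78) (nat_lit 0) (nat_lit 0) (XT.lf (nat_lit 0) (nat_lit 194065397830) (nat_lit 76) (nat_lit 12260829940) (nat_lit 76) (nat_lit 5514349979) (nat_lit 3) (nat_lit 4) (nat_lit 4) (nat_lit 5) (nat_lit 4) (nat_lit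 4) (nat_lit 341) (nat_lit 213) (nat_lit 166)) (XT.lf (nat_lit 0) (nat_lit 206088862778) (nat_lit 76) (nat_lit 11527772541) (nat_lit 76) (nat_lit 4745220046) (nat_lit 3) (nat_lit 4) (nat_lit 4) (nat_lit 5) (nat_lit 4) (nat_lit 4) (nat_lit 342) (nat_lit 213) (nat_lit 165))) (XT.nd (nat_lit 78) (nat_lit 0) (nat_lit 0) (XT.lf (nat_lit 0) (nat_lit 218695310441) (nat_lit 76) (nat_lit 10765674204) (nat_lit 76) (nat_lit 3948766913) (nat_lit 3) (nat_lit 4) (nat_lit 4) (nat_lit 5) (nat_lit 4) (nat_lit 4) (nat_lit 343) (nat_lit 213) (nat_lit 164)) (XT.lf (nat_lit 0) (nat_lit 231914756170) (nat_lit 76) (nat_lit 9972720408) (nat_lit 76) (nat_lit 3123094266) (nat_lit 3) (nat_lit 4) (nat_lit 4) (nat_lit 5) (nat_lit 4) (nat_lit 4) (nat_lit 344) (nat_lit 213) (nat_lit 163)))) (XT.nd (nat_lit 156) (nat_lit 76) (nat_lit 0) (XT.nd (nat_lit 78) (nat_lit 0) (nat_lit 0) (XT.lf (nat_lit 0) (nat_lit 245778674836)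 (nat_lit 76) (nat_lit 9147023169) (nat_lit 76) (nat_lit 2266236215) (nat_lit 3) (nat_lit 4) (nat_lit 4) (nat_lit 5) (nat_lit 4) (nat_lit 4) (nat_lit 345) (nat_lit 213) (nat_lit 162)) (XT.lf (nat_lit 0) (nat_lit 260320075768) (nat_lit 76) (nat_lit 8286616540) (nat_lit 76) (nat_lit 1376152622) (nat_lit 3) (nat_lit 4) (nat_lit 4) (nat_lit 5) (nat_lit 4) (nat_lit 4) (nat_lit 346) (nat_lit 213) (nat_lit 161))) (XT.nd (nat_lit 78) (nat_lit 76) (nat_lit 0) (XT.lf (nat_lit 0) (nat_lit 275573581351) (nat_lit 76) (nat_lit 7389451935) (nat_lit 76) (nat_lit 450724242) (nat_lit 3) (nat_lit 4) (nat_lit 4) (nat_lit 5) (nat_lit 4) (nat_lit 4) (nat_lit 347) (nat_lit 213) (nat_lit 160)) (XT.lf (nat_lit 0) (nat_lit 495857053) (nat_lit 152) (nat_lit 5949138614) (nat_lit 76) (nat_lit 291071254822) (nat_lit 2) (nat_lit 5) (nat_lit 4) (nat_lit 5) (nat_lit 3) (nat_lit 4) (nat_lit 348) (nat_lit 213) (nat_lit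 159)))))))
noncomputable def xc29 : XT := (XT.nd (nat_lit 33462) (nat_lit 0) (nat_lit 152) (XT.nd (nat_lit 624) (nat_lit 0) (nat_lit 0) (XT.nd (nat_lit 312) (nat_lit 0) (nat_lit 0) (XT.nd (nat_lit 156) (nat_lit 76) (nat_lit 0) (XT.nd (nat_lit 78) (nat_lit 0) (nat_lit 0) (XT.lf (nat_lit 0) (nat_lit 1466578187) (nat_lit 152) (nat_lit 3984796365) (nat_lit 76) (nat_lit 306872544508) (nat_lit 2) (nat_lit 5) (nat_lit 4) (nat_lit 5) (nat_lit 3) (nat_lit 4) (nat_lit 349) (nat_lit 213) (nat_lit 158)) (XT.lf (nat_lit 0) (nat_lit 2478176392) (nat_lit 152) (nat_lit 1935435356) (nat_lit 76) (nat_lit 323458759700) (nat_lit 2) (nat_lit 5) (nat_lit 4) (nat_lit 5) (nat_lit 3) (nat_lit 4) (nat_lit 350) (nat_lit 213) (nat_lit 157))) (XT.nd (nat_lit 78) (nat_lit 0) (nat_lit 0) (XT.lf (nat_lit 0) (nat_lit 210563180) (nat_lit 76) (nat_lit 3325784536) (nat_lit 152) (nat_lit 340662115689) (nat_lit 1) (nat_lit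 5) (nat_lit 2) (nat_lit 5) (nat_lit 3) (nat_lit 4) (nat_lit 351) (nat_lit 213) (nat_lit 156)) (XT.lf (nat_lit 0) (nat_lit 2518688469) (nat_lit 76) (nat_lit 2154376659) (nat_lit 152) (nat_lit 356666528773) (nat_lit 1) (nat_lit 5) (nat_lit 2) (nat_lit 5) (nat_lit 3) (nat_lit 4) (nat_lit 352) (nat_lit 213) (nat_lit 155)))) (XT.nd (nat_lit 156) (nat_lit 0) (nat_lit 0) (XT.nd (nat_lit 78) (nat_lit 0) (nat_lit 0) (XT.lf (nat_lit 0) (nat_lit 4930441814) (nat_lit 76) (nat_lit 929376587) (nat_lit 152) (nat_lit 373478317587) (nat_lit 1) (nat_lit 5) (nat_lit 2) (nat_lit 5) (nat_lit 3) (nat_lit 4) (nat_lit 353) (nat_lit 213) (nat_lit 154)) (XT.lf (nat_lit 0) (nat_lit 7104930909) (nat_lit 152) (nat_lit 390790875627) (nat_lit 0) (nat_lit 340861912) (nat_lit 1) (nat_lit 5) (nat_lit 3) (nat_lit 4) (nat_lit 1) (nat_lit 4) (nat_lit 354) (nat_lit 213) (nat_lit 153))) (XT.nd (nat_lit 78) (nat_lit 0)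 (nat_lit 0) (XT.lf (nat_lit 0) (nat_lit 8421296416) (nat_lit 152) (nat_lit 408019386574) (nat_lit 0) (nat_lit 1639008338) (nat_lit 1) (nat_lit 5) (nat_lit 3) (nat_lit 4) (nat_lit 1) (nat_lit 4) (nat_lit 355) (nat_lit 213) (nat_lit 152)) (XT.lf (nat_lit 0) (nat_lit 9797538952) (nat_lit 152) (nat_lit 426119737106) (nat_lit 0) (nat_lit 2997899368) (nat_lit 1) (nat_lit 5) (nat_lit 3) (nat_lit 4) (nat_lit 1) (nat_lit 4) (nat_lit 356) (nat_lit 213) (nat_lit 151))))) (XT.nd (nat_lit 32526) (nat_lit 0) (nat_lit 380) (XT.nd (nat_lit 156) (nat_lit 0) (nat_lit 0) (XT.nd (nat_lit 78) (nat_lit 0) (nat_lit 0) (XT.lf (nat_lit 0) (nat_lit 11236935286) (nat_lit 152) (nat_lit 445135023296) (nat_lit 0) (nat_lit 4420770458) (nat_lit 1) (nat_lit 5) (nat_lit 3) (nat_lit 4) (nat_lit 1) (nat_lit 4) (nat_lit 357) (nat_lit 213) (nat_lit 150)) (XT.lf (nat_lit 0) (nat_lit 12742912551) (nat_lit 152) (nat_lit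 465110519636) (nat_lit 0) (nat_lit 5911009395) (nat_lit 1) (nat_lit 5) (nat_lit 3) (nat_lit 4) (nat_lit 1) (nat_lit 4) (nat_lit 358) (nat_lit 213) (nat_lit 149))) (XT.nd (nat_lit 32292) (nat_lit 0) (nat_lit 456) (XT.lf (nat_lit 0) (nat_lit 14319056408) (nat_lit 152) (nat_lit 486093786831) (nat_lit 0) (nat_lit 7472164369) (nat_lit 1) (nat_lit 5) (nat_lit 3) (nat_lit 4) (nat_lit 1) (nat_lit 4) (nat_lit 359) (nat_lit 213) (nat_lit 148)) (XT.lf (nat_lit 0) (nat_lit 2056621414) (nat_lit 152) (nat_lit 6709664283) (nat_lit 0) (nat_lit 2056621414) (nat_lit 7) (nat_lit 5) (nat_lit 9) (nat_lit 4) (nat_lit 7) (nat_lit 4) (nat_lit 292) (nat_lit 214) (nat_lit 214)))) (XT.nd (nat_lit 156) (nat_lit 76) (nat_lit 0) (XT.nd (nat_lit 78) (nat_lit 0) (nat_lit 0) (XT.lf (nat_lit 0) (nat_lit 7035602905) (nat_lit 152) (nat_lit 8885405316) (nat_lit 0) (nat_lit 6641642738) (nat_lit 7) (nat_lit 5) (nat_lit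 9) (nat_lit 4) (nat_lit 7) (nat_lit 4) (nat_lit 293) (nat_lit 214) (nat_lit 213)) (XT.lf (nat_lit 0) (nat_lit 10005506024) (nat_lit 152) (nat_lit 4288687958) (nat_lit 0) (nat_lit 9236345697) (nat_lit 7) (nat_lit 5) (nat_lit 9) (nat_lit 4) (nat_lit 7) (nat_lit 4) (nat_lit 294) (nat_lit 214) (nat_lit 212))) (XT.nd (nat_lit 78) (nat_lit 0) (nat_lit 0) (XT.lf (nat_lit 0) (nat_lit 394391047) (nat_lit 76) (nat_lit 12641789885) (nat_lit 76) (nat_lit 11515296073) (nat_lit 6) (nat_lit 4) (nat_lit 7) (nat_lit 5) (nat_lit 7) (nat_lit 4) (nat_lit 295) (nat_lit 214) (nat_lit 211)) (XT.lf (nat_lit 0) (nat_lit 5306938065) (nat_lit 76) (nat_lit 10892274323) (nat_lit 76) (nat_lit 9425462906) (nat_lit 6) (nat_lit 4) (nat_lit 7) (nat_lit 5) (nat_lit 7) (nat_lit 4) (nat_lit 296) (nat_lit 214) (nat_lit 210)))))) (XT.nd (nat_lit 624) (nat_lit 76) (nat_lit 0) (XT.nd (nat_lit 312) (nat_lit 152) (nat_lit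 0) (XT.nd (nat_lit 156) (nat_lit 0) (nat_lit 0) (XT.nd (nat_lit 78) (nat_lit 0) (nat_lit 0) (XT.lf (nat_lit 0) (nat_lit 10318846245) (nat_lit 76) (nat_lit 9114112790) (nat_lit 76) (nat_lit 7323189368) (nat_lit 6) (nat_lit 4) (nat_lit 7) (nat_lit 5) (nat_lit 7) (nat_lit 4) (nat_lit 297) (nat_lit 214) (nat_lit 209)) (XT.lf (nat_lit 0) (nat_lit 15442048700) (nat_lit 76) (nat_lit 7303071566) (nat_lit 76) (nat_lit 5203470045) (nat_lit 6) (nat_lit 4) (nat_lit 7) (nat_lit 5) (nat_lit 7) (nat_lit 4) (nat_lit 298) (nat_lit 214) (nat_lit 208))) (XT.nd (nat_lit 78) (nat_lit 0) (nat_lit 0) (XT.lf (nat_lit 0) (nat_lit 20688743532) (nat_lit 76) (nat_lit 5454838650) (nat_lit 76) (nat_lit 3061257986) (nat_lit 6) (nat_lit 4) (nat_lit 7) (nat_lit 5) (nat_lit 7) (nat_lit 4) (nat_lit 299) (nat_lit 214) (nat_lit 207)) (XT.lf (nat_lit 0) (nat_lit 26071422871) (nat_lit 76) (nat_lit 3565013487) (nat_lit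 76) (nat_lit 891452687) (nat_lit 6) (nat_lit 4) (nat_lit 7) (nat_lit 5) (nat_lit 7) (nat_lit 4) (nat_lit 300) (nat_lit 214) (nat_lit 206)))) (XT.nd (nat_lit 156) (nat_lit 0) (nat_lit 0) (XT.nd (nat_lit 78) (nat_lit 76) (nat_lit 0) (XT.lf (nat_lit 0) (nat_lit 1269148280) (nat_lit 152) (nat_lit 338454572) (nat_lit 76) (nat_lit 30312260700) (nat_lit 5) (nat_lit 5) (nat_lit 7) (nat_lit 5) (nat_lit 6) (nat_lit 4) (nat_lit 301) (nat_lit 214) (nat_lit 205)) (XT.lf (nat_lit 0) (nat_lit 3507671682) (nat_lit 152) (nat_lit 29407607547) (nat_lit 0) (nat_lit 465615697) (nat_lit 4) (nat_lit 5) (nat_lit 6) (nat_lit 4) (nat_lit 4) (nat_lit 4) (nat_lit 302) (nat_lit 214) (nat_lit 204))) (XT.nd (nat_lit 78) (nat_lit 0) (nat_lit 0) (XT.lf (nat_lit 0) (nat_lit 5821278549) (nat_lit 152) (nat_lit 26546831997) (nat_lit 0) (nat_lit 2548882214) (nat_lit 4) (nat_lit 5) (nat_lit 6) (nat_lit 4) (nat_lit 4) (nat_lit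 4) (nat_lit 303) (nat_lit 214) (nat_lit 203)) (XT.lf (nat_lit 0) (nat_lit 8184829848) (nat_lit 152) (nat_lit 23655455211) (nat_lit 0) (nat_lit 4693061750) (nat_lit 4) (nat_lit 5) (nat_lit 6) (nat_lit 4) (nat_lit 4) (nat_lit 4) (nat_lit 304) (nat_lit 214) (nat_lit 202))))) (XT.nd (nat_lit 312) (nat_lit 76) (nat_lit 0) (XT.nd (nat_lit 156) (nat_lit 0) (nat_lit 0) (XT.nd (nat_lit 78) (nat_lit 0) (nat_lit 0) (XT.lf (nat_lit 0) (nat_lit 10603953081) (nat_lit 152) (nat_lit 20726592960) (nat_lit 0) (nat_lit 6903259495) (nat_lit 4) (nat_lit 5) (nat_lit 6) (nat_lit 4) (nat_lit 4) (nat_lit 4) (nat_lit 305) (nat_lit 214) (nat_lit 201)) (XT.lf (nat_lit 0) (nat_lit 13084408066) (nat_lit 152) (nat_lit 17753271763) (nat_lit 0) (nat_lit 9184737825) (nat_lit 4) (nat_lit 5) (nat_lit 6) (nat_lit 4) (nat_lit 4) (nat_lit 4) (nat_lit 306) (nat_lit 214) (nat_lit 200))) (XT.nd (nat_lit 78) (nat_lit 0) (nat_lit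 0) (XT.lf (nat_lit 0) (nat_lit 15632100648) (nat_lit 152) (nat_lit 14728412282) (nat_lit 0) (nat_lit 11542928830) (nat_lit 4) (nat_lit 5) (nat_lit 6) (nat_lit 4) (nat_lit 4) (nat_lit 4) (nat_lit 307) (nat_lit 214) (nat_lit 199)) (XT.lf (nat_lit 0) (nat_lit 18253096761) (nat_lit 152) (nat_lit 11644812472) (nat_lit 0) (nat_lit 13983447252) (nat_lit 4) (nat_lit 5) (nat_lit 6) (nat_lit 4) (nat_lit 4) (nat_lit 4) (nat_lit 308) (nat_lit 214) (nat_lit 198)))) (XT.nd (nat_lit 156) (nat_lit 76) (nat_lit 0) (XT.nd (nat_lit 78) (nat_lit 0) (nat_lit 0) (XT.lf (nat_lit 0) (nat_lit 20953636874) (nat_lit 152) (nat_lit 8495130427) (nat_lit 0) (nat_lit 16512103848) (nat_lit 4) (nat_lit 5) (nat_lit 6) (nat_lit 4) (nat_lit 4) (nat_lit 4) (nat_lit 309) (nat_lit 214) (nat_lit 197)) (XT.lf (nat_lit 0) (nat_lit 23740150842) (nat_lit 152) (nat_lit 5271866907) (nat_lit 0) (nat_lit 19134919229) (nat_lit 4)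 (nat_lit 5) (nat_lit 6) (nat_lit 4) (nat_lit 4) (nat_lit 4) (nat_lit 310) (nat_lit 214) (nat_lit 196))) (XT.nd (nat_lit 78) (nat_lit 76) (nat_lit 0) (XT.lf (nat_lit 0) (nat_lit 26619273223) (nat_lit 152) (nat_lit 1967347472) (nat_lit 0) (nat_lit 21858138194) (nat_lit 4) (nat_lit 5) (nat_lit 6) (nat_lit 4) (nat_lit 4) (nat_lit 4) (nat_lit 311) (nat_lit 214) (nat_lit 195)) (XT.nd (nat_lit 78) (nat_lit 0) (nat_lit 0) (XT.lf (nat_lit 0) (nat_lit 1473455558) (nat_lit 76) (nat_lit 28147408282) (nat_lit 76) (nat_lit 23237793810) (nat_lit 3) (nat_lit 4) (nat_lit 4) (nat_lit 5) (nat_lit 4) (nat_lit 4) (nat_lit 312) (nat_lit 214) (nat_lit 194)) (XT.lf (nat_lit 0) (nat_lit 5079725903) (nat_lit 76) (nat_lit 27682583110) (nat_lit 76) (nat_lit 22631559643) (nat_lit 3) (nat_lit 4) (nat_lit 4) (nat_lit 5) (nat_lit 4) (nat_lit 4) (nat_lit 313) (nat_lit 214) (nat_lit 193))))))))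
noncomputable def xc30 : XT := (XT.nd (nat_lit 2496) (nat_lit 152) (nat_lit 0) (XT.nd (nat_lit 1248) (nat_lit 0) (nat_lit 0) (XT.nd (nat_lit 624) (nat_lit 0) (nat_lit 0) (XT.nd (nat_lit 312) (nat_lit 0) (nat_lit 0) (XT.nd (nat_lit 156) (nat_lit 0) (nat_lit 0) (XT.nd (nat_lit 78) (nat_lit 0) (nat_lit 0) (XT.lf (nat_lit 0) (nat_lit 8795000526) (nat_lit 76) (nat_lit 27224356432) (nat_lit 76) (nat_lit 22038657733) (nat_lit 3) (nat_lit 4) (nat_lit 4) (nat_lit 5) (nat_lit 4) (nat_lit 4) (nat_lit 314) (nat_lit 214) (nat_lit 192)) (XT.lf (nat_lit 0) (nat_lit 12628125320) (nat_lit 76) (nat_lit 26771637234) (nat_lit 76) (nat_lit 21457676409) (nat_lit 3) (nat_lit 4) (nat_lit 4) (nat_lit 5) (nat_lit 4) (nat_lit 4) (nat_lit 315) (nat_lit 214) (nat_lit 191))) (XT.nd (nat_lit 78) (nat_lit 0) (nat_lit 0) (XT.lf (nat_lit 0) (nat_lit 16588226771) (nat_lit 76) (nat_lit 26323347613) (nat_lit 76) (nat_lit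 20887232382) (nat_lit 3) (nat_lit 4) (nat_lit 4) (nat_lit 5) (nat_lit 4) (nat_lit 4) (nat_lit 316) (nat_lit 214) (nat_lit 190)) (XT.lf (nat_lit 0) (nat_lit 20684733694) (nat_lit 76) (nat_lit 25878420212) (nat_lit 76) (nat_lit 20325967452) (nat_lit 3) (nat_lit 4) (nat_lit 4) (nat_lit 5) (nat_lit 4) (nat_lit 4) (nat_lit 317) (nat_lit 214) (nat_lit 189)))) (XT.nd (nat_lit 156) (nat_lit 0) (nat_lit 0) (XT.nd (nat_lit 78) (nat_lit 0) (nat_lit 0) (XT.lf (nat_lit 0) (nat_lit 24927399677) (nat_lit 76) (nat_lit 25435795680) (nat_lit 76) (nat_lit 19772545273) (nat_lit 3) (nat_lit 4) (nat_lit 4) (nat_lit 5) (nat_lit 4) (nat_lit 4) (nat_lit 318) (nat_lit 214) (nat_lit 188)) (XT.lf (nat_lit 0) (nat_lit 29326326304) (nat_lit 76) (nat_lit 24994420150) (nat_lit 76) (nat_lit 19225648174) (nat_lit 3) (nat_lit 4) (nat_lit 4) (nat_lit 5) (nat_lit 4) (nat_lit 4) (nat_lit 319) (nat_lit 214) (nat_lit 187)))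 (XT.nd (nat_lit 78) (nat_lit 0) (nat_lit 0) (XT.lf (nat_lit 0) (nat_lit 33891987210) (nat_lit 76) (nat_lit 24553242727) (nat_lit 76) (nat_lit 18683974019) (nat_lit 3) (nat_lit 4) (nat_lit 4) (nat_lit 5) (nat_lit 4) (nat_lit 4) (nat_lit 320) (nat_lit 214) (nat_lit 186)) (XT.lf (nat_lit 0) (nat_lit 38635253018) (nat_lit 76) (nat_lit 24111212989) (nat_lit 76) (nat_lit 18146233108) (nat_lit 3) (nat_lit 4) (nat_lit 4) (nat_lit 5) (nat_lit 4) (nat_lit 4) (nat_lit 321) (nat_lit 214) (nat_lit 185))))) (XT.nd (nat_lit 312) (nat_lit 0) (nat_lit 0) (XT.nd (nat_lit 156) (nat_lit 0) (nat_lit 0) (XT.nd (nat_lit 78) (nat_lit 0) (nat_lit 0) (XT.lf (nat_lit 0) (nat_lit 43567417216) (nat_lit 76) (nat_lit 23667278484) (nat_lit 76) (nat_lit 17611145104) (nat_lit 3) (nat_lit 4) (nat_lit 4) (nat_lit 5) (nat_lit 4) (nat_lit 4) (nat_lit 322) (nat_lit 214) (nat_lit 184)) (XT.lf (nat_lit 0) (nat_lit 48700223053)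 (nat_lit 76) (nat_lit 23220382225) (nat_lit 76) (nat_lit 17077435990) (nat_lit 3) (nat_lit 4) (nat_lit 4) (nat_lit 5) (nat_lit 4) (nat_lit 4) (nat_lit 323) (nat_lit 214) (nat_lit 183))) (XT.nd (nat_lit 78) (nat_lit 0) (nat_lit 0) (XT.lf (nat_lit 0) (nat_lit 54045891495) (nat_lit 76) (nat_lit 22769460174) (nat_lit 76) (nat_lit 16543835029) (nat_lit 3) (nat_lit 4) (nat_lit 4) (nat_lit 5) (nat_lit 4) (nat_lit 4) (nat_lit 324) (nat_lit 214) (nat_lit 182)) (XT.lf (nat_lit 0) (nat_lit 59617150325) (nat_lit 76) (nat_lit 22313438706) (nat_lit 76) (nat_lit 16009071742) (nat_lit 3) (nat_lit 4) (nat_lit 4) (nat_lit 5) (nat_lit 4) (nat_lit 4) (nat_lit 325) (nat_lit 214) (nat_lit 181)))) (XT.nd (nat_lit 156) (nat_lit 0) (nat_lit 0) (XT.nd (nat_lit 78) (nat_lit 0) (nat_lit 0) (XT.lf (nat_lit 0) (nat_lit 65427264444) (nat_lit 76) (nat_lit 21851232057) (nat_lit 76) (nat_lit 15471872884) (nat_lit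 3) (nat_lit 4) (nat_lit 4) (nat_lit 5) (nat_lit 4) (nat_lit 4) (nat_lit 326) (nat_lit 214) (nat_lit 180)) (XT.lf (nat_lit 0) (nat_lit 71490067457) (nat_lit 76) (nat_lit 21381739733) (nat_lit 76) (nat_lit 14930959409) (nat_lit 3) (nat_lit 4) (nat_lit 4) (nat_lit 5) (nat_lit 4) (nat_lit 4) (nat_lit 327) (nat_lit 214) (nat_lit 179))) (XT.nd (nat_lit 78) (nat_lit 0) (nat_lit 0) (XT.lf (nat_lit 0) (nat_lit 77819994609) (nat_lit 76) (nat_lit 20903843897) (nat_lit 76) (nat_lit 14385043429) (nat_lit 3) (nat_lit 4) (nat_lit 4) (nat_lit 5) (nat_lit 4) (nat_lit 4) (nat_lit 328) (nat_lit 214) (nat_lit 178)) (XT.lf (nat_lit 0) (nat_lit 84432117156) (nat_lit 76) (nat_lit 20416406701) (nat_lit 76) (nat_lit 13832825143) (nat_lit 3) (nat_lit 4) (nat_lit 4) (nat_lit 5) (nat_lit 4) (nat_lit 4) (nat_lit 329) (nat_lit 214) (nat_lit 177)))))) (XT.nd (nat_lit 624) (nat_lit 0) (nat_lit 0) (XT.nd (nat_lit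 312) (nat_lit 0) (nat_lit 0) (XT.nd (nat_lit 156) (nat_lit 0) (nat_lit 0) (XT.nd (nat_lit 78) (nat_lit 0) (nat_lit 0) (XT.lf (nat_lit 0) (nat_lit 91342178247) (nat_lit 76) (nat_lit 19918267580) (nat_lit 76) (nat_lit 13272989747) (nat_lit 3) (nat_lit 4) (nat_lit 4) (nat_lit 5) (nat_lit 4) (nat_lit 4) (nat_lit 330) (nat_lit 214) (nat_lit 176)) (XT.lf (nat_lit 0) (nat_lit 98566630407) (nat_lit 76) (nat_lit 19408240489) (nat_lit 76) (nat_lit 12704204298) (nat_lit 3) (nat_lit 4) (nat_lit 4) (nat_lit 5) (nat_lit 4) (nat_lit 4) (nat_lit 331) (nat_lit 214) (nat_lit 175))) (XT.nd (nat_lit 78) (nat_lit 0) (nat_lit 0) (XT.lf (nat_lit 0) (nat_lit 106122674714) (nat_lit 76) (nat_lit 18885111078) (nat_lit 76) (nat_lit 12125114546) (nat_lit 3) (nat_lit 4) (nat_lit 4) (nat_lit 5) (nat_lit 4) (nat_lit 4) (nat_lit 332) (nat_lit 214) (nat_lit 174)) (XT.lf (nat_lit 0) (nat_lit 114028301750) (nat_lit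 76) (nat_lit 18347633800) (nat_lit 76) (nat_lit 11534341705) (nat_lit 3) (nat_lit 4) (nat_lit 4) (nat_lit 5) (nat_lit 4) (nat_lit 4) (nat_lit 333) (nat_lit 214) (nat_lit 173)))) (XT.nd (nat_lit 156) (nat_lit 0) (nat_lit 0) (XT.nd (nat_lit 78) (nat_lit 0) (nat_lit 0) (XT.lf (nat_lit 0) (nat_lit 122302334435) (nat_lit 76) (nat_lit 17794528947) (nat_lit 76) (nat_lit 10930479174) (nat_lit 3) (nat_lit 4) (nat_lit 4) (nat_lit 5) (nat_lit 4) (nat_lit 4) (nat_lit 334) (nat_lit 214) (nat_lit 172)) (XT.lf (nat_lit 0) (nat_lit 130964472847) (nat_lit 76) (nat_lit 17224479604) (nat_lit 76) (nat_lit 10312089184) (nat_lit 3) (nat_lit 4) (nat_lit 4) (nat_lit 5) (nat_lit 4) (nat_lit 4) (nat_lit 335) (nat_lit 214) (nat_lit 171))) (XT.nd (nat_lit 78) (nat_lit 0) (nat_lit 0) (XT.lf (nat_lit 0) (nat_lit 140035341126) (nat_lit 76) (nat_lit 16636128510) (nat_lit 76) (nat_lit 9677699379) (nat_lit 3) (nat_lit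 4) (nat_lit 4) (nat_lit 5) (nat_lit 4) (nat_lit 4) (nat_lit 336) (nat_lit 214) (nat_lit 170)) (XT.lf (nat_lit 0) (nat_lit 149536536578) (nat_lit 76) (nat_lit 16028074828) (nat_lit 76) (nat_lit 9025799306) (nat_lit 3) (nat_lit 4) (nat_lit 4) (nat_lit 5) (nat_lit 4) (nat_lit 4) (nat_lit 337) (nat_lit 214) (nat_lit 169))))) (XT.nd (nat_lit 312) (nat_lit 0) (nat_lit 0) (XT.nd (nat_lit 156) (nat_lit 0) (nat_lit 0) (XT.nd (nat_lit 78) (nat_lit 0) (nat_lit 0) (XT.lf (nat_lit 0) (nat_lit 159490681095) (nat_lit 76) (nat_lit 15398870812) (nat_lit 76) (nat_lit 8354836823) (nat_lit 3) (nat_lit 4) (nat_lit 4) (nat_lit 5) (nat_lit 4) (nat_lit 4) (nat_lit 338) (nat_lit 214) (nat_lit 168)) (XT.lf (nat_lit 0) (nat_lit 169921475022) (nat_lit 76) (nat_lit 14747018358) (nat_lit 76) (nat_lit 7663214399) (nat_lit 3) (nat_lit 4) (nat_lit 4) (nat_lit 5) (nat_lit 4) (nat_lit 4) (nat_lit 339) (nat_lit 214)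 (nat_lit 167))) (XT.nd (nat_lit 78) (nat_lit 0) (nat_lit 0) (XT.lf (nat_lit 0) (nat_lit 180853753583) (nat_lit 76) (nat_lit 14070965436) (nat_lit 76) (nat_lit 6949285315) (nat_lit 3) (nat_lit 4) (nat_lit 4) (nat_lit 5) (nat_lit 4) (nat_lit 4) (nat_lit 340) (nat_lit 214) (nat_lit 166)) (XT.lf (nat_lit 0) (nat_lit 192313546012) (nat_lit 76) (nat_lit 13369102395) (nat_lit 76) (nat_lit 6211349740) (nat_lit 3) (nat_lit 4) (nat_lit 4) (nat_lit 5) (nat_lit 4) (nat_lit 4) (nat_lit 341) (nat_lit 214) (nat_lit 165)))) (XT.nd (nat_lit 156) (nat_lit 0) (nat_lit 0) (XT.nd (nat_lit 78) (nat_lit 0) (nat_lit 0) (XT.lf (nat_lit 0) (nat_lit 204328137530) (nat_lit 76) (nat_lit 12639758133) (nat_lit 76) (nat_lit 5447650683) (nat_lit 3) (nat_lit 4) (nat_lit 4) (nat_lit 5) (nat_lit 4) (nat_lit 4) (nat_lit 342) (nat_lit 214) (nat_lit 164)) (XT.lf (nat_lit 0) (nat_lit 216926134306) (nat_lit 76) (nat_lit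 11881196117) (nat_lit 76) (nat_lit 4656369815) (nat_lit 3) (nat_lit 4) (nat_lit 4) (nat_lit 5) (nat_lit 4) (nat_lit 4) (nat_lit 343) (nat_lit 214) (nat_lit 163))) (XT.nd (nat_lit 78) (nat_lit 0) (nat_lit 0) (XT.lf (nat_lit 0) (nat_lit 230137531572) (nat_lit 76) (nat_lit 11091610247) (nat_lit 76) (nat_lit 3835623133) (nat_lit 3) (nat_lit 4) (nat_lit 4) (nat_lit 5) (nat_lit 4) (nat_lit 4) (nat_lit 344) (nat_lit 214) (nat_lit 162)) (XT.lf (nat_lit 0) (nat_lit 243993785035) (nat_lit 76) (nat_lit 10269120555) (nat_lit 76) (nat_lit 2983456477) (nat_lit 3) (nat_lit 4) (nat_lit 4) (nat_lit 5) (nat_lit 4) (nat_lit 4) (nat_lit 345) (nat_lit 214) (nat_lit 161))))))) (XT.nd (nat_lit 33306) (nat_lit 0) (nat_lit 228) (XT.nd (nat_lit 624) (nat_lit 0) (nat_lit 0) (XT.nd (nat_lit 312) (nat_lit 76) (nat_lit 0) (XT.nd (nat_lit 156) (nat_lit 76) (nat_lit 0) (XT.nd (nat_lit 78) (nat_lit 0) (nat_lit 0)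 (XT.lf (nat_lit 0) (nat_lit 258527885774) (nat_lit 76) (nat_lit 9411768733) (nat_lit 76) (nat_lit 2097840881) (nat_lit 3) (nat_lit 4) (nat_lit 4) (nat_lit 5) (nat_lit 4) (nat_lit 4) (nat_lit 346) (nat_lit 214) (nat_lit 160)) (XT.lf (nat_lit 0) (nat_lit 273774438791) (nat_lit 76) (nat_lit 8517513468) (nat_lit 76) (nat_lit 1176667735) (nat_lit 3) (nat_lit 4) (nat_lit 4) (nat_lit 5) (nat_lit 4) (nat_lit 4) (nat_lit 347) (nat_lit 214) (nat_lit 159))) (XT.nd (nat_lit 78) (nat_lit 76) (nat_lit 0) (XT.lf (nat_lit 0) (nat_lit 289769745404) (nat_lit 76) (nat_lit 7584225580) (nat_lit 76) (nat_lit 217743770) (nat_lit 3) (nat_lit 4) (nat_lit 4) (nat_lit 5) (nat_lit 4) (nat_lit 4) (nat_lit 348) (nat_lit 214) (nat_lit 158)) (XT.lf (nat_lit 0) (nat_lit 756210433) (nat_lit 152) (nat_lit 5840665731) (nat_lit 76) (nat_lit 305782872451) (nat_lit 2) (nat_lit 5) (nat_lit 4) (nat_lit 5) (nat_lit 3) (nat_lit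 4) (nat_lit 349) (nat_lit 214) (nat_lit 157)))) (XT.nd (nat_lit 156) (nat_lit 76) (nat_lit 0) (XT.nd (nat_lit 78) (nat_lit 0) (nat_lit 0) (XT.lf (nat_lit 0) (nat_lit 1764250457) (nat_lit 152) (nat_lit 3797436361) (nat_lit 76) (nat_lit 322366700198) (nat_lit 2) (nat_lit 5) (nat_lit 4) (nat_lit 5) (nat_lit 3) (nat_lit 4) (nat_lit 350) (nat_lit 214) (nat_lit 156)) (XT.lf (nat_lit 0) (nat_lit 2815745555) (nat_lit 152) (nat_lit 1664016817) (nat_lit 76) (nat_lit 339775058128) (nat_lit 2) (nat_lit 5) (nat_lit 4) (nat_lit 5) (nat_lit 3) (nat_lit 4) (nat_lit 351) (nat_lit 214) (nat_lit 155))) (XT.nd (nat_lit 78) (nat_lit 0) (nat_lit 0) (XT.lf (nat_lit 0) (nat_lit 583343093) (nat_lit 76) (nat_lit 3338963815) (nat_lit 152) (nat_lit 357475159240) (nat_lit 1) (nat_lit 5) (nat_lit 2) (nat_lit 5) (nat_lit 3) (nat_lit 4) (nat_lit 352) (nat_lit 214) (nat_lit 154)) (XT.lf (nat_lit 0) (nat_lit 2989624563)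 (nat_lit 76) (nat_lit 2116276494) (nat_lit 152) (nat_lit 374290272132) (nat_lit 1) (nat_lit 5) (nat_lit 2) (nat_lit 5) (nat_lit 3) (nat_lit 4) (nat_lit 353) (nat_lit 214) (nat_lit 153))))) (XT.nd (nat_lit 312) (nat_lit 0) (nat_lit 0) (XT.nd (nat_lit 156) (nat_lit 0) (nat_lit 0) (XT.nd (nat_lit 78) (nat_lit 0) (nat_lit 0) (XT.lf (nat_lit 0) (nat_lit 5505536924) (nat_lit 76) (nat_lit 836970181) (nat_lit 152) (nat_lit 391952630534) (nat_lit 1) (nat_lit 5) (nat_lit 2) (nat_lit 5) (nat_lit 3) (nat_lit 4) (nat_lit 354) (nat_lit 214) (nat_lit 152)) (XT.lf (nat_lit 0) (nat_lit 7642906993) (nat_lit 152) (nat_lit 410010124230) (nat_lit 0) (nat_lit 485933923) (nat_lit 1) (nat_lit 5) (nat_lit 3) (nat_lit 4) (nat_lit 1) (nat_lit 4) (nat_lit 355) (nat_lit 214) (nat_lit 151))) (XT.nd (nat_lit 78) (nat_lit 0) (nat_lit 0) (XT.lf (nat_lit 0) (nat_lit 9016389368) (nat_lit 152) (nat_lit 428115312875)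 (nat_lit 0) (nat_lit 1842891055) (nat_lit 1) (nat_lit 5) (nat_lit 3) (nat_lit 4) (nat_lit 1) (nat_lit 4) (nat_lit 356) (nat_lit 214) (nat_lit 150)) (XT.lf (nat_lit 0) (nat_lit 10453156977) (nat_lit 152) (nat_lit 447135206792) (nat_lit 0) (nat_lit 3263920337) (nat_lit 1) (nat_lit 5) (nat_lit 3) (nat_lit 4) (nat_lit 1) (nat_lit 4) (nat_lit 357) (nat_lit 214) (nat_lit 149)))) (XT.nd (nat_lit 32214) (nat_lit 0) (nat_lit 456) (XT.nd (nat_lit 78) (nat_lit 0) (nat_lit 0) (XT.lf (nat_lit 0) (nat_lit 11956630695) (nat_lit 152) (nat_lit 467115091443) (nat_lit 0) (nat_lit 4752405171) (nat_lit 1) (nat_lit 5) (nat_lit 3) (nat_lit 4) (nat_lit 1) (nat_lit 4) (nat_lit 358) (nat_lit 214) (nat_lit 148)) (XT.lf (nat_lit 0) (nat_lit 13530390222) (nat_lit 152) (nat_lit 488102537982) (nat_lit 0) (nat_lit 6311889571) (nat_lit 1) (nat_lit 5) (nat_lit 3) (nat_lit 4) (nat_lit 1) (nat_lit 4) (nat_lit 359) (nat_lit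 214) (nat_lit 147))) (XT.nd (nat_lit 78) (nat_lit 152) (nat_lit 0) (XT.lf (nat_lit 0) (nat_lit 8843764741) (nat_lit 152) (nat_lit 565682171) (nat_lit 152) (nat_lit 565682171) (nat_lit 9) (nat_lit 4) (nat_lit 11) (nat_lit 5) (nat_lit 11) (nat_lit 4) (nat_lit 290) (nat_lit 215) (nat_lit 215)) (XT.lf (nat_lit 0) (nat_lit 1645125968) (nat_lit 152) (nat_lit 17901252767) (nat_lit 0) (nat_lit 1231467792) (nat_lit 7) (nat_lit 5) (nat_lit 9) (nat_lit 4) (nat_lit 7) (nat_lit 4) (nat_lit 291) (nat_lit 215) (nat_lit 214)))))) (XT.nd (nat_lit 624) (nat_lit 152) (nat_lit 0) (XT.nd (nat_lit 312) (nat_lit 0) (nat_lit 0) (XT.nd (nat_lit 156) (nat_lit 76) (nat_lit 0) (XT.nd (nat_lit 78) (nat_lit 0) (nat_lit 0) (XT.lf (nat_lit 0) (nat_lit 4476411389) (nat_lit 152) (nat_lit 13503278401) (nat_lit 0) (nat_lit 3668793046) (nat_lit 7) (nat_lit 5) (nat_lit 9) (nat_lit 4) (nat_lit 7) (nat_lit 4) (nat_lit 292)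 (nat_lit 215) (nat_lit 213)) (XT.lf (nat_lit 0) (nat_lit 7350686119) (nat_lit 152) (nat_lit 9049307372) (nat_lit 0) (nat_lit 6167867616) (nat_lit 7) (nat_lit 5) (nat_lit 9) (nat_lit 4) (nat_lit 7) (nat_lit 4) (nat_lit 293) (nat_lit 215) (nat_lit 212))) (XT.nd (nat_lit 78) (nat_lit 76) (nat_lit 0) (XT.lf (nat_lit 0) (nat_lit 10274793669) (nat_lit 152) (nat_lit 4528734988) (nat_lit 0) (nat_lit 8734641681) (nat_lit 7) (nat_lit 5) (nat_lit 9) (nat_lit 4) (nat_lit 7) (nat_lit 4) (nat_lit 294) (nat_lit 215) (nat_lit 211)) (XT.lf (nat_lit 0) (nat_lit 71490149) (nat_lit 76) (nat_lit 13185322212) (nat_lit 76) (nat_lit 11304852620) (nat_lit 6) (nat_lit 4) (nat_lit 7) (nat_lit 5) (nat_lit 7) (nat_lit 4) (nat_lit 295) (nat_lit 215) (nat_lit 210)))) (XT.nd (nat_lit 156) (nat_lit 0) (nat_lit 0) (XT.nd (nat_lit 78) (nat_lit 0) (nat_lit 0) (XT.lf (nat_lit 0) (nat_lit 4912687807) (nat_lit 76) (nat_lit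 11464504117) (nat_lit 76) (nat_lit 9259922519) (nat_lit 6) (nat_lit 4) (nat_lit 7) (nat_lit 5) (nat_lit 7) (nat_lit 4) (nat_lit 296) (nat_lit 215) (nat_lit 209)) (XT.lf (nat_lit 0) (nat_lit 9856644214) (nat_lit 76) (nat_lit 9713673503) (nat_lit 76) (nat_lit 7200413807) (nat_lit 6) (nat_lit 4) (nat_lit 7) (nat_lit 5) (nat_lit 7) (nat_lit 4) (nat_lit 297) (nat_lit 215) (nat_lit 208))) (XT.nd (nat_lit 78) (nat_lit 0) (nat_lit 0) (XT.lf (nat_lit 0) (nat_lit 14915130695) (nat_lit 76) (nat_lit 7928661728) (nat_lit 76) (nat_lit 5121422889) (nat_lit 6) (nat_lit 4) (nat_lit 7) (nat_lit 5) (nat_lit 7) (nat_lit 4) (nat_lit 298) (nat_lit 215) (nat_lit 207)) (XT.lf (nat_lit 0) (nat_lit 20100191267) (nat_lit 76) (nat_lit 6105218763) (nat_lit 76) (nat_lit 3017999787) (nat_lit 6) (nat_lit 4) (nat_lit 7) (nat_lit 5) (nat_lit 7) (nat_lit 4) (nat_lit 299) (nat_lit 215) (nat_lit 206))))) (XT.nd (nat_lit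 312) (nat_lit 0) (nat_lit 0) (XT.nd (nat_lit 156) (nat_lit 76) (nat_lit 0) (XT.nd (nat_lit 78) (nat_lit 76) (nat_lit 0) (XT.lf (nat_lit 0) (nat_lit 25424171310) (nat_lit 76) (nat_lit 4239003076) (nat_lit 76) (nat_lit 885136353) (nat_lit 6) (nat_lit 4) (nat_lit 7) (nat_lit 5) (nat_lit 7) (nat_lit 4) (nat_lit 300) (nat_lit 215) (nat_lit 205)) (XT.lf (nat_lit 0) (nat_lit 1241205792) (nat_lit 152) (nat_lit 1063345085) (nat_lit 76) (nat_lit 29637520756) (nat_lit 5) (nat_lit 5) (nat_lit 7) (nat_lit 5) (nat_lit 6) (nat_lit 4) (nat_lit 301) (nat_lit 215) (nat_lit 204))) (XT.nd (nat_lit 78) (nat_lit 0) (nat_lit 0) (XT.lf (nat_lit 0) (nat_lit 3176116766) (nat_lit 76) (nat_lit 251098401) (nat_lit 152) (nat_lit 29978597812) (nat_lit 4) (nat_lit 5) (nat_lit 5) (nat_lit 5) (nat_lit 6) (nat_lit 4) (nat_lit 302) (nat_lit 215) (nat_lit 203)) (XT.lf (nat_lit 0) (nat_lit 5704835387) (nat_lit 152) (nat_lit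 27419847895) (nat_lit 0) (nat_lit 1819107121) (nat_lit 4) (nat_lit 5) (nat_lit 6) (nat_lit 4) (nat_lit 4) (nat_lit 4) (nat_lit 303) (nat_lit 215) (nat_lit 202)))) (XT.nd (nat_lit 156) (nat_lit 0) (nat_lit 0) (XT.nd (nat_lit 78) (nat_lit 0) (nat_lit 0) (XT.lf (nat_lit 0) (nat_lit 8037847353) (nat_lit 152) (nat_lit 24580706901) (nat_lit 0) (nat_lit 3943193600) (nat_lit 4) (nat_lit 5) (nat_lit 6) (nat_lit 4) (nat_lit 4) (nat_lit 4) (nat_lit 304) (nat_lit 215) (nat_lit 201)) (XT.lf (nat_lit 0) (nat_lit 10427885508) (nat_lit 152) (nat_lit 21701593024) (nat_lit 0) (nat_lit 6134255100) (nat_lit 4) (nat_lit 5) (nat_lit 6) (nat_lit 4) (nat_lit 4) (nat_lit 4) (nat_lit 305) (nat_lit 215) (nat_lit 200))) (XT.nd (nat_lit 78) (nat_lit 0) (nat_lit 0) (XT.lf (nat_lit 0) (nat_lit 12880640419) (nat_lit 152) (nat_lit 18775651230) (nat_lit 0) (nat_lit 8397508434) (nat_lit 4) (nat_lit 5) (nat_lit 6) (nat_lit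 4) (nat_lit 4) (nat_lit 4) (nat_lit 306) (nat_lit 215) (nat_lit 199)) (XT.lf (nat_lit 0) (nat_lit 15401951978) (nat_lit 152) (nat_lit 15795914990) (nat_lit 0) (nat_lit 10738342300) (nat_lit 4) (nat_lit 5) (nat_lit 6) (nat_lit 4) (nat_lit 4) (nat_lit 4) (nat_lit 307) (nat_lit 215) (nat_lit 198))))))))
noncomputable def xc31 : XT := (XT.nd (nat_lit 1248) (nat_lit 0) (nat_lit 0) (XT.nd (nat_lit 624) (nat_lit 0) (nat_lit 0) (XT.nd (nat_lit 312) (nat_lit 76) (nat_lit 0) (XT.nd (nat_lit 156) (nat_lit 0) (nat_lit 0) (XT.nd (nat_lit 78) (nat_lit 0) (nat_lit 0) (XT.lf (nat_lit 0) (nat_lit 17997823307) (nat_lit 152) (nat_lit 12755289695) (nat_lit 0) (nat_lit 13162330114) (nat_lit 4) (nat_lit 5) (nat_lit 6) (nat_lit 4) (nat_lit 4) (nat_lit 4) (nat_lit 308) (nat_lit 215) (nat_lit 197)) (XT.lf (nat_lit 0) (nat_lit 20674435054) (nat_lit 152) (nat_lit 9646535761) (nat_lit 0) (nat_lit 15675243274)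 (nat_lit 4) (nat_lit 5) (nat_lit 6) (nat_lit 4) (nat_lit 4) (nat_lit 4) (nat_lit 309) (nat_lit 215) (nat_lit 196))) (XT.nd (nat_lit 78) (nat_lit 0) (nat_lit 0) (XT.lf (nat_lit 0) (nat_lit 23438160102) (nat_lit 152) (nat_lit 6462251393) (nat_lit 0) (nat_lit 18283064906) (nat_lit 4) (nat_lit 5) (nat_lit 6) (nat_lit 4) (nat_lit 4) (nat_lit 4) (nat_lit 310) (nat_lit 215) (nat_lit 195)) (XT.lf (nat_lit 0) (nat_lit 26295578751) (nat_lit 152) (nat_lit 3194854960) (nat_lit 0) (nat_lit 20992004111) (nat_lit 4) (nat_lit 5) (nat_lit 6) (nat_lit 4) (nat_lit 4) (nat_lit 4) (nat_lit 311) (nat_lit 215) (nat_lit 194)))) (XT.nd (nat_lit 156) (nat_lit 0) (nat_lit 0) (XT.nd (nat_lit 78) (nat_lit 0) (nat_lit 0) (XT.lf (nat_lit 0) (nat_lit 168836885) (nat_lit 76) (nat_lit 29087293508) (nat_lit 76) (nat_lit 23642309874) (nat_lit 3) (nat_lit 4) (nat_lit 4) (nat_lit 5) (nat_lit 4) (nat_lit 4) (nat_lit 312)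 (nat_lit 215) (nat_lit 193)) (XT.lf (nat_lit 0) (nat_lit 3740322235) (nat_lit 76) (nat_lit 28637024313) (nat_lit 76) (nat_lit 23057365447) (nat_lit 3) (nat_lit 4) (nat_lit 4) (nat_lit 5) (nat_lit 4) (nat_lit 4) (nat_lit 313) (nat_lit 215) (nat_lit 192))) (XT.nd (nat_lit 78) (nat_lit 0) (nat_lit 0) (XT.lf (nat_lit 0) (nat_lit 7422468292) (nat_lit 76) (nat_lit 28192660471) (nat_lit 76) (nat_lit 22484739479) (nat_lit 3) (nat_lit 4) (nat_lit 4) (nat_lit 5) (nat_lit 4) (nat_lit 4) (nat_lit 314) (nat_lit 215) (nat_lit 191)) (XT.lf (nat_lit 0) (nat_lit 11224042070) (nat_lit 76) (nat_lit 27753143974) (nat_lit 76) (nat_lit 21923068576) (nat_lit 3) (nat_lit 4) (nat_lit 4) (nat_lit 5) (nat_lit 4) (nat_lit 4) (nat_lit 315) (nat_lit 215) (nat_lit 190))))) (XT.nd (nat_lit 312) (nat_lit 0) (nat_lit 0) (XT.nd (nat_lit 156) (nat_lit 0) (nat_lit 0) (XT.nd (nat_lit 78) (nat_lit 0) (nat_lit 0) (XT.lf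 (nat_lit 0) (nat_lit 15154094936) (nat_lit 76) (nat_lit 27317428353) (nat_lit 76) (nat_lit 21371015426) (nat_lit 3) (nat_lit 4) (nat_lit 4) (nat_lit 5) (nat_lit 4) (nat_lit 4) (nat_lit 316) (nat_lit 215) (nat_lit 189)) (XT.lf (nat_lit 0) (nat_lit 19221984158) (nat_lit 76) (nat_lit 26884476191) (nat_lit 76) (nat_lit 20827265616) (nat_lit 3) (nat_lit 4) (nat_lit 4) (nat_lit 5) (nat_lit 4) (nat_lit 4) (nat_lit 317) (nat_lit 215) (nat_lit 188))) (XT.nd (nat_lit 78) (nat_lit 0) (nat_lit 0) (XT.lf (nat_lit 0) (nat_lit 23437395187) (nat_lit 76) (nat_lit 26453256649) (nat_lit 76) (nat_lit 20290524505) (nat_lit 3) (nat_lit 4) (nat_lit 4) (nat_lit 5) (nat_lit 4) (nat_lit 4) (nat_lit 318) (nat_lit 215) (nat_lit 187)) (XT.lf (nat_lit 0) (nat_lit 27810364715) (nat_lit 76) (nat_lit 26022743013) (nat_lit 76) (nat_lit 19759514138) (nat_lit 3) (nat_lit 4) (nat_lit 4) (nat_lit 5) (nat_lit 4) (nat_lit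 4) (nat_lit 319) (nat_lit 215) (nat_lit 186)))) (XT.nd (nat_lit 156) (nat_lit 0) (nat_lit 0) (XT.nd (nat_lit 78) (nat_lit 0) (nat_lit 0) (XT.lf (nat_lit 0) (nat_lit 32351304576) (nat_lit 76) (nat_lit 25591910251) (nat_lit 76) (nat_lit 19232970203) (nat_lit 3) (nat_lit 4) (nat_lit 4) (nat_lit 5) (nat_lit 4) (nat_lit 4) (nat_lit 320) (nat_lit 215) (nat_lit 185)) (XT.lf (nat_lit 0) (nat_lit 37071026530) (nat_lit 76) (nat_lit 25159732572) (nat_lit 76) (nat_lit 18709639025) (nat_lit 3) (nat_lit 4) (nat_lit 4) (nat_lit 5) (nat_lit 4) (nat_lit 4) (nat_lit 321) (nat_lit 215) (nat_lit 184))) (XT.nd (nat_lit 78) (nat_lit 0) (nat_lit 0) (XT.lf (nat_lit 0) (nat_lit 41980768010) (nat_lit 76) (nat_lit 24725180980) (nat_lit 76) (nat_lit 18188274577) (nat_lit 3) (nat_lit 4) (nat_lit 4) (nat_lit 5) (nat_lit 4) (nat_lit 4) (nat_lit 322) (nat_lit 215) (nat_lit 183)) (XT.lf (nat_lit 0) (nat_lit 47092218878)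 (nat_lit 76) (nat_lit 24287220829) (nat_lit 76) (nat_lit 17667635516) (nat_lit 3) (nat_lit 4) (nat_lit 4) (nat_lit 5) (nat_lit 4) (nat_lit 4) (nat_lit 323) (nat_lit 215) (nat_lit 182)))))) (XT.nd (nat_lit 624) (nat_lit 0) (nat_lit 0) (XT.nd (nat_lit 312) (nat_lit 0) (nat_lit 0) (XT.nd (nat_lit 156) (nat_lit 0) (nat_lit 0) (XT.nd (nat_lit 78) (nat_lit 0) (nat_lit 0) (XT.lf (nat_lit 0) (nat_lit 52417549255) (nat_lit 76) (nat_lit 23844809356) (nat_lit 76) (nat_lit 17146482224) (nat_lit 3) (nat_lit 4) (nat_lit 4) (nat_lit 5) (nat_lit 4) (nat_lit 4) (nat_lit 324) (nat_lit 215) (nat_lit 181)) (XT.lf (nat_lit 0) (nat_lit 57969438498) (nat_lit 76) (nat_lit 23396893201) (nat_lit 76) (nat_lit 16623573861) (nat_lit 3) (nat_lit 4) (nat_lit 4) (nat_lit 5) (nat_lit 4) (nat_lit 4) (nat_lit 325) (nat_lit 215) (nat_lit 180))) (XT.nd (nat_lit 78) (nat_lit 0) (nat_lit 0) (XT.lf (nat_lit 0) (nat_lit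 63761105392) (nat_lit 76) (nat_lit 22942405897) (nat_lit 76) (nat_lit 16097665406) (nat_lit 3) (nat_lit 4) (nat_lit 4) (nat_lit 5) (nat_lit 4) (nat_lit 4) (nat_lit 326) (nat_lit 215) (nat_lit 179)) (XT.lf (nat_lit 0) (nat_lit 69806339619) (nat_lit 76) (nat_lit 22480265332) (nat_lit 76) (nat_lit 15567504696) (nat_lit 3) (nat_lit 4) (nat_lit 4) (nat_lit 5) (nat_lit 4) (nat_lit 4) (nat_lit 327) (nat_lit 215) (nat_lit 178)))) (XT.nd (nat_lit 156) (nat_lit 0) (nat_lit 0) (XT.nd (nat_lit 78) (nat_lit 0) (nat_lit 0) (XT.lf (nat_lit 0) (nat_lit 76119534594) (nat_lit 76) (nat_lit 22009371170) (nat_lit 76) (nat_lit 15031829445) (nat_lit 3) (nat_lit 4) (nat_lit 4) (nat_lit 5) (nat_lit 4) (nat_lit 4) (nat_lit 328) (nat_lit 215) (nat_lit 177)) (XT.lf (nat_lit 0) (nat_lit 82715721734) (nat_lit 76) (nat_lit 21528602235) (nat_lit 76) (nat_lit 14489364234) (nat_lit 3) (nat_lit 4) (nat_lit 4) (nat_lit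 5) (nat_lit 4) (nat_lit 4) (nat_lit 329) (nat_lit 215) (nat_lit 176))) (XT.nd (nat_lit 78) (nat_lit 0) (nat_lit 0) (XT.lf (nat_lit 0) (nat_lit 89610606247) (nat_lit 76) (nat_lit 21036813839) (nat_lit 76) (nat_lit 13938817480) (nat_lit 3) (nat_lit 4) (nat_lit 4) (nat_lit 5) (nat_lit 4) (nat_lit 4) (nat_lit 330) (nat_lit 215) (nat_lit 175)) (XT.lf (nat_lit 0) (nat_lit 96820604524) (nat_lit 76) (nat_lit 20532835057) (nat_lit 76) (nat_lit 13378878358) (nat_lit 3) (nat_lit 4) (nat_lit 4) (nat_lit 5) (nat_lit 4) (nat_lit 4) (nat_lit 331) (nat_lit 215) (nat_lit 174))))) (XT.nd (nat_lit 312) (nat_lit 0) (nat_lit 0) (XT.nd (nat_lit 156) (nat_lit 0) (nat_lit 0) (XT.nd (nat_lit 78) (nat_lit 0) (nat_lit 0) (XT.lf (nat_lit 0) (nat_lit 104362883228) (nat_lit 76) (nat_lit 20015465940) (nat_lit 76) (nat_lit 12808213678) (nat_lit 3) (nat_lit 4) (nat_lit 4) (nat_lit 5) (nat_lit 4) (nat_lit 4) (nat_lit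 332) (nat_lit 215) (nat_lit 173)) (XT.lf (nat_lit 0) (nat_lit 112255400164) (nat_lit 76) (nat_lit 19483474657) (nat_lit 76) (nat_lit 12225464716) (nat_lit 3) (nat_lit 4) (nat_lit 4) (nat_lit 5) (nat_lit 4) (nat_lit 4) (nat_lit 333) (nat_lit 215) (nat_lit 172))) (XT.nd (nat_lit 78) (nat_lit 0) (nat_lit 0) (XT.lf (nat_lit 0) (nat_lit 120516947041) (nat_lit 76) (nat_lit 18935594561) (nat_lit 76) (nat_lit 11629243974) (nat_lit 3) (nat_lit 4) (nat_lit 4) (nat_lit 5) (nat_lit 4) (nat_lit 4) (nat_lit 334) (nat_lit 215) (nat_lit 171)) (XT.lf (nat_lit 0) (nat_lit 129167194208) (nat_lit 76) (nat_lit 18370521177) (nat_lit 76) (nat_lit 11018131879) (nat_lit 3) (nat_lit 4) (nat_lit 4) (nat_lit 5) (nat_lit 4) (nat_lit 4) (nat_lit 335) (nat_lit 215) (nat_lit 170)))) (XT.nd (nat_lit 156) (nat_lit 0) (nat_lit 0) (XT.nd (nat_lit 78) (nat_lit 0) (nat_lit 0) (XT.lf (nat_lit 0) (nat_lit 138226737491)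 (nat_lit 76) (nat_lit 17786909091) (nat_lit 76) (nat_lit 10390673402) (nat_lit 3) (nat_lit 4) (nat_lit 4) (nat_lit 5) (nat_lit 4) (nat_lit 4) (nat_lit 336) (nat_lit 215) (nat_lit 169)) (XT.lf (nat_lit 0) (nat_lit 147717147232) (nat_lit 76) (nat_lit 17183368751) (nat_lit 76) (nat_lit 9745374594) (nat_lit 3) (nat_lit 4) (nat_lit 4) (nat_lit 5) (nat_lit 4) (nat_lit 4) (nat_lit 337) (nat_lit 215) (nat_lit 168))) (XT.nd (nat_lit 78) (nat_lit 0) (nat_lit 0) (XT.lf (nat_lit 0) (nat_lit 157661019644) (nat_lit 76) (nat_lit 16558463156) (nat_lit 76) (nat_lit 9080699030) (nat_lit 3) (nat_lit 4) (nat_lit 4) (nat_lit 5) (nat_lit 4) (nat_lit 4) (nat_lit 338) (nat_lit 215) (nat_lit 167)) (XT.lf (nat_lit 0) (nat_lit 168082030613) (nat_lit 76) (nat_lit 15910704436) (nat_lit 76) (nat_lit 8395064148) (nat_lit 3) (nat_lit 4) (nat_lit 4) (nat_lit 5) (nat_lit 4) (nat_lit 4) (nat_lit 339) (nat_lit 215)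 (nat_lit 166)))))))
noncomputable def xc32 : XT := (XT.nd (nat_lit 1248) (nat_lit 0) (nat_lit 0) (XT.nd (nat_lit 624) (nat_lit 152) (nat_lit 0) (XT.nd (nat_lit 312) (nat_lit 0) (nat_lit 0) (XT.nd (nat_lit 156) (nat_lit 0) (nat_lit 0) (XT.nd (nat_lit 78) (nat_lit 0) (nat_lit 0) (XT.lf (nat_lit 0) (nat_lit 179004992072) (nat_lit 76) (nat_lit 15238550307) (nat_lit 76) (nat_lit 7686837485) (nat_lit 3) (nat_lit 4) (nat_lit 4) (nat_lit 5) (nat_lit 4) (nat_lit 4) (nat_lit 340) (nat_lit 215) (nat_lit 165)) (XT.lf (nat_lit 0) (nat_lit 190455911071) (nat_lit 76) (nat_lit 14540400404) (nat_lit 76) (nat_lit 6954332786) (nat_lit 3) (nat_lit 4) (nat_lit 4) (nat_lit 5) (nat_lit 4) (nat_lit 4) (nat_lit 341) (nat_lit 215) (nat_lit 164))) (XT.nd (nat_lit 78) (nat_lit 0) (nat_lit 0) (XT.lf (nat_lit 0) (nat_lit 202462051702) (nat_lit 76) (nat_lit 13814592463) (nat_lit 76) (nat_lit 6195805994) (nat_lit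 3) (nat_lit 4) (nat_lit 4) (nat_lit 5) (nat_lit 4) (nat_lit 4) (nat_lit 342) (nat_lit 215) (nat_lit 163)) (XT.lf (nat_lit 0) (nat_lit 215052000015) (nat_lit 76) (nat_lit 13059398372) (nat_lit 76) (nat_lit 5409451091) (nat_lit 3) (nat_lit 4) (nat_lit 4) (nat_lit 5) (nat_lit 4) (nat_lit 4) (nat_lit 343) (nat_lit 215) (nat_lit 162)))) (XT.nd (nat_lit 156) (nat_lit 0) (nat_lit 0) (XT.nd (nat_lit 78) (nat_lit 0) (nat_lit 0) (XT.lf (nat_lit 0) (nat_lit 228255732078) (nat_lit 76) (nat_lit 12273020049) (nat_lit 76) (nat_lit 4593395804) (nat_lit 3) (nat_lit 4) (nat_lit 4) (nat_lit 5) (nat_lit 4) (nat_lit 4) (nat_lit 344) (nat_lit 215) (nat_lit 161)) (XT.lf (nat_lit 0) (nat_lit 242104685347) (nat_lit 76) (nat_lit 11453585165) (nat_lit 76) (nat_lit 3745697145) (nat_lit 3) (nat_lit 4) (nat_lit 4) (nat_lit 5) (nat_lit 4) (nat_lit 4) (nat_lit 345) (nat_lit 215) (nat_lit 160))) (XT.nd (nat_lit 78)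 (nat_lit 0) (nat_lit 0) (XT.lf (nat_lit 0) (nat_lit 256631833521) (nat_lit 76) (nat_lit 10599142683) (nat_lit 76) (nat_lit 2864336783) (nat_lit 3) (nat_lit 4) (nat_lit 4) (nat_lit 5) (nat_lit 4) (nat_lit 4) (nat_lit 346) (nat_lit 215) (nat_lit 159)) (XT.lf (nat_lit 0) (nat_lit 271871765047) (nat_lit 76) (nat_lit 9707658218) (nat_lit 76) (nat_lit 1947216241) (nat_lit 3) (nat_lit 4) (nat_lit 4) (nat_lit 5) (nat_lit 4) (nat_lit 4) (nat_lit 347) (nat_lit 215) (nat_lit 158))))) (XT.nd (nat_lit 312) (nat_lit 76) (nat_lit 0) (XT.nd (nat_lit 156) (nat_lit 0) (nat_lit 0) (XT.nd (nat_lit 78) (nat_lit 76) (nat_lit 0) (XT.lf (nat_lit 0) (nat_lit 287860765478) (nat_lit 76) (nat_lit 8777009187) (nat_lit 76) (nat_lit 992151899) (nat_lit 3) (nat_lit 4) (nat_lit 4) (nat_lit 5) (nat_lit 4) (nat_lit 4) (nat_lit 348) (nat_lit 215) (nat_lit 157)) (XT.lf (nat_lit 0) (nat_lit 3030019) (nat_lit 152) (nat_lit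 7801898425) (nat_lit 76) (nat_lit 304633822528) (nat_lit 2) (nat_lit 5) (nat_lit 4) (nat_lit 5) (nat_lit 3) (nat_lit 4) (nat_lit 349) (nat_lit 215) (nat_lit 156))) (XT.nd (nat_lit 78) (nat_lit 0) (nat_lit 0) (XT.lf (nat_lit 0) (nat_lit 1007681298) (nat_lit 152) (nat_lit 5764508711) (nat_lit 76) (nat_lit 321215376516) (nat_lit 2) (nat_lit 5) (nat_lit 4) (nat_lit 5) (nat_lit 3) (nat_lit 4) (nat_lit 350) (nat_lit 215) (nat_lit 155)) (XT.lf (nat_lit 0) (nat_lit 2055949021) (nat_lit 152) (nat_lit 3636650743) (nat_lit 76) (nat_lit 338621568963) (nat_lit 2) (nat_lit 5) (nat_lit 4) (nat_lit 5) (nat_lit 3) (nat_lit 4) (nat_lit 351) (nat_lit 215) (nat_lit 154)))) (XT.nd (nat_lit 156) (nat_lit 0) (nat_lit 0) (XT.nd (nat_lit 78) (nat_lit 76) (nat_lit 0) (XT.lf (nat_lit 0) (nat_lit 3150329062) (nat_lit 152) (nat_lit 1413258195) (nat_lit 76) (nat_lit 356893843182) (nat_lit 2) (nat_lit 5) (nat_lit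 4) (nat_lit 5) (nat_lit 3) (nat_lit 4) (nat_lit 352) (nat_lit 215) (nat_lit 153)) (XT.lf (nat_lit 0) (nat_lit 941083267) (nat_lit 76) (nat_lit 3367036769) (nat_lit 152) (nat_lit 375149314269) (nat_lit 1) (nat_lit 5) (nat_lit 2) (nat_lit 5) (nat_lit 3) (nat_lit 4) (nat_lit 353) (nat_lit 215) (nat_lit 152))) (XT.nd (nat_lit 78) (nat_lit 0) (nat_lit 0) (XT.lf (nat_lit 0) (nat_lit 3452032477) (nat_lit 76) (nat_lit 2089828190) (nat_lit 152) (nat_lit 392814687707) (nat_lit 1) (nat_lit 5) (nat_lit 2) (nat_lit 5) (nat_lit 3) (nat_lit 4) (nat_lit 354) (nat_lit 215) (nat_lit 151)) (XT.lf (nat_lit 0) (nat_lit 6078839185) (nat_lit 76) (nat_lit 752854757) (nat_lit 152) (nat_lit 411369216316) (nat_lit 1) (nat_lit 5) (nat_lit 2) (nat_lit 5) (nat_lit 3) (nat_lit 4) (nat_lit 355) (nat_lit 215) (nat_lit 150)))))) (XT.nd (nat_lit 32526) (nat_lit 0) (nat_lit 380) (XT.nd (nat_lit 32214) (nat_lit 0) (nat_lit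 456) (XT.nd (nat_lit 156) (nat_lit 0) (nat_lit 0) (XT.nd (nat_lit 78) (nat_lit 0) (nat_lit 0) (XT.lf (nat_lit 0) (nat_lit 8190793420) (nat_lit 152) (nat_lit 430220113272) (nat_lit 0) (nat_lit 626356620) (nat_lit 1) (nat_lit 5) (nat_lit 3) (nat_lit 4) (nat_lit 1) (nat_lit 4) (nat_lit 356) (nat_lit 215) (nat_lit 149)) (XT.lf (nat_lit 0) (nat_lit 9625057482) (nat_lit 152) (nat_lit 449244395501) (nat_lit 0) (nat_lit 2045631799) (nat_lit 1) (nat_lit 5) (nat_lit 3) (nat_lit 4) (nat_lit 1) (nat_lit 4) (nat_lit 357) (nat_lit 215) (nat_lit 148))) (XT.nd (nat_lit 78) (nat_lit 0) (nat_lit 0) (XT.lf (nat_lit 0) (nat_lit 11126146870) (nat_lit 152) (nat_lit 469228459495) (nat_lit 0) (nat_lit 3532446059) (nat_lit 1) (nat_lit 5) (nat_lit 3) (nat_lit 4) (nat_lit 1) (nat_lit 4) (nat_lit 358) (nat_lit 215) (nat_lit 147)) (XT.lf (nat_lit 0) (nat_lit 12697635605) (nat_lit 152) (nat_lit 490219886362) (nat_lit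 0) (nat_lit 5090339435) (nat_lit 1) (nat_lit 5) (nat_lit 3) (nat_lit 4) (nat_lit 1) (nat_lit 4) (nat_lit 359) (nat_lit 215) (nat_lit 146)))) (XT.nd (nat_lit 156) (nat_lit 152) (nat_lit 0) (XT.nd (nat_lit 78) (nat_lit 0) (nat_lit 0) (XT.lf (nat_lit 0) (nat_lit 3139619139) (nat_lit 152) (nat_lit 3034152019) (nat_lit 152) (nat_lit 3034152019) (nat_lit 9) (nat_lit 4) (nat_lit 11) (nat_lit 5) (nat_lit 11) (nat_lit 4) (nat_lit 288) (nat_lit 216) (nat_lit 216)) (XT.lf (nat_lit 0) (nat_lit 11885900393) (nat_lit 152) (nat_lit 3866565650) (nat_lit 152) (nat_lit 3410507511) (nat_lit 9) (nat_lit 4) (nat_lit 11) (nat_lit 5) (nat_lit 11) (nat_lit 4) (nat_lit 289) (nat_lit 216) (nat_lit 215))) (XT.nd (nat_lit 78) (nat_lit 152) (nat_lit 0) (XT.lf (nat_lit 0) (nat_lit 17606228404) (nat_lit 152) (nat_lit 1618548326) (nat_lit 152) (nat_lit 728149103) (nat_lit 9) (nat_lit 4) (nat_lit 11) (nat_lit 5)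 (nat_lit 11) (nat_lit 4) (nat_lit 290) (nat_lit 216) (nat_lit 214)) (XT.lf (nat_lit 0) (nat_lit 1975963342) (nat_lit 152) (nat_lit 18073349926) (nat_lit 0) (nat_lit 734003915) (nat_lit 7) (nat_lit 5) (nat_lit 9) (nat_lit 4) (nat_lit 7) (nat_lit 4) (nat_lit 291) (nat_lit 216) (nat_lit 213))))) (XT.nd (nat_lit 312) (nat_lit 76) (nat_lit 0) (XT.nd (nat_lit 156) (nat_lit 0) (nat_lit 0) (XT.nd (nat_lit 78) (nat_lit 0) (nat_lit 0) (XT.lf (nat_lit 0) (nat_lit 4759163416) (nat_lit 152) (nat_lit 13755327782) (nat_lit 0) (nat_lit 3142003829) (nat_lit 7) (nat_lit 5) (nat_lit 9) (nat_lit 4) (nat_lit 7) (nat_lit 4) (nat_lit 292) (nat_lit 216) (nat_lit 212)) (XT.lf (nat_lit 0) (nat_lit 7587642577) (nat_lit 152) (nat_lit 9377501727) (nat_lit 0) (nat_lit 5613149505) (nat_lit 7) (nat_lit 5) (nat_lit 9) (nat_lit 4) (nat_lit 7) (nat_lit 4) (nat_lit 293) (nat_lit 216) (nat_lit 211))) (XT.nd (nat_lit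 78) (nat_lit 0) (nat_lit 0) (XT.lf (nat_lit 0) (nat_lit 10468135299) (nat_lit 152) (nat_lit 4929448365) (nat_lit 0) (nat_lit 8153324622) (nat_lit 7) (nat_lit 5) (nat_lit 9) (nat_lit 4) (nat_lit 7) (nat_lit 4) (nat_lit 294) (nat_lit 216) (nat_lit 210)) (XT.lf (nat_lit 0) (nat_lit 13407499900) (nat_lit 152) (nat_lit 400577095) (nat_lit 0) (nat_lit 10768577218) (nat_lit 7) (nat_lit 5) (nat_lit 9) (nat_lit 4) (nat_lit 7) (nat_lit 4) (nat_lit 295) (nat_lit 216) (nat_lit 209)))) (XT.nd (nat_lit 156) (nat_lit 0) (nat_lit 0) (XT.nd (nat_lit 78) (nat_lit 0) (nat_lit 0) (XT.lf (nat_lit 0) (nat_lit 4359423902) (nat_lit 76) (nat_lit 12121373787) (nat_lit 76) (nat_lit 9173773005) (nat_lit 6) (nat_lit 4) (nat_lit 7) (nat_lit 5) (nat_lit 7) (nat_lit 4) (nat_lit 296) (nat_lit 216) (nat_lit 208)) (XT.lf (nat_lit 0) (nat_lit 9238664335) (nat_lit 76) (nat_lit 10396572622) (nat_lit 76) (nat_lit 7154992698)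 (nat_lit 6) (nat_lit 4) (nat_lit 7) (nat_lit 5) (nat_lit 7) (nat_lit 4) (nat_lit 297) (nat_lit 216) (nat_lit 207))) (XT.nd (nat_lit 78) (nat_lit 0) (nat_lit 0) (XT.lf (nat_lit 0) (nat_lit 14235516556) (nat_lit 76) (nat_lit 8636350797) (nat_lit 76) (nat_lit 5114790737) (nat_lit 6) (nat_lit 4) (nat_lit 7) (nat_lit 5) (nat_lit 7) (nat_lit 4) (nat_lit 298) (nat_lit 216) (nat_lit 206)) (XT.nd (nat_lit 78) (nat_lit 0) (nat_lit 0) (XT.lf (nat_lit 0) (nat_lit 19361877832) (nat_lit 76) (nat_lit 6836517308) (nat_lit 76) (nat_lit 3048309500) (nat_lit 6) (nat_lit 4) (nat_lit 7) (nat_lit 5) (nat_lit 7) (nat_lit 4) (nat_lit 299) (nat_lit 216) (nat_lit 205)) (XT.lf (nat_lit 0) (nat_lit 24629953784) (nat_lit 76) (nat_lit 4992786838) (nat_lit 76) (nat_lit 950628793) (nat_lit 6) (nat_lit 4) (nat_lit 7) (nat_lit 5) (nat_lit 7) (nat_lit 4) (nat_lit 300) (nat_lit 216) (nat_lit 204))))))))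
noncomputable def xc33 : XT := (XT.nd (nat_lit 2496) (nat_lit 152) (nat_lit 0) (XT.nd (nat_lit 1248) (nat_lit 0) (nat_lit 0) (XT.nd (nat_lit 624) (nat_lit 76) (nat_lit 0) (XT.nd (nat_lit 312) (nat_lit 0) (nat_lit 0) (XT.nd (nat_lit 156) (nat_lit 0) (nat_lit 0) (XT.nd (nat_lit 78) (nat_lit 76) (nat_lit 0) (XT.lf (nat_lit 0) (nat_lit 1145374604) (nat_lit 152) (nat_lit 1935997473) (nat_lit 76) (nat_lit 28887515374) (nat_lit 5) (nat_lit 5) (nat_lit 7) (nat_lit 5) (nat_lit 6) (nat_lit 4) (nat_lit 301) (nat_lit 216) (nat_lit 203)) (XT.lf (nat_lit 0) (nat_lit 2221089240) (nat_lit 76) (nat_lit 1064493688) (nat_lit 152) (nat_lit 30149416180) (nat_lit 4) (nat_lit 5) (nat_lit 5) (nat_lit 5) (nat_lit 6) (nat_lit 4) (nat_lit 302) (nat_lit 216) (nat_lit 202))) (XT.nd (nat_lit 78) (nat_lit 0) (nat_lit 0) (XT.lf (nat_lit 0) (nat_lit 5519964435) (nat_lit 152) (nat_lit 28443597962) (nat_lit 0) (nat_lit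 1011652506) (nat_lit 4) (nat_lit 5) (nat_lit 6) (nat_lit 4) (nat_lit 4) (nat_lit 4) (nat_lit 303) (nat_lit 216) (nat_lit 201)) (XT.lf (nat_lit 0) (nat_lit 7823891324) (nat_lit 152) (nat_lit 25654205342) (nat_lit 0) (nat_lit 3116602739) (nat_lit 4) (nat_lit 5) (nat_lit 6) (nat_lit 4) (nat_lit 4) (nat_lit 4) (nat_lit 304) (nat_lit 216) (nat_lit 200)))) (XT.nd (nat_lit 156) (nat_lit 0) (nat_lit 0) (XT.nd (nat_lit 78) (nat_lit 0) (nat_lit 0) (XT.lf (nat_lit 0) (nat_lit 10186229405) (nat_lit 152) (nat_lit 22822470868) (nat_lit 0) (nat_lit 5289439244) (nat_lit 4) (nat_lit 5) (nat_lit 6) (nat_lit 4) (nat_lit 4) (nat_lit 4) (nat_lit 305) (nat_lit 216) (nat_lit 199)) (XT.lf (nat_lit 0) (nat_lit 12612603292) (nat_lit 152) (nat_lit 19941652315) (nat_lit 0) (nat_lit 7535335439) (nat_lit 4) (nat_lit 5) (nat_lit 6) (nat_lit 4) (nat_lit 4) (nat_lit 4) (nat_lit 306) (nat_lit 216) (nat_lit 198)))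 (XT.nd (nat_lit 78) (nat_lit 0) (nat_lit 0) (XT.lf (nat_lit 0) (nat_lit 15108790067) (nat_lit 152) (nat_lit 17004890591) (nat_lit 0) (nat_lit 9859638698) (nat_lit 4) (nat_lit 5) (nat_lit 6) (nat_lit 4) (nat_lit 4) (nat_lit 4) (nat_lit 307) (nat_lit 216) (nat_lit 197)) (XT.lf (nat_lit 0) (nat_lit 17680733031) (nat_lit 152) (nat_lit 14005193406) (nat_lit 0) (nat_lit 12267883075) (nat_lit 4) (nat_lit 5) (nat_lit 6) (nat_lit 4) (nat_lit 4) (nat_lit 4) (nat_lit 308) (nat_lit 216) (nat_lit 196))))) (XT.nd (nat_lit 312) (nat_lit 76) (nat_lit 0) (XT.nd (nat_lit 156) (nat_lit 0) (nat_lit 0) (XT.nd (nat_lit 78) (nat_lit 0) (nat_lit 0) (XT.lf (nat_lit 0) (nat_lit 20334555858) (nat_lit 152) (nat_lit 10935418624) (nat_lit 0) (nat_lit 14765802486) (nat_lit 4) (nat_lit 5) (nat_lit 6) (nat_lit 4) (nat_lit 4) (nat_lit 4) (nat_lit 309) (nat_lit 216) (nat_lit 195)) (XT.lf (nat_lit 0) (nat_lit 23076577173)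 (nat_lit 152) (nat_lit 7788257258) (nat_lit 0) (nat_lit 17359344358) (nat_lit 4) (nat_lit 5) (nat_lit 6) (nat_lit 4) (nat_lit 4) (nat_lit 4) (nat_lit 310) (nat_lit 216) (nat_lit 194))) (XT.nd (nat_lit 78) (nat_lit 0) (nat_lit 0) (XT.lf (nat_lit 0) (nat_lit 25913325600) (nat_lit 152) (nat_lit 4556216066) (nat_lit 0) (nat_lit 20054683790) (nat_lit 4) (nat_lit 5) (nat_lit 6) (nat_lit 4) (nat_lit 4) (nat_lit 4) (nat_lit 311) (nat_lit 216) (nat_lit 193)) (XT.lf (nat_lit 0) (nat_lit 28851555300) (nat_lit 152) (nat_lit 1231599712) (nat_lit 0) (nat_lit 22858238258) (nat_lit 4) (nat_lit 5) (nat_lit 6) (nat_lit 4) (nat_lit 4) (nat_lit 4) (nat_lit 312) (nat_lit 216) (nat_lit 192)))) (XT.nd (nat_lit 156) (nat_lit 0) (nat_lit 0) (XT.nd (nat_lit 78) (nat_lit 0) (nat_lit 0) (XT.lf (nat_lit 0) (nat_lit 2266034823) (nat_lit 76) (nat_lit 29667606389) (nat_lit 76) (nat_lit 23546027221) (nat_lit 3) (nat_lit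 4) (nat_lit 4) (nat_lit 5) (nat_lit 4) (nat_lit 4) (nat_lit 313) (nat_lit 216) (nat_lit 191)) (XT.lf (nat_lit 0) (nat_lit 5916629864) (nat_lit 76) (nat_lit 29236445249) (nat_lit 76) (nat_lit 22992711675) (nat_lit 3) (nat_lit 4) (nat_lit 4) (nat_lit 5) (nat_lit 4) (nat_lit 4) (nat_lit 314) (nat_lit 216) (nat_lit 190))) (XT.nd (nat_lit 78) (nat_lit 0) (nat_lit 0) (XT.lf (nat_lit 0) (nat_lit 9688155057) (nat_lit 76) (nat_lit 28809502752) (nat_lit 76) (nat_lit 22449431649) (nat_lit 3) (nat_lit 4) (nat_lit 4) (nat_lit 5) (nat_lit 4) (nat_lit 4) (nat_lit 315) (nat_lit 216) (nat_lit 189)) (XT.lf (nat_lit 0) (nat_lit 13589590221) (nat_lit 76) (nat_lit 28385762370) (nat_lit 76) (nat_lit 21914893620) (nat_lit 3) (nat_lit 4) (nat_lit 4) (nat_lit 5) (nat_lit 4) (nat_lit 4) (nat_lit 316) (nat_lit 216) (nat_lit 188)))))) (XT.nd (nat_lit 624) (nat_lit 0) (nat_lit 0) (XT.nd (nat_lit 312) (nat_lit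 0) (nat_lit 0) (XT.nd (nat_lit 156) (nat_lit 0) (nat_lit 0) (XT.nd (nat_lit 78) (nat_lit 0) (nat_lit 0) (XT.lf (nat_lit 0) (nat_lit 17630224490) (nat_lit 76) (nat_lit 27964215197) (nat_lit 76) (nat_lit 21387824878) (nat_lit 3) (nat_lit 4) (nat_lit 4) (nat_lit 5) (nat_lit 4) (nat_lit 4) (nat_lit 317) (nat_lit 216) (nat_lit 187)) (XT.lf (nat_lit 0) (nat_lit 21819678421) (nat_lit 76) (nat_lit 27543857549) (nat_lit 76) (nat_lit 20866970498) (nat_lit 3) (nat_lit 4) (nat_lit 4) (nat_lit 5) (nat_lit 4) (nat_lit 4) (nat_lit 318) (nat_lit 216) (nat_lit 186))) (XT.nd (nat_lit 78) (nat_lit 0) (nat_lit 0) (XT.lf (nat_lit 0) (nat_lit 26167926903) (nat_lit 76) (nat_lit 27123688575) (nat_lit 76) (nat_lit 20351090351) (nat_lit 3) (nat_lit 4) (nat_lit 4) (nat_lit 5) (nat_lit 4) (nat_lit 4) (nat_lit 319) (nat_lit 216) (nat_lit 185)) (XT.lf (nat_lit 0) (nat_lit 30685322910) (nat_lit 76) (nat_lit 26702707872)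 (nat_lit 76) (nat_lit 19838956149) (nat_lit 3) (nat_lit 4) (nat_lit 4) (nat_lit 5) (nat_lit 4) (nat_lit 4) (nat_lit 320) (nat_lit 216) (nat_lit 184)))) (XT.nd (nat_lit 156) (nat_lit 0) (nat_lit 0) (XT.nd (nat_lit 78) (nat_lit 0) (nat_lit 0) (XT.lf (nat_lit 0) (nat_lit 35382622146) (nat_lit 76) (nat_lit 26279913105) (nat_lit 76) (nat_lit 19329348527) (nat_lit 3) (nat_lit 4) (nat_lit 4) (nat_lit 5) (nat_lit 4) (nat_lit 4) (nat_lit 321) (nat_lit 216) (nat_lit 183)) (XT.lf (nat_lit 0) (nat_lit 40271008658) (nat_lit 76) (nat_lit 25854297621) (nat_lit 76) (nat_lit 18821054132) (nat_lit 3) (nat_lit 4) (nat_lit 4) (nat_lit 5) (nat_lit 4) (nat_lit 4) (nat_lit 322) (nat_lit 216) (nat_lit 182))) (XT.nd (nat_lit 78) (nat_lit 0) (nat_lit 0) (XT.lf (nat_lit 0) (nat_lit 45362121460) (nat_lit 76) (nat_lit 25424848048) (nat_lit 76) (nat_lit 18312862741) (nat_lit 3) (nat_lit 4) (nat_lit 4) (nat_lit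 5) (nat_lit 4) (nat_lit 4) (nat_lit 323) (nat_lit 216) (nat_lit 181)) (XT.lf (nat_lit 0) (nat_lit 50668082250) (nat_lit 76) (nat_lit 24990541889) (nat_lit 76) (nat_lit 17803564372) (nat_lit 3) (nat_lit 4) (nat_lit 4) (nat_lit 5) (nat_lit 4) (nat_lit 4) (nat_lit 324) (nat_lit 216) (nat_lit 180))))) (XT.nd (nat_lit 312) (nat_lit 0) (nat_lit 0) (XT.nd (nat_lit 156) (nat_lit 0) (nat_lit 0) (XT.nd (nat_lit 78) (nat_lit 0) (nat_lit 0) (XT.lf (nat_lit 0) (nat_lit 56201524268) (nat_lit 76) (nat_lit 24550345079) (nat_lit 76) (nat_lit 17291946412) (nat_lit 3) (nat_lit 4) (nat_lit 4) (nat_lit 5) (nat_lit 4) (nat_lit 4) (nat_lit 325) (nat_lit 216) (nat_lit 179)) (XT.lf (nat_lit 0) (nat_lit 61975622376) (nat_lit 76) (nat_lit 24103209533) (nat_lit 76) (nat_lit 16776790722) (nat_lit 3) (nat_lit 4) (nat_lit 4) (nat_lit 5) (nat_lit 4) (nat_lit 4) (nat_lit 326) (nat_lit 216) (nat_lit 178))) (XT.nd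 (nat_lit 78) (nat_lit 0) (nat_lit 0) (XT.lf (nat_lit 0) (nat_lit 68004124426) (nat_lit 76) (nat_lit 23648070642) (nat_lit 76) (nat_lit 16256870741) (nat_lit 3) (nat_lit 4) (nat_lit 4) (nat_lit 5) (nat_lit 4) (nat_lit 4) (nat_lit 327) (nat_lit 216) (nat_lit 177)) (XT.lf (nat_lit 0) (nat_lit 74301383994) (nat_lit 76) (nat_lit 23183844741) (nat_lit 76) (nat_lit 15730948564) (nat_lit 3) (nat_lit 4) (nat_lit 4) (nat_lit 5) (nat_lit 4) (nat_lit 4) (nat_lit 328) (nat_lit 216) (nat_lit 176)))) (XT.nd (nat_lit 156) (nat_lit 0) (nat_lit 0) (XT.nd (nat_lit 78) (nat_lit 0) (nat_lit 0) (XT.lf (nat_lit 0) (nat_lit 80882394557) (nat_lit 76) (nat_lit 22709426531) (nat_lit 76) (nat_lit 15197771996) (nat_lit 3) (nat_lit 4) (nat_lit 4) (nat_lit 5) (nat_lit 4) (nat_lit 4) (nat_lit 329) (nat_lit 216) (nat_lit 175)) (XT.lf (nat_lit 0) (nat_lit 87762825186) (nat_lit 76) (nat_lit 22223686444) (nat_lit 76)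 (nat_lit 14656071569) (nat_lit 3) (nat_lit 4) (nat_lit 4) (nat_lit 5) (nat_lit 4) (nat_lit 4) (nat_lit 330) (nat_lit 216) (nat_lit 174))) (XT.nd (nat_lit 78) (nat_lit 0) (nat_lit 0) (XT.lf (nat_lit 0) (nat_lit 94959057859) (nat_lit 76) (nat_lit 21725467957) (nat_lit 76) (nat_lit 14104557519) (nat_lit 3) (nat_lit 4) (nat_lit 4) (nat_lit 5) (nat_lit 4) (nat_lit 4) (nat_lit 331) (nat_lit 216) (nat_lit 173)) (XT.lf (nat_lit 0) (nat_lit 102488226464) (nat_lit 76) (nat_lit 21213584835) (nat_lit 76) (nat_lit 13541916718) (nat_lit 3) (nat_lit 4) (nat_lit 4) (nat_lit 5) (nat_lit 4) (nat_lit 4) (nat_lit 332) (nat_lit 216) (nat_lit 172))))))) (XT.nd (nat_lit 1248) (nat_lit 152) (nat_lit 0) (XT.nd (nat_lit 624) (nat_lit 0) (nat_lit 0) (XT.nd (nat_lit 312) (nat_lit 0) (nat_lit 0) (XT.nd (nat_lit 156) (nat_lit 0) (nat_lit 0) (XT.nd (nat_lit 78) (nat_lit 0) (nat_lit 0) (XT.lf (nat_lit 0) (nat_lit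 110368257593) (nat_lit 76) (nat_lit 20686818309) (nat_lit 76) (nat_lit 12966809546) (nat_lit 3) (nat_lit 4) (nat_lit 4) (nat_lit 5) (nat_lit 4) (nat_lit 4) (nat_lit 333) (nat_lit 216) (nat_lit 171)) (XT.lf (nat_lit 0) (nat_lit 118617913224) (nat_lit 76) (nat_lit 20143914172) (nat_lit 76) (nat_lit 12377866698) (nat_lit 3) (nat_lit 4) (nat_lit 4) (nat_lit 5) (nat_lit 4) (nat_lit 4) (nat_lit 334) (nat_lit 216) (nat_lit 170))) (XT.nd (nat_lit 78) (nat_lit 0) (nat_lit 0) (XT.lf (nat_lit 0) (nat_lit 127256835395) (nat_lit 76) (nat_lit 19583579796) (nat_lit 76) (nat_lit 11773685931) (nat_lit 3) (nat_lit 4) (nat_lit 4) (nat_lit 5) (nat_lit 4) (nat_lit 4) (nat_lit 335) (nat_lit 216) (nat_lit 169)) (XT.lf (nat_lit 0) (nat_lit 136305592967) (nat_lit 76) (nat_lit 19004481052) (nat_lit 76) (nat_lit 11152828719) (nat_lit 3) (nat_lit 4) (nat_lit 4) (nat_lit 5) (nat_lit 4) (nat_lit 4) (nat_lit 336)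 (nat_lit 216) (nat_lit 168)))) (XT.nd (nat_lit 156) (nat_lit 0) (nat_lit 0) (XT.nd (nat_lit 78) (nat_lit 0) (nat_lit 0) (XT.lf (nat_lit 0) (nat_lit 145785730603) (nat_lit 76) (nat_lit 18405239132) (nat_lit 76) (nat_lit 10513816830) (nat_lit 3) (nat_lit 4) (nat_lit 4) (nat_lit 5) (nat_lit 4) (nat_lit 4) (nat_lit 337) (nat_lit 216) (nat_lit 167)) (XT.lf (nat_lit 0) (nat_lit 155719820057) (nat_lit 76) (nat_lit 17784427271) (nat_lit 76) (nat_lit 9855128808) (nat_lit 3) (nat_lit 4) (nat_lit 4) (nat_lit 5) (nat_lit 4) (nat_lit 4) (nat_lit 338) (nat_lit 216) (nat_lit 166))) (XT.nd (nat_lit 78) (nat_lit 0) (nat_lit 0) (XT.lf (nat_lit 0) (nat_lit 166131513925) (nat_lit 76) (nat_lit 17140567345) (nat_lit 76) (nat_lit 9175196347) (nat_lit 3) (nat_lit 4) (nat_lit 4) (nat_lit 5) (nat_lit 4) (nat_lit 4) (nat_lit 339) (nat_lit 216) (nat_lit 165)) (XT.lf (nat_lit 0) (nat_lit 177045601953) (nat_lit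 76) (nat_lit 16472126354) (nat_lit 76) (nat_lit 8472400561) (nat_lit 3) (nat_lit 4) (nat_lit 4) (nat_lit 5) (nat_lit 4) (nat_lit 4) (nat_lit 340) (nat_lit 216) (nat_lit 164))))) (XT.nd (nat_lit 312) (nat_lit 0) (nat_lit 0) (XT.nd (nat_lit 156) (nat_lit 0) (nat_lit 0) (XT.nd (nat_lit 78) (nat_lit 0) (nat_lit 0) (XT.lf (nat_lit 0) (nat_lit 188488070065) (nat_lit 76) (nat_lit 15777512772) (nat_lit 76) (nat_lit 7745068126) (nat_lit 3) (nat_lit 4) (nat_lit 4) (nat_lit 5) (nat_lit 4) (nat_lit 4) (nat_lit 341) (nat_lit 216) (nat_lit 163)) (XT.lf (nat_lit 0) (nat_lit 200486162233) (nat_lit 76) (nat_lit 15055072756) (nat_lit 76) (nat_lit 6991467299) (nat_lit 3) (nat_lit 4) (nat_lit 4) (nat_lit 5) (nat_lit 4) (nat_lit 4) (nat_lit 342) (nat_lit 216) (nat_lit 162))) (XT.nd (nat_lit 78) (nat_lit 0) (nat_lit 0) (XT.lf (nat_lit 0) (nat_lit 213068445343) (nat_lit 76) (nat_lit 14303086213) (nat_lit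 76) (nat_lit 6209803792) (nat_lit 3) (nat_lit 4) (nat_lit 4) (nat_lit 5) (nat_lit 4) (nat_lit 4) (nat_lit 343) (nat_lit 216) (nat_lit 161)) (XT.lf (nat_lit 0) (nat_lit 226264877212) (nat_lit 76) (nat_lit 13519762697) (nat_lit 76) (nat_lit 5398216501) (nat_lit 3) (nat_lit 4) (nat_lit 4) (nat_lit 5) (nat_lit 4) (nat_lit 4) (nat_lit 344) (nat_lit 216) (nat_lit 160)))) (XT.nd (nat_lit 156) (nat_lit 0) (nat_lit 0) (XT.nd (nat_lit 78) (nat_lit 0) (nat_lit 0) (XT.lf (nat_lit 0) (nat_lit 240106877916) (nat_lit 76) (nat_lit 12703237152) (nat_lit 76) (nat_lit 4554773076) (nat_lit 3) (nat_lit 4) (nat_lit 4) (nat_lit 5) (nat_lit 4) (nat_lit 4) (nat_lit 345) (nat_lit 216) (nat_lit 159)) (XT.lf (nat_lit 0) (nat_lit 254627404599) (nat_lit 76) (nat_lit 11851565471) (nat_lit 76) (nat_lit 3677465318) (nat_lit 3) (nat_lit 4) (nat_lit 4) (nat_lit 5) (nat_lit 4) (nat_lit 4) (nat_lit 346) (nat_lit 216)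 (nat_lit 158))) (XT.nd (nat_lit 78) (nat_lit 0) (nat_lit 0) (XT.lf (nat_lit 0) (nat_lit 269861029944) (nat_lit 76) (nat_lit 10962719863) (nat_lit 76) (nat_lit 2764204399) (nat_lit 3) (nat_lit 4) (nat_lit 4) (nat_lit 5) (nat_lit 4) (nat_lit 4) (nat_lit 347) (nat_lit 216) (nat_lit 157)) (XT.lf (nat_lit 0) (nat_lit 285844024488) (nat_lit 76) (nat_lit 10034584030) (nat_lit 76) (nat_lit 1812815888) (nat_lit 3) (nat_lit 4) (nat_lit 4) (nat_lit 5) (nat_lit 4) (nat_lit 4) (nat_lit 348) (nat_lit 216) (nat_lit 156)))))) (XT.nd (nat_lit 624) (nat_lit 0) (nat_lit 0) (XT.nd (nat_lit 312) (nat_lit 76) (nat_lit 0) (XT.nd (nat_lit 156) (nat_lit 0) (nat_lit 0) (XT.nd (nat_lit 78) (nat_lit 76) (nat_lit 0) (XT.lf (nat_lit 0) (nat_lit 302614442979) (nat_lit 76) (nat_lit 9064948124) (nat_lit 76) (nat_lit 821034575) (nat_lit 3) (nat_lit 4) (nat_lit 4) (nat_lit 5) (nat_lit 4) (nat_lit 4) (nat_lit 349) (nat_lit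 216) (nat_lit 155)) (XT.lf (nat_lit 0) (nat_lit 206667561) (nat_lit 152) (nat_lit 7841335911) (nat_lit 76) (nat_lit 320002047409) (nat_lit 2) (nat_lit 5) (nat_lit 4) (nat_lit 5) (nat_lit 3) (nat_lit 4) (nat_lit 350) (nat_lit 216) (nat_lit 154))) (XT.nd (nat_lit 78) (nat_lit 0) (nat_lit 0) (XT.lf (nat_lit 0) (nat_lit 1251861592) (nat_lit 152) (nat_lit 5718774684) (nat_lit 76) (nat_lit 337406177490) (nat_lit 2) (nat_lit 5) (nat_lit 4) (nat_lit 5) (nat_lit 3) (nat_lit 4) (nat_lit 351) (nat_lit 216) (nat_lit 153)) (XT.lf (nat_lit 0) (nat_lit 2343314309) (nat_lit 152) (nat_lit 3500426650) (nat_lit 76) (nat_lit 355676487551) (nat_lit 2) (nat_lit 5) (nat_lit 4) (nat_lit 5) (nat_lit 3) (nat_lit 4) (nat_lit 352) (nat_lit 216) (nat_lit 152)))) (XT.nd (nat_lit 156) (nat_lit 0) (nat_lit 0) (XT.nd (nat_lit 78) (nat_lit 76) (nat_lit 0) (XT.lf (nat_lit 0) (nat_lit 3483624408) (nat_lit 152) (nat_lit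 1181010028) (nat_lit 76) (nat_lit 374856478332) (nat_lit 2) (nat_lit 5) (nat_lit 4) (nat_lit 5) (nat_lit 3) (nat_lit 4) (nat_lit 353) (nat_lit 216) (nat_lit 151)) (XT.lf (nat_lit 0) (nat_lit 1286162845) (nat_lit 76) (nat_lit 3409424675) (nat_lit 152) (nat_lit 393725734238) (nat_lit 1) (nat_lit 5) (nat_lit 2) (nat_lit 5) (nat_lit 3) (nat_lit 4) (nat_lit 354) (nat_lit 216) (nat_lit 150))) (XT.nd (nat_lit 78) (nat_lit 0) (nat_lit 0) (XT.lf (nat_lit 0) (nat_lit 3908467829) (nat_lit 76) (nat_lit 2074353949) (nat_lit 152) (nat_lit 412282997573) (nat_lit 1) (nat_lit 5) (nat_lit 2) (nat_lit 5) (nat_lit 3) (nat_lit 4) (nat_lit 355) (nat_lit 216) (nat_lit 149)) (XT.lf (nat_lit 0) (nat_lit 6653098980) (nat_lit 76) (nat_lit 676244494) (nat_lit 152) (nat_lit 431773463304) (nat_lit 1) (nat_lit 5) (nat_lit 2) (nat_lit 5) (nat_lit 3) (nat_lit 4) (nat_lit 356) (nat_lit 216) (nat_lit 148))))) (XT.nd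 (nat_lit 32058) (nat_lit 0) (nat_lit 608) (XT.nd (nat_lit 156) (nat_lit 0) (nat_lit 0) (XT.nd (nat_lit 78) (nat_lit 0) (nat_lit 0) (XT.lf (nat_lit 0) (nat_lit 8750665134) (nat_lit 152) (nat_lit 451467611299) (nat_lit 0) (nat_lit 763004157) (nat_lit 1) (nat_lit 5) (nat_lit 3) (nat_lit 4) (nat_lit 1) (nat_lit 4) (nat_lit 357) (nat_lit 216) (nat_lit 147)) (XT.lf (nat_lit 0) (nat_lit 10249483731) (nat_lit 152) (nat_lit 471455655622) (nat_lit 0) (nat_lit 2248227394) (nat_lit 1) (nat_lit 5) (nat_lit 3) (nat_lit 4) (nat_lit 1) (nat_lit 4) (nat_lit 358) (nat_lit 216) (nat_lit 146))) (XT.nd (nat_lit 31824) (nat_lit 0) (nat_lit 760) (XT.lf (nat_lit 0) (nat_lit 11818809808) (nat_lit 152) (nat_lit 492450873276) (nat_lit 0) (nat_lit 3804605510) (nat_lit 1) (nat_lit 5) (nat_lit 3) (nat_lit 4) (nat_lit 1) (nat_lit 4) (nat_lit 359) (nat_lit 216) (nat_lit 145)) (XT.lf (nat_lit 0) (nat_lit 3156444877)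 (nat_lit 152) (nat_lit 2205385863) (nat_lit 0) (nat_lit 3156444877) (nat_lit 11) (nat_lit 5) (nat_lit 13) (nat_lit 4) (nat_lit 11) (nat_lit 4) (nat_lit 286) (nat_lit 217) (nat_lit 217)))) (XT.nd (nat_lit 156) (nat_lit 0) (nat_lit 0) (XT.nd (nat_lit 78) (nat_lit 0) (nat_lit 0) (XT.lf (nat_lit 0) (nat_lit 772892862) (nat_lit 152) (nat_lit 8707866769) (nat_lit 152) (nat_lit 8229005723) (nat_lit 9) (nat_lit 4) (nat_lit 11) (nat_lit 5) (nat_lit 11) (nat_lit 4) (nat_lit 287) (nat_lit 217) (nat_lit 216)) (XT.lf (nat_lit 0) (nat_lit 6193872146) (nat_lit 152) (nat_lit 6579847221) (nat_lit 152) (nat_lit 5644928037) (nat_lit 9) (nat_lit 4) (nat_lit 11) (nat_lit 5) (nat_lit 11) (nat_lit 4) (nat_lit 288) (nat_lit 217) (nat_lit 215))) (XT.nd (nat_lit 78) (nat_lit 0) (nat_lit 0) (XT.lf (nat_lit 0) (nat_lit 11719233183) (nat_lit 152) (nat_lit 4409234679) (nat_lit 152) (nat_lit 3039974410) (nat_lit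 9) (nat_lit 4) (nat_lit 11) (nat_lit 5) (nat_lit 11) (nat_lit 4) (nat_lit 289) (nat_lit 217) (nat_lit 214)) (XT.lf (nat_lit 0) (nat_lit 17362131595) (nat_lit 152) (nat_lit 2190861018) (nat_lit 152) (nat_lit 407942573) (nat_lit 9) (nat_lit 4) (nat_lit 11) (nat_lit 5) (nat_lit 11) (nat_lit 4) (nat_lit 290) (nat_lit 217) (nat_lit 213))))))))
noncomputable def xc34 : XT := (XT.nd (nat_lit 1248) (nat_lit 76) (nat_lit 0) (XT.nd (nat_lit 624) (nat_lit 152) (nat_lit 0) (XT.nd (nat_lit 312) (nat_lit 76) (nat_lit 0) (XT.nd (nat_lit 156) (nat_lit 0) (nat_lit 0) (XT.nd (nat_lit 78) (nat_lit 0) (nat_lit 0) (XT.lf (nat_lit 0) (nat_lit 2224767623) (nat_lit 152) (nat_lit 18417953998) (nat_lit 0) (nat_lit 151549898) (nat_lit 7) (nat_lit 5) (nat_lit 9) (nat_lit 4) (nat_lit 7) (nat_lit 4) (nat_lit 291) (nat_lit 217) (nat_lit 212)) (XT.lf (nat_lit 0) (nat_lit 4962172128) (nat_lit 152) (nat_lit 14176076828)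 (nat_lit 0) (nat_lit 2531620917) (nat_lit 7) (nat_lit 5) (nat_lit 9) (nat_lit 4) (nat_lit 7) (nat_lit 4) (nat_lit 292) (nat_lit 217) (nat_lit 211))) (XT.nd (nat_lit 78) (nat_lit 0) (nat_lit 0) (XT.lf (nat_lit 0) (nat_lit 7747036462) (nat_lit 152) (nat_lit 9870769796) (nat_lit 0) (nat_lit 4976167646) (nat_lit 7) (nat_lit 5) (nat_lit 9) (nat_lit 4) (nat_lit 7) (nat_lit 4) (nat_lit 293) (nat_lit 217) (nat_lit 210)) (XT.lf (nat_lit 0) (nat_lit 10585991253) (nat_lit 152) (nat_lit 5491782170) (nat_lit 0) (nat_lit 7491010433) (nat_lit 7) (nat_lit 5) (nat_lit 9) (nat_lit 4) (nat_lit 7) (nat_lit 4) (nat_lit 294) (nat_lit 217) (nat_lit 209)))) (XT.nd (nat_lit 156) (nat_lit 0) (nat_lit 0) (XT.nd (nat_lit 78) (nat_lit 76) (nat_lit 0) (XT.lf (nat_lit 0) (nat_lit 13485795919) (nat_lit 152) (nat_lit 1028687791) (nat_lit 0) (nat_lit 10082136999) (nat_lit 7) (nat_lit 5) (nat_lit 9) (nat_lit 4) (nat_lit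 7) (nat_lit 4) (nat_lit 295) (nat_lit 217) (nat_lit 208)) (XT.lf (nat_lit 0) (nat_lit 3645829056) (nat_lit 76) (nat_lit 12864447309) (nat_lit 76) (nat_lit 9166809246) (nat_lit 6) (nat_lit 4) (nat_lit 7) (nat_lit 5) (nat_lit 7) (nat_lit 4) (nat_lit 296) (nat_lit 217) (nat_lit 207))) (XT.nd (nat_lit 78) (nat_lit 0) (nat_lit 0) (XT.lf (nat_lit 0) (nat_lit 8463435229) (nat_lit 76) (nat_lit 11164436094) (nat_lit 76) (nat_lit 7186817896) (nat_lit 6) (nat_lit 4) (nat_lit 7) (nat_lit 5) (nat_lit 7) (nat_lit 4) (nat_lit 297) (nat_lit 217) (nat_lit 206)) (XT.lf (nat_lit 0) (nat_lit 13401588154) (nat_lit 76) (nat_lit 9427823746) (nat_lit 76) (nat_lit 5183557799) (nat_lit 6) (nat_lit 4) (nat_lit 7) (nat_lit 5) (nat_lit 7) (nat_lit 4) (nat_lit 298) (nat_lit 217) (nat_lit 205))))) (XT.nd (nat_lit 312) (nat_lit 0) (nat_lit 0) (XT.nd (nat_lit 156) (nat_lit 152) (nat_lit 0) (XT.nd (nat_lit 78) (nat_lit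 0) (nat_lit 0) (XT.lf (nat_lit 0) (nat_lit 18472045338) (nat_lit 76) (nat_lit 7650475473) (nat_lit 76) (nat_lit 3152259290) (nat_lit 6) (nat_lit 4) (nat_lit 7) (nat_lit 5) (nat_lit 7) (nat_lit 4) (nat_lit 299) (nat_lit 217) (nat_lit 204)) (XT.lf (nat_lit 0) (nat_lit 23686879299) (nat_lit 76) (nat_lit 5828159494) (nat_lit 76) (nat_lit 1088085943) (nat_lit 6) (nat_lit 4) (nat_lit 7) (nat_lit 5) (nat_lit 7) (nat_lit 4) (nat_lit 300) (nat_lit 217) (nat_lit 203))) (XT.nd (nat_lit 78) (nat_lit 76) (nat_lit 0) (XT.lf (nat_lit 0) (nat_lit 981426546) (nat_lit 152) (nat_lit 2958489481) (nat_lit 76) (nat_lit 28060458827) (nat_lit 5) (nat_lit 5) (nat_lit 7) (nat_lit 5) (nat_lit 6) (nat_lit 4) (nat_lit 301) (nat_lit 217) (nat_lit 202)) (XT.lf (nat_lit 0) (nat_lit 1113816354) (nat_lit 76) (nat_lit 1961111459) (nat_lit 152) (nat_lit 30393970487) (nat_lit 4) (nat_lit 5) (nat_lit 5) (nat_lit 5) (nat_lit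 6) (nat_lit 4) (nat_lit 302) (nat_lit 217) (nat_lit 201)))) (XT.nd (nat_lit 156) (nat_lit 0) (nat_lit 0) (XT.nd (nat_lit 78) (nat_lit 0) (nat_lit 0) (XT.lf (nat_lit 0) (nat_lit 5266225526) (nat_lit 152) (nat_lit 29620519698) (nat_lit 0) (nat_lit 124595857) (nat_lit 4) (nat_lit 5) (nat_lit 6) (nat_lit 4) (nat_lit 4) (nat_lit 4) (nat_lit 303) (nat_lit 217) (nat_lit 200)) (XT.lf (nat_lit 0) (nat_lit 7542452341) (nat_lit 152) (nat_lit 26878506481) (nat_lit 0) (nat_lit 2211321095) (nat_lit 4) (nat_lit 5) (nat_lit 6) (nat_lit 4) (nat_lit 4) (nat_lit 4) (nat_lit 304) (nat_lit 217) (nat_lit 199))) (XT.nd (nat_lit 78) (nat_lit 0) (nat_lit 0) (XT.lf (nat_lit 0) (nat_lit 9878409399) (nat_lit 152) (nat_lit 24091895248) (nat_lit 0) (nat_lit 4366800461) (nat_lit 4) (nat_lit 5) (nat_lit 6) (nat_lit 4) (nat_lit 4) (nat_lit 4) (nat_lit 305) (nat_lit 217) (nat_lit 198)) (XT.lf (nat_lit 0) (nat_lit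 12279658502) (nat_lit 152) (nat_lit 21254051211) (nat_lit 0) (nat_lit 6596166048) (nat_lit 4) (nat_lit 5) (nat_lit 6) (nat_lit 4) (nat_lit 4) (nat_lit 4) (nat_lit 306) (nat_lit 217) (nat_lit 197)))))) (XT.nd (nat_lit 624) (nat_lit 0) (nat_lit 0) (XT.nd (nat_lit 312) (nat_lit 76) (nat_lit 0) (XT.nd (nat_lit 156) (nat_lit 0) (nat_lit 0) (XT.nd (nat_lit 78) (nat_lit 0) (nat_lit 0) (XT.lf (nat_lit 0) (nat_lit 14751916911) (nat_lit 152) (nat_lit 18358217597) (nat_lit 0) (nat_lit 8904725871) (nat_lit 4) (nat_lit 5) (nat_lit 6) (nat_lit 4) (nat_lit 4) (nat_lit 4) (nat_lit 307) (nat_lit 217) (nat_lit 196)) (XT.lf (nat_lit 0) (nat_lit 17301070955) (nat_lit 152) (nat_lit 15397499564) (nat_lit 0) (nat_lit 11297976499) (nat_lit 4) (nat_lit 5) (nat_lit 6) (nat_lit 4) (nat_lit 4) (nat_lit 4) (nat_lit 308) (nat_lit 217) (nat_lit 195))) (XT.nd (nat_lit 78) (nat_lit 0) (nat_lit 0) (XT.lf (nat_lit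 0) (nat_lit 19933190049) (nat_lit 152) (nat_lit 12364847785) (nat_lit 0) (nat_lit 13781616149) (nat_lit 4) (nat_lit 5) (nat_lit 6) (nat_lit 4) (nat_lit 4) (nat_lit 4) (nat_lit 309) (nat_lit 217) (nat_lit 194)) (XT.lf (nat_lit 0) (nat_lit 22654541143) (nat_lit 152) (nat_lit 9253041659) (nat_lit 0) (nat_lit 16361558249) (nat_lit 4) (nat_lit 5) (nat_lit 6) (nat_lit 4) (nat_lit 4) (nat_lit 4) (nat_lit 310) (nat_lit 217) (nat_lit 193)))) (XT.nd (nat_lit 156) (nat_lit 76) (nat_lit 0) (XT.nd (nat_lit 78) (nat_lit 0) (nat_lit 0) (XT.lf (nat_lit 0) (nat_lit 25471603644) (nat_lit 152) (nat_lit 6054672124) (nat_lit 0) (nat_lit 19043945517) (nat_lit 4) (nat_lit 5) (nat_lit 6) (nat_lit 4) (nat_lit 4) (nat_lit 4) (nat_lit 311) (nat_lit 217) (nat_lit 192)) (XT.lf (nat_lit 0) (nat_lit 28391084843) (nat_lit 152) (nat_lit 2762124015) (nat_lit 0) (nat_lit 21835164590) (nat_lit 4) (nat_lit 5) (nat_lit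 6) (nat_lit 4) (nat_lit 4) (nat_lit 4) (nat_lit 312) (nat_lit 217) (nat_lit 191))) (XT.nd (nat_lit 78) (nat_lit 0) (nat_lit 0) (XT.lf (nat_lit 0) (nat_lit 653353459) (nat_lit 76) (nat_lit 30776783106) (nat_lit 76) (nat_lit 24098708448) (nat_lit 3) (nat_lit 4) (nat_lit 4) (nat_lit 5) (nat_lit 4) (nat_lit 4) (nat_lit 313) (nat_lit 217) (nat_lit 190)) (XT.lf (nat_lit 0) (nat_lit 4273899914) (nat_lit 76) (nat_lit 30358195966) (nat_lit 76) (nat_lit 23563783778) (nat_lit 3) (nat_lit 4) (nat_lit 4) (nat_lit 5) (nat_lit 4) (nat_lit 4) (nat_lit 314) (nat_lit 217) (nat_lit 189))))) (XT.nd (nat_lit 312) (nat_lit 0) (nat_lit 0) (XT.nd (nat_lit 156) (nat_lit 0) (nat_lit 0) (XT.nd (nat_lit 78) (nat_lit 0) (nat_lit 0) (XT.lf (nat_lit 0) (nat_lit 8016807405) (nat_lit 76) (nat_lit 29943228708) (nat_lit 76) (nat_lit 23038018873) (nat_lit 3) (nat_lit 4) (nat_lit 4) (nat_lit 5) (nat_lit 4) (nat_lit 4)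 (nat_lit 315) (nat_lit 217) (nat_lit 188)) (XT.lf (nat_lit 0) (nat_lit 11890987617) (nat_lit 76) (nat_lit 29530893316) (nat_lit 76) (nat_lit 22520161912) (nat_lit 3) (nat_lit 4) (nat_lit 4) (nat_lit 5) (nat_lit 4) (nat_lit 4) (nat_lit 316) (nat_lit 217) (nat_lit 187))) (XT.nd (nat_lit 78) (nat_lit 0) (nat_lit 0) (XT.lf (nat_lit 0) (nat_lit 15905664787) (nat_lit 76) (nat_lit 29120208037) (nat_lit 76) (nat_lit 22008979902) (nat_lit 3) (nat_lit 4) (nat_lit 4) (nat_lit 5) (nat_lit 4) (nat_lit 4) (nat_lit 317) (nat_lit 217) (nat_lit 186)) (XT.lf (nat_lit 0) (nat_lit 20070397672) (nat_lit 76) (nat_lit 28710195051) (nat_lit 76) (nat_lit 21503255742) (nat_lit 3) (nat_lit 4) (nat_lit 4) (nat_lit 5) (nat_lit 4) (nat_lit 4) (nat_lit 318) (nat_lit 217) (nat_lit 185)))) (XT.nd (nat_lit 156) (nat_lit 0) (nat_lit 0) (XT.nd (nat_lit 78) (nat_lit 0) (nat_lit 0) (XT.lf (nat_lit 0) (nat_lit 24395102301)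 (nat_lit 76) (nat_lit 28299878135) (nat_lit 76) (nat_lit 21001785328) (nat_lit 3) (nat_lit 4) (nat_lit 4) (nat_lit 5) (nat_lit 4) (nat_lit 4) (nat_lit 319) (nat_lit 217) (nat_lit 184)) (XT.lf (nat_lit 0) (nat_lit 28890075590) (nat_lit 76) (nat_lit 27888280345) (nat_lit 76) (nat_lit 20503374682) (nat_lit 3) (nat_lit 4) (nat_lit 4) (nat_lit 5) (nat_lit 4) (nat_lit 4) (nat_lit 320) (nat_lit 217) (nat_lit 183))) (XT.nd (nat_lit 78) (nat_lit 0) (nat_lit 0) (XT.lf (nat_lit 0) (nat_lit 33566019857) (nat_lit 76) (nat_lit 27474421686) (nat_lit 76) (nat_lit 20006837113) (nat_lit 3) (nat_lit 4) (nat_lit 4) (nat_lit 5) (nat_lit 4) (nat_lit 4) (nat_lit 321) (nat_lit 217) (nat_lit 182)) (XT.lf (nat_lit 0) (nat_lit 38434068303) (nat_lit 76) (nat_lit 27057316780) (nat_lit 76) (nat_lit 19510990388) (nat_lit 3) (nat_lit 4) (nat_lit 4) (nat_lit 5) (nat_lit 4) (nat_lit 4) (nat_lit 322) (nat_lit 217)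 (nat_lit 181)))))))
noncomputable def xc35 : XT := (XT.nd (nat_lit 1248) (nat_lit 152) (nat_lit 0) (XT.nd (nat_lit 624) (nat_lit 0) (nat_lit 0) (XT.nd (nat_lit 312) (nat_lit 0) (nat_lit 0) (XT.nd (nat_lit 156) (nat_lit 0) (nat_lit 0) (XT.nd (nat_lit 78) (nat_lit 0) (nat_lit 0) (XT.lf (nat_lit 0) (nat_lit 43505811519) (nat_lit 76) (nat_lit 26635972520) (nat_lit 76) (nat_lit 19014653920) (nat_lit 3) (nat_lit 4) (nat_lit 4) (nat_lit 5) (nat_lit 4) (nat_lit 4) (nat_lit 323) (nat_lit 217) (nat_lit 180)) (XT.lf (nat_lit 0) (nat_lit 48793325084) (nat_lit 76) (nat_lit 26209385706) (nat_lit 76) (nat_lit 18516645954) (nat_lit 3) (nat_lit 4) (nat_lit 4) (nat_lit 5) (nat_lit 4) (nat_lit 4) (nat_lit 324) (nat_lit 217) (nat_lit 179))) (XT.nd (nat_lit 78) (nat_lit 0) (nat_lit 0) (XT.lf (nat_lit 0) (nat_lit 54309198316) (nat_lit 76) (nat_lit 25776540655) (nat_lit 76) (nat_lit 18015780759) (nat_lit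 3) (nat_lit 4) (nat_lit 4) (nat_lit 5) (nat_lit 4) (nat_lit 4) (nat_lit 325) (nat_lit 217) (nat_lit 178)) (XT.lf (nat_lit 0) (nat_lit 60066564246) (nat_lit 76) (nat_lit 25336406783) (nat_lit 76) (nat_lit 17510865798) (nat_lit 3) (nat_lit 4) (nat_lit 4) (nat_lit 5) (nat_lit 4) (nat_lit 4) (nat_lit 326) (nat_lit 217) (nat_lit 177)))) (XT.nd (nat_lit 156) (nat_lit 0) (nat_lit 0) (XT.nd (nat_lit 78) (nat_lit 0) (nat_lit 0) (XT.lf (nat_lit 0) (nat_lit 66079130889) (nat_lit 76) (nat_lit 24887936153) (nat_lit 76) (nat_lit 17000698891) (nat_lit 3) (nat_lit 4) (nat_lit 4) (nat_lit 5) (nat_lit 4) (nat_lit 4) (nat_lit 327) (nat_lit 217) (nat_lit 176)) (XT.lf (nat_lit 0) (nat_lit 72361213880) (nat_lit 76) (nat_lit 24430060976) (nat_lit 76) (nat_lit 16484065357) (nat_lit 3) (nat_lit 4) (nat_lit 4) (nat_lit 5) (nat_lit 4) (nat_lit 4) (nat_lit 328) (nat_lit 217) (nat_lit 175))) (XT.nd (nat_lit 78)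 (nat_lit 0) (nat_lit 0) (XT.lf (nat_lit 0) (nat_lit 78927770559) (nat_lit 76) (nat_lit 23961691075) (nat_lit 76) (nat_lit 15959735116) (nat_lit 3) (nat_lit 4) (nat_lit 4) (nat_lit 5) (nat_lit 4) (nat_lit 4) (nat_lit 329) (nat_lit 217) (nat_lit 174)) (XT.lf (nat_lit 0) (nat_lit 85794435585) (nat_lit 76) (nat_lit 23481711283) (nat_lit 76) (nat_lit 15426459761) (nat_lit 3) (nat_lit 4) (nat_lit 4) (nat_lit 5) (nat_lit 4) (nat_lit 4) (nat_lit 330) (nat_lit 217) (nat_lit 173))))) (XT.nd (nat_lit 312) (nat_lit 0) (nat_lit 0) (XT.nd (nat_lit 156) (nat_lit 0) (nat_lit 0) (XT.nd (nat_lit 78) (nat_lit 0) (nat_lit 0) (XT.lf (nat_lit 0) (nat_lit 92977558159) (nat_lit 76) (nat_lit 22988978791) (nat_lit 76) (nat_lit 14882969590) (nat_lit 3) (nat_lit 4) (nat_lit 4) (nat_lit 5) (nat_lit 4) (nat_lit 4) (nat_lit 331) (nat_lit 217) (nat_lit 172)) (XT.lf (nat_lit 0) (nat_lit 100494240956) (nat_lit 76)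 (nat_lit 22482320426) (nat_lit 76) (nat_lit 14327970579) (nat_lit 3) (nat_lit 4) (nat_lit 4) (nat_lit 5) (nat_lit 4) (nat_lit 4) (nat_lit 332) (nat_lit 217) (nat_lit 171))) (XT.nd (nat_lit 78) (nat_lit 0) (nat_lit 0) (XT.lf (nat_lit 0) (nat_lit 108362380839) (nat_lit 76) (nat_lit 21960529859) (nat_lit 76) (nat_lit 13760141301) (nat_lit 3) (nat_lit 4) (nat_lit 4) (nat_lit 5) (nat_lit 4) (nat_lit 4) (nat_lit 333) (nat_lit 217) (nat_lit 170)) (XT.lf (nat_lit 0) (nat_lit 116600711474) (nat_lit 76) (nat_lit 21422364731) (nat_lit 76) (nat_lit 13178129781) (nat_lit 3) (nat_lit 4) (nat_lit 4) (nat_lit 5) (nat_lit 4) (nat_lit 4) (nat_lit 334) (nat_lit 217) (nat_lit 169)))) (XT.nd (nat_lit 156) (nat_lit 0) (nat_lit 0) (XT.nd (nat_lit 78) (nat_lit 0) (nat_lit 0) (XT.lf (nat_lit 0) (nat_lit 125228847934) (nat_lit 76) (nat_lit 20866543697) (nat_lit 76) (nat_lit 12580550279) (nat_lit 3) (nat_lit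 4) (nat_lit 4) (nat_lit 5) (nat_lit 4) (nat_lit 4) (nat_lit 335) (nat_lit 217) (nat_lit 168)) (XT.lf (nat_lit 0) (nat_lit 134267333401) (nat_lit 76) (nat_lit 20291743373) (nat_lit 76) (nat_lit 11965979986) (nat_lit 3) (nat_lit 4) (nat_lit 4) (nat_lit 5) (nat_lit 4) (nat_lit 4) (nat_lit 336) (nat_lit 217) (nat_lit 167))) (XT.nd (nat_lit 78) (nat_lit 0) (nat_lit 0) (XT.lf (nat_lit 0) (nat_lit 143737688079) (nat_lit 76) (nat_lit 19696595187) (nat_lit 76) (nat_lit 11332955639) (nat_lit 3) (nat_lit 4) (nat_lit 4) (nat_lit 5) (nat_lit 4) (nat_lit 4) (nat_lit 337) (nat_lit 217) (nat_lit 166)) (XT.lf (nat_lit 0) (nat_lit 153662460432) (nat_lit 76) (nat_lit 19079682120) (nat_lit 76) (nat_lit 10679970037) (nat_lit 3) (nat_lit 4) (nat_lit 4) (nat_lit 5) (nat_lit 4) (nat_lit 4) (nat_lit 338) (nat_lit 217) (nat_lit 165)))))) (XT.nd (nat_lit 624) (nat_lit 152) (nat_lit 0) (XT.nd (nat_lit 312) (nat_lit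 0) (nat_lit 0) (XT.nd (nat_lit 156) (nat_lit 0) (nat_lit 0) (XT.nd (nat_lit 78) (nat_lit 0) (nat_lit 0) (XT.lf (nat_lit 0) (nat_lit 164065280868) (nat_lit 76) (nat_lit 18439535331) (nat_lit 76) (nat_lit 10005468453) (nat_lit 3) (nat_lit 4) (nat_lit 4) (nat_lit 5) (nat_lit 4) (nat_lit 4) (nat_lit 339) (nat_lit 217) (nat_lit 164)) (XT.lf (nat_lit 0) (nat_lit 174970918010) (nat_lit 76) (nat_lit 17774630661) (nat_lit 76) (nat_lit 9307844931) (nat_lit 3) (nat_lit 4) (nat_lit 4) (nat_lit 5) (nat_lit 4) (nat_lit 4) (nat_lit 340) (nat_lit 217) (nat_lit 163))) (XT.nd (nat_lit 78) (nat_lit 0) (nat_lit 0) (XT.lf (nat_lit 0) (nat_lit 186405337659) (nat_lit 76) (nat_lit 17083385004) (nat_lit 76) (nat_lit 8585438462) (nat_lit 3) (nat_lit 4) (nat_lit 4) (nat_lit 5) (nat_lit 4) (nat_lit 4) (nat_lit 341) (nat_lit 217) (nat_lit 162)) (XT.lf (nat_lit 0) (nat_lit 198395764624) (nat_lit 76) (nat_lit 16364152536)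 (nat_lit 76) (nat_lit 7836529031) (nat_lit 3) (nat_lit 4) (nat_lit 4) (nat_lit 5) (nat_lit 4) (nat_lit 4) (nat_lit 342) (nat_lit 217) (nat_lit 161)))) (XT.nd (nat_lit 156) (nat_lit 0) (nat_lit 0) (XT.nd (nat_lit 78) (nat_lit 0) (nat_lit 0) (XT.lf (nat_lit 0) (nat_lit 210970747540) (nat_lit 76) (nat_lit 15615220800) (nat_lit 76) (nat_lit 7059333520) (nat_lit 3) (nat_lit 4) (nat_lit 4) (nat_lit 5) (nat_lit 4) (nat_lit 4) (nat_lit 343) (nat_lit 217) (nat_lit 160)) (XT.lf (nat_lit 0) (nat_lit 224160226844) (nat_lit 76) (nat_lit 14834806624) (nat_lit 76) (nat_lit 6252001463) (nat_lit 3) (nat_lit 4) (nat_lit 4) (nat_lit 5) (nat_lit 4) (nat_lit 4) (nat_lit 344) (nat_lit 217) (nat_lit 159))) (XT.nd (nat_lit 78) (nat_lit 0) (nat_lit 0) (XT.lf (nat_lit 0) (nat_lit 237995606058) (nat_lit 76) (nat_lit 14021051880) (nat_lit 76) (nat_lit 5412610642) (nat_lit 3) (nat_lit 4) (nat_lit 4) (nat_lit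 5) (nat_lit 4) (nat_lit 4) (nat_lit 345) (nat_lit 217) (nat_lit 158)) (XT.lf (nat_lit 0) (nat_lit 252509826559) (nat_lit 76) (nat_lit 13172019056) (nat_lit 76) (nat_lit 4539162507) (nat_lit 3) (nat_lit 4) (nat_lit 4) (nat_lit 5) (nat_lit 4) (nat_lit 4) (nat_lit 346) (nat_lit 217) (nat_lit 157))))) (XT.nd (nat_lit 312) (nat_lit 152) (nat_lit 0) (XT.nd (nat_lit 156) (nat_lit 0) (nat_lit 0) (XT.nd (nat_lit 78) (nat_lit 0) (nat_lit 0) (XT.lf (nat_lit 0) (nat_lit 267737446017) (nat_lit 76) (nat_lit 12285686645) (nat_lit 76) (nat_lit 3629577419) (nat_lit 3) (nat_lit 4) (nat_lit 4) (nat_lit 5) (nat_lit 4) (nat_lit 4) (nat_lit 347) (nat_lit 217) (nat_lit 156)) (XT.lf (nat_lit 0) (nat_lit 283714720669) (nat_lit 76) (nat_lit 11359944333) (nat_lit 76) (nat_lit 2681689700) (nat_lit 3) (nat_lit 4) (nat_lit 4) (nat_lit 5) (nat_lit 4) (nat_lit 4) (nat_lit 348) (nat_lit 217) (nat_lit 155))) (XT.nd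 (nat_lit 78) (nat_lit 0) (nat_lit 0) (XT.lf (nat_lit 0) (nat_lit 300479691643) (nat_lit 76) (nat_lit 10392587971) (nat_lit 76) (nat_lit 1693242474) (nat_lit 3) (nat_lit 4) (nat_lit 4) (nat_lit 5) (nat_lit 4) (nat_lit 4) (nat_lit 349) (nat_lit 217) (nat_lit 154)) (XT.lf (nat_lit 0) (nat_lit 318072275538) (nat_lit 76) (nat_lit 9381314330) (nat_lit 76) (nat_lit 661882296) (nat_lit 3) (nat_lit 4) (nat_lit 4) (nat_lit 5) (nat_lit 4) (nat_lit 4) (nat_lit 350) (nat_lit 217) (nat_lit 153)))) (XT.nd (nat_lit 156) (nat_lit 76) (nat_lit 0) (XT.nd (nat_lit 78) (nat_lit 0) (nat_lit 0) (XT.lf (nat_lit 0) (nat_lit 401568777) (nat_lit 152) (nat_lit 7915346076) (nat_lit 76) (nat_lit 336125989920) (nat_lit 2) (nat_lit 5) (nat_lit 4) (nat_lit 5) (nat_lit 3) (nat_lit 4) (nat_lit 351) (nat_lit 217) (nat_lit 152)) (XT.lf (nat_lit 0) (nat_lit 1490233565) (nat_lit 152) (nat_lit 5701802341) (nat_lit 76) (nat_lit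 354394429355) (nat_lit 2) (nat_lit 5) (nat_lit 4) (nat_lit 5) (nat_lit 3) (nat_lit 4) (nat_lit 352) (nat_lit 217) (nat_lit 151))) (XT.nd (nat_lit 78) (nat_lit 76) (nat_lit 0) (XT.lf (nat_lit 0) (nat_lit 2627888494) (nat_lit 152) (nat_lit 3386961242) (nat_lit 76) (nat_lit 373572638587) (nat_lit 2) (nat_lit 5) (nat_lit 4) (nat_lit 5) (nat_lit 3) (nat_lit 4) (nat_lit 353) (nat_lit 217) (nat_lit 150)) (XT.nd (nat_lit 78) (nat_lit 76) (nat_lit 0) (XT.lf (nat_lit 0) (nat_lit 3817242266) (nat_lit 152) (nat_lit 965311253) (nat_lit 76) (nat_lit 393706280018) (nat_lit 2) (nat_lit 5) (nat_lit 4) (nat_lit 5) (nat_lit 3) (nat_lit 4) (nat_lit 354) (nat_lit 217) (nat_lit 149)) (XT.lf (nat_lit 0) (nat_lit 1620788823) (nat_lit 76) (nat_lit 3465642908) (nat_lit 152) (nat_lit 413247807122) (nat_lit 1) (nat_lit 5) (nat_lit 2) (nat_lit 5) (nat_lit 3) (nat_lit 4) (nat_lit 355) (nat_lit 217) (nat_lit 148))))))))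
noncomputable def xc36 : XT := (XT.nd (nat_lit 32838) (nat_lit 0) (nat_lit 228) (XT.nd (nat_lit 32214) (nat_lit 0) (nat_lit 456) (XT.nd (nat_lit 31902) (nat_lit 0) (nat_lit 608) (XT.nd (nat_lit 156) (nat_lit 0) (nat_lit 0) (XT.nd (nat_lit 78) (nat_lit 0) (nat_lit 0) (XT.lf (nat_lit 0) (nat_lit 4361336778) (nat_lit 76) (nat_lit 2069259265) (nat_lit 152) (nat_lit 432740753331) (nat_lit 1) (nat_lit 5) (nat_lit 2) (nat_lit 5) (nat_lit 3) (nat_lit 4) (nat_lit 356) (nat_lit 217) (nat_lit 147)) (XT.lf (nat_lit 0) (nat_lit 7230940175) (nat_lit 76) (nat_lit 606425879) (nat_lit 152) (nat_lit 453213189688) (nat_lit 1) (nat_lit 5) (nat_lit 2) (nat_lit 5) (nat_lit 3) (nat_lit 4) (nat_lit 357) (nat_lit 217) (nat_lit 146))) (XT.nd (nat_lit 78) (nat_lit 0) (nat_lit 0) (XT.lf (nat_lit 0) (nat_lit 9324553986) (nat_lit 152) (nat_lit 473801982670) (nat_lit 0) (nat_lit 896691513) (nat_lit 1) (nat_lit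 5) (nat_lit 3) (nat_lit 4) (nat_lit 1) (nat_lit 4) (nat_lit 358) (nat_lit 217) (nat_lit 145)) (XT.lf (nat_lit 0) (nat_lit 10891820388) (nat_lit 152) (nat_lit 494800810599) (nat_lit 0) (nat_lit 2451626524) (nat_lit 1) (nat_lit 5) (nat_lit 3) (nat_lit 4) (nat_lit 1) (nat_lit 4) (nat_lit 359) (nat_lit 217) (nat_lit 144)))) (XT.nd (nat_lit 156) (nat_lit 152) (nat_lit 0) (XT.nd (nat_lit 78) (nat_lit 0) (nat_lit 0) (XT.lf (nat_lit 0) (nat_lit 344157668) (nat_lit 152) (nat_lit 7210416308) (nat_lit 0) (nat_lit 344157668) (nat_lit 11) (nat_lit 5) (nat_lit 13) (nat_lit 4) (nat_lit 11) (nat_lit 4) (nat_lit 284) (nat_lit 218) (nat_lit 218)) (XT.lf (nat_lit 0) (nat_lit 3704897387) (nat_lit 152) (nat_lit 9493435180) (nat_lit 0) (nat_lit 3202093289) (nat_lit 11) (nat_lit 5) (nat_lit 13) (nat_lit 4) (nat_lit 11) (nat_lit 4) (nat_lit 285) (nat_lit 218) (nat_lit 217))) (XT.nd (nat_lit 78) (nat_lit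 152) (nat_lit 0) (XT.lf (nat_lit 0) (nat_lit 6761775104) (nat_lit 152) (nat_lit 4497537304) (nat_lit 0) (nat_lit 5780109960) (nat_lit 11) (nat_lit 5) (nat_lit 13) (nat_lit 4) (nat_lit 11) (nat_lit 4) (nat_lit 286) (nat_lit 218) (nat_lit 216)) (XT.lf (nat_lit 0) (nat_lit 597892291) (nat_lit 152) (nat_lit 9277669250) (nat_lit 152) (nat_lit 7839945967) (nat_lit 9) (nat_lit 4) (nat_lit 11) (nat_lit 5) (nat_lit 11) (nat_lit 4) (nat_lit 287) (nat_lit 218) (nat_lit 215))))) (XT.nd (nat_lit 312) (nat_lit 0) (nat_lit 0) (XT.nd (nat_lit 156) (nat_lit 152) (nat_lit 0) (XT.nd (nat_lit 78) (nat_lit 0) (nat_lit 0) (XT.lf (nat_lit 0) (nat_lit 5937570496) (nat_lit 152) (nat_lit 7180775547) (nat_lit 152) (nat_lit 5308711180) (nat_lit 9) (nat_lit 4) (nat_lit 11) (nat_lit 5) (nat_lit 11) (nat_lit 4) (nat_lit 288) (nat_lit 218) (nat_lit 214)) (XT.lf (nat_lit 0) (nat_lit 11385501935) (nat_lit 152) (nat_lit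 5039806668) (nat_lit 152) (nat_lit 2754084125) (nat_lit 9) (nat_lit 4) (nat_lit 11) (nat_lit 5) (nat_lit 11) (nat_lit 4) (nat_lit 289) (nat_lit 218) (nat_lit 213))) (XT.nd (nat_lit 78) (nat_lit 152) (nat_lit 0) (XT.lf (nat_lit 0) (nat_lit 16954657872) (nat_lit 152) (nat_lit 2849665066) (nat_lit 152) (nat_lit 169982356) (nat_lit 9) (nat_lit 4) (nat_lit 11) (nat_lit 5) (nat_lit 11) (nat_lit 4) (nat_lit 290) (nat_lit 218) (nat_lit 212)) (XT.lf (nat_lit 0) (nat_lit 1866089744) (nat_lit 76) (nat_lit 534384701) (nat_lit 152) (nat_lit 18409844012) (nat_lit 7) (nat_lit 5) (nat_lit 8) (nat_lit 5) (nat_lit 9) (nat_lit 4) (nat_lit 291) (nat_lit 218) (nat_lit 211)))) (XT.nd (nat_lit 156) (nat_lit 0) (nat_lit 0) (XT.nd (nat_lit 78) (nat_lit 0) (nat_lit 0) (XT.lf (nat_lit 0) (nat_lit 5085920879) (nat_lit 152) (nat_lit 14766527323) (nat_lit 0) (nat_lit 1836191018) (nat_lit 7) (nat_lit 5) (nat_lit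 9) (nat_lit 4) (nat_lit 7) (nat_lit 4) (nat_lit 292) (nat_lit 218) (nat_lit 210)) (XT.lf (nat_lit 0) (nat_lit 7829247282) (nat_lit 152) (nat_lit 10530286027) (nat_lit 0) (nat_lit 4255405416) (nat_lit 7) (nat_lit 5) (nat_lit 9) (nat_lit 4) (nat_lit 7) (nat_lit 4) (nat_lit 293) (nat_lit 218) (nat_lit 209))) (XT.nd (nat_lit 78) (nat_lit 0) (nat_lit 0) (XT.lf (nat_lit 0) (nat_lit 10628642139) (nat_lit 152) (nat_lit 6217075292) (nat_lit 0) (nat_lit 6746122173) (nat_lit 7) (nat_lit 5) (nat_lit 9) (nat_lit 4) (nat_lit 7) (nat_lit 4) (nat_lit 294) (nat_lit 218) (nat_lit 208)) (XT.lf (nat_lit 0) (nat_lit 13490770678) (nat_lit 152) (nat_lit 1816625571) (nat_lit 0) (nat_lit 9314271569) (nat_lit 7) (nat_lit 5) (nat_lit 9) (nat_lit 4) (nat_lit 7) (nat_lit 4) (nat_lit 295) (nat_lit 218) (nat_lit 207)))))) (XT.nd (nat_lit 624) (nat_lit 0) (nat_lit 0) (XT.nd (nat_lit 312) (nat_lit 152) (nat_lit 0)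 (XT.nd (nat_lit 156) (nat_lit 0) (nat_lit 0) (XT.nd (nat_lit 78) (nat_lit 0) (nat_lit 0) (XT.lf (nat_lit 0) (nat_lit 2770204234) (nat_lit 76) (nat_lit 13695493906) (nat_lit 76) (nat_lit 9239014661) (nat_lit 6) (nat_lit 4) (nat_lit 7) (nat_lit 5) (nat_lit 7) (nat_lit 4) (nat_lit 296) (nat_lit 218) (nat_lit 206)) (XT.lf (nat_lit 0) (nat_lit 7529111111) (nat_lit 76) (nat_lit 12019092168) (nat_lit 76) (nat_lit 7295965175) (nat_lit 6) (nat_lit 4) (nat_lit 7) (nat_lit 5) (nat_lit 7) (nat_lit 4) (nat_lit 297) (nat_lit 218) (nat_lit 205))) (XT.nd (nat_lit 78) (nat_lit 0) (nat_lit 0) (XT.lf (nat_lit 0) (nat_lit 12411359945) (nat_lit 76) (nat_lit 10304965036) (nat_lit 76) (nat_lit 5327887807) (nat_lit 6) (nat_lit 4) (nat_lit 7) (nat_lit 5) (nat_lit 7) (nat_lit 4) (nat_lit 298) (nat_lit 218) (nat_lit 204)) (XT.lf (nat_lit 0) (nat_lit 17428575137) (nat_lit 76) (nat_lit 8549031254) (nat_lit 76)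 (nat_lit 3330096657) (nat_lit 6) (nat_lit 4) (nat_lit 7) (nat_lit 5) (nat_lit 7) (nat_lit 4) (nat_lit 299) (nat_lit 218) (nat_lit 203)))) (XT.nd (nat_lit 156) (nat_lit 76) (nat_lit 0) (XT.nd (nat_lit 78) (nat_lit 76) (nat_lit 0) (XT.lf (nat_lit 0) (nat_lit 22592702439) (nat_lit 76) (nat_lit 6747110029) (nat_lit 76) (nat_lit 1297835081) (nat_lit 6) (nat_lit 4) (nat_lit 7) (nat_lit 5) (nat_lit 7) (nat_lit 4) (nat_lit 300) (nat_lit 218) (nat_lit 202)) (XT.lf (nat_lit 0) (nat_lit 748971266) (nat_lit 152) (nat_lit 4133255613) (nat_lit 76) (nat_lit 27154381934) (nat_lit 5) (nat_lit 5) (nat_lit 7) (nat_lit 5) (nat_lit 6) (nat_lit 4) (nat_lit 301) (nat_lit 218) (nat_lit 201))) (XT.nd (nat_lit 78) (nat_lit 76) (nat_lit 0) (XT.lf (nat_lit 0) (nat_lit 2797064240) (nat_lit 152) (nat_lit 143590505) (nat_lit 76) (nat_lit 30566820724) (nat_lit 5) (nat_lit 5) (nat_lit 7) (nat_lit 5) (nat_lit 6) (nat_lit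 4) (nat_lit 302) (nat_lit 218) (nat_lit 200)) (XT.lf (nat_lit 0) (nat_lit 4084543146) (nat_lit 76) (nat_lit 872087097) (nat_lit 152) (nat_lit 30094943923) (nat_lit 4) (nat_lit 5) (nat_lit 5) (nat_lit 5) (nat_lit 6) (nat_lit 4) (nat_lit 303) (nat_lit 218) (nat_lit 199))))) (XT.nd (nat_lit 312) (nat_lit 0) (nat_lit 0) (XT.nd (nat_lit 156) (nat_lit 0) (nat_lit 0) (XT.nd (nat_lit 78) (nat_lit 0) (nat_lit 0) (XT.lf (nat_lit 0) (nat_lit 7192860311) (nat_lit 152) (nat_lit 28256525322) (nat_lit 0) (nat_lit 1225193235) (nat_lit 4) (nat_lit 5) (nat_lit 6) (nat_lit 4) (nat_lit 4) (nat_lit 4) (nat_lit 304) (nat_lit 218) (nat_lit 198)) (XT.lf (nat_lit 0) (nat_lit 9503692585) (nat_lit 152) (nat_lit 25512888605) (nat_lit 0) (nat_lit 3364141992) (nat_lit 4) (nat_lit 5) (nat_lit 6) (nat_lit 4) (nat_lit 4) (nat_lit 4) (nat_lit 305) (nat_lit 218) (nat_lit 197))) (XT.nd (nat_lit 78) (nat_lit 0) (nat_lit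 0) (XT.lf (nat_lit 0) (nat_lit 11881013323) (nat_lit 152) (nat_lit 22715972677) (nat_lit 0) (nat_lit 5577764144) (nat_lit 4) (nat_lit 5) (nat_lit 6) (nat_lit 4) (nat_lit 4) (nat_lit 4) (nat_lit 306) (nat_lit 218) (nat_lit 196)) (XT.lf (nat_lit 0) (nat_lit 14330482812) (nat_lit 152) (nat_lit 19859118215) (nat_lit 0) (nat_lit 7871330217) (nat_lit 4) (nat_lit 5) (nat_lit 6) (nat_lit 4) (nat_lit 4) (nat_lit 4) (nat_lit 307) (nat_lit 218) (nat_lit 195)))) (XT.nd (nat_lit 156) (nat_lit 0) (nat_lit 0) (XT.nd (nat_lit 78) (nat_lit 0) (nat_lit 0) (XT.lf (nat_lit 0) (nat_lit 16857933124) (nat_lit 152) (nat_lit 16935523185) (nat_lit 0) (nat_lit 10250301085) (nat_lit 4) (nat_lit 5) (nat_lit 6) (nat_lit 4) (nat_lit 4) (nat_lit 4) (nat_lit 308) (nat_lit 218) (nat_lit 194)) (XT.lf (nat_lit 0) (nat_lit 19469381995) (nat_lit 152) (nat_lit 13938226646) (nat_lit 0) (nat_lit 12720340962) (nat_lit 4)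 (nat_lit 5) (nat_lit 6) (nat_lit 4) (nat_lit 4) (nat_lit 4) (nat_lit 309) (nat_lit 218) (nat_lit 193))) (XT.nd (nat_lit 78) (nat_lit 0) (nat_lit 0) (XT.lf (nat_lit 0) (nat_lit 22171047163) (nat_lit 152) (nat_lit 10860092177) (nat_lit 0) (nat_lit 15287330898) (nat_lit 4) (nat_lit 5) (nat_lit 6) (nat_lit 4) (nat_lit 4) (nat_lit 4) (nat_lit 310) (nat_lit 218) (nat_lit 192)) (XT.lf (nat_lit 0) (nat_lit 24969361163) (nat_lit 152) (nat_lit 7693790887) (nat_lit 0) (nat_lit 17957382772) (nat_lit 4) (nat_lit 5) (nat_lit 6) (nat_lit 4) (nat_lit 4) (nat_lit 4) (nat_lit 311) (nat_lit 218) (nat_lit 191)))))))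
noncomputable def xc37 : XT := (XT.nd (nat_lit 1248) (nat_lit 0) (nat_lit 0) (XT.nd (nat_lit 624) (nat_lit 0) (nat_lit 0) (XT.nd (nat_lit 312) (nat_lit 0) (nat_lit 0) (XT.nd (nat_lit 156) (nat_lit 76) (nat_lit 0) (XT.nd (nat_lit 78) (nat_lit 0) (nat_lit 0) (XT.lf (nat_lit 0) (nat_lit 27870986648) (nat_lit 152) (nat_lit 4431783964) (nat_lit 0) (nat_lit 20736853851) (nat_lit 4) (nat_lit 5) (nat_lit 6) (nat_lit 4) (nat_lit 4) (nat_lit 4) (nat_lit 312) (nat_lit 218) (nat_lit 190)) (XT.lf (nat_lit 0) (nat_lit 30882832249) (nat_lit 152) (nat_lit 1066304724) (nat_lit 0) (nat_lit 23632361923) (nat_lit 4) (nat_lit 5) (nat_lit 6) (nat_lit 4) (nat_lit 4) (nat_lit 4) (nat_lit 313) (nat_lit 218) (nat_lit 189))) (XT.nd (nat_lit 78) (nat_lit 0) (nat_lit 0) (XT.lf (nat_lit 0) (nat_lit 2490367179) (nat_lit 76) (nat_lit 31560583459) (nat_lit 76) (nat_lit 24199315485) (nat_lit 3) (nat_lit 4) (nat_lit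 4) (nat_lit 5) (nat_lit 4) (nat_lit 4) (nat_lit 314) (nat_lit 218) (nat_lit 188)) (XT.lf (nat_lit 0) (nat_lit 6206019717) (nat_lit 76) (nat_lit 31157021191) (nat_lit 76) (nat_lit 23690231648) (nat_lit 3) (nat_lit 4) (nat_lit 4) (nat_lit 5) (nat_lit 4) (nat_lit 4) (nat_lit 315) (nat_lit 218) (nat_lit 187)))) (XT.nd (nat_lit 156) (nat_lit 0) (nat_lit 0) (XT.nd (nat_lit 78) (nat_lit 0) (nat_lit 0) (XT.lf (nat_lit 0) (nat_lit 10054242830) (nat_lit 76) (nat_lit 30755547692) (nat_lit 76) (nat_lit 23188261418) (nat_lit 3) (nat_lit 4) (nat_lit 4) (nat_lit 5) (nat_lit 4) (nat_lit 4) (nat_lit 316) (nat_lit 218) (nat_lit 186)) (XT.lf (nat_lit 0) (nat_lit 14044198955) (nat_lit 76) (nat_lit 30355207075) (nat_lit 76) (nat_lit 22692209628) (nat_lit 3) (nat_lit 4) (nat_lit 4) (nat_lit 5) (nat_lit 4) (nat_lit 4) (nat_lit 317) (nat_lit 218) (nat_lit 185))) (XT.nd (nat_lit 78) (nat_lit 0) (nat_lit 0)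 (XT.lf (nat_lit 0) (nat_lit 18185387986) (nat_lit 76) (nat_lit 29955046148) (nat_lit 76) (nat_lit 22200895202) (nat_lit 3) (nat_lit 4) (nat_lit 4) (nat_lit 5) (nat_lit 4) (nat_lit 4) (nat_lit 318) (nat_lit 218) (nat_lit 184)) (XT.lf (nat_lit 0) (nat_lit 22487669897) (nat_lit 76) (nat_lit 29554112145) (nat_lit 76) (nat_lit 21713148343) (nat_lit 3) (nat_lit 4) (nat_lit 4) (nat_lit 5) (nat_lit 4) (nat_lit 4) (nat_lit 319) (nat_lit 218) (nat_lit 183))))) (XT.nd (nat_lit 312) (nat_lit 0) (nat_lit 0) (XT.nd (nat_lit 156) (nat_lit 0) (nat_lit 0) (XT.nd (nat_lit 78) (nat_lit 0) (nat_lit 0) (XT.lf (nat_lit 0) (nat_lit 26961288217) (nat_lit 76) (nat_lit 29151450462) (nat_lit 76) (nat_lit 21227807751) (nat_lit 3) (nat_lit 4) (nat_lit 4) (nat_lit 5) (nat_lit 4) (nat_lit 4) (nat_lit 320) (nat_lit 218) (nat_lit 182)) (XT.lf (nat_lit 0) (nat_lit 31616894419) (nat_lit 76) (nat_lit 28746102382) (nat_lit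 76) (nat_lit 20743717851) (nat_lit 3) (nat_lit 4) (nat_lit 4) (nat_lit 5) (nat_lit 4) (nat_lit 4) (nat_lit 321) (nat_lit 218) (nat_lit 181))) (XT.nd (nat_lit 78) (nat_lit 0) (nat_lit 0) (XT.lf (nat_lit 0) (nat_lit 36465573278) (nat_lit 76) (nat_lit 28337102789) (nat_lit 76) (nat_lit 20259726049) (nat_lit 3) (nat_lit 4) (nat_lit 4) (nat_lit 5) (nat_lit 4) (nat_lit 4) (nat_lit 322) (nat_lit 218) (nat_lit 180)) (XT.lf (nat_lit 0) (nat_lit 41518869269) (nat_lit 76) (nat_lit 27923477875) (nat_lit 76) (nat_lit 19774679984) (nat_lit 3) (nat_lit 4) (nat_lit 4) (nat_lit 5) (nat_lit 4) (nat_lit 4) (nat_lit 323) (nat_lit 218) (nat_lit 179)))) (XT.nd (nat_lit 156) (nat_lit 0) (nat_lit 0) (XT.nd (nat_lit 78) (nat_lit 0) (nat_lit 0) (XT.lf (nat_lit 0) (nat_lit 46788814048) (nat_lit 76) (nat_lit 27504242819) (nat_lit 76) (nat_lit 19287424784) (nat_lit 3) (nat_lit 4) (nat_lit 4) (nat_lit 5) (nat_lit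 4) (nat_lit 4) (nat_lit 324) (nat_lit 218) (nat_lit 178)) (XT.lf (nat_lit 0) (nat_lit 52287955102) (nat_lit 76) (nat_lit 27078399441) (nat_lit 76) (nat_lit 18796800317) (nat_lit 3) (nat_lit 4) (nat_lit 4) (nat_lit 5) (nat_lit 4) (nat_lit 4) (nat_lit 325) (nat_lit 218) (nat_lit 177))) (XT.nd (nat_lit 78) (nat_lit 0) (nat_lit 0) (XT.lf (nat_lit 0) (nat_lit 58029385626) (nat_lit 76) (nat_lit 26644933830) (nat_lit 76) (nat_lit 18301638430) (nat_lit 3) (nat_lit 4) (nat_lit 4) (nat_lit 5) (nat_lit 4) (nat_lit 4) (nat_lit 326) (nat_lit 218) (nat_lit 176)) (XT.lf (nat_lit 0) (nat_lit 64026775692) (nat_lit 76) (nat_lit 26202813925) (nat_lit 76) (nat_lit 17800760167) (nat_lit 3) (nat_lit 4) (nat_lit 4) (nat_lit 5) (nat_lit 4) (nat_lit 4) (nat_lit 327) (nat_lit 218) (nat_lit 175)))))) (XT.nd (nat_lit 624) (nat_lit 0) (nat_lit 0) (XT.nd (nat_lit 312) (nat_lit 0) (nat_lit 0) (XT.nd (nat_lit 156)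 (nat_lit 0) (nat_lit 0) (XT.nd (nat_lit 78) (nat_lit 0) (nat_lit 0) (XT.lf (nat_lit 0) (nat_lit 70294404799) (nat_lit 76) (nat_lit 25750987058) (nat_lit 76) (nat_lit 17292972959) (nat_lit 3) (nat_lit 4) (nat_lit 4) (nat_lit 5) (nat_lit 4) (nat_lit 4) (nat_lit 328) (nat_lit 218) (nat_lit 174)) (XT.lf (nat_lit 0) (nat_lit 76847195874) (nat_lit 76) (nat_lit 25288377451) (nat_lit 76) (nat_lit 16777067790) (nat_lit 3) (nat_lit 4) (nat_lit 4) (nat_lit 5) (nat_lit 4) (nat_lit 4) (nat_lit 329) (nat_lit 218) (nat_lit 173))) (XT.nd (nat_lit 78) (nat_lit 0) (nat_lit 0) (XT.lf (nat_lit 0) (nat_lit 83700750801) (nat_lit 76) (nat_lit 24813883654) (nat_lit 76) (nat_lit 16251816314) (nat_lit 3) (nat_lit 4) (nat_lit 4) (nat_lit 5) (nat_lit 4) (nat_lit 4) (nat_lit 330) (nat_lit 218) (nat_lit 172)) (XT.lf (nat_lit 0) (nat_lit 90871387568) (nat_lit 76) (nat_lit 24326375919) (nat_lit 76) (nat_lit 15715967933)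 (nat_lit 3) (nat_lit 4) (nat_lit 4) (nat_lit 5) (nat_lit 4) (nat_lit 4) (nat_lit 331) (nat_lit 218) (nat_lit 171)))) (XT.nd (nat_lit 156) (nat_lit 0) (nat_lit 0) (XT.nd (nat_lit 78) (nat_lit 0) (nat_lit 0) (XT.lf (nat_lit 0) (nat_lit 98376179119) (nat_lit 76) (nat_lit 23824693513) (nat_lit 76) (nat_lit 15168246816) (nat_lit 3) (nat_lit 4) (nat_lit 4) (nat_lit 5) (nat_lit 4) (nat_lit 4) (nat_lit 332) (nat_lit 218) (nat_lit 170)) (XT.lf (nat_lit 0) (nat_lit 106232994006) (nat_lit 76) (nat_lit 23307641954) (nat_lit 76) (nat_lit 14607348866) (nat_lit 3) (nat_lit 4) (nat_lit 4) (nat_lit 5) (nat_lit 4) (nat_lit 4) (nat_lit 333) (nat_lit 218) (nat_lit 169))) (XT.nd (nat_lit 78) (nat_lit 0) (nat_lit 0) (XT.lf (nat_lit 0) (nat_lit 114460538930) (nat_lit 76) (nat_lit 22773990168) (nat_lit 76) (nat_lit 14031938612) (nat_lit 3) (nat_lit 4) (nat_lit 4) (nat_lit 5) (nat_lit 4) (nat_lit 4) (nat_lit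 334) (nat_lit 218) (nat_lit 168)) (XT.lf (nat_lit 0) (nat_lit 123078403285) (nat_lit 76) (nat_lit 22222467554) (nat_lit 76) (nat_lit 13440646029) (nat_lit 3) (nat_lit 4) (nat_lit 4) (nat_lit 5) (nat_lit 4) (nat_lit 4) (nat_lit 335) (nat_lit 218) (nat_lit 167))))) (XT.nd (nat_lit 312) (nat_lit 0) (nat_lit 0) (XT.nd (nat_lit 156) (nat_lit 0) (nat_lit 0) (XT.nd (nat_lit 78) (nat_lit 0) (nat_lit 0) (XT.lf (nat_lit 0) (nat_lit 132107105795) (nat_lit 76) (nat_lit 21651760964) (nat_lit 76) (nat_lit 12832063277) (nat_lit 3) (nat_lit 4) (nat_lit 4) (nat_lit 5) (nat_lit 4) (nat_lit 4) (nat_lit 336) (nat_lit 218) (nat_lit 166)) (XT.lf (nat_lit 0) (nat_lit 141568143370) (nat_lit 76) (nat_lit 21060511573) (nat_lit 76) (nat_lit 12204741351) (nat_lit 3) (nat_lit 4) (nat_lit 4) (nat_lit 5) (nat_lit 4) (nat_lit 4) (nat_lit 337) (nat_lit 218) (nat_lit 165))) (XT.nd (nat_lit 78) (nat_lit 0) (nat_lit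 0) (XT.lf (nat_lit 0) (nat_lit 151484042292) (nat_lit 76) (nat_lit 20447311643) (nat_lit 76) (nat_lit 11557186626) (nat_lit 3) (nat_lit 4) (nat_lit 4) (nat_lit 5) (nat_lit 4) (nat_lit 4) (nat_lit 338) (nat_lit 218) (nat_lit 164)) (XT.lf (nat_lit 0) (nat_lit 161878411842) (nat_lit 76) (nat_lit 19810701175) (nat_lit 76) (nat_lit 10887857306) (nat_lit 3) (nat_lit 4) (nat_lit 4) (nat_lit 5) (nat_lit 4) (nat_lit 4) (nat_lit 339) (nat_lit 218) (nat_lit 163)))) (XT.nd (nat_lit 156) (nat_lit 0) (nat_lit 0) (XT.nd (nat_lit 78) (nat_lit 0) (nat_lit 0) (XT.lf (nat_lit 0) (nat_lit 172776000521) (nat_lit 76) (nat_lit 19149164430) (nat_lit 76) (nat_lit 10195159750) (nat_lit 3) (nat_lit 4) (nat_lit 4) (nat_lit 5) (nat_lit 4) (nat_lit 4) (nat_lit 340) (nat_lit 218) (nat_lit 162)) (XT.lf (nat_lit 0) (nat_lit 184202754966) (nat_lit 76) (nat_lit 18461126320) (nat_lit 76) (nat_lit 9477444676) (nat_lit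 3) (nat_lit 4) (nat_lit 4) (nat_lit 5) (nat_lit 4) (nat_lit 4) (nat_lit 341) (nat_lit 218) (nat_lit 161))) (XT.nd (nat_lit 78) (nat_lit 0) (nat_lit 0) (XT.lf (nat_lit 0) (nat_lit 196185881738) (nat_lit 76) (nat_lit 17744948660) (nat_lit 76) (nat_lit 8733003241) (nat_lit 3) (nat_lit 4) (nat_lit 4) (nat_lit 5) (nat_lit 4) (nat_lit 4) (nat_lit 342) (nat_lit 218) (nat_lit 160)) (XT.nd (nat_lit 78) (nat_lit 0) (nat_lit 0) (XT.lf (nat_lit 0) (nat_lit 208753912089) (nat_lit 76) (nat_lit 16998926263) (nat_lit 76) (nat_lit 7960062964) (nat_lit 3) (nat_lit 4) (nat_lit 4) (nat_lit 5) (nat_lit 4) (nat_lit 4) (nat_lit 343) (nat_lit 218) (nat_lit 159)) (XT.lf (nat_lit 0) (nat_lit 221936769903) (nat_lit 76) (nat_lit 16221282888) (nat_lit 76) (nat_lit 7156783512) (nat_lit 3) (nat_lit 4) (nat_lit 4) (nat_lit 5) (nat_lit 4) (nat_lit 4) (nat_lit 344) (nat_lit 218) (nat_lit 158))))))))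
noncomputable def xc38 : XT := (XT.nd (nat_lit 32760) (nat_lit 0) (nat_lit 380) (XT.nd (nat_lit 624) (nat_lit 76) (nat_lit 0) (XT.nd (nat_lit 312) (nat_lit 76) (nat_lit 0) (XT.nd (nat_lit 156) (nat_lit 0) (nat_lit 0) (XT.nd (nat_lit 78) (nat_lit 0) (nat_lit 0) (XT.lf (nat_lit 0) (nat_lit 235765842934) (nat_lit 76) (nat_lit 15410167001) (nat_lit 76) (nat_lit 6321252313) (nat_lit 3) (nat_lit 4) (nat_lit 4) (nat_lit 5) (nat_lit 4) (nat_lit 4) (nat_lit 345) (nat_lit 218) (nat_lit 157)) (XT.lf (nat_lit 0) (nat_lit 250274057549) (nat_lit 76) (nat_lit 14563647375) (nat_lit 76) (nat_lit 5451480010) (nat_lit 3) (nat_lit 4) (nat_lit 4) (nat_lit 5) (nat_lit 4) (nat_lit 4) (nat_lit 346) (nat_lit 218) (nat_lit 156))) (XT.nd (nat_lit 78) (nat_lit 0) (nat_lit 0) (XT.lf (nat_lit 0) (nat_lit 265495957114) (nat_lit 76) (nat_lit 13679708486) (nat_lit 76) (nat_lit 4545395713) (nat_lit 3) (nat_lit 4)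 (nat_lit 4) (nat_lit 5) (nat_lit 4) (nat_lit 4) (nat_lit 347) (nat_lit 218) (nat_lit 155)) (XT.lf (nat_lit 0) (nat_lit 281467784249) (nat_lit 76) (nat_lit 12756245718) (nat_lit 76) (nat_lit 3600842082) (nat_lit 3) (nat_lit 4) (nat_lit 4) (nat_lit 5) (nat_lit 4) (nat_lit 4) (nat_lit 348) (nat_lit 218) (nat_lit 154)))) (XT.nd (nat_lit 156) (nat_lit 76) (nat_lit 0) (XT.nd (nat_lit 78) (nat_lit 0) (nat_lit 0) (XT.lf (nat_lit 0) (nat_lit 298227567112) (nat_lit 76) (nat_lit 11791060350) (nat_lit 76) (nat_lit 2615570177) (nat_lit 3) (nat_lit 4) (nat_lit 4) (nat_lit 5) (nat_lit 4) (nat_lit 4) (nat_lit 349) (nat_lit 218) (nat_lit 153)) (XT.lf (nat_lit 0) (nat_lit 315815209949) (nat_lit 76) (nat_lit 10781854322) (nat_lit 76) (nat_lit 1587234114) (nat_lit 3) (nat_lit 4) (nat_lit 4) (nat_lit 5) (nat_lit 4) (nat_lit 4) (nat_lit 350) (nat_lit 218) (nat_lit 152))) (XT.nd (nat_lit 78) (nat_lit 76)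 (nat_lit 0) (XT.lf (nat_lit 0) (nat_lit 334272588100) (nat_lit 76) (nat_lit 9726224763) (nat_lit 76) (nat_lit 513385473) (nat_lit 3) (nat_lit 4) (nat_lit 4) (nat_lit 5) (nat_lit 4) (nat_lit 4) (nat_lit 351) (nat_lit 218) (nat_lit 151)) (XT.lf (nat_lit 0) (nat_lit 589055685) (nat_lit 152) (nat_lit 8022626639) (nat_lit 76) (nat_lit 353044616074) (nat_lit 2) (nat_lit 5) (nat_lit 4) (nat_lit 5) (nat_lit 3) (nat_lit 4) (nat_lit 352) (nat_lit 218) (nat_lit 150))))) (XT.nd (nat_lit 312) (nat_lit 0) (nat_lit 0) (XT.nd (nat_lit 156) (nat_lit 76) (nat_lit 0) (XT.nd (nat_lit 78) (nat_lit 0) (nat_lit 0) (XT.lf (nat_lit 0) (nat_lit 1724181881) (nat_lit 152) (nat_lit 5712143182) (nat_lit 76) (nat_lit 372221128592) (nat_lit 2) (nat_lit 5) (nat_lit 4) (nat_lit 5) (nat_lit 3) (nat_lit 4) (nat_lit 353) (nat_lit 218) (nat_lit 149)) (XT.lf (nat_lit 0) (nat_lit 2911127336) (nat_lit 152) (nat_lit 3294643327)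 (nat_lit 76) (nat_lit 392353154106) (nat_lit 2) (nat_lit 5) (nat_lit 4) (nat_lit 5) (nat_lit 3) (nat_lit 4) (nat_lit 354) (nat_lit 218) (nat_lit 148))) (XT.nd (nat_lit 78) (nat_lit 76) (nat_lit 0) (XT.lf (nat_lit 0) (nat_lit 4152718110) (nat_lit 152) (nat_lit 764371123) (nat_lit 76) (nat_lit 413488626010) (nat_lit 2) (nat_lit 5) (nat_lit 4) (nat_lit 5) (nat_lit 3) (nat_lit 4) (nat_lit 355) (nat_lit 218) (nat_lit 147)) (XT.lf (nat_lit 0) (nat_lit 1947014511) (nat_lit 76) (nat_lit 3535294214) (nat_lit 152) (nat_lit 433761250696) (nat_lit 1) (nat_lit 5) (nat_lit 2) (nat_lit 5) (nat_lit 3) (nat_lit 4) (nat_lit 356) (nat_lit 218) (nat_lit 146)))) (XT.nd (nat_lit 31668) (nat_lit 0) (nat_lit 912) (XT.nd (nat_lit 78) (nat_lit 0) (nat_lit 0) (XT.lf (nat_lit 0) (nat_lit 4812914328) (nat_lit 76) (nat_lit 2074026190) (nat_lit 152) (nat_lit 454235936919) (nat_lit 1) (nat_lit 5) (nat_lit 2) (nat_lit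 5) (nat_lit 3) (nat_lit 4) (nat_lit 357) (nat_lit 218) (nat_lit 145)) (XT.lf (nat_lit 0) (nat_lit 7814878337) (nat_lit 76) (nat_lit 542750947) (nat_lit 152) (nat_lit 475738750050) (nat_lit 1) (nat_lit 5) (nat_lit 2) (nat_lit 5) (nat_lit 3) (nat_lit 4) (nat_lit 358) (nat_lit 218) (nat_lit 144))) (XT.nd (nat_lit 78) (nat_lit 0) (nat_lit 0) (XT.lf (nat_lit 0) (nat_lit 2748084800) (nat_lit 152) (nat_lit 2294988514) (nat_lit 152) (nat_lit 2294988514) (nat_lit 13) (nat_lit 4) (nat_lit 15) (nat_lit 5) (nat_lit 15) (nat_lit 4) (nat_lit 282) (nat_lit 219) (nat_lit 219)) (XT.lf (nat_lit 0) (nat_lit 11225862357) (nat_lit 152) (nat_lit 2275591005) (nat_lit 152) (nat_lit 1721249487) (nat_lit 13) (nat_lit 4) (nat_lit 15) (nat_lit 5) (nat_lit 15) (nat_lit 4) (nat_lit 283) (nat_lit 219) (nat_lit 218)))))) (XT.nd (nat_lit 624) (nat_lit 76) (nat_lit 0) (XT.nd (nat_lit 312) (nat_lit 152) (nat_lit 0)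 (XT.nd (nat_lit 156) (nat_lit 152) (nat_lit 0) (XT.nd (nat_lit 78) (nat_lit 0) (nat_lit 0) (XT.lf (nat_lit 0) (nat_lit 1159644952) (nat_lit 152) (nat_lit 14511936472) (nat_lit 0) (nat_lit 128896551) (nat_lit 11) (nat_lit 5) (nat_lit 13) (nat_lit 4) (nat_lit 11) (nat_lit 4) (nat_lit 284) (nat_lit 219) (nat_lit 217)) (XT.lf (nat_lit 0) (nat_lit 4122308253) (nat_lit 152) (nat_lit 9671304613) (nat_lit 0) (nat_lit 2612698807) (nat_lit 11) (nat_lit 5) (nat_lit 13) (nat_lit 4) (nat_lit 11) (nat_lit 4) (nat_lit 285) (nat_lit 219) (nat_lit 216))) (XT.nd (nat_lit 78) (nat_lit 152) (nat_lit 0) (XT.lf (nat_lit 0) (nat_lit 7127834780) (nat_lit 152) (nat_lit 4758040620) (nat_lit 0) (nat_lit 5162167195) (nat_lit 11) (nat_lit 5) (nat_lit 13) (nat_lit 4) (nat_lit 11) (nat_lit 4) (nat_lit 286) (nat_lit 219) (nat_lit 215)) (XT.lf (nat_lit 0) (nat_lit 247474481) (nat_lit 152) (nat_lit 9939769837) (nat_lit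 152) (nat_lit 7539761168) (nat_lit 9) (nat_lit 4) (nat_lit 11) (nat_lit 5) (nat_lit 11) (nat_lit 4) (nat_lit 287) (nat_lit 219) (nat_lit 214)))) (XT.nd (nat_lit 156) (nat_lit 152) (nat_lit 0) (XT.nd (nat_lit 78) (nat_lit 0) (nat_lit 0) (XT.lf (nat_lit 0) (nat_lit 5509723087) (nat_lit 152) (nat_lit 7872519797) (nat_lit 152) (nat_lit 5058852952) (nat_lit 9) (nat_lit 4) (nat_lit 11) (nat_lit 5) (nat_lit 11) (nat_lit 4) (nat_lit 288) (nat_lit 219) (nat_lit 213)) (XT.lf (nat_lit 0) (nat_lit 10883912051) (nat_lit 152) (nat_lit 5759782977) (nat_lit 152) (nat_lit 2552155964) (nat_lit 9) (nat_lit 4) (nat_lit 11) (nat_lit 5) (nat_lit 11) (nat_lit 4) (nat_lit 289) (nat_lit 219) (nat_lit 212))) (XT.nd (nat_lit 78) (nat_lit 152) (nat_lit 0) (XT.lf (nat_lit 0) (nat_lit 16382837060) (nat_lit 152) (nat_lit 3596529051) (nat_lit 152) (nat_lit 13701879) (nat_lit 9) (nat_lit 4) (nat_lit 11) (nat_lit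 5) (nat_lit 11) (nat_lit 4) (nat_lit 290) (nat_lit 219) (nat_lit 211)) (XT.lf (nat_lit 0) (nat_lit 1182793984) (nat_lit 76) (nat_lit 1316208280) (nat_lit 152) (nat_lit 18332718933) (nat_lit 7) (nat_lit 5) (nat_lit 8) (nat_lit 5) (nat_lit 9) (nat_lit 4) (nat_lit 291) (nat_lit 219) (nat_lit 210))))) (XT.nd (nat_lit 312) (nat_lit 76) (nat_lit 0) (XT.nd (nat_lit 156) (nat_lit 0) (nat_lit 0) (XT.nd (nat_lit 78) (nat_lit 0) (nat_lit 0) (XT.lf (nat_lit 0) (nat_lit 5130704310) (nat_lit 152) (nat_lit 15528085101) (nat_lit 0) (nat_lit 1054058346) (nat_lit 7) (nat_lit 5) (nat_lit 9) (nat_lit 4) (nat_lit 7) (nat_lit 4) (nat_lit 292) (nat_lit 219) (nat_lit 209)) (XT.lf (nat_lit 0) (nat_lit 7834470778) (nat_lit 152) (nat_lit 11357620696) (nat_lit 0) (nat_lit 3449146714) (nat_lit 7) (nat_lit 5) (nat_lit 9) (nat_lit 4) (nat_lit 7) (nat_lit 4) (nat_lit 293) (nat_lit 219) (nat_lit 208))) (XT.nd (nat_lit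 78) (nat_lit 0) (nat_lit 0) (XT.lf (nat_lit 0) (nat_lit 10596189508) (nat_lit 152) (nat_lit 7107054620) (nat_lit 0) (nat_lit 5916886301) (nat_lit 7) (nat_lit 5) (nat_lit 9) (nat_lit 4) (nat_lit 7) (nat_lit 4) (nat_lit 294) (nat_lit 219) (nat_lit 207)) (XT.lf (nat_lit 0) (nat_lit 13422436019) (nat_lit 152) (nat_lit 2766266478) (nat_lit 0) (nat_lit 8463152677) (nat_lit 7) (nat_lit 5) (nat_lit 9) (nat_lit 4) (nat_lit 7) (nat_lit 4) (nat_lit 295) (nat_lit 219) (nat_lit 206)))) (XT.nd (nat_lit 156) (nat_lit 0) (nat_lit 0) (XT.nd (nat_lit 78) (nat_lit 0) (nat_lit 0) (XT.lf (nat_lit 0) (nat_lit 1730464613) (nat_lit 76) (nat_lit 14616492260) (nat_lit 76) (nat_lit 9390561169) (nat_lit 6) (nat_lit 4) (nat_lit 7) (nat_lit 5) (nat_lit 7) (nat_lit 4) (nat_lit 296) (nat_lit 219) (nat_lit 205)) (XT.lf (nat_lit 0) (nat_lit 6433467399) (nat_lit 76) (nat_lit 12962575738) (nat_lit 76) (nat_lit 7482694411)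 (nat_lit 6) (nat_lit 4) (nat_lit 7) (nat_lit 5) (nat_lit 7) (nat_lit 4) (nat_lit 297) (nat_lit 219) (nat_lit 204))) (XT.nd (nat_lit 78) (nat_lit 0) (nat_lit 0) (XT.lf (nat_lit 0) (nat_lit 11262474242) (nat_lit 76) (nat_lit 11269863097) (nat_lit 76) (nat_lit 5548124402) (nat_lit 6) (nat_lit 4) (nat_lit 7) (nat_lit 5) (nat_lit 7) (nat_lit 4) (nat_lit 298) (nat_lit 219) (nat_lit 203)) (XT.lf (nat_lit 0) (nat_lit 16228982775) (nat_lit 76) (nat_lit 9534324069) (nat_lit 76) (nat_lit 3582245023) (nat_lit 6) (nat_lit 4) (nat_lit 7) (nat_lit 5) (nat_lit 7) (nat_lit 4) (nat_lit 299) (nat_lit 219) (nat_lit 202)))))))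
noncomputable def xc39 : XT := (XT.nd (nat_lit 1248) (nat_lit 0) (nat_lit 0) (XT.nd (nat_lit 624) (nat_lit 76) (nat_lit 0) (XT.nd (nat_lit 312) (nat_lit 0) (nat_lit 0) (XT.nd (nat_lit 156) (nat_lit 76) (nat_lit 0) (XT.nd (nat_lit 78) (nat_lit 76) (nat_lit 0) (XT.lf (nat_lit 0) (nat_lit 21344818021) (nat_lit 76) (nat_lit 7751826418) (nat_lit 76) (nat_lit 1580375610) (nat_lit 6) (nat_lit 4) (nat_lit 7) (nat_lit 5) (nat_lit 7) (nat_lit 4) (nat_lit 300) (nat_lit 219) (nat_lit 201)) (XT.lf (nat_lit 0) (nat_lit 447455299) (nat_lit 152) (nat_lit 5463092931) (nat_lit 76) (nat_lit 26167127367) (nat_lit 5) (nat_lit 5) (nat_lit 7) (nat_lit 5) (nat_lit 6) (nat_lit 4) (nat_lit 301) (nat_lit 219) (nat_lit 200))) (XT.nd (nat_lit 78) (nat_lit 76) (nat_lit 0) (XT.lf (nat_lit 0) (nat_lit 2468863988) (nat_lit 152) (nat_lit 1518181775) (nat_lit 76) (nat_lit 29562900036) (nat_lit 5) (nat_lit 5) (nat_lit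 7) (nat_lit 5) (nat_lit 6) (nat_lit 4) (nat_lit 302) (nat_lit 219) (nat_lit 199)) (XT.lf (nat_lit 0) (nat_lit 2620469568) (nat_lit 76) (nat_lit 1959688527) (nat_lit 152) (nat_lit 30516366024) (nat_lit 4) (nat_lit 5) (nat_lit 5) (nat_lit 5) (nat_lit 6) (nat_lit 4) (nat_lit 303) (nat_lit 219) (nat_lit 198)))) (XT.nd (nat_lit 156) (nat_lit 0) (nat_lit 0) (XT.nd (nat_lit 78) (nat_lit 0) (nat_lit 0) (XT.lf (nat_lit 0) (nat_lit 6774282873) (nat_lit 152) (nat_lit 29791542861) (nat_lit 0) (nat_lit 155871235) (nat_lit 4) (nat_lit 5) (nat_lit 6) (nat_lit 4) (nat_lit 4) (nat_lit 4) (nat_lit 304) (nat_lit 219) (nat_lit 197)) (XT.lf (nat_lit 0) (nat_lit 9061186781) (nat_lit 152) (nat_lit 27088834254) (nat_lit 0) (nat_lit 2279076556) (nat_lit 4) (nat_lit 5) (nat_lit 6) (nat_lit 4) (nat_lit 4) (nat_lit 4) (nat_lit 305) (nat_lit 219) (nat_lit 196))) (XT.nd (nat_lit 78) (nat_lit 0) (nat_lit 0) (XT.lf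 (nat_lit 0) (nat_lit 11415718599) (nat_lit 152) (nat_lit 24330897479) (nat_lit 0) (nat_lit 4477704958) (nat_lit 4) (nat_lit 5) (nat_lit 6) (nat_lit 4) (nat_lit 4) (nat_lit 4) (nat_lit 306) (nat_lit 219) (nat_lit 195)) (XT.lf (nat_lit 0) (nat_lit 13843484356) (nat_lit 152) (nat_lit 21511166019) (nat_lit 0) (nat_lit 6756991271) (nat_lit 4) (nat_lit 5) (nat_lit 6) (nat_lit 4) (nat_lit 4) (nat_lit 4) (nat_lit 307) (nat_lit 219) (nat_lit 194))))) (XT.nd (nat_lit 312) (nat_lit 76) (nat_lit 0) (XT.nd (nat_lit 156) (nat_lit 0) (nat_lit 0) (XT.nd (nat_lit 78) (nat_lit 0) (nat_lit 0) (XT.lf (nat_lit 0) (nat_lit 16350264445) (nat_lit 152) (nat_lit 18622926229) (nat_lit 0) (nat_lit 9122362366) (nat_lit 4) (nat_lit 5) (nat_lit 6) (nat_lit 4) (nat_lit 4) (nat_lit 4) (nat_lit 308) (nat_lit 219) (nat_lit 193)) (XT.lf (nat_lit 0) (nat_lit 18942027391) (nat_lit 152) (nat_lit 15659301347) (nat_lit 0)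 (nat_lit 11579450080) (nat_lit 4) (nat_lit 5) (nat_lit 6) (nat_lit 4) (nat_lit 4) (nat_lit 4) (nat_lit 309) (nat_lit 219) (nat_lit 192))) (XT.nd (nat_lit 78) (nat_lit 0) (nat_lit 0) (XT.lf (nat_lit 0) (nat_lit 21624944059) (nat_lit 152) (nat_lit 12613235124) (nat_lit 0) (nat_lit 14134104621) (nat_lit 4) (nat_lit 5) (nat_lit 6) (nat_lit 4) (nat_lit 4) (nat_lit 4) (nat_lit 310) (nat_lit 219) (nat_lit 191)) (XT.lf (nat_lit 0) (nat_lit 24405402344) (nat_lit 152) (nat_lit 9477475020) (nat_lit 0) (nat_lit 16792408501) (nat_lit 4) (nat_lit 5) (nat_lit 6) (nat_lit 4) (nat_lit 4) (nat_lit 4) (nat_lit 311) (nat_lit 219) (nat_lit 190)))) (XT.nd (nat_lit 156) (nat_lit 76) (nat_lit 0) (XT.nd (nat_lit 78) (nat_lit 0) (nat_lit 0) (XT.lf (nat_lit 0) (nat_lit 27290022386) (nat_lit 152) (nat_lit 6244554940) (nat_lit 0) (nat_lit 19560691013) (nat_lit 4) (nat_lit 5) (nat_lit 6) (nat_lit 4) (nat_lit 4)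 (nat_lit 4) (nat_lit 312) (nat_lit 219) (nat_lit 189)) (XT.lf (nat_lit 0) (nat_lit 30285672327) (nat_lit 152) (nat_lit 2906777456) (nat_lit 0) (nat_lit 22445543308) (nat_lit 4) (nat_lit 5) (nat_lit 6) (nat_lit 4) (nat_lit 4) (nat_lit 4) (nat_lit 313) (nat_lit 219) (nat_lit 188))) (XT.nd (nat_lit 78) (nat_lit 0) (nat_lit 0) (XT.lf (nat_lit 0) (nat_lit 561785154) (nat_lit 76) (nat_lit 32846470555) (nat_lit 76) (nat_lit 24900819967) (nat_lit 3) (nat_lit 4) (nat_lit 4) (nat_lit 5) (nat_lit 4) (nat_lit 4) (nat_lit 314) (nat_lit 219) (nat_lit 187)) (XT.lf (nat_lit 0) (nat_lit 4251480593) (nat_lit 76) (nat_lit 32453770181) (nat_lit 76) (nat_lit 24407622861) (nat_lit 3) (nat_lit 4) (nat_lit 4) (nat_lit 5) (nat_lit 4) (nat_lit 4) (nat_lit 315) (nat_lit 219) (nat_lit 186)))))) (XT.nd (nat_lit 624) (nat_lit 0) (nat_lit 0) (XT.nd (nat_lit 312) (nat_lit 0) (nat_lit 0) (XT.nd (nat_lit 156) (nat_lit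 0) (nat_lit 0) (XT.nd (nat_lit 78) (nat_lit 0) (nat_lit 0) (XT.lf (nat_lit 0) (nat_lit 8074982660) (nat_lit 76) (nat_lit 32062641344) (nat_lit 76) (nat_lit 23920782851) (nat_lit 3) (nat_lit 4) (nat_lit 4) (nat_lit 5) (nat_lit 4) (nat_lit 4) (nat_lit 316) (nat_lit 219) (nat_lit 185)) (XT.lf (nat_lit 0) (nat_lit 12041394931) (nat_lit 76) (nat_lit 31672152785) (nat_lit 76) (nat_lit 23439140794) (nat_lit 3) (nat_lit 4) (nat_lit 4) (nat_lit 5) (nat_lit 4) (nat_lit 4) (nat_lit 317) (nat_lit 219) (nat_lit 184))) (XT.nd (nat_lit 78) (nat_lit 0) (nat_lit 0) (XT.lf (nat_lit 0) (nat_lit 16160161244) (nat_lit 76) (nat_lit 31281374771) (nat_lit 76) (nat_lit 22961549923) (nat_lit 3) (nat_lit 4) (nat_lit 4) (nat_lit 5) (nat_lit 4) (nat_lit 4) (nat_lit 318) (nat_lit 219) (nat_lit 183)) (XT.lf (nat_lit 0) (nat_lit 20441088187) (nat_lit 76) (nat_lit 30889376875) (nat_lit 76) (nat_lit 22486873118) (nat_lit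 3) (nat_lit 4) (nat_lit 4) (nat_lit 5) (nat_lit 4) (nat_lit 4) (nat_lit 319) (nat_lit 219) (nat_lit 182)))) (XT.nd (nat_lit 156) (nat_lit 0) (nat_lit 0) (XT.nd (nat_lit 78) (nat_lit 0) (nat_lit 0) (XT.lf (nat_lit 0) (nat_lit 24894368441) (nat_lit 76) (nat_lit 30495225771) (nat_lit 76) (nat_lit 22013980195) (nat_lit 3) (nat_lit 4) (nat_lit 4) (nat_lit 5) (nat_lit 4) (nat_lit 4) (nat_lit 320) (nat_lit 219) (nat_lit 181)) (XT.lf (nat_lit 0) (nat_lit 29530605056) (nat_lit 76) (nat_lit 30097983004) (nat_lit 76) (nat_lit 21541745219) (nat_lit 3) (nat_lit 4) (nat_lit 4) (nat_lit 5) (nat_lit 4) (nat_lit 4) (nat_lit 321) (nat_lit 219) (nat_lit 180))) (XT.nd (nat_lit 78) (nat_lit 0) (nat_lit 0) (XT.lf (nat_lit 0) (nat_lit 34360836690) (nat_lit 76) (nat_lit 29696702757) (nat_lit 76) (nat_lit 21069043820) (nat_lit 3) (nat_lit 4) (nat_lit 4) (nat_lit 5) (nat_lit 4) (nat_lit 4) (nat_lit 322) (nat_lit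 219) (nat_lit 179)) (XT.lf (nat_lit 0) (nat_lit 39396563895) (nat_lit 76) (nat_lit 29290429600) (nat_lit 76) (nat_lit 20594750520) (nat_lit 3) (nat_lit 4) (nat_lit 4) (nat_lit 5) (nat_lit 4) (nat_lit 4) (nat_lit 323) (nat_lit 219) (nat_lit 178))))) (XT.nd (nat_lit 312) (nat_lit 0) (nat_lit 0) (XT.nd (nat_lit 156) (nat_lit 0) (nat_lit 0) (XT.nd (nat_lit 78) (nat_lit 0) (nat_lit 0) (XT.lf (nat_lit 0) (nat_lit 44649776497) (nat_lit 76) (nat_lit 28878196218) (nat_lit 76) (nat_lit 20117736048) (nat_lit 3) (nat_lit 4) (nat_lit 4) (nat_lit 5) (nat_lit 4) (nat_lit 4) (nat_lit 324) (nat_lit 219) (nat_lit 177)) (XT.lf (nat_lit 0) (nat_lit 50132982145) (nat_lit 76) (nat_lit 28459021102) (nat_lit 76) (nat_lit 19636864656) (nat_lit 3) (nat_lit 4) (nat_lit 4) (nat_lit 5) (nat_lit 4) (nat_lit 4) (nat_lit 325) (nat_lit 219) (nat_lit 176))) (XT.nd (nat_lit 78) (nat_lit 0) (nat_lit 0) (XT.lf (nat_lit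 0) (nat_lit 55859236091) (nat_lit 76) (nat_lit 28031906216) (nat_lit 76) (nat_lit 19150991412) (nat_lit 3) (nat_lit 4) (nat_lit 4) (nat_lit 5) (nat_lit 4) (nat_lit 4) (nat_lit 326) (nat_lit 219) (nat_lit 175)) (XT.lf (nat_lit 0) (nat_lit 61842172272) (nat_lit 76) (nat_lit 27595834619) (nat_lit 76) (nat_lit 18658959475) (nat_lit 3) (nat_lit 4) (nat_lit 4) (nat_lit 5) (nat_lit 4) (nat_lit 4) (nat_lit 327) (nat_lit 219) (nat_lit 174)))) (XT.nd (nat_lit 156) (nat_lit 0) (nat_lit 0) (XT.nd (nat_lit 78) (nat_lit 0) (nat_lit 0) (XT.lf (nat_lit 0) (nat_lit 68096035776) (nat_lit 76) (nat_lit 27149768047) (nat_lit 76) (nat_lit 18159597340) (nat_lit 3) (nat_lit 4) (nat_lit 4) (nat_lit 5) (nat_lit 4) (nat_lit 4) (nat_lit 328) (nat_lit 219) (nat_lit 173)) (XT.lf (nat_lit 0) (nat_lit 74635716753) (nat_lit 76) (nat_lit 26692644436) (nat_lit 76) (nat_lit 17651716050) (nat_lit 3) (nat_lit 4) (nat_lit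 4) (nat_lit 5) (nat_lit 4) (nat_lit 4) (nat_lit 329) (nat_lit 219) (nat_lit 172))) (XT.nd (nat_lit 78) (nat_lit 0) (nat_lit 0) (XT.lf (nat_lit 0) (nat_lit 81476785872) (nat_lit 76) (nat_lit 26223375395) (nat_lit 76) (nat_lit 17134106363) (nat_lit 3) (nat_lit 4) (nat_lit 4) (nat_lit 5) (nat_lit 4) (nat_lit 4) (nat_lit 330) (nat_lit 219) (nat_lit 171)) (XT.nd (nat_lit 78) (nat_lit 0) (nat_lit 0) (XT.lf (nat_lit 0) (nat_lit 88635531393) (nat_lit 76) (nat_lit 25740843619) (nat_lit 76) (nat_lit 16605535876) (nat_lit 3) (nat_lit 4) (nat_lit 4) (nat_lit 5) (nat_lit 4) (nat_lit 4) (nat_lit 331) (nat_lit 219) (nat_lit 170)) (XT.lf (nat_lit 0) (nat_lit 96128997948) (nat_lit 76) (nat_lit 25243900222) (nat_lit 76) (nat_lit 16064746088) (nat_lit 3) (nat_lit 4) (nat_lit 4) (nat_lit 5) (nat_lit 4) (nat_lit 4) (nat_lit 332) (nat_lit 219) (nat_lit 169))))))))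
noncomputable def xc40 : XT := (XT.nd (nat_lit 33852) (nat_lit 0) (nat_lit 152) (XT.nd (nat_lit 1248) (nat_lit 152) (nat_lit 0) (XT.nd (nat_lit 624) (nat_lit 0) (nat_lit 0) (XT.nd (nat_lit 312) (nat_lit 0) (nat_lit 0) (XT.nd (nat_lit 156) (nat_lit 0) (nat_lit 0) (XT.nd (nat_lit 78) (nat_lit 0) (nat_lit 0) (XT.lf (nat_lit 0) (nat_lit 103975027124) (nat_lit 76) (nat_lit 24731362005) (nat_lit 76) (nat_lit 15510449403) (nat_lit 3) (nat_lit 4) (nat_lit 4) (nat_lit 5) (nat_lit 4) (nat_lit 4) (nat_lit 333) (nat_lit 219) (nat_lit 168)) (XT.lf (nat_lit 0) (nat_lit 112192299943) (nat_lit 76) (nat_lit 24202008639) (nat_lit 76) (nat_lit 14941326068) (nat_lit 3) (nat_lit 4) (nat_lit 4) (nat_lit 5) (nat_lit 4) (nat_lit 4) (nat_lit 334) (nat_lit 219) (nat_lit 167))) (XT.nd (nat_lit 78) (nat_lit 0) (nat_lit 0) (XT.lf (nat_lit 0) (nat_lit 120800381340) (nat_lit 76) (nat_lit 23654579759) (nat_lit 76)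 (nat_lit 14356021026) (nat_lit 3) (nat_lit 4) (nat_lit 4) (nat_lit 5) (nat_lit 4) (nat_lit 4) (nat_lit 335) (nat_lit 219) (nat_lit 166)) (XT.lf (nat_lit 0) (nat_lit 129819766748) (nat_lit 76) (nat_lit 23087771963) (nat_lit 76) (nat_lit 13753140696) (nat_lit 3) (nat_lit 4) (nat_lit 4) (nat_lit 5) (nat_lit 4) (nat_lit 4) (nat_lit 336) (nat_lit 219) (nat_lit 165)))) (XT.nd (nat_lit 156) (nat_lit 0) (nat_lit 0) (XT.nd (nat_lit 78) (nat_lit 0) (nat_lit 0) (XT.lf (nat_lit 0) (nat_lit 139271930893) (nat_lit 76) (nat_lit 22500235709) (nat_lit 76) (nat_lit 13131249647) (nat_lit 3) (nat_lit 4) (nat_lit 4) (nat_lit 5) (nat_lit 4) (nat_lit 4) (nat_lit 337) (nat_lit 219) (nat_lit 164)) (XT.lf (nat_lit 0) (nat_lit 149179378928) (nat_lit 76) (nat_lit 21890572100) (nat_lit 76) (nat_lit 12488867186) (nat_lit 3) (nat_lit 4) (nat_lit 4) (nat_lit 5) (nat_lit 4) (nat_lit 4) (nat_lit 338) (nat_lit 219)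 (nat_lit 163))) (XT.nd (nat_lit 78) (nat_lit 0) (nat_lit 0) (XT.lf (nat_lit 0) (nat_lit 159565700015) (nat_lit 76) (nat_lit 21257329557) (nat_lit 76) (nat_lit 11824463831) (nat_lit 3) (nat_lit 4) (nat_lit 4) (nat_lit 5) (nat_lit 4) (nat_lit 4) (nat_lit 339) (nat_lit 219) (nat_lit 162)) (XT.lf (nat_lit 0) (nat_lit 170455623490) (nat_lit 76) (nat_lit 20599000360) (nat_lit 76) (nat_lit 11136457670) (nat_lit 3) (nat_lit 4) (nat_lit 4) (nat_lit 5) (nat_lit 4) (nat_lit 4) (nat_lit 340) (nat_lit 219) (nat_lit 161))))) (XT.nd (nat_lit 312) (nat_lit 0) (nat_lit 0) (XT.nd (nat_lit 156) (nat_lit 0) (nat_lit 0) (XT.nd (nat_lit 78) (nat_lit 0) (nat_lit 0) (XT.lf (nat_lit 0) (nat_lit 181875077743) (nat_lit 76) (nat_lit 19914017057) (nat_lit 76) (nat_lit 10423210593) (nat_lit 3) (nat_lit 4) (nat_lit 4) (nat_lit 5) (nat_lit 4) (nat_lit 4) (nat_lit 341) (nat_lit 219) (nat_lit 160)) (XT.lf (nat_lit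 0) (nat_lit 193851251949) (nat_lit 76) (nat_lit 19200748737) (nat_lit 76) (nat_lit 9683024392) (nat_lit 3) (nat_lit 4) (nat_lit 4) (nat_lit 5) (nat_lit 4) (nat_lit 4) (nat_lit 342) (nat_lit 219) (nat_lit 159))) (XT.nd (nat_lit 78) (nat_lit 0) (nat_lit 0) (XT.lf (nat_lit 0) (nat_lit 206412660810) (nat_lit 76) (nat_lit 18457497141) (nat_lit 76) (nat_lit 8914136719) (nat_lit 3) (nat_lit 4) (nat_lit 4) (nat_lit 5) (nat_lit 4) (nat_lit 4) (nat_lit 343) (nat_lit 219) (nat_lit 158)) (XT.lf (nat_lit 0) (nat_lit 219589212441) (nat_lit 76) (nat_lit 17682492623) (nat_lit 76) (nat_lit 8114716889) (nat_lit 3) (nat_lit 4) (nat_lit 4) (nat_lit 5) (nat_lit 4) (nat_lit 4) (nat_lit 344) (nat_lit 219) (nat_lit 157)))) (XT.nd (nat_lit 156) (nat_lit 0) (nat_lit 0) (XT.nd (nat_lit 78) (nat_lit 0) (nat_lit 0) (XT.lf (nat_lit 0) (nat_lit 233412279586) (nat_lit 76) (nat_lit 16873889933) (nat_lit 76) (nat_lit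 7282861522) (nat_lit 3) (nat_lit 4) (nat_lit 4) (nat_lit 5) (nat_lit 4) (nat_lit 4) (nat_lit 345) (nat_lit 219) (nat_lit 156)) (XT.lf (nat_lit 0) (nat_lit 247914774308) (nat_lit 76) (nat_lit 16029763828) (nat_lit 76) (nat_lit 6416590010) (nat_lit 3) (nat_lit 4) (nat_lit 4) (nat_lit 5) (nat_lit 4) (nat_lit 4) (nat_lit 346) (nat_lit 219) (nat_lit 155))) (XT.nd (nat_lit 78) (nat_lit 0) (nat_lit 0) (XT.lf (nat_lit 0) (nat_lit 263131226357) (nat_lit 76) (nat_lit 15148104483) (nat_lit 76) (nat_lit 5513839802) (nat_lit 3) (nat_lit 4) (nat_lit 4) (nat_lit 5) (nat_lit 4) (nat_lit 4) (nat_lit 347) (nat_lit 219) (nat_lit 154)) (XT.lf (nat_lit 0) (nat_lit 279097865380) (nat_lit 76) (nat_lit 14226812710) (nat_lit 76) (nat_lit 4572461491) (nat_lit 3) (nat_lit 4) (nat_lit 4) (nat_lit 5) (nat_lit 4) (nat_lit 4) (nat_lit 348) (nat_lit 219) (nat_lit 153)))))) (XT.nd (nat_lit 624) (nat_lit 76) (nat_lit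 0) (XT.nd (nat_lit 312) (nat_lit 76) (nat_lit 0) (XT.nd (nat_lit 156) (nat_lit 0) (nat_lit 0) (XT.nd (nat_lit 78) (nat_lit 0) (nat_lit 0) (XT.lf (nat_lit 0) (nat_lit 295852707185) (nat_lit 76) (nat_lit 13263694956) (nat_lit 76) (nat_lit 3590213702) (nat_lit 3) (nat_lit 4) (nat_lit 4) (nat_lit 5) (nat_lit 4) (nat_lit 4) (nat_lit 349) (nat_lit 219) (nat_lit 152)) (XT.lf (nat_lit 0) (nat_lit 313435644252) (nat_lit 76) (nat_lit 12256458084) (nat_lit 76) (nat_lit 2564757749) (nat_lit 3) (nat_lit 4) (nat_lit 4) (nat_lit 5) (nat_lit 4) (nat_lit 4) (nat_lit 350) (nat_lit 219) (nat_lit 151))) (XT.nd (nat_lit 78) (nat_lit 0) (nat_lit 0) (XT.lf (nat_lit 0) (nat_lit 331888540717) (nat_lit 76) (nat_lit 11202703911) (nat_lit 76) (nat_lit 1493652070) (nat_lit 3) (nat_lit 4) (nat_lit 4) (nat_lit 5) (nat_lit 4) (nat_lit 4) (nat_lit 351) (nat_lit 219) (nat_lit 150)) (XT.lf (nat_lit 0) (nat_lit 351255332048)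 (nat_lit 76) (nat_lit 10099923499) (nat_lit 76) (nat_lit 374346414) (nat_lit 3) (nat_lit 4) (nat_lit 4) (nat_lit 5) (nat_lit 4) (nat_lit 4) (nat_lit 352) (nat_lit 219) (nat_lit 149)))) (XT.nd (nat_lit 156) (nat_lit 0) (nat_lit 0) (XT.nd (nat_lit 78) (nat_lit 0) (nat_lit 0) (XT.lf (nat_lit 0) (nat_lit 770352886) (nat_lit 152) (nat_lit 8162091994) (nat_lit 76) (nat_lit 370798730468) (nat_lit 2) (nat_lit 5) (nat_lit 4) (nat_lit 5) (nat_lit 3) (nat_lit 4) (nat_lit 353) (nat_lit 219) (nat_lit 148)) (XT.lf (nat_lit 0) (nat_lit 1955004705) (nat_lit 152) (nat_lit 5748544648) (nat_lit 76) (nat_lit 390929217013) (nat_lit 2) (nat_lit 5) (nat_lit 4) (nat_lit 5) (nat_lit 3) (nat_lit 4) (nat_lit 354) (nat_lit 219) (nat_lit 147))) (XT.nd (nat_lit 78) (nat_lit 0) (nat_lit 0) (XT.lf (nat_lit 0) (nat_lit 3194411065) (nat_lit 152) (nat_lit 3222036739) (nat_lit 76) (nat_lit 412063223231) (nat_lit 2)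 (nat_lit 5) (nat_lit 4) (nat_lit 5) (nat_lit 3) (nat_lit 4) (nat_lit 355) (nat_lit 219) (nat_lit 146)) (XT.lf (nat_lit 0) (nat_lit 4491522932) (nat_lit 152) (nat_lit 576552770) (nat_lit 76) (nat_lit 434251068186) (nat_lit 2) (nat_lit 5) (nat_lit 4) (nat_lit 5) (nat_lit 3) (nat_lit 4) (nat_lit 356) (nat_lit 219) (nat_lit 145))))) (XT.nd (nat_lit 31668) (nat_lit 0) (nat_lit 760) (XT.nd (nat_lit 31512) (nat_lit 0) (nat_lit 1064) (XT.nd (nat_lit 78) (nat_lit 0) (nat_lit 0) (XT.lf (nat_lit 0) (nat_lit 2266756389) (nat_lit 76) (nat_lit 3618062699) (nat_lit 152) (nat_lit 455314214109) (nat_lit 1) (nat_lit 5) (nat_lit 2) (nat_lit 5) (nat_lit 3) (nat_lit 4) (nat_lit 357) (nat_lit 219) (nat_lit 144)) (XT.lf (nat_lit 0) (nat_lit 5265361142) (nat_lit 76) (nat_lit 2088207284) (nat_lit 152) (nat_lit 476819067935) (nat_lit 1) (nat_lit 5) (nat_lit 2) (nat_lit 5) (nat_lit 3) (nat_lit 4) (nat_lit 358)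 (nat_lit 219) (nat_lit 143))) (XT.nd (nat_lit 78) (nat_lit 0) (nat_lit 0) (XT.lf (nat_lit 0) (nat_lit 2066894592) (nat_lit 152) (nat_lit 2701202027) (nat_lit 0) (nat_lit 2066894592) (nat_lit 15) (nat_lit 5) (nat_lit 17) (nat_lit 4) (nat_lit 15) (nat_lit 4) (nat_lit 280) (nat_lit 220) (nat_lit 220)) (XT.lf (nat_lit 0) (nat_lit 7307603685) (nat_lit 152) (nat_lit 128215646) (nat_lit 0) (nat_lit 6725545091) (nat_lit 15) (nat_lit 5) (nat_lit 17) (nat_lit 4) (nat_lit 15) (nat_lit 4) (nat_lit 281) (nat_lit 220) (nat_lit 219)))) (XT.nd (nat_lit 156) (nat_lit 152) (nat_lit 0) (XT.nd (nat_lit 78) (nat_lit 0) (nat_lit 0) (XT.lf (nat_lit 0) (nat_lit 5408187595) (nat_lit 152) (nat_lit 5203677981) (nat_lit 152) (nat_lit 4067277869) (nat_lit 13) (nat_lit 4) (nat_lit 15) (nat_lit 5) (nat_lit 15) (nat_lit 4) (nat_lit 282) (nat_lit 220) (nat_lit 218)) (XT.lf (nat_lit 0) (nat_lit 11054087968) (nat_lit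 152) (nat_lit 2919427539) (nat_lit 152) (nat_lit 1255083124) (nat_lit 13) (nat_lit 4) (nat_lit 15) (nat_lit 5) (nat_lit 15) (nat_lit 4) (nat_lit 283) (nat_lit 220) (nat_lit 217))) (XT.nd (nat_lit 78) (nat_lit 0) (nat_lit 0) (XT.lf (nat_lit 0) (nat_lit 1015258769) (nat_lit 76) (nat_lit 537135026) (nat_lit 152) (nat_lit 14256716110) (nat_lit 11) (nat_lit 5) (nat_lit 12) (nat_lit 5) (nat_lit 13) (nat_lit 4) (nat_lit 284) (nat_lit 220) (nat_lit 216)) (XT.lf (nat_lit 0) (nat_lit 4455319724) (nat_lit 152) (nat_lit 10027466977) (nat_lit 0) (nat_lit 1935310621) (nat_lit 11) (nat_lit 5) (nat_lit 13) (nat_lit 4) (nat_lit 11) (nat_lit 4) (nat_lit 285) (nat_lit 220) (nat_lit 215))))))) (XT.nd (nat_lit 1248) (nat_lit 152) (nat_lit 0) (XT.nd (nat_lit 624) (nat_lit 152) (nat_lit 0) (XT.nd (nat_lit 312) (nat_lit 152) (nat_lit 0) (XT.nd (nat_lit 156) (nat_lit 152) (nat_lit 0) (XT.nd (nat_lit 78) (nat_lit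 0) (nat_lit 0) (XT.lf (nat_lit 0) (nat_lit 7411940356) (nat_lit 152) (nat_lit 5192901921) (nat_lit 0) (nat_lit 4457590168) (nat_lit 11) (nat_lit 5) (nat_lit 13) (nat_lit 4) (nat_lit 11) (nat_lit 4) (nat_lit 286) (nat_lit 220) (nat_lit 214)) (XT.lf (nat_lit 0) (nat_lit 10420909081) (nat_lit 152) (nat_lit 270258916) (nat_lit 0) (nat_lit 7052900717) (nat_lit 11) (nat_lit 5) (nat_lit 13) (nat_lit 4) (nat_lit 11) (nat_lit 4) (nat_lit 287) (nat_lit 220) (nat_lit 213))) (XT.nd (nat_lit 78) (nat_lit 0) (nat_lit 0) (XT.lf (nat_lit 0) (nat_lit 4909311235) (nat_lit 152) (nat_lit 8656726982) (nat_lit 152) (nat_lit 4894758451) (nat_lit 9) (nat_lit 4) (nat_lit 11) (nat_lit 5) (nat_lit 11) (nat_lit 4) (nat_lit 288) (nat_lit 220) (nat_lit 212)) (XT.lf (nat_lit 0) (nat_lit 10213269270) (nat_lit 152) (nat_lit 6570877837) (nat_lit 152) (nat_lit 2433709147) (nat_lit 9) (nat_lit 4) (nat_lit 11) (nat_lit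 5) (nat_lit 11) (nat_lit 4) (nat_lit 289) (nat_lit 220) (nat_lit 211)))) (XT.nd (nat_lit 156) (nat_lit 0) (nat_lit 0) (XT.nd (nat_lit 78) (nat_lit 76) (nat_lit 0) (XT.lf (nat_lit 0) (nat_lit 59309900) (nat_lit 228) (nat_lit 4372916879) (nat_lit 76) (nat_lit 15584993339) (nat_lit 8) (nat_lit 5) (nat_lit 11) (nat_lit 5) (nat_lit 9) (nat_lit 4) (nat_lit 290) (nat_lit 220) (nat_lit 210)) (XT.lf (nat_lit 0) (nat_lit 327369918) (nat_lit 76) (nat_lit 2190771398) (nat_lit 152) (nat_lit 18340511599) (nat_lit 7) (nat_lit 5) (nat_lit 8) (nat_lit 5) (nat_lit 9) (nat_lit 4) (nat_lit 291) (nat_lit 220) (nat_lit 209))) (XT.nd (nat_lit 78) (nat_lit 0) (nat_lit 0) (XT.lf (nat_lit 0) (nat_lit 5096629047) (nat_lit 152) (nat_lit 16462563395) (nat_lit 0) (nat_lit 183360680) (nat_lit 7) (nat_lit 5) (nat_lit 9) (nat_lit 4) (nat_lit 7) (nat_lit 4) (nat_lit 292) (nat_lit 220) (nat_lit 208)) (XT.lf (nat_lit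 0) (nat_lit 7762719387) (nat_lit 152) (nat_lit 12354743649) (nat_lit 0) (nat_lit 2555471878) (nat_lit 7) (nat_lit 5) (nat_lit 9) (nat_lit 4) (nat_lit 7) (nat_lit 4) (nat_lit 293) (nat_lit 220) (nat_lit 207))))) (XT.nd (nat_lit 312) (nat_lit 76) (nat_lit 0) (XT.nd (nat_lit 156) (nat_lit 76) (nat_lit 0) (XT.nd (nat_lit 78) (nat_lit 0) (nat_lit 0) (XT.lf (nat_lit 0) (nat_lit 10488556090) (nat_lit 152) (nat_lit 8163839152) (nat_lit 0) (nat_lit 5001328445) (nat_lit 7) (nat_lit 5) (nat_lit 9) (nat_lit 4) (nat_lit 7) (nat_lit 4) (nat_lit 294) (nat_lit 220) (nat_lit 206)) (XT.lf (nat_lit 0) (nat_lit 13280629243) (nat_lit 152) (nat_lit 3879871562) (nat_lit 0) (nat_lit 7526753850) (nat_lit 7) (nat_lit 5) (nat_lit 9) (nat_lit 4) (nat_lit 7) (nat_lit 4) (nat_lit 295) (nat_lit 220) (nat_lit 205))) (XT.nd (nat_lit 78) (nat_lit 0) (nat_lit 0) (XT.lf (nat_lit 0) (nat_lit 524134625) (nat_lit 76) (nat_lit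 15629635224) (nat_lit 76) (nat_lit 9621809594) (nat_lit 6) (nat_lit 4) (nat_lit 7) (nat_lit 5) (nat_lit 7) (nat_lit 4) (nat_lit 296) (nat_lit 220) (nat_lit 204)) (XT.lf (nat_lit 0) (nat_lit 5173895419) (nat_lit 76) (nat_lit 13997133193) (nat_lit 76) (nat_lit 7747450195) (nat_lit 6) (nat_lit 4) (nat_lit 7) (nat_lit 5) (nat_lit 7) (nat_lit 4) (nat_lit 297) (nat_lit 220) (nat_lit 203)))) (XT.nd (nat_lit 156) (nat_lit 76) (nat_lit 0) (XT.nd (nat_lit 78) (nat_lit 0) (nat_lit 0) (XT.lf (nat_lit 0) (nat_lit 9952195603) (nat_lit 76) (nat_lit 12324815306) (nat_lit 76) (nat_lit 5844791957) (nat_lit 6) (nat_lit 4) (nat_lit 7) (nat_lit 5) (nat_lit 7) (nat_lit 4) (nat_lit 298) (nat_lit 220) (nat_lit 202)) (XT.lf (nat_lit 0) (nat_lit 14870412081) (nat_lit 76) (nat_lit 10608699853) (nat_lit 76) (nat_lit 3909304742) (nat_lit 6) (nat_lit 4) (nat_lit 7) (nat_lit 5) (nat_lit 7) (nat_lit 4) (nat_lit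 299) (nat_lit 220) (nat_lit 201))) (XT.nd (nat_lit 78) (nat_lit 76) (nat_lit 0) (XT.lf (nat_lit 0) (nat_lit 19940254893) (nat_lit 76) (nat_lit 8844700845) (nat_lit 76) (nat_lit 1936380246) (nat_lit 6) (nat_lit 4) (nat_lit 7) (nat_lit 5) (nat_lit 7) (nat_lit 4) (nat_lit 300) (nat_lit 220) (nat_lit 200)) (XT.lf (nat_lit 0) (nat_lit 76160750) (nat_lit 152) (nat_lit 6951167715) (nat_lit 76) (nat_lit 25096344522) (nat_lit 5) (nat_lit 5) (nat_lit 7) (nat_lit 5) (nat_lit 6) (nat_lit 4) (nat_lit 301) (nat_lit 220) (nat_lit 199)))))) (XT.nd (nat_lit 624) (nat_lit 76) (nat_lit 0) (XT.nd (nat_lit 312) (nat_lit 0) (nat_lit 0) (XT.nd (nat_lit 156) (nat_lit 0) (nat_lit 0) (XT.nd (nat_lit 78) (nat_lit 76) (nat_lit 0) (XT.lf (nat_lit 0) (nat_lit 2072155834) (nat_lit 152) (nat_lit 3048879369) (nat_lit 76) (nat_lit 28476244694) (nat_lit 5) (nat_lit 5) (nat_lit 7) (nat_lit 5) (nat_lit 6) (nat_lit 4)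 (nat_lit 302) (nat_lit 220) (nat_lit 198)) (XT.lf (nat_lit 0) (nat_lit 997224852) (nat_lit 76) (nat_lit 3136678257) (nat_lit 152) (nat_lit 31012495334) (nat_lit 4) (nat_lit 5) (nat_lit 5) (nat_lit 5) (nat_lit 6) (nat_lit 4) (nat_lit 303) (nat_lit 220) (nat_lit 197))) (XT.nd (nat_lit 78) (nat_lit 0) (nat_lit 0) (XT.lf (nat_lit 0) (nat_lit 5269610722) (nat_lit 76) (nat_lit 1032228673) (nat_lit 152) (nat_lit 30471101213) (nat_lit 4) (nat_lit 5) (nat_lit 5) (nat_lit 5) (nat_lit 6) (nat_lit 4) (nat_lit 304) (nat_lit 220) (nat_lit 196)) (XT.lf (nat_lit 0) (nat_lit 8549838402) (nat_lit 152) (nat_lit 28823484448) (nat_lit 0) (nat_lit 1109020663) (nat_lit 4) (nat_lit 5) (nat_lit 6) (nat_lit 4) (nat_lit 4) (nat_lit 4) (nat_lit 305) (nat_lit 220) (nat_lit 195)))) (XT.nd (nat_lit 156) (nat_lit 0) (nat_lit 0) (XT.nd (nat_lit 78) (nat_lit 0) (nat_lit 0) (XT.lf (nat_lit 0) (nat_lit 10882666487)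 (nat_lit 152) (nat_lit 26102670675) (nat_lit 0) (nat_lit 3293369304) (nat_lit 4) (nat_lit 5) (nat_lit 6) (nat_lit 4) (nat_lit 4) (nat_lit 4) (nat_lit 306) (nat_lit 220) (nat_lit 194)) (XT.lf (nat_lit 0) (nat_lit 13289762021) (nat_lit 152) (nat_lit 23318294456) (nat_lit 0) (nat_lit 5559055845) (nat_lit 4) (nat_lit 5) (nat_lit 6) (nat_lit 4) (nat_lit 4) (nat_lit 4) (nat_lit 307) (nat_lit 220) (nat_lit 193))) (XT.nd (nat_lit 78) (nat_lit 0) (nat_lit 0) (XT.lf (nat_lit 0) (nat_lit 15776856185) (nat_lit 152) (nat_lit 20463726323) (nat_lit 0) (nat_lit 7911474776) (nat_lit 4) (nat_lit 5) (nat_lit 6) (nat_lit 4) (nat_lit 4) (nat_lit 4) (nat_lit 308) (nat_lit 220) (nat_lit 192)) (XT.lf (nat_lit 0) (nat_lit 18349870631) (nat_lit 152) (nat_lit 17532169687) (nat_lit 0) (nat_lit 10356227095) (nat_lit 4) (nat_lit 5) (nat_lit 6) (nat_lit 4) (nat_lit 4) (nat_lit 4) (nat_lit 309) (nat_lit 220) (nat_lit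 191))))) (XT.nd (nat_lit 312) (nat_lit 76) (nat_lit 0) (XT.nd (nat_lit 156) (nat_lit 0) (nat_lit 0) (XT.nd (nat_lit 78) (nat_lit 0) (nat_lit 0) (XT.lf (nat_lit 0) (nat_lit 21014931583) (nat_lit 152) (nat_lit 14516644649) (nat_lit 0) (nat_lit 12899133642) (nat_lit 4) (nat_lit 5) (nat_lit 6) (nat_lit 4) (nat_lit 4) (nat_lit 4) (nat_lit 310) (nat_lit 220) (nat_lit 190)) (XT.lf (nat_lit 0) (nat_lit 23778384426) (nat_lit 152) (nat_lit 11409971389) (nat_lit 0) (nat_lit 15546248955) (nat_lit 4) (nat_lit 5) (nat_lit 6) (nat_lit 4) (nat_lit 4) (nat_lit 4) (nat_lit 311) (nat_lit 220) (nat_lit 189))) (XT.nd (nat_lit 78) (nat_lit 0) (nat_lit 0) (XT.lf (nat_lit 0) (nat_lit 26646808808) (nat_lit 152) (nat_lit 8204753065) (nat_lit 0) (nat_lit 18303875690) (nat_lit 4) (nat_lit 5) (nat_lit 6) (nat_lit 4) (nat_lit 4) (nat_lit 4) (nat_lit 312) (nat_lit 220) (nat_lit 188)) (XT.lf (nat_lit 0) (nat_lit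 29627034311) (nat_lit 152) (nat_lit 4893358206) (nat_lit 0) (nat_lit 21178579625) (nat_lit 4) (nat_lit 5) (nat_lit 6) (nat_lit 4) (nat_lit 4) (nat_lit 4) (nat_lit 313) (nat_lit 220) (nat_lit 187)))) (XT.nd (nat_lit 156) (nat_lit 0) (nat_lit 0) (XT.nd (nat_lit 78) (nat_lit 76) (nat_lit 0) (XT.lf (nat_lit 0) (nat_lit 32726156711) (nat_lit 152) (nat_lit 1467902537) (nat_lit 0) (nat_lit 24177205294) (nat_lit 4) (nat_lit 5) (nat_lit 6) (nat_lit 4) (nat_lit 4) (nat_lit 4) (nat_lit 314) (nat_lit 220) (nat_lit 186)) (XT.lf (nat_lit 0) (nat_lit 2148536368) (nat_lit 76) (nat_lit 33836563176) (nat_lit 76) (nat_lit 25191900585) (nat_lit 3) (nat_lit 4) (nat_lit 4) (nat_lit 5) (nat_lit 4) (nat_lit 4) (nat_lit 315) (nat_lit 220) (nat_lit 185))) (XT.nd (nat_lit 78) (nat_lit 0) (nat_lit 0) (XT.lf (nat_lit 0) (nat_lit 5948494582) (nat_lit 76) (nat_lit 33455286398) (nat_lit 76) (nat_lit 24719470309)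 (nat_lit 3) (nat_lit 4) (nat_lit 4) (nat_lit 5) (nat_lit 4) (nat_lit 4) (nat_lit 316) (nat_lit 220) (nat_lit 184)) (XT.lf (nat_lit 0) (nat_lit 9892484135) (nat_lit 76) (nat_lit 33074180753) (nat_lit 76) (nat_lit 24251551807) (nat_lit 3) (nat_lit 4) (nat_lit 4) (nat_lit 5) (nat_lit 4) (nat_lit 4) (nat_lit 317) (nat_lit 220) (nat_lit 183))))))))
noncomputable def xc41 : XT := (XT.nd (nat_lit 1248) (nat_lit 0) (nat_lit 0) (XT.nd (nat_lit 624) (nat_lit 0) (nat_lit 0) (XT.nd (nat_lit 312) (nat_lit 0) (nat_lit 0) (XT.nd (nat_lit 156) (nat_lit 0) (nat_lit 0) (XT.nd (nat_lit 78) (nat_lit 0) (nat_lit 0) (XT.lf (nat_lit 0) (nat_lit 13989895479) (nat_lit 76) (nat_lit 32692338845) (nat_lit 76) (nat_lit 23787030990) (nat_lit 3) (nat_lit 4) (nat_lit 4) (nat_lit 5) (nat_lit 4) (nat_lit 4) (nat_lit 318) (nat_lit 220) (nat_lit 182)) (XT.lf (nat_lit 0) (nat_lit 18250484356) (nat_lit 76) (nat_lit 32308851529)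 (nat_lit 76) (nat_lit 23324801854) (nat_lit 3) (nat_lit 4) (nat_lit 4) (nat_lit 5) (nat_lit 4) (nat_lit 4) (nat_lit 319) (nat_lit 220) (nat_lit 181))) (XT.nd (nat_lit 78) (nat_lit 0) (nat_lit 0) (XT.lf (nat_lit 0) (nat_lit 22684395024) (nat_lit 76) (nat_lit 31922805738) (nat_lit 76) (nat_lit 22863763854) (nat_lit 3) (nat_lit 4) (nat_lit 4) (nat_lit 5) (nat_lit 4) (nat_lit 4) (nat_lit 320) (nat_lit 220) (nat_lit 180)) (XT.lf (nat_lit 0) (nat_lit 27302184414) (nat_lit 76) (nat_lit 31533282316) (nat_lit 76) (nat_lit 22402819281) (nat_lit 3) (nat_lit 4) (nat_lit 4) (nat_lit 5) (nat_lit 4) (nat_lit 4) (nat_lit 321) (nat_lit 220) (nat_lit 179)))) (XT.nd (nat_lit 156) (nat_lit 0) (nat_lit 0) (XT.nd (nat_lit 78) (nat_lit 0) (nat_lit 0) (XT.lf (nat_lit 0) (nat_lit 32114847262) (nat_lit 76) (nat_lit 31139353826) (nat_lit 76) (nat_lit 21940870648) (nat_lit 3) (nat_lit 4) (nat_lit 4) (nat_lit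 5) (nat_lit 4) (nat_lit 4) (nat_lit 322) (nat_lit 220) (nat_lit 178)) (XT.lf (nat_lit 0) (nat_lit 37133842289) (nat_lit 76) (nat_lit 30740082344) (nat_lit 76) (nat_lit 21476818076) (nat_lit 3) (nat_lit 4) (nat_lit 4) (nat_lit 5) (nat_lit 4) (nat_lit 4) (nat_lit 323) (nat_lit 220) (nat_lit 177))) (XT.nd (nat_lit 78) (nat_lit 0) (nat_lit 0) (XT.lf (nat_lit 0) (nat_lit 42371119484) (nat_lit 76) (nat_lit 30334517223) (nat_lit 76) (nat_lit 21009556679) (nat_lit 3) (nat_lit 4) (nat_lit 4) (nat_lit 5) (nat_lit 4) (nat_lit 4) (nat_lit 324) (nat_lit 220) (nat_lit 176)) (XT.lf (nat_lit 0) (nat_lit 47839148555) (nat_lit 76) (nat_lit 29921692831) (nat_lit 76) (nat_lit 20537973930) (nat_lit 3) (nat_lit 4) (nat_lit 4) (nat_lit 5) (nat_lit 4) (nat_lit 4) (nat_lit 325) (nat_lit 220) (nat_lit 175))))) (XT.nd (nat_lit 312) (nat_lit 0) (nat_lit 0) (XT.nd (nat_lit 156) (nat_lit 0) (nat_lit 0) (XT.nd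 (nat_lit 78) (nat_lit 0) (nat_lit 0) (XT.lf (nat_lit 0) (nat_lit 53550948617) (nat_lit 76) (nat_lit 29500626255) (nat_lit 76) (nat_lit 20060947012) (nat_lit 3) (nat_lit 4) (nat_lit 4) (nat_lit 5) (nat_lit 4) (nat_lit 4) (nat_lit 326) (nat_lit 220) (nat_lit 174)) (XT.lf (nat_lit 0) (nat_lit 59520119195) (nat_lit 76) (nat_lit 29070314953) (nat_lit 76) (nat_lit 19577340148) (nat_lit 3) (nat_lit 4) (nat_lit 4) (nat_lit 5) (nat_lit 4) (nat_lit 4) (nat_lit 327) (nat_lit 220) (nat_lit 173))) (XT.nd (nat_lit 78) (nat_lit 0) (nat_lit 0) (XT.lf (nat_lit 0) (nat_lit 65760872600) (nat_lit 76) (nat_lit 28629734375) (nat_lit 76) (nat_lit 19086001892) (nat_lit 3) (nat_lit 4) (nat_lit 4) (nat_lit 5) (nat_lit 4) (nat_lit 4) (nat_lit 328) (nat_lit 220) (nat_lit 172)) (XT.lf (nat_lit 0) (nat_lit 72288067769) (nat_lit 76) (nat_lit 28177835521) (nat_lit 76) (nat_lit 18585762391) (nat_lit 3) (nat_lit 4)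 (nat_lit 4) (nat_lit 5) (nat_lit 4) (nat_lit 4) (nat_lit 329) (nat_lit 220) (nat_lit 171)))) (XT.nd (nat_lit 156) (nat_lit 0) (nat_lit 0) (XT.nd (nat_lit 78) (nat_lit 0) (nat_lit 0) (XT.lf (nat_lit 0) (nat_lit 79117245642) (nat_lit 76) (nat_lit 27713542440) (nat_lit 76) (nat_lit 18075430599) (nat_lit 3) (nat_lit 4) (nat_lit 4) (nat_lit 5) (nat_lit 4) (nat_lit 4) (nat_lit 330) (nat_lit 220) (nat_lit 170)) (XT.lf (nat_lit 0) (nat_lit 86264666167) (nat_lit 76) (nat_lit 27235749672) (nat_lit 76) (nat_lit 17553791440) (nat_lit 3) (nat_lit 4) (nat_lit 4) (nat_lit 5) (nat_lit 4) (nat_lit 4) (nat_lit 331) (nat_lit 220) (nat_lit 169))) (XT.nd (nat_lit 78) (nat_lit 0) (nat_lit 0) (XT.lf (nat_lit 0) (nat_lit 93747347011) (nat_lit 76) (nat_lit 26743319616) (nat_lit 76) (nat_lit 17019602916) (nat_lit 3) (nat_lit 4) (nat_lit 4) (nat_lit 5) (nat_lit 4) (nat_lit 4) (nat_lit 332) (nat_lit 220) (nat_lit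 168)) (XT.lf (nat_lit 0) (nat_lit 101583104082) (nat_lit 76) (nat_lit 26235079820) (nat_lit 76) (nat_lit 16471593150) (nat_lit 3) (nat_lit 4) (nat_lit 4) (nat_lit 5) (nat_lit 4) (nat_lit 4) (nat_lit 333) (nat_lit 220) (nat_lit 167)))))) (XT.nd (nat_lit 624) (nat_lit 0) (nat_lit 0) (XT.nd (nat_lit 312) (nat_lit 0) (nat_lit 0) (XT.nd (nat_lit 156) (nat_lit 0) (nat_lit 0) (XT.nd (nat_lit 78) (nat_lit 0) (nat_lit 0) (XT.lf (nat_lit 0) (nat_lit 109790593944) (nat_lit 76) (nat_lit 25709820188) (nat_lit 76) (nat_lit 15908457357) (nat_lit 3) (nat_lit 4) (nat_lit 4) (nat_lit 5) (nat_lit 4) (nat_lit 4) (nat_lit 334) (nat_lit 220) (nat_lit 166)) (XT.lf (nat_lit 0) (nat_lit 118389358239) (nat_lit 76) (nat_lit 25166290102) (nat_lit 76) (nat_lit 15328854737) (nat_lit 3) (nat_lit 4) (nat_lit 4) (nat_lit 5) (nat_lit 4) (nat_lit 4) (nat_lit 335) (nat_lit 220) (nat_lit 165))) (XT.nd (nat_lit 78) (nat_lit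 0) (nat_lit 0) (XT.lf (nat_lit 0) (nat_lit 127399870216) (nat_lit 76) (nat_lit 24603195443) (nat_lit 76) (nat_lit 14731405283) (nat_lit 3) (nat_lit 4) (nat_lit 4) (nat_lit 5) (nat_lit 4) (nat_lit 4) (nat_lit 336) (nat_lit 220) (nat_lit 164)) (XT.lf (nat_lit 0) (nat_lit 136843583474) (nat_lit 76) (nat_lit 24019195510) (nat_lit 76) (nat_lit 14114686498) (nat_lit 3) (nat_lit 4) (nat_lit 4) (nat_lit 5) (nat_lit 4) (nat_lit 4) (nat_lit 337) (nat_lit 220) (nat_lit 163)))) (XT.nd (nat_lit 156) (nat_lit 0) (nat_lit 0) (XT.nd (nat_lit 78) (nat_lit 0) (nat_lit 0) (XT.lf (nat_lit 0) (nat_lit 146742983046) (nat_lit 76) (nat_lit 23412899826) (nat_lit 76) (nat_lit 13477230002) (nat_lit 3) (nat_lit 4) (nat_lit 4) (nat_lit 5) (nat_lit 4) (nat_lit 4) (nat_lit 338) (nat_lit 220) (nat_lit 162)) (XT.lf (nat_lit 0) (nat_lit 157121638930) (nat_lit 76) (nat_lit 22782864831) (nat_lit 76) (nat_lit 12817518044)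 (nat_lit 3) (nat_lit 4) (nat_lit 4) (nat_lit 5) (nat_lit 4) (nat_lit 4) (nat_lit 339) (nat_lit 220) (nat_lit 161))) (XT.nd (nat_lit 78) (nat_lit 0) (nat_lit 0) (XT.lf (nat_lit 0) (nat_lit 168004262212) (nat_lit 76) (nat_lit 22127590441) (nat_lit 76) (nat_lit 12133979878) (nat_lit 3) (nat_lit 4) (nat_lit 4) (nat_lit 5) (nat_lit 4) (nat_lit 4) (nat_lit 340) (nat_lit 220) (nat_lit 160)) (XT.lf (nat_lit 0) (nat_lit 179416763899) (nat_lit 76) (nat_lit 21445516478) (nat_lit 76) (nat_lit 11424988035) (nat_lit 3) (nat_lit 4) (nat_lit 4) (nat_lit 5) (nat_lit 4) (nat_lit 4) (nat_lit 341) (nat_lit 220) (nat_lit 159))))) (XT.nd (nat_lit 312) (nat_lit 0) (nat_lit 0) (XT.nd (nat_lit 156) (nat_lit 0) (nat_lit 0) (XT.nd (nat_lit 78) (nat_lit 0) (nat_lit 0) (XT.lf (nat_lit 0) (nat_lit 191386316615) (nat_lit 76) (nat_lit 20735018958) (nat_lit 76) (nat_lit 10688854438) (nat_lit 3) (nat_lit 4) (nat_lit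 4) (nat_lit 5) (nat_lit 4) (nat_lit 4) (nat_lit 342) (nat_lit 220) (nat_lit 158)) (XT.lf (nat_lit 0) (nat_lit 203941419294) (nat_lit 76) (nat_lit 19994406220) (nat_lit 76) (nat_lit 9923826388) (nat_lit 3) (nat_lit 4) (nat_lit 4) (nat_lit 5) (nat_lit 4) (nat_lit 4) (nat_lit 343) (nat_lit 220) (nat_lit 157))) (XT.nd (nat_lit 78) (nat_lit 0) (nat_lit 0) (XT.lf (nat_lit 0) (nat_lit 217111965039) (nat_lit 76) (nat_lit 19221914899) (nat_lit 76) (nat_lit 9128082390) (nat_lit 3) (nat_lit 4) (nat_lit 4) (nat_lit 5) (nat_lit 4) (nat_lit 4) (nat_lit 344) (nat_lit 220) (nat_lit 156)) (XT.lf (nat_lit 0) (nat_lit 230929312290) (nat_lit 76) (nat_lit 18415705731) (nat_lit 76) (nat_lit 8299727815) (nat_lit 3) (nat_lit 4) (nat_lit 4) (nat_lit 5) (nat_lit 4) (nat_lit 4) (nat_lit 345) (nat_lit 220) (nat_lit 155)))) (XT.nd (nat_lit 156) (nat_lit 0) (nat_lit 0) (XT.nd (nat_lit 78) (nat_lit 0) (nat_lit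 0) (XT.lf (nat_lit 0) (nat_lit 245426359496) (nat_lit 76) (nat_lit 17573859170) (nat_lit 76) (nat_lit 7436790390) (nat_lit 3) (nat_lit 4) (nat_lit 4) (nat_lit 5) (nat_lit 4) (nat_lit 4) (nat_lit 346) (nat_lit 220) (nat_lit 154)) (XT.lf (nat_lit 0) (nat_lit 260637623433) (nat_lit 76) (nat_lit 16694370820) (nat_lit 76) (nat_lit 6537215503) (nat_lit 3) (nat_lit 4) (nat_lit 4) (nat_lit 5) (nat_lit 4) (nat_lit 4) (nat_lit 347) (nat_lit 220) (nat_lit 153))) (XT.nd (nat_lit 78) (nat_lit 0) (nat_lit 0) (XT.lf (nat_lit 0) (nat_lit 276599321398) (nat_lit 76) (nat_lit 15775146660) (nat_lit 76) (nat_lit 5598861308) (nat_lit 3) (nat_lit 4) (nat_lit 4) (nat_lit 5) (nat_lit 4) (nat_lit 4) (nat_lit 348) (nat_lit 220) (nat_lit 152)) (XT.lf (nat_lit 0) (nat_lit 293349457433) (nat_lit 76) (nat_lit 14813998062) (nat_lit 76) (nat_lit 4619493629) (nat_lit 3) (nat_lit 4) (nat_lit 4) (nat_lit 5) (nat_lit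 4) (nat_lit 4) (nat_lit 349) (nat_lit 220) (nat_lit 151)))))))
noncomputable def xc42 : XT := (XT.nd (nat_lit 32448) (nat_lit 0) (nat_lit 380) (XT.nd (nat_lit 624) (nat_lit 76) (nat_lit 0) (XT.nd (nat_lit 312) (nat_lit 76) (nat_lit 0) (XT.nd (nat_lit 156) (nat_lit 0) (nat_lit 0) (XT.nd (nat_lit 78) (nat_lit 0) (nat_lit 0) (XT.lf (nat_lit 0) (nat_lit 310927912815) (nat_lit 76) (nat_lit 13808636577) (nat_lit 76) (nat_lit 3596780638) (nat_lit 3) (nat_lit 4) (nat_lit 4) (nat_lit 5) (nat_lit 4) (nat_lit 4) (nat_lit 350) (nat_lit 220) (nat_lit 150)) (XT.lf (nat_lit 0) (nat_lit 329376541008) (nat_lit 76) (nat_lit 12756668487) (nat_lit 76) (nat_lit 2528287304) (nat_lit 3) (nat_lit 4) (nat_lit 4) (nat_lit 5) (nat_lit 4) (nat_lit 4) (nat_lit 351) (nat_lit 220) (nat_lit 149))) (XT.nd (nat_lit 78) (nat_lit 0) (nat_lit 0) (XT.lf (nat_lit 0) (nat_lit 348739267319) (nat_lit 76) (nat_lit 11655589105)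 (nat_lit 76) (nat_lit 1411469595) (nat_lit 3) (nat_lit 4) (nat_lit 4) (nat_lit 5) (nat_lit 4) (nat_lit 4) (nat_lit 352) (nat_lit 220) (nat_lit 148)) (XT.lf (nat_lit 0) (nat_lit 369062193475) (nat_lit 76) (nat_lit 10502776815) (nat_lit 76) (nat_lit 243668422) (nat_lit 3) (nat_lit 4) (nat_lit 4) (nat_lit 5) (nat_lit 4) (nat_lit 4) (nat_lit 353) (nat_lit 220) (nat_lit 147)))) (XT.nd (nat_lit 156) (nat_lit 0) (nat_lit 0) (XT.nd (nat_lit 78) (nat_lit 0) (nat_lit 0) (XT.lf (nat_lit 0) (nat_lit 946597893) (nat_lit 152) (nat_lit 8332857839) (nat_lit 76) (nat_lit 389431078411) (nat_lit 2) (nat_lit 5) (nat_lit 4) (nat_lit 5) (nat_lit 3) (nat_lit 4) (nat_lit 354) (nat_lit 220) (nat_lit 146)) (XT.lf (nat_lit 0) (nat_lit 2183923857) (nat_lit 152) (nat_lit 5809934971) (nat_lit 76) (nat_lit 410563688739) (nat_lit 2) (nat_lit 5) (nat_lit 4) (nat_lit 5) (nat_lit 3) (nat_lit 4) (nat_lit 355) (nat_lit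 220) (nat_lit 145))) (XT.nd (nat_lit 78) (nat_lit 0) (nat_lit 0) (XT.lf (nat_lit 0) (nat_lit 3479054395) (nat_lit 152) (nat_lit 3167865328) (nat_lit 76) (nat_lit 432750204275) (nat_lit 2) (nat_lit 5) (nat_lit 4) (nat_lit 5) (nat_lit 3) (nat_lit 4) (nat_lit 356) (nat_lit 220) (nat_lit 144)) (XT.lf (nat_lit 0) (nat_lit 4835073152) (nat_lit 152) (nat_lit 400358268) (nat_lit 76) (nat_lit 456043450054) (nat_lit 2) (nat_lit 5) (nat_lit 4) (nat_lit 5) (nat_lit 3) (nat_lit 4) (nat_lit 357) (nat_lit 220) (nat_lit 143))))) (XT.nd (nat_lit 31512) (nat_lit 0) (nat_lit 760) (XT.nd (nat_lit 31356) (nat_lit 0) (nat_lit 1064) (XT.nd (nat_lit 31278) (nat_lit 0) (nat_lit 1216) (XT.lf (nat_lit 0) (nat_lit 2581809540) (nat_lit 76) (nat_lit 3713708485) (nat_lit 152) (nat_lit 477957385929) (nat_lit 1) (nat_lit 5) (nat_lit 2) (nat_lit 5) (nat_lit 3) (nat_lit 4) (nat_lit 358) (nat_lit 220) (nat_lit 142))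 (XT.lf (nat_lit 0) (nat_lit 4972297465) (nat_lit 152) (nat_lit 705525138) (nat_lit 152) (nat_lit 705525138) (nat_lit 17) (nat_lit 4) (nat_lit 19) (nat_lit 5) (nat_lit 19) (nat_lit 4) (nat_lit 278) (nat_lit 221) (nat_lit 221))) (XT.nd (nat_lit 78) (nat_lit 0) (nat_lit 0) (XT.lf (nat_lit 0) (nat_lit 1609589932) (nat_lit 152) (nat_lit 10600030995) (nat_lit 0) (nat_lit 998428408) (nat_lit 15) (nat_lit 5) (nat_lit 17) (nat_lit 4) (nat_lit 15) (nat_lit 4) (nat_lit 279) (nat_lit 221) (nat_lit 220)) (XT.lf (nat_lit 0) (nat_lit 4687236408) (nat_lit 152) (nat_lit 5491828386) (nat_lit 0) (nat_lit 3494016291) (nat_lit 15) (nat_lit 5) (nat_lit 17) (nat_lit 4) (nat_lit 15) (nat_lit 4) (nat_lit 280) (nat_lit 221) (nat_lit 219)))) (XT.nd (nat_lit 156) (nat_lit 152) (nat_lit 0) (XT.nd (nat_lit 78) (nat_lit 152) (nat_lit 0) (XT.lf (nat_lit 0) (nat_lit 7806084910) (nat_lit 152) (nat_lit 302806009) (nat_lit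 0) (nat_lit 6058523274) (nat_lit 15) (nat_lit 5) (nat_lit 17) (nat_lit 4) (nat_lit 15) (nat_lit 4) (nat_lit 281) (nat_lit 221) (nat_lit 218)) (XT.lf (nat_lit 0) (nat_lit 5144032101) (nat_lit 152) (nat_lit 5909841922) (nat_lit 152) (nat_lit 3634335983) (nat_lit 13) (nat_lit 4) (nat_lit 15) (nat_lit 5) (nat_lit 15) (nat_lit 4) (nat_lit 282) (nat_lit 221) (nat_lit 217))) (XT.nd (nat_lit 78) (nat_lit 152) (nat_lit 0) (XT.lf (nat_lit 0) (nat_lit 10710130202) (nat_lit 152) (nat_lit 3654292032) (nat_lit 152) (nat_lit 875981996) (nat_lit 13) (nat_lit 4) (nat_lit 15) (nat_lit 5) (nat_lit 15) (nat_lit 4) (nat_lit 283) (nat_lit 221) (nat_lit 216)) (XT.lf (nat_lit 0) (nat_lit 561234774) (nat_lit 76) (nat_lit 1301402228) (nat_lit 152) (nat_lit 13960985627) (nat_lit 11) (nat_lit 5) (nat_lit 12) (nat_lit 5) (nat_lit 13) (nat_lit 4) (nat_lit 284) (nat_lit 221) (nat_lit 215)))))) (XT.nd (nat_lit 624)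 (nat_lit 76) (nat_lit 0) (XT.nd (nat_lit 312) (nat_lit 152) (nat_lit 0) (XT.nd (nat_lit 156) (nat_lit 152) (nat_lit 0) (XT.nd (nat_lit 78) (nat_lit 0) (nat_lit 0) (XT.lf (nat_lit 0) (nat_lit 4704724683) (nat_lit 152) (nat_lit 10562770279) (nat_lit 0) (nat_lit 1168315901) (nat_lit 11) (nat_lit 5) (nat_lit 13) (nat_lit 4) (nat_lit 11) (nat_lit 4) (nat_lit 285) (nat_lit 221) (nat_lit 214)) (XT.lf (nat_lit 0) (nat_lit 7614768272) (nat_lit 152) (nat_lit 5803156591) (nat_lit 0) (nat_lit 3664701314) (nat_lit 11) (nat_lit 5) (nat_lit 13) (nat_lit 4) (nat_lit 11) (nat_lit 4) (nat_lit 286) (nat_lit 221) (nat_lit 213))) (XT.nd (nat_lit 78) (nat_lit 152) (nat_lit 0) (XT.lf (nat_lit 0) (nat_lit 10579377908) (nat_lit 152) (nat_lit 951895840) (nat_lit 0) (nat_lit 6235350783) (nat_lit 11) (nat_lit 5) (nat_lit 13) (nat_lit 4) (nat_lit 11) (nat_lit 4) (nat_lit 287) (nat_lit 221) (nat_lit 212)) (XT.lf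 (nat_lit 0) (nat_lit 4134905387) (nat_lit 152) (nat_lit 9535264261) (nat_lit 152) (nat_lit 4816036977) (nat_lit 9) (nat_lit 4) (nat_lit 11) (nat_lit 5) (nat_lit 11) (nat_lit 4) (nat_lit 288) (nat_lit 221) (nat_lit 211)))) (XT.nd (nat_lit 156) (nat_lit 76) (nat_lit 0) (XT.nd (nat_lit 78) (nat_lit 76) (nat_lit 0) (XT.lf (nat_lit 0) (nat_lit 9371976824) (nat_lit 152) (nat_lit 7475022426) (nat_lit 152) (nat_lit 2398461657) (nat_lit 9) (nat_lit 4) (nat_lit 11) (nat_lit 5) (nat_lit 11) (nat_lit 4) (nat_lit 289) (nat_lit 221) (nat_lit 210)) (XT.lf (nat_lit 0) (nat_lit 53350635) (nat_lit 228) (nat_lit 5307509570) (nat_lit 76) (nat_lit 14686059558) (nat_lit 8) (nat_lit 5) (nat_lit 11) (nat_lit 5) (nat_lit 9) (nat_lit 4) (nat_lit 290) (nat_lit 221) (nat_lit 209))) (XT.nd (nat_lit 78) (nat_lit 76) (nat_lit 0) (XT.lf (nat_lit 0) (nat_lit 2468900780) (nat_lit 228) (nat_lit 679743778) (nat_lit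 76) (nat_lit 17741984996) (nat_lit 8) (nat_lit 5) (nat_lit 11) (nat_lit 5) (nat_lit 9) (nat_lit 4) (nat_lit 291) (nat_lit 221) (nat_lit 208)) (XT.lf (nat_lit 0) (nat_lit 4192463505) (nat_lit 76) (nat_lit 803698437) (nat_lit 152) (nat_lit 16781036701) (nat_lit 7) (nat_lit 5) (nat_lit 8) (nat_lit 5) (nat_lit 9) (nat_lit 4) (nat_lit 292) (nat_lit 221) (nat_lit 207))))) (XT.nd (nat_lit 312) (nat_lit 76) (nat_lit 0) (XT.nd (nat_lit 156) (nat_lit 0) (nat_lit 0) (XT.nd (nat_lit 78) (nat_lit 0) (nat_lit 0) (XT.lf (nat_lit 0) (nat_lit 7613822272) (nat_lit 152) (nat_lit 13524028986) (nat_lit 0) (nat_lit 1572253109) (nat_lit 7) (nat_lit 5) (nat_lit 9) (nat_lit 4) (nat_lit 7) (nat_lit 4) (nat_lit 293) (nat_lit 221) (nat_lit 206)) (XT.lf (nat_lit 0) (nat_lit 10305485616) (nat_lit 152) (nat_lit 9389945042) (nat_lit 0) (nat_lit 3997268705) (nat_lit 7) (nat_lit 5) (nat_lit 9) (nat_lit 4) (nat_lit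 7) (nat_lit 4) (nat_lit 294) (nat_lit 221) (nat_lit 205))) (XT.nd (nat_lit 78) (nat_lit 0) (nat_lit 0) (XT.lf (nat_lit 0) (nat_lit 13065012714) (nat_lit 152) (nat_lit 5160092263) (nat_lit 0) (nat_lit 6502845566) (nat_lit 7) (nat_lit 5) (nat_lit 9) (nat_lit 4) (nat_lit 7) (nat_lit 4) (nat_lit 295) (nat_lit 221) (nat_lit 204)) (XT.lf (nat_lit 0) (nat_lit 15898973866) (nat_lit 152) (nat_lit 824399571) (nat_lit 0) (nat_lit 9094949350) (nat_lit 7) (nat_lit 5) (nat_lit 9) (nat_lit 4) (nat_lit 7) (nat_lit 4) (nat_lit 296) (nat_lit 221) (nat_lit 203)))) (XT.nd (nat_lit 156) (nat_lit 0) (nat_lit 0) (XT.nd (nat_lit 78) (nat_lit 0) (nat_lit 0) (XT.lf (nat_lit 0) (nat_lit 3747396190) (nat_lit 76) (nat_lit 15125227767) (nat_lit 76) (nat_lit 8090862900) (nat_lit 6) (nat_lit 4) (nat_lit 7) (nat_lit 5) (nat_lit 7) (nat_lit 4) (nat_lit 297) (nat_lit 221) (nat_lit 202)) (XT.lf (nat_lit 0) (nat_lit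 8477404318) (nat_lit 76) (nat_lit 13472333455) (nat_lit 76) (nat_lit 6218596825) (nat_lit 6) (nat_lit 4) (nat_lit 7) (nat_lit 5) (nat_lit 7) (nat_lit 4) (nat_lit 298) (nat_lit 221) (nat_lit 201))) (XT.nd (nat_lit 78) (nat_lit 0) (nat_lit 0) (XT.lf (nat_lit 0) (nat_lit 13349628361) (nat_lit 76) (nat_lit 11774716644) (nat_lit 76) (nat_lit 4312054527) (nat_lit 6) (nat_lit 4) (nat_lit 7) (nat_lit 5) (nat_lit 7) (nat_lit 4) (nat_lit 299) (nat_lit 221) (nat_lit 200)) (XT.nd (nat_lit 78) (nat_lit 0) (nat_lit 0) (XT.lf (nat_lit 0) (nat_lit 18375668855) (nat_lit 76) (nat_lit 10028335392) (nat_lit 76) (nat_lit 2366696619) (nat_lit 6) (nat_lit 4) (nat_lit 7) (nat_lit 5) (nat_lit 7) (nat_lit 4) (nat_lit 300) (nat_lit 221) (nat_lit 199)) (XT.lf (nat_lit 0) (nat_lit 23567492561) (nat_lit 76) (nat_lit 8229031645) (nat_lit 76) (nat_lit 377891296) (nat_lit 6) (nat_lit 4) (nat_lit 7) (nat_lit 5) (nat_lit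 7) (nat_lit 4) (nat_lit 301) (nat_lit 221) (nat_lit 198))))))))
noncomputable def xc43 : XT := (XT.nd (nat_lit 1248) (nat_lit 0) (nat_lit 0) (XT.nd (nat_lit 624) (nat_lit 76) (nat_lit 0) (XT.nd (nat_lit 312) (nat_lit 0) (nat_lit 0) (XT.nd (nat_lit 156) (nat_lit 76) (nat_lit 0) (XT.nd (nat_lit 78) (nat_lit 0) (nat_lit 0) (XT.lf (nat_lit 0) (nat_lit 1605995235) (nat_lit 152) (nat_lit 4739327807) (nat_lit 76) (nat_lit 27304267423) (nat_lit 5) (nat_lit 5) (nat_lit 7) (nat_lit 5) (nat_lit 6) (nat_lit 4) (nat_lit 302) (nat_lit 221) (nat_lit 197)) (XT.lf (nat_lit 0) (nat_lit 3629122147) (nat_lit 152) (nat_lit 763801154) (nat_lit 76) (nat_lit 30807776618) (nat_lit 5) (nat_lit 5) (nat_lit 7) (nat_lit 5) (nat_lit 6) (nat_lit 4) (nat_lit 303) (nat_lit 221) (nat_lit 196))) (XT.nd (nat_lit 78) (nat_lit 0) (nat_lit 0) (XT.lf (nat_lit 0) (nat_lit 3445293405) (nat_lit 76) (nat_lit 2316898569) (nat_lit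 152) (nat_lit 31066850470) (nat_lit 4) (nat_lit 5) (nat_lit 5) (nat_lit 5) (nat_lit 6) (nat_lit 4) (nat_lit 304) (nat_lit 221) (nat_lit 195)) (XT.lf (nat_lit 0) (nat_lit 7817098221) (nat_lit 76) (nat_lit 153731915) (nat_lit 152) (nat_lit 30569637577) (nat_lit 4) (nat_lit 5) (nat_lit 5) (nat_lit 5) (nat_lit 6) (nat_lit 4) (nat_lit 305) (nat_lit 221) (nat_lit 194)))) (XT.nd (nat_lit 156) (nat_lit 0) (nat_lit 0) (XT.nd (nat_lit 78) (nat_lit 0) (nat_lit 0) (XT.lf (nat_lit 0) (nat_lit 10280587814) (nat_lit 152) (nat_lit 28035510774) (nat_lit 0) (nat_lit 2021937334) (nat_lit 4) (nat_lit 5) (nat_lit 6) (nat_lit 4) (nat_lit 4) (nat_lit 4) (nat_lit 306) (nat_lit 221) (nat_lit 193)) (XT.lf (nat_lit 0) (nat_lit 12667997423) (nat_lit 152) (nat_lit 25284806212) (nat_lit 0) (nat_lit 4274671711) (nat_lit 4) (nat_lit 5) (nat_lit 6) (nat_lit 4) (nat_lit 4) (nat_lit 4) (nat_lit 307) (nat_lit 221) (nat_lit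 192))) (XT.nd (nat_lit 78) (nat_lit 0) (nat_lit 0) (XT.lf (nat_lit 0) (nat_lit 15136343086) (nat_lit 152) (nat_lit 22462306325) (nat_lit 0) (nat_lit 6614755248) (nat_lit 4) (nat_lit 5) (nat_lit 6) (nat_lit 4) (nat_lit 4) (nat_lit 4) (nat_lit 308) (nat_lit 221) (nat_lit 191)) (XT.lf (nat_lit 0) (nat_lit 17691501817) (nat_lit 152) (nat_lit 19561290874) (nat_lit 0) (nat_lit 9047759573) (nat_lit 4) (nat_lit 5) (nat_lit 6) (nat_lit 4) (nat_lit 4) (nat_lit 4) (nat_lit 309) (nat_lit 221) (nat_lit 190))))) (XT.nd (nat_lit 312) (nat_lit 76) (nat_lit 0) (XT.nd (nat_lit 156) (nat_lit 0) (nat_lit 0) (XT.nd (nat_lit 78) (nat_lit 0) (nat_lit 0) (XT.lf (nat_lit 0) (nat_lit 20339557326) (nat_lit 152) (nat_lit 16574852680) (nat_lit 0) (nat_lit 11579477553) (nat_lit 4) (nat_lit 5) (nat_lit 6) (nat_lit 4) (nat_lit 4) (nat_lit 4) (nat_lit 310) (nat_lit 221) (nat_lit 189)) (XT.lf (nat_lit 0) (nat_lit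 23086814509) (nat_lit 152) (nat_lit 13495881175) (nat_lit 0) (nat_lit 14215937089) (nat_lit 4) (nat_lit 5) (nat_lit 6) (nat_lit 4) (nat_lit 4) (nat_lit 4) (nat_lit 311) (nat_lit 221) (nat_lit 188))) (XT.nd (nat_lit 78) (nat_lit 0) (nat_lit 0) (XT.lf (nat_lit 0) (nat_lit 25939814453) (nat_lit 152) (nat_lit 10317045476) (nat_lit 0) (nat_lit 16963415464) (nat_lit 4) (nat_lit 5) (nat_lit 6) (nat_lit 4) (nat_lit 4) (nat_lit 4) (nat_lit 312) (nat_lit 221) (nat_lit 187)) (XT.lf (nat_lit 0) (nat_lit 28905350016) (nat_lit 152) (nat_lit 7030776926) (nat_lit 0) (nat_lit 19828454295) (nat_lit 4) (nat_lit 5) (nat_lit 6) (nat_lit 4) (nat_lit 4) (nat_lit 4) (nat_lit 313) (nat_lit 221) (nat_lit 186)))) (XT.nd (nat_lit 156) (nat_lit 76) (nat_lit 0) (XT.nd (nat_lit 78) (nat_lit 0) (nat_lit 0) (XT.lf (nat_lit 0) (nat_lit 31990481996) (nat_lit 152) (nat_lit 3629251076) (nat_lit 0) (nat_lit 22817875102)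 (nat_lit 4) (nat_lit 5) (nat_lit 6) (nat_lit 4) (nat_lit 4) (nat_lit 4) (nat_lit 314) (nat_lit 221) (nat_lit 185)) (XT.lf (nat_lit 0) (nat_lit 35202555947) (nat_lit 152) (nat_lit 104369054) (nat_lit 0) (nat_lit 25938795554) (nat_lit 4) (nat_lit 5) (nat_lit 6) (nat_lit 4) (nat_lit 4) (nat_lit 4) (nat_lit 315) (nat_lit 221) (nat_lit 184))) (XT.nd (nat_lit 78) (nat_lit 0) (nat_lit 0) (XT.lf (nat_lit 0) (nat_lit 3669715529) (nat_lit 76) (nat_lit 34936798677) (nat_lit 76) (nat_lit 25586225428) (nat_lit 3) (nat_lit 4) (nat_lit 4) (nat_lit 5) (nat_lit 4) (nat_lit 4) (nat_lit 316) (nat_lit 221) (nat_lit 183)) (XT.lf (nat_lit 0) (nat_lit 7592350113) (nat_lit 76) (nat_lit 34564629138) (nat_lit 76) (nat_lit 25131376980) (nat_lit 3) (nat_lit 4) (nat_lit 4) (nat_lit 5) (nat_lit 4) (nat_lit 4) (nat_lit 317) (nat_lit 221) (nat_lit 182)))))) (XT.nd (nat_lit 624) (nat_lit 0) (nat_lit 0) (XT.nd (nat_lit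 312) (nat_lit 0) (nat_lit 0) (XT.nd (nat_lit 156) (nat_lit 0) (nat_lit 0) (XT.nd (nat_lit 78) (nat_lit 0) (nat_lit 0) (XT.lf (nat_lit 0) (nat_lit 11669423391) (nat_lit 76) (nat_lit 34191297810) (nat_lit 76) (nat_lit 24679303832) (nat_lit 3) (nat_lit 4) (nat_lit 4) (nat_lit 5) (nat_lit 4) (nat_lit 4) (nat_lit 318) (nat_lit 221) (nat_lit 181)) (XT.lf (nat_lit 0) (nat_lit 15910642681) (nat_lit 76) (nat_lit 33815915806) (nat_lit 76) (nat_lit 24228929620) (nat_lit 3) (nat_lit 4) (nat_lit 4) (nat_lit 5) (nat_lit 4) (nat_lit 4) (nat_lit 319) (nat_lit 221) (nat_lit 180))) (XT.nd (nat_lit 78) (nat_lit 0) (nat_lit 0) (XT.lf (nat_lit 0) (nat_lit 20326106124) (nat_lit 76) (nat_lit 33437589361) (nat_lit 76) (nat_lit 23779182023) (nat_lit 3) (nat_lit 4) (nat_lit 4) (nat_lit 5) (nat_lit 4) (nat_lit 4) (nat_lit 320) (nat_lit 221) (nat_lit 179)) (XT.lf (nat_lit 0) (nat_lit 24926326728) (nat_lit 76)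 (nat_lit 33055417697) (nat_lit 76) (nat_lit 23328990215) (nat_lit 3) (nat_lit 4) (nat_lit 4) (nat_lit 5) (nat_lit 4) (nat_lit 4) (nat_lit 321) (nat_lit 221) (nat_lit 178)))) (XT.nd (nat_lit 156) (nat_lit 0) (nat_lit 0) (XT.nd (nat_lit 78) (nat_lit 0) (nat_lit 0) (XT.lf (nat_lit 0) (nat_lit 29722257399) (nat_lit 76) (nat_lit 32668490881) (nat_lit 76) (nat_lit 22877282310) (nat_lit 3) (nat_lit 4) (nat_lit 4) (nat_lit 5) (nat_lit 4) (nat_lit 4) (nat_lit 322) (nat_lit 221) (nat_lit 177)) (XT.lf (nat_lit 0) (nat_lit 34725317020) (nat_lit 76) (nat_lit 32275887660) (nat_lit 76) (nat_lit 22422982814) (nat_lit 3) (nat_lit 4) (nat_lit 4) (nat_lit 5) (nat_lit 4) (nat_lit 4) (nat_lit 323) (nat_lit 221) (nat_lit 176))) (XT.nd (nat_lit 78) (nat_lit 0) (nat_lit 0) (XT.lf (nat_lit 0) (nat_lit 39947417637) (nat_lit 76) (nat_lit 31876673264) (nat_lit 76) (nat_lit 21965010059) (nat_lit 3) (nat_lit 4)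 (nat_lit 4) (nat_lit 5) (nat_lit 4) (nat_lit 4) (nat_lit 324) (nat_lit 221) (nat_lit 175)) (XT.lf (nat_lit 0) (nat_lit 45400992824) (nat_lit 76) (nat_lit 31469897182) (nat_lit 76) (nat_lit 21502273637) (nat_lit 3) (nat_lit 4) (nat_lit 4) (nat_lit 5) (nat_lit 4) (nat_lit 4) (nat_lit 325) (nat_lit 221) (nat_lit 174))))) (XT.nd (nat_lit 312) (nat_lit 0) (nat_lit 0) (XT.nd (nat_lit 156) (nat_lit 0) (nat_lit 0) (XT.nd (nat_lit 78) (nat_lit 0) (nat_lit 0) (XT.lf (nat_lit 0) (nat_lit 51099027282) (nat_lit 76) (nat_lit 31054590899) (nat_lit 76) (nat_lit 21033671792) (nat_lit 3) (nat_lit 4) (nat_lit 4) (nat_lit 5) (nat_lit 4) (nat_lit 4) (nat_lit 326) (nat_lit 221) (nat_lit 173)) (XT.lf (nat_lit 0) (nat_lit 57055087762) (nat_lit 76) (nat_lit 30629765592) (nat_lit 76) (nat_lit 20558088806) (nat_lit 3) (nat_lit 4) (nat_lit 4) (nat_lit 5) (nat_lit 4) (nat_lit 4) (nat_lit 327) (nat_lit 221) (nat_lit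 172))) (XT.nd (nat_lit 78) (nat_lit 0) (nat_lit 0) (XT.lf (nat_lit 0) (nat_lit 63283355359) (nat_lit 76) (nat_lit 30194409772) (nat_lit 76) (nat_lit 20074392339) (nat_lit 3) (nat_lit 4) (nat_lit 4) (nat_lit 5) (nat_lit 4) (nat_lit 4) (nat_lit 328) (nat_lit 221) (nat_lit 171)) (XT.lf (nat_lit 0) (nat_lit 69798659282) (nat_lit 76) (nat_lit 29747486876) (nat_lit 76) (nat_lit 19581430733) (nat_lit 3) (nat_lit 4) (nat_lit 4) (nat_lit 5) (nat_lit 4) (nat_lit 4) (nat_lit 329) (nat_lit 221) (nat_lit 170)))) (XT.nd (nat_lit 156) (nat_lit 0) (nat_lit 0) (XT.nd (nat_lit 78) (nat_lit 0) (nat_lit 0) (XT.lf (nat_lit 0) (nat_lit 76616512159) (nat_lit 76) (nat_lit 29287932804) (nat_lit 76) (nat_lit 19078030269) (nat_lit 3) (nat_lit 4) (nat_lit 4) (nat_lit 5) (nat_lit 4) (nat_lit 4) (nat_lit 330) (nat_lit 221) (nat_lit 169)) (XT.lf (nat_lit 0) (nat_lit 83753146973) (nat_lit 76) (nat_lit 28814653378)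 (nat_lit 76) (nat_lit 18562992375) (nat_lit 3) (nat_lit 4) (nat_lit 4) (nat_lit 5) (nat_lit 4) (nat_lit 4) (nat_lit 331) (nat_lit 221) (nat_lit 168))) (XT.nd (nat_lit 78) (nat_lit 0) (nat_lit 0) (XT.lf (nat_lit 0) (nat_lit 91225555712) (nat_lit 76) (nat_lit 28326521742) (nat_lit 76) (nat_lit 18035090770) (nat_lit 3) (nat_lit 4) (nat_lit 4) (nat_lit 5) (nat_lit 4) (nat_lit 4) (nat_lit 332) (nat_lit 221) (nat_lit 167)) (XT.lf (nat_lit 0) (nat_lit 99051529826) (nat_lit 76) (nat_lit 27822375680) (nat_lit 76) (nat_lit 17493068546) (nat_lit 3) (nat_lit 4) (nat_lit 4) (nat_lit 5) (nat_lit 4) (nat_lit 4) (nat_lit 333) (nat_lit 221) (nat_lit 166)))))))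
noncomputable def xc44 : XT := (XT.nd (nat_lit 1248) (nat_lit 76) (nat_lit 0) (XT.nd (nat_lit 624) (nat_lit 0) (nat_lit 0) (XT.nd (nat_lit 312) (nat_lit 0) (nat_lit 0) (XT.nd (nat_lit 156) (nat_lit 0) (nat_lit 0) (XT.nd (nat_lit 78) (nat_lit 0) (nat_lit 0) (XT.lf (nat_lit 0) (nat_lit 107249702585) (nat_lit 76) (nat_lit 27301014842) (nat_lit 76) (nat_lit 16935635174) (nat_lit 3) (nat_lit 4) (nat_lit 4) (nat_lit 5) (nat_lit 4) (nat_lit 4) (nat_lit 334) (nat_lit 221) (nat_lit 165)) (XT.lf (nat_lit 0) (nat_lit 115839593450) (nat_lit 76) (nat_lit 26761197893) (nat_lit 76) (nat_lit 16361463430) (nat_lit 3) (nat_lit 4) (nat_lit 4) (nat_lit 5) (nat_lit 4) (nat_lit 4) (nat_lit 335) (nat_lit 221) (nat_lit 164))) (XT.nd (nat_lit 78) (nat_lit 0) (nat_lit 0) (XT.lf (nat_lit 0) (nat_lit 124841654540) (nat_lit 76) (nat_lit 26201639556) (nat_lit 76) (nat_lit 15769186241) (nat_lit 3) (nat_lit 4) (nat_lit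 4) (nat_lit 5) (nat_lit 4) (nat_lit 4) (nat_lit 336) (nat_lit 221) (nat_lit 163)) (XT.lf (nat_lit 0) (nat_lit 134277319335) (nat_lit 76) (nat_lit 25621007548) (nat_lit 76) (nat_lit 15157393421) (nat_lit 3) (nat_lit 4) (nat_lit 4) (nat_lit 5) (nat_lit 4) (nat_lit 4) (nat_lit 337) (nat_lit 221) (nat_lit 162)))) (XT.nd (nat_lit 156) (nat_lit 0) (nat_lit 0) (XT.nd (nat_lit 78) (nat_lit 0) (nat_lit 0) (XT.lf (nat_lit 0) (nat_lit 144169053704) (nat_lit 76) (nat_lit 25017919412) (nat_lit 76) (nat_lit 14524628321) (nat_lit 3) (nat_lit 4) (nat_lit 4) (nat_lit 5) (nat_lit 4) (nat_lit 4) (nat_lit 338) (nat_lit 221) (nat_lit 161)) (XT.lf (nat_lit 0) (nat_lit 154540409395) (nat_lit 76) (nat_lit 24390939223) (nat_lit 76) (nat_lit 13869384358) (nat_lit 3) (nat_lit 4) (nat_lit 4) (nat_lit 5) (nat_lit 4) (nat_lit 4) (nat_lit 339) (nat_lit 221) (nat_lit 160))) (XT.nd (nat_lit 78) (nat_lit 0) (nat_lit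 0) (XT.lf (nat_lit 0) (nat_lit 165416080111) (nat_lit 76) (nat_lit 23738574173) (nat_lit 76) (nat_lit 13190101427) (nat_lit 3) (nat_lit 4) (nat_lit 4) (nat_lit 5) (nat_lit 4) (nat_lit 4) (nat_lit 340) (nat_lit 221) (nat_lit 159)) (XT.lf (nat_lit 0) (nat_lit 176821960308) (nat_lit 76) (nat_lit 23059271011) (nat_lit 76) (nat_lit 12485162188) (nat_lit 3) (nat_lit 4) (nat_lit 4) (nat_lit 5) (nat_lit 4) (nat_lit 4) (nat_lit 341) (nat_lit 221) (nat_lit 158))))) (XT.nd (nat_lit 312) (nat_lit 0) (nat_lit 0) (XT.nd (nat_lit 156) (nat_lit 0) (nat_lit 0) (XT.nd (nat_lit 78) (nat_lit 0) (nat_lit 0) (XT.lf (nat_lit 0) (nat_lit 188785206842) (nat_lit 76) (nat_lit 22351412348) (nat_lit 76) (nat_lit 11752888214) (nat_lit 3) (nat_lit 4) (nat_lit 4) (nat_lit 5) (nat_lit 4) (nat_lit 4) (nat_lit 342) (nat_lit 221) (nat_lit 157)) (XT.lf (nat_lit 0) (nat_lit 201334303634) (nat_lit 76) (nat_lit 21613312807)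 (nat_lit 76) (nat_lit 10991535995) (nat_lit 3) (nat_lit 4) (nat_lit 4) (nat_lit 5) (nat_lit 4) (nat_lit 4) (nat_lit 343) (nat_lit 221) (nat_lit 156))) (XT.nd (nat_lit 78) (nat_lit 0) (nat_lit 0) (XT.lf (nat_lit 0) (nat_lit 214499129486) (nat_lit 76) (nat_lit 20843215008) (nat_lit 76) (nat_lit 10199292789) (nat_lit 3) (nat_lit 4) (nat_lit 4) (nat_lit 5) (nat_lit 4) (nat_lit 4) (nat_lit 344) (nat_lit 221) (nat_lit 155)) (XT.lf (nat_lit 0) (nat_lit 228311029221) (nat_lit 76) (nat_lit 20039285384) (nat_lit 76) (nat_lit 9374272301) (nat_lit 3) (nat_lit 4) (nat_lit 4) (nat_lit 5) (nat_lit 4) (nat_lit 4) (nat_lit 345) (nat_lit 221) (nat_lit 154)))) (XT.nd (nat_lit 156) (nat_lit 0) (nat_lit 0) (XT.nd (nat_lit 78) (nat_lit 0) (nat_lit 0) (XT.lf (nat_lit 0) (nat_lit 242802888315) (nat_lit 76) (nat_lit 19199609817) (nat_lit 76) (nat_lit 8514510198) (nat_lit 3) (nat_lit 4) (nat_lit 4) (nat_lit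 5) (nat_lit 4) (nat_lit 4) (nat_lit 346) (nat_lit 221) (nat_lit 153)) (XT.lf (nat_lit 0) (nat_lit 258009211194) (nat_lit 76) (nat_lit 18322189081) (nat_lit 76) (nat_lit 7617959426) (nat_lit 3) (nat_lit 4) (nat_lit 4) (nat_lit 5) (nat_lit 4) (nat_lit 4) (nat_lit 347) (nat_lit 221) (nat_lit 152))) (XT.nd (nat_lit 78) (nat_lit 0) (nat_lit 0) (XT.lf (nat_lit 0) (nat_lit 273966203389) (nat_lit 76) (nat_lit 17404934077) (nat_lit 76) (nat_lit 6682485341) (nat_lit 3) (nat_lit 4) (nat_lit 4) (nat_lit 5) (nat_lit 4) (nat_lit 4) (nat_lit 348) (nat_lit 221) (nat_lit 151)) (XT.lf (nat_lit 0) (nat_lit 290711857739) (nat_lit 76) (nat_lit 16445660866) (nat_lit 76) (nat_lit 5705860624) (nat_lit 3) (nat_lit 4) (nat_lit 4) (nat_lit 5) (nat_lit 4) (nat_lit 4) (nat_lit 349) (nat_lit 221) (nat_lit 150)))))) (XT.nd (nat_lit 624) (nat_lit 0) (nat_lit 0) (XT.nd (nat_lit 312) (nat_lit 76) (nat_lit 0) (XT.nd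 (nat_lit 156) (nat_lit 0) (nat_lit 0) (XT.nd (nat_lit 78) (nat_lit 0) (nat_lit 0) (XT.lf (nat_lit 0) (nat_lit 308286044849) (nat_lit 76) (nat_lit 15442085463) (nat_lit 76) (nat_lit 4685759977) (nat_lit 3) (nat_lit 4) (nat_lit 4) (nat_lit 5) (nat_lit 4) (nat_lit 4) (nat_lit 350) (nat_lit 221) (nat_lit 149)) (XT.lf (nat_lit 0) (nat_lit 326730608021) (nat_lit 76) (nat_lit 14391818404) (nat_lit 76) (nat_lit 3619754591) (nat_lit 3) (nat_lit 4) (nat_lit 4) (nat_lit 5) (nat_lit 4) (nat_lit 4) (nat_lit 351) (nat_lit 221) (nat_lit 148))) (XT.nd (nat_lit 78) (nat_lit 0) (nat_lit 0) (XT.lf (nat_lit 0) (nat_lit 346089462883) (nat_lit 76) (nat_lit 13292359052) (nat_lit 76) (nat_lit 2505306356) (nat_lit 3) (nat_lit 4) (nat_lit 4) (nat_lit 5) (nat_lit 4) (nat_lit 4) (nat_lit 352) (nat_lit 221) (nat_lit 147)) (XT.lf (nat_lit 0) (nat_lit 366408701946) (nat_lit 76) (nat_lit 12141089647) (nat_lit 76)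 (nat_lit 1339761824) (nat_lit 3) (nat_lit 4) (nat_lit 4) (nat_lit 5) (nat_lit 4) (nat_lit 4) (nat_lit 353) (nat_lit 221) (nat_lit 146)))) (XT.nd (nat_lit 156) (nat_lit 0) (nat_lit 0) (XT.nd (nat_lit 78) (nat_lit 76) (nat_lit 0) (XT.lf (nat_lit 0) (nat_lit 387736704350) (nat_lit 76) (nat_lit 10935269072) (nat_lit 76) (nat_lit 120345890) (nat_lit 3) (nat_lit 4) (nat_lit 4) (nat_lit 5) (nat_lit 4) (nat_lit 4) (nat_lit 354) (nat_lit 221) (nat_lit 145)) (XT.lf (nat_lit 0) (nat_lit 1118850565) (nat_lit 152) (nat_lit 8534227484) (nat_lit 76) (nat_lit 408986452213) (nat_lit 2) (nat_lit 5) (nat_lit 4) (nat_lit 5) (nat_lit 3) (nat_lit 4) (nat_lit 355) (nat_lit 221) (nat_lit 144))) (XT.nd (nat_lit 78) (nat_lit 0) (nat_lit 0) (XT.lf (nat_lit 0) (nat_lit 2412094123) (nat_lit 152) (nat_lit 5895409580) (nat_lit 76) (nat_lit 431171701635) (nat_lit 2) (nat_lit 5) (nat_lit 4) (nat_lit 5) (nat_lit 3)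 (nat_lit 4) (nat_lit 356) (nat_lit 221) (nat_lit 143)) (XT.lf (nat_lit 0) (nat_lit 3766315757) (nat_lit 152) (nat_lit 3130999414) (nat_lit 76) (nat_lit 454463741592) (nat_lit 2) (nat_lit 5) (nat_lit 4) (nat_lit 5) (nat_lit 3) (nat_lit 4) (nat_lit 357) (nat_lit 221) (nat_lit 142))))) (XT.nd (nat_lit 31356) (nat_lit 0) (nat_lit 836) (XT.nd (nat_lit 31200) (nat_lit 0) (nat_lit 1140) (XT.nd (nat_lit 31122) (nat_lit 0) (nat_lit 1292) (XT.lf (nat_lit 0) (nat_lit 5184739802) (nat_lit 152) (nat_lit 234415057) (nat_lit 76) (nat_lit 478918029322) (nat_lit 2) (nat_lit 5) (nat_lit 4) (nat_lit 5) (nat_lit 3) (nat_lit 4) (nat_lit 358) (nat_lit 221) (nat_lit 141)) (XT.lf (nat_lit 0) (nat_lit 2669507272) (nat_lit 228) (nat_lit 637157164) (nat_lit 0) (nat_lit 2669507272) (nat_lit 19) (nat_lit 5) (nat_lit 22) (nat_lit 4) (nat_lit 19) (nat_lit 4) (nat_lit 276) (nat_lit 222) (nat_lit 222))) (XT.nd (nat_lit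 78) (nat_lit 0) (nat_lit 0) (XT.lf (nat_lit 0) (nat_lit 4220827380) (nat_lit 152) (nat_lit 4400749759) (nat_lit 152) (nat_lit 3726944179) (nat_lit 17) (nat_lit 4) (nat_lit 19) (nat_lit 5) (nat_lit 19) (nat_lit 4) (nat_lit 277) (nat_lit 222) (nat_lit 221)) (XT.lf (nat_lit 0) (nat_lit 9858525825) (nat_lit 152) (nat_lit 2113402859) (nat_lit 152) (nat_lit 797877680) (nat_lit 17) (nat_lit 4) (nat_lit 19) (nat_lit 5) (nat_lit 19) (nat_lit 4) (nat_lit 278) (nat_lit 222) (nat_lit 220)))) (XT.nd (nat_lit 156) (nat_lit 152) (nat_lit 0) (XT.nd (nat_lit 78) (nat_lit 0) (nat_lit 0) (XT.lf (nat_lit 0) (nat_lit 2132995218) (nat_lit 152) (nat_lit 10783350877) (nat_lit 0) (nat_lit 298055500) (nat_lit 15) (nat_lit 5) (nat_lit 17) (nat_lit 4) (nat_lit 15) (nat_lit 4) (nat_lit 279) (nat_lit 222) (nat_lit 219)) (XT.lf (nat_lit 0) (nat_lit 5155675695) (nat_lit 152) (nat_lit 5760314298) (nat_lit 0) (nat_lit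 2766394459) (nat_lit 15) (nat_lit 5) (nat_lit 17) (nat_lit 4) (nat_lit 15) (nat_lit 4) (nat_lit 280) (nat_lit 222) (nat_lit 218))) (XT.nd (nat_lit 78) (nat_lit 152) (nat_lit 0) (XT.lf (nat_lit 0) (nat_lit 8222175625) (nat_lit 152) (nat_lit 652402427) (nat_lit 0) (nat_lit 5304950087) (nat_lit 15) (nat_lit 5) (nat_lit 17) (nat_lit 4) (nat_lit 15) (nat_lit 4) (nat_lit 281) (nat_lit 222) (nat_lit 217)) (XT.nd (nat_lit 78) (nat_lit 0) (nat_lit 0) (XT.lf (nat_lit 0) (nat_lit 4703074175) (nat_lit 152) (nat_lit 6710150192) (nat_lit 152) (nat_lit 3290120556) (nat_lit 13) (nat_lit 4) (nat_lit 15) (nat_lit 5) (nat_lit 15) (nat_lit 4) (nat_lit 282) (nat_lit 222) (nat_lit 216)) (XT.lf (nat_lit 0) (nat_lit 10193170112) (nat_lit 152) (nat_lit 4481934163) (nat_lit 152) (nat_lit 583043481) (nat_lit 13) (nat_lit 4) (nat_lit 15) (nat_lit 5) (nat_lit 15) (nat_lit 4) (nat_lit 283) (nat_lit 222) (nat_lit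 215))))))))
noncomputable def xc45 : XT := (XT.nd (nat_lit 1248) (nat_lit 152) (nat_lit 0) (XT.nd (nat_lit 624) (nat_lit 152) (nat_lit 0) (XT.nd (nat_lit 312) (nat_lit 228) (nat_lit 0) (XT.nd (nat_lit 156) (nat_lit 0) (nat_lit 0) (XT.nd (nat_lit 78) (nat_lit 76) (nat_lit 0) (XT.lf (nat_lit 0) (nat_lit 2090165084) (nat_lit 228) (nat_lit 70110397) (nat_lit 76) (nat_lit 13683822629) (nat_lit 12) (nat_lit 5) (nat_lit 15) (nat_lit 5) (nat_lit 13) (nat_lit 4) (nat_lit 284) (nat_lit 222) (nat_lit 214)) (XT.lf (nat_lit 0) (nat_lit 4871116952) (nat_lit 152) (nat_lit 11278489050) (nat_lit 0) (nat_lit 309888471) (nat_lit 11) (nat_lit 5) (nat_lit 13) (nat_lit 4) (nat_lit 11) (nat_lit 4) (nat_lit 285) (nat_lit 222) (nat_lit 213))) (XT.nd (nat_lit 78) (nat_lit 0) (nat_lit 0) (XT.lf (nat_lit 0) (nat_lit 7736801452) (nat_lit 152) (nat_lit 6590257617) (nat_lit 0) (nat_lit 2781612803) (nat_lit 11)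 (nat_lit 5) (nat_lit 13) (nat_lit 4) (nat_lit 11) (nat_lit 4) (nat_lit 286) (nat_lit 222) (nat_lit 212)) (XT.lf (nat_lit 0) (nat_lit 10659164338) (nat_lit 152) (nat_lit 1806979966) (nat_lit 0) (nat_lit 5328775530) (nat_lit 11) (nat_lit 5) (nat_lit 13) (nat_lit 4) (nat_lit 11) (nat_lit 4) (nat_lit 287) (nat_lit 222) (nat_lit 211)))) (XT.nd (nat_lit 156) (nat_lit 76) (nat_lit 0) (XT.nd (nat_lit 78) (nat_lit 0) (nat_lit 0) (XT.lf (nat_lit 0) (nat_lit 3184661720) (nat_lit 152) (nat_lit 10510223390) (nat_lit 152) (nat_lit 4822501096) (nat_lit 9) (nat_lit 4) (nat_lit 11) (nat_lit 5) (nat_lit 11) (nat_lit 4) (nat_lit 288) (nat_lit 222) (nat_lit 210)) (XT.lf (nat_lit 0) (nat_lit 8358031635) (nat_lit 152) (nat_lit 8474369470) (nat_lit 152) (nat_lit 2446329572) (nat_lit 9) (nat_lit 4) (nat_lit 11) (nat_lit 5) (nat_lit 11) (nat_lit 4) (nat_lit 289) (nat_lit 222) (nat_lit 209))) (XT.nd (nat_lit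 78) (nat_lit 76) (nat_lit 0) (XT.lf (nat_lit 0) (nat_lit 13665700407) (nat_lit 152) (nat_lit 6384337353) (nat_lit 152) (nat_lit 32185450) (nat_lit 9) (nat_lit 4) (nat_lit 11) (nat_lit 5) (nat_lit 11) (nat_lit 4) (nat_lit 290) (nat_lit 222) (nat_lit 208)) (XT.lf (nat_lit 0) (nat_lit 2348042344) (nat_lit 228) (nat_lit 1847343196) (nat_lit 76) (nat_lit 16732497765) (nat_lit 8) (nat_lit 5) (nat_lit 11) (nat_lit 5) (nat_lit 9) (nat_lit 4) (nat_lit 291) (nat_lit 222) (nat_lit 207))))) (XT.nd (nat_lit 312) (nat_lit 76) (nat_lit 0) (XT.nd (nat_lit 156) (nat_lit 0) (nat_lit 0) (XT.nd (nat_lit 78) (nat_lit 0) (nat_lit 0) (XT.lf (nat_lit 0) (nat_lit 2928122332) (nat_lit 76) (nat_lit 1892819851) (nat_lit 152) (nat_lit 16996330709) (nat_lit 7) (nat_lit 5) (nat_lit 8) (nat_lit 5) (nat_lit 9) (nat_lit 4) (nat_lit 292) (nat_lit 222) (nat_lit 206)) (XT.lf (nat_lit 0) (nat_lit 7387424916) (nat_lit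 152) (nat_lit 14868260722) (nat_lit 0) (nat_lit 497149411) (nat_lit 7) (nat_lit 5) (nat_lit 9) (nat_lit 4) (nat_lit 7) (nat_lit 4) (nat_lit 293) (nat_lit 222) (nat_lit 205))) (XT.nd (nat_lit 78) (nat_lit 0) (nat_lit 0) (XT.lf (nat_lit 0) (nat_lit 10046542205) (nat_lit 152) (nat_lit 10788291589) (nat_lit 0) (nat_lit 2902316463) (nat_lit 7) (nat_lit 5) (nat_lit 9) (nat_lit 4) (nat_lit 7) (nat_lit 4) (nat_lit 294) (nat_lit 222) (nat_lit 204)) (XT.lf (nat_lit 0) (nat_lit 12775073058) (nat_lit 152) (nat_lit 6609976725) (nat_lit 0) (nat_lit 5388989948) (nat_lit 7) (nat_lit 5) (nat_lit 9) (nat_lit 4) (nat_lit 7) (nat_lit 4) (nat_lit 295) (nat_lit 222) (nat_lit 203)))) (XT.nd (nat_lit 156) (nat_lit 0) (nat_lit 0) (XT.nd (nat_lit 78) (nat_lit 76) (nat_lit 0) (XT.lf (nat_lit 0) (nat_lit 15579513979) (nat_lit 152) (nat_lit 2323367763) (nat_lit 0) (nat_lit 7963090518) (nat_lit 7) (nat_lit 5)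 (nat_lit 9) (nat_lit 4) (nat_lit 7) (nat_lit 4) (nat_lit 296) (nat_lit 222) (nat_lit 202)) (XT.lf (nat_lit 0) (nat_lit 2150573285) (nat_lit 76) (nat_lit 16349545397) (nat_lit 76) (nat_lit 8513750174) (nat_lit 6) (nat_lit 4) (nat_lit 7) (nat_lit 5) (nat_lit 7) (nat_lit 4) (nat_lit 297) (nat_lit 222) (nat_lit 201))) (XT.nd (nat_lit 78) (nat_lit 0) (nat_lit 0) (XT.lf (nat_lit 0) (nat_lit 6834588978) (nat_lit 76) (nat_lit 14715149728) (nat_lit 76) (nat_lit 6670429017) (nat_lit 6) (nat_lit 4) (nat_lit 7) (nat_lit 5) (nat_lit 7) (nat_lit 4) (nat_lit 298) (nat_lit 222) (nat_lit 200)) (XT.lf (nat_lit 0) (nat_lit 11663010704) (nat_lit 76) (nat_lit 13035150673) (nat_lit 76) (nat_lit 4791453306) (nat_lit 6) (nat_lit 4) (nat_lit 7) (nat_lit 5) (nat_lit 7) (nat_lit 4) (nat_lit 299) (nat_lit 222) (nat_lit 199)))))) (XT.nd (nat_lit 624) (nat_lit 0) (nat_lit 0) (XT.nd (nat_lit 312) (nat_lit 76) (nat_lit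 0) (XT.nd (nat_lit 156) (nat_lit 76) (nat_lit 0) (XT.nd (nat_lit 78) (nat_lit 0) (nat_lit 0) (XT.lf (nat_lit 0) (nat_lit 16647334703) (nat_lit 76) (nat_lit 11305548234) (nat_lit 76) (nat_lit 2872349291) (nat_lit 6) (nat_lit 4) (nat_lit 7) (nat_lit 5) (nat_lit 7) (nat_lit 4) (nat_lit 300) (nat_lit 222) (nat_lit 198)) (XT.lf (nat_lit 0) (nat_lit 21799428415) (nat_lit 76) (nat_lit 9522224311) (nat_lit 76) (nat_lit 908547676) (nat_lit 6) (nat_lit 4) (nat_lit 7) (nat_lit 5) (nat_lit 7) (nat_lit 4) (nat_lit 301) (nat_lit 222) (nat_lit 197))) (XT.nd (nat_lit 78) (nat_lit 0) (nat_lit 0) (XT.lf (nat_lit 0) (nat_lit 1069272285) (nat_lit 152) (nat_lit 6593551966) (nat_lit 76) (nat_lit 26044177801) (nat_lit 5) (nat_lit 5) (nat_lit 7) (nat_lit 5) (nat_lit 6) (nat_lit 4) (nat_lit 302) (nat_lit 222) (nat_lit 196)) (XT.lf (nat_lit 0) (nat_lit 3070445970) (nat_lit 152) (nat_lit 2654844498) (nat_lit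 76) (nat_lit 29533975736) (nat_lit 5) (nat_lit 5) (nat_lit 7) (nat_lit 5) (nat_lit 6) (nat_lit 4) (nat_lit 303) (nat_lit 222) (nat_lit 195)))) (XT.nd (nat_lit 156) (nat_lit 0) (nat_lit 0) (XT.nd (nat_lit 78) (nat_lit 0) (nat_lit 0) (XT.lf (nat_lit 0) (nat_lit 1455498299) (nat_lit 76) (nat_lit 3696043385) (nat_lit 152) (nat_lit 31738720074) (nat_lit 4) (nat_lit 5) (nat_lit 5) (nat_lit 5) (nat_lit 6) (nat_lit 4) (nat_lit 304) (nat_lit 222) (nat_lit 194)) (XT.lf (nat_lit 0) (nat_lit 5792802801) (nat_lit 76) (nat_lit 1546926173) (nat_lit 152) (nat_lit 31263032331) (nat_lit 4) (nat_lit 5) (nat_lit 5) (nat_lit 5) (nat_lit 6) (nat_lit 4) (nat_lit 305) (nat_lit 222) (nat_lit 193))) (XT.nd (nat_lit 78) (nat_lit 0) (nat_lit 0) (XT.lf (nat_lit 0) (nat_lit 9608049060) (nat_lit 152) (nat_lit 30134019776) (nat_lit 0) (nat_lit 660381830) (nat_lit 4) (nat_lit 5) (nat_lit 6) (nat_lit 4) (nat_lit 4)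 (nat_lit 4) (nat_lit 306) (nat_lit 222) (nat_lit 192)) (XT.lf (nat_lit 0) (nat_lit 11976710168) (nat_lit 152) (nat_lit 27415383459) (nat_lit 0) (nat_lit 2900780812) (nat_lit 4) (nat_lit 5) (nat_lit 6) (nat_lit 4) (nat_lit 4) (nat_lit 4) (nat_lit 307) (nat_lit 222) (nat_lit 191))))) (XT.nd (nat_lit 312) (nat_lit 0) (nat_lit 0) (XT.nd (nat_lit 156) (nat_lit 0) (nat_lit 0) (XT.nd (nat_lit 78) (nat_lit 0) (nat_lit 0) (XT.lf (nat_lit 0) (nat_lit 14427200116) (nat_lit 152) (nat_lit 24623424757) (nat_lit 0) (nat_lit 5229116354) (nat_lit 4) (nat_lit 5) (nat_lit 6) (nat_lit 4) (nat_lit 4) (nat_lit 4) (nat_lit 308) (nat_lit 222) (nat_lit 190)) (XT.lf (nat_lit 0) (nat_lit 16965353404) (nat_lit 152) (nat_lit 21751496150) (nat_lit 0) (nat_lit 7650932113) (nat_lit 4) (nat_lit 5) (nat_lit 6) (nat_lit 4) (nat_lit 4) (nat_lit 4) (nat_lit 309) (nat_lit 222) (nat_lit 189))) (XT.nd (nat_lit 78) (nat_lit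 0) (nat_lit 0) (XT.lf (nat_lit 0) (nat_lit 19597213254) (nat_lit 152) (nat_lit 18792759711) (nat_lit 0) (nat_lit 10171994316) (nat_lit 4) (nat_lit 5) (nat_lit 6) (nat_lit 4) (nat_lit 4) (nat_lit 4) (nat_lit 310) (nat_lit 222) (nat_lit 188)) (XT.lf (nat_lit 0) (nat_lit 22329045999) (nat_lit 152) (nat_lit 15740170832) (nat_lit 0) (nat_lit 12798305492) (nat_lit 4) (nat_lit 5) (nat_lit 6) (nat_lit 4) (nat_lit 4) (nat_lit 4) (nat_lit 311) (nat_lit 222) (nat_lit 187)))) (XT.nd (nat_lit 156) (nat_lit 0) (nat_lit 0) (XT.nd (nat_lit 78) (nat_lit 0) (nat_lit 0) (XT.lf (nat_lit 0) (nat_lit 25167356002) (nat_lit 152) (nat_lit 12586461442) (nat_lit 0) (nat_lit 15536118764) (nat_lit 4) (nat_lit 5) (nat_lit 6) (nat_lit 4) (nat_lit 4) (nat_lit 4) (nat_lit 312) (nat_lit 222) (nat_lit 186)) (XT.lf (nat_lit 0) (nat_lit 28118901145) (nat_lit 152) (nat_lit 9324122710) (nat_lit 0) (nat_lit 18391952733)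 (nat_lit 4) (nat_lit 5) (nat_lit 6) (nat_lit 4) (nat_lit 4) (nat_lit 4) (nat_lit 313) (nat_lit 222) (nat_lit 185))) (XT.nd (nat_lit 78) (nat_lit 0) (nat_lit 0) (XT.lf (nat_lit 0) (nat_lit 31190708916) (nat_lit 152) (nat_lit 5945387163) (nat_lit 0) (nat_lit 21372607006) (nat_lit 4) (nat_lit 5) (nat_lit 6) (nat_lit 4) (nat_lit 4) (nat_lit 4) (nat_lit 314) (nat_lit 222) (nat_lit 184)) (XT.lf (nat_lit 0) (nat_lit 34390093143) (nat_lit 152) (nat_lit 2442210192) (nat_lit 0) (nat_lit 24485178377) (nat_lit 4) (nat_lit 5) (nat_lit 6) (nat_lit 4) (nat_lit 4) (nat_lit 4) (nat_lit 315) (nat_lit 222) (nat_lit 183)))))))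
noncomputable def xc46 : XT := (XT.nd (nat_lit 1248) (nat_lit 0) (nat_lit 0) (XT.nd (nat_lit 624) (nat_lit 0) (nat_lit 0) (XT.nd (nat_lit 312) (nat_lit 0) (nat_lit 0) (XT.nd (nat_lit 156) (nat_lit 0) (nat_lit 0) (XT.nd (nat_lit 78) (nat_lit 0) (nat_lit 0) (XT.lf (nat_lit 0) (nat_lit 1233219836) (nat_lit 76) (nat_lit 36510705589) (nat_lit 76) (nat_lit 26523111913) (nat_lit 3) (nat_lit 4) (nat_lit 4) (nat_lit 5) (nat_lit 4) (nat_lit 4) (nat_lit 316) (nat_lit 222) (nat_lit 182)) (XT.lf (nat_lit 0) (nat_lit 5135516354) (nat_lit 76) (nat_lit 36147046630) (nat_lit 76) (nat_lit 26080711134) (nat_lit 3) (nat_lit 4) (nat_lit 4) (nat_lit 5) (nat_lit 4) (nat_lit 4) (nat_lit 317) (nat_lit 222) (nat_lit 181))) (XT.nd (nat_lit 78) (nat_lit 0) (nat_lit 0) (XT.lf (nat_lit 0) (nat_lit 9193220046) (nat_lit 76) (nat_lit 35781820614) (nat_lit 76) (nat_lit 25640492910) (nat_lit 3) (nat_lit 4) (nat_lit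 4) (nat_lit 5) (nat_lit 4) (nat_lit 4) (nat_lit 318) (nat_lit 222) (nat_lit 180)) (XT.lf (nat_lit 0) (nat_lit 13415992111) (nat_lit 76) (nat_lit 35414157956) (nat_lit 76) (nat_lit 25201409101) (nat_lit 3) (nat_lit 4) (nat_lit 4) (nat_lit 5) (nat_lit 4) (nat_lit 4) (nat_lit 319) (nat_lit 222) (nat_lit 179)))) (XT.nd (nat_lit 156) (nat_lit 0) (nat_lit 0) (XT.nd (nat_lit 78) (nat_lit 0) (nat_lit 0) (XT.lf (nat_lit 0) (nat_lit 17813886768) (nat_lit 76) (nat_lit 35043183268) (nat_lit 76) (nat_lit 24762414269) (nat_lit 3) (nat_lit 4) (nat_lit 4) (nat_lit 5) (nat_lit 4) (nat_lit 4) (nat_lit 320) (nat_lit 222) (nat_lit 178)) (XT.lf (nat_lit 0) (nat_lit 22397375195) (nat_lit 76) (nat_lit 34668013278) (nat_lit 76) (nat_lit 24322463190) (nat_lit 3) (nat_lit 4) (nat_lit 4) (nat_lit 5) (nat_lit 4) (nat_lit 4) (nat_lit 321) (nat_lit 222) (nat_lit 177))) (XT.nd (nat_lit 78) (nat_lit 0) (nat_lit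 0) (XT.lf (nat_lit 0) (nat_lit 27177370459) (nat_lit 76) (nat_lit 34287754724) (nat_lit 76) (nat_lit 23880508359) (nat_lit 3) (nat_lit 4) (nat_lit 4) (nat_lit 5) (nat_lit 4) (nat_lit 4) (nat_lit 322) (nat_lit 222) (nat_lit 176)) (XT.lf (nat_lit 0) (nat_lit 32165253502) (nat_lit 76) (nat_lit 33901502228) (nat_lit 76) (nat_lit 23435497505) (nat_lit 3) (nat_lit 4) (nat_lit 4) (nat_lit 5) (nat_lit 4) (nat_lit 4) (nat_lit 323) (nat_lit 222) (nat_lit 175))))) (XT.nd (nat_lit 312) (nat_lit 0) (nat_lit 0) (XT.nd (nat_lit 156) (nat_lit 0) (nat_lit 0) (XT.nd (nat_lit 78) (nat_lit 0) (nat_lit 0) (XT.lf (nat_lit 0) (nat_lit 37372900236) (nat_lit 76) (nat_lit 33508336141) (nat_lit 76) (nat_lit 22986371077) (nat_lit 3) (nat_lit 4) (nat_lit 4) (nat_lit 5) (nat_lit 4) (nat_lit 4) (nat_lit 324) (nat_lit 222) (nat_lit 174)) (XT.lf (nat_lit 0) (nat_lit 42812709819) (nat_lit 76) (nat_lit 33107320353)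 (nat_lit 76) (nat_lit 22532059727) (nat_lit 3) (nat_lit 4) (nat_lit 4) (nat_lit 5) (nat_lit 4) (nat_lit 4) (nat_lit 325) (nat_lit 222) (nat_lit 173))) (XT.nd (nat_lit 78) (nat_lit 0) (nat_lit 0) (XT.lf (nat_lit 0) (nat_lit 48497634179) (nat_lit 76) (nat_lit 32697500066) (nat_lit 76) (nat_lit 22071481761) (nat_lit 3) (nat_lit 4) (nat_lit 4) (nat_lit 5) (nat_lit 4) (nat_lit 4) (nat_lit 326) (nat_lit 222) (nat_lit 172)) (XT.lf (nat_lit 0) (nat_lit 54441208850) (nat_lit 76) (nat_lit 32277899516) (nat_lit 76) (nat_lit 21603540565) (nat_lit 3) (nat_lit 4) (nat_lit 4) (nat_lit 5) (nat_lit 4) (nat_lit 4) (nat_lit 327) (nat_lit 222) (nat_lit 171)))) (XT.nd (nat_lit 156) (nat_lit 0) (nat_lit 0) (XT.nd (nat_lit 78) (nat_lit 0) (nat_lit 0) (XT.lf (nat_lit 0) (nat_lit 60657585202) (nat_lit 76) (nat_lit 31847519654) (nat_lit 76) (nat_lit 21127121993) (nat_lit 3) (nat_lit 4) (nat_lit 4) (nat_lit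 5) (nat_lit 4) (nat_lit 4) (nat_lit 328) (nat_lit 222) (nat_lit 170)) (XT.lf (nat_lit 0) (nat_lit 67161564128) (nat_lit 76) (nat_lit 31405335767) (nat_lit 76) (nat_lit 20641091714) (nat_lit 3) (nat_lit 4) (nat_lit 4) (nat_lit 5) (nat_lit 4) (nat_lit 4) (nat_lit 329) (nat_lit 222) (nat_lit 169))) (XT.nd (nat_lit 78) (nat_lit 0) (nat_lit 0) (XT.lf (nat_lit 0) (nat_lit 73968631295) (nat_lit 76) (nat_lit 30950295036) (nat_lit 76) (nat_lit 20144292516) (nat_lit 3) (nat_lit 4) (nat_lit 4) (nat_lit 5) (nat_lit 4) (nat_lit 4) (nat_lit 330) (nat_lit 222) (nat_lit 168)) (XT.lf (nat_lit 0) (nat_lit 81094994004) (nat_lit 76) (nat_lit 30481314031) (nat_lit 76) (nat_lit 19635541541) (nat_lit 3) (nat_lit 4) (nat_lit 4) (nat_lit 5) (nat_lit 4) (nat_lit 4) (nat_lit 331) (nat_lit 222) (nat_lit 167)))))) (XT.nd (nat_lit 624) (nat_lit 0) (nat_lit 0) (XT.nd (nat_lit 312) (nat_lit 0) (nat_lit 0) (XT.nd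 (nat_lit 156) (nat_lit 0) (nat_lit 0) (XT.nd (nat_lit 78) (nat_lit 0) (nat_lit 0) (XT.lf (nat_lit 0) (nat_lit 88557619786) (nat_lit 76) (nat_lit 29997276129) (nat_lit 76) (nat_lit 19113627478) (nat_lit 3) (nat_lit 4) (nat_lit 4) (nat_lit 5) (nat_lit 4) (nat_lit 4) (nat_lit 332) (nat_lit 222) (nat_lit 166)) (XT.lf (nat_lit 0) (nat_lit 96374276797) (nat_lit 76) (nat_lit 29497028861) (nat_lit 76) (nat_lit 18577307674) (nat_lit 3) (nat_lit 4) (nat_lit 4) (nat_lit 5) (nat_lit 4) (nat_lit 4) (nat_lit 333) (nat_lit 222) (nat_lit 165))) (XT.nd (nat_lit 78) (nat_lit 0) (nat_lit 0) (XT.lf (nat_lit 0) (nat_lit 104563576125) (nat_lit 76) (nat_lit 28979381160) (nat_lit 76) (nat_lit 18025305179) (nat_lit 3) (nat_lit 4) (nat_lit 4) (nat_lit 5) (nat_lit 4) (nat_lit 4) (nat_lit 334) (nat_lit 222) (nat_lit 164)) (XT.lf (nat_lit 0) (nat_lit 113145016103) (nat_lit 76) (nat_lit 28443100533) (nat_lit 76)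 (nat_lit 17456305699) (nat_lit 3) (nat_lit 4) (nat_lit 4) (nat_lit 5) (nat_lit 4) (nat_lit 4) (nat_lit 335) (nat_lit 222) (nat_lit 163)))) (XT.nd (nat_lit 156) (nat_lit 0) (nat_lit 0) (XT.nd (nat_lit 78) (nat_lit 0) (nat_lit 0) (XT.lf (nat_lit 0) (nat_lit 122139028731) (nat_lit 76) (nat_lit 27886910120) (nat_lit 76) (nat_lit 16868954475) (nat_lit 3) (nat_lit 4) (nat_lit 4) (nat_lit 5) (nat_lit 4) (nat_lit 4) (nat_lit 336) (nat_lit 222) (nat_lit 162)) (XT.lf (nat_lit 0) (nat_lit 131567028323) (nat_lit 76) (nat_lit 27309485660) (nat_lit 76) (nat_lit 16261853051) (nat_lit 3) (nat_lit 4) (nat_lit 4) (nat_lit 5) (nat_lit 4) (nat_lit 4) (nat_lit 337) (nat_lit 222) (nat_lit 161))) (XT.nd (nat_lit 78) (nat_lit 0) (nat_lit 0) (XT.lf (nat_lit 0) (nat_lit 141451462498) (nat_lit 76) (nat_lit 26709452331) (nat_lit 76) (nat_lit 15633555947) (nat_lit 3) (nat_lit 4) (nat_lit 4) (nat_lit 5) (nat_lit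 4) (nat_lit 4) (nat_lit 338) (nat_lit 222) (nat_lit 160)) (XT.lf (nat_lit 0) (nat_lit 151815865623) (nat_lit 76) (nat_lit 26085381483) (nat_lit 76) (nat_lit 14982567219) (nat_lit 3) (nat_lit 4) (nat_lit 4) (nat_lit 5) (nat_lit 4) (nat_lit 4) (nat_lit 339) (nat_lit 222) (nat_lit 159))))) (XT.nd (nat_lit 312) (nat_lit 0) (nat_lit 0) (XT.nd (nat_lit 156) (nat_lit 0) (nat_lit 0) (XT.nd (nat_lit 78) (nat_lit 0) (nat_lit 0) (XT.lf (nat_lit 0) (nat_lit 162684914849) (nat_lit 76) (nat_lit 25435787233) (nat_lit 76) (nat_lit 14307336892) (nat_lit 3) (nat_lit 4) (nat_lit 4) (nat_lit 5) (nat_lit 4) (nat_lit 4) (nat_lit 340) (nat_lit 222) (nat_lit 158)) (XT.lf (nat_lit 0) (nat_lit 174084488864) (nat_lit 76) (nat_lit 24759122928) (nat_lit 76) (nat_lit 13606257276) (nat_lit 3) (nat_lit 4) (nat_lit 4) (nat_lit 5) (nat_lit 4) (nat_lit 4) (nat_lit 341) (nat_lit 222) (nat_lit 157))) (XT.nd (nat_lit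 78) (nat_lit 0) (nat_lit 0) (XT.lf (nat_lit 0) (nat_lit 186041729511) (nat_lit 76) (nat_lit 24053777463) (nat_lit 76) (nat_lit 12877659133) (nat_lit 3) (nat_lit 4) (nat_lit 4) (nat_lit 5) (nat_lit 4) (nat_lit 4) (nat_lit 342) (nat_lit 222) (nat_lit 156)) (XT.lf (nat_lit 0) (nat_lit 198585106411) (nat_lit 76) (nat_lit 23318071443) (nat_lit 76) (nat_lit 12119807706) (nat_lit 3) (nat_lit 4) (nat_lit 4) (nat_lit 5) (nat_lit 4) (nat_lit 4) (nat_lit 343) (nat_lit 222) (nat_lit 155)))) (XT.nd (nat_lit 156) (nat_lit 0) (nat_lit 0) (XT.nd (nat_lit 78) (nat_lit 0) (nat_lit 0) (XT.lf (nat_lit 0) (nat_lit 211744484746) (nat_lit 76) (nat_lit 22550253187) (nat_lit 76) (nat_lit 11330898587) (nat_lit 3) (nat_lit 4) (nat_lit 4) (nat_lit 5) (nat_lit 4) (nat_lit 4) (nat_lit 344) (nat_lit 222) (nat_lit 154)) (XT.lf (nat_lit 0) (nat_lit 225551196370) (nat_lit 76) (nat_lit 21748494558) (nat_lit 76) (nat_lit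 10509053420) (nat_lit 3) (nat_lit 4) (nat_lit 4) (nat_lit 5) (nat_lit 4) (nat_lit 4) (nat_lit 345) (nat_lit 222) (nat_lit 153))) (XT.nd (nat_lit 78) (nat_lit 0) (nat_lit 0) (XT.lf (nat_lit 0) (nat_lit 240038114406) (nat_lit 76) (nat_lit 20910886605) (nat_lit 76) (nat_lit 9652315432) (nat_lit 3) (nat_lit 4) (nat_lit 4) (nat_lit 5) (nat_lit 4) (nat_lit 4) (nat_lit 346) (nat_lit 222) (nat_lit 152)) (XT.nd (nat_lit 78) (nat_lit 0) (nat_lit 0) (XT.lf (nat_lit 0) (nat_lit 255239731515) (nat_lit 76) (nat_lit 20035435025) (nat_lit 76) (nat_lit 8758644771) (nat_lit 3) (nat_lit 4) (nat_lit 4) (nat_lit 5) (nat_lit 4) (nat_lit 4) (nat_lit 347) (nat_lit 222) (nat_lit 151)) (XT.lf (nat_lit 0) (nat_lit 271192242025) (nat_lit 76) (nat_lit 19120055408) (nat_lit 76) (nat_lit 7825913648) (nat_lit 3) (nat_lit 4) (nat_lit 4) (nat_lit 5) (nat_lit 4) (nat_lit 4) (nat_lit 348) (nat_lit 222) (nat_lit 150))))))))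
noncomputable def xc47 : XT := (XT.nd (nat_lit 33384) (nat_lit 0) (nat_lit 76) (XT.nd (nat_lit 32136) (nat_lit 0) (nat_lit 380) (XT.nd (nat_lit 624) (nat_lit 0) (nat_lit 0) (XT.nd (nat_lit 312) (nat_lit 76) (nat_lit 0) (XT.nd (nat_lit 156) (nat_lit 0) (nat_lit 0) (XT.nd (nat_lit 78) (nat_lit 0) (nat_lit 0) (XT.lf (nat_lit 0) (nat_lit 287933628103) (nat_lit 76) (nat_lit 18162568279) (nat_lit 76) (nat_lit 6851901275) (nat_lit 3) (nat_lit 4) (nat_lit 4) (nat_lit 5) (nat_lit 4) (nat_lit 4) (nat_lit 349) (nat_lit 222) (nat_lit 149)) (XT.lf (nat_lit 0) (nat_lit 305503750191) (nat_lit 76) (nat_lit 17160693907) (nat_lit 76) (nat_lit 5834288576) (nat_lit 3) (nat_lit 4) (nat_lit 4) (nat_lit 5) (nat_lit 4) (nat_lit 4) (nat_lit 350) (nat_lit 222) (nat_lit 148))) (XT.nd (nat_lit 78) (nat_lit 0) (nat_lit 0) (XT.lf (nat_lit 0) (nat_lit 323944441916) (nat_lit 76) (nat_lit 16112046877) (nat_lit 76)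 (nat_lit 4770652663) (nat_lit 3) (nat_lit 4) (nat_lit 4) (nat_lit 5) (nat_lit 4) (nat_lit 4) (nat_lit 351) (nat_lit 222) (nat_lit 147)) (XT.lf (nat_lit 0) (nat_lit 343299609684) (nat_lit 76) (nat_lit 15014130411) (nat_lit 76) (nat_lit 3658461069) (nat_lit 3) (nat_lit 4) (nat_lit 4) (nat_lit 5) (nat_lit 4) (nat_lit 4) (nat_lit 352) (nat_lit 222) (nat_lit 146)))) (XT.nd (nat_lit 156) (nat_lit 76) (nat_lit 0) (XT.nd (nat_lit 78) (nat_lit 0) (nat_lit 0) (XT.lf (nat_lit 0) (nat_lit 363615337228) (nat_lit 76) (nat_lit 13864330421) (nat_lit 76) (nat_lit 2495065720) (nat_lit 3) (nat_lit 4) (nat_lit 4) (nat_lit 5) (nat_lit 4) (nat_lit 4) (nat_lit 353) (nat_lit 222) (nat_lit 145)) (XT.lf (nat_lit 0) (nat_lit 384939995330) (nat_lit 76) (nat_lit 12659909288) (nat_lit 76) (nat_lit 1277696627) (nat_lit 3) (nat_lit 4) (nat_lit 4) (nat_lit 5) (nat_lit 4) (nat_lit 4) (nat_lit 354) (nat_lit 222) (nat_lit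 144))) (XT.nd (nat_lit 78) (nat_lit 76) (nat_lit 0) (XT.lf (nat_lit 0) (nat_lit 407324356983) (nat_lit 76) (nat_lit 11397999343) (nat_lit 76) (nat_lit 3455290) (nat_lit 3) (nat_lit 4) (nat_lit 4) (nat_lit 5) (nat_lit 4) (nat_lit 4) (nat_lit 355) (nat_lit 222) (nat_lit 143)) (XT.lf (nat_lit 0) (nat_lit 1288101735) (nat_lit 152) (nat_lit 8765679677) (nat_lit 76) (nat_lit 429511801927) (nat_lit 2) (nat_lit 5) (nat_lit 4) (nat_lit 5) (nat_lit 3) (nat_lit 4) (nat_lit 356) (nat_lit 222) (nat_lit 142))))) (XT.nd (nat_lit 31200) (nat_lit 0) (nat_lit 988) (XT.nd (nat_lit 31044) (nat_lit 0) (nat_lit 1292) (XT.nd (nat_lit 78) (nat_lit 0) (nat_lit 0) (XT.lf (nat_lit 0) (nat_lit 2640611822) (nat_lit 152) (nat_lit 6004218934) (nat_lit 76) (nat_lit 452802693482) (nat_lit 2) (nat_lit 5) (nat_lit 4) (nat_lit 5) (nat_lit 3) (nat_lit 4) (nat_lit 357) (nat_lit 222) (nat_lit 141)) (XT.lf (nat_lit 0) (nat_lit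 4057405823) (nat_lit 152) (nat_lit 3110443551) (nat_lit 76) (nat_lit 477255887496) (nat_lit 2) (nat_lit 5) (nat_lit 4) (nat_lit 5) (nat_lit 3) (nat_lit 4) (nat_lit 358) (nat_lit 222) (nat_lit 140))) (XT.nd (nat_lit 78) (nat_lit 228) (nat_lit 0) (XT.lf (nat_lit 0) (nat_lit 5397225862) (nat_lit 228) (nat_lit 107449447) (nat_lit 228) (nat_lit 107449447) (nat_lit 22) (nat_lit 4) (nat_lit 25) (nat_lit 5) (nat_lit 25) (nat_lit 4) (nat_lit 274) (nat_lit 223) (nat_lit 223)) (XT.lf (nat_lit 0) (nat_lit 2867855651) (nat_lit 228) (nat_lit 6549917209) (nat_lit 0) (nat_lit 2160359792) (nat_lit 19) (nat_lit 5) (nat_lit 22) (nat_lit 4) (nat_lit 19) (nat_lit 4) (nat_lit 275) (nat_lit 223) (nat_lit 222)))) (XT.nd (nat_lit 156) (nat_lit 152) (nat_lit 0) (XT.nd (nat_lit 78) (nat_lit 152) (nat_lit 0) (XT.lf (nat_lit 0) (nat_lit 5987523165) (nat_lit 228) (nat_lit 1361794402) (nat_lit 0) (nat_lit 4606221726)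 (nat_lit 19) (nat_lit 5) (nat_lit 22) (nat_lit 4) (nat_lit 19) (nat_lit 4) (nat_lit 276) (nat_lit 223) (nat_lit 221)) (XT.lf (nat_lit 0) (nat_lit 4044385714) (nat_lit 152) (nat_lit 5166766974) (nat_lit 152) (nat_lit 3143745935) (nat_lit 17) (nat_lit 4) (nat_lit 19) (nat_lit 5) (nat_lit 19) (nat_lit 4) (nat_lit 277) (nat_lit 223) (nat_lit 220))) (XT.nd (nat_lit 78) (nat_lit 152) (nat_lit 0) (XT.lf (nat_lit 0) (nat_lit 9600113583) (nat_lit 152) (nat_lit 2906607696) (nat_lit 152) (nat_lit 272425134) (nat_lit 17) (nat_lit 4) (nat_lit 19) (nat_lit 5) (nat_lit 19) (nat_lit 4) (nat_lit 278) (nat_lit 223) (nat_lit 219)) (XT.lf (nat_lit 0) (nat_lit 2068341605) (nat_lit 76) (nat_lit 509503644) (nat_lit 152) (nat_lit 10648878251) (nat_lit 15) (nat_lit 5) (nat_lit 16) (nat_lit 5) (nat_lit 17) (nat_lit 4) (nat_lit 279) (nat_lit 223) (nat_lit 218)))))) (XT.nd (nat_lit 624) (nat_lit 304) (nat_lit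 0) (XT.nd (nat_lit 312) (nat_lit 152) (nat_lit 0) (XT.nd (nat_lit 156) (nat_lit 152) (nat_lit 0) (XT.nd (nat_lit 78) (nat_lit 0) (nat_lit 0) (XT.lf (nat_lit 0) (nat_lit 5540222375) (nat_lit 152) (nat_lit 6208501043) (nat_lit 0) (nat_lit 1949191257) (nat_lit 15) (nat_lit 5) (nat_lit 17) (nat_lit 4) (nat_lit 15) (nat_lit 4) (nat_lit 280) (nat_lit 223) (nat_lit 217)) (XT.lf (nat_lit 0) (nat_lit 8556866524) (nat_lit 152) (nat_lit 1177837272) (nat_lit 0) (nat_lit 4463031308) (nat_lit 15) (nat_lit 5) (nat_lit 17) (nat_lit 4) (nat_lit 15) (nat_lit 4) (nat_lit 281) (nat_lit 223) (nat_lit 216))) (XT.nd (nat_lit 78) (nat_lit 0) (nat_lit 0) (XT.lf (nat_lit 0) (nat_lit 4084263917) (nat_lit 152) (nat_lit 7606508289) (nat_lit 152) (nat_lit 3033812027) (nat_lit 13) (nat_lit 4) (nat_lit 15) (nat_lit 5) (nat_lit 15) (nat_lit 4) (nat_lit 282) (nat_lit 223) (nat_lit 215)) (XT.lf (nat_lit 0) (nat_lit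 9501976842) (nat_lit 152) (nat_lit 5404324507) (nat_lit 152) (nat_lit 375570106) (nat_lit 13) (nat_lit 4) (nat_lit 15) (nat_lit 5) (nat_lit 15) (nat_lit 4) (nat_lit 283) (nat_lit 223) (nat_lit 214)))) (XT.nd (nat_lit 156) (nat_lit 0) (nat_lit 0) (XT.nd (nat_lit 78) (nat_lit 76) (nat_lit 0) (XT.lf (nat_lit 0) (nat_lit 2245976944) (nat_lit 228) (nat_lit 858842748) (nat_lit 76) (nat_lit 12765242546) (nat_lit 12) (nat_lit 5) (nat_lit 15) (nat_lit 5) (nat_lit 13) (nat_lit 4) (nat_lit 284) (nat_lit 223) (nat_lit 213)) (XT.lf (nat_lit 0) (nat_lit 4302004313) (nat_lit 76) (nat_lit 663243478) (nat_lit 152) (nat_lit 11523438993) (nat_lit 11) (nat_lit 5) (nat_lit 12) (nat_lit 5) (nat_lit 13) (nat_lit 4) (nat_lit 285) (nat_lit 223) (nat_lit 212))) (XT.nd (nat_lit 78) (nat_lit 0) (nat_lit 0) (XT.lf (nat_lit 0) (nat_lit 7778330452) (nat_lit 152) (nat_lit 7556079049) (nat_lit 0) (nat_lit 1806222044)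 (nat_lit 11) (nat_lit 5) (nat_lit 13) (nat_lit 4) (nat_lit 11) (nat_lit 4) (nat_lit 286) (nat_lit 223) (nat_lit 211)) (XT.lf (nat_lit 0) (nat_lit 10660458336) (nat_lit 152) (nat_lit 2837547208) (nat_lit 0) (nat_lit 4331016443) (nat_lit 11) (nat_lit 5) (nat_lit 13) (nat_lit 4) (nat_lit 11) (nat_lit 4) (nat_lit 287) (nat_lit 223) (nat_lit 210))))) (XT.nd (nat_lit 312) (nat_lit 76) (nat_lit 0) (XT.nd (nat_lit 156) (nat_lit 76) (nat_lit 0) (XT.nd (nat_lit 78) (nat_lit 0) (nat_lit 0) (XT.lf (nat_lit 0) (nat_lit 2056317749) (nat_lit 152) (nat_lit 11583925699) (nat_lit 152) (nat_lit 4914166201) (nat_lit 9) (nat_lit 4) (nat_lit 11) (nat_lit 5) (nat_lit 11) (nat_lit 4) (nat_lit 288) (nat_lit 223) (nat_lit 209)) (XT.lf (nat_lit 0) (nat_lit 7169019547) (nat_lit 152) (nat_lit 9571298364) (nat_lit 152) (nat_lit 2577426862) (nat_lit 9) (nat_lit 4) (nat_lit 11) (nat_lit 5) (nat_lit 11) (nat_lit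 4) (nat_lit 289) (nat_lit 223) (nat_lit 208))) (XT.nd (nat_lit 78) (nat_lit 76) (nat_lit 0) (XT.lf (nat_lit 0) (nat_lit 12418909161) (nat_lit 152) (nat_lit 7503386805) (nat_lit 152) (nat_lit 200837203) (nat_lit 9) (nat_lit 4) (nat_lit 11) (nat_lit 5) (nat_lit 11) (nat_lit 4) (nat_lit 290) (nat_lit 223) (nat_lit 207)) (XT.lf (nat_lit 0) (nat_lit 2150167086) (nat_lit 228) (nat_lit 3188686216) (nat_lit 76) (nat_lit 15631905119) (nat_lit 8) (nat_lit 5) (nat_lit 11) (nat_lit 5) (nat_lit 9) (nat_lit 4) (nat_lit 291) (nat_lit 223) (nat_lit 206)))) (XT.nd (nat_lit 156) (nat_lit 0) (nat_lit 0) (XT.nd (nat_lit 78) (nat_lit 0) (nat_lit 0) (XT.lf (nat_lit 0) (nat_lit 1487061172) (nat_lit 76) (nat_lit 3080533975) (nat_lit 152) (nat_lit 17295424005) (nat_lit 7) (nat_lit 5) (nat_lit 8) (nat_lit 5) (nat_lit 9) (nat_lit 4) (nat_lit 292) (nat_lit 223) (nat_lit 205)) (XT.lf (nat_lit 0) (nat_lit 6399201889)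 (nat_lit 76) (nat_lit 694631534) (nat_lit 152) (nat_lit 15706853019) (nat_lit 7) (nat_lit 5) (nat_lit 8) (nat_lit 5) (nat_lit 9) (nat_lit 4) (nat_lit 293) (nat_lit 223) (nat_lit 204))) (XT.nd (nat_lit 78) (nat_lit 0) (nat_lit 0) (XT.lf (nat_lit 0) (nat_lit 9711109323) (nat_lit 152) (nat_lit 12362208190) (nat_lit 0) (nat_lit 1713864689) (nat_lit 7) (nat_lit 5) (nat_lit 9) (nat_lit 4) (nat_lit 7) (nat_lit 4) (nat_lit 294) (nat_lit 223) (nat_lit 203)) (XT.lf (nat_lit 0) (nat_lit 12410119945) (nat_lit 152) (nat_lit 8232977055) (nat_lit 0) (nat_lit 4182534960) (nat_lit 7) (nat_lit 5) (nat_lit 9) (nat_lit 4) (nat_lit 7) (nat_lit 4) (nat_lit 295) (nat_lit 223) (nat_lit 202))))))) (XT.nd (nat_lit 1248) (nat_lit 76) (nat_lit 0) (XT.nd (nat_lit 624) (nat_lit 76) (nat_lit 0) (XT.nd (nat_lit 312) (nat_lit 76) (nat_lit 0) (XT.nd (nat_lit 156) (nat_lit 0) (nat_lit 0) (XT.nd (nat_lit 78) (nat_lit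 76) (nat_lit 0) (XT.lf (nat_lit 0) (nat_lit 15186446358) (nat_lit 152) (nat_lit 3993114501) (nat_lit 0) (nat_lit 6739489612) (nat_lit 7) (nat_lit 5) (nat_lit 9) (nat_lit 4) (nat_lit 7) (nat_lit 4) (nat_lit 296) (nat_lit 223) (nat_lit 201)) (XT.lf (nat_lit 0) (nat_lit 379624744) (nat_lit 76) (nat_lit 17673001127) (nat_lit 76) (nat_lit 9017118892) (nat_lit 6) (nat_lit 4) (nat_lit 7) (nat_lit 5) (nat_lit 7) (nat_lit 4) (nat_lit 297) (nat_lit 223) (nat_lit 200))) (XT.nd (nat_lit 78) (nat_lit 0) (nat_lit 0) (XT.lf (nat_lit 0) (nat_lit 5019838119) (nat_lit 76) (nat_lit 16056223213) (nat_lit 76) (nat_lit 7201364323) (nat_lit 6) (nat_lit 4) (nat_lit 7) (nat_lit 5) (nat_lit 7) (nat_lit 4) (nat_lit 298) (nat_lit 223) (nat_lit 199)) (XT.lf (nat_lit 0) (nat_lit 9806543351) (nat_lit 76) (nat_lit 14393002972) (nat_lit 76) (nat_lit 5348642505) (nat_lit 6) (nat_lit 4) (nat_lit 7) (nat_lit 5) (nat_lit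 7) (nat_lit 4) (nat_lit 299) (nat_lit 223) (nat_lit 198)))) (XT.nd (nat_lit 156) (nat_lit 76) (nat_lit 0) (XT.nd (nat_lit 78) (nat_lit 0) (nat_lit 0) (XT.lf (nat_lit 0) (nat_lit 14751137357) (nat_lit 76) (nat_lit 12679380357) (nat_lit 76) (nat_lit 3454542198) (nat_lit 6) (nat_lit 4) (nat_lit 7) (nat_lit 5) (nat_lit 7) (nat_lit 4) (nat_lit 300) (nat_lit 223) (nat_lit 197)) (XT.lf (nat_lit 0) (nat_lit 19865392979) (nat_lit 76) (nat_lit 10911275313) (nat_lit 76) (nat_lit 1514553638) (nat_lit 6) (nat_lit 4) (nat_lit 7) (nat_lit 5) (nat_lit 7) (nat_lit 4) (nat_lit 301) (nat_lit 223) (nat_lit 196))) (XT.nd (nat_lit 78) (nat_lit 0) (nat_lit 0) (XT.lf (nat_lit 0) (nat_lit 460709071) (nat_lit 152) (nat_lit 8615966664) (nat_lit 76) (nat_lit 24692975615) (nat_lit 5) (nat_lit 5) (nat_lit 7) (nat_lit 5) (nat_lit 6) (nat_lit 4) (nat_lit 302) (nat_lit 223) (nat_lit 195)) (XT.lf (nat_lit 0) (nat_lit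 2440974921) (nat_lit 152) (nat_lit 4712325088) (nat_lit 76) (nat_lit 28169715208) (nat_lit 5) (nat_lit 5) (nat_lit 7) (nat_lit 5) (nat_lit 6) (nat_lit 4) (nat_lit 303) (nat_lit 223) (nat_lit 194))))) (XT.nd (nat_lit 312) (nat_lit 0) (nat_lit 0) (XT.nd (nat_lit 156) (nat_lit 0) (nat_lit 0) (XT.nd (nat_lit 78) (nat_lit 76) (nat_lit 0) (XT.lf (nat_lit 0) (nat_lit 4479434003) (nat_lit 152) (nat_lit 681963413) (nat_lit 76) (nat_lit 31794796920) (nat_lit 5) (nat_lit 5) (nat_lit 7) (nat_lit 5) (nat_lit 6) (nat_lit 4) (nat_lit 304) (nat_lit 223) (nat_lit 193)) (XT.lf (nat_lit 0) (nat_lit 3599934857) (nat_lit 76) (nat_lit 3037210006) (nat_lit 152) (nat_lit 32033122113) (nat_lit 4) (nat_lit 5) (nat_lit 5) (nat_lit 5) (nat_lit 6) (nat_lit 4) (nat_lit 305) (nat_lit 223) (nat_lit 192))) (XT.nd (nat_lit 78) (nat_lit 0) (nat_lit 0) (XT.lf (nat_lit 0) (nat_lit 8055454031) (nat_lit 76) (nat_lit 820810055)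 (nat_lit 152) (nat_lit 31595199219) (nat_lit 4) (nat_lit 5) (nat_lit 5) (nat_lit 5) (nat_lit 6) (nat_lit 4) (nat_lit 306) (nat_lit 223) (nat_lit 191)) (XT.lf (nat_lit 0) (nat_lit 11214254335) (nat_lit 152) (nat_lit 29715098998) (nat_lit 0) (nat_lit 1434111979) (nat_lit 4) (nat_lit 5) (nat_lit 6) (nat_lit 4) (nat_lit 4) (nat_lit 4) (nat_lit 307) (nat_lit 223) (nat_lit 190)))) (XT.nd (nat_lit 156) (nat_lit 0) (nat_lit 0) (XT.nd (nat_lit 78) (nat_lit 0) (nat_lit 0) (XT.lf (nat_lit 0) (nat_lit 13647738840) (nat_lit 152) (nat_lit 26952227140) (nat_lit 0) (nat_lit 3751258955) (nat_lit 4) (nat_lit 5) (nat_lit 6) (nat_lit 4) (nat_lit 4) (nat_lit 4) (nat_lit 308) (nat_lit 223) (nat_lit 189)) (XT.lf (nat_lit 0) (nat_lit 16169696469) (nat_lit 152) (nat_lit 24108000289) (nat_lit 0) (nat_lit 6162418936) (nat_lit 4) (nat_lit 5) (nat_lit 6) (nat_lit 4) (nat_lit 4) (nat_lit 4) (nat_lit 309) (nat_lit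 223) (nat_lit 188))) (XT.nd (nat_lit 78) (nat_lit 0) (nat_lit 0) (XT.lf (nat_lit 0) (nat_lit 18786131881) (nat_lit 152) (nat_lit 21175646475) (nat_lit 0) (nat_lit 8673332780) (nat_lit 4) (nat_lit 5) (nat_lit 6) (nat_lit 4) (nat_lit 4) (nat_lit 4) (nat_lit 310) (nat_lit 223) (nat_lit 187)) (XT.lf (nat_lit 0) (nat_lit 21503274685) (nat_lit 152) (nat_lit 18148183905) (nat_lit 0) (nat_lit 11289978852) (nat_lit 4) (nat_lit 5) (nat_lit 6) (nat_lit 4) (nat_lit 4) (nat_lit 4) (nat_lit 311) (nat_lit 223) (nat_lit 186)))))) (XT.nd (nat_lit 624) (nat_lit 0) (nat_lit 0) (XT.nd (nat_lit 312) (nat_lit 76) (nat_lit 0) (XT.nd (nat_lit 156) (nat_lit 0) (nat_lit 0) (XT.nd (nat_lit 78) (nat_lit 0) (nat_lit 0) (XT.lf (nat_lit 0) (nat_lit 24327594268) (nat_lit 152) (nat_lit 15018404333) (nat_lit 0) (nat_lit 14018587262) (nat_lit 4) (nat_lit 5) (nat_lit 6) (nat_lit 4) (nat_lit 4) (nat_lit 4) (nat_lit 312)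 (nat_lit 223) (nat_lit 185)) (XT.lf (nat_lit 0) (nat_lit 27265815202) (nat_lit 152) (nat_lit 11778855904) (nat_lit 0) (nat_lit 16865654698) (nat_lit 4) (nat_lit 5) (nat_lit 6) (nat_lit 4) (nat_lit 4) (nat_lit 4) (nat_lit 313) (nat_lit 223) (nat_lit 184))) (XT.nd (nat_lit 78) (nat_lit 0) (nat_lit 0) (XT.lf (nat_lit 0) (nat_lit 30324933250) (nat_lit 152) (nat_lit 8421825407) (nat_lit 0) (nat_lit 19837959890) (nat_lit 4) (nat_lit 5) (nat_lit 6) (nat_lit 4) (nat_lit 4) (nat_lit 4) (nat_lit 314) (nat_lit 223) (nat_lit 183)) (XT.lf (nat_lit 0) (nat_lit 33512232026) (nat_lit 152) (nat_lit 4939319913) (nat_lit 0) (nat_lit 22942579756) (nat_lit 4) (nat_lit 5) (nat_lit 6) (nat_lit 4) (nat_lit 4) (nat_lit 4) (nat_lit 315) (nat_lit 223) (nat_lit 182)))) (XT.nd (nat_lit 156) (nat_lit 0) (nat_lit 0) (XT.nd (nat_lit 78) (nat_lit 76) (nat_lit 0) (XT.lf (nat_lit 0) (nat_lit 36835300338) (nat_lit 152)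 (nat_lit 1323047742) (nat_lit 0) (nat_lit 26186906248) (nat_lit 4) (nat_lit 5) (nat_lit 6) (nat_lit 4) (nat_lit 4) (nat_lit 4) (nat_lit 316) (nat_lit 223) (nat_lit 181)) (XT.lf (nat_lit 0) (nat_lit 2516133256) (nat_lit 76) (nat_lit 37825200887) (nat_lit 76) (nat_lit 27101814589) (nat_lit 3) (nat_lit 4) (nat_lit 4) (nat_lit 5) (nat_lit 4) (nat_lit 4) (nat_lit 317) (nat_lit 223) (nat_lit 180))) (XT.nd (nat_lit 78) (nat_lit 0) (nat_lit 0) (XT.lf (nat_lit 0) (nat_lit 6555389722) (nat_lit 76) (nat_lit 37467694217) (nat_lit 76) (nat_lit 26672886768) (nat_lit 3) (nat_lit 4) (nat_lit 4) (nat_lit 5) (nat_lit 4) (nat_lit 4) (nat_lit 318) (nat_lit 223) (nat_lit 179)) (XT.lf (nat_lit 0) (nat_lit 10760593001) (nat_lit 76) (nat_lit 37107383317) (nat_lit 76) (nat_lit 26244555724) (nat_lit 3) (nat_lit 4) (nat_lit 4) (nat_lit 5) (nat_lit 4) (nat_lit 4) (nat_lit 319) (nat_lit 223) (nat_lit 178)))))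 (XT.nd (nat_lit 312) (nat_lit 0) (nat_lit 0) (XT.nd (nat_lit 156) (nat_lit 0) (nat_lit 0) (XT.nd (nat_lit 78) (nat_lit 0) (nat_lit 0) (XT.lf (nat_lit 0) (nat_lit 15141755481) (nat_lit 76) (nat_lit 36743410303) (nat_lit 76) (nat_lit 25815801621) (nat_lit 3) (nat_lit 4) (nat_lit 4) (nat_lit 5) (nat_lit 4) (nat_lit 4) (nat_lit 320) (nat_lit 223) (nat_lit 177)) (XT.lf (nat_lit 0) (nat_lit 19709308501) (nat_lit 76) (nat_lit 36374908574) (nat_lit 76) (nat_lit 25385603616) (nat_lit 3) (nat_lit 4) (nat_lit 4) (nat_lit 5) (nat_lit 4) (nat_lit 4) (nat_lit 321) (nat_lit 223) (nat_lit 176))) (XT.nd (nat_lit 78) (nat_lit 0) (nat_lit 0) (XT.lf (nat_lit 0) (nat_lit 24474127188) (nat_lit 76) (nat_lit 36001000745) (nat_lit 76) (nat_lit 24952937428) (nat_lit 3) (nat_lit 4) (nat_lit 4) (nat_lit 5) (nat_lit 4) (nat_lit 4) (nat_lit 322) (nat_lit 223) (nat_lit 175)) (XT.lf (nat_lit 0) (nat_lit 29447556347)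 (nat_lit 76) (nat_lit 35620796558) (nat_lit 76) (nat_lit 24516772901) (nat_lit 3) (nat_lit 4) (nat_lit 4) (nat_lit 5) (nat_lit 4) (nat_lit 4) (nat_lit 323) (nat_lit 223) (nat_lit 174)))) (XT.nd (nat_lit 156) (nat_lit 0) (nat_lit 0) (XT.nd (nat_lit 78) (nat_lit 0) (nat_lit 0) (XT.lf (nat_lit 0) (nat_lit 34641437477) (nat_lit 76) (nat_lit 35233390765) (nat_lit 76) (nat_lit 24076071546) (nat_lit 3) (nat_lit 4) (nat_lit 4) (nat_lit 5) (nat_lit 4) (nat_lit 4) (nat_lit 324) (nat_lit 223) (nat_lit 173)) (XT.lf (nat_lit 0) (nat_lit 40068136962) (nat_lit 76) (nat_lit 34837860973) (nat_lit 76) (nat_lit 23629784074) (nat_lit 3) (nat_lit 4) (nat_lit 4) (nat_lit 5) (nat_lit 4) (nat_lit 4) (nat_lit 325) (nat_lit 223) (nat_lit 172))) (XT.nd (nat_lit 78) (nat_lit 0) (nat_lit 0) (XT.lf (nat_lit 0) (nat_lit 45740575514) (nat_lit 76) (nat_lit 34433265442) (nat_lit 76) (nat_lit 23176847897) (nat_lit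 3) (nat_lit 4) (nat_lit 4) (nat_lit 5) (nat_lit 4) (nat_lit 4) (nat_lit 326) (nat_lit 223) (nat_lit 171)) (XT.lf (nat_lit 0) (nat_lit 51672258939) (nat_lit 76) (nat_lit 34018640851) (nat_lit 76) (nat_lit 22716184596) (nat_lit 3) (nat_lit 4) (nat_lit 4) (nat_lit 5) (nat_lit 4) (nat_lit 4) (nat_lit 327) (nat_lit 223) (nat_lit 170))))))))
noncomputable def xc48 : XT := (XT.nd (nat_lit 1248) (nat_lit 76) (nat_lit 0) (XT.nd (nat_lit 624) (nat_lit 0) (nat_lit 0) (XT.nd (nat_lit 312) (nat_lit 0) (nat_lit 0) (XT.nd (nat_lit 156) (nat_lit 0) (nat_lit 0) (XT.nd (nat_lit 78) (nat_lit 0) (nat_lit 0) (XT.lf (nat_lit 0) (nat_lit 57877310294) (nat_lit 76) (nat_lit 33592999998) (nat_lit 76) (nat_lit 22246697351) (nat_lit 3) (nat_lit 4) (nat_lit 4) (nat_lit 5) (nat_lit 4) (nat_lit 4) (nat_lit 328) (nat_lit 223) (nat_lit 169)) (XT.lf (nat_lit 0) (nat_lit 64370503511) (nat_lit 76) (nat_lit 33155329453)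 (nat_lit 76) (nat_lit 21767268338) (nat_lit 3) (nat_lit 4) (nat_lit 4) (nat_lit 5) (nat_lit 4) (nat_lit 4) (nat_lit 329) (nat_lit 223) (nat_lit 168))) (XT.nd (nat_lit 78) (nat_lit 0) (nat_lit 0) (XT.lf (nat_lit 0) (nat_lit 71167298572) (nat_lit 76) (nat_lit 32704587143) (nat_lit 76) (nat_lit 21276756058) (nat_lit 3) (nat_lit 4) (nat_lit 4) (nat_lit 5) (nat_lit 4) (nat_lit 4) (nat_lit 330) (nat_lit 223) (nat_lit 167)) (XT.lf (nat_lit 0) (nat_lit 78283878323) (nat_lit 76) (nat_lit 32239699871) (nat_lit 76) (nat_lit 20773992625) (nat_lit 3) (nat_lit 4) (nat_lit 4) (nat_lit 5) (nat_lit 4) (nat_lit 4) (nat_lit 331) (nat_lit 223) (nat_lit 166)))) (XT.nd (nat_lit 156) (nat_lit 0) (nat_lit 0) (XT.nd (nat_lit 78) (nat_lit 0) (nat_lit 0) (XT.lf (nat_lit 0) (nat_lit 85737187003) (nat_lit 76) (nat_lit 31759560763) (nat_lit 76) (nat_lit 20257780983) (nat_lit 3) (nat_lit 4) (nat_lit 4) (nat_lit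 5) (nat_lit 4) (nat_lit 4) (nat_lit 332) (nat_lit 223) (nat_lit 165)) (XT.lf (nat_lit 0) (nat_lit 93544970583) (nat_lit 76) (nat_lit 31263026632) (nat_lit 76) (nat_lit 19726892057) (nat_lit 3) (nat_lit 4) (nat_lit 4) (nat_lit 5) (nat_lit 4) (nat_lit 4) (nat_lit 333) (nat_lit 223) (nat_lit 164))) (XT.nd (nat_lit 78) (nat_lit 0) (nat_lit 0) (XT.lf (nat_lit 0) (nat_lit 101725819026) (nat_lit 76) (nat_lit 30748915253) (nat_lit 76) (nat_lit 19180061825) (nat_lit 3) (nat_lit 4) (nat_lit 4) (nat_lit 5) (nat_lit 4) (nat_lit 4) (nat_lit 334) (nat_lit 223) (nat_lit 163)) (XT.lf (nat_lit 0) (nat_lit 110299210540) (nat_lit 76) (nat_lit 30216002550) (nat_lit 76) (nat_lit 18615988311) (nat_lit 3) (nat_lit 4) (nat_lit 4) (nat_lit 5) (nat_lit 4) (nat_lit 4) (nat_lit 335) (nat_lit 223) (nat_lit 162))))) (XT.nd (nat_lit 312) (nat_lit 0) (nat_lit 0) (XT.nd (nat_lit 156) (nat_lit 0) (nat_lit 0) (XT.nd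 (nat_lit 78) (nat_lit 0) (nat_lit 0) (XT.lf (nat_lit 0) (nat_lit 119285557964) (nat_lit 76) (nat_lit 29663019685) (nat_lit 76) (nat_lit 18033328483) (nat_lit 3) (nat_lit 4) (nat_lit 4) (nat_lit 5) (nat_lit 4) (nat_lit 4) (nat_lit 336) (nat_lit 223) (nat_lit 161)) (XT.lf (nat_lit 0) (nat_lit 128706257363) (nat_lit 76) (nat_lit 29088650032) (nat_lit 76) (nat_lit 17430695055) (nat_lit 3) (nat_lit 4) (nat_lit 4) (nat_lit 5) (nat_lit 4) (nat_lit 4) (nat_lit 337) (nat_lit 223) (nat_lit 160))) (XT.nd (nat_lit 78) (nat_lit 0) (nat_lit 0) (XT.lf (nat_lit 0) (nat_lit 138583738973) (nat_lit 76) (nat_lit 28491526043) (nat_lit 76) (nat_lit 16806653185) (nat_lit 3) (nat_lit 4) (nat_lit 4) (nat_lit 5) (nat_lit 4) (nat_lit 4) (nat_lit 338) (nat_lit 223) (nat_lit 159)) (XT.lf (nat_lit 0) (nat_lit 148941520608) (nat_lit 76) (nat_lit 27870225995) (nat_lit 76) (nat_lit 16159717061) (nat_lit 3) (nat_lit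 4) (nat_lit 4) (nat_lit 5) (nat_lit 4) (nat_lit 4) (nat_lit 339) (nat_lit 223) (nat_lit 158)))) (XT.nd (nat_lit 156) (nat_lit 0) (nat_lit 0) (XT.nd (nat_lit 78) (nat_lit 0) (nat_lit 0) (XT.lf (nat_lit 0) (nat_lit 159804263652) (nat_lit 76) (nat_lit 27223270603) (nat_lit 76) (nat_lit 15488346357) (nat_lit 3) (nat_lit 4) (nat_lit 4) (nat_lit 5) (nat_lit 4) (nat_lit 4) (nat_lit 340) (nat_lit 223) (nat_lit 157)) (XT.lf (nat_lit 0) (nat_lit 171197831780) (nat_lit 76) (nat_lit 26549119495) (nat_lit 76) (nat_lit 14790942572) (nat_lit 3) (nat_lit 4) (nat_lit 4) (nat_lit 5) (nat_lit 4) (nat_lit 4) (nat_lit 341) (nat_lit 223) (nat_lit 156))) (XT.nd (nat_lit 78) (nat_lit 0) (nat_lit 0) (XT.lf (nat_lit 0) (nat_lit 183149352534) (nat_lit 76) (nat_lit 25846167551) (nat_lit 76) (nat_lit 14065845221) (nat_lit 3) (nat_lit 4) (nat_lit 4) (nat_lit 5) (nat_lit 4) (nat_lit 4) (nat_lit 342) (nat_lit 223)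 (nat_lit 155)) (XT.lf (nat_lit 0) (nat_lit 195687281917) (nat_lit 76) (nat_lit 25112741076) (nat_lit 76) (nat_lit 13311327881) (nat_lit 3) (nat_lit 4) (nat_lit 4) (nat_lit 5) (nat_lit 4) (nat_lit 4) (nat_lit 343) (nat_lit 223) (nat_lit 154)))))) (XT.nd (nat_lit 624) (nat_lit 76) (nat_lit 0) (XT.nd (nat_lit 312) (nat_lit 0) (nat_lit 0) (XT.nd (nat_lit 156) (nat_lit 0) (nat_lit 0) (XT.nd (nat_lit 78) (nat_lit 0) (nat_lit 0) (XT.lf (nat_lit 0) (nat_lit 208841472141) (nat_lit 76) (nat_lit 24347093815) (nat_lit 76) (nat_lit 12525594083) (nat_lit 3) (nat_lit 4) (nat_lit 4) (nat_lit 5) (nat_lit 4) (nat_lit 4) (nat_lit 344) (nat_lit 223) (nat_lit 153)) (XT.lf (nat_lit 0) (nat_lit 222643242707) (nat_lit 76) (nat_lit 23547402799) (nat_lit 76) (nat_lit 11706773032) (nat_lit 3) (nat_lit 4) (nat_lit 4) (nat_lit 5) (nat_lit 4) (nat_lit 4) (nat_lit 345) (nat_lit 223) (nat_lit 152))) (XT.nd (nat_lit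 78) (nat_lit 0) (nat_lit 0) (XT.lf (nat_lit 0) (nat_lit 237125454973) (nat_lit 76) (nat_lit 22711764003) (nat_lit 76) (nat_lit 10852915154) (nat_lit 3) (nat_lit 4) (nat_lit 4) (nat_lit 5) (nat_lit 4) (nat_lit 4) (nat_lit 346) (nat_lit 223) (nat_lit 151)) (XT.lf (nat_lit 0) (nat_lit 252322590397) (nat_lit 76) (nat_lit 21838187809) (nat_lit 76) (nat_lit 9961987455) (nat_lit 3) (nat_lit 4) (nat_lit 4) (nat_lit 5) (nat_lit 4) (nat_lit 4) (nat_lit 347) (nat_lit 223) (nat_lit 150)))) (XT.nd (nat_lit 156) (nat_lit 0) (nat_lit 0) (XT.nd (nat_lit 78) (nat_lit 0) (nat_lit 0) (XT.lf (nat_lit 0) (nat_lit 268270832635) (nat_lit 76) (nat_lit 20924594274) (nat_lit 76) (nat_lit 9031868676) (nat_lit 3) (nat_lit 4) (nat_lit 4) (nat_lit 5) (nat_lit 4) (nat_lit 4) (nat_lit 348) (nat_lit 223) (nat_lit 149)) (XT.lf (nat_lit 0) (nat_lit 285008153692) (nat_lit 76) (nat_lit 19968808176) (nat_lit 76) (nat_lit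 8060344251) (nat_lit 3) (nat_lit 4) (nat_lit 4) (nat_lit 5) (nat_lit 4) (nat_lit 4) (nat_lit 349) (nat_lit 223) (nat_lit 148))) (XT.nd (nat_lit 78) (nat_lit 0) (nat_lit 0) (XT.lf (nat_lit 0) (nat_lit 302574404332) (nat_lit 76) (nat_lit 18968553834) (nat_lit 76) (nat_lit 7045101026) (nat_lit 3) (nat_lit 4) (nat_lit 4) (nat_lit 5) (nat_lit 4) (nat_lit 4) (nat_lit 350) (nat_lit 223) (nat_lit 147)) (XT.lf (nat_lit 0) (nat_lit 321011408962) (nat_lit 76) (nat_lit 17921449689) (nat_lit 76) (nat_lit 5983721754) (nat_lit 3) (nat_lit 4) (nat_lit 4) (nat_lit 5) (nat_lit 4) (nat_lit 4) (nat_lit 351) (nat_lit 223) (nat_lit 146))))) (XT.nd (nat_lit 312) (nat_lit 76) (nat_lit 0) (XT.nd (nat_lit 156) (nat_lit 0) (nat_lit 0) (XT.nd (nat_lit 78) (nat_lit 0) (nat_lit 0) (XT.lf (nat_lit 0) (nat_lit 340363065212) (nat_lit 76) (nat_lit 16825002637) (nat_lit 76) (nat_lit 4873679343) (nat_lit 3) (nat_lit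 4) (nat_lit 4) (nat_lit 5) (nat_lit 4) (nat_lit 4) (nat_lit 352) (nat_lit 223) (nat_lit 145)) (XT.lf (nat_lit 0) (nat_lit 360675448455) (nat_lit 76) (nat_lit 15676602089) (nat_lit 76) (nat_lit 3712330834) (nat_lit 3) (nat_lit 4) (nat_lit 4) (nat_lit 5) (nat_lit 4) (nat_lit 4) (nat_lit 353) (nat_lit 223) (nat_lit 144))) (XT.nd (nat_lit 78) (nat_lit 0) (nat_lit 0) (XT.lf (nat_lit 0) (nat_lit 381996921506) (nat_lit 76) (nat_lit 14473513759) (nat_lit 76) (nat_lit 2496911112) (nat_lit 3) (nat_lit 4) (nat_lit 4) (nat_lit 5) (nat_lit 4) (nat_lit 4) (nat_lit 354) (nat_lit 223) (nat_lit 143)) (XT.lf (nat_lit 0) (nat_lit 404378249778) (nat_lit 76) (nat_lit 13212873149) (nat_lit 76) (nat_lit 1224526321) (nat_lit 3) (nat_lit 4) (nat_lit 4) (nat_lit 5) (nat_lit 4) (nat_lit 4) (nat_lit 355) (nat_lit 223) (nat_lit 142)))) (XT.nd (nat_lit 156) (nat_lit 0) (nat_lit 0) (XT.nd (nat_lit 78) (nat_lit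 0) (nat_lit 0) (XT.lf (nat_lit 0) (nat_lit 104401057) (nat_lit 152) (nat_lit 11785509596) (nat_lit 76) (nat_lit 427766553009) (nat_lit 2) (nat_lit 5) (nat_lit 4) (nat_lit 5) (nat_lit 3) (nat_lit 4) (nat_lit 356) (nat_lit 223) (nat_lit 141)) (XT.lf (nat_lit 0) (nat_lit 1455281100) (nat_lit 152) (nat_lit 9026857828) (nat_lit 76) (nat_lit 451056350847) (nat_lit 2) (nat_lit 5) (nat_lit 4) (nat_lit 5) (nat_lit 3) (nat_lit 4) (nat_lit 357) (nat_lit 223) (nat_lit 140))) (XT.nd (nat_lit 30810) (nat_lit 0) (nat_lit 1748) (XT.lf (nat_lit 0) (nat_lit 2870522678) (nat_lit 152) (nat_lit 6135757659) (nat_lit 76) (nat_lit 475508503226) (nat_lit 2) (nat_lit 5) (nat_lit 4) (nat_lit 5) (nat_lit 3) (nat_lit 4) (nat_lit 358) (nat_lit 223) (nat_lit 139)) (XT.lf (nat_lit 0) (nat_lit 2574015298) (nat_lit 228) (nat_lit 135355744) (nat_lit 0) (nat_lit 2574015298) (nat_lit 25) (nat_lit 5) (nat_lit 28) (nat_lit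 4) (nat_lit 25) (nat_lit 4) (nat_lit 272) (nat_lit 224) (nat_lit 224)))))))
noncomputable def xc49 : XT := (XT.nd (nat_lit 1248) (nat_lit 380) (nat_lit 0) (XT.nd (nat_lit 624) (nat_lit 456) (nat_lit 0) (XT.nd (nat_lit 312) (nat_lit 304) (nat_lit 0) (XT.nd (nat_lit 156) (nat_lit 152) (nat_lit 0) (XT.nd (nat_lit 78) (nat_lit 76) (nat_lit 0) (XT.lf (nat_lit 0) (nat_lit 5165294433) (nat_lit 228) (nat_lit 3250338635) (nat_lit 228) (nat_lit 2470324451) (nat_lit 22) (nat_lit 4) (nat_lit 25) (nat_lit 5) (nat_lit 25) (nat_lit 4) (nat_lit 273) (nat_lit 224) (nat_lit 223)) (XT.lf (nat_lit 0) (nat_lit 486908618) (nat_lit 304) (nat_lit 524722167) (nat_lit 76) (nat_lit 10215442388) (nat_lit 21) (nat_lit 5) (nat_lit 25) (nat_lit 5) (nat_lit 22) (nat_lit 4) (nat_lit 274) (nat_lit 224) (nat_lit 222))) (XT.nd (nat_lit 78) (nat_lit 0) (nat_lit 0) (XT.lf (nat_lit 0) (nat_lit 3489802464) (nat_lit 228)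 (nat_lit 6729251360) (nat_lit 0) (nat_lit 1365630374) (nat_lit 19) (nat_lit 5) (nat_lit 22) (nat_lit 4) (nat_lit 19) (nat_lit 4) (nat_lit 275) (nat_lit 224) (nat_lit 221)) (XT.lf (nat_lit 0) (nat_lit 6553291655) (nat_lit 228) (nat_lit 1624442910) (nat_lit 0) (nat_lit 3787399965) (nat_lit 19) (nat_lit 5) (nat_lit 22) (nat_lit 4) (nat_lit 19) (nat_lit 4) (nat_lit 276) (nat_lit 224) (nat_lit 220)))) (XT.nd (nat_lit 156) (nat_lit 76) (nat_lit 0) (XT.nd (nat_lit 78) (nat_lit 76) (nat_lit 0) (XT.lf (nat_lit 0) (nat_lit 3691082284) (nat_lit 152) (nat_lit 6026819674) (nat_lit 152) (nat_lit 2649766460) (nat_lit 17) (nat_lit 4) (nat_lit 19) (nat_lit 5) (nat_lit 19) (nat_lit 4) (nat_lit 277) (nat_lit 224) (nat_lit 219)) (XT.lf (nat_lit 0) (nat_lit 161227528) (nat_lit 228) (nat_lit 3628595374) (nat_lit 76) (nat_lit 9004784943) (nat_lit 16) (nat_lit 5) (nat_lit 19) (nat_lit 5) (nat_lit 17) (nat_lit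 4) (nat_lit 278) (nat_lit 224) (nat_lit 218))) (XT.nd (nat_lit 78) (nat_lit 0) (nat_lit 0) (XT.lf (nat_lit 0) (nat_lit 1520781113) (nat_lit 76) (nat_lit 1422747881) (nat_lit 152) (nat_lit 10301598903) (nat_lit 15) (nat_lit 5) (nat_lit 16) (nat_lit 5) (nat_lit 17) (nat_lit 4) (nat_lit 279) (nat_lit 224) (nat_lit 217)) (XT.lf (nat_lit 0) (nat_lit 5841792037) (nat_lit 152) (nat_lit 6837455731) (nat_lit 0) (nat_lit 1040460962) (nat_lit 15) (nat_lit 5) (nat_lit 17) (nat_lit 4) (nat_lit 15) (nat_lit 4) (nat_lit 280) (nat_lit 224) (nat_lit 216))))) (XT.nd (nat_lit 312) (nat_lit 228) (nat_lit 0) (XT.nd (nat_lit 156) (nat_lit 76) (nat_lit 0) (XT.nd (nat_lit 78) (nat_lit 152) (nat_lit 0) (XT.lf (nat_lit 0) (nat_lit 8810954488) (nat_lit 152) (nat_lit 1880361580) (nat_lit 0) (nat_lit 3530762368) (nat_lit 15) (nat_lit 5) (nat_lit 17) (nat_lit 4) (nat_lit 15) (nat_lit 4) (nat_lit 281) (nat_lit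 224) (nat_lit 215)) (XT.lf (nat_lit 0) (nat_lit 3286127971) (nat_lit 152) (nat_lit 8601050398) (nat_lit 152) (nat_lit 2864800138) (nat_lit 13) (nat_lit 4) (nat_lit 15) (nat_lit 5) (nat_lit 15) (nat_lit 4) (nat_lit 282) (nat_lit 224) (nat_lit 214))) (XT.nd (nat_lit 78) (nat_lit 76) (nat_lit 0) (XT.lf (nat_lit 0) (nat_lit 8634904693) (nat_lit 152) (nat_lit 6423659232) (nat_lit 152) (nat_lit 253067888) (nat_lit 13) (nat_lit 4) (nat_lit 15) (nat_lit 5) (nat_lit 15) (nat_lit 4) (nat_lit 283) (nat_lit 224) (nat_lit 213)) (XT.lf (nat_lit 0) (nat_lit 2321681116) (nat_lit 228) (nat_lit 1824803230) (nat_lit 76) (nat_lit 11755530612) (nat_lit 12) (nat_lit 5) (nat_lit 15) (nat_lit 5) (nat_lit 13) (nat_lit 4) (nat_lit 284) (nat_lit 224) (nat_lit 212)))) (XT.nd (nat_lit 156) (nat_lit 152) (nat_lit 0) (XT.nd (nat_lit 78) (nat_lit 0) (nat_lit 0) (XT.lf (nat_lit 0) (nat_lit 3237973562) (nat_lit 76)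 (nat_lit 1745530461) (nat_lit 152) (nat_lit 11540145147) (nat_lit 11) (nat_lit 5) (nat_lit 12) (nat_lit 5) (nat_lit 13) (nat_lit 4) (nat_lit 285) (nat_lit 224) (nat_lit 211)) (XT.lf (nat_lit 0) (nat_lit 7739454149) (nat_lit 152) (nat_lit 8702920462) (nat_lit 0) (nat_lit 736206677) (nat_lit 11) (nat_lit 5) (nat_lit 13) (nat_lit 4) (nat_lit 11) (nat_lit 4) (nat_lit 286) (nat_lit 224) (nat_lit 210))) (XT.nd (nat_lit 78) (nat_lit 152) (nat_lit 0) (XT.lf (nat_lit 0) (nat_lit 10583262985) (nat_lit 152) (nat_lit 4046051297) (nat_lit 0) (nat_lit 3239697908) (nat_lit 11) (nat_lit 5) (nat_lit 13) (nat_lit 4) (nat_lit 11) (nat_lit 4) (nat_lit 287) (nat_lit 224) (nat_lit 209)) (XT.lf (nat_lit 0) (nat_lit 747186940) (nat_lit 152) (nat_lit 12758927624) (nat_lit 152) (nat_lit 5091250542) (nat_lit 9) (nat_lit 4) (nat_lit 11) (nat_lit 5) (nat_lit 11) (nat_lit 4) (nat_lit 288) (nat_lit 224) (nat_lit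 208)))))) (XT.nd (nat_lit 624) (nat_lit 228) (nat_lit 0) (XT.nd (nat_lit 312) (nat_lit 76) (nat_lit 0) (XT.nd (nat_lit 156) (nat_lit 76) (nat_lit 0) (XT.nd (nat_lit 78) (nat_lit 0) (nat_lit 0) (XT.lf (nat_lit 0) (nat_lit 5802109580) (nat_lit 152) (nat_lit 10768420846) (nat_lit 152) (nat_lit 2792065664) (nat_lit 9) (nat_lit 4) (nat_lit 11) (nat_lit 5) (nat_lit 11) (nat_lit 4) (nat_lit 289) (nat_lit 224) (nat_lit 207)) (XT.lf (nat_lit 0) (nat_lit 10996971424) (nat_lit 152) (nat_lit 8721576485) (nat_lit 152) (nat_lit 451242160) (nat_lit 9) (nat_lit 4) (nat_lit 11) (nat_lit 5) (nat_lit 11) (nat_lit 4) (nat_lit 290) (nat_lit 224) (nat_lit 206))) (XT.nd (nat_lit 78) (nat_lit 0) (nat_lit 0) (XT.lf (nat_lit 0) (nat_lit 1874803876) (nat_lit 228) (nat_lit 4706966512) (nat_lit 76) (nat_lit 14437586602) (nat_lit 8) (nat_lit 5) (nat_lit 11) (nat_lit 5) (nat_lit 9) (nat_lit 4) (nat_lit 291) (nat_lit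 224) (nat_lit 205)) (XT.lf (nat_lit 0) (nat_lit 4237612101) (nat_lit 228) (nat_lit 129857399) (nat_lit 76) (nat_lit 17546972120) (nat_lit 8) (nat_lit 5) (nat_lit 11) (nat_lit 5) (nat_lit 9) (nat_lit 4) (nat_lit 292) (nat_lit 224) (nat_lit 204)))) (XT.nd (nat_lit 156) (nat_lit 0) (nat_lit 0) (XT.nd (nat_lit 78) (nat_lit 0) (nat_lit 0) (XT.lf (nat_lit 0) (nat_lit 4727769888) (nat_lit 76) (nat_lit 2003294664) (nat_lit 152) (nat_lit 16122772134) (nat_lit 7) (nat_lit 5) (nat_lit 8) (nat_lit 5) (nat_lit 9) (nat_lit 4) (nat_lit 293) (nat_lit 224) (nat_lit 203)) (XT.lf (nat_lit 0) (nat_lit 9298388321) (nat_lit 152) (nat_lit 14115442265) (nat_lit 0) (nat_lit 429083737) (nat_lit 7) (nat_lit 5) (nat_lit 9) (nat_lit 4) (nat_lit 7) (nat_lit 4) (nat_lit 294) (nat_lit 224) (nat_lit 202))) (XT.nd (nat_lit 78) (nat_lit 0) (nat_lit 0) (XT.lf (nat_lit 0) (nat_lit 11969284436) (nat_lit 152) (nat_lit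 10032957539) (nat_lit 0) (nat_lit 2880608090) (nat_lit 7) (nat_lit 5) (nat_lit 9) (nat_lit 4) (nat_lit 7) (nat_lit 4) (nat_lit 295) (nat_lit 224) (nat_lit 201)) (XT.lf (nat_lit 0) (nat_lit 14718835130) (nat_lit 152) (nat_lit 5837615375) (nat_lit 0) (nat_lit 5421233295) (nat_lit 7) (nat_lit 5) (nat_lit 9) (nat_lit 4) (nat_lit 7) (nat_lit 4) (nat_lit 296) (nat_lit 224) (nat_lit 200))))) (XT.nd (nat_lit 312) (nat_lit 152) (nat_lit 0) (XT.nd (nat_lit 156) (nat_lit 0) (nat_lit 0) (XT.nd (nat_lit 78) (nat_lit 76) (nat_lit 0) (XT.lf (nat_lit 0) (nat_lit 17553586950) (nat_lit 152) (nat_lit 1519426861) (nat_lit 0) (nat_lit 8057008460) (nat_lit 7) (nat_lit 5) (nat_lit 9) (nat_lit 4) (nat_lit 7) (nat_lit 4) (nat_lit 297) (nat_lit 224) (nat_lit 199)) (XT.lf (nat_lit 0) (nat_lit 3028830905) (nat_lit 76) (nat_lit 17498746941) (nat_lit 76) (nat_lit 7812666875) (nat_lit 6) (nat_lit 4) (nat_lit 7)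 (nat_lit 5) (nat_lit 7) (nat_lit 4) (nat_lit 298) (nat_lit 224) (nat_lit 198))) (XT.nd (nat_lit 78) (nat_lit 0) (nat_lit 0) (XT.lf (nat_lit 0) (nat_lit 7775806143) (nat_lit 76) (nat_lit 15851506524) (nat_lit 76) (nat_lit 5984948765) (nat_lit 6) (nat_lit 4) (nat_lit 7) (nat_lit 5) (nat_lit 7) (nat_lit 4) (nat_lit 299) (nat_lit 224) (nat_lit 197)) (XT.lf (nat_lit 0) (nat_lit 12682562059) (nat_lit 76) (nat_lit 14153102787) (nat_lit 76) (nat_lit 4114661513) (nat_lit 6) (nat_lit 4) (nat_lit 7) (nat_lit 5) (nat_lit 7) (nat_lit 4) (nat_lit 300) (nat_lit 224) (nat_lit 196)))) (XT.nd (nat_lit 156) (nat_lit 152) (nat_lit 0) (XT.nd (nat_lit 78) (nat_lit 0) (nat_lit 0) (XT.lf (nat_lit 0) (nat_lit 17760781406) (nat_lit 76) (nat_lit 12399491914) (nat_lit 76) (nat_lit 2197352053) (nat_lit 6) (nat_lit 4) (nat_lit 7) (nat_lit 5) (nat_lit 7) (nat_lit 4) (nat_lit 301) (nat_lit 224) (nat_lit 195)) (XT.lf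 (nat_lit 0) (nat_lit 23022555182) (nat_lit 76) (nat_lit 10586498640) (nat_lit 76) (nat_lit 228455363) (nat_lit 6) (nat_lit 4) (nat_lit 7) (nat_lit 5) (nat_lit 7) (nat_lit 4) (nat_lit 302) (nat_lit 224) (nat_lit 194))) (XT.nd (nat_lit 78) (nat_lit 76) (nat_lit 0) (XT.lf (nat_lit 0) (nat_lit 1739210260) (nat_lit 152) (nat_lit 6941141687) (nat_lit 76) (nat_lit 26711746793) (nat_lit 5) (nat_lit 5) (nat_lit 7) (nat_lit 5) (nat_lit 6) (nat_lit 4) (nat_lit 303) (nat_lit 224) (nat_lit 193)) (XT.nd (nat_lit 78) (nat_lit 76) (nat_lit 0) (XT.lf (nat_lit 0) (nat_lit 3758705319) (nat_lit 152) (nat_lit 2942585809) (nat_lit 76) (nat_lit 30324984203) (nat_lit 5) (nat_lit 5) (nat_lit 7) (nat_lit 5) (nat_lit 6) (nat_lit 4) (nat_lit 304) (nat_lit 224) (nat_lit 192)) (XT.lf (nat_lit 0) (nat_lit 1233273275) (nat_lit 76) (nat_lit 4628131711) (nat_lit 152) (nat_lit 32881740472) (nat_lit 4) (nat_lit 5) (nat_lit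 5) (nat_lit 5) (nat_lit 6) (nat_lit 4) (nat_lit 305) (nat_lit 224) (nat_lit 191))))))))
noncomputable def xc50 : XT := (XT.nd (nat_lit 1248) (nat_lit 0) (nat_lit 0) (XT.nd (nat_lit 624) (nat_lit 76) (nat_lit 0) (XT.nd (nat_lit 312) (nat_lit 0) (nat_lit 0) (XT.nd (nat_lit 156) (nat_lit 0) (nat_lit 0) (XT.nd (nat_lit 78) (nat_lit 0) (nat_lit 0) (XT.lf (nat_lit 0) (nat_lit 5658989781) (nat_lit 76) (nat_lit 2423868196) (nat_lit 152) (nat_lit 32462411811) (nat_lit 4) (nat_lit 5) (nat_lit 5) (nat_lit 5) (nat_lit 6) (nat_lit 4) (nat_lit 306) (nat_lit 224) (nat_lit 190)) (XT.lf (nat_lit 0) (nat_lit 10247805952) (nat_lit 76) (nat_lit 133086453) (nat_lit 152) (nat_lit 32058419744) (nat_lit 4) (nat_lit 5) (nat_lit 5) (nat_lit 5) (nat_lit 6) (nat_lit 4) (nat_lit 307) (nat_lit 224) (nat_lit 189))) (XT.nd (nat_lit 78) (nat_lit 0) (nat_lit 0) (XT.lf (nat_lit 0) (nat_lit 12796103398) (nat_lit 152)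 (nat_lit 29454258242) (nat_lit 0) (nat_lit 2177664343) (nat_lit 4) (nat_lit 5) (nat_lit 6) (nat_lit 4) (nat_lit 4) (nat_lit 4) (nat_lit 308) (nat_lit 224) (nat_lit 188)) (XT.lf (nat_lit 0) (nat_lit 15302636589) (nat_lit 152) (nat_lit 26636414016) (nat_lit 0) (nat_lit 4578675964) (nat_lit 4) (nat_lit 5) (nat_lit 6) (nat_lit 4) (nat_lit 4) (nat_lit 4) (nat_lit 309) (nat_lit 224) (nat_lit 187)))) (XT.nd (nat_lit 156) (nat_lit 0) (nat_lit 0) (XT.nd (nat_lit 78) (nat_lit 0) (nat_lit 0) (XT.lf (nat_lit 0) (nat_lit 17904382060) (nat_lit 152) (nat_lit 23729186511) (nat_lit 0) (nat_lit 7079924704) (nat_lit 4) (nat_lit 5) (nat_lit 6) (nat_lit 4) (nat_lit 4) (nat_lit 4) (nat_lit 310) (nat_lit 224) (nat_lit 186)) (XT.lf (nat_lit 0) (nat_lit 20607534444) (nat_lit 152) (nat_lit 20725653759) (nat_lit 0) (nat_lit 9687365915) (nat_lit 4) (nat_lit 5) (nat_lit 6) (nat_lit 4) (nat_lit 4) (nat_lit 4)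 (nat_lit 311) (nat_lit 224) (nat_lit 185))) (XT.nd (nat_lit 78) (nat_lit 0) (nat_lit 0) (XT.lf (nat_lit 0) (nat_lit 23418529819) (nat_lit 152) (nat_lit 17618664490) (nat_lit 0) (nat_lit 12407207791) (nat_lit 4) (nat_lit 5) (nat_lit 6) (nat_lit 4) (nat_lit 4) (nat_lit 4) (nat_lit 312) (nat_lit 224) (nat_lit 184)) (XT.lf (nat_lit 0) (nat_lit 26344061029) (nat_lit 152) (nat_lit 14400821112) (nat_lit 0) (nat_lit 15245926145) (nat_lit 4) (nat_lit 5) (nat_lit 6) (nat_lit 4) (nat_lit 4) (nat_lit 4) (nat_lit 313) (nat_lit 224) (nat_lit 183))))) (XT.nd (nat_lit 312) (nat_lit 76) (nat_lit 0) (XT.nd (nat_lit 156) (nat_lit 0) (nat_lit 0) (XT.nd (nat_lit 78) (nat_lit 0) (nat_lit 0) (XT.lf (nat_lit 0) (nat_lit 29391093626) (nat_lit 152) (nat_lit 11064462092) (nat_lit 0) (nat_lit 18210279832) (nat_lit 4) (nat_lit 5) (nat_lit 6) (nat_lit 4) (nat_lit 4) (nat_lit 4) (nat_lit 314) (nat_lit 224) (nat_lit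 182)) (XT.lf (nat_lit 0) (nat_lit 32566882450) (nat_lit 152) (nat_lit 7601643718) (nat_lit 0) (nat_lit 21307326837) (nat_lit 4) (nat_lit 5) (nat_lit 6) (nat_lit 4) (nat_lit 4) (nat_lit 4) (nat_lit 315) (nat_lit 224) (nat_lit 181))) (XT.nd (nat_lit 78) (nat_lit 0) (nat_lit 0) (XT.lf (nat_lit 0) (nat_lit 35878988901) (nat_lit 152) (nat_lit 4004121186) (nat_lit 0) (nat_lit 24544441079) (nat_lit 4) (nat_lit 5) (nat_lit 6) (nat_lit 4) (nat_lit 4) (nat_lit 4) (nat_lit 316) (nat_lit 224) (nat_lit 180)) (XT.lf (nat_lit 0) (nat_lit 39335298948) (nat_lit 152) (nat_lit 263328964) (nat_lit 0) (nat_lit 27929329976) (nat_lit 4) (nat_lit 5) (nat_lit 6) (nat_lit 4) (nat_lit 4) (nat_lit 4) (nat_lit 317) (nat_lit 224) (nat_lit 179)))) (XT.nd (nat_lit 156) (nat_lit 0) (nat_lit 0) (XT.nd (nat_lit 78) (nat_lit 0) (nat_lit 0) (XT.lf (nat_lit 0) (nat_lit 3749651871) (nat_lit 76) (nat_lit 39252932604) (nat_lit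 76) (nat_lit 27778943487) (nat_lit 3) (nat_lit 4) (nat_lit 4) (nat_lit 5) (nat_lit 4) (nat_lit 4) (nat_lit 318) (nat_lit 224) (nat_lit 178)) (XT.lf (nat_lit 0) (nat_lit 7938122973) (nat_lit 76) (nat_lit 38899623377) (nat_lit 76) (nat_lit 27360853171) (nat_lit 3) (nat_lit 4) (nat_lit 4) (nat_lit 5) (nat_lit 4) (nat_lit 4) (nat_lit 319) (nat_lit 224) (nat_lit 177))) (XT.nd (nat_lit 78) (nat_lit 0) (nat_lit 0) (XT.lf (nat_lit 0) (nat_lit 12303350046) (nat_lit 76) (nat_lit 38542318625) (nat_lit 76) (nat_lit 26941852143) (nat_lit 3) (nat_lit 4) (nat_lit 4) (nat_lit 5) (nat_lit 4) (nat_lit 4) (nat_lit 320) (nat_lit 224) (nat_lit 176)) (XT.lf (nat_lit 0) (nat_lit 16855726488) (nat_lit 76) (nat_lit 38180167621) (nat_lit 76) (nat_lit 26520942781) (nat_lit 3) (nat_lit 4) (nat_lit 4) (nat_lit 5) (nat_lit 4) (nat_lit 4) (nat_lit 321) (nat_lit 224) (nat_lit 175)))))) (XT.nd (nat_lit 624) (nat_lit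 0) (nat_lit 0) (XT.nd (nat_lit 312) (nat_lit 0) (nat_lit 0) (XT.nd (nat_lit 156) (nat_lit 0) (nat_lit 0) (XT.nd (nat_lit 78) (nat_lit 0) (nat_lit 0) (XT.lf (nat_lit 0) (nat_lit 21606091291) (nat_lit 76) (nat_lit 37812308101) (nat_lit 76) (nat_lit 26097122920) (nat_lit 3) (nat_lit 4) (nat_lit 4) (nat_lit 5) (nat_lit 4) (nat_lit 4) (nat_lit 322) (nat_lit 224) (nat_lit 174)) (XT.lf (nat_lit 0) (nat_lit 26565754847) (nat_lit 76) (nat_lit 37437864208) (nat_lit 76) (nat_lit 25669383465) (nat_lit 3) (nat_lit 4) (nat_lit 4) (nat_lit 5) (nat_lit 4) (nat_lit 4) (nat_lit 323) (nat_lit 224) (nat_lit 173))) (XT.nd (nat_lit 78) (nat_lit 0) (nat_lit 0) (XT.lf (nat_lit 0) (nat_lit 31746525879) (nat_lit 76) (nat_lit 37055944411) (nat_lit 76) (nat_lit 25236705989) (nat_lit 3) (nat_lit 4) (nat_lit 4) (nat_lit 5) (nat_lit 4) (nat_lit 4) (nat_lit 324) (nat_lit 224) (nat_lit 172)) (XT.lf (nat_lit 0) (nat_lit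 37160739555) (nat_lit 76) (nat_lit 36665639375) (nat_lit 76) (nat_lit 24798060306) (nat_lit 3) (nat_lit 4) (nat_lit 4) (nat_lit 5) (nat_lit 4) (nat_lit 4) (nat_lit 325) (nat_lit 224) (nat_lit 171)))) (XT.nd (nat_lit 156) (nat_lit 0) (nat_lit 0) (XT.nd (nat_lit 78) (nat_lit 0) (nat_lit 0) (XT.lf (nat_lit 0) (nat_lit 42821286861) (nat_lit 76) (nat_lit 36266019803) (nat_lit 76) (nat_lit 24352402024) (nat_lit 3) (nat_lit 4) (nat_lit 4) (nat_lit 5) (nat_lit 4) (nat_lit 4) (nat_lit 326) (nat_lit 224) (nat_lit 170)) (XT.lf (nat_lit 0) (nat_lit 48741645291) (nat_lit 76) (nat_lit 35856134221) (nat_lit 76) (nat_lit 23898670051) (nat_lit 3) (nat_lit 4) (nat_lit 4) (nat_lit 5) (nat_lit 4) (nat_lit 4) (nat_lit 327) (nat_lit 224) (nat_lit 169))) (XT.nd (nat_lit 78) (nat_lit 0) (nat_lit 0) (XT.lf (nat_lit 0) (nat_lit 54935910935) (nat_lit 76) (nat_lit 35435006710) (nat_lit 76) (nat_lit 23435784071)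 (nat_lit 3) (nat_lit 4) (nat_lit 4) (nat_lit 5) (nat_lit 4) (nat_lit 4) (nat_lit 328) (nat_lit 224) (nat_lit 168)) (XT.lf (nat_lit 0) (nat_lit 61418832046) (nat_lit 76) (nat_lit 35001634585) (nat_lit 76) (nat_lit 22962641977) (nat_lit 3) (nat_lit 4) (nat_lit 4) (nat_lit 5) (nat_lit 4) (nat_lit 4) (nat_lit 329) (nat_lit 224) (nat_lit 167))))) (XT.nd (nat_lit 312) (nat_lit 0) (nat_lit 0) (XT.nd (nat_lit 156) (nat_lit 0) (nat_lit 0) (XT.nd (nat_lit 78) (nat_lit 0) (nat_lit 0) (XT.lf (nat_lit 0) (nat_lit 68205844150) (nat_lit 76) (nat_lit 34554986008) (nat_lit 76) (nat_lit 22478117239) (nat_lit 3) (nat_lit 4) (nat_lit 4) (nat_lit 5) (nat_lit 4) (nat_lit 4) (nat_lit 330) (nat_lit 224) (nat_lit 166)) (XT.lf (nat_lit 0) (nat_lit 75313106799) (nat_lit 76) (nat_lit 34093997531) (nat_lit 76) (nat_lit 21981056227) (nat_lit 3) (nat_lit 4) (nat_lit 4) (nat_lit 5) (nat_lit 4) (nat_lit 4) (nat_lit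 331) (nat_lit 224) (nat_lit 165))) (XT.nd (nat_lit 78) (nat_lit 0) (nat_lit 0) (XT.lf (nat_lit 0) (nat_lit 82757542048) (nat_lit 76) (nat_lit 33617571561) (nat_lit 76) (nat_lit 21470275462) (nat_lit 3) (nat_lit 4) (nat_lit 4) (nat_lit 5) (nat_lit 4) (nat_lit 4) (nat_lit 332) (nat_lit 224) (nat_lit 164)) (XT.lf (nat_lit 0) (nat_lit 90556874742) (nat_lit 76) (nat_lit 33124573750) (nat_lit 76) (nat_lit 20944558800) (nat_lit 3) (nat_lit 4) (nat_lit 4) (nat_lit 5) (nat_lit 4) (nat_lit 4) (nat_lit 333) (nat_lit 224) (nat_lit 163)))) (XT.nd (nat_lit 156) (nat_lit 0) (nat_lit 0) (XT.nd (nat_lit 78) (nat_lit 0) (nat_lit 0) (XT.lf (nat_lit 0) (nat_lit 98729674721) (nat_lit 76) (nat_lit 32613830296) (nat_lit 76) (nat_lit 20402654533) (nat_lit 3) (nat_lit 4) (nat_lit 4) (nat_lit 5) (nat_lit 4) (nat_lit 4) (nat_lit 334) (nat_lit 224) (nat_lit 162)) (XT.lf (nat_lit 0) (nat_lit 107295401033) (nat_lit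 76) (nat_lit 32084125141) (nat_lit 76) (nat_lit 19843272415) (nat_lit 3) (nat_lit 4) (nat_lit 4) (nat_lit 5) (nat_lit 4) (nat_lit 4) (nat_lit 335) (nat_lit 224) (nat_lit 161))) (XT.nd (nat_lit 78) (nat_lit 0) (nat_lit 0) (XT.lf (nat_lit 0) (nat_lit 116274448263) (nat_lit 76) (nat_lit 31534197083) (nat_lit 76) (nat_lit 19265080583) (nat_lit 3) (nat_lit 4) (nat_lit 4) (nat_lit 5) (nat_lit 4) (nat_lit 4) (nat_lit 336) (nat_lit 224) (nat_lit 160)) (XT.lf (nat_lit 0) (nat_lit 125688195097) (nat_lit 76) (nat_lit 30962736770) (nat_lit 76) (nat_lit 18666702389) (nat_lit 3) (nat_lit 4) (nat_lit 4) (nat_lit 5) (nat_lit 4) (nat_lit 4) (nat_lit 337) (nat_lit 224) (nat_lit 159)))))))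
noncomputable def xc51 : XT := (XT.nd (nat_lit 1248) (nat_lit 76) (nat_lit 0) (XT.nd (nat_lit 624) (nat_lit 0) (nat_lit 0) (XT.nd (nat_lit 312) (nat_lit 0) (nat_lit 0) (XT.nd (nat_lit 156) (nat_lit 0) (nat_lit 0) (XT.nd (nat_lit 78) (nat_lit 0) (nat_lit 0) (XT.lf (nat_lit 0) (nat_lit 135559055216) (nat_lit 76) (nat_lit 30368383582) (nat_lit 76) (nat_lit 18046713123) (nat_lit 3) (nat_lit 4) (nat_lit 4) (nat_lit 5) (nat_lit 4) (nat_lit 4) (nat_lit 338) (nat_lit 224) (nat_lit 158)) (XT.lf (nat_lit 0) (nat_lit 145910530670) (nat_lit 76) (nat_lit 29749722391) (nat_lit 76) (nat_lit 17403636622) (nat_lit 3) (nat_lit 4) (nat_lit 4) (nat_lit 5) (nat_lit 4) (nat_lit 4) (nat_lit 339) (nat_lit 224) (nat_lit 157))) (XT.nd (nat_lit 78) (nat_lit 0) (nat_lit 0) (XT.lf (nat_lit 0) (nat_lit 156767267827) (nat_lit 76) (nat_lit 29105280196) (nat_lit 76) (nat_lit 16735941749) (nat_lit 3) (nat_lit 4) (nat_lit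 4) (nat_lit 5) (nat_lit 4) (nat_lit 4) (nat_lit 340) (nat_lit 224) (nat_lit 156)) (XT.lf (nat_lit 0) (nat_lit 168155116062) (nat_lit 76) (nat_lit 28433522610) (nat_lit 76) (nat_lit 16042038756) (nat_lit 3) (nat_lit 4) (nat_lit 4) (nat_lit 5) (nat_lit 4) (nat_lit 4) (nat_lit 341) (nat_lit 224) (nat_lit 155)))) (XT.nd (nat_lit 156) (nat_lit 0) (nat_lit 0) (XT.nd (nat_lit 78) (nat_lit 0) (nat_lit 0) (XT.lf (nat_lit 0) (nat_lit 180101189300) (nat_lit 76) (nat_lit 27732850210) (nat_lit 76) (nat_lit 15320275492) (nat_lit 3) (nat_lit 4) (nat_lit 4) (nat_lit 5) (nat_lit 4) (nat_lit 4) (nat_lit 342) (nat_lit 224) (nat_lit 154)) (XT.lf (nat_lit 0) (nat_lit 192633930571) (nat_lit 76) (nat_lit 27001594729) (nat_lit 76) (nat_lit 14568933474) (nat_lit 3) (nat_lit 4) (nat_lit 4) (nat_lit 5) (nat_lit 4) (nat_lit 4) (nat_lit 343) (nat_lit 224) (nat_lit 153))) (XT.nd (nat_lit 78) (nat_lit 0) (nat_lit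 0) (XT.lf (nat_lit 0) (nat_lit 205783179737) (nat_lit 76) (nat_lit 26238015082) (nat_lit 76) (nat_lit 13786223791) (nat_lit 3) (nat_lit 4) (nat_lit 4) (nat_lit 5) (nat_lit 4) (nat_lit 4) (nat_lit 344) (nat_lit 224) (nat_lit 152)) (XT.lf (nat_lit 0) (nat_lit 219580244533) (nat_lit 76) (nat_lit 25440293222) (nat_lit 76) (nat_lit 12970282851) (nat_lit 3) (nat_lit 4) (nat_lit 4) (nat_lit 5) (nat_lit 4) (nat_lit 4) (nat_lit 345) (nat_lit 224) (nat_lit 151))))) (XT.nd (nat_lit 312) (nat_lit 0) (nat_lit 0) (XT.nd (nat_lit 156) (nat_lit 0) (nat_lit 0) (XT.nd (nat_lit 78) (nat_lit 0) (nat_lit 0) (XT.lf (nat_lit 0) (nat_lit 234057975113) (nat_lit 76) (nat_lit 24606529812) (nat_lit 76) (nat_lit 12119167934) (nat_lit 3) (nat_lit 4) (nat_lit 4) (nat_lit 5) (nat_lit 4) (nat_lit 4) (nat_lit 346) (nat_lit 224) (nat_lit 150)) (XT.lf (nat_lit 0) (nat_lit 249250842265) (nat_lit 76) (nat_lit 23734739701)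 (nat_lit 76) (nat_lit 11230852579) (nat_lit 3) (nat_lit 4) (nat_lit 4) (nat_lit 5) (nat_lit 4) (nat_lit 4) (nat_lit 347) (nat_lit 224) (nat_lit 149))) (XT.nd (nat_lit 78) (nat_lit 0) (nat_lit 0) (XT.lf (nat_lit 0) (nat_lit 265195019482) (nat_lit 76) (nat_lit 22822847197) (nat_lit 76) (nat_lit 10303221748) (nat_lit 3) (nat_lit 4) (nat_lit 4) (nat_lit 5) (nat_lit 4) (nat_lit 4) (nat_lit 348) (nat_lit 224) (nat_lit 148)) (XT.lf (nat_lit 0) (nat_lit 281928469091) (nat_lit 76) (nat_lit 21868681129) (nat_lit 76) (nat_lit 9334066797) (nat_lit 3) (nat_lit 4) (nat_lit 4) (nat_lit 5) (nat_lit 4) (nat_lit 4) (nat_lit 349) (nat_lit 224) (nat_lit 147)))) (XT.nd (nat_lit 156) (nat_lit 0) (nat_lit 0) (XT.nd (nat_lit 78) (nat_lit 0) (nat_lit 0) (XT.lf (nat_lit 0) (nat_lit 299491032637) (nat_lit 76) (nat_lit 20869969672) (nat_lit 76) (nat_lit 8321080213) (nat_lit 3) (nat_lit 4) (nat_lit 4) (nat_lit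 5) (nat_lit 4) (nat_lit 4) (nat_lit 350) (nat_lit 224) (nat_lit 146)) (XT.lf (nat_lit 0) (nat_lit 317924525750) (nat_lit 76) (nat_lit 19824334942) (nat_lit 76) (nat_lit 7261850124) (nat_lit 3) (nat_lit 4) (nat_lit 4) (nat_lit 5) (nat_lit 4) (nat_lit 4) (nat_lit 351) (nat_lit 224) (nat_lit 145))) (XT.nd (nat_lit 78) (nat_lit 0) (nat_lit 0) (XT.lf (nat_lit 0) (nat_lit 337272837697) (nat_lit 76) (nat_lit 18729287332) (nat_lit 76) (nat_lit 6153854553) (nat_lit 3) (nat_lit 4) (nat_lit 4) (nat_lit 5) (nat_lit 4) (nat_lit 4) (nat_lit 352) (nat_lit 224) (nat_lit 144)) (XT.lf (nat_lit 0) (nat_lit 357582035889) (nat_lit 76) (nat_lit 17582219586) (nat_lit 76) (nat_lit 4994455416) (nat_lit 3) (nat_lit 4) (nat_lit 4) (nat_lit 5) (nat_lit 4) (nat_lit 4) (nat_lit 353) (nat_lit 224) (nat_lit 143)))))) (XT.nd (nat_lit 31200) (nat_lit 0) (nat_lit 988) (XT.nd (nat_lit 312) (nat_lit 0) (nat_lit 0) (XT.nd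 (nat_lit 156) (nat_lit 76) (nat_lit 0) (XT.nd (nat_lit 78) (nat_lit 0) (nat_lit 0) (XT.lf (nat_lit 0) (nat_lit 378900475559) (nat_lit 76) (nat_lit 16380400591) (nat_lit 76) (nat_lit 3780892239) (nat_lit 3) (nat_lit 4) (nat_lit 4) (nat_lit 5) (nat_lit 4) (nat_lit 4) (nat_lit 354) (nat_lit 224) (nat_lit 142)) (XT.lf (nat_lit 0) (nat_lit 401278914897) (nat_lit 76) (nat_lit 15120968873) (nat_lit 76) (nat_lit 2510275585) (nat_lit 3) (nat_lit 4) (nat_lit 4) (nat_lit 5) (nat_lit 4) (nat_lit 4) (nat_lit 355) (nat_lit 224) (nat_lit 141))) (XT.nd (nat_lit 78) (nat_lit 76) (nat_lit 0) (XT.lf (nat_lit 0) (nat_lit 424770635902) (nat_lit 76) (nat_lit 13800925784) (nat_lit 76) (nat_lit 1179580177) (nat_lit 3) (nat_lit 4) (nat_lit 4) (nat_lit 5) (nat_lit 4) (nat_lit 4) (nat_lit 356) (nat_lit 224) (nat_lit 140)) (XT.lf (nat_lit 0) (nat_lit 207501374) (nat_lit 152) (nat_lit 12206112854) (nat_lit 76)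 (nat_lit 449220555730) (nat_lit 2) (nat_lit 5) (nat_lit 4) (nat_lit 5) (nat_lit 3) (nat_lit 4) (nat_lit 357) (nat_lit 224) (nat_lit 139)))) (XT.nd (nat_lit 30732) (nat_lit 0) (nat_lit 1748) (XT.nd (nat_lit 30654) (nat_lit 0) (nat_lit 1976) (XT.lf (nat_lit 0) (nat_lit 1621264454) (nat_lit 152) (nat_lit 9317560508) (nat_lit 76) (nat_lit 473671716076) (nat_lit 2) (nat_lit 5) (nat_lit 4) (nat_lit 5) (nat_lit 3) (nat_lit 4) (nat_lit 358) (nat_lit 224) (nat_lit 138)) (XT.lf (nat_lit 0) (nat_lit 4744742445) (nat_lit 228) (nat_lit 122856886) (nat_lit 228) (nat_lit 122856886) (nat_lit 28) (nat_lit 4) (nat_lit 31) (nat_lit 5) (nat_lit 31) (nat_lit 4) (nat_lit 270) (nat_lit 225) (nat_lit 225))) (XT.nd (nat_lit 78) (nat_lit 0) (nat_lit 0) (XT.lf (nat_lit 0) (nat_lit 2813805070) (nat_lit 228) (nat_lit 5456810931) (nat_lit 0) (nat_lit 1994790177) (nat_lit 25) (nat_lit 5) (nat_lit 28) (nat_lit 4)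 (nat_lit 25) (nat_lit 4) (nat_lit 271) (nat_lit 225) (nat_lit 224)) (XT.lf (nat_lit 0) (nat_lit 5906584665) (nat_lit 228) (nat_lit 355940841) (nat_lit 0) (nat_lit 4307555588) (nat_lit 25) (nat_lit 5) (nat_lit 28) (nat_lit 4) (nat_lit 25) (nat_lit 4) (nat_lit 272) (nat_lit 225) (nat_lit 223))))) (XT.nd (nat_lit 312) (nat_lit 304) (nat_lit 0) (XT.nd (nat_lit 156) (nat_lit 152) (nat_lit 0) (XT.nd (nat_lit 78) (nat_lit 76) (nat_lit 0) (XT.lf (nat_lit 0) (nat_lit 4993392329) (nat_lit 228) (nat_lit 4120529197) (nat_lit 228) (nat_lit 1778629468) (nat_lit 22) (nat_lit 4) (nat_lit 25) (nat_lit 5) (nat_lit 25) (nat_lit 4) (nat_lit 273) (nat_lit 225) (nat_lit 222)) (XT.lf (nat_lit 0) (nat_lit 1099208420) (nat_lit 304) (nat_lit 796018325) (nat_lit 76) (nat_lit 9341009284) (nat_lit 21) (nat_lit 5) (nat_lit 25) (nat_lit 5) (nat_lit 22) (nat_lit 4) (nat_lit 274) (nat_lit 225) (nat_lit 221))) (XT.nd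 (nat_lit 78) (nat_lit 0) (nat_lit 0) (XT.lf (nat_lit 0) (nat_lit 4027681057) (nat_lit 228) (nat_lit 7088346650) (nat_lit 0) (nat_lit 481775182) (nat_lit 19) (nat_lit 5) (nat_lit 22) (nat_lit 4) (nat_lit 19) (nat_lit 4) (nat_lit 275) (nat_lit 225) (nat_lit 220)) (XT.lf (nat_lit 0) (nat_lit 7037667084) (nat_lit 228) (nat_lit 2062885205) (nat_lit 0) (nat_lit 2880599686) (nat_lit 19) (nat_lit 5) (nat_lit 22) (nat_lit 4) (nat_lit 19) (nat_lit 4) (nat_lit 276) (nat_lit 225) (nat_lit 219)))) (XT.nd (nat_lit 156) (nat_lit 76) (nat_lit 0) (XT.nd (nat_lit 78) (nat_lit 76) (nat_lit 0) (XT.lf (nat_lit 0) (nat_lit 3160075891) (nat_lit 152) (nat_lit 6982955603) (nat_lit 152) (nat_lit 2243829611) (nat_lit 17) (nat_lit 4) (nat_lit 19) (nat_lit 5) (nat_lit 19) (nat_lit 4) (nat_lit 277) (nat_lit 225) (nat_lit 218)) (XT.lf (nat_lit 0) (nat_lit 503471204) (nat_lit 228) (nat_lit 4261351540) (nat_lit 76)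 (nat_lit 8051389082) (nat_lit 16) (nat_lit 5) (nat_lit 19) (nat_lit 5) (nat_lit 17) (nat_lit 4) (nat_lit 278) (nat_lit 225) (nat_lit 217))) (XT.nd (nat_lit 78) (nat_lit 0) (nat_lit 0) (XT.lf (nat_lit 0) (nat_lit 792113242) (nat_lit 76) (nat_lit 2433996540) (nat_lit 152) (nat_lit 10043789192) (nat_lit 15) (nat_lit 5) (nat_lit 16) (nat_lit 5) (nat_lit 17) (nat_lit 4) (nat_lit 279) (nat_lit 225) (nat_lit 216)) (XT.nd (nat_lit 78) (nat_lit 0) (nat_lit 0) (XT.lf (nat_lit 0) (nat_lit 6061102703) (nat_lit 152) (nat_lit 7648675873) (nat_lit 0) (nat_lit 38039931) (nat_lit 15) (nat_lit 5) (nat_lit 17) (nat_lit 4) (nat_lit 15) (nat_lit 4) (nat_lit 280) (nat_lit 225) (nat_lit 215)) (XT.lf (nat_lit 0) (nat_lit 8985044491) (nat_lit 152) (nat_lit 2761648027) (nat_lit 0) (nat_lit 2505923580) (nat_lit 15) (nat_lit 5) (nat_lit 17) (nat_lit 4) (nat_lit 15) (nat_lit 4) (nat_lit 281) (nat_lit 225) (nat_lit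 214))))))))
noncomputable def xc52 : XT := (XT.nd (nat_lit 1248) (nat_lit 228) (nat_lit 0) (XT.nd (nat_lit 624) (nat_lit 152) (nat_lit 0) (XT.nd (nat_lit 312) (nat_lit 152) (nat_lit 0) (XT.nd (nat_lit 156) (nat_lit 152) (nat_lit 0) (XT.nd (nat_lit 78) (nat_lit 0) (nat_lit 0) (XT.lf (nat_lit 0) (nat_lit 2306766012) (nat_lit 152) (nat_lit 9696144475) (nat_lit 152) (nat_lit 2782682480) (nat_lit 13) (nat_lit 4) (nat_lit 15) (nat_lit 5) (nat_lit 15) (nat_lit 4) (nat_lit 282) (nat_lit 225) (nat_lit 213)) (XT.lf (nat_lit 0) (nat_lit 7589889207) (nat_lit 152) (nat_lit 7542365325) (nat_lit 152) (nat_lit 215245154) (nat_lit 13) (nat_lit 4) (nat_lit 15) (nat_lit 5) (nat_lit 15) (nat_lit 4) (nat_lit 283) (nat_lit 225) (nat_lit 212))) (XT.nd (nat_lit 78) (nat_lit 76) (nat_lit 0) (XT.lf (nat_lit 0) (nat_lit 2317457848) (nat_lit 228) (nat_lit 2970291749) (nat_lit 76) (nat_lit 10652282750) (nat_lit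 12) (nat_lit 5) (nat_lit 15) (nat_lit 5) (nat_lit 13) (nat_lit 4) (nat_lit 284) (nat_lit 225) (nat_lit 211)) (XT.lf (nat_lit 0) (nat_lit 1991627873) (nat_lit 76) (nat_lit 2929303039) (nat_lit 152) (nat_lit 11643783870) (nat_lit 11) (nat_lit 5) (nat_lit 12) (nat_lit 5) (nat_lit 13) (nat_lit 4) (nat_lit 285) (nat_lit 225) (nat_lit 210)))) (XT.nd (nat_lit 156) (nat_lit 152) (nat_lit 0) (XT.nd (nat_lit 78) (nat_lit 0) (nat_lit 0) (XT.lf (nat_lit 0) (nat_lit 7181800158) (nat_lit 76) (nat_lit 445231130) (nat_lit 152) (nat_lit 9595232606) (nat_lit 11) (nat_lit 5) (nat_lit 12) (nat_lit 5) (nat_lit 13) (nat_lit 4) (nat_lit 286) (nat_lit 225) (nat_lit 209)) (XT.lf (nat_lit 0) (nat_lit 10427394486) (nat_lit 152) (nat_lit 5435369624) (nat_lit 0) (nat_lit 2052221545) (nat_lit 11) (nat_lit 5) (nat_lit 13) (nat_lit 4) (nat_lit 11) (nat_lit 4) (nat_lit 287) (nat_lit 225) (nat_lit 208))) (XT.nd (nat_lit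 78) (nat_lit 152) (nat_lit 0) (XT.lf (nat_lit 0) (nat_lit 13303823877) (nat_lit 152) (nat_lit 721975899) (nat_lit 0) (nat_lit 4619972836) (nat_lit 11) (nat_lit 5) (nat_lit 13) (nat_lit 4) (nat_lit 11) (nat_lit 4) (nat_lit 288) (nat_lit 225) (nat_lit 207)) (XT.lf (nat_lit 0) (nat_lit 4254047187) (nat_lit 152) (nat_lit 12068587207) (nat_lit 152) (nat_lit 3090757024) (nat_lit 9) (nat_lit 4) (nat_lit 11) (nat_lit 5) (nat_lit 11) (nat_lit 4) (nat_lit 289) (nat_lit 225) (nat_lit 206))))) (XT.nd (nat_lit 312) (nat_lit 0) (nat_lit 0) (XT.nd (nat_lit 156) (nat_lit 76) (nat_lit 0) (XT.nd (nat_lit 78) (nat_lit 76) (nat_lit 0) (XT.lf (nat_lit 0) (nat_lit 9396501630) (nat_lit 152) (nat_lit 10041806843) (nat_lit 152) (nat_lit 783996524) (nat_lit 9) (nat_lit 4) (nat_lit 11) (nat_lit 5) (nat_lit 11) (nat_lit 4) (nat_lit 290) (nat_lit 225) (nat_lit 205)) (XT.lf (nat_lit 0) (nat_lit 1521297087) (nat_lit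 228) (nat_lit 6405799038) (nat_lit 76) (nat_lit 13146698596) (nat_lit 8) (nat_lit 5) (nat_lit 11) (nat_lit 5) (nat_lit 9) (nat_lit 4) (nat_lit 291) (nat_lit 225) (nat_lit 204))) (XT.nd (nat_lit 78) (nat_lit 76) (nat_lit 0) (XT.lf (nat_lit 0) (nat_lit 3854198033) (nat_lit 228) (nat_lit 1877302336) (nat_lit 76) (nat_lit 16238962832) (nat_lit 8) (nat_lit 5) (nat_lit 11) (nat_lit 5) (nat_lit 9) (nat_lit 4) (nat_lit 292) (nat_lit 225) (nat_lit 203)) (XT.lf (nat_lit 0) (nat_lit 2874718191) (nat_lit 76) (nat_lit 3415517839) (nat_lit 152) (nat_lit 16622577229) (nat_lit 7) (nat_lit 5) (nat_lit 8) (nat_lit 5) (nat_lit 9) (nat_lit 4) (nat_lit 293) (nat_lit 225) (nat_lit 202)))) (XT.nd (nat_lit 156) (nat_lit 0) (nat_lit 0) (XT.nd (nat_lit 78) (nat_lit 0) (nat_lit 0) (XT.lf (nat_lit 0) (nat_lit 7836136303) (nat_lit 76) (nat_lit 986664831) (nat_lit 152) (nat_lit 15080907954) (nat_lit 7) (nat_lit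 5) (nat_lit 8) (nat_lit 5) (nat_lit 9) (nat_lit 4) (nat_lit 294) (nat_lit 225) (nat_lit 201)) (XT.lf (nat_lit 0) (nat_lit 11451516925) (nat_lit 152) (nat_lit 12014203845) (nat_lit 0) (nat_lit 1480109511) (nat_lit 7) (nat_lit 5) (nat_lit 9) (nat_lit 4) (nat_lit 7) (nat_lit 4) (nat_lit 295) (nat_lit 225) (nat_lit 200))) (XT.nd (nat_lit 78) (nat_lit 0) (nat_lit 0) (XT.lf (nat_lit 0) (nat_lit 14175566932) (nat_lit 152) (nat_lit 7861262051) (nat_lit 0) (nat_lit 4005182862) (nat_lit 7) (nat_lit 5) (nat_lit 9) (nat_lit 4) (nat_lit 7) (nat_lit 4) (nat_lit 296) (nat_lit 225) (nat_lit 199)) (XT.lf (nat_lit 0) (nat_lit 16986032385) (nat_lit 152) (nat_lit 3583454843) (nat_lit 0) (nat_lit 6626146739) (nat_lit 7) (nat_lit 5) (nat_lit 9) (nat_lit 4) (nat_lit 7) (nat_lit 4) (nat_lit 297) (nat_lit 225) (nat_lit 198)))))) (XT.nd (nat_lit 624) (nat_lit 76) (nat_lit 0) (XT.nd (nat_lit 312) (nat_lit 76)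 (nat_lit 0) (XT.nd (nat_lit 156) (nat_lit 0) (nat_lit 0) (XT.nd (nat_lit 78) (nat_lit 0) (nat_lit 0) (XT.lf (nat_lit 0) (nat_lit 856826843) (nat_lit 76) (nat_lit 19046155494) (nat_lit 76) (nat_lit 8505792156) (nat_lit 6) (nat_lit 4) (nat_lit 7) (nat_lit 5) (nat_lit 7) (nat_lit 4) (nat_lit 298) (nat_lit 225) (nat_lit 197)) (XT.lf (nat_lit 0) (nat_lit 5565963991) (nat_lit 76) (nat_lit 17414133955) (nat_lit 76) (nat_lit 6701887101) (nat_lit 6) (nat_lit 4) (nat_lit 7) (nat_lit 5) (nat_lit 7) (nat_lit 4) (nat_lit 299) (nat_lit 225) (nat_lit 196))) (XT.nd (nat_lit 78) (nat_lit 0) (nat_lit 0) (XT.lf (nat_lit 0) (nat_lit 10436683632) (nat_lit 76) (nat_lit 15730224390) (nat_lit 76) (nat_lit 4854278949) (nat_lit 6) (nat_lit 4) (nat_lit 7) (nat_lit 5) (nat_lit 7) (nat_lit 4) (nat_lit 300) (nat_lit 225) (nat_lit 195)) (XT.lf (nat_lit 0) (nat_lit 15480582716) (nat_lit 76) (nat_lit 13990417489)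 (nat_lit 76) (nat_lit 2958568632) (nat_lit 6) (nat_lit 4) (nat_lit 7) (nat_lit 5) (nat_lit 7) (nat_lit 4) (nat_lit 301) (nat_lit 225) (nat_lit 194)))) (XT.nd (nat_lit 156) (nat_lit 0) (nat_lit 0) (XT.nd (nat_lit 78) (nat_lit 76) (nat_lit 0) (XT.lf (nat_lit 0) (nat_lit 20709670528) (nat_lit 76) (nat_lit 12190570855) (nat_lit 76) (nat_lit 1010242554) (nat_lit 6) (nat_lit 4) (nat_lit 7) (nat_lit 5) (nat_lit 7) (nat_lit 4) (nat_lit 302) (nat_lit 225) (nat_lit 193)) (XT.lf (nat_lit 0) (nat_lit 963481118) (nat_lit 152) (nat_lit 9346601001) (nat_lit 76) (nat_lit 25156599138) (nat_lit 5) (nat_lit 5) (nat_lit 7) (nat_lit 5) (nat_lit 6) (nat_lit 4) (nat_lit 303) (nat_lit 225) (nat_lit 192))) (XT.nd (nat_lit 78) (nat_lit 0) (nat_lit 0) (XT.lf (nat_lit 0) (nat_lit 2964915203) (nat_lit 152) (nat_lit 5378336359) (nat_lit 76) (nat_lit 28758556261) (nat_lit 5) (nat_lit 5) (nat_lit 7) (nat_lit 5)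 (nat_lit 6) (nat_lit 4) (nat_lit 304) (nat_lit 225) (nat_lit 191)) (XT.lf (nat_lit 0) (nat_lit 5031159090) (nat_lit 152) (nat_lit 1270798516) (nat_lit 76) (nat_lit 32518587822) (nat_lit 5) (nat_lit 5) (nat_lit 7) (nat_lit 5) (nat_lit 6) (nat_lit 4) (nat_lit 305) (nat_lit 225) (nat_lit 190))))) (XT.nd (nat_lit 312) (nat_lit 0) (nat_lit 0) (XT.nd (nat_lit 156) (nat_lit 0) (nat_lit 0) (XT.nd (nat_lit 78) (nat_lit 0) (nat_lit 0) (XT.lf (nat_lit 0) (nat_lit 3084516158) (nat_lit 76) (nat_lit 4130774191) (nat_lit 152) (nat_lit 33409288059) (nat_lit 4) (nat_lit 5) (nat_lit 5) (nat_lit 5) (nat_lit 6) (nat_lit 4) (nat_lit 306) (nat_lit 225) (nat_lit 189)) (XT.lf (nat_lit 0) (nat_lit 7646300431) (nat_lit 76) (nat_lit 1851000553) (nat_lit 152) (nat_lit 33022161510) (nat_lit 4) (nat_lit 5) (nat_lit 5) (nat_lit 5) (nat_lit 6) (nat_lit 4) (nat_lit 307) (nat_lit 225) (nat_lit 188))) (XT.nd (nat_lit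 78) (nat_lit 0) (nat_lit 0) (XT.lf (nat_lit 0) (nat_lit 11870266087) (nat_lit 152) (nat_lit 32135475280) (nat_lit 0) (nat_lit 504585862) (nat_lit 4) (nat_lit 5) (nat_lit 6) (nat_lit 4) (nat_lit 4) (nat_lit 4) (nat_lit 308) (nat_lit 225) (nat_lit 187)) (XT.lf (nat_lit 0) (nat_lit 14362109336) (nat_lit 152) (nat_lit 29342757362) (nat_lit 0) (nat_lit 2895932380) (nat_lit 4) (nat_lit 5) (nat_lit 6) (nat_lit 4) (nat_lit 4) (nat_lit 4) (nat_lit 309) (nat_lit 225) (nat_lit 186)))) (XT.nd (nat_lit 156) (nat_lit 0) (nat_lit 0) (XT.nd (nat_lit 78) (nat_lit 0) (nat_lit 0) (XT.lf (nat_lit 0) (nat_lit 16949864388) (nat_lit 152) (nat_lit 26459459676) (nat_lit 0) (nat_lit 5387976258) (nat_lit 4) (nat_lit 5) (nat_lit 6) (nat_lit 4) (nat_lit 4) (nat_lit 4) (nat_lit 310) (nat_lit 225) (nat_lit 185)) (XT.lf (nat_lit 0) (nat_lit 19639692563) (nat_lit 152) (nat_lit 23478717227) (nat_lit 0) (nat_lit 7986650935)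 (nat_lit 4) (nat_lit 5) (nat_lit 6) (nat_lit 4) (nat_lit 4) (nat_lit 4) (nat_lit 311) (nat_lit 225) (nat_lit 184))) (XT.nd (nat_lit 78) (nat_lit 0) (nat_lit 0) (XT.lf (nat_lit 0) (nat_lit 22437998214) (nat_lit 152) (nat_lit 20393433009) (nat_lit 0) (nat_lit 10698143730) (nat_lit 4) (nat_lit 5) (nat_lit 6) (nat_lit 4) (nat_lit 4) (nat_lit 4) (nat_lit 312) (nat_lit 225) (nat_lit 183)) (XT.lf (nat_lit 0) (nat_lit 25351443974) (nat_lit 152) (nat_lit 17196261107) (nat_lit 0) (nat_lit 13528910580) (nat_lit 4) (nat_lit 5) (nat_lit 6) (nat_lit 4) (nat_lit 4) (nat_lit 4) (nat_lit 313) (nat_lit 225) (nat_lit 182)))))))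
noncomputable def xc53 : XT := (XT.nd (nat_lit 1248) (nat_lit 0) (nat_lit 0) (XT.nd (nat_lit 624) (nat_lit 0) (nat_lit 0) (XT.nd (nat_lit 312) (nat_lit 76) (nat_lit 0) (XT.nd (nat_lit 156) (nat_lit 0) (nat_lit 0) (XT.nd (nat_lit 78) (nat_lit 0) (nat_lit 0) (XT.lf (nat_lit 0) (nat_lit 28386966618) (nat_lit 152) (nat_lit 13879589208) (nat_lit 0) (nat_lit 16485691405) (nat_lit 4) (nat_lit 5) (nat_lit 6) (nat_lit 4) (nat_lit 4) (nat_lit 4) (nat_lit 314) (nat_lit 225) (nat_lit 181)) (XT.lf (nat_lit 0) (nat_lit 31551793581) (nat_lit 152) (nat_lit 10435520473) (nat_lit 0) (nat_lit 19575526160) (nat_lit 4) (nat_lit 5) (nat_lit 6) (nat_lit 4) (nat_lit 4) (nat_lit 4) (nat_lit 315) (nat_lit 225) (nat_lit 180))) (XT.nd (nat_lit 78) (nat_lit 0) (nat_lit 0) (XT.lf (nat_lit 0) (nat_lit 34853460166) (nat_lit 152) (nat_lit 6855854739) (nat_lit 0) (nat_lit 22805771593) (nat_lit 4) (nat_lit 5) (nat_lit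 6) (nat_lit 4) (nat_lit 4) (nat_lit 4) (nat_lit 316) (nat_lit 225) (nat_lit 179)) (XT.lf (nat_lit 0) (nat_lit 38299827483) (nat_lit 152) (nat_lit 3132068992) (nat_lit 0) (nat_lit 26184118766) (nat_lit 4) (nat_lit 5) (nat_lit 6) (nat_lit 4) (nat_lit 4) (nat_lit 4) (nat_lit 317) (nat_lit 225) (nat_lit 178)))) (XT.nd (nat_lit 156) (nat_lit 0) (nat_lit 0) (XT.nd (nat_lit 78) (nat_lit 0) (nat_lit 0) (XT.lf (nat_lit 0) (nat_lit 769326165) (nat_lit 76) (nat_lit 41141786342) (nat_lit 76) (nat_lit 28961296535) (nat_lit 3) (nat_lit 4) (nat_lit 4) (nat_lit 5) (nat_lit 4) (nat_lit 4) (nat_lit 318) (nat_lit 225) (nat_lit 177)) (XT.lf (nat_lit 0) (nat_lit 4941861860) (nat_lit 76) (nat_lit 40795145376) (nat_lit 76) (nat_lit 28552959295) (nat_lit 3) (nat_lit 4) (nat_lit 4) (nat_lit 5) (nat_lit 4) (nat_lit 4) (nat_lit 319) (nat_lit 225) (nat_lit 176))) (XT.nd (nat_lit 78) (nat_lit 0) (nat_lit 0) (XT.lf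 (nat_lit 0) (nat_lit 9291912355) (nat_lit 76) (nat_lit 40444191349) (nat_lit 76) (nat_lit 28143246909) (nat_lit 3) (nat_lit 4) (nat_lit 4) (nat_lit 5) (nat_lit 4) (nat_lit 4) (nat_lit 320) (nat_lit 225) (nat_lit 175)) (XT.lf (nat_lit 0) (nat_lit 13829834914) (nat_lit 76) (nat_lit 40088088654) (nat_lit 76) (nat_lit 27731183873) (nat_lit 3) (nat_lit 4) (nat_lit 4) (nat_lit 5) (nat_lit 4) (nat_lit 4) (nat_lit 321) (nat_lit 225) (nat_lit 174))))) (XT.nd (nat_lit 312) (nat_lit 0) (nat_lit 0) (XT.nd (nat_lit 156) (nat_lit 0) (nat_lit 0) (XT.nd (nat_lit 78) (nat_lit 0) (nat_lit 0) (XT.lf (nat_lit 0) (nat_lit 18566434113) (nat_lit 76) (nat_lit 39725989428) (nat_lit 76) (nat_lit 27315789085) (nat_lit 3) (nat_lit 4) (nat_lit 4) (nat_lit 5) (nat_lit 4) (nat_lit 4) (nat_lit 322) (nat_lit 225) (nat_lit 173)) (XT.lf (nat_lit 0) (nat_lit 23512987570) (nat_lit 76) (nat_lit 39357031531) (nat_lit 76)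 (nat_lit 26896073509) (nat_lit 3) (nat_lit 4) (nat_lit 4) (nat_lit 5) (nat_lit 4) (nat_lit 4) (nat_lit 323) (nat_lit 225) (nat_lit 172))) (XT.nd (nat_lit 78) (nat_lit 0) (nat_lit 0) (XT.lf (nat_lit 0) (nat_lit 28681272793) (nat_lit 76) (nat_lit 38980336490) (nat_lit 76) (nat_lit 26471037822) (nat_lit 3) (nat_lit 4) (nat_lit 4) (nat_lit 5) (nat_lit 4) (nat_lit 4) (nat_lit 324) (nat_lit 225) (nat_lit 171)) (XT.lf (nat_lit 0) (nat_lit 34083595224) (nat_lit 76) (nat_lit 38595007413) (nat_lit 76) (nat_lit 26039670034) (nat_lit 3) (nat_lit 4) (nat_lit 4) (nat_lit 5) (nat_lit 4) (nat_lit 4) (nat_lit 325) (nat_lit 225) (nat_lit 170)))) (XT.nd (nat_lit 156) (nat_lit 0) (nat_lit 0) (XT.nd (nat_lit 78) (nat_lit 0) (nat_lit 0) (XT.lf (nat_lit 0) (nat_lit 39732817534) (nat_lit 76) (nat_lit 38200126851) (nat_lit 76) (nat_lit 25600943080) (nat_lit 3) (nat_lit 4) (nat_lit 4) (nat_lit 5) (nat_lit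 4) (nat_lit 4) (nat_lit 326) (nat_lit 225) (nat_lit 169)) (XT.lf (nat_lit 0) (nat_lit 45642390253) (nat_lit 76) (nat_lit 37794754610) (nat_lit 76) (nat_lit 25153812372) (nat_lit 3) (nat_lit 4) (nat_lit 4) (nat_lit 5) (nat_lit 4) (nat_lit 4) (nat_lit 327) (nat_lit 225) (nat_lit 168))) (XT.nd (nat_lit 78) (nat_lit 0) (nat_lit 0) (XT.lf (nat_lit 0) (nat_lit 51826383792) (nat_lit 76) (nat_lit 37377925519) (nat_lit 76) (nat_lit 24697213311) (nat_lit 3) (nat_lit 4) (nat_lit 4) (nat_lit 5) (nat_lit 4) (nat_lit 4) (nat_lit 328) (nat_lit 225) (nat_lit 167)) (XT.lf (nat_lit 0) (nat_lit 58299521946) (nat_lit 76) (nat_lit 36948647128) (nat_lit 76) (nat_lit 24230058759) (nat_lit 3) (nat_lit 4) (nat_lit 4) (nat_lit 5) (nat_lit 4) (nat_lit 4) (nat_lit 329) (nat_lit 225) (nat_lit 166)))))) (XT.nd (nat_lit 624) (nat_lit 0) (nat_lit 0) (XT.nd (nat_lit 312) (nat_lit 0) (nat_lit 0) (XT.nd (nat_lit 156)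 (nat_lit 0) (nat_lit 0) (XT.nd (nat_lit 78) (nat_lit 0) (nat_lit 0) (XT.lf (nat_lit 0) (nat_lit 65077216947) (nat_lit 76) (nat_lit 36505897345) (nat_lit 76) (nat_lit 23751236442) (nat_lit 3) (nat_lit 4) (nat_lit 4) (nat_lit 5) (nat_lit 4) (nat_lit 4) (nat_lit 330) (nat_lit 225) (nat_lit 165)) (XT.lf (nat_lit 0) (nat_lit 72175606166) (nat_lit 76) (nat_lit 36048622005) (nat_lit 76) (nat_lit 23259606307) (nat_lit 3) (nat_lit 4) (nat_lit 4) (nat_lit 5) (nat_lit 4) (nat_lit 4) (nat_lit 331) (nat_lit 225) (nat_lit 164))) (XT.nd (nat_lit 78) (nat_lit 0) (nat_lit 0) (XT.lf (nat_lit 0) (nat_lit 79611590528) (nat_lit 76) (nat_lit 35575732356) (nat_lit 76) (nat_lit 22753997805) (nat_lit 3) (nat_lit 4) (nat_lit 4) (nat_lit 5) (nat_lit 4) (nat_lit 4) (nat_lit 332) (nat_lit 225) (nat_lit 163)) (XT.lf (nat_lit 0) (nat_lit 87402874759) (nat_lit 76) (nat_lit 35086102471) (nat_lit 76) (nat_lit 22233207109)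 (nat_lit 3) (nat_lit 4) (nat_lit 4) (nat_lit 5) (nat_lit 4) (nat_lit 4) (nat_lit 333) (nat_lit 225) (nat_lit 162)))) (XT.nd (nat_lit 156) (nat_lit 0) (nat_lit 0) (XT.nd (nat_lit 78) (nat_lit 0) (nat_lit 0) (XT.lf (nat_lit 0) (nat_lit 95568009535) (nat_lit 76) (nat_lit 34578566564) (nat_lit 76) (nat_lit 21695994238) (nat_lit 3) (nat_lit 4) (nat_lit 4) (nat_lit 5) (nat_lit 4) (nat_lit 4) (nat_lit 334) (nat_lit 225) (nat_lit 161)) (XT.lf (nat_lit 0) (nat_lit 104126435653) (nat_lit 76) (nat_lit 34051916216) (nat_lit 76) (nat_lit 21141080116) (nat_lit 3) (nat_lit 4) (nat_lit 4) (nat_lit 5) (nat_lit 4) (nat_lit 4) (nat_lit 335) (nat_lit 225) (nat_lit 160))) (XT.nd (nat_lit 78) (nat_lit 0) (nat_lit 0) (XT.lf (nat_lit 0) (nat_lit 113098530319) (nat_lit 76) (nat_lit 33504897499) (nat_lit 76) (nat_lit 20567143517) (nat_lit 3) (nat_lit 4) (nat_lit 4) (nat_lit 5) (nat_lit 4) (nat_lit 4) (nat_lit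 336) (nat_lit 225) (nat_lit 159)) (XT.lf (nat_lit 0) (nat_lit 122505655662) (nat_lit 76) (nat_lit 32936207986) (nat_lit 76) (nat_lit 19972817928) (nat_lit 3) (nat_lit 4) (nat_lit 4) (nat_lit 5) (nat_lit 4) (nat_lit 4) (nat_lit 337) (nat_lit 225) (nat_lit 158))))) (XT.nd (nat_lit 312) (nat_lit 0) (nat_lit 0) (XT.nd (nat_lit 156) (nat_lit 0) (nat_lit 0) (XT.nd (nat_lit 78) (nat_lit 0) (nat_lit 0) (XT.lf (nat_lit 0) (nat_lit 132370209600) (nat_lit 76) (nat_lit 32344493655) (nat_lit 76) (nat_lit 19356688285) (nat_lit 3) (nat_lit 4) (nat_lit 4) (nat_lit 5) (nat_lit 4) (nat_lit 4) (nat_lit 338) (nat_lit 225) (nat_lit 157)) (XT.lf (nat_lit 0) (nat_lit 142715679166) (nat_lit 76) (nat_lit 31728345662) (nat_lit 76) (nat_lit 18717287615) (nat_lit 3) (nat_lit 4) (nat_lit 4) (nat_lit 5) (nat_lit 4) (nat_lit 4) (nat_lit 339) (nat_lit 225) (nat_lit 156))) (XT.nd (nat_lit 78) (nat_lit 0) (nat_lit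 0) (XT.lf (nat_lit 0) (nat_lit 153566696430) (nat_lit 76) (nat_lit 31086296988) (nat_lit 76) (nat_lit 18053093534) (nat_lit 3) (nat_lit 4) (nat_lit 4) (nat_lit 5) (nat_lit 4) (nat_lit 4) (nat_lit 340) (nat_lit 225) (nat_lit 155)) (XT.lf (nat_lit 0) (nat_lit 164949097148) (nat_lit 76) (nat_lit 30416818946) (nat_lit 76) (nat_lit 17362524628) (nat_lit 3) (nat_lit 4) (nat_lit 4) (nat_lit 5) (nat_lit 4) (nat_lit 4) (nat_lit 341) (nat_lit 225) (nat_lit 154)))) (XT.nd (nat_lit 156) (nat_lit 0) (nat_lit 0) (XT.nd (nat_lit 78) (nat_lit 0) (nat_lit 0) (XT.lf (nat_lit 0) (nat_lit 176889982275) (nat_lit 76) (nat_lit 29718317541) (nat_lit 76) (nat_lit 16643936686) (nat_lit 3) (nat_lit 4) (nat_lit 4) (nat_lit 5) (nat_lit 4) (nat_lit 4) (nat_lit 342) (nat_lit 225) (nat_lit 153)) (XT.lf (nat_lit 0) (nat_lit 189417782488) (nat_lit 76) (nat_lit 28989129673) (nat_lit 76) (nat_lit 15895618783) (nat_lit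 3) (nat_lit 4) (nat_lit 4) (nat_lit 5) (nat_lit 4) (nat_lit 4) (nat_lit 343) (nat_lit 225) (nat_lit 152))) (XT.nd (nat_lit 78) (nat_lit 0) (nat_lit 0) (XT.lf (nat_lit 0) (nat_lit 202562325884) (nat_lit 76) (nat_lit 28227519182) (nat_lit 76) (nat_lit 15115789210) (nat_lit 3) (nat_lit 4) (nat_lit 4) (nat_lit 5) (nat_lit 4) (nat_lit 4) (nat_lit 344) (nat_lit 225) (nat_lit 151)) (XT.nd (nat_lit 78) (nat_lit 0) (nat_lit 0) (XT.lf (nat_lit 0) (nat_lit 216354908995) (nat_lit 76) (nat_lit 27431672709) (nat_lit 76) (nat_lit 14302591232) (nat_lit 3) (nat_lit 4) (nat_lit 4) (nat_lit 5) (nat_lit 4) (nat_lit 4) (nat_lit 345) (nat_lit 225) (nat_lit 150)) (XT.lf (nat_lit 0) (nat_lit 230828371303) (nat_lit 76) (nat_lit 26599695381) (nat_lit 76) (nat_lit 13454088660) (nat_lit 3) (nat_lit 4) (nat_lit 4) (nat_lit 5) (nat_lit 4) (nat_lit 4) (nat_lit 346) (nat_lit 225) (nat_lit 149))))))))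
noncomputable def xc54 : XT := (XT.nd (nat_lit 32916) (nat_lit 0) (nat_lit 76) (XT.nd (nat_lit 31668) (nat_lit 0) (nat_lit 684) (XT.nd (nat_lit 624) (nat_lit 76) (nat_lit 0) (XT.nd (nat_lit 312) (nat_lit 0) (nat_lit 0) (XT.nd (nat_lit 156) (nat_lit 0) (nat_lit 0) (XT.nd (nat_lit 78) (nat_lit 0) (nat_lit 0) (XT.lf (nat_lit 0) (nat_lit 246017173434) (nat_lit 76) (nat_lit 25729606301) (nat_lit 76) (nat_lit 12568261252) (nat_lit 3) (nat_lit 4) (nat_lit 4) (nat_lit 5) (nat_lit 4) (nat_lit 4) (nat_lit 347) (nat_lit 225) (nat_lit 148)) (XT.lf (nat_lit 0) (nat_lit 261957479203) (nat_lit 76) (nat_lit 24819333827) (nat_lit 76) (nat_lit 11642999895) (nat_lit 3) (nat_lit 4) (nat_lit 4) (nat_lit 5) (nat_lit 4) (nat_lit 4) (nat_lit 348) (nat_lit 225) (nat_lit 147))) (XT.nd (nat_lit 78) (nat_lit 0) (nat_lit 0) (XT.lf (nat_lit 0) (nat_lit 278687241718) (nat_lit 76) (nat_lit 23866710644) (nat_lit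 76) (nat_lit 10676101585) (nat_lit 3) (nat_lit 4) (nat_lit 4) (nat_lit 5) (nat_lit 4) (nat_lit 4) (nat_lit 349) (nat_lit 225) (nat_lit 146)) (XT.lf (nat_lit 0) (nat_lit 296246293746) (nat_lit 76) (nat_lit 22869468601) (nat_lit 76) (nat_lit 9665264184) (nat_lit 3) (nat_lit 4) (nat_lit 4) (nat_lit 5) (nat_lit 4) (nat_lit 4) (nat_lit 350) (nat_lit 225) (nat_lit 145)))) (XT.nd (nat_lit 156) (nat_lit 0) (nat_lit 0) (XT.nd (nat_lit 78) (nat_lit 0) (nat_lit 0) (XT.lf (nat_lit 0) (nat_lit 314676442556) (nat_lit 76) (nat_lit 21825233313) (nat_lit 76) (nat_lit 8608080935) (nat_lit 3) (nat_lit 4) (nat_lit 4) (nat_lit 5) (nat_lit 4) (nat_lit 4) (nat_lit 351) (nat_lit 225) (nat_lit 144)) (XT.lf (nat_lit 0) (nat_lit 334021569453) (nat_lit 76) (nat_lit 20731518506) (nat_lit 76) (nat_lit 7502034736) (nat_lit 3) (nat_lit 4) (nat_lit 4) (nat_lit 5) (nat_lit 4) (nat_lit 4) (nat_lit 352) (nat_lit 225)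 (nat_lit 143))) (XT.nd (nat_lit 78) (nat_lit 0) (nat_lit 0) (XT.lf (nat_lit 0) (nat_lit 354327734264) (nat_lit 76) (nat_lit 19585720096) (nat_lit 76) (nat_lit 6344492144) (nat_lit 3) (nat_lit 4) (nat_lit 4) (nat_lit 5) (nat_lit 4) (nat_lit 4) (nat_lit 353) (nat_lit 225) (nat_lit 142)) (XT.lf (nat_lit 0) (nat_lit 375643285000) (nat_lit 76) (nat_lit 18385109992) (nat_lit 76) (nat_lit 5132697104) (nat_lit 3) (nat_lit 4) (nat_lit 4) (nat_lit 5) (nat_lit 4) (nat_lit 4) (nat_lit 354) (nat_lit 225) (nat_lit 141))))) (XT.nd (nat_lit 30732) (nat_lit 0) (nat_lit 1748) (XT.nd (nat_lit 156) (nat_lit 76) (nat_lit 0) (XT.nd (nat_lit 78) (nat_lit 0) (nat_lit 0) (XT.lf (nat_lit 0) (nat_lit 398018972972) (nat_lit 76) (nat_lit 17126829598) (nat_lit 76) (nat_lit 3863764391) (nat_lit 3) (nat_lit 4) (nat_lit 4) (nat_lit 5) (nat_lit 4) (nat_lit 4) (nat_lit 355) (nat_lit 225) (nat_lit 140)) (XT.lf (nat_lit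 0) (nat_lit 421508073627) (nat_lit 76) (nat_lit 15807883009) (nat_lit 76) (nat_lit 2534672736) (nat_lit 3) (nat_lit 4) (nat_lit 4) (nat_lit 5) (nat_lit 4) (nat_lit 4) (nat_lit 356) (nat_lit 225) (nat_lit 139))) (XT.nd (nat_lit 78) (nat_lit 76) (nat_lit 0) (XT.lf (nat_lit 0) (nat_lit 446166513397) (nat_lit 76) (nat_lit 14425129876) (nat_lit 76) (nat_lit 1142257635) (nat_lit 3) (nat_lit 4) (nat_lit 4) (nat_lit 5) (nat_lit 4) (nat_lit 4) (nat_lit 357) (nat_lit 225) (nat_lit 138)) (XT.lf (nat_lit 0) (nat_lit 306656729) (nat_lit 152) (nat_lit 12663427819) (nat_lit 76) (nat_lit 471741152742) (nat_lit 2) (nat_lit 5) (nat_lit 4) (nat_lit 5) (nat_lit 3) (nat_lit 4) (nat_lit 358) (nat_lit 225) (nat_lit 137)))) (XT.nd (nat_lit 156) (nat_lit 228) (nat_lit 0) (XT.nd (nat_lit 78) (nat_lit 228) (nat_lit 0) (XT.lf (nat_lit 0) (nat_lit 2083635403) (nat_lit 304) (nat_lit 559232016) (nat_lit 0) (nat_lit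 2083635403) (nat_lit 31) (nat_lit 5) (nat_lit 35) (nat_lit 4) (nat_lit 31) (nat_lit 4) (nat_lit 268) (nat_lit 226) (nat_lit 226)) (XT.lf (nat_lit 0) (nat_lit 4078840432) (nat_lit 228) (nat_lit 3266698361) (nat_lit 228) (nat_lit 2363734441) (nat_lit 28) (nat_lit 4) (nat_lit 31) (nat_lit 5) (nat_lit 31) (nat_lit 4) (nat_lit 269) (nat_lit 226) (nat_lit 225))) (XT.nd (nat_lit 78) (nat_lit 152) (nat_lit 0) (XT.lf (nat_lit 0) (nat_lit 574442533) (nat_lit 304) (nat_lit 585322364) (nat_lit 76) (nat_lit 8824022677) (nat_lit 27) (nat_lit 5) (nat_lit 31) (nat_lit 5) (nat_lit 28) (nat_lit 4) (nat_lit 270) (nat_lit 226) (nat_lit 224)) (XT.lf (nat_lit 0) (nat_lit 3549826018) (nat_lit 228) (nat_lit 5631531103) (nat_lit 0) (nat_lit 1090831302) (nat_lit 25) (nat_lit 5) (nat_lit 28) (nat_lit 4) (nat_lit 25) (nat_lit 4) (nat_lit 271) (nat_lit 226) (nat_lit 223)))))) (XT.nd (nat_lit 624) (nat_lit 380)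 (nat_lit 0) (XT.nd (nat_lit 312) (nat_lit 228) (nat_lit 0) (XT.nd (nat_lit 156) (nat_lit 228) (nat_lit 0) (XT.nd (nat_lit 78) (nat_lit 228) (nat_lit 0) (XT.lf (nat_lit 0) (nat_lit 6585023876) (nat_lit 228) (nat_lit 611831823) (nat_lit 0) (nat_lit 3383158508) (nat_lit 25) (nat_lit 5) (nat_lit 28) (nat_lit 4) (nat_lit 25) (nat_lit 4) (nat_lit 272) (nat_lit 226) (nat_lit 222)) (XT.lf (nat_lit 0) (nat_lit 4649178830) (nat_lit 228) (nat_lit 5082968019) (nat_lit 228) (nat_lit 1173606793) (nat_lit 22) (nat_lit 4) (nat_lit 25) (nat_lit 5) (nat_lit 25) (nat_lit 4) (nat_lit 273) (nat_lit 226) (nat_lit 221))) (XT.nd (nat_lit 78) (nat_lit 152) (nat_lit 0) (XT.lf (nat_lit 0) (nat_lit 1630336475) (nat_lit 304) (nat_lit 1240977030) (nat_lit 76) (nat_lit 8380614148) (nat_lit 21) (nat_lit 5) (nat_lit 25) (nat_lit 5) (nat_lit 22) (nat_lit 4) (nat_lit 274) (nat_lit 226) (nat_lit 220)) (XT.lf (nat_lit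 0) (nat_lit 3981107448) (nat_lit 152) (nat_lit 509621261) (nat_lit 228) (nat_lit 7126393421) (nat_lit 19) (nat_lit 5) (nat_lit 21) (nat_lit 5) (nat_lit 22) (nat_lit 4) (nat_lit 275) (nat_lit 226) (nat_lit 219)))) (XT.nd (nat_lit 156) (nat_lit 76) (nat_lit 0) (XT.nd (nat_lit 78) (nat_lit 152) (nat_lit 0) (XT.lf (nat_lit 0) (nat_lit 7441802726) (nat_lit 228) (nat_lit 2678165199) (nat_lit 0) (nat_lit 1883661840) (nat_lit 19) (nat_lit 5) (nat_lit 22) (nat_lit 4) (nat_lit 19) (nat_lit 4) (nat_lit 276) (nat_lit 226) (nat_lit 218)) (XT.lf (nat_lit 0) (nat_lit 2450102234) (nat_lit 152) (nat_lit 8037451277) (nat_lit 152) (nat_lit 1924968874) (nat_lit 17) (nat_lit 4) (nat_lit 19) (nat_lit 5) (nat_lit 19) (nat_lit 4) (nat_lit 277) (nat_lit 226) (nat_lit 217))) (XT.nd (nat_lit 78) (nat_lit 0) (nat_lit 0) (XT.lf (nat_lit 0) (nat_lit 763840067) (nat_lit 228) (nat_lit 5074554568) (nat_lit 76) (nat_lit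 7005827824) (nat_lit 16) (nat_lit 5) (nat_lit 19) (nat_lit 5) (nat_lit 17) (nat_lit 4) (nat_lit 278) (nat_lit 226) (nat_lit 216)) (XT.lf (nat_lit 0) (nat_lit 3428124546) (nat_lit 228) (nat_lit 115575483) (nat_lit 76) (nat_lit 9757302476) (nat_lit 16) (nat_lit 5) (nat_lit 19) (nat_lit 5) (nat_lit 17) (nat_lit 4) (nat_lit 279) (nat_lit 226) (nat_lit 215))))) (XT.nd (nat_lit 312) (nat_lit 152) (nat_lit 0) (XT.nd (nat_lit 156) (nat_lit 152) (nat_lit 0) (XT.nd (nat_lit 78) (nat_lit 0) (nat_lit 0) (XT.lf (nat_lit 0) (nat_lit 5120258609) (nat_lit 76) (nat_lit 1095522102) (nat_lit 152) (nat_lit 7565675014) (nat_lit 15) (nat_lit 5) (nat_lit 16) (nat_lit 5) (nat_lit 17) (nat_lit 4) (nat_lit 280) (nat_lit 226) (nat_lit 214)) (XT.lf (nat_lit 0) (nat_lit 9079551030) (nat_lit 152) (nat_lit 3823794914) (nat_lit 0) (nat_lit 1386074850) (nat_lit 15) (nat_lit 5) (nat_lit 17) (nat_lit 4) (nat_lit 15)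 (nat_lit 4) (nat_lit 281) (nat_lit 226) (nat_lit 213))) (XT.nd (nat_lit 78) (nat_lit 0) (nat_lit 0) (XT.lf (nat_lit 0) (nat_lit 1143846225) (nat_lit 152) (nat_lit 10894397889) (nat_lit 152) (nat_lit 2787263534) (nat_lit 13) (nat_lit 4) (nat_lit 15) (nat_lit 5) (nat_lit 15) (nat_lit 4) (nat_lit 282) (nat_lit 226) (nat_lit 212)) (XT.lf (nat_lit 0) (nat_lit 6364442253) (nat_lit 152) (nat_lit 8763106373) (nat_lit 152) (nat_lit 262011850) (nat_lit 13) (nat_lit 4) (nat_lit 15) (nat_lit 5) (nat_lit 15) (nat_lit 4) (nat_lit 283) (nat_lit 226) (nat_lit 211)))) (XT.nd (nat_lit 156) (nat_lit 0) (nat_lit 0) (XT.nd (nat_lit 78) (nat_lit 76) (nat_lit 0) (XT.lf (nat_lit 0) (nat_lit 2233297084) (nat_lit 228) (nat_lit 4298035659) (nat_lit 76) (nat_lit 9452872179) (nat_lit 12) (nat_lit 5) (nat_lit 15) (nat_lit 5) (nat_lit 13) (nat_lit 4) (nat_lit 284) (nat_lit 226) (nat_lit 210)) (XT.lf (nat_lit 0)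 (nat_lit 559999758) (nat_lit 76) (nat_lit 4217379717) (nat_lit 152) (nat_lit 11834601921) (nat_lit 11) (nat_lit 5) (nat_lit 12) (nat_lit 5) (nat_lit 13) (nat_lit 4) (nat_lit 285) (nat_lit 226) (nat_lit 209))) (XT.nd (nat_lit 78) (nat_lit 0) (nat_lit 0) (XT.lf (nat_lit 0) (nat_lit 5693045379) (nat_lit 76) (nat_lit 1754267377) (nat_lit 152) (nat_lit 9824144685) (nat_lit 11) (nat_lit 5) (nat_lit 12) (nat_lit 5) (nat_lit 13) (nat_lit 4) (nat_lit 286) (nat_lit 226) (nat_lit 208)) (XT.lf (nat_lit 0) (nat_lit 10192481724) (nat_lit 152) (nat_lit 7008810089) (nat_lit 0) (nat_lit 765760031) (nat_lit 11) (nat_lit 5) (nat_lit 13) (nat_lit 4) (nat_lit 11) (nat_lit 4) (nat_lit 287) (nat_lit 226) (nat_lit 207))))))) (XT.nd (nat_lit 1248) (nat_lit 152) (nat_lit 0) (XT.nd (nat_lit 624) (nat_lit 152) (nat_lit 0) (XT.nd (nat_lit 312) (nat_lit 76) (nat_lit 0) (XT.nd (nat_lit 156) (nat_lit 76) (nat_lit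 0) (XT.nd (nat_lit 78) (nat_lit 152) (nat_lit 0) (XT.lf (nat_lit 0) (nat_lit 13035809680) (nat_lit 152) (nat_lit 2348682902) (nat_lit 0) (nat_lit 3315108845) (nat_lit 11) (nat_lit 5) (nat_lit 13) (nat_lit 4) (nat_lit 11) (nat_lit 4) (nat_lit 288) (nat_lit 226) (nat_lit 206)) (XT.lf (nat_lit 0) (nat_lit 2521146503) (nat_lit 152) (nat_lit 13474893081) (nat_lit 152) (nat_lit 3474212110) (nat_lit 9) (nat_lit 4) (nat_lit 11) (nat_lit 5) (nat_lit 11) (nat_lit 4) (nat_lit 289) (nat_lit 226) (nat_lit 205))) (XT.nd (nat_lit 78) (nat_lit 76) (nat_lit 0) (XT.lf (nat_lit 0) (nat_lit 7613689137) (nat_lit 152) (nat_lit 11467221286) (nat_lit 152) (nat_lit 1199892567) (nat_lit 9) (nat_lit 4) (nat_lit 11) (nat_lit 5) (nat_lit 11) (nat_lit 4) (nat_lit 290) (nat_lit 226) (nat_lit 204)) (XT.lf (nat_lit 0) (nat_lit 1088805035) (nat_lit 228) (nat_lit 8289228632) (nat_lit 76) (nat_lit 11756167561) (nat_lit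 8) (nat_lit 5) (nat_lit 11) (nat_lit 5) (nat_lit 9) (nat_lit 4) (nat_lit 291) (nat_lit 226) (nat_lit 203)))) (XT.nd (nat_lit 156) (nat_lit 0) (nat_lit 0) (XT.nd (nat_lit 78) (nat_lit 76) (nat_lit 0) (XT.lf (nat_lit 0) (nat_lit 3393222858) (nat_lit 228) (nat_lit 3807029464) (nat_lit 76) (nat_lit 14832125812) (nat_lit 8) (nat_lit 5) (nat_lit 11) (nat_lit 5) (nat_lit 9) (nat_lit 4) (nat_lit 292) (nat_lit 226) (nat_lit 202)) (XT.lf (nat_lit 0) (nat_lit 835634769) (nat_lit 76) (nat_lit 4934663495) (nat_lit 152) (nat_lit 17207458315) (nat_lit 7) (nat_lit 5) (nat_lit 8) (nat_lit 5) (nat_lit 9) (nat_lit 4) (nat_lit 293) (nat_lit 226) (nat_lit 201))) (XT.nd (nat_lit 78) (nat_lit 0) (nat_lit 0) (XT.lf (nat_lit 0) (nat_lit 5753671168) (nat_lit 76) (nat_lit 2522679858) (nat_lit 152) (nat_lit 15693703436) (nat_lit 7) (nat_lit 5) (nat_lit 8) (nat_lit 5) (nat_lit 9) (nat_lit 4) (nat_lit 294) (nat_lit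 226) (nat_lit 200)) (XT.lf (nat_lit 0) (nat_lit 10832911754) (nat_lit 76) (nat_lit 23032479) (nat_lit 152) (nat_lit 14158760348) (nat_lit 7) (nat_lit 5) (nat_lit 8) (nat_lit 5) (nat_lit 9) (nat_lit 4) (nat_lit 295) (nat_lit 226) (nat_lit 199))))) (XT.nd (nat_lit 312) (nat_lit 76) (nat_lit 0) (XT.nd (nat_lit 156) (nat_lit 76) (nat_lit 0) (XT.nd (nat_lit 78) (nat_lit 0) (nat_lit 0) (XT.lf (nat_lit 0) (nat_lit 13555348271) (nat_lit 152) (nat_lit 10068872738) (nat_lit 0) (nat_lit 2487966766) (nat_lit 7) (nat_lit 5) (nat_lit 9) (nat_lit 4) (nat_lit 7) (nat_lit 4) (nat_lit 296) (nat_lit 226) (nat_lit 198)) (XT.lf (nat_lit 0) (nat_lit 16342683849) (nat_lit 152) (nat_lit 5829523916) (nat_lit 0) (nat_lit 5094824653) (nat_lit 7) (nat_lit 5) (nat_lit 9) (nat_lit 4) (nat_lit 7) (nat_lit 4) (nat_lit 297) (nat_lit 226) (nat_lit 197))) (XT.nd (nat_lit 78) (nat_lit 76) (nat_lit 0) (XT.lf (nat_lit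 0) (nat_lit 19224227881) (nat_lit 152) (nat_lit 1453293073) (nat_lit 0) (nat_lit 7804485168) (nat_lit 7) (nat_lit 5) (nat_lit 9) (nat_lit 4) (nat_lit 7) (nat_lit 4) (nat_lit 298) (nat_lit 226) (nat_lit 196)) (XT.lf (nat_lit 0) (nat_lit 3171755366) (nat_lit 76) (nat_lit 19084605808) (nat_lit 76) (nat_lit 7501164509) (nat_lit 6) (nat_lit 4) (nat_lit 7) (nat_lit 5) (nat_lit 7) (nat_lit 4) (nat_lit 299) (nat_lit 226) (nat_lit 195)))) (XT.nd (nat_lit 156) (nat_lit 76) (nat_lit 0) (XT.nd (nat_lit 78) (nat_lit 0) (nat_lit 0) (XT.lf (nat_lit 0) (nat_lit 8008154745) (nat_lit 76) (nat_lit 17414500215) (nat_lit 76) (nat_lit 5675155499) (nat_lit 6) (nat_lit 4) (nat_lit 7) (nat_lit 5) (nat_lit 7) (nat_lit 4) (nat_lit 300) (nat_lit 226) (nat_lit 194)) (XT.lf (nat_lit 0) (nat_lit 13019367865) (nat_lit 76) (nat_lit 15687839954) (nat_lit 76) (nat_lit 3800015794) (nat_lit 6) (nat_lit 4) (nat_lit 7)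 (nat_lit 5) (nat_lit 7) (nat_lit 4) (nat_lit 301) (nat_lit 226) (nat_lit 193))) (XT.nd (nat_lit 78) (nat_lit 76) (nat_lit 0) (XT.lf (nat_lit 0) (nat_lit 18217326187) (nat_lit 76) (nat_lit 13900513929) (nat_lit 76) (nat_lit 1871280776) (nat_lit 6) (nat_lit 4) (nat_lit 7) (nat_lit 5) (nat_lit 7) (nat_lit 4) (nat_lit 302) (nat_lit 226) (nat_lit 192)) (XT.lf (nat_lit 0) (nat_lit 111940522) (nat_lit 152) (nat_lit 11934430313) (nat_lit 76) (nat_lit 23500569512) (nat_lit 5) (nat_lit 5) (nat_lit 7) (nat_lit 5) (nat_lit 6) (nat_lit 4) (nat_lit 303) (nat_lit 226) (nat_lit 191)))))) (XT.nd (nat_lit 624) (nat_lit 76) (nat_lit 0) (XT.nd (nat_lit 312) (nat_lit 0) (nat_lit 0) (XT.nd (nat_lit 156) (nat_lit 76) (nat_lit 0) (XT.nd (nat_lit 78) (nat_lit 0) (nat_lit 0) (XT.lf (nat_lit 0) (nat_lit 2096173680) (nat_lit 152) (nat_lit 7995014467) (nat_lit 76) (nat_lit 27091783504) (nat_lit 5) (nat_lit 5)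 (nat_lit 7) (nat_lit 5) (nat_lit 6) (nat_lit 4) (nat_lit 304) (nat_lit 226) (nat_lit 190)) (XT.lf (nat_lit 0) (nat_lit 4146035731) (nat_lit 152) (nat_lit 3914951669) (nat_lit 76) (nat_lit 30841583511) (nat_lit 5) (nat_lit 5) (nat_lit 7) (nat_lit 5) (nat_lit 6) (nat_lit 4) (nat_lit 305) (nat_lit 226) (nat_lit 189))) (XT.nd (nat_lit 78) (nat_lit 0) (nat_lit 0) (XT.lf (nat_lit 0) (nat_lit 325903463) (nat_lit 76) (nat_lit 5945592102) (nat_lit 152) (nat_lit 34438082431) (nat_lit 4) (nat_lit 5) (nat_lit 5) (nat_lit 5) (nat_lit 6) (nat_lit 4) (nat_lit 306) (nat_lit 226) (nat_lit 188)) (XT.lf (nat_lit 0) (nat_lit 4861943072) (nat_lit 76) (nat_lit 3676302374) (nat_lit 152) (nat_lit 34067018280) (nat_lit 4) (nat_lit 5) (nat_lit 5) (nat_lit 5) (nat_lit 6) (nat_lit 4) (nat_lit 307) (nat_lit 226) (nat_lit 187)))) (XT.nd (nat_lit 156) (nat_lit 0) (nat_lit 0) (XT.nd (nat_lit 78) (nat_lit 0) (nat_lit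 0) (XT.lf (nat_lit 0) (nat_lit 9574521268) (nat_lit 76) (nat_lit 1314016746) (nat_lit 152) (nat_lit 33708760840) (nat_lit 4) (nat_lit 5) (nat_lit 5) (nat_lit 5) (nat_lit 6) (nat_lit 4) (nat_lit 308) (nat_lit 226) (nat_lit 186)) (XT.lf (nat_lit 0) (nat_lit 13345875360) (nat_lit 152) (nat_lit 32233474004) (nat_lit 0) (nat_lit 1110181651) (nat_lit 4) (nat_lit 5) (nat_lit 6) (nat_lit 4) (nat_lit 4) (nat_lit 4) (nat_lit 309) (nat_lit 226) (nat_lit 185))) (XT.nd (nat_lit 78) (nat_lit 0) (nat_lit 0) (XT.lf (nat_lit 0) (nat_lit 15920306203) (nat_lit 152) (nat_lit 29372966621) (nat_lit 0) (nat_lit 3593458995) (nat_lit 4) (nat_lit 5) (nat_lit 6) (nat_lit 4) (nat_lit 4) (nat_lit 4) (nat_lit 310) (nat_lit 226) (nat_lit 184)) (XT.lf (nat_lit 0) (nat_lit 18597444654) (nat_lit 152) (nat_lit 26413929222) (nat_lit 0) (nat_lit 6183784591) (nat_lit 4) (nat_lit 5) (nat_lit 6) (nat_lit 4) (nat_lit 4)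 (nat_lit 4) (nat_lit 311) (nat_lit 226) (nat_lit 183))))) (XT.nd (nat_lit 312) (nat_lit 76) (nat_lit 0) (XT.nd (nat_lit 156) (nat_lit 0) (nat_lit 0) (XT.nd (nat_lit 78) (nat_lit 0) (nat_lit 0) (XT.lf (nat_lit 0) (nat_lit 21383664855) (nat_lit 152) (nat_lit 23349316481) (nat_lit 0) (nat_lit 8887325881) (nat_lit 4) (nat_lit 5) (nat_lit 6) (nat_lit 4) (nat_lit 4) (nat_lit 4) (nat_lit 312) (nat_lit 226) (nat_lit 182)) (XT.lf (nat_lit 0) (nat_lit 24285600662) (nat_lit 152) (nat_lit 20171831700) (nat_lit 0) (nat_lit 11710519869) (nat_lit 4) (nat_lit 5) (nat_lit 6) (nat_lit 4) (nat_lit 4) (nat_lit 4) (nat_lit 313) (nat_lit 226) (nat_lit 181))) (XT.nd (nat_lit 78) (nat_lit 0) (nat_lit 0) (XT.lf (nat_lit 0) (nat_lit 27310161446) (nat_lit 152) (nat_lit 16873909439) (nat_lit 0) (nat_lit 14660088444) (nat_lit 4) (nat_lit 5) (nat_lit 6) (nat_lit 4) (nat_lit 4) (nat_lit 4) (nat_lit 314) (nat_lit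 226) (nat_lit 180)) (XT.lf (nat_lit 0) (nat_lit 30464548542) (nat_lit 152) (nat_lit 13447697503) (nat_lit 0) (nat_lit 17743054390) (nat_lit 4) (nat_lit 5) (nat_lit 6) (nat_lit 4) (nat_lit 4) (nat_lit 4) (nat_lit 315) (nat_lit 226) (nat_lit 179)))) (XT.nd (nat_lit 156) (nat_lit 76) (nat_lit 0) (XT.nd (nat_lit 78) (nat_lit 0) (nat_lit 0) (XT.lf (nat_lit 0) (nat_lit 33756272397) (nat_lit 152) (nat_lit 9885038244) (nat_lit 0) (nat_lit 20966758101) (nat_lit 4) (nat_lit 5) (nat_lit 6) (nat_lit 4) (nat_lit 4) (nat_lit 4) (nat_lit 316) (nat_lit 226) (nat_lit 178)) (XT.lf (nat_lit 0) (nat_lit 37193170447) (nat_lit 152) (nat_lit 6177449141) (nat_lit 0) (nat_lit 24338875062) (nat_lit 4) (nat_lit 5) (nat_lit 6) (nat_lit 4) (nat_lit 4) (nat_lit 4) (nat_lit 317) (nat_lit 226) (nat_lit 177))) (XT.nd (nat_lit 78) (nat_lit 76) (nat_lit 0) (XT.lf (nat_lit 0) (nat_lit 40783425784) (nat_lit 152) (nat_lit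 2316102599) (nat_lit 0) (nat_lit 27867434123) (nat_lit 4) (nat_lit 5) (nat_lit 6) (nat_lit 4) (nat_lit 4) (nat_lit 4) (nat_lit 318) (nat_lit 226) (nat_lit 176)) (XT.lf (nat_lit 0) (nat_lit 1764675706) (nat_lit 76) (nat_lit 42798462461) (nat_lit 76) (nat_lit 29823712442) (nat_lit 3) (nat_lit 4) (nat_lit 4) (nat_lit 5) (nat_lit 4) (nat_lit 4) (nat_lit 319) (nat_lit 226) (nat_lit 175))))))))
noncomputable def xc55 : XT := (XT.nd (nat_lit 1248) (nat_lit 0) (nat_lit 0) (XT.nd (nat_lit 624) (nat_lit 0) (nat_lit 0) (XT.nd (nat_lit 312) (nat_lit 0) (nat_lit 0) (XT.nd (nat_lit 156) (nat_lit 0) (nat_lit 0) (XT.nd (nat_lit 78) (nat_lit 0) (nat_lit 0) (XT.lf (nat_lit 0) (nat_lit 6100272318) (nat_lit 76) (nat_lit 42453556743) (nat_lit 76) (nat_lit 29422846383) (nat_lit 3) (nat_lit 4) (nat_lit 4) (nat_lit 5) (nat_lit 4) (nat_lit 4) (nat_lit 320) (nat_lit 226) (nat_lit 174)) (XT.lf (nat_lit 0) (nat_lit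 10624429273) (nat_lit 76) (nat_lit 42103214342) (nat_lit 76) (nat_lit 29019208420) (nat_lit 3) (nat_lit 4) (nat_lit 4) (nat_lit 5) (nat_lit 4) (nat_lit 4) (nat_lit 321) (nat_lit 226) (nat_lit 173))) (XT.nd (nat_lit 78) (nat_lit 0) (nat_lit 0) (XT.lf (nat_lit 0) (nat_lit 15347918373) (nat_lit 76) (nat_lit 41746601112) (nat_lit 76) (nat_lit 28611837510) (nat_lit 3) (nat_lit 4) (nat_lit 4) (nat_lit 5) (nat_lit 4) (nat_lit 4) (nat_lit 322) (nat_lit 226) (nat_lit 172)) (XT.lf (nat_lit 0) (nat_lit 20281986022) (nat_lit 76) (nat_lit 41382867971) (nat_lit 76) (nat_lit 28199763723) (nat_lit 3) (nat_lit 4) (nat_lit 4) (nat_lit 5) (nat_lit 4) (nat_lit 4) (nat_lit 323) (nat_lit 226) (nat_lit 171)))) (XT.nd (nat_lit 156) (nat_lit 0) (nat_lit 0) (XT.nd (nat_lit 78) (nat_lit 0) (nat_lit 0) (XT.lf (nat_lit 0) (nat_lit 25438380000) (nat_lit 76) (nat_lit 41011148889) (nat_lit 76) (nat_lit 27782005931)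 (nat_lit 3) (nat_lit 4) (nat_lit 4) (nat_lit 5) (nat_lit 4) (nat_lit 4) (nat_lit 324) (nat_lit 226) (nat_lit 170)) (XT.lf (nat_lit 0) (nat_lit 30829377434) (nat_lit 76) (nat_lit 40630558821) (nat_lit 76) (nat_lit 27357569471) (nat_lit 3) (nat_lit 4) (nat_lit 4) (nat_lit 5) (nat_lit 4) (nat_lit 4) (nat_lit 325) (nat_lit 226) (nat_lit 169))) (XT.nd (nat_lit 78) (nat_lit 0) (nat_lit 0) (XT.lf (nat_lit 0) (nat_lit 36467814034) (nat_lit 76) (nat_lit 40240191600) (nat_lit 76) (nat_lit 26925443782) (nat_lit 3) (nat_lit 4) (nat_lit 4) (nat_lit 5) (nat_lit 4) (nat_lit 4) (nat_lit 326) (nat_lit 226) (nat_lit 168)) (XT.lf (nat_lit 0) (nat_lit 42367114648) (nat_lit 76) (nat_lit 39839117780) (nat_lit 76) (nat_lit 26484599992) (nat_lit 3) (nat_lit 4) (nat_lit 4) (nat_lit 5) (nat_lit 4) (nat_lit 4) (nat_lit 327) (nat_lit 226) (nat_lit 167))))) (XT.nd (nat_lit 312) (nat_lit 0) (nat_lit 0) (XT.nd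 (nat_lit 156) (nat_lit 0) (nat_lit 0) (XT.nd (nat_lit 78) (nat_lit 0) (nat_lit 0) (XT.lf (nat_lit 0) (nat_lit 48541325230) (nat_lit 76) (nat_lit 39426382423) (nat_lit 76) (nat_lit 26033988474) (nat_lit 3) (nat_lit 4) (nat_lit 4) (nat_lit 5) (nat_lit 4) (nat_lit 4) (nat_lit 328) (nat_lit 226) (nat_lit 166)) (XT.lf (nat_lit 0) (nat_lit 55005146281) (nat_lit 76) (nat_lit 39001002826) (nat_lit 76) (nat_lit 25572536343) (nat_lit 3) (nat_lit 4) (nat_lit 4) (nat_lit 5) (nat_lit 4) (nat_lit 4) (nat_lit 329) (nat_lit 226) (nat_lit 165))) (XT.nd (nat_lit 78) (nat_lit 0) (nat_lit 0) (XT.lf (nat_lit 0) (nat_lit 61773967852) (nat_lit 76) (nat_lit 38561966181) (nat_lit 76) (nat_lit 25099144902) (nat_lit 3) (nat_lit 4) (nat_lit 4) (nat_lit 5) (nat_lit 4) (nat_lit 4) (nat_lit 330) (nat_lit 226) (nat_lit 164)) (XT.lf (nat_lit 0) (nat_lit 68863906184) (nat_lit 76) (nat_lit 38108227162) (nat_lit 76)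 (nat_lit 24612687031) (nat_lit 3) (nat_lit 4) (nat_lit 4) (nat_lit 5) (nat_lit 4) (nat_lit 4) (nat_lit 331) (nat_lit 226) (nat_lit 163)))) (XT.nd (nat_lit 156) (nat_lit 0) (nat_lit 0) (XT.nd (nat_lit 78) (nat_lit 0) (nat_lit 0) (XT.lf (nat_lit 0) (nat_lit 76291842083) (nat_lit 76) (nat_lit 37638705438) (nat_lit 76) (nat_lit 24112004495) (nat_lit 3) (nat_lit 4) (nat_lit 4) (nat_lit 5) (nat_lit 4) (nat_lit 4) (nat_lit 332) (nat_lit 226) (nat_lit 162)) (XT.lf (nat_lit 0) (nat_lit 84075461111) (nat_lit 76) (nat_lit 37152283100) (nat_lit 76) (nat_lit 23595905194) (nat_lit 3) (nat_lit 4) (nat_lit 4) (nat_lit 5) (nat_lit 4) (nat_lit 4) (nat_lit 333) (nat_lit 226) (nat_lit 161))) (XT.nd (nat_lit 78) (nat_lit 0) (nat_lit 0) (XT.lf (nat_lit 0) (nat_lit 92233295693) (nat_lit 76) (nat_lit 36647802000) (nat_lit 76) (nat_lit 23063160320) (nat_lit 3) (nat_lit 4) (nat_lit 4) (nat_lit 5) (nat_lit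 4) (nat_lit 4) (nat_lit 334) (nat_lit 226) (nat_lit 160)) (XT.lf (nat_lit 0) (nat_lit 100784769246) (nat_lit 76) (nat_lit 36124060993) (nat_lit 76) (nat_lit 22512501432) (nat_lit 3) (nat_lit 4) (nat_lit 4) (nat_lit 5) (nat_lit 4) (nat_lit 4) (nat_lit 335) (nat_lit 226) (nat_lit 159)))))) (XT.nd (nat_lit 624) (nat_lit 0) (nat_lit 0) (XT.nd (nat_lit 312) (nat_lit 0) (nat_lit 0) (XT.nd (nat_lit 156) (nat_lit 0) (nat_lit 0) (XT.nd (nat_lit 78) (nat_lit 0) (nat_lit 0) (XT.lf (nat_lit 0) (nat_lit 109750242421) (nat_lit 76) (nat_lit 35579813075) (nat_lit 76) (nat_lit 21942617437) (nat_lit 3) (nat_lit 4) (nat_lit 4) (nat_lit 5) (nat_lit 4) (nat_lit 4) (nat_lit 336) (nat_lit 226) (nat_lit 158)) (XT.lf (nat_lit 0) (nat_lit 119151061582) (nat_lit 76) (nat_lit 35013762420) (nat_lit 76) (nat_lit 21352151470) (nat_lit 3) (nat_lit 4) (nat_lit 4) (nat_lit 5) (nat_lit 4) (nat_lit 4) (nat_lit 337)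 (nat_lit 226) (nat_lit 157))) (XT.nd (nat_lit 78) (nat_lit 0) (nat_lit 0) (XT.lf (nat_lit 0) (nat_lit 129009609633) (nat_lit 76) (nat_lit 34424561286) (nat_lit 76) (nat_lit 20739697659) (nat_lit 3) (nat_lit 4) (nat_lit 4) (nat_lit 5) (nat_lit 4) (nat_lit 4) (nat_lit 338) (nat_lit 226) (nat_lit 156)) (XT.lf (nat_lit 0) (nat_lit 139349359306) (nat_lit 76) (nat_lit 33810806814) (nat_lit 76) (nat_lit 20103797781) (nat_lit 3) (nat_lit 4) (nat_lit 4) (nat_lit 5) (nat_lit 4) (nat_lit 4) (nat_lit 339) (nat_lit 226) (nat_lit 155)))) (XT.nd (nat_lit 156) (nat_lit 0) (nat_lit 0) (XT.nd (nat_lit 78) (nat_lit 0) (nat_lit 0) (XT.lf (nat_lit 0) (nat_lit 150194929054) (nat_lit 76) (nat_lit 33171037685) (nat_lit 76) (nat_lit 19442937787) (nat_lit 3) (nat_lit 4) (nat_lit 4) (nat_lit 5) (nat_lit 4) (nat_lit 4) (nat_lit 340) (nat_lit 226) (nat_lit 154)) (XT.lf (nat_lit 0) (nat_lit 161572141661) (nat_lit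 76) (nat_lit 32503730637) (nat_lit 76) (nat_lit 18755544202) (nat_lit 3) (nat_lit 4) (nat_lit 4) (nat_lit 5) (nat_lit 4) (nat_lit 4) (nat_lit 341) (nat_lit 226) (nat_lit 153))) (XT.nd (nat_lit 78) (nat_lit 0) (nat_lit 0) (XT.lf (nat_lit 0) (nat_lit 173508085730) (nat_lit 76) (nat_lit 31807296846) (nat_lit 76) (nat_lit 18039980376) (nat_lit 3) (nat_lit 4) (nat_lit 4) (nat_lit 5) (nat_lit 4) (nat_lit 4) (nat_lit 342) (nat_lit 226) (nat_lit 152)) (XT.lf (nat_lit 0) (nat_lit 186031180173) (nat_lit 76) (nat_lit 31080078134) (nat_lit 76) (nat_lit 17294542583) (nat_lit 3) (nat_lit 4) (nat_lit 4) (nat_lit 5) (nat_lit 4) (nat_lit 4) (nat_lit 343) (nat_lit 226) (nat_lit 151))))) (XT.nd (nat_lit 312) (nat_lit 0) (nat_lit 0) (XT.nd (nat_lit 156) (nat_lit 0) (nat_lit 0) (XT.nd (nat_lit 78) (nat_lit 0) (nat_lit 0) (XT.lf (nat_lit 0) (nat_lit 199171241884) (nat_lit 76) (nat_lit 30320343030) (nat_lit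 76) (nat_lit 16517455972) (nat_lit 3) (nat_lit 4) (nat_lit 4) (nat_lit 5) (nat_lit 4) (nat_lit 4) (nat_lit 344) (nat_lit 226) (nat_lit 150)) (XT.lf (nat_lit 0) (nat_lit 212959556722) (nat_lit 76) (nat_lit 29526282639) (nat_lit 76) (nat_lit 15706870338) (nat_lit 3) (nat_lit 4) (nat_lit 4) (nat_lit 5) (nat_lit 4) (nat_lit 4) (nat_lit 345) (nat_lit 226) (nat_lit 149))) (XT.nd (nat_lit 78) (nat_lit 0) (nat_lit 0) (XT.lf (nat_lit 0) (nat_lit 227428954010) (nat_lit 76) (nat_lit 28696006343) (nat_lit 76) (nat_lit 14860855714) (nat_lit 3) (nat_lit 4) (nat_lit 4) (nat_lit 5) (nat_lit 4) (nat_lit 4) (nat_lit 346) (nat_lit 226) (nat_lit 148)) (XT.lf (nat_lit 0) (nat_lit 242613884693) (nat_lit 76) (nat_lit 27827537292) (nat_lit 76) (nat_lit 13977397780) (nat_lit 3) (nat_lit 4) (nat_lit 4) (nat_lit 5) (nat_lit 4) (nat_lit 4) (nat_lit 347) (nat_lit 226) (nat_lit 147)))) (XT.nd (nat_lit 156) (nat_lit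 0) (nat_lit 0) (XT.nd (nat_lit 78) (nat_lit 0) (nat_lit 0) (XT.lf (nat_lit 0) (nat_lit 258550503367) (nat_lit 76) (nat_lit 26918807703) (nat_lit 76) (nat_lit 13054393064) (nat_lit 3) (nat_lit 4) (nat_lit 4) (nat_lit 5) (nat_lit 4) (nat_lit 4) (nat_lit 348) (nat_lit 226) (nat_lit 146)) (XT.lf (nat_lit 0) (nat_lit 275276754364) (nat_lit 76) (nat_lit 25967653934) (nat_lit 76) (nat_lit 12089643937) (nat_lit 3) (nat_lit 4) (nat_lit 4) (nat_lit 5) (nat_lit 4) (nat_lit 4) (nat_lit 349) (nat_lit 226) (nat_lit 145))) (XT.nd (nat_lit 78) (nat_lit 0) (nat_lit 0) (XT.lf (nat_lit 0) (nat_lit 292832462090) (nat_lit 76) (nat_lit 24971811334) (nat_lit 76) (nat_lit 11080853376) (nat_lit 3) (nat_lit 4) (nat_lit 4) (nat_lit 5) (nat_lit 4) (nat_lit 4) (nat_lit 350) (nat_lit 226) (nat_lit 144)) (XT.lf (nat_lit 0) (nat_lit 311259425850) (nat_lit 76) (nat_lit 23928908848) (nat_lit 76) (nat_lit 10025619499)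 (nat_lit 3) (nat_lit 4) (nat_lit 4) (nat_lit 5) (nat_lit 4) (nat_lit 4) (nat_lit 351) (nat_lit 226) (nat_lit 143)))))))
noncomputable def xc56 : XT := (XT.nd (nat_lit 31512) (nat_lit 0) (nat_lit 380) (XT.nd (nat_lit 30888) (nat_lit 0) (nat_lit 1368) (XT.nd (nat_lit 312) (nat_lit 0) (nat_lit 0) (XT.nd (nat_lit 156) (nat_lit 0) (nat_lit 0) (XT.nd (nat_lit 78) (nat_lit 0) (nat_lit 0) (XT.lf (nat_lit 0) (nat_lit 330601519366) (nat_lit 76) (nat_lit 22836463376) (nat_lit 76) (nat_lit 8921429845) (nat_lit 3) (nat_lit 4) (nat_lit 4) (nat_lit 5) (nat_lit 4) (nat_lit 4) (nat_lit 352) (nat_lit 226) (nat_lit 142)) (XT.lf (nat_lit 0) (nat_lit 350904795242) (nat_lit 76) (nat_lit 21691873857) (nat_lit 76) (nat_lit 7765655390) (nat_lit 3) (nat_lit 4) (nat_lit 4) (nat_lit 5) (nat_lit 4) (nat_lit 4) (nat_lit 353) (nat_lit 226) (nat_lit 141))) (XT.nd (nat_lit 78) (nat_lit 0) (nat_lit 0) (XT.lf (nat_lit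 0) (nat_lit 372217594612) (nat_lit 76) (nat_lit 20492415078) (nat_lit 76) (nat_lit 6555544291) (nat_lit 3) (nat_lit 4) (nat_lit 4) (nat_lit 5) (nat_lit 4) (nat_lit 4) (nat_lit 354) (nat_lit 226) (nat_lit 140)) (XT.lf (nat_lit 0) (nat_lit 394590662235) (nat_lit 76) (nat_lit 19235231184) (nat_lit 76) (nat_lit 5288215331) (nat_lit 3) (nat_lit 4) (nat_lit 4) (nat_lit 5) (nat_lit 4) (nat_lit 4) (nat_lit 355) (nat_lit 226) (nat_lit 139)))) (XT.nd (nat_lit 156) (nat_lit 0) (nat_lit 0) (XT.nd (nat_lit 78) (nat_lit 0) (nat_lit 0) (XT.lf (nat_lit 0) (nat_lit 418077267320) (nat_lit 76) (nat_lit 17917328880) (nat_lit 76) (nat_lit 3960651060) (nat_lit 3) (nat_lit 4) (nat_lit 4) (nat_lit 5) (nat_lit 4) (nat_lit 4) (nat_lit 356) (nat_lit 226) (nat_lit 138)) (XT.lf (nat_lit 0) (nat_lit 442733330356) (nat_lit 76) (nat_lit 16535570304) (nat_lit 76) (nat_lit 2569690610) (nat_lit 3) (nat_lit 4) (nat_lit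 4) (nat_lit 5) (nat_lit 4) (nat_lit 4) (nat_lit 357) (nat_lit 226) (nat_lit 137))) (XT.nd (nat_lit 30342) (nat_lit 0) (nat_lit 2432) (XT.lf (nat_lit 0) (nat_lit 468617556255) (nat_lit 76) (nat_lit 15086665555) (nat_lit 76) (nat_lit 1112022171) (nat_lit 3) (nat_lit 4) (nat_lit 4) (nat_lit 5) (nat_lit 4) (nat_lit 4) (nat_lit 358) (nat_lit 226) (nat_lit 136)) (XT.lf (nat_lit 0) (nat_lit 3532710026) (nat_lit 228) (nat_lit 479658557) (nat_lit 228) (nat_lit 479658557) (nat_lit 35) (nat_lit 4) (nat_lit 38) (nat_lit 5) (nat_lit 38) (nat_lit 4) (nat_lit 266) (nat_lit 227) (nat_lit 227))))) (XT.nd (nat_lit 312) (nat_lit 456) (nat_lit 0) (XT.nd (nat_lit 156) (nat_lit 304) (nat_lit 0) (XT.nd (nat_lit 78) (nat_lit 0) (nat_lit 0) (XT.lf (nat_lit 0) (nat_lit 2027737626) (nat_lit 304) (nat_lit 6105259282) (nat_lit 0) (nat_lit 1079625510) (nat_lit 31) (nat_lit 5) (nat_lit 35) (nat_lit 4) (nat_lit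 31) (nat_lit 4) (nat_lit 267) (nat_lit 227) (nat_lit 226)) (XT.lf (nat_lit 0) (nat_lit 5053216237) (nat_lit 304) (nat_lit 1201087893) (nat_lit 0) (nat_lit 3202140201) (nat_lit 31) (nat_lit 5) (nat_lit 35) (nat_lit 4) (nat_lit 31) (nat_lit 4) (nat_lit 268) (nat_lit 227) (nat_lit 225))) (XT.nd (nat_lit 78) (nat_lit 76) (nat_lit 0) (XT.lf (nat_lit 0) (nat_lit 3912193438) (nat_lit 228) (nat_lit 4257482594) (nat_lit 228) (nat_lit 1546440920) (nat_lit 28) (nat_lit 4) (nat_lit 31) (nat_lit 5) (nat_lit 31) (nat_lit 4) (nat_lit 269) (nat_lit 227) (nat_lit 224)) (XT.lf (nat_lit 0) (nat_lit 1306747553) (nat_lit 304) (nat_lit 851224082) (nat_lit 76) (nat_lit 7835248516) (nat_lit 27) (nat_lit 5) (nat_lit 31) (nat_lit 5) (nat_lit 28) (nat_lit 4) (nat_lit 270) (nat_lit 227) (nat_lit 223)))) (XT.nd (nat_lit 156) (nat_lit 304) (nat_lit 0) (XT.nd (nat_lit 78) (nat_lit 0) (nat_lit 0) (XT.lf (nat_lit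 0) (nat_lit 4204605452) (nat_lit 228) (nat_lit 5981387446) (nat_lit 0) (nat_lit 99776164) (nat_lit 25) (nat_lit 5) (nat_lit 28) (nat_lit 4) (nat_lit 25) (nat_lit 4) (nat_lit 271) (nat_lit 227) (nat_lit 222)) (XT.lf (nat_lit 0) (nat_lit 7184963560) (nat_lit 228) (nat_lit 1038993701) (nat_lit 0) (nat_lit 2372638413) (nat_lit 25) (nat_lit 5) (nat_lit 28) (nat_lit 4) (nat_lit 25) (nat_lit 4) (nat_lit 272) (nat_lit 227) (nat_lit 221))) (XT.nd (nat_lit 78) (nat_lit 76) (nat_lit 0) (XT.lf (nat_lit 0) (nat_lit 4131834380) (nat_lit 228) (nat_lit 6139946622) (nat_lit 228) (nat_lit 653815896) (nat_lit 22) (nat_lit 4) (nat_lit 25) (nat_lit 5) (nat_lit 25) (nat_lit 4) (nat_lit 273) (nat_lit 227) (nat_lit 220)) (XT.lf (nat_lit 0) (nat_lit 2081557374) (nat_lit 304) (nat_lit 1860657709) (nat_lit 76) (nat_lit 7331970326) (nat_lit 21) (nat_lit 5) (nat_lit 25) (nat_lit 5) (nat_lit 22) (nat_lit 4) (nat_lit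 274) (nat_lit 227) (nat_lit 219)))))) (XT.nd (nat_lit 624) (nat_lit 532) (nat_lit 0) (XT.nd (nat_lit 312) (nat_lit 76) (nat_lit 0) (XT.nd (nat_lit 156) (nat_lit 228) (nat_lit 0) (XT.nd (nat_lit 78) (nat_lit 0) (nat_lit 0) (XT.lf (nat_lit 0) (nat_lit 3267759386) (nat_lit 152) (nat_lit 1613592436) (nat_lit 228) (nat_lit 6761270900) (nat_lit 19) (nat_lit 5) (nat_lit 21) (nat_lit 5) (nat_lit 22) (nat_lit 4) (nat_lit 275) (nat_lit 227) (nat_lit 218)) (XT.lf (nat_lit 0) (nat_lit 7766660808) (nat_lit 228) (nat_lit 3471747842) (nat_lit 0) (nat_lit 794212766) (nat_lit 19) (nat_lit 5) (nat_lit 22) (nat_lit 4) (nat_lit 19) (nat_lit 4) (nat_lit 276) (nat_lit 227) (nat_lit 217))) (XT.nd (nat_lit 78) (nat_lit 76) (nat_lit 0) (XT.lf (nat_lit 0) (nat_lit 1559470898) (nat_lit 152) (nat_lit 9192817399) (nat_lit 152) (nat_lit 1692425054) (nat_lit 17) (nat_lit 4) (nat_lit 19) (nat_lit 5) (nat_lit 19)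 (nat_lit 4) (nat_lit 277) (nat_lit 227) (nat_lit 216)) (XT.lf (nat_lit 0) (nat_lit 942954041) (nat_lit 228) (nat_lit 6070140658) (nat_lit 76) (nat_lit 5865611737) (nat_lit 16) (nat_lit 5) (nat_lit 19) (nat_lit 5) (nat_lit 17) (nat_lit 4) (nat_lit 278) (nat_lit 227) (nat_lit 215)))) (XT.nd (nat_lit 156) (nat_lit 0) (nat_lit 0) (XT.nd (nat_lit 78) (nat_lit 76) (nat_lit 0) (XT.lf (nat_lit 0) (nat_lit 3563441386) (nat_lit 228) (nat_lit 1177002645) (nat_lit 76) (nat_lit 8597399158) (nat_lit 16) (nat_lit 5) (nat_lit 19) (nat_lit 5) (nat_lit 17) (nat_lit 4) (nat_lit 279) (nat_lit 227) (nat_lit 214)) (XT.lf (nat_lit 0) (nat_lit 3958956751) (nat_lit 76) (nat_lit 2332298067) (nat_lit 152) (nat_lit 7530192633) (nat_lit 15) (nat_lit 5) (nat_lit 16) (nat_lit 5) (nat_lit 17) (nat_lit 4) (nat_lit 280) (nat_lit 227) (nat_lit 213))) (XT.nd (nat_lit 78) (nat_lit 0) (nat_lit 0) (XT.lf (nat_lit 0) (nat_lit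 9094699123) (nat_lit 152) (nat_lit 5069331162) (nat_lit 0) (nat_lit 168549874) (nat_lit 15) (nat_lit 5) (nat_lit 17) (nat_lit 4) (nat_lit 15) (nat_lit 4) (nat_lit 281) (nat_lit 227) (nat_lit 212)) (XT.lf (nat_lit 0) (nat_lit 11996470253) (nat_lit 152) (nat_lit 198826153) (nat_lit 0) (nat_lit 2676360836) (nat_lit 15) (nat_lit 5) (nat_lit 17) (nat_lit 4) (nat_lit 15) (nat_lit 4) (nat_lit 282) (nat_lit 227) (nat_lit 211))))) (XT.nd (nat_lit 312) (nat_lit 228) (nat_lit 0) (XT.nd (nat_lit 156) (nat_lit 76) (nat_lit 0) (XT.nd (nat_lit 78) (nat_lit 76) (nat_lit 0) (XT.lf (nat_lit 0) (nat_lit 4955646099) (nat_lit 152) (nat_lit 10088788902) (nat_lit 152) (nat_lit 393479326) (nat_lit 13) (nat_lit 4) (nat_lit 15) (nat_lit 5) (nat_lit 15) (nat_lit 4) (nat_lit 283) (nat_lit 227) (nat_lit 210)) (XT.lf (nat_lit 0) (nat_lit 2068998442) (nat_lit 228) (nat_lit 5811196253) (nat_lit 76) (nat_lit 8154443159)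 (nat_lit 12) (nat_lit 5) (nat_lit 15) (nat_lit 5) (nat_lit 13) (nat_lit 4) (nat_lit 284) (nat_lit 227) (nat_lit 209))) (XT.nd (nat_lit 78) (nat_lit 76) (nat_lit 0) (XT.lf (nat_lit 0) (nat_lit 4569062481) (nat_lit 228) (nat_lit 1026382579) (nat_lit 76) (nat_lit 11069288765) (nat_lit 12) (nat_lit 5) (nat_lit 15) (nat_lit 5) (nat_lit 13) (nat_lit 4) (nat_lit 285) (nat_lit 227) (nat_lit 208)) (XT.lf (nat_lit 0) (nat_lit 4018319852) (nat_lit 76) (nat_lit 3169676500) (nat_lit 152) (nat_lit 10138876419) (nat_lit 11) (nat_lit 5) (nat_lit 12) (nat_lit 5) (nat_lit 13) (nat_lit 4) (nat_lit 286) (nat_lit 227) (nat_lit 207)))) (XT.nd (nat_lit 156) (nat_lit 228) (nat_lit 0) (XT.nd (nat_lit 78) (nat_lit 0) (nat_lit 0) (XT.lf (nat_lit 0) (nat_lit 9244669178) (nat_lit 76) (nat_lit 643340552) (nat_lit 152) (nat_lit 8136822777) (nat_lit 11) (nat_lit 5) (nat_lit 12) (nat_lit 5) (nat_lit 13) (nat_lit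 4) (nat_lit 287) (nat_lit 227) (nat_lit 206)) (XT.lf (nat_lit 0) (nat_lit 12689768162) (nat_lit 152) (nat_lit 4160721829) (nat_lit 0) (nat_lit 1909073006) (nat_lit 11) (nat_lit 5) (nat_lit 13) (nat_lit 4) (nat_lit 11) (nat_lit 4) (nat_lit 288) (nat_lit 227) (nat_lit 205))) (XT.nd (nat_lit 78) (nat_lit 76) (nat_lit 0) (XT.lf (nat_lit 0) (nat_lit 599281576) (nat_lit 152) (nat_lit 14990686815) (nat_lit 152) (nat_lit 3943343912) (nat_lit 9) (nat_lit 4) (nat_lit 11) (nat_lit 5) (nat_lit 11) (nat_lit 4) (nat_lit 289) (nat_lit 227) (nat_lit 204)) (XT.nd (nat_lit 78) (nat_lit 76) (nat_lit 0) (XT.lf (nat_lit 0) (nat_lit 5644289153) (nat_lit 152) (nat_lit 13001213658) (nat_lit 152) (nat_lit 1699920518) (nat_lit 9) (nat_lit 4) (nat_lit 11) (nat_lit 5) (nat_lit 11) (nat_lit 4) (nat_lit 290) (nat_lit 227) (nat_lit 203)) (XT.lf (nat_lit 0) (nat_lit 576297979) (nat_lit 228) (nat_lit 10361739650)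 (nat_lit 76) (nat_lit 10262682706) (nat_lit 8) (nat_lit 5) (nat_lit 11) (nat_lit 5) (nat_lit 9) (nat_lit 4) (nat_lit 291) (nat_lit 227) (nat_lit 202))))))))
noncomputable def xc57 : XT := (XT.nd (nat_lit 2496) (nat_lit 0) (nat_lit 0) (XT.nd (nat_lit 1248) (nat_lit 76) (nat_lit 0) (XT.nd (nat_lit 624) (nat_lit 152) (nat_lit 0) (XT.nd (nat_lit 312) (nat_lit 76) (nat_lit 0) (XT.nd (nat_lit 156) (nat_lit 76) (nat_lit 0) (XT.nd (nat_lit 78) (nat_lit 0) (nat_lit 0) (XT.lf (nat_lit 0) (nat_lit 2853589017) (nat_lit 228) (nat_lit 5923633372) (nat_lit 76) (nat_lit 13323111449) (nat_lit 8) (nat_lit 5) (nat_lit 11) (nat_lit 5) (nat_lit 9) (nat_lit 4) (nat_lit 292) (nat_lit 227) (nat_lit 201)) (XT.lf (nat_lit 0) (nat_lit 5191782791) (nat_lit 228) (nat_lit 1349707897) (nat_lit 76) (nat_lit 16506242113) (nat_lit 8) (nat_lit 5) (nat_lit 11) (nat_lit 5) (nat_lit 9) (nat_lit 4) (nat_lit 293) (nat_lit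 227) (nat_lit 200))) (XT.nd (nat_lit 78) (nat_lit 0) (nat_lit 0) (XT.lf (nat_lit 0) (nat_lit 3482385143) (nat_lit 76) (nat_lit 4168431077) (nat_lit 152) (nat_lit 16391638227) (nat_lit 7) (nat_lit 5) (nat_lit 8) (nat_lit 5) (nat_lit 9) (nat_lit 4) (nat_lit 294) (nat_lit 227) (nat_lit 199)) (XT.lf (nat_lit 0) (nat_lit 8522277236) (nat_lit 76) (nat_lit 1684084715) (nat_lit 152) (nat_lit 14882014319) (nat_lit 7) (nat_lit 5) (nat_lit 8) (nat_lit 5) (nat_lit 9) (nat_lit 4) (nat_lit 295) (nat_lit 227) (nat_lit 198)))) (XT.nd (nat_lit 156) (nat_lit 76) (nat_lit 0) (XT.nd (nat_lit 78) (nat_lit 0) (nat_lit 0) (XT.lf (nat_lit 0) (nat_lit 12856702434) (nat_lit 152) (nat_lit 12465703649) (nat_lit 0) (nat_lit 865972585) (nat_lit 7) (nat_lit 5) (nat_lit 9) (nat_lit 4) (nat_lit 7) (nat_lit 4) (nat_lit 296) (nat_lit 227) (nat_lit 197)) (XT.lf (nat_lit 0) (nat_lit 15622009561) (nat_lit 152) (nat_lit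 8262981862) (nat_lit 0) (nat_lit 3459396196) (nat_lit 7) (nat_lit 5) (nat_lit 9) (nat_lit 4) (nat_lit 7) (nat_lit 4) (nat_lit 297) (nat_lit 227) (nat_lit 196))) (XT.nd (nat_lit 78) (nat_lit 76) (nat_lit 0) (XT.lf (nat_lit 0) (nat_lit 18482574115) (nat_lit 152) (nat_lit 3921633909) (nat_lit 0) (nat_lit 6156262164) (nat_lit 7) (nat_lit 5) (nat_lit 9) (nat_lit 4) (nat_lit 7) (nat_lit 4) (nat_lit 298) (nat_lit 227) (nat_lit 195)) (XT.lf (nat_lit 0) (nat_lit 587479772) (nat_lit 76) (nat_lit 20866899397) (nat_lit 76) (nat_lit 8384684029) (nat_lit 6) (nat_lit 4) (nat_lit 7) (nat_lit 5) (nat_lit 7) (nat_lit 4) (nat_lit 299) (nat_lit 227) (nat_lit 194))))) (XT.nd (nat_lit 312) (nat_lit 152) (nat_lit 0) (XT.nd (nat_lit 156) (nat_lit 0) (nat_lit 0) (XT.nd (nat_lit 78) (nat_lit 0) (nat_lit 0) (XT.lf (nat_lit 0) (nat_lit 5391193186) (nat_lit 76) (nat_lit 19209940443) (nat_lit 76) (nat_lit 6579245632)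 (nat_lit 6) (nat_lit 4) (nat_lit 7) (nat_lit 5) (nat_lit 7) (nat_lit 4) (nat_lit 300) (nat_lit 227) (nat_lit 193)) (XT.lf (nat_lit 0) (nat_lit 10371276816) (nat_lit 76) (nat_lit 17495800792) (nat_lit 76) (nat_lit 4723696987) (nat_lit 6) (nat_lit 4) (nat_lit 7) (nat_lit 5) (nat_lit 7) (nat_lit 4) (nat_lit 301) (nat_lit 227) (nat_lit 192))) (XT.nd (nat_lit 78) (nat_lit 0) (nat_lit 0) (XT.lf (nat_lit 0) (nat_lit 15539588005) (nat_lit 76) (nat_lit 15720399157) (nat_lit 76) (nat_lit 2813620120) (nat_lit 6) (nat_lit 4) (nat_lit 7) (nat_lit 5) (nat_lit 7) (nat_lit 4) (nat_lit 302) (nat_lit 227) (nat_lit 191)) (XT.lf (nat_lit 0) (nat_lit 20908432255) (nat_lit 76) (nat_lit 13879508393) (nat_lit 76) (nat_lit 844467230) (nat_lit 6) (nat_lit 4) (nat_lit 7) (nat_lit 5) (nat_lit 7) (nat_lit 4) (nat_lit 303) (nat_lit 227) (nat_lit 190)))) (XT.nd (nat_lit 156) (nat_lit 76) (nat_lit 0) (XT.nd (nat_lit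 78) (nat_lit 0) (nat_lit 0) (XT.lf (nat_lit 0) (nat_lit 1150412316) (nat_lit 152) (nat_lit 10798850321) (nat_lit 76) (nat_lit 25320697424) (nat_lit 5) (nat_lit 5) (nat_lit 7) (nat_lit 5) (nat_lit 6) (nat_lit 4) (nat_lit 304) (nat_lit 227) (nat_lit 189)) (XT.lf (nat_lit 0) (nat_lit 3184672618) (nat_lit 152) (nat_lit 6744954231) (nat_lit 76) (nat_lit 29060753094) (nat_lit 5) (nat_lit 5) (nat_lit 7) (nat_lit 5) (nat_lit 6) (nat_lit 4) (nat_lit 305) (nat_lit 227) (nat_lit 188))) (XT.nd (nat_lit 78) (nat_lit 76) (nat_lit 0) (XT.lf (nat_lit 0) (nat_lit 5290185378) (nat_lit 152) (nat_lit 2539450719) (nat_lit 76) (nat_lit 32968786892) (nat_lit 5) (nat_lit 5) (nat_lit 7) (nat_lit 5) (nat_lit 6) (nat_lit 4) (nat_lit 306) (nat_lit 227) (nat_lit 187)) (XT.lf (nat_lit 0) (nat_lit 1888104451) (nat_lit 76) (nat_lit 5613337873) (nat_lit 152) (nat_lit 35195477808) (nat_lit 4) (nat_lit 5) (nat_lit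 5) (nat_lit 5) (nat_lit 6) (nat_lit 4) (nat_lit 307) (nat_lit 227) (nat_lit 186)))))) (XT.nd (nat_lit 624) (nat_lit 76) (nat_lit 0) (XT.nd (nat_lit 312) (nat_lit 0) (nat_lit 0) (XT.nd (nat_lit 156) (nat_lit 0) (nat_lit 0) (XT.nd (nat_lit 78) (nat_lit 0) (nat_lit 0) (XT.lf (nat_lit 0) (nat_lit 6577331478) (nat_lit 76) (nat_lit 3260561460) (nat_lit 152) (nat_lit 34851789437) (nat_lit 4) (nat_lit 5) (nat_lit 5) (nat_lit 5) (nat_lit 6) (nat_lit 4) (nat_lit 308) (nat_lit 227) (nat_lit 185)) (XT.lf (nat_lit 0) (nat_lit 11455429476) (nat_lit 76) (nat_lit 808711838) (nat_lit 152) (nat_lit 34519361018) (nat_lit 4) (nat_lit 5) (nat_lit 5) (nat_lit 5) (nat_lit 6) (nat_lit 4) (nat_lit 309) (nat_lit 227) (nat_lit 184))) (XT.nd (nat_lit 78) (nat_lit 0) (nat_lit 0) (XT.lf (nat_lit 0) (nat_lit 14813256176) (nat_lit 152) (nat_lit 32476644266) (nat_lit 0) (nat_lit 1692100254) (nat_lit 4) (nat_lit 5)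 (nat_lit 6) (nat_lit 4) (nat_lit 4) (nat_lit 4) (nat_lit 310) (nat_lit 227) (nat_lit 183)) (XT.lf (nat_lit 0) (nat_lit 17478309177) (nat_lit 152) (nat_lit 29538278344) (nat_lit 0) (nat_lit 4274474345) (nat_lit 4) (nat_lit 5) (nat_lit 6) (nat_lit 4) (nat_lit 4) (nat_lit 4) (nat_lit 311) (nat_lit 227) (nat_lit 182)))) (XT.nd (nat_lit 156) (nat_lit 0) (nat_lit 0) (XT.nd (nat_lit 78) (nat_lit 0) (nat_lit 0) (XT.lf (nat_lit 0) (nat_lit 20253019424) (nat_lit 152) (nat_lit 26493352724) (nat_lit 0) (nat_lit 6970442773) (nat_lit 4) (nat_lit 5) (nat_lit 6) (nat_lit 4) (nat_lit 4) (nat_lit 4) (nat_lit 312) (nat_lit 227) (nat_lit 181)) (XT.lf (nat_lit 0) (nat_lit 23143993371) (nat_lit 152) (nat_lit 23334617581) (nat_lit 0) (nat_lit 9786424511) (nat_lit 4) (nat_lit 5) (nat_lit 6) (nat_lit 4) (nat_lit 4) (nat_lit 4) (nat_lit 313) (nat_lit 227) (nat_lit 180))) (XT.nd (nat_lit 78) (nat_lit 0) (nat_lit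 0) (XT.lf (nat_lit 0) (nat_lit 26158114288) (nat_lit 152) (nat_lit 20054552120) (nat_lit 0) (nat_lit 12729124277) (nat_lit 4) (nat_lit 5) (nat_lit 6) (nat_lit 4) (nat_lit 4) (nat_lit 4) (nat_lit 314) (nat_lit 227) (nat_lit 179)) (XT.lf (nat_lit 0) (nat_lit 29302558655) (nat_lit 152) (nat_lit 16645346659) (nat_lit 0) (nat_lit 15805548500) (nat_lit 4) (nat_lit 5) (nat_lit 6) (nat_lit 4) (nat_lit 4) (nat_lit 4) (nat_lit 315) (nat_lit 227) (nat_lit 178))))) (XT.nd (nat_lit 312) (nat_lit 76) (nat_lit 0) (XT.nd (nat_lit 156) (nat_lit 0) (nat_lit 0) (XT.nd (nat_lit 78) (nat_lit 0) (nat_lit 0) (XT.lf (nat_lit 0) (nat_lit 32584813243) (nat_lit 152) (nat_lit 13098884043) (nat_lit 0) (nat_lit 19023021998) (nat_lit 4) (nat_lit 5) (nat_lit 6) (nat_lit 4) (nat_lit 4) (nat_lit 4) (nat_lit 316) (nat_lit 227) (nat_lit 177)) (XT.lf (nat_lit 0) (nat_lit 36012692944) (nat_lit 152) (nat_lit 9406720313)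 (nat_lit 0) (nat_lit 22389205423) (nat_lit 4) (nat_lit 5) (nat_lit 6) (nat_lit 4) (nat_lit 4) (nat_lit 4) (nat_lit 317) (nat_lit 227) (nat_lit 176))) (XT.nd (nat_lit 78) (nat_lit 0) (nat_lit 0) (XT.lf (nat_lit 0) (nat_lit 39594359376) (nat_lit 152) (nat_lit 5560064604) (nat_lit 0) (nat_lit 25912113498) (nat_lit 4) (nat_lit 5) (nat_lit 6) (nat_lit 4) (nat_lit 4) (nat_lit 4) (nat_lit 318) (nat_lit 227) (nat_lit 175)) (XT.lf (nat_lit 0) (nat_lit 43338340318) (nat_lit 152) (nat_lit 1549758211) (nat_lit 0) (nat_lit 29600134099) (nat_lit 4) (nat_lit 5) (nat_lit 6) (nat_lit 4) (nat_lit 4) (nat_lit 4) (nat_lit 319) (nat_lit 227) (nat_lit 174)))) (XT.nd (nat_lit 156) (nat_lit 0) (nat_lit 0) (XT.nd (nat_lit 78) (nat_lit 0) (nat_lit 0) (XT.lf (nat_lit 0) (nat_lit 2720830791) (nat_lit 76) (nat_lit 44575199010) (nat_lit 76) (nat_lit 30783697229) (nat_lit 3) (nat_lit 4) (nat_lit 4) (nat_lit 5)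 (nat_lit 4) (nat_lit 4) (nat_lit 320) (nat_lit 227) (nat_lit 173)) (XT.lf (nat_lit 0) (nat_lit 7231877648) (nat_lit 76) (nat_lit 44230342605) (nat_lit 76) (nat_lit 30388083144) (nat_lit 3) (nat_lit 4) (nat_lit 4) (nat_lit 5) (nat_lit 4) (nat_lit 4) (nat_lit 321) (nat_lit 227) (nat_lit 172))) (XT.nd (nat_lit 78) (nat_lit 0) (nat_lit 0) (XT.lf (nat_lit 0) (nat_lit 11942880940) (nat_lit 76) (nat_lit 43878954131) (nat_lit 76) (nat_lit 29988354024) (nat_lit 3) (nat_lit 4) (nat_lit 4) (nat_lit 5) (nat_lit 4) (nat_lit 4) (nat_lit 322) (nat_lit 227) (nat_lit 171)) (XT.lf (nat_lit 0) (nat_lit 16865057344) (nat_lit 76) (nat_lit 43520196949) (nat_lit 76) (nat_lit 29583558132) (nat_lit 3) (nat_lit 4) (nat_lit 4) (nat_lit 5) (nat_lit 4) (nat_lit 4) (nat_lit 323) (nat_lit 227) (nat_lit 170))))))) (XT.nd (nat_lit 1248) (nat_lit 0) (nat_lit 0) (XT.nd (nat_lit 624) (nat_lit 0) (nat_lit 0) (XT.nd (nat_lit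 312) (nat_lit 0) (nat_lit 0) (XT.nd (nat_lit 156) (nat_lit 0) (nat_lit 0) (XT.nd (nat_lit 78) (nat_lit 0) (nat_lit 0) (XT.lf (nat_lit 0) (nat_lit 22010126325) (nat_lit 76) (nat_lit 43153216876) (nat_lit 76) (nat_lit 29172731668) (nat_lit 3) (nat_lit 4) (nat_lit 4) (nat_lit 5) (nat_lit 4) (nat_lit 4) (nat_lit 324) (nat_lit 227) (nat_lit 169)) (XT.lf (nat_lit 0) (nat_lit 27390338049) (nat_lit 76) (nat_lit 42777140150) (nat_lit 76) (nat_lit 28754896473) (nat_lit 3) (nat_lit 4) (nat_lit 4) (nat_lit 5) (nat_lit 4) (nat_lit 4) (nat_lit 325) (nat_lit 227) (nat_lit 168))) (XT.nd (nat_lit 78) (nat_lit 0) (nat_lit 0) (XT.lf (nat_lit 0) (nat_lit 33018502543) (nat_lit 76) (nat_lit 42391071349) (nat_lit 76) (nat_lit 28329057703) (nat_lit 3) (nat_lit 4) (nat_lit 4) (nat_lit 5) (nat_lit 4) (nat_lit 4) (nat_lit 326) (nat_lit 227) (nat_lit 167)) (XT.lf (nat_lit 0) (nat_lit 38908020200) (nat_lit 76)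 (nat_lit 41994091263) (nat_lit 76) (nat_lit 27894201455) (nat_lit 3) (nat_lit 4) (nat_lit 4) (nat_lit 5) (nat_lit 4) (nat_lit 4) (nat_lit 327) (nat_lit 227) (nat_lit 166)))) (XT.nd (nat_lit 156) (nat_lit 0) (nat_lit 0) (XT.nd (nat_lit 78) (nat_lit 0) (nat_lit 0) (XT.lf (nat_lit 0) (nat_lit 45072913679) (nat_lit 76) (nat_lit 41585254700) (nat_lit 76) (nat_lit 27449292358) (nat_lit 3) (nat_lit 4) (nat_lit 4) (nat_lit 5) (nat_lit 4) (nat_lit 4) (nat_lit 328) (nat_lit 227) (nat_lit 165)) (XT.lf (nat_lit 0) (nat_lit 51527861300) (nat_lit 76) (nat_lit 41163588240) (nat_lit 76) (nat_lit 26993271103) (nat_lit 3) (nat_lit 4) (nat_lit 4) (nat_lit 5) (nat_lit 4) (nat_lit 4) (nat_lit 329) (nat_lit 227) (nat_lit 164))) (XT.nd (nat_lit 78) (nat_lit 0) (nat_lit 0) (XT.lf (nat_lit 0) (nat_lit 58288231984) (nat_lit 76) (nat_lit 40728087916) (nat_lit 76) (nat_lit 26525051927) (nat_lit 3) (nat_lit 4)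 (nat_lit 4) (nat_lit 5) (nat_lit 4) (nat_lit 4) (nat_lit 330) (nat_lit 227) (nat_lit 163)) (XT.lf (nat_lit 0) (nat_lit 65370121853) (nat_lit 76) (nat_lit 40277716822) (nat_lit 76) (nat_lit 26043520021) (nat_lit 3) (nat_lit 4) (nat_lit 4) (nat_lit 5) (nat_lit 4) (nat_lit 4) (nat_lit 331) (nat_lit 227) (nat_lit 162))))) (XT.nd (nat_lit 312) (nat_lit 0) (nat_lit 0) (XT.nd (nat_lit 156) (nat_lit 0) (nat_lit 0) (XT.nd (nat_lit 78) (nat_lit 0) (nat_lit 0) (XT.lf (nat_lit 0) (nat_lit 72790392549) (nat_lit 76) (nat_lit 39811402646) (nat_lit 76) (nat_lit 25547528881) (nat_lit 3) (nat_lit 4) (nat_lit 4) (nat_lit 5) (nat_lit 4) (nat_lit 4) (nat_lit 332) (nat_lit 227) (nat_lit 161)) (XT.lf (nat_lit 0) (nat_lit 80566711383) (nat_lit 76) (nat_lit 39328035115) (nat_lit 76) (nat_lit 25035897576) (nat_lit 3) (nat_lit 4) (nat_lit 4) (nat_lit 5) (nat_lit 4) (nat_lit 4) (nat_lit 333) (nat_lit 227) (nat_lit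 160))) (XT.nd (nat_lit 78) (nat_lit 0) (nat_lit 0) (XT.lf (nat_lit 0) (nat_lit 88717593400) (nat_lit 76) (nat_lit 38826463356) (nat_lit 76) (nat_lit 24507407936) (nat_lit 3) (nat_lit 4) (nat_lit 4) (nat_lit 5) (nat_lit 4) (nat_lit 4) (nat_lit 334) (nat_lit 227) (nat_lit 159)) (XT.lf (nat_lit 0) (nat_lit 97262445463) (nat_lit 76) (nat_lit 38305493148) (nat_lit 76) (nat_lit 23960801652) (nat_lit 3) (nat_lit 4) (nat_lit 4) (nat_lit 5) (nat_lit 4) (nat_lit 4) (nat_lit 335) (nat_lit 227) (nat_lit 158)))) (XT.nd (nat_lit 156) (nat_lit 0) (nat_lit 0) (XT.nd (nat_lit 78) (nat_lit 0) (nat_lit 0) (XT.lf (nat_lit 0) (nat_lit 106221612456) (nat_lit 76) (nat_lit 37763884088) (nat_lit 76) (nat_lit 23394777280) (nat_lit 3) (nat_lit 4) (nat_lit 4) (nat_lit 5) (nat_lit 4) (nat_lit 4) (nat_lit 336) (nat_lit 227) (nat_lit 157)) (XT.lf (nat_lit 0) (nat_lit 115616425730) (nat_lit 76) (nat_lit 37200346630)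 (nat_lit 76) (nat_lit 22807987144) (nat_lit 3) (nat_lit 4) (nat_lit 4) (nat_lit 5) (nat_lit 4) (nat_lit 4) (nat_lit 337) (nat_lit 227) (nat_lit 156))) (XT.nd (nat_lit 78) (nat_lit 0) (nat_lit 0) (XT.lf (nat_lit 0) (nat_lit 125469253888) (nat_lit 76) (nat_lit 36613539018) (nat_lit 76) (nat_lit 22199034125) (nat_lit 3) (nat_lit 4) (nat_lit 4) (nat_lit 5) (nat_lit 4) (nat_lit 4) (nat_lit 338) (nat_lit 227) (nat_lit 155)) (XT.lf (nat_lit 0) (nat_lit 135803556045) (nat_lit 76) (nat_lit 36002064090) (nat_lit 76) (nat_lit 21566468334) (nat_lit 3) (nat_lit 4) (nat_lit 4) (nat_lit 5) (nat_lit 4) (nat_lit 4) (nat_lit 339) (nat_lit 227) (nat_lit 154)))))) (XT.nd (nat_lit 624) (nat_lit 0) (nat_lit 0) (XT.nd (nat_lit 312) (nat_lit 0) (nat_lit 0) (XT.nd (nat_lit 156) (nat_lit 0) (nat_lit 0) (XT.nd (nat_lit 78) (nat_lit 0) (nat_lit 0) (XT.lf (nat_lit 0) (nat_lit 146643937682) (nat_lit 76) (nat_lit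 35364465955) (nat_lit 76) (nat_lit 20908783662) (nat_lit 3) (nat_lit 4) (nat_lit 4) (nat_lit 5) (nat_lit 4) (nat_lit 4) (nat_lit 340) (nat_lit 227) (nat_lit 153)) (XT.lf (nat_lit 0) (nat_lit 158016209231) (nat_lit 76) (nat_lit 34699226521) (nat_lit 76) (nat_lit 20224414193) (nat_lit 3) (nat_lit 4) (nat_lit 4) (nat_lit 5) (nat_lit 4) (nat_lit 4) (nat_lit 341) (nat_lit 227) (nat_lit 152))) (XT.nd (nat_lit 78) (nat_lit 0) (nat_lit 0) (XT.lf (nat_lit 0) (nat_lit 169947447529) (nat_lit 76) (nat_lit 34004761886) (nat_lit 76) (nat_lit 19511730476) (nat_lit 3) (nat_lit 4) (nat_lit 4) (nat_lit 5) (nat_lit 4) (nat_lit 4) (nat_lit 342) (nat_lit 227) (nat_lit 151)) (XT.lf (nat_lit 0) (nat_lit 182466060287) (nat_lit 76) (nat_lit 33279418561) (nat_lit 76) (nat_lit 18769035645) (nat_lit 3) (nat_lit 4) (nat_lit 4) (nat_lit 5) (nat_lit 4) (nat_lit 4) (nat_lit 343) (nat_lit 227) (nat_lit 150)))) (XT.nd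 (nat_lit 156) (nat_lit 0) (nat_lit 0) (XT.nd (nat_lit 78) (nat_lit 0) (nat_lit 0) (XT.lf (nat_lit 0) (nat_lit 195601853726) (nat_lit 76) (nat_lit 32521469539) (nat_lit 76) (nat_lit 17994561379) (nat_lit 3) (nat_lit 4) (nat_lit 4) (nat_lit 5) (nat_lit 4) (nat_lit 4) (nat_lit 344) (nat_lit 227) (nat_lit 149)) (XT.lf (nat_lit 0) (nat_lit 209386103543) (nat_lit 76) (nat_lit 31729110179) (nat_lit 76) (nat_lit 17186463692) (nat_lit 3) (nat_lit 4) (nat_lit 4) (nat_lit 5) (nat_lit 4) (nat_lit 4) (nat_lit 345) (nat_lit 227) (nat_lit 148))) (XT.nd (nat_lit 78) (nat_lit 0) (nat_lit 0) (XT.lf (nat_lit 0) (nat_lit 223851629383) (nat_lit 76) (nat_lit 30900453912) (nat_lit 76) (nat_lit 16342818542) (nat_lit 3) (nat_lit 4) (nat_lit 4) (nat_lit 5) (nat_lit 4) (nat_lit 4) (nat_lit 346) (nat_lit 227) (nat_lit 147)) (XT.lf (nat_lit 0) (nat_lit 239032872972) (nat_lit 76) (nat_lit 30033527746) (nat_lit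 76) (nat_lit 15461617249) (nat_lit 3) (nat_lit 4) (nat_lit 4) (nat_lit 5) (nat_lit 4) (nat_lit 4) (nat_lit 347) (nat_lit 227) (nat_lit 146))))) (XT.nd (nat_lit 312) (nat_lit 0) (nat_lit 0) (XT.nd (nat_lit 156) (nat_lit 0) (nat_lit 0) (XT.nd (nat_lit 78) (nat_lit 0) (nat_lit 0) (XT.lf (nat_lit 0) (nat_lit 254965980128) (nat_lit 76) (nat_lit 29126267572) (nat_lit 76) (nat_lit 14540761716) (nat_lit 3) (nat_lit 4) (nat_lit 4) (nat_lit 5) (nat_lit 4) (nat_lit 4) (nat_lit 348) (nat_lit 227) (nat_lit 145)) (XT.lf (nat_lit 0) (nat_lit 271688886823) (nat_lit 76) (nat_lit 28176513246) (nat_lit 76) (nat_lit 13578059429) (nat_lit 3) (nat_lit 4) (nat_lit 4) (nat_lit 5) (nat_lit 4) (nat_lit 4) (nat_lit 349) (nat_lit 227) (nat_lit 144))) (XT.nd (nat_lit 78) (nat_lit 0) (nat_lit 0) (XT.lf (nat_lit 0) (nat_lit 289241409498) (nat_lit 76) (nat_lit 27182003448) (nat_lit 76) (nat_lit 12571218240) (nat_lit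 3) (nat_lit 4) (nat_lit 4) (nat_lit 5) (nat_lit 4) (nat_lit 4) (nat_lit 350) (nat_lit 227) (nat_lit 143)) (XT.lf (nat_lit 0) (nat_lit 307665339877) (nat_lit 76) (nat_lit 26140370298) (nat_lit 76) (nat_lit 11517840907) (nat_lit 3) (nat_lit 4) (nat_lit 4) (nat_lit 5) (nat_lit 4) (nat_lit 4) (nat_lit 351) (nat_lit 227) (nat_lit 142)))) (XT.nd (nat_lit 156) (nat_lit 0) (nat_lit 0) (XT.nd (nat_lit 78) (nat_lit 0) (nat_lit 0) (XT.lf (nat_lit 0) (nat_lit 327004544458) (nat_lit 76) (nat_lit 25049133717) (nat_lit 76) (nat_lit 10415419391) (nat_lit 3) (nat_lit 4) (nat_lit 4) (nat_lit 5) (nat_lit 4) (nat_lit 4) (nat_lit 352) (nat_lit 227) (nat_lit 141)) (XT.lf (nat_lit 0) (nat_lit 347305068969) (nat_lit 76) (nat_lit 23905695522) (nat_lit 76) (nat_lit 9261328877) (nat_lit 3) (nat_lit 4) (nat_lit 4) (nat_lit 5) (nat_lit 4) (nat_lit 4) (nat_lit 353) (nat_lit 227) (nat_lit 140))) (XT.nd (nat_lit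 78) (nat_lit 0) (nat_lit 0) (XT.lf (nat_lit 0) (nat_lit 368615247989) (nat_lit 76) (nat_lit 22707333243) (nat_lit 76) (nat_lit 8052821531) (nat_lit 3) (nat_lit 4) (nat_lit 4) (nat_lit 5) (nat_lit 4) (nat_lit 4) (nat_lit 354) (nat_lit 227) (nat_lit 139)) (XT.lf (nat_lit 0) (nat_lit 390985820042) (nat_lit 76) (nat_lit 21451193634) (nat_lit 76) (nat_lit 6787019955) (nat_lit 3) (nat_lit 4) (nat_lit 4) (nat_lit 5) (nat_lit 4) (nat_lit 4) (nat_lit 355) (nat_lit 227) (nat_lit 138))))))))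
noncomputable def xc58 : XT := (XT.nd (nat_lit 31356) (nat_lit 0) (nat_lit 380) (XT.nd (nat_lit 30732) (nat_lit 0) (nat_lit 1216) (XT.nd (nat_lit 30420) (nat_lit 0) (nat_lit 2128) (XT.nd (nat_lit 156) (nat_lit 0) (nat_lit 0) (XT.nd (nat_lit 78) (nat_lit 0) (nat_lit 0) (XT.lf (nat_lit 0) (nat_lit 414470048394) (nat_lit 76) (nat_lit 20134285888) (nat_lit 76) (nat_lit 5460910335) (nat_lit 3) (nat_lit 4) (nat_lit 4) (nat_lit 5) (nat_lit 4) (nat_lit 4) (nat_lit 356) (nat_lit 227) (nat_lit 137)) (XT.lf (nat_lit 0) (nat_lit 439123847875) (nat_lit 76) (nat_lit 18753474510) (nat_lit 76) (nat_lit 4071335267) (nat_lit 3) (nat_lit 4) (nat_lit 4) (nat_lit 5) (nat_lit 4) (nat_lit 4) (nat_lit 357) (nat_lit 227) (nat_lit 136))) (XT.nd (nat_lit 30186) (nat_lit 0) (nat_lit 2660) (XT.lf (nat_lit 0) (nat_lit 465005918006) (nat_lit 76) (nat_lit 17305471854) (nat_lit 76) (nat_lit 2614986240) (nat_lit 3)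 (nat_lit 4) (nat_lit 4) (nat_lit 5) (nat_lit 4) (nat_lit 4) (nat_lit 358) (nat_lit 227) (nat_lit 135)) (XT.lf (nat_lit 0) (nat_lit 1415637126) (nat_lit 304) (nat_lit 1450905013) (nat_lit 0) (nat_lit 1415637126) (nat_lit 38) (nat_lit 5) (nat_lit 42) (nat_lit 4) (nat_lit 38) (nat_lit 4) (nat_lit 264) (nat_lit 228) (nat_lit 228)))) (XT.nd (nat_lit 156) (nat_lit 228) (nat_lit 0) (XT.nd (nat_lit 78) (nat_lit 76) (nat_lit 0) (XT.lf (nat_lit 0) (nat_lit 1951226877) (nat_lit 228) (nat_lit 3931285615) (nat_lit 228) (nat_lit 2885992007) (nat_lit 35) (nat_lit 4) (nat_lit 38) (nat_lit 5) (nat_lit 38) (nat_lit 4) (nat_lit 265) (nat_lit 228) (nat_lit 227)) (XT.lf (nat_lit 0) (nat_lit 19540747) (nat_lit 304) (nat_lit 2000752797) (nat_lit 76) (nat_lit 6967224692) (nat_lit 34) (nat_lit 5) (nat_lit 38) (nat_lit 5) (nat_lit 35) (nat_lit 4) (nat_lit 266) (nat_lit 228) (nat_lit 226))) (XT.nd (nat_lit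 78) (nat_lit 0) (nat_lit 0) (XT.lf (nat_lit 0) (nat_lit 2895813645) (nat_lit 304) (nat_lit 6274638195) (nat_lit 0) (nat_lit 49219886) (nat_lit 31) (nat_lit 5) (nat_lit 35) (nat_lit 4) (nat_lit 31) (nat_lit 4) (nat_lit 267) (nat_lit 228) (nat_lit 225)) (XT.lf (nat_lit 0) (nat_lit 5862085890) (nat_lit 304) (nat_lit 1449156195) (nat_lit 0) (nat_lit 2155526494) (nat_lit 31) (nat_lit 5) (nat_lit 35) (nat_lit 4) (nat_lit 31) (nat_lit 4) (nat_lit 268) (nat_lit 228) (nat_lit 224))))) (XT.nd (nat_lit 312) (nat_lit 456) (nat_lit 0) (XT.nd (nat_lit 156) (nat_lit 152) (nat_lit 0) (XT.nd (nat_lit 78) (nat_lit 76) (nat_lit 0) (XT.lf (nat_lit 0) (nat_lit 3578502670) (nat_lit 228) (nat_lit 5338446151) (nat_lit 228) (nat_lit 812871861) (nat_lit 28) (nat_lit 4) (nat_lit 31) (nat_lit 5) (nat_lit 31) (nat_lit 4) (nat_lit 269) (nat_lit 228) (nat_lit 223)) (XT.lf (nat_lit 0) (nat_lit 1960809246) (nat_lit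 304) (nat_lit 1285929518) (nat_lit 76) (nat_lit 6762685675) (nat_lit 27) (nat_lit 5) (nat_lit 31) (nat_lit 5) (nat_lit 28) (nat_lit 4) (nat_lit 270) (nat_lit 228) (nat_lit 222))) (XT.nd (nat_lit 78) (nat_lit 0) (nat_lit 0) (XT.lf (nat_lit 0) (nat_lit 3782358257) (nat_lit 152) (nat_lit 1013162417) (nat_lit 228) (nat_lit 5509868839) (nat_lit 25) (nat_lit 5) (nat_lit 27) (nat_lit 5) (nat_lit 28) (nat_lit 4) (nat_lit 271) (nat_lit 228) (nat_lit 221)) (XT.lf (nat_lit 0) (nat_lit 7707832144) (nat_lit 228) (nat_lit 1638443526) (nat_lit 0) (nat_lit 1273589301) (nat_lit 25) (nat_lit 5) (nat_lit 28) (nat_lit 4) (nat_lit 25) (nat_lit 4) (nat_lit 272) (nat_lit 228) (nat_lit 220)))) (XT.nd (nat_lit 156) (nat_lit 152) (nat_lit 0) (XT.nd (nat_lit 78) (nat_lit 76) (nat_lit 0) (XT.lf (nat_lit 0) (nat_lit 3440127207) (nat_lit 228) (nat_lit 7293981622) (nat_lit 228) (nat_lit 218019180) (nat_lit 22)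 (nat_lit 4) (nat_lit 25) (nat_lit 5) (nat_lit 25) (nat_lit 4) (nat_lit 273) (nat_lit 228) (nat_lit 219)) (XT.lf (nat_lit 0) (nat_lit 2453945451) (nat_lit 304) (nat_lit 2656535791) (nat_lit 76) (nat_lit 6192581047) (nat_lit 21) (nat_lit 5) (nat_lit 25) (nat_lit 5) (nat_lit 22) (nat_lit 4) (nat_lit 274) (nat_lit 228) (nat_lit 218))) (XT.nd (nat_lit 78) (nat_lit 0) (nat_lit 0) (XT.lf (nat_lit 0) (nat_lit 2375872703) (nat_lit 152) (nat_lit 2816837181) (nat_lit 228) (nat_lit 6482044027) (nat_lit 19) (nat_lit 5) (nat_lit 21) (nat_lit 5) (nat_lit 22) (nat_lit 4) (nat_lit 275) (nat_lit 228) (nat_lit 217)) (XT.lf (nat_lit 0) (nat_lit 7616062720) (nat_lit 152) (nat_lit 403247913) (nat_lit 228) (nat_lit 4048570535) (nat_lit 19) (nat_lit 5) (nat_lit 21) (nat_lit 5) (nat_lit 22) (nat_lit 4) (nat_lit 276) (nat_lit 228) (nat_lit 216)))))) (XT.nd (nat_lit 624) (nat_lit 304) (nat_lit 0) (XT.nd (nat_lit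 312) (nat_lit 228) (nat_lit 0) (XT.nd (nat_lit 156) (nat_lit 76) (nat_lit 0) (XT.nd (nat_lit 78) (nat_lit 76) (nat_lit 0) (XT.lf (nat_lit 0) (nat_lit 486061335) (nat_lit 152) (nat_lit 10451804840) (nat_lit 152) (nat_lit 1545644477) (nat_lit 17) (nat_lit 4) (nat_lit 19) (nat_lit 5) (nat_lit 19) (nat_lit 4) (nat_lit 277) (nat_lit 228) (nat_lit 215)) (XT.lf (nat_lit 0) (nat_lit 1041239588) (nat_lit 228) (nat_lit 7250480252) (nat_lit 76) (nat_lit 4628026021) (nat_lit 16) (nat_lit 5) (nat_lit 19) (nat_lit 5) (nat_lit 17) (nat_lit 4) (nat_lit 278) (nat_lit 228) (nat_lit 214))) (XT.nd (nat_lit 78) (nat_lit 76) (nat_lit 0) (XT.lf (nat_lit 0) (nat_lit 3620015377) (nat_lit 228) (nat_lit 2420048023) (nat_lit 76) (nat_lit 7341063698) (nat_lit 16) (nat_lit 5) (nat_lit 19) (nat_lit 5) (nat_lit 17) (nat_lit 4) (nat_lit 279) (nat_lit 228) (nat_lit 213)) (XT.lf (nat_lit 0) (nat_lit 2613116279) (nat_lit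 76) (nat_lit 3673974896) (nat_lit 152) (nat_lit 7580828404) (nat_lit 15) (nat_lit 5) (nat_lit 16) (nat_lit 5) (nat_lit 17) (nat_lit 4) (nat_lit 280) (nat_lit 228) (nat_lit 212)))) (XT.nd (nat_lit 156) (nat_lit 228) (nat_lit 0) (XT.nd (nat_lit 78) (nat_lit 0) (nat_lit 0) (XT.lf (nat_lit 0) (nat_lit 7861506428) (nat_lit 76) (nat_lit 1187559540) (nat_lit 152) (nat_lit 5332203927) (nat_lit 15) (nat_lit 5) (nat_lit 16) (nat_lit 5) (nat_lit 17) (nat_lit 4) (nat_lit 281) (nat_lit 228) (nat_lit 211)) (XT.lf (nat_lit 0) (nat_lit 11895092814) (nat_lit 152) (nat_lit 1688361048) (nat_lit 0) (nat_lit 1339817599) (nat_lit 15) (nat_lit 5) (nat_lit 17) (nat_lit 4) (nat_lit 15) (nat_lit 4) (nat_lit 282) (nat_lit 228) (nat_lit 210))) (XT.nd (nat_lit 78) (nat_lit 76) (nat_lit 0) (XT.lf (nat_lit 0) (nat_lit 3360146469) (nat_lit 152) (nat_lit 11522569299) (nat_lit 152) (nat_lit 609960599) (nat_lit 13)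 (nat_lit 4) (nat_lit 15) (nat_lit 5) (nat_lit 15) (nat_lit 4) (nat_lit 283) (nat_lit 228) (nat_lit 209)) (XT.lf (nat_lit 0) (nat_lit 1824170735) (nat_lit 228) (nat_lit 7513376297) (nat_lit 76) (nat_lit 6753904194) (nat_lit 12) (nat_lit 5) (nat_lit 15) (nat_lit 5) (nat_lit 13) (nat_lit 4) (nat_lit 284) (nat_lit 228) (nat_lit 208))))) (XT.nd (nat_lit 312) (nat_lit 228) (nat_lit 0) (XT.nd (nat_lit 156) (nat_lit 0) (nat_lit 0) (XT.nd (nat_lit 78) (nat_lit 76) (nat_lit 0) (XT.lf (nat_lit 0) (nat_lit 4290639357) (nat_lit 228) (nat_lit 2781227625) (nat_lit 76) (nat_lit 9651472915) (nat_lit 12) (nat_lit 5) (nat_lit 15) (nat_lit 5) (nat_lit 13) (nat_lit 4) (nat_lit 285) (nat_lit 228) (nat_lit 207)) (XT.lf (nat_lit 0) (nat_lit 2153636136) (nat_lit 76) (nat_lit 4694828519) (nat_lit 152) (nat_lit 10540177170) (nat_lit 11) (nat_lit 5) (nat_lit 12) (nat_lit 5) (nat_lit 13) (nat_lit 4) (nat_lit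 286) (nat_lit 228) (nat_lit 206))) (XT.nd (nat_lit 78) (nat_lit 0) (nat_lit 0) (XT.lf (nat_lit 0) (nat_lit 7330637303) (nat_lit 76) (nat_lit 2186598235) (nat_lit 152) (nat_lit 8571030581) (nat_lit 11) (nat_lit 5) (nat_lit 12) (nat_lit 5) (nat_lit 13) (nat_lit 4) (nat_lit 287) (nat_lit 228) (nat_lit 205)) (XT.lf (nat_lit 0) (nat_lit 12264875414) (nat_lit 152) (nat_lit 6162407059) (nat_lit 0) (nat_lit 398517617) (nat_lit 11) (nat_lit 5) (nat_lit 13) (nat_lit 4) (nat_lit 11) (nat_lit 4) (nat_lit 288) (nat_lit 228) (nat_lit 204)))) (XT.nd (nat_lit 156) (nat_lit 76) (nat_lit 0) (XT.nd (nat_lit 78) (nat_lit 152) (nat_lit 0) (XT.lf (nat_lit 0) (nat_lit 15127124916) (nat_lit 152) (nat_lit 1467598043) (nat_lit 0) (nat_lit 3006816882) (nat_lit 11) (nat_lit 5) (nat_lit 13) (nat_lit 4) (nat_lit 11) (nat_lit 4) (nat_lit 289) (nat_lit 228) (nat_lit 203)) (XT.lf (nat_lit 0) (nat_lit 3483612631)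 (nat_lit 152) (nat_lit 14647436320) (nat_lit 152) (nat_lit 2285270919) (nat_lit 9) (nat_lit 4) (nat_lit 11) (nat_lit 5) (nat_lit 11) (nat_lit 4) (nat_lit 290) (nat_lit 228) (nat_lit 202))) (XT.nd (nat_lit 78) (nat_lit 76) (nat_lit 0) (XT.lf (nat_lit 0) (nat_lit 8644948350) (nat_lit 152) (nat_lit 12610526878) (nat_lit 152) (nat_lit 18021125) (nat_lit 9) (nat_lit 4) (nat_lit 11) (nat_lit 5) (nat_lit 11) (nat_lit 4) (nat_lit 291) (nat_lit 228) (nat_lit 201)) (XT.lf (nat_lit 0) (nat_lit 2234011668) (nat_lit 228) (nat_lit 8232153593) (nat_lit 76) (nat_lit 11708326851) (nat_lit 8) (nat_lit 5) (nat_lit 11) (nat_lit 5) (nat_lit 9) (nat_lit 4) (nat_lit 292) (nat_lit 228) (nat_lit 200)))))))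
noncomputable def xc59 : XT := (XT.nd (nat_lit 1248) (nat_lit 76) (nat_lit 0) (XT.nd (nat_lit 624) (nat_lit 152) (nat_lit 0) (XT.nd (nat_lit 312) (nat_lit 76) (nat_lit 0) (XT.nd (nat_lit 156) (nat_lit 0) (nat_lit 0) (XT.nd (nat_lit 78) (nat_lit 76) (nat_lit 0) (XT.lf (nat_lit 0) (nat_lit 4547600650) (nat_lit 228) (nat_lit 3698221670) (nat_lit 76) (nat_lit 14877371793) (nat_lit 8) (nat_lit 5) (nat_lit 11) (nat_lit 5) (nat_lit 9) (nat_lit 4) (nat_lit 293) (nat_lit 228) (nat_lit 199)) (XT.lf (nat_lit 0) (nat_lit 1016870406) (nat_lit 76) (nat_lit 5927836941) (nat_lit 152) (nat_lit 17176374076) (nat_lit 7) (nat_lit 5) (nat_lit 8) (nat_lit 5) (nat_lit 9) (nat_lit 4) (nat_lit 294) (nat_lit 228) (nat_lit 198))) (XT.nd (nat_lit 78) (nat_lit 0) (nat_lit 0) (XT.lf (nat_lit 0) (nat_lit 6019287744) (nat_lit 76) (nat_lit 3458062977) (nat_lit 152) (nat_lit 15690863673) (nat_lit 7) (nat_lit 5) (nat_lit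 8) (nat_lit 5) (nat_lit 9) (nat_lit 4) (nat_lit 295) (nat_lit 228) (nat_lit 197)) (XT.lf (nat_lit 0) (nat_lit 11198660948) (nat_lit 76) (nat_lit 893251185) (nat_lit 152) (nat_lit 14178156496) (nat_lit 7) (nat_lit 5) (nat_lit 8) (nat_lit 5) (nat_lit 9) (nat_lit 4) (nat_lit 296) (nat_lit 228) (nat_lit 196)))) (XT.nd (nat_lit 156) (nat_lit 76) (nat_lit 0) (XT.nd (nat_lit 78) (nat_lit 0) (nat_lit 0) (XT.lf (nat_lit 0) (nat_lit 14822293629) (nat_lit 152) (nat_lit 10889622630) (nat_lit 0) (nat_lit 1715967493) (nat_lit 7) (nat_lit 5) (nat_lit 9) (nat_lit 4) (nat_lit 7) (nat_lit 4) (nat_lit 297) (nat_lit 228) (nat_lit 195)) (XT.lf (nat_lit 0) (nat_lit 17662877728) (nat_lit 152) (nat_lit 6581496477) (nat_lit 0) (nat_lit 4400648176) (nat_lit 7) (nat_lit 5) (nat_lit 9) (nat_lit 4) (nat_lit 7) (nat_lit 4) (nat_lit 298) (nat_lit 228) (nat_lit 194))) (XT.nd (nat_lit 78) (nat_lit 76) (nat_lit 0)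 (XT.lf (nat_lit 0) (nat_lit 20606481572) (nat_lit 152) (nat_lit 2122825625) (nat_lit 0) (nat_lit 7195772576) (nat_lit 7) (nat_lit 5) (nat_lit 9) (nat_lit 4) (nat_lit 7) (nat_lit 4) (nat_lit 299) (nat_lit 228) (nat_lit 193)) (XT.lf (nat_lit 0) (nat_lit 2579568096) (nat_lit 76) (nat_lit 21120819933) (nat_lit 76) (nat_lit 7568701943) (nat_lit 6) (nat_lit 4) (nat_lit 7) (nat_lit 5) (nat_lit 7) (nat_lit 4) (nat_lit 300) (nat_lit 228) (nat_lit 192))))) (XT.nd (nat_lit 312) (nat_lit 76) (nat_lit 0) (XT.nd (nat_lit 156) (nat_lit 76) (nat_lit 0) (XT.nd (nat_lit 78) (nat_lit 0) (nat_lit 0) (XT.lf (nat_lit 0) (nat_lit 7530004593) (nat_lit 76) (nat_lit 19418604671) (nat_lit 76) (nat_lit 5731811449) (nat_lit 6) (nat_lit 4) (nat_lit 7) (nat_lit 5) (nat_lit 7) (nat_lit 4) (nat_lit 301) (nat_lit 228) (nat_lit 191)) (XT.lf (nat_lit 0) (nat_lit 12670080417) (nat_lit 76) (nat_lit 17654559599) (nat_lit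 76) (nat_lit 3839504251) (nat_lit 6) (nat_lit 4) (nat_lit 7) (nat_lit 5) (nat_lit 7) (nat_lit 4) (nat_lit 302) (nat_lit 228) (nat_lit 190))) (XT.nd (nat_lit 78) (nat_lit 76) (nat_lit 0) (XT.lf (nat_lit 0) (nat_lit 18012033843) (nat_lit 76) (nat_lit 15824484608) (nat_lit 76) (nat_lit 1887274854) (nat_lit 6) (nat_lit 4) (nat_lit 7) (nat_lit 5) (nat_lit 7) (nat_lit 4) (nat_lit 303) (nat_lit 228) (nat_lit 189)) (XT.lf (nat_lit 0) (nat_lit 125379299) (nat_lit 152) (nat_lit 13796519719) (nat_lit 76) (nat_lit 23441081150) (nat_lit 5) (nat_lit 5) (nat_lit 7) (nat_lit 5) (nat_lit 6) (nat_lit 4) (nat_lit 304) (nat_lit 228) (nat_lit 188)))) (XT.nd (nat_lit 156) (nat_lit 76) (nat_lit 0) (XT.nd (nat_lit 78) (nat_lit 0) (nat_lit 0) (XT.lf (nat_lit 0) (nat_lit 2144780793) (nat_lit 152) (nat_lit 9767544304) (nat_lit 76) (nat_lit 27171856500) (nat_lit 5) (nat_lit 5) (nat_lit 7) (nat_lit 5) (nat_lit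 6) (nat_lit 4) (nat_lit 305) (nat_lit 228) (nat_lit 187)) (XT.lf (nat_lit 0) (nat_lit 4236142307) (nat_lit 152) (nat_lit 5585774767) (nat_lit 76) (nat_lit 31071051897) (nat_lit 5) (nat_lit 5) (nat_lit 7) (nat_lit 5) (nat_lit 6) (nat_lit 4) (nat_lit 306) (nat_lit 228) (nat_lit 186))) (XT.nd (nat_lit 78) (nat_lit 76) (nat_lit 0) (XT.lf (nat_lit 0) (nat_lit 6404443274) (nat_lit 152) (nat_lit 1241254517) (nat_lit 76) (nat_lit 35147951139) (nat_lit 5) (nat_lit 5) (nat_lit 7) (nat_lit 5) (nat_lit 6) (nat_lit 4) (nat_lit 307) (nat_lit 228) (nat_lit 185)) (XT.lf (nat_lit 0) (nat_lit 3384691819) (nat_lit 76) (nat_lit 5322999021) (nat_lit 152) (nat_lit 36080413834) (nat_lit 4) (nat_lit 5) (nat_lit 5) (nat_lit 5) (nat_lit 6) (nat_lit 4) (nat_lit 308) (nat_lit 228) (nat_lit 184)))))) (XT.nd (nat_lit 624) (nat_lit 76) (nat_lit 0) (XT.nd (nat_lit 312) (nat_lit 0) (nat_lit 0) (XT.nd (nat_lit 156)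 (nat_lit 0) (nat_lit 0) (XT.nd (nat_lit 78) (nat_lit 0) (nat_lit 0) (XT.lf (nat_lit 0) (nat_lit 8241609619) (nat_lit 76) (nat_lit 2879774537) (nat_lit 152) (nat_lit 35761199990) (nat_lit 4) (nat_lit 5) (nat_lit 5) (nat_lit 5) (nat_lit 6) (nat_lit 4) (nat_lit 309) (nat_lit 228) (nat_lit 183)) (XT.lf (nat_lit 0) (nat_lit 13300021490) (nat_lit 76) (nat_lit 331228386) (nat_lit 152) (nat_lit 35451825338) (nat_lit 4) (nat_lit 5) (nat_lit 5) (nat_lit 5) (nat_lit 6) (nat_lit 4) (nat_lit 310) (nat_lit 228) (nat_lit 182))) (XT.nd (nat_lit 78) (nat_lit 0) (nat_lit 0) (XT.lf (nat_lit 0) (nat_lit 16279621522) (nat_lit 152) (nat_lit 32859203520) (nat_lit 0) (nat_lit 2254174219) (nat_lit 4) (nat_lit 5) (nat_lit 6) (nat_lit 4) (nat_lit 4) (nat_lit 4) (nat_lit 311) (nat_lit 228) (nat_lit 181)) (XT.lf (nat_lit 0) (nat_lit 19043369909) (nat_lit 152) (nat_lit 29833027538) (nat_lit 0) (nat_lit 4942930397)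 (nat_lit 4) (nat_lit 5) (nat_lit 6) (nat_lit 4) (nat_lit 4) (nat_lit 4) (nat_lit 312) (nat_lit 228) (nat_lit 180)))) (XT.nd (nat_lit 156) (nat_lit 0) (nat_lit 0) (XT.nd (nat_lit 78) (nat_lit 0) (nat_lit 0) (XT.lf (nat_lit 0) (nat_lit 21923903989) (nat_lit 152) (nat_lit 26692149195) (nat_lit 0) (nat_lit 7752043326) (nat_lit 4) (nat_lit 5) (nat_lit 6) (nat_lit 4) (nat_lit 4) (nat_lit 4) (nat_lit 313) (nat_lit 228) (nat_lit 179)) (XT.lf (nat_lit 0) (nat_lit 24928082177) (nat_lit 152) (nat_lit 23429090208) (nat_lit 0) (nat_lit 10688201370) (nat_lit 4) (nat_lit 5) (nat_lit 6) (nat_lit 4) (nat_lit 4) (nat_lit 4) (nat_lit 314) (nat_lit 228) (nat_lit 178))) (XT.nd (nat_lit 78) (nat_lit 0) (nat_lit 0) (XT.lf (nat_lit 0) (nat_lit 28063057276) (nat_lit 152) (nat_lit 20036081390) (nat_lit 0) (nat_lit 13758395380) (nat_lit 4) (nat_lit 5) (nat_lit 6) (nat_lit 4) (nat_lit 4) (nat_lit 4) (nat_lit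 315) (nat_lit 228) (nat_lit 177)) (XT.lf (nat_lit 0) (nat_lit 31336293515) (nat_lit 152) (nat_lit 16505044148) (nat_lit 0) (nat_lit 16969935343) (nat_lit 4) (nat_lit 5) (nat_lit 6) (nat_lit 4) (nat_lit 4) (nat_lit 4) (nat_lit 316) (nat_lit 228) (nat_lit 176))))) (XT.nd (nat_lit 312) (nat_lit 76) (nat_lit 0) (XT.nd (nat_lit 156) (nat_lit 0) (nat_lit 0) (XT.nd (nat_lit 78) (nat_lit 0) (nat_lit 0) (XT.lf (nat_lit 0) (nat_lit 34755584312) (nat_lit 152) (nat_lit 12827571251) (nat_lit 0) (nat_lit 20330467782) (nat_lit 4) (nat_lit 5) (nat_lit 6) (nat_lit 4) (nat_lit 4) (nat_lit 4) (nat_lit 317) (nat_lit 228) (nat_lit 175)) (XT.lf (nat_lit 0) (nat_lit 38329070835) (nat_lit 152) (nat_lit 8994906811) (nat_lit 0) (nat_lit 23847993965) (nat_lit 4) (nat_lit 5) (nat_lit 6) (nat_lit 4) (nat_lit 4) (nat_lit 4) (nat_lit 318) (nat_lit 228) (nat_lit 174))) (XT.nd (nat_lit 78) (nat_lit 0) (nat_lit 0)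 (XT.lf (nat_lit 0) (nat_lit 42065261388) (nat_lit 152) (nat_lit 4997925436) (nat_lit 0) (nat_lit 27530888954) (nat_lit 4) (nat_lit 5) (nat_lit 6) (nat_lit 4) (nat_lit 4) (nat_lit 4) (nat_lit 319) (nat_lit 228) (nat_lit 173)) (XT.lf (nat_lit 0) (nat_lit 45973051660) (nat_lit 152) (nat_lit 827110504) (nat_lit 0) (nat_lit 31387921548) (nat_lit 4) (nat_lit 5) (nat_lit 6) (nat_lit 4) (nat_lit 4) (nat_lit 4) (nat_lit 320) (nat_lit 228) (nat_lit 172)))) (XT.nd (nat_lit 156) (nat_lit 0) (nat_lit 0) (XT.nd (nat_lit 78) (nat_lit 0) (nat_lit 0) (XT.lf (nat_lit 0) (nat_lit 3644102535) (nat_lit 76) (nat_lit 46474538032) (nat_lit 76) (nat_lit 31841067274) (nat_lit 3) (nat_lit 4) (nat_lit 4) (nat_lit 5) (nat_lit 4) (nat_lit 4) (nat_lit 321) (nat_lit 228) (nat_lit 171)) (XT.lf (nat_lit 0) (nat_lit 8343214582) (nat_lit 76) (nat_lit 46128125517) (nat_lit 76) (nat_lit 31448616048) (nat_lit 3) (nat_lit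 4) (nat_lit 4) (nat_lit 5) (nat_lit 4) (nat_lit 4) (nat_lit 322) (nat_lit 228) (nat_lit 170))) (XT.nd (nat_lit 78) (nat_lit 0) (nat_lit 0) (XT.lf (nat_lit 0) (nat_lit 13254065989) (nat_lit 76) (nat_lit 45774107344) (nat_lit 76) (nat_lit 31050751484) (nat_lit 3) (nat_lit 4) (nat_lit 4) (nat_lit 5) (nat_lit 4) (nat_lit 4) (nat_lit 323) (nat_lit 228) (nat_lit 169)) (XT.nd (nat_lit 78) (nat_lit 0) (nat_lit 0) (XT.lf (nat_lit 0) (nat_lit 18388349260) (nat_lit 76) (nat_lit 45411640613) (nat_lit 76) (nat_lit 30646526285) (nat_lit 3) (nat_lit 4) (nat_lit 4) (nat_lit 5) (nat_lit 4) (nat_lit 4) (nat_lit 324) (nat_lit 228) (nat_lit 168)) (XT.lf (nat_lit 0) (nat_lit 23758288878) (nat_lit 76) (nat_lit 45039862307) (nat_lit 76) (nat_lit 30234978009) (nat_lit 3) (nat_lit 4) (nat_lit 4) (nat_lit 5) (nat_lit 4) (nat_lit 4) (nat_lit 325) (nat_lit 228) (nat_lit 167))))))))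
noncomputable def xc60 : XT := (XT.nd (nat_lit 2496) (nat_lit 0) (nat_lit 0) (XT.nd (nat_lit 1248) (nat_lit 0) (nat_lit 0) (XT.nd (nat_lit 624) (nat_lit 0) (nat_lit 0) (XT.nd (nat_lit 312) (nat_lit 0) (nat_lit 0) (XT.nd (nat_lit 156) (nat_lit 0) (nat_lit 0) (XT.nd (nat_lit 78) (nat_lit 0) (nat_lit 0) (XT.lf (nat_lit 0) (nat_lit 29376670415) (nat_lit 76) (nat_lit 44657887240) (nat_lit 76) (nat_lit 29815126781) (nat_lit 3) (nat_lit 4) (nat_lit 4) (nat_lit 5) (nat_lit 4) (nat_lit 4) (nat_lit 326) (nat_lit 228) (nat_lit 166)) (XT.lf (nat_lit 0) (nat_lit 35256870969) (nat_lit 76) (nat_lit 44264805948) (nat_lit 76) (nat_lit 29385972954) (nat_lit 3) (nat_lit 4) (nat_lit 4) (nat_lit 5) (nat_lit 4) (nat_lit 4) (nat_lit 327) (nat_lit 228) (nat_lit 165))) (XT.nd (nat_lit 78) (nat_lit 0) (nat_lit 0) (XT.lf (nat_lit 0) (nat_lit 41412891018) (nat_lit 76) (nat_lit 43859682522) (nat_lit 76) (nat_lit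 28946494733) (nat_lit 3) (nat_lit 4) (nat_lit 4) (nat_lit 5) (nat_lit 4) (nat_lit 4) (nat_lit 328) (nat_lit 228) (nat_lit 164)) (XT.lf (nat_lit 0) (nat_lit 47859387752) (nat_lit 76) (nat_lit 43441552384) (nat_lit 76) (nat_lit 28495645743) (nat_lit 3) (nat_lit 4) (nat_lit 4) (nat_lit 5) (nat_lit 4) (nat_lit 4) (nat_lit 329) (nat_lit 228) (nat_lit 163)))) (XT.nd (nat_lit 156) (nat_lit 0) (nat_lit 0) (XT.nd (nat_lit 78) (nat_lit 0) (nat_lit 0) (XT.lf (nat_lit 0) (nat_lit 54611709973) (nat_lit 76) (nat_lit 43009419985) (nat_lit 76) (nat_lit 28032352532) (nat_lit 3) (nat_lit 4) (nat_lit 4) (nat_lit 5) (nat_lit 4) (nat_lit 4) (nat_lit 330) (nat_lit 228) (nat_lit 162)) (XT.lf (nat_lit 0) (nat_lit 61685934639) (nat_lit 76) (nat_lit 42562256438) (nat_lit 76) (nat_lit 27555512022) (nat_lit 3) (nat_lit 4) (nat_lit 4) (nat_lit 5) (nat_lit 4) (nat_lit 4) (nat_lit 331) (nat_lit 228) (nat_lit 161)))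 (XT.nd (nat_lit 78) (nat_lit 0) (nat_lit 0) (XT.lf (nat_lit 0) (nat_lit 69098905142) (nat_lit 76) (nat_lit 42098997069) (nat_lit 76) (nat_lit 27063988878) (nat_lit 3) (nat_lit 4) (nat_lit 4) (nat_lit 5) (nat_lit 4) (nat_lit 4) (nat_lit 332) (nat_lit 228) (nat_lit 160)) (XT.lf (nat_lit 0) (nat_lit 76868271411) (nat_lit 76) (nat_lit 41618538878) (nat_lit 76) (nat_lit 26556612807) (nat_lit 3) (nat_lit 4) (nat_lit 4) (nat_lit 5) (nat_lit 4) (nat_lit 4) (nat_lit 333) (nat_lit 228) (nat_lit 159))))) (XT.nd (nat_lit 312) (nat_lit 0) (nat_lit 0) (XT.nd (nat_lit 156) (nat_lit 0) (nat_lit 0) (XT.nd (nat_lit 78) (nat_lit 0) (nat_lit 0) (XT.lf (nat_lit 0) (nat_lit 85012531937) (nat_lit 76) (nat_lit 41119737919) (nat_lit 76) (nat_lit 26032175771) (nat_lit 3) (nat_lit 4) (nat_lit 4) (nat_lit 5) (nat_lit 4) (nat_lit 4) (nat_lit 334) (nat_lit 228) (nat_lit 158)) (XT.lf (nat_lit 0) (nat_lit 93551077818)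 (nat_lit 76) (nat_lit 40601406569) (nat_lit 76) (nat_lit 25489429109) (nat_lit 3) (nat_lit 4) (nat_lit 4) (nat_lit 5) (nat_lit 4) (nat_lit 4) (nat_lit 335) (nat_lit 228) (nat_lit 157))) (XT.nd (nat_lit 78) (nat_lit 0) (nat_lit 0) (XT.lf (nat_lit 0) (nat_lit 102504238924) (nat_lit 76) (nat_lit 40062310707) (nat_lit 76) (nat_lit 24927080569) (nat_lit 3) (nat_lit 4) (nat_lit 4) (nat_lit 5) (nat_lit 4) (nat_lit 4) (nat_lit 336) (nat_lit 228) (nat_lit 156)) (XT.lf (nat_lit 0) (nat_lit 111893332306) (nat_lit 76) (nat_lit 39501166770) (nat_lit 76) (nat_lit 24343791225) (nat_lit 3) (nat_lit 4) (nat_lit 4) (nat_lit 5) (nat_lit 4) (nat_lit 4) (nat_lit 337) (nat_lit 228) (nat_lit 155)))) (XT.nd (nat_lit 156) (nat_lit 0) (nat_lit 0) (XT.nd (nat_lit 78) (nat_lit 0) (nat_lit 0) (XT.lf (nat_lit 0) (nat_lit 121740712947) (nat_lit 76) (nat_lit 38916638702) (nat_lit 76) (nat_lit 23738172293) (nat_lit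 3) (nat_lit 4) (nat_lit 4) (nat_lit 5) (nat_lit 4) (nat_lit 4) (nat_lit 338) (nat_lit 228) (nat_lit 154)) (XT.lf (nat_lit 0) (nat_lit 132069826993) (nat_lit 76) (nat_lit 38307334769) (nat_lit 76) (nat_lit 23108781823) (nat_lit 3) (nat_lit 4) (nat_lit 4) (nat_lit 5) (nat_lit 4) (nat_lit 4) (nat_lit 339) (nat_lit 228) (nat_lit 153))) (XT.nd (nat_lit 78) (nat_lit 0) (nat_lit 0) (XT.lf (nat_lit 0) (nat_lit 142905267571) (nat_lit 76) (nat_lit 37671804247) (nat_lit 76) (nat_lit 22454121267) (nat_lit 3) (nat_lit 4) (nat_lit 4) (nat_lit 5) (nat_lit 4) (nat_lit 4) (nat_lit 340) (nat_lit 228) (nat_lit 152)) (XT.lf (nat_lit 0) (nat_lit 154272833350) (nat_lit 76) (nat_lit 37008533970) (nat_lit 76) (nat_lit 21772631908) (nat_lit 3) (nat_lit 4) (nat_lit 4) (nat_lit 5) (nat_lit 4) (nat_lit 4) (nat_lit 341) (nat_lit 228) (nat_lit 151)))))) (XT.nd (nat_lit 624) (nat_lit 0) (nat_lit 0) (XT.nd (nat_lit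 312) (nat_lit 0) (nat_lit 0) (XT.nd (nat_lit 156) (nat_lit 0) (nat_lit 0) (XT.nd (nat_lit 78) (nat_lit 0) (nat_lit 0) (XT.lf (nat_lit 0) (nat_lit 166199589963) (nat_lit 76) (nat_lit 36315944720) (nat_lit 76) (nat_lit 21062691153) (nat_lit 3) (nat_lit 4) (nat_lit 4) (nat_lit 5) (nat_lit 4) (nat_lit 4) (nat_lit 342) (nat_lit 228) (nat_lit 150)) (XT.lf (nat_lit 0) (nat_lit 178713934449) (nat_lit 76) (nat_lit 35592387478) (nat_lit 76) (nat_lit 20322608667) (nat_lit 3) (nat_lit 4) (nat_lit 4) (nat_lit 5) (nat_lit 4) (nat_lit 4) (nat_lit 343) (nat_lit 228) (nat_lit 149))) (XT.nd (nat_lit 78) (nat_lit 0) (nat_lit 0) (XT.lf (nat_lit 0) (nat_lit 191845662867) (nat_lit 76) (nat_lit 34836139487) (nat_lit 76) (nat_lit 19550622348) (nat_lit 3) (nat_lit 4) (nat_lit 4) (nat_lit 5) (nat_lit 4) (nat_lit 4) (nat_lit 344) (nat_lit 228) (nat_lit 148)) (XT.lf (nat_lit 0) (nat_lit 205626041236) (nat_lit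 76) (nat_lit 34045400157) (nat_lit 76) (nat_lit 18744894135) (nat_lit 3) (nat_lit 4) (nat_lit 4) (nat_lit 5) (nat_lit 4) (nat_lit 4) (nat_lit 345) (nat_lit 228) (nat_lit 147)))) (XT.nd (nat_lit 156) (nat_lit 0) (nat_lit 0) (XT.nd (nat_lit 78) (nat_lit 0) (nat_lit 0) (XT.lf (nat_lit 0) (nat_lit 220087879982) (nat_lit 76) (nat_lit 33218286775) (nat_lit 76) (nat_lit 17903505626) (nat_lit 3) (nat_lit 4) (nat_lit 4) (nat_lit 5) (nat_lit 4) (nat_lit 4) (nat_lit 346) (nat_lit 228) (nat_lit 146)) (XT.lf (nat_lit 0) (nat_lit 235265612053) (nat_lit 76) (nat_lit 32352830024) (nat_lit 76) (nat_lit 17024453516) (nat_lit 3) (nat_lit 4) (nat_lit 4) (nat_lit 5) (nat_lit 4) (nat_lit 4) (nat_lit 347) (nat_lit 228) (nat_lit 145))) (XT.nd (nat_lit 78) (nat_lit 0) (nat_lit 0) (XT.lf (nat_lit 0) (nat_lit 251195374907) (nat_lit 76) (nat_lit 31446969292) (nat_lit 76) (nat_lit 16105644823) (nat_lit 3) (nat_lit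 4) (nat_lit 4) (nat_lit 5) (nat_lit 4) (nat_lit 4) (nat_lit 348) (nat_lit 228) (nat_lit 144)) (XT.lf (nat_lit 0) (nat_lit 267915096551) (nat_lit 76) (nat_lit 30498547768) (nat_lit 76) (nat_lit 15144891908) (nat_lit 3) (nat_lit 4) (nat_lit 4) (nat_lit 5) (nat_lit 4) (nat_lit 4) (nat_lit 349) (nat_lit 228) (nat_lit 143))))) (XT.nd (nat_lit 312) (nat_lit 0) (nat_lit 0) (XT.nd (nat_lit 156) (nat_lit 0) (nat_lit 0) (XT.nd (nat_lit 78) (nat_lit 0) (nat_lit 0) (XT.lf (nat_lit 0) (nat_lit 285464585846) (nat_lit 76) (nat_lit 29505307305) (nat_lit 76) (nat_lit 14139907263) (nat_lit 3) (nat_lit 4) (nat_lit 4) (nat_lit 5) (nat_lit 4) (nat_lit 4) (nat_lit 350) (nat_lit 228) (nat_lit 142)) (XT.lf (nat_lit 0) (nat_lit 303885627289) (nat_lit 76) (nat_lit 28464883046) (nat_lit 76) (nat_lit 13088298069) (nat_lit 3) (nat_lit 4) (nat_lit 4) (nat_lit 5) (nat_lit 4) (nat_lit 4) (nat_lit 351) (nat_lit 228)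 (nat_lit 141))) (XT.nd (nat_lit 78) (nat_lit 0) (nat_lit 0) (XT.lf (nat_lit 0) (nat_lit 323222080505) (nat_lit 76) (nat_lit 27374797790) (nat_lit 76) (nat_lit 11987560493) (nat_lit 3) (nat_lit 4) (nat_lit 4) (nat_lit 5) (nat_lit 4) (nat_lit 4) (nat_lit 352) (nat_lit 228) (nat_lit 140)) (XT.lf (nat_lit 0) (nat_lit 343519984666) (nat_lit 76) (nat_lit 26232456095) (nat_lit 76) (nat_lit 10835073732) (nat_lit 3) (nat_lit 4) (nat_lit 4) (nat_lit 5) (nat_lit 4) (nat_lit 4) (nat_lit 353) (nat_lit 228) (nat_lit 139)))) (XT.nd (nat_lit 156) (nat_lit 0) (nat_lit 0) (XT.nd (nat_lit 78) (nat_lit 0) (nat_lit 0) (XT.lf (nat_lit 0) (nat_lit 364827668117) (nat_lit 76) (nat_lit 25035138101) (nat_lit 76) (nat_lit 9628093770) (nat_lit 3) (nat_lit 4) (nat_lit 4) (nat_lit 5) (nat_lit 4) (nat_lit 4) (nat_lit 354) (nat_lit 228) (nat_lit 138)) (XT.lf (nat_lit 0) (nat_lit 387195863437) (nat_lit 76) (nat_lit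 23779993050) (nat_lit 76) (nat_lit 8363746845) (nat_lit 3) (nat_lit 4) (nat_lit 4) (nat_lit 5) (nat_lit 4) (nat_lit 4) (nat_lit 355) (nat_lit 228) (nat_lit 137))) (XT.nd (nat_lit 78) (nat_lit 0) (nat_lit 0) (XT.lf (nat_lit 0) (nat_lit 410677828233) (nat_lit 76) (nat_lit 22464032502) (nat_lit 76) (nat_lit 7039022607) (nat_lit 3) (nat_lit 4) (nat_lit 4) (nat_lit 5) (nat_lit 4) (nat_lit 4) (nat_lit 356) (nat_lit 228) (nat_lit 136)) (XT.lf (nat_lit 0) (nat_lit 435329471946) (nat_lit 76) (nat_lit 21084123217) (nat_lit 76) (nat_lit 5650766951) (nat_lit 3) (nat_lit 4) (nat_lit 4) (nat_lit 5) (nat_lit 4) (nat_lit 4) (nat_lit 357) (nat_lit 228) (nat_lit 135))))))) (XT.nd (nat_lit 31200) (nat_lit 0) (nat_lit 380) (XT.nd (nat_lit 30576) (nat_lit 0) (nat_lit 1216) (XT.nd (nat_lit 30264) (nat_lit 0) (nat_lit 2128) (XT.nd (nat_lit 30108) (nat_lit 0) (nat_lit 2660) (XT.nd (nat_lit 30030) (nat_lit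 0) (nat_lit 2964) (XT.lf (nat_lit 0) (nat_lit 461209488965) (nat_lit 76) (nat_lit 19636979697) (nat_lit 76) (nat_lit 4195674506) (nat_lit 3) (nat_lit 4) (nat_lit 4) (nat_lit 5) (nat_lit 4) (nat_lit 4) (nat_lit 358) (nat_lit 228) (nat_lit 134)) (XT.lf (nat_lit 0) (nat_lit 2132002440) (nat_lit 304) (nat_lit 982228665) (nat_lit 304) (nat_lit 982228665) (nat_lit 42) (nat_lit 4) (nat_lit 46) (nat_lit 5) (nat_lit 46) (nat_lit 4) (nat_lit 262) (nat_lit 229) (nat_lit 229))) (XT.nd (nat_lit 78) (nat_lit 0) (nat_lit 0) (XT.lf (nat_lit 0) (nat_lit 752900344) (nat_lit 228) (nat_lit 176532117) (nat_lit 304) (nat_lit 7445920924) (nat_lit 38) (nat_lit 5) (nat_lit 41) (nat_lit 5) (nat_lit 42) (nat_lit 4) (nat_lit 263) (nat_lit 229) (nat_lit 228)) (XT.lf (nat_lit 0) (nat_lit 3864691111) (nat_lit 304) (nat_lit 2981417703) (nat_lit 0) (nat_lit 1721839214) (nat_lit 38) (nat_lit 5) (nat_lit 42) (nat_lit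 4) (nat_lit 38) (nat_lit 4) (nat_lit 264) (nat_lit 229) (nat_lit 227)))) (XT.nd (nat_lit 156) (nat_lit 228) (nat_lit 0) (XT.nd (nat_lit 78) (nat_lit 76) (nat_lit 0) (XT.lf (nat_lit 0) (nat_lit 1790663329) (nat_lit 228) (nat_lit 5061672098) (nat_lit 228) (nat_lit 1923302479) (nat_lit 35) (nat_lit 4) (nat_lit 38) (nat_lit 5) (nat_lit 38) (nat_lit 4) (nat_lit 265) (nat_lit 229) (nat_lit 226)) (XT.lf (nat_lit 0) (nat_lit 890766808) (nat_lit 304) (nat_lit 2260409777) (nat_lit 76) (nat_lit 5846086465) (nat_lit 34) (nat_lit 5) (nat_lit 38) (nat_lit 5) (nat_lit 35) (nat_lit 4) (nat_lit 266) (nat_lit 229) (nat_lit 225))) (XT.nd (nat_lit 78) (nat_lit 0) (nat_lit 0) (XT.lf (nat_lit 0) (nat_lit 2601935740) (nat_lit 228) (nat_lit 1101177135) (nat_lit 304) (nat_lit 5529814628) (nat_lit 31) (nat_lit 5) (nat_lit 34) (nat_lit 5) (nat_lit 35) (nat_lit 4) (nat_lit 267) (nat_lit 229) (nat_lit 224)) (XT.lf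 (nat_lit 0) (nat_lit 6595805644) (nat_lit 304) (nat_lit 1863259579) (nat_lit 0) (nat_lit 1024937746) (nat_lit 31) (nat_lit 5) (nat_lit 35) (nat_lit 4) (nat_lit 31) (nat_lit 4) (nat_lit 268) (nat_lit 229) (nat_lit 223))))) (XT.nd (nat_lit 312) (nat_lit 456) (nat_lit 0) (XT.nd (nat_lit 156) (nat_lit 152) (nat_lit 0) (XT.nd (nat_lit 78) (nat_lit 76) (nat_lit 0) (XT.lf (nat_lit 0) (nat_lit 3076973628) (nat_lit 228) (nat_lit 6512162754) (nat_lit 228) (nat_lit 161280672) (nat_lit 28) (nat_lit 4) (nat_lit 31) (nat_lit 5) (nat_lit 31) (nat_lit 4) (nat_lit 269) (nat_lit 229) (nat_lit 222)) (XT.lf (nat_lit 0) (nat_lit 2538184900) (nat_lit 304) (nat_lit 1890473687) (nat_lit 76) (nat_lit 5603780433) (nat_lit 27) (nat_lit 5) (nat_lit 31) (nat_lit 5) (nat_lit 28) (nat_lit 4) (nat_lit 270) (nat_lit 229) (nat_lit 221))) (XT.nd (nat_lit 78) (nat_lit 0) (nat_lit 0) (XT.lf (nat_lit 0) (nat_lit 3086744789)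 (nat_lit 152) (nat_lit 2224471494) (nat_lit 228) (nat_lit 5020518327) (nat_lit 25) (nat_lit 5) (nat_lit 27) (nat_lit 5) (nat_lit 28) (nat_lit 4) (nat_lit 271) (nat_lit 229) (nat_lit 220)) (XT.lf (nat_lit 0) (nat_lit 8154874554) (nat_lit 228) (nat_lit 2411608560) (nat_lit 0) (nat_lit 83394390) (nat_lit 25) (nat_lit 5) (nat_lit 28) (nat_lit 4) (nat_lit 25) (nat_lit 4) (nat_lit 272) (nat_lit 229) (nat_lit 219)))) (XT.nd (nat_lit 156) (nat_lit 152) (nat_lit 0) (XT.nd (nat_lit 78) (nat_lit 0) (nat_lit 0) (XT.lf (nat_lit 0) (nat_lit 130505853) (nat_lit 304) (nat_lit 8415104688) (nat_lit 76) (nat_lit 2439694356) (nat_lit 21) (nat_lit 5) (nat_lit 25) (nat_lit 5) (nat_lit 22) (nat_lit 4) (nat_lit 273) (nat_lit 229) (nat_lit 218)) (XT.lf (nat_lit 0) (nat_lit 2748387345) (nat_lit 304) (nat_lit 3630506224) (nat_lit 76) (nat_lit 4959733479) (nat_lit 21) (nat_lit 5) (nat_lit 25) (nat_lit 5) (nat_lit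 22) (nat_lit 4) (nat_lit 274) (nat_lit 229) (nat_lit 217))) (XT.nd (nat_lit 78) (nat_lit 0) (nat_lit 0) (XT.lf (nat_lit 0) (nat_lit 1303323859) (nat_lit 152) (nat_lit 4122220364) (nat_lit 228) (nat_lit 6288047975) (nat_lit 19) (nat_lit 5) (nat_lit 21) (nat_lit 5) (nat_lit 22) (nat_lit 4) (nat_lit 275) (nat_lit 229) (nat_lit 216)) (XT.lf (nat_lit 0) (nat_lit 6480300019) (nat_lit 152) (nat_lit 1728132235) (nat_lit 228) (nat_lit 3900656790) (nat_lit 19) (nat_lit 5) (nat_lit 21) (nat_lit 5) (nat_lit 22) (nat_lit 4) (nat_lit 276) (nat_lit 229) (nat_lit 215)))))) (XT.nd (nat_lit 624) (nat_lit 304) (nat_lit 0) (XT.nd (nat_lit 312) (nat_lit 228) (nat_lit 0) (XT.nd (nat_lit 156) (nat_lit 76) (nat_lit 0) (XT.nd (nat_lit 78) (nat_lit 228) (nat_lit 0) (XT.lf (nat_lit 0) (nat_lit 11056792731) (nat_lit 228) (nat_lit 747951538) (nat_lit 0) (nat_lit 723659206) (nat_lit 19) (nat_lit 5) (nat_lit 22)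 (nat_lit 4) (nat_lit 19) (nat_lit 4) (nat_lit 277) (nat_lit 229) (nat_lit 214)) (XT.lf (nat_lit 0) (nat_lit 1058930722) (nat_lit 228) (nat_lit 8618383682) (nat_lit 76) (nat_lit 3290124043) (nat_lit 16) (nat_lit 5) (nat_lit 19) (nat_lit 5) (nat_lit 17) (nat_lit 4) (nat_lit 278) (nat_lit 229) (nat_lit 213))) (XT.nd (nat_lit 78) (nat_lit 76) (nat_lit 0) (XT.lf (nat_lit 0) (nat_lit 3597981219) (nat_lit 228) (nat_lit 3847671247) (nat_lit 76) (nat_lit 5985304821) (nat_lit 16) (nat_lit 5) (nat_lit 19) (nat_lit 5) (nat_lit 17) (nat_lit 4) (nat_lit 279) (nat_lit 229) (nat_lit 212)) (XT.lf (nat_lit 0) (nat_lit 1079532812) (nat_lit 76) (nat_lit 5123747058) (nat_lit 152) (nat_lit 7717702888) (nat_lit 15) (nat_lit 5) (nat_lit 16) (nat_lit 5) (nat_lit 17) (nat_lit 4) (nat_lit 280) (nat_lit 229) (nat_lit 211)))) (XT.nd (nat_lit 156) (nat_lit 228) (nat_lit 0) (XT.nd (nat_lit 78) (nat_lit 0) (nat_lit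 0) (XT.lf (nat_lit 0) (nat_lit 6271964321) (nat_lit 76) (nat_lit 2656384660) (nat_lit 152) (nat_lit 5507966646) (nat_lit 15) (nat_lit 5) (nat_lit 16) (nat_lit 5) (nat_lit 17) (nat_lit 4) (nat_lit 281) (nat_lit 229) (nat_lit 210)) (XT.lf (nat_lit 0) (nat_lit 11614764824) (nat_lit 76) (nat_lit 102852773) (nat_lit 152) (nat_lit 3263668239) (nat_lit 15) (nat_lit 5) (nat_lit 16) (nat_lit 5) (nat_lit 17) (nat_lit 4) (nat_lit 282) (nat_lit 229) (nat_lit 209))) (XT.nd (nat_lit 78) (nat_lit 76) (nat_lit 0) (XT.lf (nat_lit 0) (nat_lit 1574144554) (nat_lit 152) (nat_lit 13067861326) (nat_lit 152) (nat_lit 911971101) (nat_lit 13) (nat_lit 4) (nat_lit 15) (nat_lit 5) (nat_lit 15) (nat_lit 4) (nat_lit 283) (nat_lit 229) (nat_lit 208)) (XT.lf (nat_lit 0) (nat_lit 1498231038) (nat_lit 228) (nat_lit 9408628599) (nat_lit 76) (nat_lit 5247920666) (nat_lit 12) (nat_lit 5) (nat_lit 15) (nat_lit 5) (nat_lit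 13) (nat_lit 4) (nat_lit 284) (nat_lit 229) (nat_lit 207))))) (XT.nd (nat_lit 312) (nat_lit 228) (nat_lit 0) (XT.nd (nat_lit 156) (nat_lit 0) (nat_lit 0) (XT.nd (nat_lit 78) (nat_lit 76) (nat_lit 0) (XT.lf (nat_lit 0) (nat_lit 3932704026) (nat_lit 228) (nat_lit 4726637073) (nat_lit 76) (nat_lit 8129035211) (nat_lit 12) (nat_lit 5) (nat_lit 15) (nat_lit 5) (nat_lit 13) (nat_lit 4) (nat_lit 285) (nat_lit 229) (nat_lit 206)) (XT.lf (nat_lit 0) (nat_lit 94554507) (nat_lit 76) (nat_lit 6333354750) (nat_lit 152) (nat_lit 11029002417) (nat_lit 11) (nat_lit 5) (nat_lit 12) (nat_lit 5) (nat_lit 13) (nat_lit 4) (nat_lit 286) (nat_lit 229) (nat_lit 205))) (XT.nd (nat_lit 78) (nat_lit 0) (nat_lit 0) (XT.lf (nat_lit 0) (nat_lit 5224557426) (nat_lit 76) (nat_lit 3842367955) (nat_lit 152) (nat_lit 9091195878) (nat_lit 11) (nat_lit 5) (nat_lit 12) (nat_lit 5) (nat_lit 13) (nat_lit 4) (nat_lit 287)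 (nat_lit 229) (nat_lit 204)) (XT.lf (nat_lit 0) (nat_lit 10519302009) (nat_lit 76) (nat_lit 1260497680) (nat_lit 152) (nat_lit 7117686728) (nat_lit 11) (nat_lit 5) (nat_lit 12) (nat_lit 5) (nat_lit 13) (nat_lit 4) (nat_lit 288) (nat_lit 229) (nat_lit 203)))) (XT.nd (nat_lit 156) (nat_lit 76) (nat_lit 0) (XT.nd (nat_lit 78) (nat_lit 152) (nat_lit 0) (XT.lf (nat_lit 0) (nat_lit 14595136657) (nat_lit 152) (nat_lit 3707518005) (nat_lit 0) (nat_lit 1373005617) (nat_lit 11) (nat_lit 5) (nat_lit 13) (nat_lit 4) (nat_lit 11) (nat_lit 4) (nat_lit 289) (nat_lit 229) (nat_lit 202)) (XT.lf (nat_lit 0) (nat_lit 1126515102) (nat_lit 152) (nat_lit 16409808852) (nat_lit 152) (nat_lit 2957337462) (nat_lit 9) (nat_lit 4) (nat_lit 11) (nat_lit 5) (nat_lit 11) (nat_lit 4) (nat_lit 290) (nat_lit 229) (nat_lit 201))) (XT.nd (nat_lit 78) (nat_lit 76) (nat_lit 0) (XT.lf (nat_lit 0) (nat_lit 6246788252) (nat_lit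 152) (nat_lit 14388620077) (nat_lit 152) (nat_lit 716776924) (nat_lit 9) (nat_lit 4) (nat_lit 11) (nat_lit 5) (nat_lit 11) (nat_lit 4) (nat_lit 291) (nat_lit 229) (nat_lit 200)) (XT.lf (nat_lit 0) (nat_lit 1533015627) (nat_lit 228) (nat_lit 10738086605) (nat_lit 76) (nat_lit 9983927293) (nat_lit 8) (nat_lit 5) (nat_lit 11) (nat_lit 5) (nat_lit 9) (nat_lit 4) (nat_lit 292) (nat_lit 229) (nat_lit 199))))))))
noncomputable def xc61 : XT := (XT.nd (nat_lit 1248) (nat_lit 152) (nat_lit 0) (XT.nd (nat_lit 624) (nat_lit 152) (nat_lit 0) (XT.nd (nat_lit 312) (nat_lit 0) (nat_lit 0) (XT.nd (nat_lit 156) (nat_lit 76) (nat_lit 0) (XT.nd (nat_lit 78) (nat_lit 0) (nat_lit 0) (XT.lf (nat_lit 0) (nat_lit 3823171472) (nat_lit 228) (nat_lit 6242243777) (nat_lit 76) (nat_lit 13139557261) (nat_lit 8) (nat_lit 5) (nat_lit 11) (nat_lit 5) (nat_lit 9) (nat_lit 4) (nat_lit 293) (nat_lit 229) (nat_lit 198))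 (XT.lf (nat_lit 0) (nat_lit 6182084702) (nat_lit 228) (nat_lit 1595973233) (nat_lit 76) (nat_lit 16426777590) (nat_lit 8) (nat_lit 5) (nat_lit 11) (nat_lit 5) (nat_lit 9) (nat_lit 4) (nat_lit 294) (nat_lit 229) (nat_lit 197))) (XT.nd (nat_lit 78) (nat_lit 0) (nat_lit 0) (XT.lf (nat_lit 0) (nat_lit 3317983777) (nat_lit 76) (nat_lit 5349191023) (nat_lit 152) (nat_lit 16587234241) (nat_lit 7) (nat_lit 5) (nat_lit 8) (nat_lit 5) (nat_lit 9) (nat_lit 4) (nat_lit 295) (nat_lit 229) (nat_lit 196)) (XT.lf (nat_lit 0) (nat_lit 8463366274) (nat_lit 76) (nat_lit 2797596825) (nat_lit 152) (nat_lit 15096398724) (nat_lit 7) (nat_lit 5) (nat_lit 8) (nat_lit 5) (nat_lit 9) (nat_lit 4) (nat_lit 296) (nat_lit 229) (nat_lit 195)))) (XT.nd (nat_lit 156) (nat_lit 0) (nat_lit 0) (XT.nd (nat_lit 78) (nat_lit 0) (nat_lit 0) (XT.lf (nat_lit 0) (nat_lit 13799655085) (nat_lit 76) (nat_lit 144228696) (nat_lit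 152) (nat_lit 13573723243) (nat_lit 7) (nat_lit 5) (nat_lit 8) (nat_lit 5) (nat_lit 9) (nat_lit 4) (nat_lit 297) (nat_lit 229) (nat_lit 194)) (XT.lf (nat_lit 0) (nat_lit 16763187061) (nat_lit 152) (nat_lit 9439213782) (nat_lit 0) (nat_lit 2533463172) (nat_lit 7) (nat_lit 5) (nat_lit 9) (nat_lit 4) (nat_lit 7) (nat_lit 4) (nat_lit 298) (nat_lit 229) (nat_lit 193))) (XT.nd (nat_lit 78) (nat_lit 0) (nat_lit 0) (XT.lf (nat_lit 0) (nat_lit 19688668044) (nat_lit 152) (nat_lit 5010676082) (nat_lit 0) (nat_lit 5317535161) (nat_lit 7) (nat_lit 5) (nat_lit 9) (nat_lit 4) (nat_lit 7) (nat_lit 4) (nat_lit 299) (nat_lit 229) (nat_lit 192)) (XT.lf (nat_lit 0) (nat_lit 22725040345) (nat_lit 152) (nat_lit 419542889) (nat_lit 0) (nat_lit 8219232230) (nat_lit 7) (nat_lit 5) (nat_lit 9) (nat_lit 4) (nat_lit 7) (nat_lit 4) (nat_lit 300) (nat_lit 229) (nat_lit 191))))) (XT.nd (nat_lit 312) (nat_lit 76)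 (nat_lit 0) (XT.nd (nat_lit 156) (nat_lit 0) (nat_lit 0) (XT.nd (nat_lit 78) (nat_lit 0) (nat_lit 0) (XT.lf (nat_lit 0) (nat_lit 4488786260) (nat_lit 76) (nat_lit 21460829697) (nat_lit 76) (nat_lit 6826759455) (nat_lit 6) (nat_lit 4) (nat_lit 7) (nat_lit 5) (nat_lit 7) (nat_lit 4) (nat_lit 301) (nat_lit 229) (nat_lit 190)) (XT.lf (nat_lit 0) (nat_lit 9601971260) (nat_lit 76) (nat_lit 19707600398) (nat_lit 76) (nat_lit 4951375750) (nat_lit 6) (nat_lit 4) (nat_lit 7) (nat_lit 5) (nat_lit 7) (nat_lit 4) (nat_lit 302) (nat_lit 229) (nat_lit 189))) (XT.nd (nat_lit 78) (nat_lit 0) (nat_lit 0) (XT.lf (nat_lit 0) (nat_lit 14918314378) (nat_lit 76) (nat_lit 17887826144) (nat_lit 76) (nat_lit 3015263967) (nat_lit 6) (nat_lit 4) (nat_lit 7) (nat_lit 5) (nat_lit 7) (nat_lit 4) (nat_lit 303) (nat_lit 229) (nat_lit 188)) (XT.lf (nat_lit 0) (nat_lit 20450473574) (nat_lit 76) (nat_lit 15997174138)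 (nat_lit 76) (nat_lit 1013814314) (nat_lit 6) (nat_lit 4) (nat_lit 7) (nat_lit 5) (nat_lit 7) (nat_lit 4) (nat_lit 304) (nat_lit 229) (nat_lit 187)))) (XT.nd (nat_lit 156) (nat_lit 0) (nat_lit 0) (XT.nd (nat_lit 78) (nat_lit 0) (nat_lit 0) (XT.lf (nat_lit 0) (nat_lit 1023884322) (nat_lit 152) (nat_lit 12989918531) (nat_lit 76) (nat_lit 25170396356) (nat_lit 5) (nat_lit 5) (nat_lit 7) (nat_lit 5) (nat_lit 6) (nat_lit 4) (nat_lit 305) (nat_lit 229) (nat_lit 186)) (XT.lf (nat_lit 0) (nat_lit 3101768459) (nat_lit 152) (nat_lit 8830752781) (nat_lit 76) (nat_lit 29061174228) (nat_lit 5) (nat_lit 5) (nat_lit 7) (nat_lit 5) (nat_lit 6) (nat_lit 4) (nat_lit 306) (nat_lit 229) (nat_lit 185))) (XT.nd (nat_lit 78) (nat_lit 0) (nat_lit 0) (XT.lf (nat_lit 0) (nat_lit 5257233829) (nat_lit 152) (nat_lit 4507759946) (nat_lit 76) (nat_lit 33130056780) (nat_lit 5) (nat_lit 5) (nat_lit 7) (nat_lit 5)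 (nat_lit 6) (nat_lit 4) (nat_lit 307) (nat_lit 229) (nat_lit 184)) (XT.lf (nat_lit 0) (nat_lit 7495412492) (nat_lit 152) (nat_lit 10647186) (nat_lit 76) (nat_lit 37386731828) (nat_lit 5) (nat_lit 5) (nat_lit 7) (nat_lit 5) (nat_lit 6) (nat_lit 4) (nat_lit 308) (nat_lit 229) (nat_lit 183)))))) (XT.nd (nat_lit 624) (nat_lit 76) (nat_lit 0) (XT.nd (nat_lit 312) (nat_lit 0) (nat_lit 0) (XT.nd (nat_lit 156) (nat_lit 0) (nat_lit 0) (XT.nd (nat_lit 78) (nat_lit 0) (nat_lit 0) (XT.lf (nat_lit 0) (nat_lit 4825746950) (nat_lit 76) (nat_lit 5071229928) (nat_lit 152) (nat_lit 37090930794) (nat_lit 4) (nat_lit 5) (nat_lit 5) (nat_lit 5) (nat_lit 6) (nat_lit 4) (nat_lit 309) (nat_lit 229) (nat_lit 182)) (XT.lf (nat_lit 0) (nat_lit 9864947757) (nat_lit 76) (nat_lit 2530507032) (nat_lit 152) (nat_lit 36793542150) (nat_lit 4) (nat_lit 5) (nat_lit 5) (nat_lit 5) (nat_lit 6) (nat_lit 4) (nat_lit 310)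 (nat_lit 229) (nat_lit 181))) (XT.nd (nat_lit 78) (nat_lit 0) (nat_lit 0) (XT.lf (nat_lit 0) (nat_lit 14998527671) (nat_lit 152) (nat_lit 36384611714) (nat_lit 0) (nat_lit 118073975) (nat_lit 4) (nat_lit 5) (nat_lit 6) (nat_lit 4) (nat_lit 4) (nat_lit 4) (nat_lit 311) (nat_lit 229) (nat_lit 180)) (XT.lf (nat_lit 0) (nat_lit 17751836192) (nat_lit 152) (nat_lit 33376292531) (nat_lit 0) (nat_lit 2799961344) (nat_lit 4) (nat_lit 5) (nat_lit 6) (nat_lit 4) (nat_lit 4) (nat_lit 4) (nat_lit 312) (nat_lit 229) (nat_lit 179)))) (XT.nd (nat_lit 156) (nat_lit 0) (nat_lit 0) (XT.nd (nat_lit 78) (nat_lit 0) (nat_lit 0) (XT.lf (nat_lit 0) (nat_lit 20622427542) (nat_lit 152) (nat_lit 30252420663) (nat_lit 0) (nat_lit 5602532550) (nat_lit 4) (nat_lit 5) (nat_lit 6) (nat_lit 4) (nat_lit 4) (nat_lit 4) (nat_lit 313) (nat_lit 229) (nat_lit 178)) (XT.lf (nat_lit 0) (nat_lit 23617136462) (nat_lit 152)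 (nat_lit 27005558319) (nat_lit 0) (nat_lit 8532460381) (nat_lit 4) (nat_lit 5) (nat_lit 6) (nat_lit 4) (nat_lit 4) (nat_lit 4) (nat_lit 314) (nat_lit 229) (nat_lit 177))) (XT.nd (nat_lit 78) (nat_lit 0) (nat_lit 0) (XT.lf (nat_lit 0) (nat_lit 26743093212) (nat_lit 152) (nat_lit 23627974875) (nat_lit 0) (nat_lit 11596720856) (nat_lit 4) (nat_lit 5) (nat_lit 6) (nat_lit 4) (nat_lit 4) (nat_lit 4) (nat_lit 315) (nat_lit 229) (nat_lit 176)) (XT.lf (nat_lit 0) (nat_lit 30007740547) (nat_lit 152) (nat_lit 20111628466) (nat_lit 0) (nat_lit 14802609832) (nat_lit 4) (nat_lit 5) (nat_lit 6) (nat_lit 4) (nat_lit 4) (nat_lit 4) (nat_lit 316) (nat_lit 229) (nat_lit 175))))) (XT.nd (nat_lit 312) (nat_lit 76) (nat_lit 0) (XT.nd (nat_lit 156) (nat_lit 0) (nat_lit 0) (XT.nd (nat_lit 78) (nat_lit 0) (nat_lit 0) (XT.lf (nat_lit 0) (nat_lit 33418851435) (nat_lit 152) (nat_lit 16448146838) (nat_lit 0)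 (nat_lit 18157760380) (nat_lit 4) (nat_lit 5) (nat_lit 6) (nat_lit 4) (nat_lit 4) (nat_lit 4) (nat_lit 317) (nat_lit 229) (nat_lit 174)) (XT.lf (nat_lit 0) (nat_lit 36984547569) (nat_lit 152) (nat_lit 12628807416) (nat_lit 0) (nat_lit 21670160952) (nat_lit 4) (nat_lit 5) (nat_lit 6) (nat_lit 4) (nat_lit 4) (nat_lit 4) (nat_lit 318) (nat_lit 229) (nat_lit 173))) (XT.nd (nat_lit 78) (nat_lit 0) (nat_lit 0) (XT.lf (nat_lit 0) (nat_lit 40713318703) (nat_lit 152) (nat_lit 8644516534) (nat_lit 0) (nat_lit 25348174407) (nat_lit 4) (nat_lit 5) (nat_lit 6) (nat_lit 4) (nat_lit 4) (nat_lit 4) (nat_lit 319) (nat_lit 229) (nat_lit 172)) (XT.lf (nat_lit 0) (nat_lit 44614042863) (nat_lit 152) (nat_lit 4485787787) (nat_lit 0) (nat_lit 29200557920) (nat_lit 4) (nat_lit 5) (nat_lit 6) (nat_lit 4) (nat_lit 4) (nat_lit 4) (nat_lit 320) (nat_lit 229) (nat_lit 171)))) (XT.nd (nat_lit 156) (nat_lit 0)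 (nat_lit 0) (XT.nd (nat_lit 78) (nat_lit 76) (nat_lit 0) (XT.lf (nat_lit 0) (nat_lit 48696007486) (nat_lit 152) (nat_lit 142719438) (nat_lit 0) (nat_lit 33236483833) (nat_lit 4) (nat_lit 5) (nat_lit 6) (nat_lit 4) (nat_lit 4) (nat_lit 4) (nat_lit 321) (nat_lit 229) (nat_lit 170)) (XT.lf (nat_lit 0) (nat_lit 4540348663) (nat_lit 76) (nat_lit 48499470441) (nat_lit 76) (nat_lit 32996100396) (nat_lit 3) (nat_lit 4) (nat_lit 4) (nat_lit 5) (nat_lit 4) (nat_lit 4) (nat_lit 322) (nat_lit 229) (nat_lit 169))) (XT.nd (nat_lit 78) (nat_lit 0) (nat_lit 0) (XT.lf (nat_lit 0) (nat_lit 9440414360) (nat_lit 76) (nat_lit 48149965609) (nat_lit 76) (nat_lit 32604837097) (nat_lit 3) (nat_lit 4) (nat_lit 4) (nat_lit 5) (nat_lit 4) (nat_lit 4) (nat_lit 323) (nat_lit 229) (nat_lit 168)) (XT.lf (nat_lit 0) (nat_lit 14564425525) (nat_lit 76) (nat_lit 47791797298) (nat_lit 76) (nat_lit 32206898816) (nat_lit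 3) (nat_lit 4) (nat_lit 4) (nat_lit 5) (nat_lit 4) (nat_lit 4) (nat_lit 324) (nat_lit 229) (nat_lit 167)))))))
noncomputable def xc62 : XT := (XT.nd (nat_lit 1248) (nat_lit 0) (nat_lit 0) (XT.nd (nat_lit 624) (nat_lit 0) (nat_lit 0) (XT.nd (nat_lit 312) (nat_lit 0) (nat_lit 0) (XT.nd (nat_lit 156) (nat_lit 0) (nat_lit 0) (XT.nd (nat_lit 78) (nat_lit 0) (nat_lit 0) (XT.lf (nat_lit 0) (nat_lit 19924582186) (nat_lit 76) (nat_lit 47424112726) (nat_lit 76) (nat_lit 31801338083) (nat_lit 3) (nat_lit 4) (nat_lit 4) (nat_lit 5) (nat_lit 4) (nat_lit 4) (nat_lit 325) (nat_lit 229) (nat_lit 166)) (XT.lf (nat_lit 0) (nat_lit 25533646621) (nat_lit 76) (nat_lit 47046036454) (nat_lit 76) (nat_lit 31387189275) (nat_lit 3) (nat_lit 4) (nat_lit 4) (nat_lit 5) (nat_lit 4) (nat_lit 4) (nat_lit 326) (nat_lit 229) (nat_lit 165))) (XT.nd (nat_lit 78) (nat_lit 0) (nat_lit 0) (XT.lf (nat_lit 0) (nat_lit 31404973745)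 (nat_lit 76) (nat_lit 46656668298) (nat_lit 76) (nat_lit 30963466325) (nat_lit 3) (nat_lit 4) (nat_lit 4) (nat_lit 5) (nat_lit 4) (nat_lit 4) (nat_lit 327) (nat_lit 229) (nat_lit 164)) (XT.lf (nat_lit 0) (nat_lit 37552542907) (nat_lit 76) (nat_lit 46255081194) (nat_lit 76) (nat_lit 30529160369) (nat_lit 3) (nat_lit 4) (nat_lit 4) (nat_lit 5) (nat_lit 4) (nat_lit 4) (nat_lit 328) (nat_lit 229) (nat_lit 163)))) (XT.nd (nat_lit 156) (nat_lit 0) (nat_lit 0) (XT.nd (nat_lit 78) (nat_lit 0) (nat_lit 0) (XT.lf (nat_lit 0) (nat_lit 43990991178) (nat_lit 76) (nat_lit 45840318981) (nat_lit 76) (nat_lit 30083237344) (nat_lit 3) (nat_lit 4) (nat_lit 4) (nat_lit 5) (nat_lit 4) (nat_lit 4) (nat_lit 329) (nat_lit 229) (nat_lit 162)) (XT.lf (nat_lit 0) (nat_lit 50735648196) (nat_lit 76) (nat_lit 45411394129) (nat_lit 76) (nat_lit 29624635528) (nat_lit 3) (nat_lit 4) (nat_lit 4) (nat_lit 5) (nat_lit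 4) (nat_lit 4) (nat_lit 330) (nat_lit 229) (nat_lit 161))) (XT.nd (nat_lit 78) (nat_lit 0) (nat_lit 0) (XT.lf (nat_lit 0) (nat_lit 57802572668) (nat_lit 76) (nat_lit 44967285390) (nat_lit 76) (nat_lit 29152263014) (nat_lit 3) (nat_lit 4) (nat_lit 4) (nat_lit 5) (nat_lit 4) (nat_lit 4) (nat_lit 331) (nat_lit 229) (nat_lit 160)) (XT.lf (nat_lit 0) (nat_lit 65208590605) (nat_lit 76) (nat_lit 44506935360) (nat_lit 76) (nat_lit 28664995105) (nat_lit 3) (nat_lit 4) (nat_lit 4) (nat_lit 5) (nat_lit 4) (nat_lit 4) (nat_lit 332) (nat_lit 229) (nat_lit 159))))) (XT.nd (nat_lit 312) (nat_lit 0) (nat_lit 0) (XT.nd (nat_lit 156) (nat_lit 0) (nat_lit 0) (XT.nd (nat_lit 78) (nat_lit 0) (nat_lit 0) (XT.lf (nat_lit 0) (nat_lit 72971335384) (nat_lit 76) (nat_lit 44029247970) (nat_lit 76) (nat_lit 28161671638) (nat_lit 3) (nat_lit 4) (nat_lit 4) (nat_lit 5) (nat_lit 4) (nat_lit 4) (nat_lit 333) (nat_lit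 229) (nat_lit 158)) (XT.lf (nat_lit 0) (nat_lit 81109289729) (nat_lit 76) (nat_lit 43533085868) (nat_lit 76) (nat_lit 27641094224) (nat_lit 3) (nat_lit 4) (nat_lit 4) (nat_lit 5) (nat_lit 4) (nat_lit 4) (nat_lit 334) (nat_lit 229) (nat_lit 157))) (XT.nd (nat_lit 78) (nat_lit 0) (nat_lit 0) (XT.lf (nat_lit 0) (nat_lit 89641829723) (nat_lit 76) (nat_lit 43017267716) (nat_lit 76) (nat_lit 27102023394) (nat_lit 3) (nat_lit 4) (nat_lit 4) (nat_lit 5) (nat_lit 4) (nat_lit 4) (nat_lit 335) (nat_lit 229) (nat_lit 156)) (XT.lf (nat_lit 0) (nat_lit 98589270936) (nat_lit 76) (nat_lit 42480565375) (nat_lit 76) (nat_lit 26543175646) (nat_lit 3) (nat_lit 4) (nat_lit 4) (nat_lit 5) (nat_lit 4) (nat_lit 4) (nat_lit 336) (nat_lit 229) (nat_lit 155)))) (XT.nd (nat_lit 156) (nat_lit 0) (nat_lit 0) (XT.nd (nat_lit 78) (nat_lit 0) (nat_lit 0) (XT.lf (nat_lit 0) (nat_lit 107972916801) (nat_lit 76) (nat_lit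 41921700982) (nat_lit 76) (nat_lit 25963220389) (nat_lit 3) (nat_lit 4) (nat_lit 4) (nat_lit 5) (nat_lit 4) (nat_lit 4) (nat_lit 337) (nat_lit 229) (nat_lit 154)) (XT.lf (nat_lit 0) (nat_lit 117815109331) (nat_lit 76) (nat_lit 41339343908) (nat_lit 76) (nat_lit 25360776779) (nat_lit 3) (nat_lit 4) (nat_lit 4) (nat_lit 5) (nat_lit 4) (nat_lit 4) (nat_lit 338) (nat_lit 229) (nat_lit 153))) (XT.nd (nat_lit 78) (nat_lit 0) (nat_lit 0) (XT.lf (nat_lit 0) (nat_lit 128139282318) (nat_lit 76) (nat_lit 40732107589) (nat_lit 76) (nat_lit 24734410424) (nat_lit 3) (nat_lit 4) (nat_lit 4) (nat_lit 5) (nat_lit 4) (nat_lit 4) (nat_lit 339) (nat_lit 229) (nat_lit 152)) (XT.lf (nat_lit 0) (nat_lit 138970017127) (nat_lit 76) (nat_lit 40098546224) (nat_lit 76) (nat_lit 24082629978) (nat_lit 3) (nat_lit 4) (nat_lit 4) (nat_lit 5) (nat_lit 4) (nat_lit 4) (nat_lit 340) (nat_lit 229) (nat_lit 151))))))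 (XT.nd (nat_lit 624) (nat_lit 0) (nat_lit 0) (XT.nd (nat_lit 312) (nat_lit 0) (nat_lit 0) (XT.nd (nat_lit 156) (nat_lit 0) (nat_lit 0) (XT.nd (nat_lit 78) (nat_lit 0) (nat_lit 0) (XT.lf (nat_lit 0) (nat_lit 150333101221) (nat_lit 76) (nat_lit 39437151333) (nat_lit 76) (nat_lit 23403883580) (nat_lit 3) (nat_lit 4) (nat_lit 4) (nat_lit 5) (nat_lit 4) (nat_lit 4) (nat_lit 341) (nat_lit 229) (nat_lit 150)) (XT.lf (nat_lit 0) (nat_lit 162255589562) (nat_lit 76) (nat_lit 38746348166) (nat_lit 76) (nat_lit 22696555170) (nat_lit 3) (nat_lit 4) (nat_lit 4) (nat_lit 5) (nat_lit 4) (nat_lit 4) (nat_lit 342) (nat_lit 229) (nat_lit 149))) (XT.nd (nat_lit 78) (nat_lit 0) (nat_lit 0) (XT.lf (nat_lit 0) (nat_lit 174765869027) (nat_lit 76) (nat_lit 38024491955) (nat_lit 76) (nat_lit 21958960631) (nat_lit 3) (nat_lit 4) (nat_lit 4) (nat_lit 5) (nat_lit 4) (nat_lit 4) (nat_lit 343) (nat_lit 229) (nat_lit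 148)) (XT.lf (nat_lit 0) (nat_lit 187893725996) (nat_lit 76) (nat_lit 37269863993) (nat_lit 76) (nat_lit 21189343787) (nat_lit 3) (nat_lit 4) (nat_lit 4) (nat_lit 5) (nat_lit 4) (nat_lit 4) (nat_lit 344) (nat_lit 229) (nat_lit 147)))) (XT.nd (nat_lit 156) (nat_lit 0) (nat_lit 0) (XT.nd (nat_lit 78) (nat_lit 0) (nat_lit 0) (XT.lf (nat_lit 0) (nat_lit 201670417272) (nat_lit 76) (nat_lit 36480667548) (nat_lit 76) (nat_lit 20385872215) (nat_lit 3) (nat_lit 4) (nat_lit 4) (nat_lit 5) (nat_lit 4) (nat_lit 4) (nat_lit 345) (nat_lit 229) (nat_lit 146)) (XT.lf (nat_lit 0) (nat_lit 216128744499) (nat_lit 76) (nat_lit 35655023581) (nat_lit 76) (nat_lit 19546632889) (nat_lit 3) (nat_lit 4) (nat_lit 4) (nat_lit 5) (nat_lit 4) (nat_lit 4) (nat_lit 346) (nat_lit 229) (nat_lit 145))) (XT.nd (nat_lit 78) (nat_lit 0) (nat_lit 0) (XT.lf (nat_lit 0) (nat_lit 231303132268) (nat_lit 76) (nat_lit 34790966272)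 (nat_lit 76) (nat_lit 18669627619) (nat_lit 3) (nat_lit 4) (nat_lit 4) (nat_lit 5) (nat_lit 4) (nat_lit 4) (nat_lit 347) (nat_lit 229) (nat_lit 144)) (XT.lf (nat_lit 0) (nat_lit 247229710072) (nat_lit 76) (nat_lit 33886438342) (nat_lit 76) (nat_lit 17752768298) (nat_lit 3) (nat_lit 4) (nat_lit 4) (nat_lit 5) (nat_lit 4) (nat_lit 4) (nat_lit 348) (nat_lit 229) (nat_lit 143))))) (XT.nd (nat_lit 312) (nat_lit 0) (nat_lit 0) (XT.nd (nat_lit 156) (nat_lit 0) (nat_lit 0) (XT.nd (nat_lit 78) (nat_lit 0) (nat_lit 0) (XT.lf (nat_lit 0) (nat_lit 263946398334) (nat_lit 76) (nat_lit 32939286154) (nat_lit 76) (nat_lit 16793871927) (nat_lit 3) (nat_lit 4) (nat_lit 4) (nat_lit 5) (nat_lit 4) (nat_lit 4) (nat_lit 349) (nat_lit 229) (nat_lit 142)) (XT.lf (nat_lit 0) (nat_lit 281492998695) (nat_lit 76) (nat_lit 31947254582) (nat_lit 76) (nat_lit 15790655420) (nat_lit 3) (nat_lit 4) (nat_lit 4) (nat_lit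 5) (nat_lit 4) (nat_lit 4) (nat_lit 350) (nat_lit 229) (nat_lit 141))) (XT.nd (nat_lit 78) (nat_lit 0) (nat_lit 0) (XT.lf (nat_lit 0) (nat_lit 299911288772) (nat_lit 76) (nat_lit 30907981648) (nat_lit 76) (nat_lit 14740730166) (nat_lit 3) (nat_lit 4) (nat_lit 4) (nat_lit 5) (nat_lit 4) (nat_lit 4) (nat_lit 351) (nat_lit 229) (nat_lit 140)) (XT.lf (nat_lit 0) (nat_lit 319245121639) (nat_lit 76) (nat_lit 29818992891) (nat_lit 76) (nat_lit 13641596344) (nat_lit 3) (nat_lit 4) (nat_lit 4) (nat_lit 5) (nat_lit 4) (nat_lit 4) (nat_lit 352) (nat_lit 229) (nat_lit 139)))) (XT.nd (nat_lit 156) (nat_lit 0) (nat_lit 0) (XT.nd (nat_lit 78) (nat_lit 0) (nat_lit 0) (XT.lf (nat_lit 0) (nat_lit 339540530230) (nat_lit 76) (nat_lit 28677695482) (nat_lit 76) (nat_lit 12490636967) (nat_lit 3) (nat_lit 4) (nat_lit 4) (nat_lit 5) (nat_lit 4) (nat_lit 4) (nat_lit 353) (nat_lit 229) (nat_lit 138)) (XT.lf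 (nat_lit 0) (nat_lit 360845836948) (nat_lit 76) (nat_lit 27481372045) (nat_lit 76) (nat_lit 11285111656) (nat_lit 3) (nat_lit 4) (nat_lit 4) (nat_lit 5) (nat_lit 4) (nat_lit 4) (nat_lit 354) (nat_lit 229) (nat_lit 137))) (XT.nd (nat_lit 78) (nat_lit 0) (nat_lit 0) (XT.lf (nat_lit 0) (nat_lit 383211768711) (nat_lit 76) (nat_lit 26227174192) (nat_lit 76) (nat_lit 10022150113) (nat_lit 3) (nat_lit 4) (nat_lit 4) (nat_lit 5) (nat_lit 4) (nat_lit 4) (nat_lit 355) (nat_lit 229) (nat_lit 136)) (XT.nd (nat_lit 78) (nat_lit 0) (nat_lit 0) (XT.lf (nat_lit 0) (nat_lit 406691577740) (nat_lit 76) (nat_lit 24912115737) (nat_lit 76) (nat_lit 8698745287) (nat_lit 3) (nat_lit 4) (nat_lit 4) (nat_lit 5) (nat_lit 4) (nat_lit 4) (nat_lit 356) (nat_lit 229) (nat_lit 135)) (XT.lf (nat_lit 0) (nat_lit 431341168341) (nat_lit 76) (nat_lit 23533065588) (nat_lit 76) (nat_lit 7311746213) (nat_lit 3) (nat_lit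 4) (nat_lit 4) (nat_lit 5) (nat_lit 4) (nat_lit 4) (nat_lit 357) (nat_lit 229) (nat_lit 134))))))))
noncomputable def xc63 : XT := (XT.nd (nat_lit 1248) (nat_lit 760) (nat_lit 0) (XT.nd (nat_lit 624) (nat_lit 912) (nat_lit 0) (XT.nd (nat_lit 312) (nat_lit 532) (nat_lit 0) (XT.nd (nat_lit 156) (nat_lit 608) (nat_lit 0) (XT.nd (nat_lit 78) (nat_lit 0) (nat_lit 0) (XT.lf (nat_lit 0) (nat_lit 725667155) (nat_lit 380) (nat_lit 2481045843) (nat_lit 0) (nat_lit 725667155) (nat_lit 46) (nat_lit 5) (nat_lit 51) (nat_lit 4) (nat_lit 46) (nat_lit 4) (nat_lit 260) (nat_lit 230) (nat_lit 230)) (XT.lf (nat_lit 0) (nat_lit 4371841771) (nat_lit 380) (nat_lit 491000052) (nat_lit 0) (nat_lit 3161783758) (nat_lit 46) (nat_lit 5) (nat_lit 51) (nat_lit 4) (nat_lit 46) (nat_lit 4) (nat_lit 261) (nat_lit 230) (nat_lit 229))) (XT.nd (nat_lit 78) (nat_lit 304) (nat_lit 0) (XT.lf (nat_lit 0) (nat_lit 4189116491)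 (nat_lit 304) (nat_lit 3184970281) (nat_lit 304) (nat_lit 822476065) (nat_lit 42) (nat_lit 4) (nat_lit 46) (nat_lit 5) (nat_lit 46) (nat_lit 4) (nat_lit 262) (nat_lit 230) (nat_lit 228)) (XT.lf (nat_lit 0) (nat_lit 577133675) (nat_lit 228) (nat_lit 1392225436) (nat_lit 304) (nat_lit 6412403722) (nat_lit 38) (nat_lit 5) (nat_lit 41) (nat_lit 5) (nat_lit 42) (nat_lit 4) (nat_lit 263) (nat_lit 230) (nat_lit 227)))) (XT.nd (nat_lit 156) (nat_lit 304) (nat_lit 0) (XT.nd (nat_lit 78) (nat_lit 228) (nat_lit 0) (XT.lf (nat_lit 0) (nat_lit 4824550304) (nat_lit 304) (nat_lit 3220430276) (nat_lit 0) (nat_lit 533744483) (nat_lit 38) (nat_lit 5) (nat_lit 42) (nat_lit 4) (nat_lit 38) (nat_lit 4) (nat_lit 264) (nat_lit 230) (nat_lit 226)) (XT.lf (nat_lit 0) (nat_lit 1469153939) (nat_lit 228) (nat_lit 6279842850) (nat_lit 228) (nat_lit 1040924913) (nat_lit 35) (nat_lit 4) (nat_lit 38) (nat_lit 5)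 (nat_lit 38) (nat_lit 4) (nat_lit 265) (nat_lit 230) (nat_lit 225))) (XT.nd (nat_lit 78) (nat_lit 228) (nat_lit 0) (XT.lf (nat_lit 0) (nat_lit 1687139552) (nat_lit 304) (nat_lit 2683245773) (nat_lit 76) (nat_lit 4643675484) (nat_lit 34) (nat_lit 5) (nat_lit 38) (nat_lit 5) (nat_lit 35) (nat_lit 4) (nat_lit 266) (nat_lit 230) (nat_lit 224)) (XT.lf (nat_lit 0) (nat_lit 2093034169) (nat_lit 228) (nat_lit 2343493472) (nat_lit 304) (nat_lit 4816645161) (nat_lit 31) (nat_lit 5) (nat_lit 34) (nat_lit 5) (nat_lit 35) (nat_lit 4) (nat_lit 267) (nat_lit 230) (nat_lit 223))))) (XT.nd (nat_lit 312) (nat_lit 456) (nat_lit 0) (XT.nd (nat_lit 156) (nat_lit 152) (nat_lit 0) (XT.nd (nat_lit 78) (nat_lit 304) (nat_lit 0) (XT.lf (nat_lit 0) (nat_lit 7060547535) (nat_lit 228) (nat_lit 198676818) (nat_lit 304) (nat_lit 2248809089) (nat_lit 31) (nat_lit 5) (nat_lit 34) (nat_lit 5) (nat_lit 35) (nat_lit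 4) (nat_lit 268) (nat_lit 230) (nat_lit 222)) (XT.lf (nat_lit 0) (nat_lit 396765206) (nat_lit 304) (nat_lit 7377942349) (nat_lit 76) (nat_lit 2002927578) (nat_lit 27) (nat_lit 5) (nat_lit 31) (nat_lit 5) (nat_lit 28) (nat_lit 4) (nat_lit 269) (nat_lit 230) (nat_lit 221))) (XT.nd (nat_lit 78) (nat_lit 152) (nat_lit 0) (XT.lf (nat_lit 0) (nat_lit 3040249221) (nat_lit 304) (nat_lit 2666295977) (nat_lit 76) (nat_lit 4355773491) (nat_lit 27) (nat_lit 5) (nat_lit 31) (nat_lit 5) (nat_lit 28) (nat_lit 4) (nat_lit 270) (nat_lit 230) (nat_lit 220)) (XT.lf (nat_lit 0) (nat_lit 2217574749) (nat_lit 152) (nat_lit 3533736084) (nat_lit 228) (nat_lit 4613636710) (nat_lit 25) (nat_lit 5) (nat_lit 27) (nat_lit 5) (nat_lit 28) (nat_lit 4) (nat_lit 271) (nat_lit 230) (nat_lit 219)))) (XT.nd (nat_lit 156) (nat_lit 152) (nat_lit 0) (XT.nd (nat_lit 78) (nat_lit 304) (nat_lit 0) (XT.lf (nat_lit 0) (nat_lit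 7306039266) (nat_lit 152) (nat_lit 1240483332) (nat_lit 228) (nat_lit 2139213760) (nat_lit 25) (nat_lit 5) (nat_lit 27) (nat_lit 5) (nat_lit 28) (nat_lit 4) (nat_lit 272) (nat_lit 230) (nat_lit 218)) (XT.lf (nat_lit 0) (nat_lit 392564677) (nat_lit 304) (nat_lit 9505236301) (nat_lit 76) (nat_lit 1127404983) (nat_lit 21) (nat_lit 5) (nat_lit 25) (nat_lit 5) (nat_lit 22) (nat_lit 4) (nat_lit 273) (nat_lit 230) (nat_lit 217))) (XT.nd (nat_lit 78) (nat_lit 152) (nat_lit 0) (XT.lf (nat_lit 0) (nat_lit 2965584108) (nat_lit 304) (nat_lit 4784887986) (nat_lit 76) (nat_lit 3630492271) (nat_lit 21) (nat_lit 5) (nat_lit 25) (nat_lit 5) (nat_lit 22) (nat_lit 4) (nat_lit 274) (nat_lit 230) (nat_lit 216)) (XT.lf (nat_lit 0) (nat_lit 47559166) (nat_lit 152) (nat_lit 5532850042) (nat_lit 228) (nat_lit 6178820849) (nat_lit 19) (nat_lit 5) (nat_lit 21) (nat_lit 5) (nat_lit 22) (nat_lit 4) (nat_lit 275)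 (nat_lit 230) (nat_lit 215)))))) (XT.nd (nat_lit 624) (nat_lit 456) (nat_lit 0) (XT.nd (nat_lit 312) (nat_lit 76) (nat_lit 0) (XT.nd (nat_lit 156) (nat_lit 228) (nat_lit 0) (XT.nd (nat_lit 78) (nat_lit 0) (nat_lit 0) (XT.lf (nat_lit 0) (nat_lit 5164331652) (nat_lit 152) (nat_lit 3157334426) (nat_lit 228) (nat_lit 3835317575) (nat_lit 19) (nat_lit 5) (nat_lit 21) (nat_lit 5) (nat_lit 22) (nat_lit 4) (nat_lit 276) (nat_lit 230) (nat_lit 214)) (XT.lf (nat_lit 0) (nat_lit 10419402258) (nat_lit 152) (nat_lit 699303650) (nat_lit 228) (nat_lit 1460325059) (nat_lit 19) (nat_lit 5) (nat_lit 21) (nat_lit 5) (nat_lit 22) (nat_lit 4) (nat_lit 277) (nat_lit 230) (nat_lit 213))) (XT.nd (nat_lit 78) (nat_lit 0) (nat_lit 0) (XT.lf (nat_lit 0) (nat_lit 996069564) (nat_lit 228) (nat_lit 10177107861) (nat_lit 76) (nat_lit 1848720324) (nat_lit 16) (nat_lit 5) (nat_lit 19) (nat_lit 5) (nat_lit 17) (nat_lit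 4) (nat_lit 278) (nat_lit 230) (nat_lit 212)) (XT.lf (nat_lit 0) (nat_lit 3497286450) (nat_lit 228) (nat_lit 5463271421) (nat_lit 76) (nat_lit 4526894531) (nat_lit 16) (nat_lit 5) (nat_lit 19) (nat_lit 5) (nat_lit 17) (nat_lit 4) (nat_lit 279) (nat_lit 230) (nat_lit 211)))) (XT.nd (nat_lit 156) (nat_lit 0) (nat_lit 0) (XT.nd (nat_lit 78) (nat_lit 76) (nat_lit 0) (XT.lf (nat_lit 0) (nat_lit 6049698559) (nat_lit 228) (nat_lit 624786766) (nat_lit 76) (nat_lit 7305774143) (nat_lit 16) (nat_lit 5) (nat_lit 19) (nat_lit 5) (nat_lit 17) (nat_lit 4) (nat_lit 280) (nat_lit 230) (nat_lit 210)) (XT.lf (nat_lit 0) (nat_lit 4493692527) (nat_lit 76) (nat_lit 4235849667) (nat_lit 152) (nat_lit 5768442148) (nat_lit 15) (nat_lit 5) (nat_lit 16) (nat_lit 5) (nat_lit 17) (nat_lit 4) (nat_lit 281) (nat_lit 230) (nat_lit 209))) (XT.nd (nat_lit 78) (nat_lit 0) (nat_lit 0) (XT.lf (nat_lit 0) (nat_lit 9785736894)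 (nat_lit 76) (nat_lit 1699599374) (nat_lit 152) (nat_lit 3559416517) (nat_lit 15) (nat_lit 5) (nat_lit 16) (nat_lit 5) (nat_lit 17) (nat_lit 4) (nat_lit 282) (nat_lit 230) (nat_lit 208)) (XT.lf (nat_lit 0) (nat_lit 14328080574) (nat_lit 152) (nat_lit 393597905) (nat_lit 0) (nat_lit 899966229) (nat_lit 15) (nat_lit 5) (nat_lit 17) (nat_lit 4) (nat_lit 15) (nat_lit 4) (nat_lit 283) (nat_lit 230) (nat_lit 207))))) (XT.nd (nat_lit 312) (nat_lit 152) (nat_lit 0) (XT.nd (nat_lit 156) (nat_lit 76) (nat_lit 0) (XT.nd (nat_lit 78) (nat_lit 0) (nat_lit 0) (XT.lf (nat_lit 0) (nat_lit 1090403307) (nat_lit 228) (nat_lit 11501465664) (nat_lit 76) (nat_lit 3632906901) (nat_lit 12) (nat_lit 5) (nat_lit 15) (nat_lit 5) (nat_lit 13) (nat_lit 4) (nat_lit 284) (nat_lit 230) (nat_lit 206)) (XT.lf (nat_lit 0) (nat_lit 3494404262) (nat_lit 228) (nat_lit 6867242849) (nat_lit 76) (nat_lit 6498350802) (nat_lit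 12) (nat_lit 5) (nat_lit 15) (nat_lit 5) (nat_lit 13) (nat_lit 4) (nat_lit 285) (nat_lit 230) (nat_lit 205))) (XT.nd (nat_lit 78) (nat_lit 76) (nat_lit 0) (XT.lf (nat_lit 0) (nat_lit 5959112248) (nat_lit 228) (nat_lit 2094571613) (nat_lit 76) (nat_lit 9476471831) (nat_lit 12) (nat_lit 5) (nat_lit 15) (nat_lit 5) (nat_lit 13) (nat_lit 4) (nat_lit 286) (nat_lit 230) (nat_lit 204)) (XT.lf (nat_lit 0) (nat_lit 2921415073) (nat_lit 76) (nat_lit 5614592021) (nat_lit 152) (nat_lit 9698557155) (nat_lit 11) (nat_lit 5) (nat_lit 12) (nat_lit 5) (nat_lit 13) (nat_lit 4) (nat_lit 287) (nat_lit 230) (nat_lit 203)))) (XT.nd (nat_lit 156) (nat_lit 152) (nat_lit 0) (XT.nd (nat_lit 78) (nat_lit 0) (nat_lit 0) (XT.lf (nat_lit 0) (nat_lit 8173530861) (nat_lit 76) (nat_lit 3048362099) (nat_lit 152) (nat_lit 7753474355) (nat_lit 11) (nat_lit 5) (nat_lit 12) (nat_lit 5) (nat_lit 13) (nat_lit 4) (nat_lit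 288) (nat_lit 230) (nat_lit 202)) (XT.lf (nat_lit 0) (nat_lit 13605024789) (nat_lit 76) (nat_lit 384356608) (nat_lit 152) (nat_lit 5766636478) (nat_lit 11) (nat_lit 5) (nat_lit 12) (nat_lit 5) (nat_lit 13) (nat_lit 4) (nat_lit 289) (nat_lit 230) (nat_lit 201))) (XT.nd (nat_lit 78) (nat_lit 152) (nat_lit 0) (XT.lf (nat_lit 0) (nat_lit 16882278953) (nat_lit 152) (nat_lit 1386762924) (nat_lit 0) (nat_lit 2307471880) (nat_lit 11) (nat_lit 5) (nat_lit 13) (nat_lit 4) (nat_lit 11) (nat_lit 4) (nat_lit 290) (nat_lit 230) (nat_lit 200)) (XT.lf (nat_lit 0) (nat_lit 3648550371) (nat_lit 152) (nat_lit 16286310666) (nat_lit 152) (nat_lit 1502578105) (nat_lit 9) (nat_lit 4) (nat_lit 11) (nat_lit 5) (nat_lit 11) (nat_lit 4) (nat_lit 291) (nat_lit 230) (nat_lit 199)))))))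
noncomputable def xc64 : XT := (XT.nd (nat_lit 1248) (nat_lit 152) (nat_lit 0) (XT.nd (nat_lit 624) (nat_lit 152) (nat_lit 0) (XT.nd (nat_lit 312) (nat_lit 0) (nat_lit 0) (XT.nd (nat_lit 156) (nat_lit 76) (nat_lit 0) (XT.nd (nat_lit 78) (nat_lit 0) (nat_lit 0) (XT.lf (nat_lit 0) (nat_lit 748931854) (nat_lit 228) (nat_lit 13447398913) (nat_lit 76) (nat_lit 8145807062) (nat_lit 8) (nat_lit 5) (nat_lit 11) (nat_lit 5) (nat_lit 9) (nat_lit 4) (nat_lit 292) (nat_lit 230) (nat_lit 198)) (XT.lf (nat_lit 0) (nat_lit 3016770428) (nat_lit 228) (nat_lit 8987831415) (nat_lit 76) (nat_lit 11288660865) (nat_lit 8) (nat_lit 5) (nat_lit 11) (nat_lit 5) (nat_lit 9) (nat_lit 4) (nat_lit 293) (nat_lit 230) (nat_lit 197))) (XT.nd (nat_lit 78) (nat_lit 76) (nat_lit 0) (XT.lf (nat_lit 0) (nat_lit 5354429112) (nat_lit 228) (nat_lit 4376108804) (nat_lit 76) (nat_lit 14563713417) (nat_lit 8) (nat_lit 5) (nat_lit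 11) (nat_lit 5) (nat_lit 9) (nat_lit 4) (nat_lit 294) (nat_lit 230) (nat_lit 196)) (XT.lf (nat_lit 0) (nat_lit 411933661) (nat_lit 76) (nat_lit 7361971539) (nat_lit 152) (nat_lit 17573260240) (nat_lit 7) (nat_lit 5) (nat_lit 8) (nat_lit 5) (nat_lit 9) (nat_lit 4) (nat_lit 295) (nat_lit 230) (nat_lit 195)))) (XT.nd (nat_lit 156) (nat_lit 0) (nat_lit 0) (XT.nd (nat_lit 78) (nat_lit 0) (nat_lit 0) (XT.lf (nat_lit 0) (nat_lit 5524944055) (nat_lit 76) (nat_lit 4822965526) (nat_lit 152) (nat_lit 16103254875) (nat_lit 7) (nat_lit 5) (nat_lit 8) (nat_lit 5) (nat_lit 9) (nat_lit 4) (nat_lit 296) (nat_lit 230) (nat_lit 194)) (XT.lf (nat_lit 0) (nat_lit 10830402291) (nat_lit 76) (nat_lit 2181586144) (nat_lit 152) (nat_lit 14600417634) (nat_lit 7) (nat_lit 5) (nat_lit 8) (nat_lit 5) (nat_lit 9) (nat_lit 4) (nat_lit 297) (nat_lit 230) (nat_lit 193))) (XT.nd (nat_lit 78) (nat_lit 0) (nat_lit 0)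 (XT.lf (nat_lit 0) (nat_lit 15781359995) (nat_lit 152) (nat_lit 12501589913) (nat_lit 0) (nat_lit 550261474) (nat_lit 7) (nat_lit 5) (nat_lit 9) (nat_lit 4) (nat_lit 7) (nat_lit 4) (nat_lit 298) (nat_lit 230) (nat_lit 192)) (XT.lf (nat_lit 0) (nat_lit 18689581109) (nat_lit 152) (nat_lit 8101750453) (nat_lit 0) (nat_lit 3323807356) (nat_lit 7) (nat_lit 5) (nat_lit 9) (nat_lit 4) (nat_lit 7) (nat_lit 4) (nat_lit 299) (nat_lit 230) (nat_lit 191))))) (XT.nd (nat_lit 312) (nat_lit 76) (nat_lit 0) (XT.nd (nat_lit 156) (nat_lit 0) (nat_lit 0) (XT.nd (nat_lit 78) (nat_lit 76) (nat_lit 0) (XT.lf (nat_lit 0) (nat_lit 21709515441) (nat_lit 152) (nat_lit 3537948917) (nat_lit 0) (nat_lit 6215479561) (nat_lit 7) (nat_lit 5) (nat_lit 9) (nat_lit 4) (nat_lit 7) (nat_lit 4) (nat_lit 300) (nat_lit 230) (nat_lit 190)) (XT.lf (nat_lit 0) (nat_lit 1240380822) (nat_lit 76) (nat_lit 23627338309) (nat_lit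 76) (nat_lit 8011148023) (nat_lit 6) (nat_lit 4) (nat_lit 7) (nat_lit 5) (nat_lit 7) (nat_lit 4) (nat_lit 301) (nat_lit 230) (nat_lit 189))) (XT.nd (nat_lit 78) (nat_lit 0) (nat_lit 0) (XT.lf (nat_lit 0) (nat_lit 6327955513) (nat_lit 76) (nat_lit 21884409746) (nat_lit 76) (nat_lit 6151881931) (nat_lit 6) (nat_lit 4) (nat_lit 7) (nat_lit 5) (nat_lit 7) (nat_lit 4) (nat_lit 302) (nat_lit 230) (nat_lit 188)) (XT.lf (nat_lit 0) (nat_lit 11619907862) (nat_lit 76) (nat_lit 20074445717) (nat_lit 76) (nat_lit 4231120255) (nat_lit 6) (nat_lit 4) (nat_lit 7) (nat_lit 5) (nat_lit 7) (nat_lit 4) (nat_lit 303) (nat_lit 230) (nat_lit 187)))) (XT.nd (nat_lit 156) (nat_lit 76) (nat_lit 0) (XT.nd (nat_lit 78) (nat_lit 0) (nat_lit 0) (XT.lf (nat_lit 0) (nat_lit 17128837753) (nat_lit 76) (nat_lit 18193136784) (nat_lit 76) (nat_lit 2244289753) (nat_lit 6) (nat_lit 4) (nat_lit 7) (nat_lit 5) (nat_lit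 7) (nat_lit 4) (nat_lit 304) (nat_lit 230) (nat_lit 186)) (XT.lf (nat_lit 0) (nat_lit 22867861686) (nat_lit 76) (nat_lit 16236003639) (nat_lit 76) (nat_lit 186659876) (nat_lit 6) (nat_lit 4) (nat_lit 7) (nat_lit 5) (nat_lit 7) (nat_lit 4) (nat_lit 305) (nat_lit 230) (nat_lit 185))) (XT.nd (nat_lit 78) (nat_lit 0) (nat_lit 0) (XT.lf (nat_lit 0) (nat_lit 1884362945) (nat_lit 152) (nat_lit 12282110897) (nat_lit 76) (nat_lit 26934368462) (nat_lit 5) (nat_lit 5) (nat_lit 7) (nat_lit 5) (nat_lit 6) (nat_lit 4) (nat_lit 306) (nat_lit 230) (nat_lit 184)) (XT.lf (nat_lit 0) (nat_lit 4027603936) (nat_lit 152) (nat_lit 7979620363) (nat_lit 76) (nat_lit 30995616071) (nat_lit 5) (nat_lit 5) (nat_lit 7) (nat_lit 5) (nat_lit 6) (nat_lit 4) (nat_lit 307) (nat_lit 230) (nat_lit 183)))))) (XT.nd (nat_lit 624) (nat_lit 76) (nat_lit 0) (XT.nd (nat_lit 312) (nat_lit 0) (nat_lit 0) (XT.nd (nat_lit 156)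 (nat_lit 0) (nat_lit 0) (XT.nd (nat_lit 78) (nat_lit 76) (nat_lit 0) (XT.lf (nat_lit 0) (nat_lit 6254140334) (nat_lit 152) (nat_lit 3502033603) (nat_lit 76) (nat_lit 35245019745) (nat_lit 5) (nat_lit 5) (nat_lit 7) (nat_lit 5) (nat_lit 6) (nat_lit 4) (nat_lit 308) (nat_lit 230) (nat_lit 182)) (XT.lf (nat_lit 0) (nat_lit 1199708465) (nat_lit 76) (nat_lit 7388295761) (nat_lit 152) (nat_lit 38511719456) (nat_lit 4) (nat_lit 5) (nat_lit 5) (nat_lit 5) (nat_lit 6) (nat_lit 4) (nat_lit 309) (nat_lit 230) (nat_lit 181))) (XT.nd (nat_lit 78) (nat_lit 0) (nat_lit 0) (XT.lf (nat_lit 0) (nat_lit 6220613019) (nat_lit 76) (nat_lit 4855023584) (nat_lit 152) (nat_lit 38225746058) (nat_lit 4) (nat_lit 5) (nat_lit 5) (nat_lit 5) (nat_lit 6) (nat_lit 4) (nat_lit 310) (nat_lit 230) (nat_lit 180)) (XT.lf (nat_lit 0) (nat_lit 11456841546) (nat_lit 76) (nat_lit 2209634441) (nat_lit 152) (nat_lit 37947760900)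 (nat_lit 4) (nat_lit 5) (nat_lit 5) (nat_lit 5) (nat_lit 6) (nat_lit 4) (nat_lit 311) (nat_lit 230) (nat_lit 179)))) (XT.nd (nat_lit 156) (nat_lit 0) (nat_lit 0) (XT.nd (nat_lit 78) (nat_lit 0) (nat_lit 0) (XT.lf (nat_lit 0) (nat_lit 16375343191) (nat_lit 152) (nat_lit 37131584047) (nat_lit 0) (nat_lit 536433306) (nat_lit 4) (nat_lit 5) (nat_lit 6) (nat_lit 4) (nat_lit 4) (nat_lit 4) (nat_lit 312) (nat_lit 230) (nat_lit 178)) (XT.lf (nat_lit 0) (nat_lit 19236465274) (nat_lit 152) (nat_lit 34023908822) (nat_lit 0) (nat_lit 3332774300) (nat_lit 4) (nat_lit 5) (nat_lit 6) (nat_lit 4) (nat_lit 4) (nat_lit 4) (nat_lit 313) (nat_lit 230) (nat_lit 177))) (XT.nd (nat_lit 78) (nat_lit 0) (nat_lit 0) (XT.lf (nat_lit 0) (nat_lit 22222155846) (nat_lit 152) (nat_lit 30792471852) (nat_lit 0) (nat_lit 6256768596) (nat_lit 4) (nat_lit 5) (nat_lit 6) (nat_lit 4) (nat_lit 4) (nat_lit 4) (nat_lit 314)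 (nat_lit 230) (nat_lit 176)) (XT.lf (nat_lit 0) (nat_lit 25339523692) (nat_lit 152) (nat_lit 27429579241) (nat_lit 0) (nat_lit 9315378084) (nat_lit 4) (nat_lit 5) (nat_lit 6) (nat_lit 4) (nat_lit 4) (nat_lit 4) (nat_lit 315) (nat_lit 230) (nat_lit 175))))) (XT.nd (nat_lit 312) (nat_lit 76) (nat_lit 0) (XT.nd (nat_lit 156) (nat_lit 0) (nat_lit 0) (XT.nd (nat_lit 78) (nat_lit 0) (nat_lit 0) (XT.lf (nat_lit 0) (nat_lit 28595991117) (nat_lit 152) (nat_lit 23927224101) (nat_lit 0) (nat_lit 12515885169) (nat_lit 4) (nat_lit 5) (nat_lit 6) (nat_lit 4) (nat_lit 4) (nat_lit 4) (nat_lit 316) (nat_lit 230) (nat_lit 174)) (XT.lf (nat_lit 0) (nat_lit 31999311616) (nat_lit 152) (nat_lit 20277067491) (nat_lit 0) (nat_lit 15865910105) (nat_lit 4) (nat_lit 5) (nat_lit 6) (nat_lit 4) (nat_lit 4) (nat_lit 4) (nat_lit 317) (nat_lit 230) (nat_lit 173))) (XT.nd (nat_lit 78) (nat_lit 0) (nat_lit 0) (XT.lf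 (nat_lit 0) (nat_lit 35557588333) (nat_lit 152) (nat_lit 16470418563) (nat_lit 0) (nat_lit 19373429143) (nat_lit 4) (nat_lit 5) (nat_lit 6) (nat_lit 4) (nat_lit 4) (nat_lit 4) (nat_lit 318) (nat_lit 230) (nat_lit 172)) (XT.lf (nat_lit 0) (nat_lit 39279293354) (nat_lit 152) (nat_lit 12498213865) (nat_lit 0) (nat_lit 23046793517) (nat_lit 4) (nat_lit 5) (nat_lit 6) (nat_lit 4) (nat_lit 4) (nat_lit 4) (nat_lit 319) (nat_lit 230) (nat_lit 171)))) (XT.nd (nat_lit 156) (nat_lit 76) (nat_lit 0) (XT.nd (nat_lit 78) (nat_lit 0) (nat_lit 0) (XT.lf (nat_lit 0) (nat_lit 43173287882) (nat_lit 152) (nat_lit 8350995769) (nat_lit 0) (nat_lit 26894749335) (nat_lit 4) (nat_lit 5) (nat_lit 6) (nat_lit 4) (nat_lit 4) (nat_lit 4) (nat_lit 320) (nat_lit 230) (nat_lit 170)) (XT.lf (nat_lit 0) (nat_lit 47248843333) (nat_lit 152) (nat_lit 4018889946) (nat_lit 0) (nat_lit 30926458394) (nat_lit 4) (nat_lit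 5) (nat_lit 6) (nat_lit 4) (nat_lit 4) (nat_lit 4) (nat_lit 321) (nat_lit 230) (nat_lit 169))) (XT.nd (nat_lit 78) (nat_lit 0) (nat_lit 0) (XT.lf (nat_lit 0) (nat_lit 525228742) (nat_lit 76) (nat_lit 50998634960) (nat_lit 76) (nat_lit 34634491554) (nat_lit 3) (nat_lit 4) (nat_lit 4) (nat_lit 5) (nat_lit 4) (nat_lit 4) (nat_lit 322) (nat_lit 230) (nat_lit 168)) (XT.nd (nat_lit 78) (nat_lit 0) (nat_lit 0) (XT.lf (nat_lit 0) (nat_lit 5415022333) (nat_lit 76) (nat_lit 50653428550) (nat_lit 76) (nat_lit 34249515174) (nat_lit 3) (nat_lit 4) (nat_lit 4) (nat_lit 5) (nat_lit 4) (nat_lit 4) (nat_lit 323) (nat_lit 230) (nat_lit 167)) (XT.lf (nat_lit 0) (nat_lit 10529250541) (nat_lit 76) (nat_lit 50299353973) (nat_lit 76) (nat_lit 33857564435) (nat_lit 3) (nat_lit 4) (nat_lit 4) (nat_lit 5) (nat_lit 4) (nat_lit 4) (nat_lit 324) (nat_lit 230) (nat_lit 166))))))))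
noncomputable def xc65 : XT := (XT.nd (nat_lit 1248) (nat_lit 0) (nat_lit 0) (XT.nd (nat_lit 624) (nat_lit 0) (nat_lit 0) (XT.nd (nat_lit 312) (nat_lit 0) (nat_lit 0) (XT.nd (nat_lit 156) (nat_lit 0) (nat_lit 0) (XT.nd (nat_lit 78) (nat_lit 0) (nat_lit 0) (XT.lf (nat_lit 0) (nat_lit 15880090100) (nat_lit 76) (nat_lit 49935568194) (nat_lit 76) (nat_lit 33457706123) (nat_lit 3) (nat_lit 4) (nat_lit 4) (nat_lit 5) (nat_lit 4) (nat_lit 4) (nat_lit 325) (nat_lit 230) (nat_lit 165)) (XT.lf (nat_lit 0) (nat_lit 21480281104) (nat_lit 76) (nat_lit 49561205059) (nat_lit 76) (nat_lit 33048988192) (nat_lit 3) (nat_lit 4) (nat_lit 4) (nat_lit 5) (nat_lit 4) (nat_lit 4) (nat_lit 326) (nat_lit 230) (nat_lit 164))) (XT.nd (nat_lit 78) (nat_lit 0) (nat_lit 0) (XT.lf (nat_lit 0) (nat_lit 27343157341) (nat_lit 76) (nat_lit 49175373225) (nat_lit 76) (nat_lit 32630437506) (nat_lit 3) (nat_lit 4) (nat_lit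 4) (nat_lit 5) (nat_lit 4) (nat_lit 4) (nat_lit 327) (nat_lit 230) (nat_lit 163)) (XT.lf (nat_lit 0) (nat_lit 33482678040) (nat_lit 76) (nat_lit 48777154046) (nat_lit 76) (nat_lit 32201057515) (nat_lit 3) (nat_lit 4) (nat_lit 4) (nat_lit 5) (nat_lit 4) (nat_lit 4) (nat_lit 328) (nat_lit 230) (nat_lit 162)))) (XT.nd (nat_lit 156) (nat_lit 0) (nat_lit 0) (XT.nd (nat_lit 78) (nat_lit 0) (nat_lit 0) (XT.lf (nat_lit 0) (nat_lit 39913461108) (nat_lit 76) (nat_lit 48365599380) (nat_lit 76) (nat_lit 31759825886) (nat_lit 3) (nat_lit 4) (nat_lit 4) (nat_lit 5) (nat_lit 4) (nat_lit 4) (nat_lit 329) (nat_lit 230) (nat_lit 161)) (XT.lf (nat_lit 0) (nat_lit 46650817933) (nat_lit 76) (nat_lit 47939729335) (nat_lit 76) (nat_lit 31305692066) (nat_lit 3) (nat_lit 4) (nat_lit 4) (nat_lit 5) (nat_lit 4) (nat_lit 4) (nat_lit 330) (nat_lit 230) (nat_lit 160))) (XT.nd (nat_lit 78) (nat_lit 0) (nat_lit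 0) (XT.lf (nat_lit 0) (nat_lit 53710789840) (nat_lit 76) (nat_lit 47498529936) (nat_lit 76) (nat_lit 30837574787) (nat_lit 3) (nat_lit 4) (nat_lit 4) (nat_lit 5) (nat_lit 4) (nat_lit 4) (nat_lit 331) (nat_lit 230) (nat_lit 159)) (XT.lf (nat_lit 0) (nat_lit 61110186287) (nat_lit 76) (nat_lit 47040950707) (nat_lit 76) (nat_lit 30354359481) (nat_lit 3) (nat_lit 4) (nat_lit 4) (nat_lit 5) (nat_lit 4) (nat_lit 4) (nat_lit 332) (nat_lit 230) (nat_lit 158))))) (XT.nd (nat_lit 312) (nat_lit 0) (nat_lit 0) (XT.nd (nat_lit 156) (nat_lit 0) (nat_lit 0) (XT.nd (nat_lit 78) (nat_lit 0) (nat_lit 0) (XT.lf (nat_lit 0) (nat_lit 68866624883) (nat_lit 76) (nat_lit 46565902174) (nat_lit 76) (nat_lit 29854895637) (nat_lit 3) (nat_lit 4) (nat_lit 4) (nat_lit 5) (nat_lit 4) (nat_lit 4) (nat_lit 333) (nat_lit 230) (nat_lit 157)) (XT.lf (nat_lit 0) (nat_lit 76998573341) (nat_lit 76) (nat_lit 46072253270)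 (nat_lit 76) (nat_lit 29337994055) (nat_lit 3) (nat_lit 4) (nat_lit 4) (nat_lit 5) (nat_lit 4) (nat_lit 4) (nat_lit 334) (nat_lit 230) (nat_lit 156))) (XT.nd (nat_lit 78) (nat_lit 0) (nat_lit 0) (XT.lf (nat_lit 0) (nat_lit 85525393442) (nat_lit 76) (nat_lit 45558828639) (nat_lit 76) (nat_lit 28802424017) (nat_lit 3) (nat_lit 4) (nat_lit 4) (nat_lit 5) (nat_lit 4) (nat_lit 4) (nat_lit 335) (nat_lit 230) (nat_lit 155)) (XT.lf (nat_lit 0) (nat_lit 94467387139) (nat_lit 76) (nat_lit 45024405842) (nat_lit 76) (nat_lit 28246910356) (nat_lit 3) (nat_lit 4) (nat_lit 4) (nat_lit 5) (nat_lit 4) (nat_lit 4) (nat_lit 336) (nat_lit 230) (nat_lit 154)))) (XT.nd (nat_lit 156) (nat_lit 0) (nat_lit 0) (XT.nd (nat_lit 78) (nat_lit 0) (nat_lit 0) (XT.lf (nat_lit 0) (nat_lit 103845844893) (nat_lit 76) (nat_lit 44467712444) (nat_lit 76) (nat_lit 27670130420) (nat_lit 3) (nat_lit 4) (nat_lit 4) (nat_lit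 5) (nat_lit 4) (nat_lit 4) (nat_lit 337) (nat_lit 230) (nat_lit 153)) (XT.lf (nat_lit 0) (nat_lit 113683096365) (nat_lit 76) (nat_lit 43887422984) (nat_lit 76) (nat_lit 27070710925) (nat_lit 3) (nat_lit 4) (nat_lit 4) (nat_lit 5) (nat_lit 4) (nat_lit 4) (nat_lit 338) (nat_lit 230) (nat_lit 152))) (XT.nd (nat_lit 78) (nat_lit 0) (nat_lit 0) (XT.lf (nat_lit 0) (nat_lit 124002563582) (nat_lit 76) (nat_lit 43282155820) (nat_lit 76) (nat_lit 26447224681) (nat_lit 3) (nat_lit 4) (nat_lit 4) (nat_lit 5) (nat_lit 4) (nat_lit 4) (nat_lit 339) (nat_lit 230) (nat_lit 151)) (XT.lf (nat_lit 0) (nat_lit 134828816705) (nat_lit 76) (nat_lit 42650469842) (nat_lit 76) (nat_lit 25798187196) (nat_lit 3) (nat_lit 4) (nat_lit 4) (nat_lit 5) (nat_lit 4) (nat_lit 4) (nat_lit 340) (nat_lit 230) (nat_lit 150)))))) (XT.nd (nat_lit 624) (nat_lit 0) (nat_lit 0) (XT.nd (nat_lit 312) (nat_lit 0) (nat_lit 0) (XT.nd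 (nat_lit 156) (nat_lit 0) (nat_lit 0) (XT.nd (nat_lit 78) (nat_lit 0) (nat_lit 0) (XT.lf (nat_lit 0) (nat_lit 146187632527) (nat_lit 76) (nat_lit 41990861033) (nat_lit 76) (nat_lit 25122053144) (nat_lit 3) (nat_lit 4) (nat_lit 4) (nat_lit 5) (nat_lit 4) (nat_lit 4) (nat_lit 341) (nat_lit 230) (nat_lit 149)) (XT.lf (nat_lit 0) (nat_lit 158106055847) (nat_lit 76) (nat_lit 41301758897) (nat_lit 76) (nat_lit 24417212681) (nat_lit 3) (nat_lit 4) (nat_lit 4) (nat_lit 5) (nat_lit 4) (nat_lit 4) (nat_lit 342) (nat_lit 230) (nat_lit 148))) (XT.nd (nat_lit 78) (nat_lit 0) (nat_lit 0) (XT.lf (nat_lit 0) (nat_lit 170612463864) (nat_lit 76) (nat_lit 40581522715) (nat_lit 76) (nat_lit 23681987615) (nat_lit 3) (nat_lit 4) (nat_lit 4) (nat_lit 5) (nat_lit 4) (nat_lit 4) (nat_lit 343) (nat_lit 230) (nat_lit 147)) (XT.lf (nat_lit 0) (nat_lit 183736633739) (nat_lit 76) (nat_lit 39828437639) (nat_lit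 76) (nat_lit 22914627412) (nat_lit 3) (nat_lit 4) (nat_lit 4) (nat_lit 5) (nat_lit 4) (nat_lit 4) (nat_lit 344) (nat_lit 230) (nat_lit 146)))) (XT.nd (nat_lit 156) (nat_lit 0) (nat_lit 0) (XT.nd (nat_lit 78) (nat_lit 0) (nat_lit 0) (XT.lf (nat_lit 0) (nat_lit 197509813497) (nat_lit 76) (nat_lit 39040710609) (nat_lit 76) (nat_lit 22113305023) (nat_lit 3) (nat_lit 4) (nat_lit 4) (nat_lit 5) (nat_lit 4) (nat_lit 4) (nat_lit 345) (nat_lit 230) (nat_lit 145)) (XT.lf (nat_lit 0) (nat_lit 211964796422) (nat_lit 76) (nat_lit 38216466084) (nat_lit 76) (nat_lit 21276112537) (nat_lit 3) (nat_lit 4) (nat_lit 4) (nat_lit 5) (nat_lit 4) (nat_lit 4) (nat_lit 346) (nat_lit 230) (nat_lit 144))) (XT.nd (nat_lit 78) (nat_lit 0) (nat_lit 0) (XT.lf (nat_lit 0) (nat_lit 227135999140) (nat_lit 76) (nat_lit 37353741577) (nat_lit 76) (nat_lit 20401056639) (nat_lit 3) (nat_lit 4) (nat_lit 4) (nat_lit 5) (nat_lit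 4) (nat_lit 4) (nat_lit 347) (nat_lit 230) (nat_lit 143)) (XT.lf (nat_lit 0) (nat_lit 243059543563) (nat_lit 76) (nat_lit 36450482983) (nat_lit 76) (nat_lit 19486053863) (nat_lit 3) (nat_lit 4) (nat_lit 4) (nat_lit 5) (nat_lit 4) (nat_lit 4) (nat_lit 348) (nat_lit 230) (nat_lit 142))))) (XT.nd (nat_lit 312) (nat_lit 0) (nat_lit 0) (XT.nd (nat_lit 156) (nat_lit 0) (nat_lit 0) (XT.nd (nat_lit 78) (nat_lit 0) (nat_lit 0) (XT.lf (nat_lit 0) (nat_lit 259773342891) (nat_lit 76) (nat_lit 35504539685) (nat_lit 76) (nat_lit 18528925630) (nat_lit 3) (nat_lit 4) (nat_lit 4) (nat_lit 5) (nat_lit 4) (nat_lit 4) (nat_lit 349) (nat_lit 230) (nat_lit 141)) (XT.lf (nat_lit 0) (nat_lit 277317191885) (nat_lit 76) (nat_lit 34513659439) (nat_lit 76) (nat_lit 17527393064) (nat_lit 3) (nat_lit 4) (nat_lit 4) (nat_lit 5) (nat_lit 4) (nat_lit 4) (nat_lit 350) (nat_lit 230) (nat_lit 140))) (XT.nd (nat_lit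 78) (nat_lit 0) (nat_lit 0) (XT.lf (nat_lit 0) (nat_lit 295732861614) (nat_lit 76) (nat_lit 33475483004) (nat_lit 76) (nat_lit 16479071563) (nat_lit 3) (nat_lit 4) (nat_lit 4) (nat_lit 5) (nat_lit 4) (nat_lit 4) (nat_lit 351) (nat_lit 230) (nat_lit 139)) (XT.lf (nat_lit 0) (nat_lit 315064198911) (nat_lit 76) (nat_lit 32387538533) (nat_lit 76) (nat_lit 15381465124) (nat_lit 3) (nat_lit 4) (nat_lit 4) (nat_lit 5) (nat_lit 4) (nat_lit 4) (nat_lit 352) (nat_lit 230) (nat_lit 138)))) (XT.nd (nat_lit 156) (nat_lit 0) (nat_lit 0) (XT.nd (nat_lit 78) (nat_lit 0) (nat_lit 0) (XT.lf (nat_lit 0) (nat_lit 335357230769) (nat_lit 76) (nat_lit 31247235681) (nat_lit 76) (nat_lit 14231960398) (nat_lit 3) (nat_lit 4) (nat_lit 4) (nat_lit 5) (nat_lit 4) (nat_lit 4) (nat_lit 353) (nat_lit 230) (nat_lit 137)) (XT.lf (nat_lit 0) (nat_lit 356660273930) (nat_lit 76) (nat_lit 30051859442) (nat_lit 76) (nat_lit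 13027820469) (nat_lit 3) (nat_lit 4) (nat_lit 4) (nat_lit 5) (nat_lit 4) (nat_lit 4) (nat_lit 354) (nat_lit 230) (nat_lit 136))) (XT.nd (nat_lit 78) (nat_lit 0) (nat_lit 0) (XT.lf (nat_lit 0) (nat_lit 379024049927) (nat_lit 76) (nat_lit 28798563682) (nat_lit 76) (nat_lit 11766178338) (nat_lit 3) (nat_lit 4) (nat_lit 4) (nat_lit 5) (nat_lit 4) (nat_lit 4) (nat_lit 355) (nat_lit 230) (nat_lit 135)) (XT.lf (nat_lit 0) (nat_lit 402501805844) (nat_lit 76) (nat_lit 27484364363) (nat_lit 76) (nat_lit 10444030094) (nat_lit 3) (nat_lit 4) (nat_lit 4) (nat_lit 5) (nat_lit 4) (nat_lit 4) (nat_lit 356) (nat_lit 230) (nat_lit 134)))))))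
noncomputable def xc66 : XT := (XT.nd (nat_lit 30966) (nat_lit 0) (nat_lit 608) (XT.nd (nat_lit 30342) (nat_lit 0) (nat_lit 1672) (XT.nd (nat_lit 30030) (nat_lit 0) (nat_lit 2660) (XT.nd (nat_lit 29874) (nat_lit 0) (nat_lit 3268) (XT.nd (nat_lit 29796) (nat_lit 0) (nat_lit 3648) (XT.lf (nat_lit 0) (nat_lit 427149441100) (nat_lit 76) (nat_lit 26106132439) (nat_lit 76) (nat_lit 9058227766) (nat_lit 3) (nat_lit 4) (nat_lit 4) (nat_lit 5) (nat_lit 4) (nat_lit 4) (nat_lit 357) (nat_lit 230) (nat_lit 133)) (XT.lf (nat_lit 0) (nat_lit 808720199) (nat_lit 456) (nat_lit 1489660253) (nat_lit 456) (nat_lit 1489660253) (nat_lit 51) (nat_lit 4) (nat_lit 57) (nat_lit 5) (nat_lit 57) (nat_lit 4) (nat_lit 258) (nat_lit 231) (nat_lit 231))) (XT.nd (nat_lit 78) (nat_lit 380) (nat_lit 0) (XT.lf (nat_lit 0) (nat_lit 6094832181) (nat_lit 456) (nat_lit 1478258480) (nat_lit 456) (nat_lit 144169521) (nat_lit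 51) (nat_lit 4) (nat_lit 57) (nat_lit 5) (nat_lit 57) (nat_lit 4) (nat_lit 259) (nat_lit 231) (nat_lit 230)) (XT.lf (nat_lit 0) (nat_lit 2655467777) (nat_lit 380) (nat_lit 5038207754) (nat_lit 0) (nat_lit 174848850) (nat_lit 46) (nat_lit 5) (nat_lit 51) (nat_lit 4) (nat_lit 46) (nat_lit 4) (nat_lit 260) (nat_lit 231) (nat_lit 229)))) (XT.nd (nat_lit 156) (nat_lit 228) (nat_lit 0) (XT.nd (nat_lit 78) (nat_lit 380) (nat_lit 0) (XT.lf (nat_lit 0) (nat_lit 5512711004) (nat_lit 380) (nat_lit 639607613) (nat_lit 0) (nat_lit 1879655874) (nat_lit 46) (nat_lit 5) (nat_lit 51) (nat_lit 4) (nat_lit 46) (nat_lit 4) (nat_lit 261) (nat_lit 231) (nat_lit 228)) (XT.lf (nat_lit 0) (nat_lit 235892835) (nat_lit 380) (nat_lit 4247033106) (nat_lit 76) (nat_lit 3724385223) (nat_lit 41) (nat_lit 5) (nat_lit 46) (nat_lit 5) (nat_lit 42) (nat_lit 4) (nat_lit 262) (nat_lit 231) (nat_lit 227))) (XT.nd (nat_lit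 78) (nat_lit 0) (nat_lit 0) (XT.lf (nat_lit 0) (nat_lit 243769525) (nat_lit 228) (nat_lit 2692658060) (nat_lit 304) (nat_lit 5459054532) (nat_lit 38) (nat_lit 5) (nat_lit 41) (nat_lit 5) (nat_lit 42) (nat_lit 4) (nat_lit 263) (nat_lit 231) (nat_lit 226)) (XT.lf (nat_lit 0) (nat_lit 4964836690) (nat_lit 228) (nat_lit 760168889) (nat_lit 304) (nat_lit 2871116299) (nat_lit 38) (nat_lit 5) (nat_lit 41) (nat_lit 5) (nat_lit 42) (nat_lit 4) (nat_lit 264) (nat_lit 231) (nat_lit 225))))) (XT.nd (nat_lit 312) (nat_lit 456) (nat_lit 0) (XT.nd (nat_lit 156) (nat_lit 228) (nat_lit 0) (XT.nd (nat_lit 78) (nat_lit 76) (nat_lit 0) (XT.lf (nat_lit 0) (nat_lit 985933208) (nat_lit 228) (nat_lit 7588698280) (nat_lit 228) (nat_lit 236758410) (nat_lit 35) (nat_lit 4) (nat_lit 38) (nat_lit 5) (nat_lit 38) (nat_lit 4) (nat_lit 265) (nat_lit 231) (nat_lit 224)) (XT.lf (nat_lit 0) (nat_lit 2410555106) (nat_lit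 304) (nat_lit 3270267539) (nat_lit 76) (nat_lit 3357128865) (nat_lit 34) (nat_lit 5) (nat_lit 38) (nat_lit 5) (nat_lit 35) (nat_lit 4) (nat_lit 266) (nat_lit 231) (nat_lit 223))) (XT.nd (nat_lit 78) (nat_lit 0) (nat_lit 0) (XT.lf (nat_lit 0) (nat_lit 1417950711) (nat_lit 228) (nat_lit 3679059587) (nat_lit 304) (nat_lit 4183485219) (nat_lit 31) (nat_lit 5) (nat_lit 34) (nat_lit 5) (nat_lit 35) (nat_lit 4) (nat_lit 267) (nat_lit 231) (nat_lit 222)) (XT.lf (nat_lit 0) (nat_lit 6320081123) (nat_lit 228) (nat_lit 1548707027) (nat_lit 304) (nat_lit 1669385733) (nat_lit 31) (nat_lit 5) (nat_lit 34) (nat_lit 5) (nat_lit 35) (nat_lit 4) (nat_lit 268) (nat_lit 231) (nat_lit 221)))) (XT.nd (nat_lit 156) (nat_lit 152) (nat_lit 0) (XT.nd (nat_lit 78) (nat_lit 0) (nat_lit 0) (XT.lf (nat_lit 0) (nat_lit 873113173) (nat_lit 304) (nat_lit 8261361079) (nat_lit 76) (nat_lit 677322027) (nat_lit 27) (nat_lit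 5) (nat_lit 31) (nat_lit 5) (nat_lit 28) (nat_lit 4) (nat_lit 269) (nat_lit 231) (nat_lit 220)) (XT.lf (nat_lit 0) (nat_lit 3468197598) (nat_lit 304) (nat_lit 3615243587) (nat_lit 76) (nat_lit 3015693405) (nat_lit 27) (nat_lit 5) (nat_lit 31) (nat_lit 5) (nat_lit 28) (nat_lit 4) (nat_lit 270) (nat_lit 231) (nat_lit 219))) (XT.nd (nat_lit 78) (nat_lit 0) (nat_lit 0) (XT.lf (nat_lit 0) (nat_lit 1172778684) (nat_lit 152) (nat_lit 4944073485) (nat_lit 228) (nat_lit 4288255223) (nat_lit 25) (nat_lit 5) (nat_lit 27) (nat_lit 5) (nat_lit 28) (nat_lit 4) (nat_lit 271) (nat_lit 231) (nat_lit 218)) (XT.lf (nat_lit 0) (nat_lit 6199841332) (nat_lit 152) (nat_lit 2667364091) (nat_lit 228) (nat_lit 1861146657) (nat_lit 25) (nat_lit 5) (nat_lit 27) (nat_lit 5) (nat_lit 28) (nat_lit 4) (nat_lit 272) (nat_lit 231) (nat_lit 217)))))) (XT.nd (nat_lit 624) (nat_lit 380) (nat_lit 0) (XT.nd (nat_lit 312)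 (nat_lit 228) (nat_lit 0) (XT.nd (nat_lit 156) (nat_lit 152) (nat_lit 0) (XT.nd (nat_lit 78) (nat_lit 0) (nat_lit 0) (XT.lf (nat_lit 0) (nat_lit 285678249) (nat_lit 228) (nat_lit 294681776) (nat_lit 304) (nat_lit 10491506332) (nat_lit 21) (nat_lit 5) (nat_lit 24) (nat_lit 5) (nat_lit 25) (nat_lit 5) (nat_lit 273) (nat_lit 231) (nat_lit 216)) (XT.lf (nat_lit 0) (nat_lit 3106052875) (nat_lit 304) (nat_lit 6122429604) (nat_lit 76) (nat_lit 2201692563) (nat_lit 21) (nat_lit 5) (nat_lit 25) (nat_lit 5) (nat_lit 22) (nat_lit 4) (nat_lit 274) (nat_lit 231) (nat_lit 215))) (XT.nd (nat_lit 78) (nat_lit 152) (nat_lit 0) (XT.lf (nat_lit 0) (nat_lit 5679444231) (nat_lit 304) (nat_lit 1349781422) (nat_lit 76) (nat_lit 4781461961) (nat_lit 21) (nat_lit 5) (nat_lit 25) (nat_lit 5) (nat_lit 22) (nat_lit 4) (nat_lit 275) (nat_lit 231) (nat_lit 214)) (XT.lf (nat_lit 0) (nat_lit 3665024362) (nat_lit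 152) (nat_lit 4694257347) (nat_lit 228) (nat_lit 3852397322) (nat_lit 19) (nat_lit 5) (nat_lit 21) (nat_lit 5) (nat_lit 22) (nat_lit 4) (nat_lit 276) (nat_lit 231) (nat_lit 213)))) (XT.nd (nat_lit 156) (nat_lit 0) (nat_lit 0) (XT.nd (nat_lit 78) (nat_lit 228) (nat_lit 0) (XT.lf (nat_lit 0) (nat_lit 8865488462) (nat_lit 152) (nat_lit 2253072388) (nat_lit 228) (nat_lit 1517212435) (nat_lit 19) (nat_lit 5) (nat_lit 21) (nat_lit 5) (nat_lit 22) (nat_lit 4) (nat_lit 277) (nat_lit 231) (nat_lit 212)) (XT.lf (nat_lit 0) (nat_lit 852506446) (nat_lit 228) (nat_lit 11930364038) (nat_lit 76) (nat_lit 300382948) (nat_lit 16) (nat_lit 5) (nat_lit 19) (nat_lit 5) (nat_lit 17) (nat_lit 4) (nat_lit 278) (nat_lit 231) (nat_lit 211))) (XT.nd (nat_lit 78) (nat_lit 0) (nat_lit 0) (XT.lf (nat_lit 0) (nat_lit 3317691321) (nat_lit 228) (nat_lit 7270695211) (nat_lit 76) (nat_lit 2962360421) (nat_lit 16)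 (nat_lit 5) (nat_lit 19) (nat_lit 5) (nat_lit 17) (nat_lit 4) (nat_lit 279) (nat_lit 231) (nat_lit 210)) (XT.lf (nat_lit 0) (nat_lit 5835787228) (nat_lit 228) (nat_lit 2483798760) (nat_lit 76) (nat_lit 5725814573) (nat_lit 16) (nat_lit 5) (nat_lit 19) (nat_lit 5) (nat_lit 17) (nat_lit 4) (nat_lit 280) (nat_lit 231) (nat_lit 209))))) (XT.nd (nat_lit 312) (nat_lit 76) (nat_lit 0) (XT.nd (nat_lit 156) (nat_lit 228) (nat_lit 0) (XT.nd (nat_lit 78) (nat_lit 0) (nat_lit 0) (XT.lf (nat_lit 0) (nat_lit 2522457065) (nat_lit 76) (nat_lit 5929715193) (nat_lit 152) (nat_lit 6114250614) (nat_lit 15) (nat_lit 5) (nat_lit 16) (nat_lit 5) (nat_lit 17) (nat_lit 4) (nat_lit 281) (nat_lit 231) (nat_lit 208)) (XT.lf (nat_lit 0) (nat_lit 7766162255) (nat_lit 76) (nat_lit 3409923561) (nat_lit 152) (nat_lit 3938818102) (nat_lit 15) (nat_lit 5) (nat_lit 16) (nat_lit 5) (nat_lit 17) (nat_lit 4) (nat_lit 282)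 (nat_lit 231) (nat_lit 207))) (XT.nd (nat_lit 78) (nat_lit 228) (nat_lit 0) (XT.lf (nat_lit 0) (nat_lit 13177676216) (nat_lit 76) (nat_lit 796275925) (nat_lit 152) (nat_lit 1720200529) (nat_lit 15) (nat_lit 5) (nat_lit 16) (nat_lit 5) (nat_lit 17) (nat_lit 4) (nat_lit 283) (nat_lit 231) (nat_lit 206)) (XT.lf (nat_lit 0) (nat_lit 599716521) (nat_lit 228) (nat_lit 13796870439) (nat_lit 76) (nat_lit 1905017627) (nat_lit 12) (nat_lit 5) (nat_lit 15) (nat_lit 5) (nat_lit 13) (nat_lit 4) (nat_lit 284) (nat_lit 231) (nat_lit 205)))) (XT.nd (nat_lit 156) (nat_lit 76) (nat_lit 0) (XT.nd (nat_lit 78) (nat_lit 0) (nat_lit 0) (XT.lf (nat_lit 0) (nat_lit 2974696493) (nat_lit 228) (nat_lit 9208141634) (nat_lit 76) (nat_lit 4755537105) (nat_lit 12) (nat_lit 5) (nat_lit 15) (nat_lit 5) (nat_lit 13) (nat_lit 4) (nat_lit 285) (nat_lit 231) (nat_lit 204)) (XT.lf (nat_lit 0) (nat_lit 5411765447) (nat_lit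 228) (nat_lit 4478798026) (nat_lit 76) (nat_lit 7719444399) (nat_lit 12) (nat_lit 5) (nat_lit 15) (nat_lit 5) (nat_lit 13) (nat_lit 4) (nat_lit 286) (nat_lit 231) (nat_lit 203))) (XT.nd (nat_lit 78) (nat_lit 0) (nat_lit 0) (XT.lf (nat_lit 0) (nat_lit 415726572) (nat_lit 76) (nat_lit 7507490013) (nat_lit 152) (nat_lit 10394560513) (nat_lit 11) (nat_lit 5) (nat_lit 12) (nat_lit 5) (nat_lit 13) (nat_lit 4) (nat_lit 287) (nat_lit 231) (nat_lit 202)) (XT.nd (nat_lit 78) (nat_lit 0) (nat_lit 0) (XT.lf (nat_lit 0) (nat_lit 5627243506) (nat_lit 76) (nat_lit 4956155666) (nat_lit 152) (nat_lit 8476550426) (nat_lit 11) (nat_lit 5) (nat_lit 12) (nat_lit 5) (nat_lit 13) (nat_lit 4) (nat_lit 288) (nat_lit 231) (nat_lit 201)) (XT.lf (nat_lit 0) (nat_lit 11020071860) (nat_lit 76) (nat_lit 2306336436) (nat_lit 152) (nat_lit 6515496086) (nat_lit 11) (nat_lit 5) (nat_lit 12) (nat_lit 5) (nat_lit 13)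 (nat_lit 4) (nat_lit 289) (nat_lit 231) (nat_lit 200))))))))
noncomputable def xc67 : XT := (XT.nd (nat_lit 2496) (nat_lit 76) (nat_lit 0) (XT.nd (nat_lit 1248) (nat_lit 152) (nat_lit 0) (XT.nd (nat_lit 624) (nat_lit 76) (nat_lit 0) (XT.nd (nat_lit 312) (nat_lit 76) (nat_lit 0) (XT.nd (nat_lit 156) (nat_lit 76) (nat_lit 0) (XT.nd (nat_lit 78) (nat_lit 152) (nat_lit 0) (XT.lf (nat_lit 0) (nat_lit 16165773789) (nat_lit 152) (nat_lit 4065450402) (nat_lit 0) (nat_lit 433929112) (nat_lit 11) (nat_lit 5) (nat_lit 13) (nat_lit 4) (nat_lit 11) (nat_lit 4) (nat_lit 290) (nat_lit 231) (nat_lit 199)) (XT.lf (nat_lit 0) (nat_lit 844048427) (nat_lit 152) (nat_lit 18308116958) (nat_lit 152) (nat_lit 2377295625) (nat_lit 9) (nat_lit 4) (nat_lit 11) (nat_lit 5) (nat_lit 11) (nat_lit 4) (nat_lit 291) (nat_lit 231) (nat_lit 198))) (XT.nd (nat_lit 78) (nat_lit 76) (nat_lit 0) (XT.lf (nat_lit 0) (nat_lit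 6067449105) (nat_lit 152) (nat_lit 16244400686) (nat_lit 152) (nat_lit 124077777) (nat_lit 9) (nat_lit 4) (nat_lit 11) (nat_lit 5) (nat_lit 11) (nat_lit 4) (nat_lit 292) (nat_lit 231) (nat_lit 197)) (XT.lf (nat_lit 0) (nat_lit 2126477513) (nat_lit 228) (nat_lit 11941521697) (nat_lit 76) (nat_lit 9320275708) (nat_lit 8) (nat_lit 5) (nat_lit 11) (nat_lit 5) (nat_lit 9) (nat_lit 4) (nat_lit 293) (nat_lit 231) (nat_lit 196)))) (XT.nd (nat_lit 156) (nat_lit 76) (nat_lit 0) (XT.nd (nat_lit 78) (nat_lit 0) (nat_lit 0) (XT.lf (nat_lit 0) (nat_lit 4443893774) (nat_lit 228) (nat_lit 7362701879) (nat_lit 76) (nat_lit 12583739902) (nat_lit 8) (nat_lit 5) (nat_lit 11) (nat_lit 5) (nat_lit 9) (nat_lit 4) (nat_lit 294) (nat_lit 231) (nat_lit 195)) (XT.lf (nat_lit 0) (nat_lit 6837659925) (nat_lit 228) (nat_lit 2619179857) (nat_lit 76) (nat_lit 15987752415) (nat_lit 8) (nat_lit 5) (nat_lit 11) (nat_lit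 5) (nat_lit 9) (nat_lit 4) (nat_lit 295) (nat_lit 231) (nat_lit 194))) (XT.nd (nat_lit 78) (nat_lit 0) (nat_lit 0) (XT.lf (nat_lit 0) (nat_lit 2376398048) (nat_lit 76) (nat_lit 6974179594) (nat_lit 152) (nat_lit 17201122225) (nat_lit 7) (nat_lit 5) (nat_lit 8) (nat_lit 5) (nat_lit 9) (nat_lit 4) (nat_lit 296) (nat_lit 231) (nat_lit 193)) (XT.lf (nat_lit 0) (nat_lit 7652493832) (nat_lit 76) (nat_lit 4344218067) (nat_lit 152) (nat_lit 15717178546) (nat_lit 7) (nat_lit 5) (nat_lit 8) (nat_lit 5) (nat_lit 9) (nat_lit 4) (nat_lit 297) (nat_lit 231) (nat_lit 192))))) (XT.nd (nat_lit 312) (nat_lit 76) (nat_lit 0) (XT.nd (nat_lit 156) (nat_lit 0) (nat_lit 0) (XT.nd (nat_lit 78) (nat_lit 0) (nat_lit 0) (XT.lf (nat_lit 0) (nat_lit 13135067715) (nat_lit 76) (nat_lit 1605050466) (nat_lit 152) (nat_lit 14195925112) (nat_lit 7) (nat_lit 5) (nat_lit 8) (nat_lit 5) (nat_lit 9) (nat_lit 4) (nat_lit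 298) (nat_lit 231) (nat_lit 191)) (XT.lf (nat_lit 0) (nat_lit 17606841990) (nat_lit 152) (nat_lit 11403408439) (nat_lit 0) (nat_lit 1209842190) (nat_lit 7) (nat_lit 5) (nat_lit 9) (nat_lit 4) (nat_lit 7) (nat_lit 4) (nat_lit 299) (nat_lit 231) (nat_lit 190))) (XT.nd (nat_lit 78) (nat_lit 0) (nat_lit 0) (XT.lf (nat_lit 0) (nat_lit 20611121113) (nat_lit 152) (nat_lit 6865637053) (nat_lit 0) (nat_lit 4091966907) (nat_lit 7) (nat_lit 5) (nat_lit 9) (nat_lit 4) (nat_lit 7) (nat_lit 4) (nat_lit 300) (nat_lit 231) (nat_lit 189)) (XT.lf (nat_lit 0) (nat_lit 23735049259) (nat_lit 152) (nat_lit 2151797864) (nat_lit 0) (nat_lit 7099557524) (nat_lit 7) (nat_lit 5) (nat_lit 9) (nat_lit 4) (nat_lit 7) (nat_lit 4) (nat_lit 301) (nat_lit 231) (nat_lit 188)))) (XT.nd (nat_lit 156) (nat_lit 0) (nat_lit 0) (XT.nd (nat_lit 78) (nat_lit 0) (nat_lit 0) (XT.lf (nat_lit 0) (nat_lit 2840237901) (nat_lit 76)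 (nat_lit 24190170524) (nat_lit 76) (nat_lit 7443881142) (nat_lit 6) (nat_lit 4) (nat_lit 7) (nat_lit 5) (nat_lit 7) (nat_lit 4) (nat_lit 302) (nat_lit 231) (nat_lit 187)) (XT.lf (nat_lit 0) (nat_lit 8108960945) (nat_lit 76) (nat_lit 22389549567) (nat_lit 76) (nat_lit 5537738616) (nat_lit 6) (nat_lit 4) (nat_lit 7) (nat_lit 5) (nat_lit 7) (nat_lit 4) (nat_lit 303) (nat_lit 231) (nat_lit 186))) (XT.nd (nat_lit 78) (nat_lit 0) (nat_lit 0) (XT.lf (nat_lit 0) (nat_lit 13595767689) (nat_lit 76) (nat_lit 20517138797) (nat_lit 76) (nat_lit 3564831114) (nat_lit 6) (nat_lit 4) (nat_lit 7) (nat_lit 5) (nat_lit 7) (nat_lit 4) (nat_lit 304) (nat_lit 231) (nat_lit 185)) (XT.lf (nat_lit 0) (nat_lit 19313721958) (nat_lit 76) (nat_lit 18568480093) (nat_lit 76) (nat_lit 1520461237) (nat_lit 6) (nat_lit 4) (nat_lit 7) (nat_lit 5) (nat_lit 7) (nat_lit 4) (nat_lit 305) (nat_lit 231) (nat_lit 184))))))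 (XT.nd (nat_lit 624) (nat_lit 0) (nat_lit 0) (XT.nd (nat_lit 312) (nat_lit 76) (nat_lit 0) (XT.nd (nat_lit 156) (nat_lit 0) (nat_lit 0) (XT.nd (nat_lit 78) (nat_lit 0) (nat_lit 0) (XT.lf (nat_lit 0) (nat_lit 581027179) (nat_lit 152) (nat_lit 15948066636) (nat_lit 76) (nat_lit 24685570775) (nat_lit 5) (nat_lit 5) (nat_lit 7) (nat_lit 5) (nat_lit 6) (nat_lit 4) (nat_lit 306) (nat_lit 231) (nat_lit 183)) (XT.lf (nat_lit 0) (nat_lit 2712625906) (nat_lit 152) (nat_lit 11665102102) (nat_lit 76) (nat_lit 28739547011) (nat_lit 5) (nat_lit 5) (nat_lit 7) (nat_lit 5) (nat_lit 6) (nat_lit 4) (nat_lit 307) (nat_lit 231) (nat_lit 182))) (XT.nd (nat_lit 78) (nat_lit 0) (nat_lit 0) (XT.lf (nat_lit 0) (nat_lit 4928074432) (nat_lit 152) (nat_lit 7206111534) (nat_lit 76) (nat_lit 32982025566) (nat_lit 5) (nat_lit 5) (nat_lit 7) (nat_lit 5) (nat_lit 6) (nat_lit 4) (nat_lit 308) (nat_lit 231) (nat_lit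 181)) (XT.lf (nat_lit 0) (nat_lit 7232647635) (nat_lit 152) (nat_lit 2560478286) (nat_lit 76) (nat_lit 37423107581) (nat_lit 5) (nat_lit 5) (nat_lit 7) (nat_lit 5) (nat_lit 6) (nat_lit 4) (nat_lit 309) (nat_lit 231) (nat_lit 180)))) (XT.nd (nat_lit 156) (nat_lit 0) (nat_lit 0) (XT.nd (nat_lit 78) (nat_lit 0) (nat_lit 0) (XT.lf (nat_lit 0) (nat_lit 2358340289) (nat_lit 76) (nat_lit 7310312606) (nat_lit 152) (nat_lit 39751847071) (nat_lit 4) (nat_lit 5) (nat_lit 5) (nat_lit 5) (nat_lit 6) (nat_lit 4) (nat_lit 310) (nat_lit 231) (nat_lit 179)) (XT.lf (nat_lit 0) (nat_lit 7577973576) (nat_lit 76) (nat_lit 4671681485) (nat_lit 152) (nat_lit 39484215878) (nat_lit 4) (nat_lit 5) (nat_lit 5) (nat_lit 5) (nat_lit 6) (nat_lit 4) (nat_lit 311) (nat_lit 231) (nat_lit 178))) (XT.nd (nat_lit 78) (nat_lit 0) (nat_lit 0) (XT.lf (nat_lit 0) (nat_lit 13026188295) (nat_lit 76) (nat_lit 1914313040) (nat_lit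 152) (nat_lit 39223418008) (nat_lit 4) (nat_lit 5) (nat_lit 5) (nat_lit 5) (nat_lit 6) (nat_lit 4) (nat_lit 312) (nat_lit 231) (nat_lit 177)) (XT.lf (nat_lit 0) (nat_lit 17762717278) (nat_lit 152) (nat_lit 38015593406) (nat_lit 0) (nat_lit 937364390) (nat_lit 4) (nat_lit 5) (nat_lit 6) (nat_lit 4) (nat_lit 4) (nat_lit 4) (nat_lit 313) (nat_lit 231) (nat_lit 176))))) (XT.nd (nat_lit 312) (nat_lit 0) (nat_lit 0) (XT.nd (nat_lit 156) (nat_lit 0) (nat_lit 0) (XT.nd (nat_lit 78) (nat_lit 0) (nat_lit 0) (XT.lf (nat_lit 0) (nat_lit 20739818945) (nat_lit 152) (nat_lit 34798847269) (nat_lit 0) (nat_lit 3855707699) (nat_lit 4) (nat_lit 5) (nat_lit 6) (nat_lit 4) (nat_lit 4) (nat_lit 4) (nat_lit 314) (nat_lit 231) (nat_lit 175)) (XT.lf (nat_lit 0) (nat_lit 23849006882) (nat_lit 152) (nat_lit 31449945927) (nat_lit 0) (nat_lit 6908935295) (nat_lit 4) (nat_lit 5) (nat_lit 6) (nat_lit 4) (nat_lit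 4) (nat_lit 4) (nat_lit 315) (nat_lit 231) (nat_lit 174))) (XT.nd (nat_lit 78) (nat_lit 0) (nat_lit 0) (XT.lf (nat_lit 0) (nat_lit 27097683919) (nat_lit 152) (nat_lit 27960915805) (nat_lit 0) (nat_lit 10104316769) (nat_lit 4) (nat_lit 5) (nat_lit 6) (nat_lit 4) (nat_lit 4) (nat_lit 4) (nat_lit 316) (nat_lit 231) (nat_lit 173)) (XT.lf (nat_lit 0) (nat_lit 30493584999) (nat_lit 152) (nat_lit 24323449689) (nat_lit 0) (nat_lit 13449460171) (nat_lit 4) (nat_lit 5) (nat_lit 6) (nat_lit 4) (nat_lit 4) (nat_lit 4) (nat_lit 317) (nat_lit 231) (nat_lit 172)))) (XT.nd (nat_lit 156) (nat_lit 0) (nat_lit 0) (XT.nd (nat_lit 78) (nat_lit 0) (nat_lit 0) (XT.lf (nat_lit 0) (nat_lit 34044795603) (nat_lit 152) (nat_lit 20528886945) (nat_lit 0) (nat_lit 16952330128) (nat_lit 4) (nat_lit 5) (nat_lit 6) (nat_lit 4) (nat_lit 4) (nat_lit 4) (nat_lit 318) (nat_lit 231) (nat_lit 171)) (XT.lf (nat_lit 0) (nat_lit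 37759770993) (nat_lit 152) (nat_lit 16568192899) (nat_lit 0) (nat_lit 20621266807) (nat_lit 4) (nat_lit 5) (nat_lit 6) (nat_lit 4) (nat_lit 4) (nat_lit 4) (nat_lit 319) (nat_lit 231) (nat_lit 170))) (XT.nd (nat_lit 78) (nat_lit 0) (nat_lit 0) (XT.lf (nat_lit 0) (nat_lit 41647356348) (nat_lit 152) (nat_lit 12431937329) (nat_lit 0) (nat_lit 24465005772) (nat_lit 4) (nat_lit 5) (nat_lit 6) (nat_lit 4) (nat_lit 4) (nat_lit 4) (nat_lit 320) (nat_lit 231) (nat_lit 169)) (XT.lf (nat_lit 0) (nat_lit 45716807826) (nat_lit 152) (nat_lit 8110272006) (nat_lit 0) (nat_lit 28492698781) (nat_lit 4) (nat_lit 5) (nat_lit 6) (nat_lit 4) (nat_lit 4) (nat_lit 4) (nat_lit 321) (nat_lit 231) (nat_lit 168))))))) (XT.nd (nat_lit 1248) (nat_lit 0) (nat_lit 0) (XT.nd (nat_lit 624) (nat_lit 0) (nat_lit 0) (XT.nd (nat_lit 312) (nat_lit 0) (nat_lit 0) (XT.nd (nat_lit 156) (nat_lit 0) (nat_lit 0) (XT.nd (nat_lit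 78) (nat_lit 76) (nat_lit 0) (XT.lf (nat_lit 0) (nat_lit 49977814594) (nat_lit 152) (nat_lit 3592907250) (nat_lit 0) (nat_lit 32713935581) (nat_lit 4) (nat_lit 5) (nat_lit 6) (nat_lit 4) (nat_lit 4) (nat_lit 4) (nat_lit 322) (nat_lit 231) (nat_lit 167)) (XT.lf (nat_lit 0) (nat_lit 1168305643) (nat_lit 76) (nat_lit 53290456791) (nat_lit 76) (nat_lit 35988701616) (nat_lit 3) (nat_lit 4) (nat_lit 4) (nat_lit 5) (nat_lit 4) (nat_lit 4) (nat_lit 323) (nat_lit 231) (nat_lit 166))) (XT.nd (nat_lit 78) (nat_lit 0) (nat_lit 0) (XT.lf (nat_lit 0) (nat_lit 6273216749) (nat_lit 76) (nat_lit 52940281008) (nat_lit 76) (nat_lit 35602453298) (nat_lit 3) (nat_lit 4) (nat_lit 4) (nat_lit 5) (nat_lit 4) (nat_lit 4) (nat_lit 324) (nat_lit 231) (nat_lit 165)) (XT.lf (nat_lit 0) (nat_lit 11615182877) (nat_lit 76) (nat_lit 52580208367) (nat_lit 76) (nat_lit 35208025863) (nat_lit 3) (nat_lit 4) (nat_lit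 4) (nat_lit 5) (nat_lit 4) (nat_lit 4) (nat_lit 325) (nat_lit 231) (nat_lit 164)))) (XT.nd (nat_lit 156) (nat_lit 0) (nat_lit 0) (XT.nd (nat_lit 78) (nat_lit 0) (nat_lit 0) (XT.lf (nat_lit 0) (nat_lit 17206922994) (nat_lit 76) (nat_lit 52209381553) (nat_lit 76) (nat_lit 34804480196) (nat_lit 3) (nat_lit 4) (nat_lit 4) (nat_lit 5) (nat_lit 4) (nat_lit 4) (nat_lit 326) (nat_lit 231) (nat_lit 163)) (XT.lf (nat_lit 0) (nat_lit 23061750768) (nat_lit 76) (nat_lit 51826917644) (nat_lit 76) (nat_lit 34390855475) (nat_lit 3) (nat_lit 4) (nat_lit 4) (nat_lit 5) (nat_lit 4) (nat_lit 4) (nat_lit 327) (nat_lit 231) (nat_lit 162))) (XT.nd (nat_lit 78) (nat_lit 0) (nat_lit 0) (XT.lf (nat_lit 0) (nat_lit 29193606264) (nat_lit 76) (nat_lit 51431906012) (nat_lit 76) (nat_lit 33966166880) (nat_lit 3) (nat_lit 4) (nat_lit 4) (nat_lit 5) (nat_lit 4) (nat_lit 4) (nat_lit 328) (nat_lit 231) (nat_lit 161))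 (XT.lf (nat_lit 0) (nat_lit 35617089138) (nat_lit 76) (nat_lit 51023406154) (nat_lit 76) (nat_lit 33529403247) (nat_lit 3) (nat_lit 4) (nat_lit 4) (nat_lit 5) (nat_lit 4) (nat_lit 4) (nat_lit 329) (nat_lit 231) (nat_lit 160))))) (XT.nd (nat_lit 312) (nat_lit 0) (nat_lit 0) (XT.nd (nat_lit 156) (nat_lit 0) (nat_lit 0) (XT.nd (nat_lit 78) (nat_lit 0) (nat_lit 0) (XT.lf (nat_lit 0) (nat_lit 42347493398) (nat_lit 76) (nat_lit 50600445449) (nat_lit 76) (nat_lit 33079524662) (nat_lit 3) (nat_lit 4) (nat_lit 4) (nat_lit 5) (nat_lit 4) (nat_lit 4) (nat_lit 330) (nat_lit 231) (nat_lit 159)) (XT.lf (nat_lit 0) (nat_lit 49400843814) (nat_lit 76) (nat_lit 50162016850) (nat_lit 76) (nat_lit 32615459986) (nat_lit 3) (nat_lit 4) (nat_lit 4) (nat_lit 5) (nat_lit 4) (nat_lit 4) (nat_lit 331) (nat_lit 231) (nat_lit 158))) (XT.nd (nat_lit 78) (nat_lit 0) (nat_lit 0) (XT.lf (nat_lit 0) (nat_lit 56793934080)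 (nat_lit 76) (nat_lit 49707076479) (nat_lit 76) (nat_lit 32136104303) (nat_lit 3) (nat_lit 4) (nat_lit 4) (nat_lit 5) (nat_lit 4) (nat_lit 4) (nat_lit 332) (nat_lit 231) (nat_lit 157)) (XT.lf (nat_lit 0) (nat_lit 64544366789) (nat_lit 76) (nat_lit 49234541143) (nat_lit 76) (nat_lit 31640316290) (nat_lit 3) (nat_lit 4) (nat_lit 4) (nat_lit 5) (nat_lit 4) (nat_lit 4) (nat_lit 333) (nat_lit 231) (nat_lit 156)))) (XT.nd (nat_lit 156) (nat_lit 0) (nat_lit 0) (XT.nd (nat_lit 78) (nat_lit 0) (nat_lit 0) (XT.lf (nat_lit 0) (nat_lit 72670595354) (nat_lit 76) (nat_lit 48743285760) (nat_lit 76) (nat_lit 31126915500) (nat_lit 3) (nat_lit 4) (nat_lit 4) (nat_lit 5) (nat_lit 4) (nat_lit 4) (nat_lit 334) (nat_lit 231) (nat_lit 155)) (XT.lf (nat_lit 0) (nat_lit 81191967939) (nat_lit 76) (nat_lit 48232140673) (nat_lit 76) (nat_lit 30594679549) (nat_lit 3) (nat_lit 4) (nat_lit 4) (nat_lit 5) (nat_lit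 4) (nat_lit 4) (nat_lit 335) (nat_lit 231) (nat_lit 154))) (XT.nd (nat_lit 78) (nat_lit 0) (nat_lit 0) (XT.lf (nat_lit 0) (nat_lit 90128773524) (nat_lit 76) (nat_lit 47699888871) (nat_lit 76) (nat_lit 30042341209) (nat_lit 3) (nat_lit 4) (nat_lit 4) (nat_lit 5) (nat_lit 4) (nat_lit 4) (nat_lit 336) (nat_lit 231) (nat_lit 153)) (XT.lf (nat_lit 0) (nat_lit 99502290220) (nat_lit 76) (nat_lit 47145263086) (nat_lit 76) (nat_lit 29468585390) (nat_lit 3) (nat_lit 4) (nat_lit 4) (nat_lit 5) (nat_lit 4) (nat_lit 4) (nat_lit 337) (nat_lit 231) (nat_lit 152)))))) (XT.nd (nat_lit 624) (nat_lit 0) (nat_lit 0) (XT.nd (nat_lit 312) (nat_lit 0) (nat_lit 0) (XT.nd (nat_lit 156) (nat_lit 0) (nat_lit 0) (XT.nd (nat_lit 78) (nat_lit 0) (nat_lit 0) (XT.lf (nat_lit 0) (nat_lit 109334835922) (nat_lit 76) (nat_lit 46566942782) (nat_lit 76) (nat_lit 28872046004) (nat_lit 3) (nat_lit 4) (nat_lit 4) (nat_lit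 5) (nat_lit 4) (nat_lit 4) (nat_lit 338) (nat_lit 231) (nat_lit 151)) (XT.lf (nat_lit 0) (nat_lit 119649821454) (nat_lit 76) (nat_lit 45963551006) (nat_lit 76) (nat_lit 28251302722) (nat_lit 3) (nat_lit 4) (nat_lit 4) (nat_lit 5) (nat_lit 4) (nat_lit 4) (nat_lit 339) (nat_lit 231) (nat_lit 150))) (XT.nd (nat_lit 78) (nat_lit 0) (nat_lit 0) (XT.lf (nat_lit 0) (nat_lit 130471806305) (nat_lit 76) (nat_lit 45333651109) (nat_lit 76) (nat_lit 27604877582) (nat_lit 3) (nat_lit 4) (nat_lit 4) (nat_lit 5) (nat_lit 4) (nat_lit 4) (nat_lit 340) (nat_lit 231) (nat_lit 149)) (XT.lf (nat_lit 0) (nat_lit 141826557106) (nat_lit 76) (nat_lit 44675743332) (nat_lit 76) (nat_lit 26931231477) (nat_lit 3) (nat_lit 4) (nat_lit 4) (nat_lit 5) (nat_lit 4) (nat_lit 4) (nat_lit 341) (nat_lit 231) (nat_lit 148)))) (XT.nd (nat_lit 156) (nat_lit 0) (nat_lit 0) (XT.nd (nat_lit 78) (nat_lit 0) (nat_lit 0) (XT.lf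 (nat_lit 0) (nat_lit 153741108978) (nat_lit 76) (nat_lit 43988261226) (nat_lit 76) (nat_lit 26228760488) (nat_lit 3) (nat_lit 4) (nat_lit 4) (nat_lit 5) (nat_lit 4) (nat_lit 4) (nat_lit 342) (nat_lit 231) (nat_lit 147)) (XT.lf (nat_lit 0) (nat_lit 166243829901) (nat_lit 76) (nat_lit 43269567929) (nat_lit 76) (nat_lit 25495792064) (nat_lit 3) (nat_lit 4) (nat_lit 4) (nat_lit 5) (nat_lit 4) (nat_lit 4) (nat_lit 343) (nat_lit 231) (nat_lit 146))) (XT.nd (nat_lit 78) (nat_lit 0) (nat_lit 0) (XT.lf (nat_lit 0) (nat_lit 179364488258) (nat_lit 76) (nat_lit 42517952267) (nat_lit 76) (nat_lit 24730581043) (nat_lit 3) (nat_lit 4) (nat_lit 4) (nat_lit 5) (nat_lit 4) (nat_lit 4) (nat_lit 344) (nat_lit 231) (nat_lit 145)) (XT.lf (nat_lit 0) (nat_lit 193134323713) (nat_lit 76) (nat_lit 41731624679) (nat_lit 76) (nat_lit 23931305494) (nat_lit 3) (nat_lit 4) (nat_lit 4) (nat_lit 5) (nat_lit 4) (nat_lit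 4) (nat_lit 345) (nat_lit 231) (nat_lit 144))))) (XT.nd (nat_lit 312) (nat_lit 0) (nat_lit 0) (XT.nd (nat_lit 156) (nat_lit 0) (nat_lit 0) (XT.nd (nat_lit 78) (nat_lit 0) (nat_lit 0) (XT.lf (nat_lit 0) (nat_lit 207586121588) (nat_lit 76) (nat_lit 40908712956) (nat_lit 76) (nat_lit 23096062380) (nat_lit 3) (nat_lit 4) (nat_lit 4) (nat_lit 5) (nat_lit 4) (nat_lit 4) (nat_lit 346) (nat_lit 231) (nat_lit 143)) (XT.lf (nat_lit 0) (nat_lit 222754290925) (nat_lit 76) (nat_lit 40047257785) (nat_lit 76) (nat_lit 22222863027) (nat_lit 3) (nat_lit 4) (nat_lit 4) (nat_lit 5) (nat_lit 4) (nat_lit 4) (nat_lit 347) (nat_lit 231) (nat_lit 142))) (XT.nd (nat_lit 78) (nat_lit 0) (nat_lit 0) (XT.lf (nat_lit 0) (nat_lit 238674946413) (nat_lit 76) (nat_lit 39145208082) (nat_lit 76) (nat_lit 21309628388) (nat_lit 3) (nat_lit 4) (nat_lit 4) (nat_lit 5) (nat_lit 4) (nat_lit 4) (nat_lit 348) (nat_lit 231)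 (nat_lit 141)) (XT.lf (nat_lit 0) (nat_lit 255385994375) (nat_lit 76) (nat_lit 38200416109) (nat_lit 76) (nat_lit 20354184096) (nat_lit 3) (nat_lit 4) (nat_lit 4) (nat_lit 5) (nat_lit 4) (nat_lit 4) (nat_lit 349) (nat_lit 231) (nat_lit 140)))) (XT.nd (nat_lit 156) (nat_lit 0) (nat_lit 0) (XT.nd (nat_lit 78) (nat_lit 0) (nat_lit 0) (XT.lf (nat_lit 0) (nat_lit 272927223021) (nat_lit 76) (nat_lit 37210632362) (nat_lit 76) (nat_lit 19354255283) (nat_lit 3) (nat_lit 4) (nat_lit 4) (nat_lit 5) (nat_lit 4) (nat_lit 4) (nat_lit 350) (nat_lit 231) (nat_lit 139)) (XT.lf (nat_lit 0) (nat_lit 291340397180) (nat_lit 76) (nat_lit 36173500213) (nat_lit 76) (nat_lit 18307461166) (nat_lit 3) (nat_lit 4) (nat_lit 4) (nat_lit 5) (nat_lit 4) (nat_lit 4) (nat_lit 351) (nat_lit 231) (nat_lit 138))) (XT.nd (nat_lit 78) (nat_lit 0) (nat_lit 0) (XT.lf (nat_lit 0) (nat_lit 310669357743) (nat_lit 76) (nat_lit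 35086550299) (nat_lit 76) (nat_lit 17211309378) (nat_lit 3) (nat_lit 4) (nat_lit 4) (nat_lit 5) (nat_lit 4) (nat_lit 4) (nat_lit 352) (nat_lit 231) (nat_lit 137)) (XT.lf (nat_lit 0) (nat_lit 330960126045) (nat_lit 76) (nat_lit 33947194645) (nat_lit 76) (nat_lit 16063190035) (nat_lit 3) (nat_lit 4) (nat_lit 4) (nat_lit 5) (nat_lit 4) (nat_lit 4) (nat_lit 353) (nat_lit 231) (nat_lit 136))))))))
noncomputable def xc68 : XT := (XT.nd (nat_lit 30810) (nat_lit 0) (nat_lit 912) (XT.nd (nat_lit 30186) (nat_lit 0) (nat_lit 2128) (XT.nd (nat_lit 29874) (nat_lit 0) (nat_lit 3572) (XT.nd (nat_lit 156) (nat_lit 0) (nat_lit 0) (XT.nd (nat_lit 78) (nat_lit 0) (nat_lit 0) (XT.lf (nat_lit 0) (nat_lit 352261013439) (nat_lit 76) (nat_lit 32752720499) (nat_lit 76) (nat_lit 14860369518) (nat_lit 3) (nat_lit 4) (nat_lit 4) (nat_lit 5) (nat_lit 4) (nat_lit 4) (nat_lit 354) (nat_lit 231) (nat_lit 135)) (XT.lf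 (nat_lit 0) (nat_lit 374622736324) (nat_lit 76) (nat_lit 31500283875) (nat_lit 76) (nat_lit 13599983969) (nat_lit 3) (nat_lit 4) (nat_lit 4) (nat_lit 5) (nat_lit 4) (nat_lit 4) (nat_lit 355) (nat_lit 231) (nat_lit 134))) (XT.nd (nat_lit 78) (nat_lit 0) (nat_lit 0) (XT.lf (nat_lit 0) (nat_lit 398098536896) (nat_lit 76) (nat_lit 30186902781) (nat_lit 76) (nat_lit 12279032470) (nat_lit 3) (nat_lit 4) (nat_lit 4) (nat_lit 5) (nat_lit 4) (nat_lit 4) (nat_lit 356) (nat_lit 231) (nat_lit 133)) (XT.lf (nat_lit 0) (nat_lit 422744309920) (nat_lit 76) (nat_lit 28809450119) (nat_lit 76) (nat_lit 10894369899) (nat_lit 3) (nat_lit 4) (nat_lit 4) (nat_lit 5) (nat_lit 4) (nat_lit 4) (nat_lit 357) (nat_lit 231) (nat_lit 132)))) (XT.nd (nat_lit 156) (nat_lit 532) (nat_lit 0) (XT.nd (nat_lit 78) (nat_lit 0) (nat_lit 0) (XT.lf (nat_lit 0) (nat_lit 125761366) (nat_lit 684) (nat_lit 3411732928) (nat_lit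 0) (nat_lit 125761366) (nat_lit 57) (nat_lit 5) (nat_lit 66) (nat_lit 4) (nat_lit 57) (nat_lit 4) (nat_lit 256) (nat_lit 232) (nat_lit 232)) (XT.lf (nat_lit 0) (nat_lit 3075841073) (nat_lit 684) (nat_lit 2696045292) (nat_lit 0) (nat_lit 1675047665) (nat_lit 57) (nat_lit 5) (nat_lit 66) (nat_lit 4) (nat_lit 57) (nat_lit 4) (nat_lit 257) (nat_lit 232) (nat_lit 231))) (XT.nd (nat_lit 78) (nat_lit 76) (nat_lit 0) (XT.lf (nat_lit 0) (nat_lit 1546528790) (nat_lit 456) (nat_lit 4384133826) (nat_lit 456) (nat_lit 1649251460) (nat_lit 51) (nat_lit 4) (nat_lit 57) (nat_lit 5) (nat_lit 57) (nat_lit 4) (nat_lit 258) (nat_lit 232) (nat_lit 230)) (XT.lf (nat_lit 0) (nat_lit 1082742628) (nat_lit 532) (nat_lit 1785820891) (nat_lit 76) (nat_lit 4855306308) (nat_lit 50) (nat_lit 5) (nat_lit 57) (nat_lit 5) (nat_lit 51) (nat_lit 4) (nat_lit 259) (nat_lit 232) (nat_lit 229))))) (XT.nd (nat_lit 312) (nat_lit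 760) (nat_lit 0) (XT.nd (nat_lit 156) (nat_lit 380) (nat_lit 0) (XT.nd (nat_lit 78) (nat_lit 0) (nat_lit 0) (XT.lf (nat_lit 0) (nat_lit 2593154850) (nat_lit 304) (nat_lit 1215945707) (nat_lit 380) (nat_lit 4069775800) (nat_lit 46) (nat_lit 5) (nat_lit 50) (nat_lit 5) (nat_lit 51) (nat_lit 4) (nat_lit 260) (nat_lit 232) (nat_lit 228)) (XT.lf (nat_lit 0) (nat_lit 6587107812) (nat_lit 380) (nat_lit 937176563) (nat_lit 0) (nat_lit 522405435) (nat_lit 46) (nat_lit 5) (nat_lit 51) (nat_lit 4) (nat_lit 46) (nat_lit 4) (nat_lit 261) (nat_lit 232) (nat_lit 227))) (XT.nd (nat_lit 78) (nat_lit 0) (nat_lit 0) (XT.lf (nat_lit 0) (nat_lit 1197008411) (nat_lit 380) (nat_lit 4656128742) (nat_lit 76) (nat_lit 2371658788) (nat_lit 41) (nat_lit 5) (nat_lit 46) (nat_lit 5) (nat_lit 42) (nat_lit 4) (nat_lit 262) (nat_lit 232) (nat_lit 226)) (XT.lf (nat_lit 0) (nat_lit 3836812181) (nat_lit 380) (nat_lit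 240048734) (nat_lit 76) (nat_lit 4339489399) (nat_lit 41) (nat_lit 5) (nat_lit 46) (nat_lit 5) (nat_lit 42) (nat_lit 4) (nat_lit 263) (nat_lit 232) (nat_lit 225)))) (XT.nd (nat_lit 156) (nat_lit 228) (nat_lit 0) (XT.nd (nat_lit 78) (nat_lit 304) (nat_lit 0) (XT.lf (nat_lit 0) (nat_lit 4407240221) (nat_lit 228) (nat_lit 2159035897) (nat_lit 304) (nat_lit 2054000012) (nat_lit 38) (nat_lit 5) (nat_lit 41) (nat_lit 5) (nat_lit 42) (nat_lit 4) (nat_lit 264) (nat_lit 232) (nat_lit 224)) (XT.lf (nat_lit 0) (nat_lit 329367774) (nat_lit 228) (nat_lit 148341319) (nat_lit 304) (nat_lit 8361885333) (nat_lit 34) (nat_lit 5) (nat_lit 37) (nat_lit 5) (nat_lit 38) (nat_lit 5) (nat_lit 265) (nat_lit 232) (nat_lit 223))) (XT.nd (nat_lit 78) (nat_lit 228) (nat_lit 0) (XT.lf (nat_lit 0) (nat_lit 3062735888) (nat_lit 304) (nat_lit 4022872744) (nat_lit 76) (nat_lit 1983383402) (nat_lit 34) (nat_lit 5)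 (nat_lit 38) (nat_lit 5) (nat_lit 35) (nat_lit 4) (nat_lit 266) (nat_lit 232) (nat_lit 222)) (XT.lf (nat_lit 0) (nat_lit 575078025) (nat_lit 228) (nat_lit 5111055401) (nat_lit 304) (nat_lit 3628827280) (nat_lit 31) (nat_lit 5) (nat_lit 34) (nat_lit 5) (nat_lit 35) (nat_lit 4) (nat_lit 267) (nat_lit 232) (nat_lit 221)))))) (XT.nd (nat_lit 624) (nat_lit 456) (nat_lit 0) (XT.nd (nat_lit 312) (nat_lit 456) (nat_lit 0) (XT.nd (nat_lit 156) (nat_lit 0) (nat_lit 0) (XT.nd (nat_lit 78) (nat_lit 304) (nat_lit 0) (XT.lf (nat_lit 0) (nat_lit 5414938957) (nat_lit 228) (nat_lit 2994478169) (nat_lit 304) (nat_lit 1165905494) (nat_lit 31) (nat_lit 5) (nat_lit 34) (nat_lit 5) (nat_lit 35) (nat_lit 4) (nat_lit 268) (nat_lit 232) (nat_lit 220)) (XT.lf (nat_lit 0) (nat_lit 517218774) (nat_lit 228) (nat_lit 768844420) (nat_lit 304) (nat_lit 8566444343) (nat_lit 27) (nat_lit 5) (nat_lit 30) (nat_lit 5)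 (nat_lit 31) (nat_lit 5) (nat_lit 269) (nat_lit 232) (nat_lit 219))) (XT.nd (nat_lit 78) (nat_lit 0) (nat_lit 0) (XT.lf (nat_lit 0) (nat_lit 3823048957) (nat_lit 304) (nat_lit 4739575913) (nat_lit 76) (nat_lit 1580349508) (nat_lit 27) (nat_lit 5) (nat_lit 31) (nat_lit 5) (nat_lit 28) (nat_lit 4) (nat_lit 270) (nat_lit 232) (nat_lit 218)) (XT.lf (nat_lit 0) (nat_lit 6409493312) (nat_lit 304) (nat_lit 48526509) (nat_lit 76) (nat_lit 3994250818) (nat_lit 27) (nat_lit 5) (nat_lit 31) (nat_lit 5) (nat_lit 28) (nat_lit 4) (nat_lit 271) (nat_lit 232) (nat_lit 217)))) (XT.nd (nat_lit 156) (nat_lit 228) (nat_lit 0) (XT.nd (nat_lit 78) (nat_lit 76) (nat_lit 0) (XT.lf (nat_lit 0) (nat_lit 4918453661) (nat_lit 152) (nat_lit 4197887828) (nat_lit 228) (nat_lit 1661551900) (nat_lit 25) (nat_lit 5) (nat_lit 27) (nat_lit 5) (nat_lit 28) (nat_lit 4) (nat_lit 272) (nat_lit 232) (nat_lit 216)) (XT.lf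 (nat_lit 0) (nat_lit 727564290) (nat_lit 228) (nat_lit 1114761275) (nat_lit 76) (nat_lit 9281410352) (nat_lit 24) (nat_lit 5) (nat_lit 27) (nat_lit 5) (nat_lit 25) (nat_lit 5) (nat_lit 273) (nat_lit 232) (nat_lit 215))) (XT.nd (nat_lit 78) (nat_lit 0) (nat_lit 0) (XT.lf (nat_lit 0) (nat_lit 3170128096) (nat_lit 304) (nat_lit 7646315702) (nat_lit 76) (nat_lit 669932451) (nat_lit 21) (nat_lit 5) (nat_lit 25) (nat_lit 5) (nat_lit 22) (nat_lit 4) (nat_lit 274) (nat_lit 232) (nat_lit 214)) (XT.lf (nat_lit 0) (nat_lit 5704765917) (nat_lit 304) (nat_lit 2929169214) (nat_lit 76) (nat_lit 3235058216) (nat_lit 21) (nat_lit 5) (nat_lit 25) (nat_lit 5) (nat_lit 22) (nat_lit 4) (nat_lit 275) (nat_lit 232) (nat_lit 213))))) (XT.nd (nat_lit 312) (nat_lit 76) (nat_lit 0) (XT.nd (nat_lit 156) (nat_lit 228) (nat_lit 0) (XT.nd (nat_lit 78) (nat_lit 0) (nat_lit 0) (XT.lf (nat_lit 0) (nat_lit 1978808370)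 (nat_lit 152) (nat_lit 6342560339) (nat_lit 228) (nat_lit 3951936695) (nat_lit 19) (nat_lit 5) (nat_lit 21) (nat_lit 5) (nat_lit 22) (nat_lit 4) (nat_lit 276) (nat_lit 232) (nat_lit 212)) (XT.lf (nat_lit 0) (nat_lit 7127266273) (nat_lit 152) (nat_lit 3917419015) (nat_lit 228) (nat_lit 1654663836) (nat_lit 19) (nat_lit 5) (nat_lit 21) (nat_lit 5) (nat_lit 22) (nat_lit 4) (nat_lit 277) (nat_lit 232) (nat_lit 211))) (XT.nd (nat_lit 78) (nat_lit 152) (nat_lit 0) (XT.lf (nat_lit 0) (nat_lit 661579149) (nat_lit 228) (nat_lit 729560600) (nat_lit 76) (nat_lit 11758827851) (nat_lit 18) (nat_lit 5) (nat_lit 21) (nat_lit 5) (nat_lit 19) (nat_lit 5) (nat_lit 278) (nat_lit 232) (nat_lit 210)) (XT.lf (nat_lit 0) (nat_lit 3058768224) (nat_lit 228) (nat_lit 9274246009) (nat_lit 76) (nat_lit 1287977411) (nat_lit 16) (nat_lit 5) (nat_lit 19) (nat_lit 5) (nat_lit 17) (nat_lit 4) (nat_lit 279) (nat_lit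 232) (nat_lit 209)))) (XT.nd (nat_lit 156) (nat_lit 0) (nat_lit 0) (XT.nd (nat_lit 78) (nat_lit 76) (nat_lit 0) (XT.lf (nat_lit 0) (nat_lit 5544182035) (nat_lit 228) (nat_lit 4536481180) (nat_lit 76) (nat_lit 4036740647) (nat_lit 16) (nat_lit 5) (nat_lit 19) (nat_lit 5) (nat_lit 17) (nat_lit 4) (nat_lit 280) (nat_lit 232) (nat_lit 208)) (XT.lf (nat_lit 0) (nat_lit 353564518) (nat_lit 76) (nat_lit 7742014251) (nat_lit 152) (nat_lit 6546215397) (nat_lit 15) (nat_lit 5) (nat_lit 16) (nat_lit 5) (nat_lit 17) (nat_lit 4) (nat_lit 281) (nat_lit 232) (nat_lit 207))) (XT.nd (nat_lit 78) (nat_lit 0) (nat_lit 0) (XT.lf (nat_lit 0) (nat_lit 5551232396) (nat_lit 76) (nat_lit 5237897535) (nat_lit 152) (nat_lit 4402776332) (nat_lit 15) (nat_lit 5) (nat_lit 16) (nat_lit 5) (nat_lit 17) (nat_lit 4) (nat_lit 282) (nat_lit 232) (nat_lit 206)) (XT.lf (nat_lit 0) (nat_lit 10918901299) (nat_lit 76) (nat_lit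 2639178389) (nat_lit 152) (nat_lit 2214628709) (nat_lit 15) (nat_lit 5) (nat_lit 16) (nat_lit 5) (nat_lit 17) (nat_lit 4) (nat_lit 283) (nat_lit 232) (nat_lit 205)))))))
noncomputable def xc69 : XT := (XT.nd (nat_lit 1248) (nat_lit 228) (nat_lit 0) (XT.nd (nat_lit 624) (nat_lit 304) (nat_lit 0) (XT.nd (nat_lit 312) (nat_lit 76) (nat_lit 0) (XT.nd (nat_lit 156) (nat_lit 0) (nat_lit 0) (XT.nd (nat_lit 78) (nat_lit 0) (nat_lit 0) (XT.lf (nat_lit 0) (nat_lit 25002380) (nat_lit 228) (nat_lit 16300308173) (nat_lit 76) (nat_lit 60138823) (nat_lit 12) (nat_lit 5) (nat_lit 15) (nat_lit 5) (nat_lit 13) (nat_lit 4) (nat_lit 284) (nat_lit 232) (nat_lit 204)) (XT.lf (nat_lit 0) (nat_lit 2372343319) (nat_lit 228) (nat_lit 11754906996) (nat_lit 76) (nat_lit 2896444565) (nat_lit 12) (nat_lit 5) (nat_lit 15) (nat_lit 5) (nat_lit 13) (nat_lit 4) (nat_lit 285) (nat_lit 232) (nat_lit 203))) (XT.nd (nat_lit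 78) (nat_lit 0) (nat_lit 0) (XT.lf (nat_lit 0) (nat_lit 4783089386) (nat_lit 228) (nat_lit 7066827796) (nat_lit 76) (nat_lit 5846814967) (nat_lit 12) (nat_lit 5) (nat_lit 15) (nat_lit 5) (nat_lit 13) (nat_lit 4) (nat_lit 286) (nat_lit 232) (nat_lit 202)) (XT.lf (nat_lit 0) (nat_lit 7262980451) (nat_lit 228) (nat_lit 2224908479) (nat_lit 76) (nat_lit 8918274720) (nat_lit 12) (nat_lit 5) (nat_lit 15) (nat_lit 5) (nat_lit 13) (nat_lit 4) (nat_lit 287) (nat_lit 232) (nat_lit 201)))) (XT.nd (nat_lit 156) (nat_lit 0) (nat_lit 0) (XT.nd (nat_lit 78) (nat_lit 0) (nat_lit 0) (XT.lf (nat_lit 0) (nat_lit 2874377357) (nat_lit 76) (nat_lit 6988420746) (nat_lit 152) (nat_lit 9288636551) (nat_lit 11) (nat_lit 5) (nat_lit 12) (nat_lit 5) (nat_lit 13) (nat_lit 4) (nat_lit 288) (nat_lit 232) (nat_lit 200)) (XT.lf (nat_lit 0) (nat_lit 8230381354) (nat_lit 76) (nat_lit 4352112242) (nat_lit 152) (nat_lit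 7352137960) (nat_lit 11) (nat_lit 5) (nat_lit 12) (nat_lit 5) (nat_lit 13) (nat_lit 4) (nat_lit 289) (nat_lit 232) (nat_lit 199))) (XT.nd (nat_lit 78) (nat_lit 0) (nat_lit 0) (XT.lf (nat_lit 0) (nat_lit 13782290379) (nat_lit 76) (nat_lit 1610366394) (nat_lit 152) (nat_lit 5366756615) (nat_lit 11) (nat_lit 5) (nat_lit 12) (nat_lit 5) (nat_lit 13) (nat_lit 4) (nat_lit 290) (nat_lit 232) (nat_lit 198)) (XT.lf (nat_lit 0) (nat_lit 18319390596) (nat_lit 152) (nat_lit 2103832753) (nat_lit 0) (nat_lit 1203549965) (nat_lit 11) (nat_lit 5) (nat_lit 13) (nat_lit 4) (nat_lit 11) (nat_lit 4) (nat_lit 291) (nat_lit 232) (nat_lit 197))))) (XT.nd (nat_lit 312) (nat_lit 76) (nat_lit 0) (XT.nd (nat_lit 156) (nat_lit 0) (nat_lit 0) (XT.nd (nat_lit 78) (nat_lit 76) (nat_lit 0) (XT.lf (nat_lit 0) (nat_lit 3016223434) (nat_lit 152) (nat_lit 18408069936) (nat_lit 152) (nat_lit 1111751613) (nat_lit 9) (nat_lit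 4) (nat_lit 11) (nat_lit 5) (nat_lit 11) (nat_lit 4) (nat_lit 292) (nat_lit 232) (nat_lit 196)) (XT.lf (nat_lit 0) (nat_lit 1150172985) (nat_lit 228) (nat_lit 15110347219) (nat_lit 76) (nat_lit 7229715158) (nat_lit 8) (nat_lit 5) (nat_lit 11) (nat_lit 5) (nat_lit 9) (nat_lit 4) (nat_lit 293) (nat_lit 232) (nat_lit 195))) (XT.nd (nat_lit 78) (nat_lit 0) (nat_lit 0) (XT.lf (nat_lit 0) (nat_lit 3448310746) (nat_lit 228) (nat_lit 10562863395) (nat_lit 76) (nat_lit 10482142820) (nat_lit 8) (nat_lit 5) (nat_lit 11) (nat_lit 5) (nat_lit 9) (nat_lit 4) (nat_lit 294) (nat_lit 232) (nat_lit 194)) (XT.lf (nat_lit 0) (nat_lit 5823716422) (nat_lit 228) (nat_lit 5849185175) (nat_lit 76) (nat_lit 13875644351) (nat_lit 8) (nat_lit 5) (nat_lit 11) (nat_lit 5) (nat_lit 9) (nat_lit 4) (nat_lit 295) (nat_lit 232) (nat_lit 193)))) (XT.nd (nat_lit 156) (nat_lit 0) (nat_lit 0) (XT.nd (nat_lit 78) (nat_lit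 76) (nat_lit 0) (XT.lf (nat_lit 0) (nat_lit 8282045739) (nat_lit 228) (nat_lit 958089519) (nat_lit 76) (nat_lit 17418299516) (nat_lit 8) (nat_lit 5) (nat_lit 11) (nat_lit 5) (nat_lit 9) (nat_lit 4) (nat_lit 296) (nat_lit 232) (nat_lit 192)) (XT.lf (nat_lit 0) (nat_lit 4258363259) (nat_lit 76) (nat_lit 6637273588) (nat_lit 152) (nat_lit 16926664933) (nat_lit 7) (nat_lit 5) (nat_lit 8) (nat_lit 5) (nat_lit 9) (nat_lit 4) (nat_lit 297) (nat_lit 232) (nat_lit 191))) (XT.nd (nat_lit 78) (nat_lit 0) (nat_lit 0) (XT.lf (nat_lit 0) (nat_lit 9714304533) (nat_lit 76) (nat_lit 3908462317) (nat_lit 152) (nat_lit 15422548518) (nat_lit 7) (nat_lit 5) (nat_lit 8) (nat_lit 5) (nat_lit 9) (nat_lit 4) (nat_lit 298) (nat_lit 232) (nat_lit 190)) (XT.lf (nat_lit 0) (nat_lit 15391045872) (nat_lit 76) (nat_lit 1063429986) (nat_lit 152) (nat_lit 13876684267) (nat_lit 7) (nat_lit 5) (nat_lit 8) (nat_lit 5)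 (nat_lit 9) (nat_lit 4) (nat_lit 299) (nat_lit 232) (nat_lit 189)))))) (XT.nd (nat_lit 624) (nat_lit 76) (nat_lit 0) (XT.nd (nat_lit 312) (nat_lit 76) (nat_lit 0) (XT.nd (nat_lit 156) (nat_lit 76) (nat_lit 0) (XT.nd (nat_lit 78) (nat_lit 0) (nat_lit 0) (XT.lf (nat_lit 0) (nat_lit 19427242135) (nat_lit 152) (nat_lit 10410530363) (nat_lit 0) (nat_lit 1843638284) (nat_lit 7) (nat_lit 5) (nat_lit 9) (nat_lit 4) (nat_lit 7) (nat_lit 4) (nat_lit 300) (nat_lit 232) (nat_lit 188)) (XT.lf (nat_lit 0) (nat_lit 22536970545) (nat_lit 152) (nat_lit 5720301288) (nat_lit 0) (nat_lit 4842569047) (nat_lit 7) (nat_lit 5) (nat_lit 9) (nat_lit 4) (nat_lit 7) (nat_lit 4) (nat_lit 301) (nat_lit 232) (nat_lit 187))) (XT.nd (nat_lit 78) (nat_lit 76) (nat_lit 0) (XT.lf (nat_lit 0) (nat_lit 25774462080) (nat_lit 152) (nat_lit 841656694) (nat_lit 0) (nat_lit 7974539013) (nat_lit 7) (nat_lit 5) (nat_lit 9) (nat_lit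 4) (nat_lit 7) (nat_lit 4) (nat_lit 302) (nat_lit 232) (nat_lit 186)) (XT.lf (nat_lit 0) (nat_lit 4377114230) (nat_lit 76) (nat_lit 24838649844) (nat_lit 76) (nat_lit 6938230045) (nat_lit 6) (nat_lit 4) (nat_lit 7) (nat_lit 5) (nat_lit 7) (nat_lit 4) (nat_lit 303) (nat_lit 232) (nat_lit 185)))) (XT.nd (nat_lit 156) (nat_lit 76) (nat_lit 0) (XT.nd (nat_lit 78) (nat_lit 0) (nat_lit 0) (XT.lf (nat_lit 0) (nat_lit 9842851310) (nat_lit 76) (nat_lit 22974713515) (nat_lit 76) (nat_lit 4978582543) (nat_lit 6) (nat_lit 4) (nat_lit 7) (nat_lit 5) (nat_lit 7) (nat_lit 4) (nat_lit 304) (nat_lit 232) (nat_lit 184)) (XT.lf (nat_lit 0) (nat_lit 15540739233) (nat_lit 76) (nat_lit 21034125708) (nat_lit 76) (nat_lit 2946841237) (nat_lit 6) (nat_lit 4) (nat_lit 7) (nat_lit 5) (nat_lit 7) (nat_lit 4) (nat_lit 305) (nat_lit 232) (nat_lit 183))) (XT.nd (nat_lit 78) (nat_lit 76) (nat_lit 0) (XT.lf (nat_lit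 0) (nat_lit 21484344399) (nat_lit 76) (nat_lit 19012265975) (nat_lit 76) (nat_lit 838168649) (nat_lit 6) (nat_lit 4) (nat_lit 7) (nat_lit 5) (nat_lit 7) (nat_lit 4) (nat_lit 306) (nat_lit 232) (nat_lit 182)) (XT.lf (nat_lit 0) (nat_lit 1309168836) (nat_lit 152) (nat_lit 15572980120) (nat_lit 76) (nat_lit 26356478005) (nat_lit 5) (nat_lit 5) (nat_lit 7) (nat_lit 5) (nat_lit 6) (nat_lit 4) (nat_lit 307) (nat_lit 232) (nat_lit 181))))) (XT.nd (nat_lit 312) (nat_lit 0) (nat_lit 0) (XT.nd (nat_lit 156) (nat_lit 76) (nat_lit 0) (XT.nd (nat_lit 78) (nat_lit 0) (nat_lit 0) (XT.lf (nat_lit 0) (nat_lit 3514057485) (nat_lit 152) (nat_lit 11131700210) (nat_lit 76) (nat_lit 30592361210) (nat_lit 5) (nat_lit 5) (nat_lit 7) (nat_lit 5) (nat_lit 6) (nat_lit 4) (nat_lit 308) (nat_lit 232) (nat_lit 180)) (XT.lf (nat_lit 0) (nat_lit 5808573662) (nat_lit 152) (nat_lit 6502934255) (nat_lit 76) (nat_lit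 35027161938) (nat_lit 5) (nat_lit 5) (nat_lit 7) (nat_lit 5) (nat_lit 6) (nat_lit 4) (nat_lit 309) (nat_lit 232) (nat_lit 179))) (XT.nd (nat_lit 78) (nat_lit 76) (nat_lit 0) (XT.lf (nat_lit 0) (nat_lit 8198180501) (nat_lit 152) (nat_lit 1675661386) (nat_lit 76) (nat_lit 39671439240) (nat_lit 5) (nat_lit 5) (nat_lit 7) (nat_lit 5) (nat_lit 6) (nat_lit 4) (nat_lit 310) (nat_lit 232) (nat_lit 178)) (XT.lf (nat_lit 0) (nat_lit 3472761976) (nat_lit 76) (nat_lit 7270025114) (nat_lit 152) (nat_lit 41117708488) (nat_lit 4) (nat_lit 5) (nat_lit 5) (nat_lit 5) (nat_lit 6) (nat_lit 4) (nat_lit 311) (nat_lit 232) (nat_lit 177)))) (XT.nd (nat_lit 156) (nat_lit 0) (nat_lit 0) (XT.nd (nat_lit 78) (nat_lit 0) (nat_lit 0) (XT.lf (nat_lit 0) (nat_lit 8905924323) (nat_lit 76) (nat_lit 4518786394) (nat_lit 152) (nat_lit 40866301970) (nat_lit 4) (nat_lit 5) (nat_lit 5) (nat_lit 5) (nat_lit 6) (nat_lit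 4) (nat_lit 312) (nat_lit 232) (nat_lit 176)) (XT.lf (nat_lit 0) (nat_lit 14581356823) (nat_lit 76) (nat_lit 1641953297) (nat_lit 152) (nat_lit 40620660621) (nat_lit 4) (nat_lit 5) (nat_lit 5) (nat_lit 5) (nat_lit 6) (nat_lit 4) (nat_lit 313) (nat_lit 232) (nat_lit 175))) (XT.nd (nat_lit 78) (nat_lit 0) (nat_lit 0) (XT.lf (nat_lit 0) (nat_lit 19166596386) (nat_lit 152) (nat_lit 39034223558) (nat_lit 0) (nat_lit 1323560879) (nat_lit 4) (nat_lit 5) (nat_lit 6) (nat_lit 4) (nat_lit 4) (nat_lit 4) (nat_lit 314) (nat_lit 232) (nat_lit 174)) (XT.nd (nat_lit 78) (nat_lit 0) (nat_lit 0) (XT.lf (nat_lit 0) (nat_lit 22267993934) (nat_lit 152) (nat_lit 35698647234) (nat_lit 0) (nat_lit 4371662865) (nat_lit 4) (nat_lit 5) (nat_lit 6) (nat_lit 4) (nat_lit 4) (nat_lit 4) (nat_lit 315) (nat_lit 232) (nat_lit 173)) (XT.lf (nat_lit 0) (nat_lit 25509251552) (nat_lit 152) (nat_lit 32222307606) (nat_lit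 0) (nat_lit 7562162804) (nat_lit 4) (nat_lit 5) (nat_lit 6) (nat_lit 4) (nat_lit 4) (nat_lit 4) (nat_lit 316) (nat_lit 232) (nat_lit 172))))))))
noncomputable def xc70 : XT := (XT.nd (nat_lit 1248) (nat_lit 0) (nat_lit 0) (XT.nd (nat_lit 624) (nat_lit 0) (nat_lit 0) (XT.nd (nat_lit 312) (nat_lit 76) (nat_lit 0) (XT.nd (nat_lit 156) (nat_lit 0) (nat_lit 0) (XT.nd (nat_lit 78) (nat_lit 0) (nat_lit 0) (XT.lf (nat_lit 0) (nat_lit 28898086520) (nat_lit 152) (nat_lit 28596927674) (nat_lit 0) (nat_lit 10902657126) (nat_lit 4) (nat_lit 5) (nat_lit 6) (nat_lit 4) (nat_lit 4) (nat_lit 4) (nat_lit 317) (nat_lit 232) (nat_lit 171)) (XT.lf (nat_lit 0) (nat_lit 32442567493) (nat_lit 152) (nat_lit 24813875582) (nat_lit 0) (nat_lit 14401099387) (nat_lit 4) (nat_lit 5) (nat_lit 6) (nat_lit 4) (nat_lit 4) (nat_lit 4) (nat_lit 318) (nat_lit 232) (nat_lit 170))) (XT.nd (nat_lit 78) (nat_lit 0) (nat_lit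 0) (XT.lf (nat_lit 0) (nat_lit 36151133710) (nat_lit 152) (nat_lit 20864144062) (nat_lit 0) (nat_lit 18065819213) (nat_lit 4) (nat_lit 5) (nat_lit 6) (nat_lit 4) (nat_lit 4) (nat_lit 4) (nat_lit 319) (nat_lit 232) (nat_lit 169)) (XT.lf (nat_lit 0) (nat_lit 40032615092) (nat_lit 152) (nat_lit 16738328992) (nat_lit 0) (nat_lit 21905542127) (nat_lit 4) (nat_lit 5) (nat_lit 6) (nat_lit 4) (nat_lit 4) (nat_lit 4) (nat_lit 320) (nat_lit 232) (nat_lit 168)))) (XT.nd (nat_lit 156) (nat_lit 76) (nat_lit 0) (XT.nd (nat_lit 78) (nat_lit 0) (nat_lit 0) (XT.lf (nat_lit 0) (nat_lit 44096253261) (nat_lit 152) (nat_lit 12426607002) (nat_lit 0) (nat_lit 25929410327) (nat_lit 4) (nat_lit 5) (nat_lit 6) (nat_lit 4) (nat_lit 4) (nat_lit 4) (nat_lit 321) (nat_lit 232) (nat_lit 167)) (XT.lf (nat_lit 0) (nat_lit 48351723545) (nat_lit 152) (nat_lit 7918712089) (nat_lit 0) (nat_lit 30147004450) (nat_lit 4)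 (nat_lit 5) (nat_lit 6) (nat_lit 4) (nat_lit 4) (nat_lit 4) (nat_lit 322) (nat_lit 232) (nat_lit 166))) (XT.nd (nat_lit 78) (nat_lit 76) (nat_lit 0) (XT.lf (nat_lit 0) (nat_lit 52809158018) (nat_lit 152) (nat_lit 3203911168) (nat_lit 0) (nat_lit 34568366388) (nat_lit 4) (nat_lit 5) (nat_lit 6) (nat_lit 4) (nat_lit 4) (nat_lit 4) (nat_lit 323) (nat_lit 232) (nat_lit 165)) (XT.lf (nat_lit 0) (nat_lit 1786190733) (nat_lit 76) (nat_lit 55720866327) (nat_lit 76) (nat_lit 37445719902) (nat_lit 3) (nat_lit 4) (nat_lit 4) (nat_lit 5) (nat_lit 4) (nat_lit 4) (nat_lit 324) (nat_lit 232) (nat_lit 164))))) (XT.nd (nat_lit 312) (nat_lit 0) (nat_lit 0) (XT.nd (nat_lit 156) (nat_lit 0) (nat_lit 0) (XT.nd (nat_lit 78) (nat_lit 0) (nat_lit 0) (XT.lf (nat_lit 0) (nat_lit 7119705975) (nat_lit 76) (nat_lit 55364330007) (nat_lit 76) (nat_lit 37056464730) (nat_lit 3) (nat_lit 4) (nat_lit 4) (nat_lit 5)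 (nat_lit 4) (nat_lit 4) (nat_lit 325) (nat_lit 232) (nat_lit 163)) (XT.lf (nat_lit 0) (nat_lit 12703397629) (nat_lit 76) (nat_lit 54996871118) (nat_lit 76) (nat_lit 36657845029) (nat_lit 3) (nat_lit 4) (nat_lit 4) (nat_lit 5) (nat_lit 4) (nat_lit 4) (nat_lit 326) (nat_lit 232) (nat_lit 162))) (XT.nd (nat_lit 78) (nat_lit 0) (nat_lit 0) (XT.lf (nat_lit 0) (nat_lit 18550560200) (nat_lit 76) (nat_lit 54617614757) (nat_lit 76) (nat_lit 36248911704) (nat_lit 3) (nat_lit 4) (nat_lit 4) (nat_lit 5) (nat_lit 4) (nat_lit 4) (nat_lit 327) (nat_lit 232) (nat_lit 161)) (XT.lf (nat_lit 0) (nat_lit 24675115503) (nat_lit 76) (nat_lit 54225657932) (nat_lit 76) (nat_lit 35828691105) (nat_lit 3) (nat_lit 4) (nat_lit 4) (nat_lit 5) (nat_lit 4) (nat_lit 4) (nat_lit 328) (nat_lit 232) (nat_lit 160)))) (XT.nd (nat_lit 156) (nat_lit 0) (nat_lit 0) (XT.nd (nat_lit 78) (nat_lit 0) (nat_lit 0) (XT.lf (nat_lit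 0) (nat_lit 31091645812) (nat_lit 76) (nat_lit 53820067413) (nat_lit 76) (nat_lit 35396182706) (nat_lit 3) (nat_lit 4) (nat_lit 4) (nat_lit 5) (nat_lit 4) (nat_lit 4) (nat_lit 329) (nat_lit 232) (nat_lit 159)) (XT.lf (nat_lit 0) (nat_lit 37815428580) (nat_lit 76) (nat_lit 53399877509) (nat_lit 76) (nat_lit 34950356725) (nat_lit 3) (nat_lit 4) (nat_lit 4) (nat_lit 5) (nat_lit 4) (nat_lit 4) (nat_lit 330) (nat_lit 232) (nat_lit 158))) (XT.nd (nat_lit 78) (nat_lit 0) (nat_lit 0) (XT.lf (nat_lit 0) (nat_lit 44862472815) (nat_lit 76) (nat_lit 52964087768) (nat_lit 76) (nat_lit 34490151672) (nat_lit 3) (nat_lit 4) (nat_lit 4) (nat_lit 5) (nat_lit 4) (nat_lit 4) (nat_lit 331) (nat_lit 232) (nat_lit 157)) (XT.lf (nat_lit 0) (nat_lit 52249557193) (nat_lit 76) (nat_lit 52511660594) (nat_lit 76) (nat_lit 34014471820) (nat_lit 3) (nat_lit 4) (nat_lit 4) (nat_lit 5) (nat_lit 4) (nat_lit 4) (nat_lit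 332) (nat_lit 232) (nat_lit 156)))))) (XT.nd (nat_lit 624) (nat_lit 0) (nat_lit 0) (XT.nd (nat_lit 312) (nat_lit 0) (nat_lit 0) (XT.nd (nat_lit 156) (nat_lit 0) (nat_lit 0) (XT.nd (nat_lit 78) (nat_lit 0) (nat_lit 0) (XT.lf (nat_lit 0) (nat_lit 59994270010) (nat_lit 76) (nat_lit 52041518780) (nat_lit 76) (nat_lit 33522184599) (nat_lit 3) (nat_lit 4) (nat_lit 4) (nat_lit 5) (nat_lit 4) (nat_lit 4) (nat_lit 333) (nat_lit 232) (nat_lit 155)) (XT.lf (nat_lit 0) (nat_lit 68115051059) (nat_lit 76) (nat_lit 51552542941) (nat_lit 76) (nat_lit 33012117896) (nat_lit 3) (nat_lit 4) (nat_lit 4) (nat_lit 5) (nat_lit 4) (nat_lit 4) (nat_lit 334) (nat_lit 232) (nat_lit 154))) (XT.nd (nat_lit 78) (nat_lit 0) (nat_lit 0) (XT.lf (nat_lit 0) (nat_lit 76631235532) (nat_lit 76) (nat_lit 51043568848) (nat_lit 76) (nat_lit 32483057267) (nat_lit 3) (nat_lit 4) (nat_lit 4) (nat_lit 5) (nat_lit 4) (nat_lit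 4) (nat_lit 335) (nat_lit 232) (nat_lit 153)) (XT.lf (nat_lit 0) (nat_lit 85563100059) (nat_lit 76) (nat_lit 50513384659) (nat_lit 76) (nat_lit 31933743043) (nat_lit 3) (nat_lit 4) (nat_lit 4) (nat_lit 5) (nat_lit 4) (nat_lit 4) (nat_lit 336) (nat_lit 232) (nat_lit 152)))) (XT.nd (nat_lit 156) (nat_lit 0) (nat_lit 0) (XT.nd (nat_lit 78) (nat_lit 0) (nat_lit 0) (XT.lf (nat_lit 0) (nat_lit 94931910985) (nat_lit 76) (nat_lit 49960728031) (nat_lit 76) (nat_lit 31362867333) (nat_lit 3) (nat_lit 4) (nat_lit 4) (nat_lit 5) (nat_lit 4) (nat_lit 4) (nat_lit 337) (nat_lit 232) (nat_lit 151)) (XT.lf (nat_lit 0) (nat_lit 104759975002) (nat_lit 76) (nat_lit 49384283114) (nat_lit 76) (nat_lit 30769070910) (nat_lit 3) (nat_lit 4) (nat_lit 4) (nat_lit 5) (nat_lit 4) (nat_lit 4) (nat_lit 338) (nat_lit 232) (nat_lit 150))) (XT.nd (nat_lit 78) (nat_lit 0) (nat_lit 0) (XT.lf (nat_lit 0) (nat_lit 115070692262)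 (nat_lit 76) (nat_lit 48782677419) (nat_lit 76) (nat_lit 30150939972) (nat_lit 3) (nat_lit 4) (nat_lit 4) (nat_lit 5) (nat_lit 4) (nat_lit 4) (nat_lit 339) (nat_lit 232) (nat_lit 149)) (XT.lf (nat_lit 0) (nat_lit 125888612092) (nat_lit 76) (nat_lit 48154478554) (nat_lit 76) (nat_lit 29507002779) (nat_lit 3) (nat_lit 4) (nat_lit 4) (nat_lit 5) (nat_lit 4) (nat_lit 4) (nat_lit 340) (nat_lit 232) (nat_lit 148))))) (XT.nd (nat_lit 312) (nat_lit 0) (nat_lit 0) (XT.nd (nat_lit 156) (nat_lit 0) (nat_lit 0) (XT.nd (nat_lit 78) (nat_lit 0) (nat_lit 0) (XT.lf (nat_lit 0) (nat_lit 137239491445) (nat_lit 76) (nat_lit 47498190806) (nat_lit 76) (nat_lit 28835726148) (nat_lit 3) (nat_lit 4) (nat_lit 4) (nat_lit 5) (nat_lit 4) (nat_lit 4) (nat_lit 341) (nat_lit 232) (nat_lit 147)) (XT.lf (nat_lit 0) (nat_lit 149150356222) (nat_lit 76) (nat_lit 46812251585) (nat_lit 76) (nat_lit 28135511800) (nat_lit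 3) (nat_lit 4) (nat_lit 4) (nat_lit 5) (nat_lit 4) (nat_lit 4) (nat_lit 342) (nat_lit 232) (nat_lit 146))) (XT.nd (nat_lit 78) (nat_lit 0) (nat_lit 0) (XT.lf (nat_lit 0) (nat_lit 161649565628) (nat_lit 76) (nat_lit 46095027703) (nat_lit 76) (nat_lit 27404692559) (nat_lit 3) (nat_lit 4) (nat_lit 4) (nat_lit 5) (nat_lit 4) (nat_lit 4) (nat_lit 343) (nat_lit 232) (nat_lit 145)) (XT.lf (nat_lit 0) (nat_lit 174766879683) (nat_lit 76) (nat_lit 45344811483) (nat_lit 76) (nat_lit 26641528379) (nat_lit 3) (nat_lit 4) (nat_lit 4) (nat_lit 5) (nat_lit 4) (nat_lit 4) (nat_lit 344) (nat_lit 232) (nat_lit 144)))) (XT.nd (nat_lit 156) (nat_lit 0) (nat_lit 0) (XT.nd (nat_lit 78) (nat_lit 0) (nat_lit 0) (XT.lf (nat_lit 0) (nat_lit 188533530087) (nat_lit 76) (nat_lit 44559816698) (nat_lit 76) (nat_lit 25844202201) (nat_lit 3) (nat_lit 4) (nat_lit 4) (nat_lit 5) (nat_lit 4) (nat_lit 4) (nat_lit 345)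 (nat_lit 232) (nat_lit 143)) (XT.lf (nat_lit 0) (nat_lit 202982294581) (nat_lit 76) (nat_lit 43738174310) (nat_lit 76) (nat_lit 25010815632) (nat_lit 3) (nat_lit 4) (nat_lit 4) (nat_lit 5) (nat_lit 4) (nat_lit 4) (nat_lit 346) (nat_lit 232) (nat_lit 142))) (XT.nd (nat_lit 78) (nat_lit 0) (nat_lit 0) (XT.lf (nat_lit 0) (nat_lit 218147574983) (nat_lit 76) (nat_lit 42877928030) (nat_lit 76) (nat_lit 24139384416) (nat_lit 3) (nat_lit 4) (nat_lit 4) (nat_lit 5) (nat_lit 4) (nat_lit 4) (nat_lit 347) (nat_lit 232) (nat_lit 141)) (XT.lf (nat_lit 0) (nat_lit 234065479106) (nat_lit 76) (nat_lit 41977029652) (nat_lit 76) (nat_lit 23227833718) (nat_lit 3) (nat_lit 4) (nat_lit 4) (nat_lit 5) (nat_lit 4) (nat_lit 4) (nat_lit 348) (nat_lit 232) (nat_lit 140)))))))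
noncomputable def xc71 : XT := (XT.nd (nat_lit 30654) (nat_lit 0) (nat_lit 1216) (XT.nd (nat_lit 624) (nat_lit 0) (nat_lit 0) (XT.nd (nat_lit 312) (nat_lit 0) (nat_lit 0) (XT.nd (nat_lit 156) (nat_lit 0) (nat_lit 0) (XT.nd (nat_lit 78) (nat_lit 0) (nat_lit 0) (XT.lf (nat_lit 0) (nat_lit 250773906719) (nat_lit 76) (nat_lit 41033334179) (nat_lit 76) (nat_lit 22273993179) (nat_lit 3) (nat_lit 4) (nat_lit 4) (nat_lit 5) (nat_lit 4) (nat_lit 4) (nat_lit 349) (nat_lit 232) (nat_lit 139)) (XT.lf (nat_lit 0) (nat_lit 268312639794) (nat_lit 76) (nat_lit 40044594717) (nat_lit 76) (nat_lit 21275591750) (nat_lit 3) (nat_lit 4) (nat_lit 4) (nat_lit 5) (nat_lit 4) (nat_lit 4) (nat_lit 350) (nat_lit 232) (nat_lit 138))) (XT.nd (nat_lit 78) (nat_lit 0) (nat_lit 0) (XT.lf (nat_lit 0) (nat_lit 286723437220) (nat_lit 76) (nat_lit 39008457125) (nat_lit 76) (nat_lit 20230252284) (nat_lit 3) (nat_lit 4)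 (nat_lit 4) (nat_lit 5) (nat_lit 4) (nat_lit 4) (nat_lit 351) (nat_lit 232) (nat_lit 137)) (XT.lf (nat_lit 0) (nat_lit 306050134227) (nat_lit 76) (nat_lit 37922454409) (nat_lit 76) (nat_lit 19135485879) (nat_lit 3) (nat_lit 4) (nat_lit 4) (nat_lit 5) (nat_lit 4) (nat_lit 4) (nat_lit 352) (nat_lit 232) (nat_lit 136)))) (XT.nd (nat_lit 156) (nat_lit 0) (nat_lit 0) (XT.nd (nat_lit 78) (nat_lit 0) (nat_lit 0) (XT.lf (nat_lit 0) (nat_lit 326338746762) (nat_lit 76) (nat_lit 36784000848) (nat_lit 76) (nat_lit 17988685947) (nat_lit 3) (nat_lit 4) (nat_lit 4) (nat_lit 5) (nat_lit 4) (nat_lit 4) (nat_lit 353) (nat_lit 232) (nat_lit 135)) (XT.lf (nat_lit 0) (nat_lit 347637581044) (nat_lit 76) (nat_lit 35590385839) (nat_lit 76) (nat_lit 16787122012) (nat_lit 3) (nat_lit 4) (nat_lit 4) (nat_lit 5) (nat_lit 4) (nat_lit 4) (nat_lit 354) (nat_lit 232) (nat_lit 134))) (XT.nd (nat_lit 78) (nat_lit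 0) (nat_lit 0) (XT.lf (nat_lit 0) (nat_lit 369997348584) (nat_lit 76) (nat_lit 34338767440) (nat_lit 76) (nat_lit 15527933208) (nat_lit 3) (nat_lit 4) (nat_lit 4) (nat_lit 5) (nat_lit 4) (nat_lit 4) (nat_lit 355) (nat_lit 232) (nat_lit 133)) (XT.lf (nat_lit 0) (nat_lit 393471286924) (nat_lit 76) (nat_lit 33026165607) (nat_lit 76) (nat_lit 14208121467) (nat_lit 3) (nat_lit 4) (nat_lit 4) (nat_lit 5) (nat_lit 4) (nat_lit 4) (nat_lit 356) (nat_lit 232) (nat_lit 132))))) (XT.nd (nat_lit 29718) (nat_lit 0) (nat_lit 3268) (XT.nd (nat_lit 29562) (nat_lit 0) (nat_lit 4104) (XT.nd (nat_lit 29484) (nat_lit 0) (nat_lit 5320) (XT.lf (nat_lit 0) (nat_lit 418115286393) (nat_lit 76) (nat_lit 31649455100) (nat_lit 76) (nat_lit 12824544379) (nat_lit 3) (nat_lit 4) (nat_lit 4) (nat_lit 5) (nat_lit 4) (nat_lit 4) (nat_lit 357) (nat_lit 232) (nat_lit 131)) (XT.lf (nat_lit 0) (nat_lit 1658929922) (nat_lit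 532) (nat_lit 236709445) (nat_lit 0) (nat_lit 1658929922) (nat_lit 73) (nat_lit 5) (nat_lit 80) (nat_lit 4) (nat_lit 73) (nat_lit 4) (nat_lit 254) (nat_lit 233) (nat_lit 233))) (XT.nd (nat_lit 78) (nat_lit 684) (nat_lit 0) (XT.lf (nat_lit 0) (nat_lit 3597569422) (nat_lit 532) (nat_lit 2580292379) (nat_lit 532) (nat_lit 1035917648) (nat_lit 66) (nat_lit 4) (nat_lit 73) (nat_lit 5) (nat_lit 73) (nat_lit 4) (nat_lit 255) (nat_lit 233) (nat_lit 232)) (XT.lf (nat_lit 0) (nat_lit 414304294) (nat_lit 608) (nat_lit 1258628439) (nat_lit 684) (nat_lit 5656562229) (nat_lit 57) (nat_lit 5) (nat_lit 65) (nat_lit 5) (nat_lit 66) (nat_lit 4) (nat_lit 256) (nat_lit 233) (nat_lit 231)))) (XT.nd (nat_lit 156) (nat_lit 380) (nat_lit 0) (XT.nd (nat_lit 78) (nat_lit 456) (nat_lit 0) (XT.lf (nat_lit 0) (nat_lit 4411815789) (nat_lit 684) (nat_lit 2836761382) (nat_lit 0) (nat_lit 206100345) (nat_lit 57)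 (nat_lit 5) (nat_lit 66) (nat_lit 4) (nat_lit 57) (nat_lit 4) (nat_lit 257) (nat_lit 233) (nat_lit 230)) (XT.lf (nat_lit 0) (nat_lit 1333625125) (nat_lit 456) (nat_lit 5867036216) (nat_lit 456) (nat_lit 390759858) (nat_lit 51) (nat_lit 4) (nat_lit 57) (nat_lit 5) (nat_lit 57) (nat_lit 4) (nat_lit 258) (nat_lit 233) (nat_lit 229))) (XT.nd (nat_lit 78) (nat_lit 304) (nat_lit 0) (XT.lf (nat_lit 0) (nat_lit 2238858729) (nat_lit 532) (nat_lit 2096673974) (nat_lit 76) (nat_lit 3402388237) (nat_lit 50) (nat_lit 5) (nat_lit 57) (nat_lit 5) (nat_lit 51) (nat_lit 4) (nat_lit 259) (nat_lit 233) (nat_lit 228)) (XT.lf (nat_lit 0) (nat_lit 2206307165) (nat_lit 304) (nat_lit 2693730756) (nat_lit 380) (nat_lit 2996550032) (nat_lit 46) (nat_lit 5) (nat_lit 50) (nat_lit 5) (nat_lit 51) (nat_lit 4) (nat_lit 260) (nat_lit 233) (nat_lit 227)))))) (XT.nd (nat_lit 624) (nat_lit 912) (nat_lit 0) (XT.nd (nat_lit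 312) (nat_lit 532) (nat_lit 0) (XT.nd (nat_lit 156) (nat_lit 228) (nat_lit 0) (XT.nd (nat_lit 78) (nat_lit 380) (nat_lit 0) (XT.lf (nat_lit 0) (nat_lit 6668925707) (nat_lit 304) (nat_lit 943393594) (nat_lit 380) (nat_lit 455750824) (nat_lit 46) (nat_lit 5) (nat_lit 50) (nat_lit 5) (nat_lit 51) (nat_lit 4) (nat_lit 261) (nat_lit 233) (nat_lit 226)) (XT.lf (nat_lit 0) (nat_lit 2089483404) (nat_lit 380) (nat_lit 5222866136) (nat_lit 76) (nat_lit 937351321) (nat_lit 41) (nat_lit 5) (nat_lit 46) (nat_lit 5) (nat_lit 42) (nat_lit 4) (nat_lit 262) (nat_lit 233) (nat_lit 225))) (XT.nd (nat_lit 78) (nat_lit 228) (nat_lit 0) (XT.lf (nat_lit 0) (nat_lit 4675072836) (nat_lit 380) (nat_lit 870519915) (nat_lit 76) (nat_lit 2898703552) (nat_lit 41) (nat_lit 5) (nat_lit 46) (nat_lit 5) (nat_lit 42) (nat_lit 4) (nat_lit 263) (nat_lit 233) (nat_lit 224)) (XT.lf (nat_lit 0) (nat_lit 3693216993) (nat_lit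 228) (nat_lit 3648539174) (nat_lit 304) (nat_lit 1309919604) (nat_lit 38) (nat_lit 5) (nat_lit 41) (nat_lit 5) (nat_lit 42) (nat_lit 4) (nat_lit 264) (nat_lit 233) (nat_lit 223)))) (XT.nd (nat_lit 156) (nat_lit 228) (nat_lit 0) (XT.nd (nat_lit 78) (nat_lit 228) (nat_lit 0) (XT.lf (nat_lit 0) (nat_lit 1141614065) (nat_lit 304) (nat_lit 499912796) (nat_lit 76) (nat_lit 7231989728) (nat_lit 37) (nat_lit 5) (nat_lit 41) (nat_lit 5) (nat_lit 38) (nat_lit 5) (nat_lit 265) (nat_lit 233) (nat_lit 222)) (XT.lf (nat_lit 0) (nat_lit 3645234708) (nat_lit 304) (nat_lit 4942853307) (nat_lit 76) (nat_lit 519168272) (nat_lit 34) (nat_lit 5) (nat_lit 38) (nat_lit 5) (nat_lit 35) (nat_lit 4) (nat_lit 266) (nat_lit 233) (nat_lit 221))) (XT.nd (nat_lit 78) (nat_lit 228) (nat_lit 0) (XT.lf (nat_lit 0) (nat_lit 6212131716) (nat_lit 304) (nat_lit 423585093) (nat_lit 76) (nat_lit 2720592017) (nat_lit 34)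 (nat_lit 5) (nat_lit 38) (nat_lit 5) (nat_lit 35) (nat_lit 4) (nat_lit 267) (nat_lit 233) (nat_lit 220)) (XT.lf (nat_lit 0) (nat_lit 4342965936) (nat_lit 228) (nat_lit 4539432554) (nat_lit 304) (nat_lit 737169609) (nat_lit 31) (nat_lit 5) (nat_lit 34) (nat_lit 5) (nat_lit 35) (nat_lit 4) (nat_lit 268) (nat_lit 233) (nat_lit 219))))) (XT.nd (nat_lit 312) (nat_lit 456) (nat_lit 0) (XT.nd (nat_lit 156) (nat_lit 152) (nat_lit 0) (XT.nd (nat_lit 78) (nat_lit 228) (nat_lit 0) (XT.lf (nat_lit 0) (nat_lit 1648067656) (nat_lit 304) (nat_lit 680437295) (nat_lit 76) (nat_lit 7570787434) (nat_lit 30) (nat_lit 5) (nat_lit 34) (nat_lit 5) (nat_lit 31) (nat_lit 5) (nat_lit 269) (nat_lit 233) (nat_lit 218)) (XT.lf (nat_lit 0) (nat_lit 4105648182) (nat_lit 304) (nat_lit 6041969939) (nat_lit 76) (nat_lit 46324314) (nat_lit 27) (nat_lit 5) (nat_lit 31) (nat_lit 5) (nat_lit 28) (nat_lit 4) (nat_lit 270)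 (nat_lit 233) (nat_lit 217))) (XT.nd (nat_lit 78) (nat_lit 152) (nat_lit 0) (XT.lf (nat_lit 0) (nat_lit 6650283152) (nat_lit 304) (nat_lit 1407526845) (nat_lit 76) (nat_lit 2447721977) (nat_lit 27) (nat_lit 5) (nat_lit 31) (nat_lit 5) (nat_lit 28) (nat_lit 4) (nat_lit 271) (nat_lit 233) (nat_lit 216)) (XT.lf (nat_lit 0) (nat_lit 3458825331) (nat_lit 152) (nat_lit 5835698647) (nat_lit 228) (nat_lit 1539954263) (nat_lit 25) (nat_lit 5) (nat_lit 27) (nat_lit 5) (nat_lit 28) (nat_lit 4) (nat_lit 272) (nat_lit 233) (nat_lit 215)))) (XT.nd (nat_lit 156) (nat_lit 152) (nat_lit 0) (XT.nd (nat_lit 78) (nat_lit 228) (nat_lit 0) (XT.lf (nat_lit 0) (nat_lit 805706257) (nat_lit 228) (nat_lit 2687397531) (nat_lit 76) (nat_lit 7689275441) (nat_lit 24) (nat_lit 5) (nat_lit 27) (nat_lit 5) (nat_lit 25) (nat_lit 5) (nat_lit 273) (nat_lit 233) (nat_lit 214)) (XT.lf (nat_lit 0) (nat_lit 2173126300) (nat_lit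 228) (nat_lit 1000455951) (nat_lit 304) (nat_lit 8375338548) (nat_lit 21) (nat_lit 5) (nat_lit 24) (nat_lit 5) (nat_lit 25) (nat_lit 5) (nat_lit 274) (nat_lit 233) (nat_lit 213))) (XT.nd (nat_lit 78) (nat_lit 152) (nat_lit 0) (XT.lf (nat_lit 0) (nat_lit 5655692023) (nat_lit 304) (nat_lit 4695886849) (nat_lit 76) (nat_lit 1582744335) (nat_lit 21) (nat_lit 5) (nat_lit 25) (nat_lit 5) (nat_lit 22) (nat_lit 4) (nat_lit 275) (nat_lit 233) (nat_lit 212)) (XT.nd (nat_lit 78) (nat_lit 0) (nat_lit 0) (XT.lf (nat_lit 0) (nat_lit 101668875) (nat_lit 152) (nat_lit 8106167932) (nat_lit 228) (nat_lit 4134172694) (nat_lit 19) (nat_lit 5) (nat_lit 21) (nat_lit 5) (nat_lit 22) (nat_lit 4) (nat_lit 276) (nat_lit 233) (nat_lit 211)) (XT.lf (nat_lit 0) (nat_lit 5200597067) (nat_lit 152) (nat_lit 5696306261) (nat_lit 228) (nat_lit 1873006529) (nat_lit 19) (nat_lit 5) (nat_lit 21) (nat_lit 5) (nat_lit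 22) (nat_lit 4) (nat_lit 277) (nat_lit 233) (nat_lit 210))))))))
noncomputable def xc72 : XT := (XT.nd (nat_lit 1248) (nat_lit 228) (nat_lit 0) (XT.nd (nat_lit 624) (nat_lit 304) (nat_lit 0) (XT.nd (nat_lit 312) (nat_lit 304) (nat_lit 0) (XT.nd (nat_lit 156) (nat_lit 0) (nat_lit 0) (XT.nd (nat_lit 78) (nat_lit 152) (nat_lit 0) (XT.lf (nat_lit 0) (nat_lit 416938069) (nat_lit 228) (nat_lit 2771784092) (nat_lit 76) (nat_lit 10033771687) (nat_lit 18) (nat_lit 5) (nat_lit 21) (nat_lit 5) (nat_lit 19) (nat_lit 5) (nat_lit 278) (nat_lit 233) (nat_lit 209)) (XT.lf (nat_lit 0) (nat_lit 2211187724) (nat_lit 152) (nat_lit 516781356) (nat_lit 228) (nat_lit 10969981221) (nat_lit 16) (nat_lit 5) (nat_lit 18) (nat_lit 5) (nat_lit 19) (nat_lit 5) (nat_lit 279) (nat_lit 233) (nat_lit 208))) (XT.nd (nat_lit 78) (nat_lit 0) (nat_lit 0) (XT.lf (nat_lit 0) (nat_lit 5174188681) (nat_lit 228) (nat_lit 6787721365)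 (nat_lit 76) (nat_lit 2234530763) (nat_lit 16) (nat_lit 5) (nat_lit 19) (nat_lit 5) (nat_lit 17) (nat_lit 4) (nat_lit 280) (nat_lit 233) (nat_lit 207)) (XT.lf (nat_lit 0) (nat_lit 7690421657) (nat_lit 228) (nat_lit 1953555768) (nat_lit 76) (nat_lit 5078724805) (nat_lit 16) (nat_lit 5) (nat_lit 19) (nat_lit 5) (nat_lit 17) (nat_lit 4) (nat_lit 281) (nat_lit 233) (nat_lit 206)))) (XT.nd (nat_lit 156) (nat_lit 228) (nat_lit 0) (XT.nd (nat_lit 78) (nat_lit 0) (nat_lit 0) (XT.lf (nat_lit 0) (nat_lit 3135673675) (nat_lit 76) (nat_lit 7187873613) (nat_lit 152) (nat_lit 4952395869) (nat_lit 15) (nat_lit 5) (nat_lit 16) (nat_lit 5) (nat_lit 17) (nat_lit 4) (nat_lit 282) (nat_lit 233) (nat_lit 205)) (XT.lf (nat_lit 0) (nat_lit 8461585379) (nat_lit 76) (nat_lit 4603372078) (nat_lit 152) (nat_lit 2793267245) (nat_lit 15) (nat_lit 5) (nat_lit 16) (nat_lit 5) (nat_lit 17) (nat_lit 4) (nat_lit 283)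 (nat_lit 233) (nat_lit 204))) (XT.nd (nat_lit 78) (nat_lit 228) (nat_lit 0) (XT.lf (nat_lit 0) (nat_lit 13972266710) (nat_lit 76) (nat_lit 1917403657) (nat_lit 152) (nat_lit 582838332) (nat_lit 15) (nat_lit 5) (nat_lit 16) (nat_lit 5) (nat_lit 17) (nat_lit 4) (nat_lit 284) (nat_lit 233) (nat_lit 203)) (XT.lf (nat_lit 0) (nat_lit 1685910567) (nat_lit 228) (nat_lit 14513602662) (nat_lit 76) (nat_lit 916646770) (nat_lit 12) (nat_lit 5) (nat_lit 15) (nat_lit 5) (nat_lit 13) (nat_lit 4) (nat_lit 285) (nat_lit 233) (nat_lit 202))))) (XT.nd (nat_lit 312) (nat_lit 228) (nat_lit 0) (XT.nd (nat_lit 156) (nat_lit 76) (nat_lit 0) (XT.nd (nat_lit 78) (nat_lit 0) (nat_lit 0) (XT.lf (nat_lit 0) (nat_lit 4071587217) (nat_lit 228) (nat_lit 9864822898) (nat_lit 76) (nat_lit 3854124895) (nat_lit 12) (nat_lit 5) (nat_lit 15) (nat_lit 5) (nat_lit 13) (nat_lit 4) (nat_lit 286) (nat_lit 233) (nat_lit 201))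 (XT.lf (nat_lit 0) (nat_lit 6527602647) (nat_lit 228) (nat_lit 5060331616) (nat_lit 76) (nat_lit 6913306288) (nat_lit 12) (nat_lit 5) (nat_lit 15) (nat_lit 5) (nat_lit 13) (nat_lit 4) (nat_lit 287) (nat_lit 233) (nat_lit 200))) (XT.nd (nat_lit 78) (nat_lit 76) (nat_lit 0) (XT.lf (nat_lit 0) (nat_lit 9059804514) (nat_lit 228) (nat_lit 88689552) (nat_lit 76) (nat_lit 10101474715) (nat_lit 12) (nat_lit 5) (nat_lit 15) (nat_lit 5) (nat_lit 13) (nat_lit 4) (nat_lit 288) (nat_lit 233) (nat_lit 199)) (XT.lf (nat_lit 0) (nat_lit 5229311151) (nat_lit 76) (nat_lit 6526554920) (nat_lit 152) (nat_lit 8278554105) (nat_lit 11) (nat_lit 5) (nat_lit 12) (nat_lit 5) (nat_lit 13) (nat_lit 4) (nat_lit 289) (nat_lit 233) (nat_lit 198)))) (XT.nd (nat_lit 156) (nat_lit 228) (nat_lit 0) (XT.nd (nat_lit 78) (nat_lit 0) (nat_lit 0) (XT.lf (nat_lit 0) (nat_lit 10747819400) (nat_lit 76) (nat_lit 3797063697)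 (nat_lit 152) (nat_lit 6315445549) (nat_lit 11) (nat_lit 5) (nat_lit 12) (nat_lit 5) (nat_lit 13) (nat_lit 4) (nat_lit 290) (nat_lit 233) (nat_lit 197)) (XT.lf (nat_lit 0) (nat_lit 16477042020) (nat_lit 76) (nat_lit 955023612) (nat_lit 152) (nat_lit 4297666533) (nat_lit 11) (nat_lit 5) (nat_lit 12) (nat_lit 5) (nat_lit 13) (nat_lit 4) (nat_lit 291) (nat_lit 233) (nat_lit 196))) (XT.nd (nat_lit 78) (nat_lit 228) (nat_lit 0) (XT.lf (nat_lit 0) (nat_lit 20455612387) (nat_lit 152) (nat_lit 245405191) (nat_lit 0) (nat_lit 1942116940) (nat_lit 11) (nat_lit 5) (nat_lit 13) (nat_lit 4) (nat_lit 11) (nat_lit 4) (nat_lit 292) (nat_lit 233) (nat_lit 195)) (XT.lf (nat_lit 0) (nat_lit 85532306) (nat_lit 228) (nat_lit 18501852804) (nat_lit 76) (nat_lit 5012001691) (nat_lit 8) (nat_lit 5) (nat_lit 11) (nat_lit 5) (nat_lit 9) (nat_lit 4) (nat_lit 293) (nat_lit 233) (nat_lit 194)))))) (XT.nd (nat_lit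 624) (nat_lit 152) (nat_lit 0) (XT.nd (nat_lit 312) (nat_lit 0) (nat_lit 0) (XT.nd (nat_lit 156) (nat_lit 76) (nat_lit 0) (XT.nd (nat_lit 78) (nat_lit 0) (nat_lit 0) (XT.lf (nat_lit 0) (nat_lit 2365309593) (nat_lit 228) (nat_lit 13984212783) (nat_lit 76) (nat_lit 8253918370) (nat_lit 8) (nat_lit 5) (nat_lit 11) (nat_lit 5) (nat_lit 9) (nat_lit 4) (nat_lit 294) (nat_lit 233) (nat_lit 193)) (XT.lf (nat_lit 0) (nat_lit 4723229102) (nat_lit 228) (nat_lit 9298957233) (nat_lit 76) (nat_lit 11637409441) (nat_lit 8) (nat_lit 5) (nat_lit 11) (nat_lit 5) (nat_lit 9) (nat_lit 4) (nat_lit 295) (nat_lit 233) (nat_lit 192))) (XT.nd (nat_lit 78) (nat_lit 76) (nat_lit 0) (XT.lf (nat_lit 0) (nat_lit 7164904927) (nat_lit 228) (nat_lit 4434930786) (nat_lit 76) (nat_lit 15170530835) (nat_lit 8) (nat_lit 5) (nat_lit 11) (nat_lit 5) (nat_lit 9) (nat_lit 4) (nat_lit 296) (nat_lit 233) (nat_lit 191)) (XT.lf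 (nat_lit 0) (nat_lit 639929309) (nat_lit 76) (nat_lit 9066212363) (nat_lit 152) (nat_lit 18231756527) (nat_lit 7) (nat_lit 5) (nat_lit 8) (nat_lit 5) (nat_lit 9) (nat_lit 4) (nat_lit 297) (nat_lit 233) (nat_lit 190)))) (XT.nd (nat_lit 156) (nat_lit 0) (nat_lit 0) (XT.nd (nat_lit 78) (nat_lit 0) (nat_lit 0) (XT.lf (nat_lit 0) (nat_lit 6070506193) (nat_lit 76) (nat_lit 6347264264) (nat_lit 152) (nat_lit 16743961080) (nat_lit 7) (nat_lit 5) (nat_lit 8) (nat_lit 5) (nat_lit 9) (nat_lit 4) (nat_lit 298) (nat_lit 233) (nat_lit 189)) (XT.lf (nat_lit 0) (nat_lit 11723090970) (nat_lit 76) (nat_lit 3511625430) (nat_lit 152) (nat_lit 15213640610) (nat_lit 7) (nat_lit 5) (nat_lit 8) (nat_lit 5) (nat_lit 9) (nat_lit 4) (nat_lit 299) (nat_lit 233) (nat_lit 188))) (XT.nd (nat_lit 78) (nat_lit 0) (nat_lit 0) (XT.lf (nat_lit 0) (nat_lit 17611142175) (nat_lit 76) (nat_lit 552544340) (nat_lit 152) (nat_lit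 13637151496) (nat_lit 7) (nat_lit 5) (nat_lit 8) (nat_lit 5) (nat_lit 9) (nat_lit 4) (nat_lit 300) (nat_lit 233) (nat_lit 187)) (XT.lf (nat_lit 0) (nat_lit 21251264601) (nat_lit 152) (nat_lit 9513325817) (nat_lit 0) (nat_lit 2455823812) (nat_lit 7) (nat_lit 5) (nat_lit 9) (nat_lit 4) (nat_lit 7) (nat_lit 4) (nat_lit 301) (nat_lit 233) (nat_lit 186))))) (XT.nd (nat_lit 312) (nat_lit 76) (nat_lit 0) (XT.nd (nat_lit 156) (nat_lit 0) (nat_lit 0) (XT.nd (nat_lit 78) (nat_lit 76) (nat_lit 0) (XT.lf (nat_lit 0) (nat_lit 24475876557) (nat_lit 152) (nat_lit 4656096291) (nat_lit 0) (nat_lit 5579939036) (nat_lit 7) (nat_lit 5) (nat_lit 9) (nat_lit 4) (nat_lit 7) (nat_lit 4) (nat_lit 302) (nat_lit 233) (nat_lit 185)) (XT.lf (nat_lit 0) (nat_lit 415482369) (nat_lit 76) (nat_lit 27427577739) (nat_lit 76) (nat_lit 8435929045) (nat_lit 6) (nat_lit 4) (nat_lit 7) (nat_lit 5) (nat_lit 7) (nat_lit 4)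 (nat_lit 303) (nat_lit 233) (nat_lit 184))) (XT.nd (nat_lit 78) (nat_lit 0) (nat_lit 0) (XT.lf (nat_lit 0) (nat_lit 5861153102) (nat_lit 76) (nat_lit 25571712307) (nat_lit 76) (nat_lit 6488910115) (nat_lit 6) (nat_lit 4) (nat_lit 7) (nat_lit 5) (nat_lit 7) (nat_lit 4) (nat_lit 304) (nat_lit 233) (nat_lit 183)) (XT.lf (nat_lit 0) (nat_lit 11539930219) (nat_lit 76) (nat_lit 23638811068) (nat_lit 76) (nat_lit 4469196020) (nat_lit 6) (nat_lit 4) (nat_lit 7) (nat_lit 5) (nat_lit 7) (nat_lit 4) (nat_lit 305) (nat_lit 233) (nat_lit 182)))) (XT.nd (nat_lit 156) (nat_lit 76) (nat_lit 0) (XT.nd (nat_lit 78) (nat_lit 0) (nat_lit 0) (XT.lf (nat_lit 0) (nat_lit 17465334617) (nat_lit 76) (nat_lit 21624271876) (nat_lit 76) (nat_lit 2371977918) (nat_lit 6) (nat_lit 4) (nat_lit 7) (nat_lit 5) (nat_lit 7) (nat_lit 4) (nat_lit 306) (nat_lit 233) (nat_lit 181)) (XT.lf (nat_lit 0) (nat_lit 23651474402)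 (nat_lit 76) (nat_lit 19523298210) (nat_lit 76) (nat_lit 192262433) (nat_lit 6) (nat_lit 4) (nat_lit 7) (nat_lit 5) (nat_lit 7) (nat_lit 4) (nat_lit 307) (nat_lit 233) (nat_lit 180))) (XT.nd (nat_lit 78) (nat_lit 0) (nat_lit 0) (XT.lf (nat_lit 0) (nat_lit 2008722787) (nat_lit 152) (nat_lit 15288146271) (nat_lit 76) (nat_lit 28070336999) (nat_lit 5) (nat_lit 5) (nat_lit 7) (nat_lit 5) (nat_lit 6) (nat_lit 4) (nat_lit 308) (nat_lit 233) (nat_lit 179)) (XT.lf (nat_lit 0) (nat_lit 4293660844) (nat_lit 152) (nat_lit 10675444406) (nat_lit 76) (nat_lit 32499155550) (nat_lit 5) (nat_lit 5) (nat_lit 7) (nat_lit 5) (nat_lit 6) (nat_lit 4) (nat_lit 309) (nat_lit 233) (nat_lit 178)))))))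
noncomputable def xc73 : XT := (XT.nd (nat_lit 1248) (nat_lit 0) (nat_lit 0) (XT.nd (nat_lit 624) (nat_lit 76) (nat_lit 0) (XT.nd (nat_lit 312) (nat_lit 0) (nat_lit 0) (XT.nd (nat_lit 156) (nat_lit 76) (nat_lit 0) (XT.nd (nat_lit 78) (nat_lit 0) (nat_lit 0) (XT.lf (nat_lit 0) (nat_lit 6674145664) (nat_lit 152) (nat_lit 5863470669) (nat_lit 76) (nat_lit 37137735540) (nat_lit 5) (nat_lit 5) (nat_lit 7) (nat_lit 5) (nat_lit 6) (nat_lit 4) (nat_lit 310) (nat_lit 233) (nat_lit 177)) (XT.lf (nat_lit 0) (nat_lit 9155845068) (nat_lit 152) (nat_lit 840767980) (nat_lit 76) (nat_lit 41997121206) (nat_lit 5) (nat_lit 5) (nat_lit 7) (nat_lit 5) (nat_lit 6) (nat_lit 4) (nat_lit 311) (nat_lit 233) (nat_lit 176))) (XT.nd (nat_lit 78) (nat_lit 0) (nat_lit 0) (XT.lf (nat_lit 0) (nat_lit 4550259188) (nat_lit 76) (nat_lit 7265450975) (nat_lit 152) (nat_lit 42609665625) (nat_lit 4) (nat_lit 5) (nat_lit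 5) (nat_lit 5) (nat_lit 6) (nat_lit 4) (nat_lit 312) (nat_lit 233) (nat_lit 175)) (XT.lf (nat_lit 0) (nat_lit 10212038742) (nat_lit 76) (nat_lit 4394177719) (nat_lit 152) (nat_lit 42372542509) (nat_lit 4) (nat_lit 5) (nat_lit 5) (nat_lit 5) (nat_lit 6) (nat_lit 4) (nat_lit 313) (nat_lit 233) (nat_lit 174)))) (XT.nd (nat_lit 156) (nat_lit 0) (nat_lit 0) (XT.nd (nat_lit 78) (nat_lit 0) (nat_lit 0) (XT.lf (nat_lit 0) (nat_lit 16130251524) (nat_lit 76) (nat_lit 1390195728) (nat_lit 152) (nat_lit 42140194072) (nat_lit 4) (nat_lit 5) (nat_lit 5) (nat_lit 5) (nat_lit 6) (nat_lit 4) (nat_lit 314) (nat_lit 233) (nat_lit 173)) (XT.lf (nat_lit 0) (nat_lit 20592720531) (nat_lit 152) (nat_lit 40185799119) (nat_lit 0) (nat_lit 1697519667) (nat_lit 4) (nat_lit 5) (nat_lit 6) (nat_lit 4) (nat_lit 4) (nat_lit 4) (nat_lit 315) (nat_lit 233) (nat_lit 172))) (XT.nd (nat_lit 78) (nat_lit 0) (nat_lit 0)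 (XT.lf (nat_lit 0) (nat_lit 23826912037) (nat_lit 152) (nat_lit 36721545675) (nat_lit 0) (nat_lit 4883370526) (nat_lit 4) (nat_lit 5) (nat_lit 6) (nat_lit 4) (nat_lit 4) (nat_lit 4) (nat_lit 316) (nat_lit 233) (nat_lit 171)) (XT.lf (nat_lit 0) (nat_lit 27209017373) (nat_lit 152) (nat_lit 33107676395) (nat_lit 0) (nat_lit 8219437152) (nat_lit 4) (nat_lit 5) (nat_lit 6) (nat_lit 4) (nat_lit 4) (nat_lit 4) (nat_lit 317) (nat_lit 233) (nat_lit 170))))) (XT.nd (nat_lit 312) (nat_lit 76) (nat_lit 0) (XT.nd (nat_lit 156) (nat_lit 0) (nat_lit 0) (XT.nd (nat_lit 78) (nat_lit 0) (nat_lit 0) (XT.lf (nat_lit 0) (nat_lit 30747089173) (nat_lit 152) (nat_lit 29335586828) (nat_lit 0) (nat_lit 11713662560) (nat_lit 4) (nat_lit 5) (nat_lit 6) (nat_lit 4) (nat_lit 4) (nat_lit 4) (nat_lit 318) (nat_lit 233) (nat_lit 169)) (XT.lf (nat_lit 0) (nat_lit 34449551417) (nat_lit 152) (nat_lit 25396295808) (nat_lit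 0) (nat_lit 15374366336) (nat_lit 4) (nat_lit 5) (nat_lit 6) (nat_lit 4) (nat_lit 4) (nat_lit 4) (nat_lit 319) (nat_lit 233) (nat_lit 168))) (XT.nd (nat_lit 78) (nat_lit 0) (nat_lit 0) (XT.lf (nat_lit 0) (nat_lit 38325219490) (nat_lit 152) (nat_lit 21280424072) (nat_lit 0) (nat_lit 19210264440) (nat_lit 4) (nat_lit 5) (nat_lit 6) (nat_lit 4) (nat_lit 4) (nat_lit 4) (nat_lit 320) (nat_lit 233) (nat_lit 167)) (XT.lf (nat_lit 0) (nat_lit 42383321175) (nat_lit 152) (nat_lit 16978171924) (nat_lit 0) (nat_lit 23230489964) (nat_lit 4) (nat_lit 5) (nat_lit 6) (nat_lit 4) (nat_lit 4) (nat_lit 4) (nat_lit 321) (nat_lit 233) (nat_lit 166)))) (XT.nd (nat_lit 156) (nat_lit 76) (nat_lit 0) (XT.nd (nat_lit 78) (nat_lit 0) (nat_lit 0) (XT.lf (nat_lit 0) (nat_lit 46633518618) (nat_lit 152) (nat_lit 12479295908) (nat_lit 0) (nat_lit 27444614871) (nat_lit 4) (nat_lit 5) (nat_lit 6) (nat_lit 4) (nat_lit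 4) (nat_lit 4) (nat_lit 322) (nat_lit 233) (nat_lit 165)) (XT.lf (nat_lit 0) (nat_lit 51085931336) (nat_lit 152) (nat_lit 7773084413) (nat_lit 0) (nat_lit 31862672795) (nat_lit 4) (nat_lit 5) (nat_lit 6) (nat_lit 4) (nat_lit 4) (nat_lit 4) (nat_lit 323) (nat_lit 233) (nat_lit 164))) (XT.nd (nat_lit 78) (nat_lit 76) (nat_lit 0) (XT.lf (nat_lit 0) (nat_lit 55751160312) (nat_lit 152) (nat_lit 2848332174) (nat_lit 0) (nat_lit 36495182919) (nat_lit 4) (nat_lit 5) (nat_lit 6) (nat_lit 4) (nat_lit 4) (nat_lit 4) (nat_lit 324) (nat_lit 233) (nat_lit 163)) (XT.lf (nat_lit 0) (nat_lit 2382955879) (nat_lit 76) (nat_lit 58294561976) (nat_lit 76) (nat_lit 39007423771) (nat_lit 3) (nat_lit 4) (nat_lit 4) (nat_lit 5) (nat_lit 4) (nat_lit 4) (nat_lit 325) (nat_lit 233) (nat_lit 162)))))) (XT.nd (nat_lit 624) (nat_lit 0) (nat_lit 0) (XT.nd (nat_lit 312) (nat_lit 0) (nat_lit 0) (XT.nd (nat_lit 156)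 (nat_lit 0) (nat_lit 0) (XT.nd (nat_lit 78) (nat_lit 0) (nat_lit 0) (XT.lf (nat_lit 0) (nat_lit 7958982330) (nat_lit 76) (nat_lit 57930310634) (nat_lit 76) (nat_lit 38613495465) (nat_lit 3) (nat_lit 4) (nat_lit 4) (nat_lit 5) (nat_lit 4) (nat_lit 4) (nat_lit 326) (nat_lit 233) (nat_lit 161)) (XT.lf (nat_lit 0) (nat_lit 13798844707) (nat_lit 76) (nat_lit 57554109080) (nat_lit 76) (nat_lit 38209030136) (nat_lit 3) (nat_lit 4) (nat_lit 4) (nat_lit 5) (nat_lit 4) (nat_lit 4) (nat_lit 327) (nat_lit 233) (nat_lit 160))) (XT.nd (nat_lit 78) (nat_lit 0) (nat_lit 0) (XT.lf (nat_lit 0) (nat_lit 19916447444) (nat_lit 76) (nat_lit 57165061595) (nat_lit 76) (nat_lit 37793064771) (nat_lit 3) (nat_lit 4) (nat_lit 4) (nat_lit 5) (nat_lit 4) (nat_lit 4) (nat_lit 328) (nat_lit 233) (nat_lit 159)) (XT.lf (nat_lit 0) (nat_lit 26326356263) (nat_lit 76) (nat_lit 56762241877) (nat_lit 76) (nat_lit 37364608976)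 (nat_lit 3) (nat_lit 4) (nat_lit 4) (nat_lit 5) (nat_lit 4) (nat_lit 4) (nat_lit 329) (nat_lit 233) (nat_lit 158)))) (XT.nd (nat_lit 156) (nat_lit 0) (nat_lit 0) (XT.nd (nat_lit 78) (nat_lit 0) (nat_lit 0) (XT.lf (nat_lit 0) (nat_lit 33043832850) (nat_lit 76) (nat_lit 56344690830) (nat_lit 76) (nat_lit 36922642618) (nat_lit 3) (nat_lit 4) (nat_lit 4) (nat_lit 5) (nat_lit 4) (nat_lit 4) (nat_lit 330) (nat_lit 233) (nat_lit 157)) (XT.lf (nat_lit 0) (nat_lit 40084871198) (nat_lit 76) (nat_lit 55911414286) (nat_lit 76) (nat_lit 36466113396) (nat_lit 3) (nat_lit 4) (nat_lit 4) (nat_lit 5) (nat_lit 4) (nat_lit 4) (nat_lit 331) (nat_lit 233) (nat_lit 156))) (XT.nd (nat_lit 78) (nat_lit 0) (nat_lit 0) (XT.lf (nat_lit 0) (nat_lit 47466235683) (nat_lit 76) (nat_lit 55461380633) (nat_lit 76) (nat_lit 35993934336) (nat_lit 3) (nat_lit 4) (nat_lit 4) (nat_lit 5) (nat_lit 4) (nat_lit 4) (nat_lit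 332) (nat_lit 233) (nat_lit 155)) (XT.lf (nat_lit 0) (nat_lit 55205500983) (nat_lit 76) (nat_lit 54993518363) (nat_lit 76) (nat_lit 35504981203) (nat_lit 3) (nat_lit 4) (nat_lit 4) (nat_lit 5) (nat_lit 4) (nat_lit 4) (nat_lit 333) (nat_lit 233) (nat_lit 154))))) (XT.nd (nat_lit 312) (nat_lit 0) (nat_lit 0) (XT.nd (nat_lit 156) (nat_lit 0) (nat_lit 0) (XT.nd (nat_lit 78) (nat_lit 0) (nat_lit 0) (XT.lf (nat_lit 0) (nat_lit 63321093921) (nat_lit 76) (nat_lit 54506713519) (nat_lit 76) (nat_lit 34998089821) (nat_lit 3) (nat_lit 4) (nat_lit 4) (nat_lit 5) (nat_lit 4) (nat_lit 4) (nat_lit 334) (nat_lit 233) (nat_lit 153)) (XT.lf (nat_lit 0) (nat_lit 71832337336) (nat_lit 76) (nat_lit 53999807040) (nat_lit 76) (nat_lit 34472053307) (nat_lit 3) (nat_lit 4) (nat_lit 4) (nat_lit 5) (nat_lit 4) (nat_lit 4) (nat_lit 335) (nat_lit 233) (nat_lit 152))) (XT.nd (nat_lit 78) (nat_lit 0) (nat_lit 0)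 (XT.lf (nat_lit 0) (nat_lit 80759496093) (nat_lit 76) (nat_lit 53471592007) (nat_lit 76) (nat_lit 33925619193) (nat_lit 3) (nat_lit 4) (nat_lit 4) (nat_lit 5) (nat_lit 4) (nat_lit 4) (nat_lit 336) (nat_lit 233) (nat_lit 151)) (XT.lf (nat_lit 0) (nat_lit 90123825333) (nat_lit 76) (nat_lit 52920810765) (nat_lit 76) (nat_lit 33357486445) (nat_lit 3) (nat_lit 4) (nat_lit 4) (nat_lit 5) (nat_lit 4) (nat_lit 4) (nat_lit 337) (nat_lit 233) (nat_lit 150)))) (XT.nd (nat_lit 156) (nat_lit 0) (nat_lit 0) (XT.nd (nat_lit 78) (nat_lit 0) (nat_lit 0) (XT.lf (nat_lit 0) (nat_lit 99947621078) (nat_lit 76) (nat_lit 52346151930) (nat_lit 76) (nat_lit 32766302367) (nat_lit 3) (nat_lit 4) (nat_lit 4) (nat_lit 5) (nat_lit 4) (nat_lit 4) (nat_lit 338) (nat_lit 233) (nat_lit 149)) (XT.lf (nat_lit 0) (nat_lit 110254273317) (nat_lit 76) (nat_lit 51746247267) (nat_lit 76) (nat_lit 32150659376) (nat_lit 3)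 (nat_lit 4) (nat_lit 4) (nat_lit 5) (nat_lit 4) (nat_lit 4) (nat_lit 339) (nat_lit 233) (nat_lit 148))) (XT.nd (nat_lit 78) (nat_lit 0) (nat_lit 0) (XT.lf (nat_lit 0) (nat_lit 121068321699) (nat_lit 76) (nat_lit 51119668431) (nat_lit 76) (nat_lit 31509091657) (nat_lit 3) (nat_lit 4) (nat_lit 4) (nat_lit 5) (nat_lit 4) (nat_lit 4) (nat_lit 340) (nat_lit 233) (nat_lit 147)) (XT.nd (nat_lit 78) (nat_lit 0) (nat_lit 0) (XT.lf (nat_lit 0) (nat_lit 132415513958) (nat_lit 76) (nat_lit 50464923569) (nat_lit 76) (nat_lit 30840071667) (nat_lit 3) (nat_lit 4) (nat_lit 4) (nat_lit 5) (nat_lit 4) (nat_lit 4) (nat_lit 341) (nat_lit 233) (nat_lit 146)) (XT.lf (nat_lit 0) (nat_lit 144322867218) (nat_lit 76) (nat_lit 49780453762) (nat_lit 76) (nat_lit 30142006502) (nat_lit 3) (nat_lit 4) (nat_lit 4) (nat_lit 5) (nat_lit 4) (nat_lit 4) (nat_lit 342) (nat_lit 233) (nat_lit 145))))))))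
noncomputable def xc74 : XT := (XT.nd (nat_lit 31746) (nat_lit 0) (nat_lit 304) (XT.nd (nat_lit 30498) (nat_lit 0) (nat_lit 2128) (XT.nd (nat_lit 624) (nat_lit 0) (nat_lit 0) (XT.nd (nat_lit 312) (nat_lit 0) (nat_lit 0) (XT.nd (nat_lit 156) (nat_lit 0) (nat_lit 0) (XT.nd (nat_lit 78) (nat_lit 0) (nat_lit 0) (XT.lf (nat_lit 0) (nat_lit 156818732320) (nat_lit 76) (nat_lit 49064629322) (nat_lit 76) (nat_lit 29413234101) (nat_lit 3) (nat_lit 4) (nat_lit 4) (nat_lit 5) (nat_lit 4) (nat_lit 4) (nat_lit 343) (nat_lit 233) (nat_lit 144)) (XT.lf (nat_lit 0) (nat_lit 169932861325) (nat_lit 76) (nat_lit 48315745905) (nat_lit 76) (nat_lit 28652019293) (nat_lit 3) (nat_lit 4) (nat_lit 4) (nat_lit 5) (nat_lit 4) (nat_lit 4) (nat_lit 344) (nat_lit 233) (nat_lit 143))) (XT.nd (nat_lit 78) (nat_lit 0) (nat_lit 0) (XT.lf (nat_lit 0) (nat_lit 183696478349) (nat_lit 76) (nat_lit 47532020455) (nat_lit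 76) (nat_lit 27856549660) (nat_lit 3) (nat_lit 4) (nat_lit 4) (nat_lit 5) (nat_lit 4) (nat_lit 4) (nat_lit 345) (nat_lit 233) (nat_lit 142)) (XT.lf (nat_lit 0) (nat_lit 198142353908) (nat_lit 76) (nat_lit 46711586959) (nat_lit 76) (nat_lit 27024931229) (nat_lit 3) (nat_lit 4) (nat_lit 4) (nat_lit 5) (nat_lit 4) (nat_lit 4) (nat_lit 346) (nat_lit 233) (nat_lit 141)))) (XT.nd (nat_lit 156) (nat_lit 0) (nat_lit 0) (XT.nd (nat_lit 78) (nat_lit 0) (nat_lit 0) (XT.lf (nat_lit 0) (nat_lit 213304882944) (nat_lit 76) (nat_lit 45852492003) (nat_lit 76) (nat_lit 26155183954) (nat_lit 3) (nat_lit 4) (nat_lit 4) (nat_lit 5) (nat_lit 4) (nat_lit 4) (nat_lit 347) (nat_lit 233) (nat_lit 140)) (XT.lf (nat_lit 0) (nat_lit 229220166718) (nat_lit 76) (nat_lit 44952690124) (nat_lit 76) (nat_lit 25245237009) (nat_lit 3) (nat_lit 4) (nat_lit 4) (nat_lit 5) (nat_lit 4) (nat_lit 4) (nat_lit 348) (nat_lit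 233) (nat_lit 139))) (XT.nd (nat_lit 78) (nat_lit 0) (nat_lit 0) (XT.lf (nat_lit 0) (nat_lit 245926098761) (nat_lit 76) (nat_lit 44010038937) (nat_lit 76) (nat_lit 24292923853) (nat_lit 3) (nat_lit 4) (nat_lit 4) (nat_lit 5) (nat_lit 4) (nat_lit 4) (nat_lit 349) (nat_lit 233) (nat_lit 138)) (XT.lf (nat_lit 0) (nat_lit 263462455103) (nat_lit 76) (nat_lit 43022294033) (nat_lit 76) (nat_lit 23295977075) (nat_lit 3) (nat_lit 4) (nat_lit 4) (nat_lit 5) (nat_lit 4) (nat_lit 4) (nat_lit 350) (nat_lit 233) (nat_lit 137))))) (XT.nd (nat_lit 312) (nat_lit 0) (nat_lit 0) (XT.nd (nat_lit 156) (nat_lit 0) (nat_lit 0) (XT.nd (nat_lit 78) (nat_lit 0) (nat_lit 0) (XT.lf (nat_lit 0) (nat_lit 281870988972) (nat_lit 76) (nat_lit 41987103639) (nat_lit 76) (nat_lit 22252022992) (nat_lit 3) (nat_lit 4) (nat_lit 4) (nat_lit 5) (nat_lit 4) (nat_lit 4) (nat_lit 351) (nat_lit 233) (nat_lit 136)) (XT.lf (nat_lit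 0) (nat_lit 301195530212) (nat_lit 76) (nat_lit 40902003016) (nat_lit 76) (nat_lit 21158575998) (nat_lit 3) (nat_lit 4) (nat_lit 4) (nat_lit 5) (nat_lit 4) (nat_lit 4) (nat_lit 352) (nat_lit 233) (nat_lit 135))) (XT.nd (nat_lit 78) (nat_lit 0) (nat_lit 0) (XT.lf (nat_lit 0) (nat_lit 321482089635) (nat_lit 76) (nat_lit 39764408591) (nat_lit 76) (nat_lit 20013032648) (nat_lit 3) (nat_lit 4) (nat_lit 4) (nat_lit 5) (nat_lit 4) (nat_lit 4) (nat_lit 353) (nat_lit 233) (nat_lit 134)) (XT.lf (nat_lit 0) (nat_lit 342778968573) (nat_lit 76) (nat_lit 38571611806) (nat_lit 76) (nat_lit 18812665459) (nat_lit 3) (nat_lit 4) (nat_lit 4) (nat_lit 5) (nat_lit 4) (nat_lit 4) (nat_lit 354) (nat_lit 233) (nat_lit 133)))) (XT.nd (nat_lit 156) (nat_lit 0) (nat_lit 0) (XT.nd (nat_lit 78) (nat_lit 0) (nat_lit 0) (XT.lf (nat_lit 0) (nat_lit 365136873880) (nat_lit 76) (nat_lit 37320772669) (nat_lit 76) (nat_lit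 17554616413) (nat_lit 3) (nat_lit 4) (nat_lit 4) (nat_lit 5) (nat_lit 4) (nat_lit 4) (nat_lit 355) (nat_lit 233) (nat_lit 132)) (XT.lf (nat_lit 0) (nat_lit 388609038665) (nat_lit 76) (nat_lit 36008912991) (nat_lit 76) (nat_lit 16235890154) (nat_lit 3) (nat_lit 4) (nat_lit 4) (nat_lit 5) (nat_lit 4) (nat_lit 4) (nat_lit 356) (nat_lit 233) (nat_lit 131))) (XT.nd (nat_lit 29328) (nat_lit 0) (nat_lit 5852) (XT.lf (nat_lit 0) (nat_lit 413251349033) (nat_lit 76) (nat_lit 34632909297) (nat_lit 76) (nat_lit 14853346860) (nat_lit 3) (nat_lit 4) (nat_lit 4) (nat_lit 5) (nat_lit 4) (nat_lit 4) (nat_lit 357) (nat_lit 233) (nat_lit 130)) (XT.lf (nat_lit 0) (nat_lit 2868491740) (nat_lit 380) (nat_lit 297426663) (nat_lit 380) (nat_lit 297426663) (nat_lit 80) (nat_lit 4) (nat_lit 85) (nat_lit 5) (nat_lit 85) (nat_lit 4) (nat_lit 252) (nat_lit 234) (nat_lit 234)))))) (XT.nd (nat_lit 624) (nat_lit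 1140) (nat_lit 0) (XT.nd (nat_lit 312) (nat_lit 836) (nat_lit 0) (XT.nd (nat_lit 156) (nat_lit 1216) (nat_lit 0) (XT.nd (nat_lit 78) (nat_lit 0) (nat_lit 0) (XT.lf (nat_lit 0) (nat_lit 2135002592) (nat_lit 532) (nat_lit 4366203986) (nat_lit 0) (nat_lit 513409124) (nat_lit 73) (nat_lit 5) (nat_lit 80) (nat_lit 4) (nat_lit 73) (nat_lit 4) (nat_lit 253) (nat_lit 234) (nat_lit 233)) (XT.lf (nat_lit 0) (nat_lit 4870751147) (nat_lit 532) (nat_lit 537604610) (nat_lit 0) (nat_lit 1704782947) (nat_lit 73) (nat_lit 5) (nat_lit 80) (nat_lit 4) (nat_lit 73) (nat_lit 4) (nat_lit 254) (nat_lit 234) (nat_lit 232))) (XT.nd (nat_lit 78) (nat_lit 608) (nat_lit 0) (XT.lf (nat_lit 0) (nat_lit 427476675) (nat_lit 608) (nat_lit 3760474091) (nat_lit 76) (nat_lit 3033394768) (nat_lit 65) (nat_lit 5) (nat_lit 73) (nat_lit 5) (nat_lit 66) (nat_lit 4) (nat_lit 255) (nat_lit 234) (nat_lit 231)) (XT.lf (nat_lit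 0) (nat_lit 183712752) (nat_lit 608) (nat_lit 2851071363) (nat_lit 684) (nat_lit 4305375691) (nat_lit 57) (nat_lit 5) (nat_lit 65) (nat_lit 5) (nat_lit 66) (nat_lit 4) (nat_lit 256) (nat_lit 234) (nat_lit 230)))) (XT.nd (nat_lit 156) (nat_lit 304) (nat_lit 0) (XT.nd (nat_lit 78) (nat_lit 532) (nat_lit 0) (XT.lf (nat_lit 0) (nat_lit 4329053948) (nat_lit 608) (nat_lit 1378622925) (nat_lit 684) (nat_lit 1761429840) (nat_lit 57) (nat_lit 5) (nat_lit 65) (nat_lit 5) (nat_lit 66) (nat_lit 4) (nat_lit 257) (nat_lit 234) (nat_lit 229)) (XT.lf (nat_lit 0) (nat_lit 773572893) (nat_lit 532) (nat_lit 6644884669) (nat_lit 76) (nat_lit 191548767) (nat_lit 50) (nat_lit 5) (nat_lit 57) (nat_lit 5) (nat_lit 51) (nat_lit 4) (nat_lit 258) (nat_lit 234) (nat_lit 228))) (XT.nd (nat_lit 78) (nat_lit 304) (nat_lit 0) (XT.lf (nat_lit 0) (nat_lit 3331545765) (nat_lit 532) (nat_lit 2553476486) (nat_lit 76)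 (nat_lit 1874537270) (nat_lit 50) (nat_lit 5) (nat_lit 57) (nat_lit 5) (nat_lit 51) (nat_lit 4) (nat_lit 259) (nat_lit 234) (nat_lit 227)) (XT.lf (nat_lit 0) (nat_lit 1671813655) (nat_lit 304) (nat_lit 4256243539) (nat_lit 380) (nat_lit 1993785153) (nat_lit 46) (nat_lit 5) (nat_lit 50) (nat_lit 5) (nat_lit 51) (nat_lit 4) (nat_lit 260) (nat_lit 234) (nat_lit 226))))) (XT.nd (nat_lit 312) (nat_lit 532) (nat_lit 0) (XT.nd (nat_lit 156) (nat_lit 228) (nat_lit 0) (XT.nd (nat_lit 78) (nat_lit 304) (nat_lit 0) (XT.lf (nat_lit 0) (nat_lit 473687610) (nat_lit 380) (nat_lit 2029231937) (nat_lit 76) (nat_lit 5593115750) (nat_lit 45) (nat_lit 5) (nat_lit 50) (nat_lit 5) (nat_lit 46) (nat_lit 5) (nat_lit 261) (nat_lit 234) (nat_lit 225)) (XT.lf (nat_lit 0) (nat_lit 2323634913) (nat_lit 304) (nat_lit 601194165) (nat_lit 380) (nat_lit 5356786823) (nat_lit 41) (nat_lit 5) (nat_lit 45) (nat_lit 5)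 (nat_lit 46) (nat_lit 5) (nat_lit 262) (nat_lit 234) (nat_lit 224))) (XT.nd (nat_lit 78) (nat_lit 228) (nat_lit 0) (XT.lf (nat_lit 0) (nat_lit 5449399483) (nat_lit 380) (nat_lit 1656947286) (nat_lit 76) (nat_lit 1373230148) (nat_lit 41) (nat_lit 5) (nat_lit 46) (nat_lit 5) (nat_lit 42) (nat_lit 4) (nat_lit 263) (nat_lit 234) (nat_lit 223)) (XT.lf (nat_lit 0) (nat_lit 2821066950) (nat_lit 228) (nat_lit 5232225155) (nat_lit 304) (nat_lit 637103455) (nat_lit 38) (nat_lit 5) (nat_lit 41) (nat_lit 5) (nat_lit 42) (nat_lit 4) (nat_lit 264) (nat_lit 234) (nat_lit 222)))) (XT.nd (nat_lit 156) (nat_lit 228) (nat_lit 0) (XT.nd (nat_lit 78) (nat_lit 228) (nat_lit 0) (XT.lf (nat_lit 0) (nat_lit 1744116979) (nat_lit 304) (nat_lit 1480047837) (nat_lit 76) (nat_lit 5690257063) (nat_lit 37) (nat_lit 5) (nat_lit 41) (nat_lit 5) (nat_lit 38) (nat_lit 5) (nat_lit 265) (nat_lit 234) (nat_lit 221)) (XT.lf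 (nat_lit 0) (nat_lit 3102839705) (nat_lit 228) (nat_lit 1073356872) (nat_lit 304) (nat_lit 4975800892) (nat_lit 34) (nat_lit 5) (nat_lit 37) (nat_lit 5) (nat_lit 38) (nat_lit 5) (nat_lit 266) (nat_lit 234) (nat_lit 220))) (XT.nd (nat_lit 78) (nat_lit 228) (nat_lit 0) (XT.lf (nat_lit 0) (nat_lit 6681076475) (nat_lit 304) (nat_lit 1570537602) (nat_lit 76) (nat_lit 1152783300) (nat_lit 34) (nat_lit 5) (nat_lit 38) (nat_lit 5) (nat_lit 35) (nat_lit 4) (nat_lit 267) (nat_lit 234) (nat_lit 219)) (XT.lf (nat_lit 0) (nat_lit 3101609743) (nat_lit 228) (nat_lit 6187248646) (nat_lit 304) (nat_lit 382157280) (nat_lit 31) (nat_lit 5) (nat_lit 34) (nat_lit 5) (nat_lit 35) (nat_lit 4) (nat_lit 268) (nat_lit 234) (nat_lit 218))))))) (XT.nd (nat_lit 1248) (nat_lit 608) (nat_lit 0) (XT.nd (nat_lit 624) (nat_lit 456) (nat_lit 0) (XT.nd (nat_lit 312) (nat_lit 304) (nat_lit 0) (XT.nd (nat_lit 156) (nat_lit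 152) (nat_lit 0) (XT.nd (nat_lit 78) (nat_lit 228) (nat_lit 0) (XT.lf (nat_lit 0) (nat_lit 1948923124) (nat_lit 304) (nat_lit 2034202432) (nat_lit 76) (nat_lit 5969689923) (nat_lit 30) (nat_lit 5) (nat_lit 34) (nat_lit 5) (nat_lit 31) (nat_lit 5) (nat_lit 269) (nat_lit 234) (nat_lit 217)) (XT.lf (nat_lit 0) (nat_lit 2699705506) (nat_lit 228) (nat_lit 1642608341) (nat_lit 304) (nat_lit 5908563980) (nat_lit 27) (nat_lit 5) (nat_lit 30) (nat_lit 5) (nat_lit 31) (nat_lit 5) (nat_lit 270) (nat_lit 234) (nat_lit 216))) (XT.nd (nat_lit 78) (nat_lit 152) (nat_lit 0) (XT.lf (nat_lit 0) (nat_lit 6821484636) (nat_lit 304) (nat_lit 2944994280) (nat_lit 76) (nat_lit 799454809) (nat_lit 27) (nat_lit 5) (nat_lit 31) (nat_lit 5) (nat_lit 28) (nat_lit 4) (nat_lit 271) (nat_lit 234) (nat_lit 215)) (XT.lf (nat_lit 0) (nat_lit 1817481036) (nat_lit 152) (nat_lit 7584696097) (nat_lit 228) (nat_lit 1496064229)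 (nat_lit 25) (nat_lit 5) (nat_lit 27) (nat_lit 5) (nat_lit 28) (nat_lit 4) (nat_lit 272) (nat_lit 234) (nat_lit 214)))) (XT.nd (nat_lit 156) (nat_lit 0) (nat_lit 0) (XT.nd (nat_lit 78) (nat_lit 228) (nat_lit 0) (XT.lf (nat_lit 0) (nat_lit 810511739) (nat_lit 228) (nat_lit 4445118377) (nat_lit 76) (nat_lit 5992528810) (nat_lit 24) (nat_lit 5) (nat_lit 27) (nat_lit 5) (nat_lit 25) (nat_lit 5) (nat_lit 273) (nat_lit 234) (nat_lit 213)) (XT.lf (nat_lit 0) (nat_lit 306196631) (nat_lit 228) (nat_lit 2807157578) (nat_lit 304) (nat_lit 8504756871) (nat_lit 21) (nat_lit 5) (nat_lit 24) (nat_lit 5) (nat_lit 25) (nat_lit 5) (nat_lit 274) (nat_lit 234) (nat_lit 212))) (XT.nd (nat_lit 78) (nat_lit 0) (nat_lit 0) (XT.lf (nat_lit 0) (nat_lit 5349653485) (nat_lit 228) (nat_lit 185345991) (nat_lit 304) (nat_lit 6471688574) (nat_lit 21) (nat_lit 5) (nat_lit 24) (nat_lit 5) (nat_lit 25) (nat_lit 5)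 (nat_lit 275) (nat_lit 234) (nat_lit 211)) (XT.lf (nat_lit 0) (nat_lit 8049186395) (nat_lit 304) (nat_lit 1907783560) (nat_lit 76) (nat_lit 2459446416) (nat_lit 21) (nat_lit 5) (nat_lit 25) (nat_lit 5) (nat_lit 22) (nat_lit 4) (nat_lit 276) (nat_lit 234) (nat_lit 210))))) (XT.nd (nat_lit 312) (nat_lit 76) (nat_lit 0) (XT.nd (nat_lit 156) (nat_lit 152) (nat_lit 0) (XT.nd (nat_lit 78) (nat_lit 76) (nat_lit 0) (XT.lf (nat_lit 0) (nat_lit 3080893537) (nat_lit 152) (nat_lit 7593969573) (nat_lit 228) (nat_lit 2172760375) (nat_lit 19) (nat_lit 5) (nat_lit 21) (nat_lit 5) (nat_lit 22) (nat_lit 4) (nat_lit 277) (nat_lit 234) (nat_lit 209)) (XT.lf (nat_lit 0) (nat_lit 95076582) (nat_lit 228) (nat_lit 5010618866) (nat_lit 76) (nat_lit 8196455616) (nat_lit 18) (nat_lit 5) (nat_lit 21) (nat_lit 5) (nat_lit 19) (nat_lit 5) (nat_lit 278) (nat_lit 234) (nat_lit 208))) (XT.nd (nat_lit 78) (nat_lit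 152) (nat_lit 0) (XT.lf (nat_lit 0) (nat_lit 2341392721) (nat_lit 228) (nat_lit 142321355) (nat_lit 76) (nat_lit 11297247761) (nat_lit 18) (nat_lit 5) (nat_lit 21) (nat_lit 5) (nat_lit 19) (nat_lit 5) (nat_lit 279) (nat_lit 234) (nat_lit 207)) (XT.lf (nat_lit 0) (nat_lit 4724926228) (nat_lit 228) (nat_lit 9242879410) (nat_lit 76) (nat_lit 314893943) (nat_lit 16) (nat_lit 5) (nat_lit 19) (nat_lit 5) (nat_lit 17) (nat_lit 4) (nat_lit 280) (nat_lit 234) (nat_lit 206)))) (XT.nd (nat_lit 156) (nat_lit 0) (nat_lit 0) (XT.nd (nat_lit 78) (nat_lit 76) (nat_lit 0) (XT.lf (nat_lit 0) (nat_lit 7212927181) (nat_lit 228) (nat_lit 4451155556) (nat_lit 76) (nat_lit 3146397420) (nat_lit 16) (nat_lit 5) (nat_lit 19) (nat_lit 5) (nat_lit 17) (nat_lit 4) (nat_lit 281) (nat_lit 234) (nat_lit 205)) (XT.lf (nat_lit 0) (nat_lit 513734760) (nat_lit 76) (nat_lit 9264494596) (nat_lit 152) (nat_lit 5588985332)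 (nat_lit 15) (nat_lit 5) (nat_lit 16) (nat_lit 5) (nat_lit 17) (nat_lit 4) (nat_lit 282) (nat_lit 234) (nat_lit 204))) (XT.nd (nat_lit 78) (nat_lit 0) (nat_lit 0) (XT.lf (nat_lit 0) (nat_lit 5799877704) (nat_lit 76) (nat_lit 6693533642) (nat_lit 152) (nat_lit 3457493850) (nat_lit 15) (nat_lit 5) (nat_lit 16) (nat_lit 5) (nat_lit 17) (nat_lit 4) (nat_lit 283) (nat_lit 234) (nat_lit 203)) (XT.lf (nat_lit 0) (nat_lit 11272684025) (nat_lit 76) (nat_lit 4020461014) (nat_lit 152) (nat_lit 1273386025) (nat_lit 15) (nat_lit 5) (nat_lit 16) (nat_lit 5) (nat_lit 17) (nat_lit 4) (nat_lit 284) (nat_lit 234) (nat_lit 202)))))) (XT.nd (nat_lit 624) (nat_lit 304) (nat_lit 0) (XT.nd (nat_lit 312) (nat_lit 76) (nat_lit 0) (XT.nd (nat_lit 156) (nat_lit 0) (nat_lit 0) (XT.nd (nat_lit 78) (nat_lit 152) (nat_lit 0) (XT.lf (nat_lit 0) (nat_lit 937539124) (nat_lit 152) (nat_lit 285495449) (nat_lit 76) (nat_lit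 15991767411) (nat_lit 14) (nat_lit 5) (nat_lit 16) (nat_lit 5) (nat_lit 15) (nat_lit 5) (nat_lit 285) (nat_lit 234) (nat_lit 201)) (XT.lf (nat_lit 0) (nat_lit 3275564888) (nat_lit 228) (nat_lit 12879445226) (nat_lit 76) (nat_lit 1736629682) (nat_lit 12) (nat_lit 5) (nat_lit 15) (nat_lit 5) (nat_lit 13) (nat_lit 4) (nat_lit 286) (nat_lit 234) (nat_lit 200))) (XT.nd (nat_lit 78) (nat_lit 0) (nat_lit 0) (XT.lf (nat_lit 0) (nat_lit 5708841618) (nat_lit 228) (nat_lit 8110599692) (nat_lit 76) (nat_lit 4784117399) (nat_lit 12) (nat_lit 5) (nat_lit 15) (nat_lit 5) (nat_lit 13) (nat_lit 4) (nat_lit 287) (nat_lit 234) (nat_lit 199)) (XT.lf (nat_lit 0) (nat_lit 8219387580) (nat_lit 228) (nat_lit 3172905958) (nat_lit 76) (nat_lit 7961148992) (nat_lit 12) (nat_lit 5) (nat_lit 15) (nat_lit 5) (nat_lit 13) (nat_lit 4) (nat_lit 288) (nat_lit 234) (nat_lit 198)))) (XT.nd (nat_lit 156) (nat_lit 0)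 (nat_lit 0) (XT.nd (nat_lit 78) (nat_lit 0) (nat_lit 0) (XT.lf (nat_lit 0) (nat_lit 2009715846) (nat_lit 76) (nat_lit 8834841714) (nat_lit 152) (nat_lit 9296950273) (nat_lit 11) (nat_lit 5) (nat_lit 12) (nat_lit 5) (nat_lit 13) (nat_lit 4) (nat_lit 289) (nat_lit 234) (nat_lit 197)) (XT.lf (nat_lit 0) (nat_lit 7496413830) (nat_lit 76) (nat_lit 6117021564) (nat_lit 152) (nat_lit 7355053897) (nat_lit 11) (nat_lit 5) (nat_lit 12) (nat_lit 5) (nat_lit 13) (nat_lit 4) (nat_lit 290) (nat_lit 234) (nat_lit 196))) (XT.nd (nat_lit 78) (nat_lit 0) (nat_lit 0) (XT.lf (nat_lit 0) (nat_lit 13195340962) (nat_lit 76) (nat_lit 3286096786) (nat_lit 152) (nat_lit 5357476956) (nat_lit 11) (nat_lit 5) (nat_lit 12) (nat_lit 5) (nat_lit 13) (nat_lit 4) (nat_lit 291) (nat_lit 234) (nat_lit 195)) (XT.lf (nat_lit 0) (nat_lit 19120066113) (nat_lit 76) (nat_lit 335327082) (nat_lit 152) (nat_lit 3299463317) (nat_lit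 11) (nat_lit 5) (nat_lit 12) (nat_lit 5) (nat_lit 13) (nat_lit 4) (nat_lit 292) (nat_lit 234) (nat_lit 194))))) (XT.nd (nat_lit 312) (nat_lit 76) (nat_lit 0) (XT.nd (nat_lit 156) (nat_lit 0) (nat_lit 0) (XT.nd (nat_lit 78) (nat_lit 76) (nat_lit 0) (XT.lf (nat_lit 0) (nat_lit 1573755038) (nat_lit 152) (nat_lit 21036013467) (nat_lit 152) (nat_lit 1105357729) (nat_lit 9) (nat_lit 4) (nat_lit 11) (nat_lit 5) (nat_lit 11) (nat_lit 4) (nat_lit 293) (nat_lit 234) (nat_lit 193)) (XT.lf (nat_lit 0) (nat_lit 1192311740) (nat_lit 228) (nat_lit 17634896113) (nat_lit 76) (nat_lit 5893761255) (nat_lit 8) (nat_lit 5) (nat_lit 11) (nat_lit 5) (nat_lit 9) (nat_lit 4) (nat_lit 294) (nat_lit 234) (nat_lit 192))) (XT.nd (nat_lit 78) (nat_lit 0) (nat_lit 0) (XT.lf (nat_lit 0) (nat_lit 3533577757) (nat_lit 228) (nat_lit 12976709773) (nat_lit 76) (nat_lit 9267718555) (nat_lit 8) (nat_lit 5) (nat_lit 11)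 (nat_lit 5) (nat_lit 9) (nat_lit 4) (nat_lit 295) (nat_lit 234) (nat_lit 191)) (XT.lf (nat_lit 0) (nat_lit 5959393113) (nat_lit 228) (nat_lit 8138463525) (nat_lit 76) (nat_lit 12791760168) (nat_lit 8) (nat_lit 5) (nat_lit 11) (nat_lit 5) (nat_lit 9) (nat_lit 4) (nat_lit 296) (nat_lit 234) (nat_lit 190)))) (XT.nd (nat_lit 156) (nat_lit 0) (nat_lit 0) (XT.nd (nat_lit 78) (nat_lit 76) (nat_lit 0) (XT.lf (nat_lit 0) (nat_lit 8475533560) (nat_lit 228) (nat_lit 3108637735) (nat_lit 76) (nat_lit 16474276667) (nat_lit 8) (nat_lit 5) (nat_lit 11) (nat_lit 5) (nat_lit 9) (nat_lit 4) (nat_lit 297) (nat_lit 234) (nat_lit 189)) (XT.lf (nat_lit 0) (nat_lit 2194996984) (nat_lit 76) (nat_lit 8927262978) (nat_lit 152) (nat_lit 18163309019) (nat_lit 7) (nat_lit 5) (nat_lit 8) (nat_lit 5) (nat_lit 9) (nat_lit 4) (nat_lit 298) (nat_lit 234) (nat_lit 188))) (XT.nd (nat_lit 78) (nat_lit 0) (nat_lit 0)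 (XT.lf (nat_lit 0) (nat_lit 7824575512) (nat_lit 76) (nat_lit 6100570332) (nat_lit 152) (nat_lit 16647792149) (nat_lit 7) (nat_lit 5) (nat_lit 8) (nat_lit 5) (nat_lit 9) (nat_lit 4) (nat_lit 299) (nat_lit 234) (nat_lit 187)) (XT.lf (nat_lit 0) (nat_lit 13690716004) (nat_lit 76) (nat_lit 3150009420) (nat_lit 152) (nat_lit 15085401703) (nat_lit 7) (nat_lit 5) (nat_lit 8) (nat_lit 5) (nat_lit 9) (nat_lit 4) (nat_lit 300) (nat_lit 234) (nat_lit 186))))))))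
noncomputable def xc75 : XT := (XT.nd (nat_lit 1248) (nat_lit 76) (nat_lit 0) (XT.nd (nat_lit 624) (nat_lit 76) (nat_lit 0) (XT.nd (nat_lit 312) (nat_lit 76) (nat_lit 0) (XT.nd (nat_lit 156) (nat_lit 76) (nat_lit 0) (XT.nd (nat_lit 78) (nat_lit 0) (nat_lit 0) (XT.lf (nat_lit 0) (nat_lit 19807385460) (nat_lit 76) (nat_lit 68555098) (nat_lit 152) (nat_lit 13472417702) (nat_lit 7) (nat_lit 5) (nat_lit 8) (nat_lit 5) (nat_lit 9) (nat_lit 4) (nat_lit 301) (nat_lit 234) (nat_lit 185)) (XT.lf (nat_lit 0) (nat_lit 23087215911) (nat_lit 152) (nat_lit 8703068241) (nat_lit 0) (nat_lit 3050273609) (nat_lit 7) (nat_lit 5) (nat_lit 9) (nat_lit 4) (nat_lit 7) (nat_lit 4) (nat_lit 302) (nat_lit 234) (nat_lit 184))) (XT.nd (nat_lit 78) (nat_lit 76) (nat_lit 0) (XT.lf (nat_lit 0) (nat_lit 26436230461) (nat_lit 152) (nat_lit 3664211708) (nat_lit 0) (nat_lit 6308134661) (nat_lit 7) (nat_lit 5) (nat_lit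 9) (nat_lit 4) (nat_lit 7) (nat_lit 4) (nat_lit 303) (nat_lit 234) (nat_lit 183)) (XT.lf (nat_lit 0) (nat_lit 1641192830) (nat_lit 76) (nat_lit 28314318504) (nat_lit 76) (nat_lit 8099409848) (nat_lit 6) (nat_lit 4) (nat_lit 7) (nat_lit 5) (nat_lit 7) (nat_lit 4) (nat_lit 304) (nat_lit 234) (nat_lit 182)))) (XT.nd (nat_lit 156) (nat_lit 76) (nat_lit 0) (XT.nd (nat_lit 78) (nat_lit 0) (nat_lit 0) (XT.lf (nat_lit 0) (nat_lit 7301769179) (nat_lit 76) (nat_lit 26388737806) (nat_lit 76) (nat_lit 6091150240) (nat_lit 6) (nat_lit 4) (nat_lit 7) (nat_lit 5) (nat_lit 7) (nat_lit 4) (nat_lit 305) (nat_lit 234) (nat_lit 181)) (XT.lf (nat_lit 0) (nat_lit 13209839512) (nat_lit 76) (nat_lit 24381170558) (nat_lit 76) (nat_lit 4004841173) (nat_lit 6) (nat_lit 4) (nat_lit 7) (nat_lit 5) (nat_lit 7) (nat_lit 4) (nat_lit 306) (nat_lit 234) (nat_lit 180))) (XT.nd (nat_lit 78) (nat_lit 76) (nat_lit 0)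 (XT.lf (nat_lit 0) (nat_lit 19379470665) (nat_lit 76) (nat_lit 22286836838) (nat_lit 76) (nat_lit 1835515244) (nat_lit 6) (nat_lit 4) (nat_lit 7) (nat_lit 5) (nat_lit 7) (nat_lit 4) (nat_lit 307) (nat_lit 234) (nat_lit 179)) (XT.lf (nat_lit 0) (nat_lit 408486208) (nat_lit 152) (nat_lit 19685346018) (nat_lit 76) (nat_lit 25409948114) (nat_lit 5) (nat_lit 5) (nat_lit 7) (nat_lit 5) (nat_lit 6) (nat_lit 4) (nat_lit 308) (nat_lit 234) (nat_lit 178))))) (XT.nd (nat_lit 312) (nat_lit 76) (nat_lit 0) (XT.nd (nat_lit 156) (nat_lit 0) (nat_lit 0) (XT.nd (nat_lit 78) (nat_lit 0) (nat_lit 0) (XT.lf (nat_lit 0) (nat_lit 2684302245) (nat_lit 152) (nat_lit 15087943285) (nat_lit 76) (nat_lit 29833069353) (nat_lit 5) (nat_lit 5) (nat_lit 7) (nat_lit 5) (nat_lit 6) (nat_lit 4) (nat_lit 309) (nat_lit 234) (nat_lit 177)) (XT.lf (nat_lit 0) (nat_lit 5056099428) (nat_lit 152) (nat_lit 10290540151) (nat_lit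 76) (nat_lit 34466223332) (nat_lit 5) (nat_lit 5) (nat_lit 7) (nat_lit 5) (nat_lit 6) (nat_lit 4) (nat_lit 310) (nat_lit 234) (nat_lit 176))) (XT.nd (nat_lit 78) (nat_lit 0) (nat_lit 0) (XT.lf (nat_lit 0) (nat_lit 7529524891) (nat_lit 152) (nat_lit 5281714225) (nat_lit 76) (nat_lit 39320441369) (nat_lit 5) (nat_lit 5) (nat_lit 7) (nat_lit 5) (nat_lit 6) (nat_lit 4) (nat_lit 311) (nat_lit 234) (nat_lit 175)) (XT.lf (nat_lit 0) (nat_lit 10110467745) (nat_lit 152) (nat_lit 49539734) (nat_lit 76) (nat_lit 44407281125) (nat_lit 5) (nat_lit 5) (nat_lit 7) (nat_lit 5) (nat_lit 6) (nat_lit 4) (nat_lit 312) (nat_lit 234) (nat_lit 174)))) (XT.nd (nat_lit 156) (nat_lit 0) (nat_lit 0) (XT.nd (nat_lit 78) (nat_lit 0) (nat_lit 0) (XT.lf (nat_lit 0) (nat_lit 5597599007) (nat_lit 76) (nat_lit 7294868290) (nat_lit 152) (nat_lit 44228649326) (nat_lit 4) (nat_lit 5) (nat_lit 5) (nat_lit 5) (nat_lit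 6) (nat_lit 4) (nat_lit 313) (nat_lit 234) (nat_lit 173)) (XT.lf (nat_lit 0) (nat_lit 11503428165) (nat_lit 76) (nat_lit 4295929239) (nat_lit 152) (nat_lit 44004027177) (nat_lit 4) (nat_lit 5) (nat_lit 5) (nat_lit 5) (nat_lit 6) (nat_lit 4) (nat_lit 314) (nat_lit 234) (nat_lit 172))) (XT.nd (nat_lit 78) (nat_lit 0) (nat_lit 0) (XT.lf (nat_lit 0) (nat_lit 17680371229) (nat_lit 76) (nat_lit 1156888977) (nat_lit 152) (nat_lit 43783258578) (nat_lit 4) (nat_lit 5) (nat_lit 5) (nat_lit 5) (nat_lit 6) (nat_lit 4) (nat_lit 315) (nat_lit 234) (nat_lit 171)) (XT.lf (nat_lit 0) (nat_lit 22046659801) (nat_lit 152) (nat_lit 41469342484) (nat_lit 0) (nat_lit 2061561858) (nat_lit 4) (nat_lit 5) (nat_lit 6) (nat_lit 4) (nat_lit 4) (nat_lit 4) (nat_lit 316) (nat_lit 234) (nat_lit 170)))))) (XT.nd (nat_lit 624) (nat_lit 76) (nat_lit 0) (XT.nd (nat_lit 312) (nat_lit 0) (nat_lit 0) (XT.nd (nat_lit 156)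 (nat_lit 0) (nat_lit 0) (XT.nd (nat_lit 78) (nat_lit 0) (nat_lit 0) (XT.lf (nat_lit 0) (nat_lit 25422355966) (nat_lit 152) (nat_lit 37866435729) (nat_lit 0) (nat_lit 5393411631) (nat_lit 4) (nat_lit 5) (nat_lit 6) (nat_lit 4) (nat_lit 4) (nat_lit 4) (nat_lit 317) (nat_lit 234) (nat_lit 169)) (XT.lf (nat_lit 0) (nat_lit 28954323792) (nat_lit 152) (nat_lit 34104786662) (nat_lit 0) (nat_lit 8883620989) (nat_lit 4) (nat_lit 5) (nat_lit 6) (nat_lit 4) (nat_lit 4) (nat_lit 4) (nat_lit 318) (nat_lit 234) (nat_lit 168))) (XT.nd (nat_lit 78) (nat_lit 0) (nat_lit 0) (XT.lf (nat_lit 0) (nat_lit 32650972727) (nat_lit 152) (nat_lit 30175438977) (nat_lit 0) (nat_lit 12540499955) (nat_lit 4) (nat_lit 5) (nat_lit 6) (nat_lit 4) (nat_lit 4) (nat_lit 4) (nat_lit 319) (nat_lit 234) (nat_lit 167)) (XT.lf (nat_lit 0) (nat_lit 36521104316) (nat_lit 152) (nat_lit 26069037082) (nat_lit 0) (nat_lit 16372755383)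 (nat_lit 4) (nat_lit 5) (nat_lit 6) (nat_lit 4) (nat_lit 4) (nat_lit 4) (nat_lit 320) (nat_lit 234) (nat_lit 166)))) (XT.nd (nat_lit 156) (nat_lit 0) (nat_lit 0) (XT.nd (nat_lit 78) (nat_lit 0) (nat_lit 0) (XT.lf (nat_lit 0) (nat_lit 40573933159) (nat_lit 152) (nat_lit 21775803831) (nat_lit 0) (nat_lit 20389511691) (nat_lit 4) (nat_lit 5) (nat_lit 6) (nat_lit 4) (nat_lit 4) (nat_lit 4) (nat_lit 321) (nat_lit 234) (nat_lit 165)) (XT.lf (nat_lit 0) (nat_lit 44819108847) (nat_lit 152) (nat_lit 17285517240) (nat_lit 0) (nat_lit 24600332584) (nat_lit 4) (nat_lit 5) (nat_lit 6) (nat_lit 4) (nat_lit 4) (nat_lit 4) (nat_lit 322) (nat_lit 234) (nat_lit 164))) (XT.nd (nat_lit 78) (nat_lit 0) (nat_lit 0) (XT.lf (nat_lit 0) (nat_lit 49266738942) (nat_lit 152) (nat_lit 12587486150) (nat_lit 0) (nat_lit 29015243827) (nat_lit 4) (nat_lit 5) (nat_lit 6) (nat_lit 4) (nat_lit 4) (nat_lit 4) (nat_lit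 323) (nat_lit 234) (nat_lit 163)) (XT.lf (nat_lit 0) (nat_lit 53927413039) (nat_lit 152) (nat_lit 7670524773) (nat_lit 0) (nat_lit 33644757112) (nat_lit 4) (nat_lit 5) (nat_lit 6) (nat_lit 4) (nat_lit 4) (nat_lit 4) (nat_lit 324) (nat_lit 234) (nat_lit 162))))) (XT.nd (nat_lit 312) (nat_lit 0) (nat_lit 0) (XT.nd (nat_lit 156) (nat_lit 0) (nat_lit 0) (XT.nd (nat_lit 78) (nat_lit 76) (nat_lit 0) (XT.lf (nat_lit 0) (nat_lit 58812227982) (nat_lit 152) (nat_lit 2522926059) (nat_lit 0) (nat_lit 38499895092) (nat_lit 4) (nat_lit 5) (nat_lit 6) (nat_lit 4) (nat_lit 4) (nat_lit 4) (nat_lit 325) (nat_lit 234) (nat_lit 161)) (XT.lf (nat_lit 0) (nat_lit 2962380869) (nat_lit 76) (nat_lit 61016684480) (nat_lit 76) (nat_lit 40676087815) (nat_lit 3) (nat_lit 4) (nat_lit 4) (nat_lit 5) (nat_lit 4) (nat_lit 4) (nat_lit 326) (nat_lit 234) (nat_lit 160))) (XT.nd (nat_lit 78) (nat_lit 0) (nat_lit 0) (XT.lf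 (nat_lit 0) (nat_lit 8795290681) (nat_lit 76) (nat_lit 60643392266) (nat_lit 76) (nat_lit 40275877720) (nat_lit 3) (nat_lit 4) (nat_lit 4) (nat_lit 5) (nat_lit 4) (nat_lit 4) (nat_lit 327) (nat_lit 234) (nat_lit 159)) (XT.lf (nat_lit 0) (nat_lit 14906271927) (nat_lit 76) (nat_lit 60257115582) (nat_lit 76) (nat_lit 39863964959) (nat_lit 3) (nat_lit 4) (nat_lit 4) (nat_lit 5) (nat_lit 4) (nat_lit 4) (nat_lit 328) (nat_lit 234) (nat_lit 158)))) (XT.nd (nat_lit 156) (nat_lit 0) (nat_lit 0) (XT.nd (nat_lit 78) (nat_lit 0) (nat_lit 0) (XT.lf (nat_lit 0) (nat_lit 21309874564) (nat_lit 76) (nat_lit 59856934721) (nat_lit 76) (nat_lit 39439368787) (nat_lit 3) (nat_lit 4) (nat_lit 4) (nat_lit 5) (nat_lit 4) (nat_lit 4) (nat_lit 329) (nat_lit 234) (nat_lit 157)) (XT.lf (nat_lit 0) (nat_lit 28021345264) (nat_lit 76) (nat_lit 59441896872) (nat_lit 76) (nat_lit 39001078260) (nat_lit 3) (nat_lit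 4) (nat_lit 4) (nat_lit 5) (nat_lit 4) (nat_lit 4) (nat_lit 330) (nat_lit 234) (nat_lit 156))) (XT.nd (nat_lit 78) (nat_lit 0) (nat_lit 0) (XT.lf (nat_lit 0) (nat_lit 35056663719) (nat_lit 76) (nat_lit 59011013849) (nat_lit 76) (nat_lit 38548049830) (nat_lit 3) (nat_lit 4) (nat_lit 4) (nat_lit 5) (nat_lit 4) (nat_lit 4) (nat_lit 331) (nat_lit 234) (nat_lit 155)) (XT.lf (nat_lit 0) (nat_lit 42432580688) (nat_lit 76) (nat_lit 58563259740) (nat_lit 76) (nat_lit 38079204858) (nat_lit 3) (nat_lit 4) (nat_lit 4) (nat_lit 5) (nat_lit 4) (nat_lit 4) (nat_lit 332) (nat_lit 234) (nat_lit 154)))))))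
noncomputable def xc76 : XT := (XT.nd (nat_lit 1248) (nat_lit 0) (nat_lit 0) (XT.nd (nat_lit 624) (nat_lit 0) (nat_lit 0) (XT.nd (nat_lit 312) (nat_lit 0) (nat_lit 0) (XT.nd (nat_lit 156) (nat_lit 0) (nat_lit 0) (XT.nd (nat_lit 78) (nat_lit 0) (nat_lit 0) (XT.lf (nat_lit 0) (nat_lit 50166657877) (nat_lit 76) (nat_lit 58097568465) (nat_lit 76) (nat_lit 37593427045) (nat_lit 3) (nat_lit 4) (nat_lit 4) (nat_lit 5) (nat_lit 4) (nat_lit 4) (nat_lit 333) (nat_lit 234) (nat_lit 153)) (XT.lf (nat_lit 0) (nat_lit 58277309756) (nat_lit 76) (nat_lit 57612831234) (nat_lit 76) (nat_lit 37089559779) (nat_lit 3) (nat_lit 4) (nat_lit 4) (nat_lit 5) (nat_lit 4) (nat_lit 4) (nat_lit 334) (nat_lit 234) (nat_lit 152))) (XT.nd (nat_lit 78) (nat_lit 0) (nat_lit 0) (XT.lf (nat_lit 0) (nat_lit 66783847401) (nat_lit 76) (nat_lit 57107893911) (nat_lit 76) (nat_lit 36566403375) (nat_lit 3) (nat_lit 4) (nat_lit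 4) (nat_lit 5) (nat_lit 4) (nat_lit 4) (nat_lit 335) (nat_lit 234) (nat_lit 151)) (XT.lf (nat_lit 0) (nat_lit 75706524473) (nat_lit 76) (nat_lit 56581554265) (nat_lit 76) (nat_lit 36022712223) (nat_lit 3) (nat_lit 4) (nat_lit 4) (nat_lit 5) (nat_lit 4) (nat_lit 4) (nat_lit 336) (nat_lit 234) (nat_lit 150)))) (XT.nd (nat_lit 156) (nat_lit 0) (nat_lit 0) (XT.nd (nat_lit 78) (nat_lit 0) (nat_lit 0) (XT.lf (nat_lit 0) (nat_lit 85066585442) (nat_lit 76) (nat_lit 56032559106) (nat_lit 76) (nat_lit 35457191820) (nat_lit 3) (nat_lit 4) (nat_lit 4) (nat_lit 5) (nat_lit 4) (nat_lit 4) (nat_lit 337) (nat_lit 234) (nat_lit 149)) (XT.lf (nat_lit 0) (nat_lit 94886316166) (nat_lit 76) (nat_lit 55459601302) (nat_lit 76) (nat_lit 34868495689) (nat_lit 3) (nat_lit 4) (nat_lit 4) (nat_lit 5) (nat_lit 4) (nat_lit 4) (nat_lit 338) (nat_lit 234) (nat_lit 148))) (XT.nd (nat_lit 78) (nat_lit 0) (nat_lit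 0) (XT.lf (nat_lit 0) (nat_lit 105189096956) (nat_lit 76) (nat_lit 54861316668) (nat_lit 76) (nat_lit 34255222172) (nat_lit 3) (nat_lit 4) (nat_lit 4) (nat_lit 5) (nat_lit 4) (nat_lit 4) (nat_lit 339) (nat_lit 234) (nat_lit 147)) (XT.lf (nat_lit 0) (nat_lit 115999458244) (nat_lit 76) (nat_lit 54236280717) (nat_lit 76) (nat_lit 33615911094) (nat_lit 3) (nat_lit 4) (nat_lit 4) (nat_lit 5) (nat_lit 4) (nat_lit 4) (nat_lit 340) (nat_lit 234) (nat_lit 146))))) (XT.nd (nat_lit 312) (nat_lit 0) (nat_lit 0) (XT.nd (nat_lit 156) (nat_lit 0) (nat_lit 0) (XT.nd (nat_lit 78) (nat_lit 0) (nat_lit 0) (XT.lf (nat_lit 0) (nat_lit 127343138985) (nat_lit 76) (nat_lit 53583005269) (nat_lit 76) (nat_lit 32949040287) (nat_lit 3) (nat_lit 4) (nat_lit 4) (nat_lit 5) (nat_lit 4) (nat_lit 4) (nat_lit 341) (nat_lit 234) (nat_lit 145)) (XT.lf (nat_lit 0) (nat_lit 139247147943) (nat_lit 76) (nat_lit 52899934905)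 (nat_lit 76) (nat_lit 32253021962) (nat_lit 3) (nat_lit 4) (nat_lit 4) (nat_lit 5) (nat_lit 4) (nat_lit 4) (nat_lit 342) (nat_lit 234) (nat_lit 144))) (XT.nd (nat_lit 78) (nat_lit 0) (nat_lit 0) (XT.lf (nat_lit 0) (nat_lit 151739827995) (nat_lit 76) (nat_lit 52185443267) (nat_lit 76) (nat_lit 31526198933) (nat_lit 3) (nat_lit 4) (nat_lit 4) (nat_lit 5) (nat_lit 4) (nat_lit 4) (nat_lit 343) (nat_lit 234) (nat_lit 143)) (XT.lf (nat_lit 0) (nat_lit 164850923618) (nat_lit 76) (nat_lit 51437829186) (nat_lit 76) (nat_lit 30766840669) (nat_lit 3) (nat_lit 4) (nat_lit 4) (nat_lit 5) (nat_lit 4) (nat_lit 4) (nat_lit 344) (nat_lit 234) (nat_lit 142)))) (XT.nd (nat_lit 156) (nat_lit 0) (nat_lit 0) (XT.nd (nat_lit 78) (nat_lit 0) (nat_lit 0) (XT.lf (nat_lit 0) (nat_lit 178611651707) (nat_lit 76) (nat_lit 50655312626) (nat_lit 76) (nat_lit 29973139175) (nat_lit 3) (nat_lit 4) (nat_lit 4) (nat_lit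 5) (nat_lit 4) (nat_lit 4) (nat_lit 345) (nat_lit 234) (nat_lit 141)) (XT.lf (nat_lit 0) (nat_lit 193054775900) (nat_lit 76) (nat_lit 49836030455) (nat_lit 76) (nat_lit 29143204684) (nat_lit 3) (nat_lit 4) (nat_lit 4) (nat_lit 5) (nat_lit 4) (nat_lit 4) (nat_lit 346) (nat_lit 234) (nat_lit 140))) (XT.nd (nat_lit 78) (nat_lit 0) (nat_lit 0) (XT.lf (nat_lit 0) (nat_lit 208214684588) (nat_lit 76) (nat_lit 48978031999) (nat_lit 76) (nat_lit 28275061162) (nat_lit 3) (nat_lit 4) (nat_lit 4) (nat_lit 5) (nat_lit 4) (nat_lit 4) (nat_lit 347) (nat_lit 234) (nat_lit 139)) (XT.lf (nat_lit 0) (nat_lit 224127472792) (nat_lit 76) (nat_lit 48079274406) (nat_lit 76) (nat_lit 27366641600) (nat_lit 3) (nat_lit 4) (nat_lit 4) (nat_lit 5) (nat_lit 4) (nat_lit 4) (nat_lit 348) (nat_lit 234) (nat_lit 138)))))) (XT.nd (nat_lit 624) (nat_lit 0) (nat_lit 0) (XT.nd (nat_lit 312) (nat_lit 0) (nat_lit 0) (XT.nd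 (nat_lit 156) (nat_lit 0) (nat_lit 0) (XT.nd (nat_lit 78) (nat_lit 0) (nat_lit 0) (XT.lf (nat_lit 0) (nat_lit 240831028101) (nat_lit 76) (nat_lit 47137617776) (nat_lit 76) (nat_lit 26415783096) (nat_lit 3) (nat_lit 4) (nat_lit 4) (nat_lit 5) (nat_lit 4) (nat_lit 4) (nat_lit 349) (nat_lit 234) (nat_lit 137)) (XT.lf (nat_lit 0) (nat_lit 258365120887) (nat_lit 76) (nat_lit 46150820069) (nat_lit 76) (nat_lit 25420221700) (nat_lit 3) (nat_lit 4) (nat_lit 4) (nat_lit 5) (nat_lit 4) (nat_lit 4) (nat_lit 350) (nat_lit 234) (nat_lit 136))) (XT.nd (nat_lit 78) (nat_lit 0) (nat_lit 0) (XT.lf (nat_lit 0) (nat_lit 276771498990) (nat_lit 76) (nat_lit 45116531768) (nat_lit 76) (nat_lit 24377587029) (nat_lit 3) (nat_lit 4) (nat_lit 4) (nat_lit 5) (nat_lit 4) (nat_lit 4) (nat_lit 351) (nat_lit 234) (nat_lit 135)) (XT.lf (nat_lit 0) (nat_lit 296093987118) (nat_lit 76) (nat_lit 44032290282) (nat_lit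 76) (nat_lit 23285396617) (nat_lit 3) (nat_lit 4) (nat_lit 4) (nat_lit 5) (nat_lit 4) (nat_lit 4) (nat_lit 352) (nat_lit 234) (nat_lit 134)))) (XT.nd (nat_lit 156) (nat_lit 0) (nat_lit 0) (XT.nd (nat_lit 78) (nat_lit 0) (nat_lit 0) (XT.lf (nat_lit 0) (nat_lit 316378591196) (nat_lit 76) (nat_lit 42895514082) (nat_lit 76) (nat_lit 22141050013) (nat_lit 3) (nat_lit 4) (nat_lit 4) (nat_lit 5) (nat_lit 4) (nat_lit 4) (nat_lit 353) (nat_lit 234) (nat_lit 133)) (XT.lf (nat_lit 0) (nat_lit 337673607901) (nat_lit 76) (nat_lit 41703496559) (nat_lit 76) (nat_lit 20941822581) (nat_lit 3) (nat_lit 4) (nat_lit 4) (nat_lit 5) (nat_lit 4) (nat_lit 4) (nat_lit 354) (nat_lit 234) (nat_lit 132))) (XT.nd (nat_lit 78) (nat_lit 0) (nat_lit 0) (XT.lf (nat_lit 0) (nat_lit 360029739653) (nat_lit 76) (nat_lit 40453399576) (nat_lit 76) (nat_lit 19684859018) (nat_lit 3) (nat_lit 4) (nat_lit 4) (nat_lit 5) (nat_lit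 4) (nat_lit 4) (nat_lit 355) (nat_lit 234) (nat_lit 131)) (XT.lf (nat_lit 0) (nat_lit 383500215338) (nat_lit 76) (nat_lit 39142246711) (nat_lit 76) (nat_lit 18367166553) (nat_lit 3) (nat_lit 4) (nat_lit 4) (nat_lit 5) (nat_lit 4) (nat_lit 4) (nat_lit 356) (nat_lit 234) (nat_lit 130))))) (XT.nd (nat_lit 29406) (nat_lit 0) (nat_lit 4104) (XT.nd (nat_lit 29250) (nat_lit 0) (nat_lit 5776) (XT.nd (nat_lit 29172) (nat_lit 0) (nat_lit 6232) (XT.lf (nat_lit 0) (nat_lit 408140917039) (nat_lit 76) (nat_lit 37766916173) (nat_lit 76) (nat_lit 16985607824) (nat_lit 3) (nat_lit 4) (nat_lit 4) (nat_lit 5) (nat_lit 4) (nat_lit 4) (nat_lit 357) (nat_lit 234) (nat_lit 129)) (XT.lf (nat_lit 0) (nat_lit 1264890349) (nat_lit 380) (nat_lit 857117170) (nat_lit 0) (nat_lit 1264890349) (nat_lit 85) (nat_lit 5) (nat_lit 90) (nat_lit 4) (nat_lit 85) (nat_lit 4) (nat_lit 250) (nat_lit 235) (nat_lit 235))) (XT.nd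 (nat_lit 78) (nat_lit 76) (nat_lit 0) (XT.lf (nat_lit 0) (nat_lit 1921220390) (nat_lit 380) (nat_lit 3356786270) (nat_lit 380) (nat_lit 1568979471) (nat_lit 80) (nat_lit 4) (nat_lit 85) (nat_lit 5) (nat_lit 85) (nat_lit 4) (nat_lit 251) (nat_lit 235) (nat_lit 234)) (XT.lf (nat_lit 0) (nat_lit 1083474287) (nat_lit 456) (nat_lit 1269357650) (nat_lit 76) (nat_lit 4577085057) (nat_lit 79) (nat_lit 5) (nat_lit 85) (nat_lit 5) (nat_lit 80) (nat_lit 4) (nat_lit 252) (nat_lit 235) (nat_lit 233)))) (XT.nd (nat_lit 156) (nat_lit 1216) (nat_lit 0) (XT.nd (nat_lit 78) (nat_lit 0) (nat_lit 0) (XT.lf (nat_lit 0) (nat_lit 2505186160) (nat_lit 456) (nat_lit 1210550214) (nat_lit 532) (nat_lit 3306134577) (nat_lit 73) (nat_lit 5) (nat_lit 79) (nat_lit 5) (nat_lit 80) (nat_lit 4) (nat_lit 253) (nat_lit 235) (nat_lit 232)) (XT.lf (nat_lit 0) (nat_lit 6367154214) (nat_lit 532) (nat_lit 730314590) (nat_lit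 0) (nat_lit 27679795) (nat_lit 73) (nat_lit 5) (nat_lit 80) (nat_lit 4) (nat_lit 73) (nat_lit 4) (nat_lit 254) (nat_lit 235) (nat_lit 231))) (XT.nd (nat_lit 78) (nat_lit 608) (nat_lit 0) (XT.lf (nat_lit 0) (nat_lit 1796413889) (nat_lit 608) (nat_lit 4057619352) (nat_lit 76) (nat_lit 1382048798) (nat_lit 65) (nat_lit 5) (nat_lit 73) (nat_lit 5) (nat_lit 66) (nat_lit 4) (nat_lit 255) (nat_lit 235) (nat_lit 230)) (XT.nd (nat_lit 78) (nat_lit 608) (nat_lit 0) (XT.lf (nat_lit 0) (nat_lit 4339151223) (nat_lit 608) (nat_lit 179096777) (nat_lit 76) (nat_lit 2840341654) (nat_lit 65) (nat_lit 5) (nat_lit 73) (nat_lit 5) (nat_lit 66) (nat_lit 4) (nat_lit 256) (nat_lit 235) (nat_lit 229)) (XT.lf (nat_lit 0) (nat_lit 3901502618) (nat_lit 608) (nat_lit 3047970707) (nat_lit 684) (nat_lit 541634474) (nat_lit 57) (nat_lit 5) (nat_lit 65) (nat_lit 5) (nat_lit 66) (nat_lit 4) (nat_lit 257) (nat_lit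 235) (nat_lit 228))))))))
noncomputable def xc77 : XT := (XT.nd (nat_lit 1248) (nat_lit 912) (nat_lit 0) (XT.nd (nat_lit 624) (nat_lit 988) (nat_lit 0) (XT.nd (nat_lit 312) (nat_lit 608) (nat_lit 0) (XT.nd (nat_lit 156) (nat_lit 380) (nat_lit 0) (XT.nd (nat_lit 78) (nat_lit 0) (nat_lit 0) (XT.lf (nat_lit 0) (nat_lit 424001404) (nat_lit 456) (nat_lit 1460557308) (nat_lit 532) (nat_lit 5750386453) (nat_lit 50) (nat_lit 5) (nat_lit 56) (nat_lit 5) (nat_lit 57) (nat_lit 5) (nat_lit 258) (nat_lit 235) (nat_lit 227)) (XT.lf (nat_lit 0) (nat_lit 4363405370) (nat_lit 532) (nat_lit 3157316052) (nat_lit 76) (nat_lit 268115668) (nat_lit 50) (nat_lit 5) (nat_lit 57) (nat_lit 5) (nat_lit 51) (nat_lit 4) (nat_lit 259) (nat_lit 235) (nat_lit 226))) (XT.nd (nat_lit 78) (nat_lit 76) (nat_lit 0) (XT.lf (nat_lit 0) (nat_lit 988401717) (nat_lit 304) (nat_lit 5907204325) (nat_lit 380) (nat_lit 1059093626)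 (nat_lit 46) (nat_lit 5) (nat_lit 50) (nat_lit 5) (nat_lit 51) (nat_lit 4) (nat_lit 260) (nat_lit 235) (nat_lit 225)) (XT.lf (nat_lit 0) (nat_lit 1325302619) (nat_lit 380) (nat_lit 2818950724) (nat_lit 76) (nat_lit 3986897997) (nat_lit 45) (nat_lit 5) (nat_lit 50) (nat_lit 5) (nat_lit 46) (nat_lit 5) (nat_lit 261) (nat_lit 235) (nat_lit 224)))) (XT.nd (nat_lit 156) (nat_lit 304) (nat_lit 0) (XT.nd (nat_lit 78) (nat_lit 0) (nat_lit 0) (XT.lf (nat_lit 0) (nat_lit 1449897379) (nat_lit 304) (nat_lit 2262276121) (nat_lit 380) (nat_lit 4608086596) (nat_lit 41) (nat_lit 5) (nat_lit 45) (nat_lit 5) (nat_lit 46) (nat_lit 5) (nat_lit 262) (nat_lit 235) (nat_lit 223)) (XT.lf (nat_lit 0) (nat_lit 5916998816) (nat_lit 304) (nat_lit 248516987) (nat_lit 380) (nat_lit 2356566353) (nat_lit 41) (nat_lit 5) (nat_lit 45) (nat_lit 5) (nat_lit 46) (nat_lit 5) (nat_lit 263) (nat_lit 235) (nat_lit 222)))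 (XT.nd (nat_lit 78) (nat_lit 76) (nat_lit 0) (XT.lf (nat_lit 0) (nat_lit 1788713544) (nat_lit 228) (nat_lit 6913864521) (nat_lit 304) (nat_lit 33949623) (nat_lit 38) (nat_lit 5) (nat_lit 41) (nat_lit 5) (nat_lit 42) (nat_lit 4) (nat_lit 264) (nat_lit 235) (nat_lit 221)) (XT.lf (nat_lit 0) (nat_lit 2281510011) (nat_lit 304) (nat_lit 2623912829) (nat_lit 76) (nat_lit 4057241967) (nat_lit 37) (nat_lit 5) (nat_lit 41) (nat_lit 5) (nat_lit 38) (nat_lit 5) (nat_lit 265) (nat_lit 235) (nat_lit 220))))) (XT.nd (nat_lit 312) (nat_lit 456) (nat_lit 0) (XT.nd (nat_lit 156) (nat_lit 304) (nat_lit 0) (XT.nd (nat_lit 78) (nat_lit 0) (nat_lit 0) (XT.lf (nat_lit 0) (nat_lit 1866093456) (nat_lit 228) (nat_lit 2783943163) (nat_lit 304) (nat_lit 4553627941) (nat_lit 34) (nat_lit 5) (nat_lit 37) (nat_lit 5) (nat_lit 38) (nat_lit 5) (nat_lit 266) (nat_lit 235) (nat_lit 219)) (XT.lf (nat_lit 0) (nat_lit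 6564198456) (nat_lit 228) (nat_lit 529169015) (nat_lit 304) (nat_lit 2366009225) (nat_lit 34) (nat_lit 5) (nat_lit 37) (nat_lit 5) (nat_lit 38) (nat_lit 5) (nat_lit 267) (nat_lit 235) (nat_lit 218))) (XT.nd (nat_lit 78) (nat_lit 76) (nat_lit 0) (XT.lf (nat_lit 0) (nat_lit 1687914769) (nat_lit 228) (nat_lit 7941849817) (nat_lit 304) (nat_lit 100023238) (nat_lit 31) (nat_lit 5) (nat_lit 34) (nat_lit 5) (nat_lit 35) (nat_lit 4) (nat_lit 268) (nat_lit 235) (nat_lit 217)) (XT.lf (nat_lit 0) (nat_lit 2181270686) (nat_lit 304) (nat_lit 3563854119) (nat_lit 76) (nat_lit 4268483213) (nat_lit 30) (nat_lit 5) (nat_lit 34) (nat_lit 5) (nat_lit 31) (nat_lit 5) (nat_lit 269) (nat_lit 235) (nat_lit 216)))) (XT.nd (nat_lit 156) (nat_lit 228) (nat_lit 0) (XT.nd (nat_lit 78) (nat_lit 0) (nat_lit 0) (XT.lf (nat_lit 0) (nat_lit 1067548256) (nat_lit 228) (nat_lit 3442814957) (nat_lit 304) (nat_lit 5804715213)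 (nat_lit 27) (nat_lit 5) (nat_lit 30) (nat_lit 5) (nat_lit 31) (nat_lit 5) (nat_lit 270) (nat_lit 235) (nat_lit 215)) (XT.lf (nat_lit 0) (nat_lit 5952865759) (nat_lit 228) (nat_lit 986034387) (nat_lit 304) (nat_lit 3693949823) (nat_lit 27) (nat_lit 5) (nat_lit 30) (nat_lit 5) (nat_lit 31) (nat_lit 5) (nat_lit 271) (nat_lit 235) (nat_lit 214))) (XT.nd (nat_lit 78) (nat_lit 228) (nat_lit 0) (XT.lf (nat_lit 0) (nat_lit 9439705393) (nat_lit 304) (nat_lit 9183536) (nat_lit 76) (nat_lit 1520438234) (nat_lit 27) (nat_lit 5) (nat_lit 31) (nat_lit 5) (nat_lit 28) (nat_lit 4) (nat_lit 272) (nat_lit 235) (nat_lit 213)) (XT.lf (nat_lit 0) (nat_lit 741992180) (nat_lit 228) (nat_lit 6392108864) (nat_lit 76) (nat_lit 4187130589) (nat_lit 24) (nat_lit 5) (nat_lit 27) (nat_lit 5) (nat_lit 25) (nat_lit 5) (nat_lit 273) (nat_lit 235) (nat_lit 212)))))) (XT.nd (nat_lit 624) (nat_lit 304) (nat_lit 0)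 (XT.nd (nat_lit 312) (nat_lit 228) (nat_lit 0) (XT.nd (nat_lit 156) (nat_lit 152) (nat_lit 0) (XT.nd (nat_lit 78) (nat_lit 228) (nat_lit 0) (XT.lf (nat_lit 0) (nat_lit 3005877377) (nat_lit 228) (nat_lit 1697694453) (nat_lit 76) (nat_lit 6989711158) (nat_lit 24) (nat_lit 5) (nat_lit 27) (nat_lit 5) (nat_lit 25) (nat_lit 5) (nat_lit 274) (nat_lit 235) (nat_lit 211)) (XT.lf (nat_lit 0) (nat_lit 3243288244) (nat_lit 228) (nat_lit 2123579497) (nat_lit 304) (nat_lit 6718169094) (nat_lit 21) (nat_lit 5) (nat_lit 24) (nat_lit 5) (nat_lit 25) (nat_lit 5) (nat_lit 275) (nat_lit 235) (nat_lit 210))) (XT.nd (nat_lit 78) (nat_lit 152) (nat_lit 0) (XT.lf (nat_lit 0) (nat_lit 7818910774) (nat_lit 304) (nat_lit 4107897711) (nat_lit 76) (nat_lit 571201134) (nat_lit 21) (nat_lit 5) (nat_lit 25) (nat_lit 5) (nat_lit 22) (nat_lit 4) (nat_lit 276) (nat_lit 235) (nat_lit 209)) (XT.lf (nat_lit 0) (nat_lit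 763108769) (nat_lit 152) (nat_lit 9614927195) (nat_lit 228) (nat_lit 2554639076) (nat_lit 19) (nat_lit 5) (nat_lit 21) (nat_lit 5) (nat_lit 22) (nat_lit 4) (nat_lit 277) (nat_lit 235) (nat_lit 208)))) (XT.nd (nat_lit 156) (nat_lit 152) (nat_lit 0) (XT.nd (nat_lit 78) (nat_lit 76) (nat_lit 0) (XT.lf (nat_lit 0) (nat_lit 5932571971) (nat_lit 152) (nat_lit 7141462376) (nat_lit 228) (nat_lit 314848776) (nat_lit 19) (nat_lit 5) (nat_lit 21) (nat_lit 5) (nat_lit 22) (nat_lit 4) (nat_lit 278) (nat_lit 235) (nat_lit 207)) (XT.lf (nat_lit 0) (nat_lit 1912790171) (nat_lit 228) (nat_lit 2624909865) (nat_lit 76) (nat_lit 9331790292) (nat_lit 18) (nat_lit 5) (nat_lit 21) (nat_lit 5) (nat_lit 19) (nat_lit 5) (nat_lit 279) (nat_lit 235) (nat_lit 206))) (XT.nd (nat_lit 78) (nat_lit 0) (nat_lit 0) (XT.lf (nat_lit 0) (nat_lit 2439341446) (nat_lit 152) (nat_lit 1783834211) (nat_lit 228) (nat_lit 10151817369)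 (nat_lit 16) (nat_lit 5) (nat_lit 18) (nat_lit 5) (nat_lit 19) (nat_lit 5) (nat_lit 280) (nat_lit 235) (nat_lit 205)) (XT.lf (nat_lit 0) (nat_lit 6656438317) (nat_lit 228) (nat_lit 7156497783) (nat_lit 76) (nat_lit 1092676848) (nat_lit 16) (nat_lit 5) (nat_lit 19) (nat_lit 5) (nat_lit 17) (nat_lit 4) (nat_lit 281) (nat_lit 235) (nat_lit 204))))) (XT.nd (nat_lit 312) (nat_lit 152) (nat_lit 0) (XT.nd (nat_lit 156) (nat_lit 76) (nat_lit 0) (XT.nd (nat_lit 78) (nat_lit 76) (nat_lit 0) (XT.lf (nat_lit 0) (nat_lit 9188112376) (nat_lit 228) (nat_lit 2246546098) (nat_lit 76) (nat_lit 4029467965) (nat_lit 16) (nat_lit 5) (nat_lit 19) (nat_lit 5) (nat_lit 17) (nat_lit 4) (nat_lit 282) (nat_lit 235) (nat_lit 203)) (XT.lf (nat_lit 0) (nat_lit 2927440875) (nat_lit 76) (nat_lit 8914639658) (nat_lit 152) (nat_lit 4208890015) (nat_lit 15) (nat_lit 5) (nat_lit 16) (nat_lit 5) (nat_lit 17) (nat_lit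 4) (nat_lit 283) (nat_lit 235) (nat_lit 202))) (XT.nd (nat_lit 78) (nat_lit 76) (nat_lit 0) (XT.lf (nat_lit 0) (nat_lit 8364175758) (nat_lit 76) (nat_lit 6253848736) (nat_lit 152) (nat_lit 2049849892) (nat_lit 15) (nat_lit 5) (nat_lit 16) (nat_lit 5) (nat_lit 17) (nat_lit 4) (nat_lit 284) (nat_lit 235) (nat_lit 201)) (XT.lf (nat_lit 0) (nat_lit 162817064) (nat_lit 152) (nat_lit 3318422388) (nat_lit 76) (nat_lit 13836747746) (nat_lit 14) (nat_lit 5) (nat_lit 16) (nat_lit 5) (nat_lit 15) (nat_lit 5) (nat_lit 285) (nat_lit 235) (nat_lit 200)))) (XT.nd (nat_lit 156) (nat_lit 0) (nat_lit 0) (XT.nd (nat_lit 78) (nat_lit 0) (nat_lit 0) (XT.lf (nat_lit 0) (nat_lit 1873765620) (nat_lit 152) (nat_lit 527598783) (nat_lit 228) (nat_lit 15598510965) (nat_lit 12) (nat_lit 5) (nat_lit 14) (nat_lit 5) (nat_lit 15) (nat_lit 5) (nat_lit 286) (nat_lit 235) (nat_lit 199)) (XT.lf (nat_lit 0) (nat_lit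 4804747933) (nat_lit 228) (nat_lit 11382975248) (nat_lit 76) (nat_lit 2525638556) (nat_lit 12) (nat_lit 5) (nat_lit 15) (nat_lit 5) (nat_lit 13) (nat_lit 4) (nat_lit 287) (nat_lit 235) (nat_lit 198))) (XT.nd (nat_lit 78) (nat_lit 0) (nat_lit 0) (XT.lf (nat_lit 0) (nat_lit 7294669223) (nat_lit 228) (nat_lit 6477613258) (nat_lit 76) (nat_lit 5692063640) (nat_lit 12) (nat_lit 5) (nat_lit 15) (nat_lit 5) (nat_lit 13) (nat_lit 4) (nat_lit 288) (nat_lit 235) (nat_lit 197)) (XT.lf (nat_lit 0) (nat_lit 9868819363) (nat_lit 228) (nat_lit 1390107048) (nat_lit 76) (nat_lit 8996102034) (nat_lit 12) (nat_lit 5) (nat_lit 15) (nat_lit 5) (nat_lit 13) (nat_lit 4) (nat_lit 289) (nat_lit 235) (nat_lit 196)))))))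
noncomputable def xc78 : XT := (XT.nd (nat_lit 1248) (nat_lit 152) (nat_lit 0) (XT.nd (nat_lit 624) (nat_lit 152) (nat_lit 0) (XT.nd (nat_lit 312) (nat_lit 228) (nat_lit 0) (XT.nd (nat_lit 156) (nat_lit 0) (nat_lit 0) (XT.nd (nat_lit 78) (nat_lit 0) (nat_lit 0) (XT.lf (nat_lit 0) (nat_lit 4020332230) (nat_lit 76) (nat_lit 8575763703) (nat_lit 152) (nat_lit 8488056917) (nat_lit 11) (nat_lit 5) (nat_lit 12) (nat_lit 5) (nat_lit 13) (nat_lit 4) (nat_lit 290) (nat_lit 235) (nat_lit 195)) (XT.lf (nat_lit 0) (nat_lit 9690406514) (nat_lit 76) (nat_lit 5755424932) (nat_lit 152) (nat_lit 6509720049) (nat_lit 11) (nat_lit 5) (nat_lit 12) (nat_lit 5) (nat_lit 13) (nat_lit 4) (nat_lit 291) (nat_lit 235) (nat_lit 194))) (XT.nd (nat_lit 78) (nat_lit 0) (nat_lit 0) (XT.lf (nat_lit 0) (nat_lit 15587652764) (nat_lit 76) (nat_lit 2814737139) (nat_lit 152) (nat_lit 4470030287) (nat_lit 11) (nat_lit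 5) (nat_lit 12) (nat_lit 5) (nat_lit 13) (nat_lit 4) (nat_lit 292) (nat_lit 235) (nat_lit 193)) (XT.lf (nat_lit 0) (nat_lit 21476765473) (nat_lit 152) (nat_lit 2114784660) (nat_lit 0) (nat_lit 245194088) (nat_lit 11) (nat_lit 5) (nat_lit 13) (nat_lit 4) (nat_lit 11) (nat_lit 4) (nat_lit 293) (nat_lit 235) (nat_lit 192)))) (XT.nd (nat_lit 156) (nat_lit 0) (nat_lit 0) (XT.nd (nat_lit 78) (nat_lit 76) (nat_lit 0) (XT.lf (nat_lit 0) (nat_lit 3321332044) (nat_lit 152) (nat_lit 21448885479) (nat_lit 152) (nat_lit 75905101) (nat_lit 9) (nat_lit 4) (nat_lit 11) (nat_lit 5) (nat_lit 11) (nat_lit 4) (nat_lit 294) (nat_lit 235) (nat_lit 191)) (XT.lf (nat_lit 0) (nat_lit 2251929883) (nat_lit 228) (nat_lit 16891199349) (nat_lit 76) (nat_lit 6760929572) (nat_lit 8) (nat_lit 5) (nat_lit 11) (nat_lit 5) (nat_lit 9) (nat_lit 4) (nat_lit 295) (nat_lit 235) (nat_lit 190))) (XT.nd (nat_lit 78) (nat_lit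 0) (nat_lit 0) (XT.lf (nat_lit 0) (nat_lit 4662640031) (nat_lit 228) (nat_lit 12077505671) (nat_lit 76) (nat_lit 10276323773) (nat_lit 8) (nat_lit 5) (nat_lit 11) (nat_lit 5) (nat_lit 9) (nat_lit 4) (nat_lit 296) (nat_lit 235) (nat_lit 189)) (XT.lf (nat_lit 0) (nat_lit 7164394566) (nat_lit 228) (nat_lit 7071063282) (nat_lit 76) (nat_lit 13950604642) (nat_lit 8) (nat_lit 5) (nat_lit 11) (nat_lit 5) (nat_lit 9) (nat_lit 4) (nat_lit 297) (nat_lit 235) (nat_lit 188))))) (XT.nd (nat_lit 312) (nat_lit 76) (nat_lit 0) (XT.nd (nat_lit 156) (nat_lit 0) (nat_lit 0) (XT.nd (nat_lit 78) (nat_lit 76) (nat_lit 0) (XT.lf (nat_lit 0) (nat_lit 9763150045) (nat_lit 228) (nat_lit 1859952079) (nat_lit 76) (nat_lit 17792520468) (nat_lit 8) (nat_lit 5) (nat_lit 11) (nat_lit 5) (nat_lit 9) (nat_lit 4) (nat_lit 298) (nat_lit 235) (nat_lit 187)) (XT.lf (nat_lit 0) (nat_lit 3686217319) (nat_lit 76) (nat_lit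 8836428845) (nat_lit 152) (nat_lit 18182553533) (nat_lit 7) (nat_lit 5) (nat_lit 8) (nat_lit 5) (nat_lit 9) (nat_lit 4) (nat_lit 299) (nat_lit 235) (nat_lit 186))) (XT.nd (nat_lit 78) (nat_lit 0) (nat_lit 0) (XT.lf (nat_lit 0) (nat_lit 9531490464) (nat_lit 76) (nat_lit 5893982390) (nat_lit 152) (nat_lit 16633590388) (nat_lit 7) (nat_lit 5) (nat_lit 8) (nat_lit 5) (nat_lit 9) (nat_lit 4) (nat_lit 300) (nat_lit 235) (nat_lit 185)) (XT.lf (nat_lit 0) (nat_lit 15628286257) (nat_lit 76) (nat_lit 2820256121) (nat_lit 152) (nat_lit 15033394294) (nat_lit 7) (nat_lit 5) (nat_lit 8) (nat_lit 5) (nat_lit 9) (nat_lit 4) (nat_lit 301) (nat_lit 235) (nat_lit 184)))) (XT.nd (nat_lit 156) (nat_lit 76) (nat_lit 0) (XT.nd (nat_lit 78) (nat_lit 0) (nat_lit 0) (XT.lf (nat_lit 0) (nat_lit 21605173809) (nat_lit 152) (nat_lit 12992208189) (nat_lit 0) (nat_lit 379519720) (nat_lit 7) (nat_lit 5) (nat_lit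 9) (nat_lit 4) (nat_lit 7) (nat_lit 4) (nat_lit 302) (nat_lit 235) (nat_lit 183)) (XT.lf (nat_lit 0) (nat_lit 24943062494) (nat_lit 152) (nat_lit 7971850798) (nat_lit 0) (nat_lit 3630595549) (nat_lit 7) (nat_lit 5) (nat_lit 9) (nat_lit 4) (nat_lit 7) (nat_lit 4) (nat_lit 303) (nat_lit 235) (nat_lit 182))) (XT.nd (nat_lit 78) (nat_lit 76) (nat_lit 0) (XT.lf (nat_lit 0) (nat_lit 28426123686) (nat_lit 152) (nat_lit 2736592908) (nat_lit 0) (nat_lit 7030977832) (nat_lit 7) (nat_lit 5) (nat_lit 9) (nat_lit 4) (nat_lit 7) (nat_lit 4) (nat_lit 304) (nat_lit 235) (nat_lit 181)) (XT.lf (nat_lit 0) (nat_lit 2816165255) (nat_lit 76) (nat_lit 29290453366) (nat_lit 76) (nat_lit 7816565692) (nat_lit 6) (nat_lit 4) (nat_lit 7) (nat_lit 5) (nat_lit 7) (nat_lit 4) (nat_lit 305) (nat_lit 235) (nat_lit 180)))))) (XT.nd (nat_lit 624) (nat_lit 0) (nat_lit 0) (XT.nd (nat_lit 312) (nat_lit 76) (nat_lit 0)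 (XT.nd (nat_lit 156) (nat_lit 76) (nat_lit 0) (XT.nd (nat_lit 78) (nat_lit 0) (nat_lit 0) (XT.lf (nat_lit 0) (nat_lit 8707726955) (nat_lit 76) (nat_lit 27289526064) (nat_lit 76) (nat_lit 5740646182) (nat_lit 6) (nat_lit 4) (nat_lit 7) (nat_lit 5) (nat_lit 7) (nat_lit 4) (nat_lit 306) (nat_lit 235) (nat_lit 179)) (XT.lf (nat_lit 0) (nat_lit 14861635599) (nat_lit 76) (nat_lit 25201516103) (nat_lit 76) (nat_lit 3581215070) (nat_lit 6) (nat_lit 4) (nat_lit 7) (nat_lit 5) (nat_lit 7) (nat_lit 4) (nat_lit 307) (nat_lit 235) (nat_lit 178))) (XT.nd (nat_lit 78) (nat_lit 76) (nat_lit 0) (XT.lf (nat_lit 0) (nat_lit 21292543351) (nat_lit 76) (nat_lit 23021452030) (nat_lit 76) (nat_lit 1333130852) (nat_lit 6) (nat_lit 4) (nat_lit 7) (nat_lit 5) (nat_lit 7) (nat_lit 4) (nat_lit 308) (nat_lit 235) (nat_lit 177)) (XT.lf (nat_lit 0) (nat_lit 976666059) (nat_lit 152) (nat_lit 19750936844) (nat_lit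 76) (nat_lit 27022555524) (nat_lit 5) (nat_lit 5) (nat_lit 7) (nat_lit 5) (nat_lit 6) (nat_lit 4) (nat_lit 309) (nat_lit 235) (nat_lit 176)))) (XT.nd (nat_lit 156) (nat_lit 76) (nat_lit 0) (XT.nd (nat_lit 78) (nat_lit 0) (nat_lit 0) (XT.lf (nat_lit 0) (nat_lit 3340189302) (nat_lit 152) (nat_lit 14967410473) (nat_lit 76) (nat_lit 31650541873) (nat_lit 5) (nat_lit 5) (nat_lit 7) (nat_lit 5) (nat_lit 6) (nat_lit 4) (nat_lit 310) (nat_lit 235) (nat_lit 175)) (XT.lf (nat_lit 0) (nat_lit 5805734822) (nat_lit 152) (nat_lit 9971800514) (nat_lit 76) (nat_lit 36499838357) (nat_lit 5) (nat_lit 5) (nat_lit 7) (nat_lit 5) (nat_lit 6) (nat_lit 4) (nat_lit 311) (nat_lit 235) (nat_lit 174))) (XT.nd (nat_lit 78) (nat_lit 76) (nat_lit 0) (XT.lf (nat_lit 0) (nat_lit 8379172968) (nat_lit 152) (nat_lit 4752212656) (nat_lit 76) (nat_lit 41581990922) (nat_lit 5) (nat_lit 5) (nat_lit 7) (nat_lit 5) (nat_lit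 6) (nat_lit 4) (nat_lit 312) (nat_lit 235) (nat_lit 173)) (XT.lf (nat_lit 0) (nat_lit 727050856) (nat_lit 76) (nat_lit 10350931416) (nat_lit 152) (nat_lit 46193400374) (nat_lit 4) (nat_lit 5) (nat_lit 5) (nat_lit 5) (nat_lit 6) (nat_lit 4) (nat_lit 313) (nat_lit 235) (nat_lit 172))))) (XT.nd (nat_lit 312) (nat_lit 0) (nat_lit 0) (XT.nd (nat_lit 156) (nat_lit 0) (nat_lit 0) (XT.nd (nat_lit 78) (nat_lit 0) (nat_lit 0) (XT.lf (nat_lit 0) (nat_lit 6621086086) (nat_lit 76) (nat_lit 7356795166) (nat_lit 152) (nat_lit 45976136594) (nat_lit 4) (nat_lit 5) (nat_lit 5) (nat_lit 5) (nat_lit 6) (nat_lit 4) (nat_lit 314) (nat_lit 235) (nat_lit 171)) (XT.lf (nat_lit 0) (nat_lit 12786796839) (nat_lit 76) (nat_lit 4222328998) (nat_lit 152) (nat_lit 45762375966) (nat_lit 4) (nat_lit 5) (nat_lit 5) (nat_lit 5) (nat_lit 6) (nat_lit 4) (nat_lit 315) (nat_lit 235) (nat_lit 170))) (XT.nd (nat_lit 78) (nat_lit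 0) (nat_lit 0) (XT.lf (nat_lit 0) (nat_lit 19238863377) (nat_lit 76) (nat_lit 940069899) (nat_lit 152) (nat_lit 45551609536) (nat_lit 4) (nat_lit 5) (nat_lit 5) (nat_lit 5) (nat_lit 6) (nat_lit 4) (nat_lit 316) (nat_lit 235) (nat_lit 169)) (XT.lf (nat_lit 0) (nat_lit 23533848341) (nat_lit 152) (nat_lit 42884536055) (nat_lit 0) (nat_lit 2417851930) (nat_lit 4) (nat_lit 5) (nat_lit 6) (nat_lit 4) (nat_lit 4) (nat_lit 4) (nat_lit 317) (nat_lit 235) (nat_lit 168)))) (XT.nd (nat_lit 156) (nat_lit 0) (nat_lit 0) (XT.nd (nat_lit 78) (nat_lit 0) (nat_lit 0) (XT.lf (nat_lit 0) (nat_lit 27060002859) (nat_lit 152) (nat_lit 39132830323) (nat_lit 0) (nat_lit 5904236479) (nat_lit 4) (nat_lit 5) (nat_lit 6) (nat_lit 4) (nat_lit 4) (nat_lit 4) (nat_lit 318) (nat_lit 235) (nat_lit 167)) (XT.lf (nat_lit 0) (nat_lit 30751115310) (nat_lit 152) (nat_lit 35212952478) (nat_lit 0) (nat_lit 9557472768) (nat_lit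 4) (nat_lit 5) (nat_lit 6) (nat_lit 4) (nat_lit 4) (nat_lit 4) (nat_lit 319) (nat_lit 235) (nat_lit 166))) (XT.nd (nat_lit 78) (nat_lit 0) (nat_lit 0) (XT.lf (nat_lit 0) (nat_lit 34615974057) (nat_lit 152) (nat_lit 31115569481) (nat_lit 0) (nat_lit 13386258981) (nat_lit 4) (nat_lit 5) (nat_lit 6) (nat_lit 4) (nat_lit 4) (nat_lit 4) (nat_lit 320) (nat_lit 235) (nat_lit 165)) (XT.nd (nat_lit 78) (nat_lit 0) (nat_lit 0) (XT.lf (nat_lit 0) (nat_lit 38663781145) (nat_lit 152) (nat_lit 26830925655) (nat_lit 0) (nat_lit 17399711274) (nat_lit 4) (nat_lit 5) (nat_lit 6) (nat_lit 4) (nat_lit 4) (nat_lit 4) (nat_lit 321) (nat_lit 235) (nat_lit 164)) (XT.lf (nat_lit 0) (nat_lit 42904174210) (nat_lit 152) (nat_lit 22348819470) (nat_lit 0) (nat_lit 21607385487) (nat_lit 4) (nat_lit 5) (nat_lit 6) (nat_lit 4) (nat_lit 4) (nat_lit 4) (nat_lit 322) (nat_lit 235) (nat_lit 163))))))))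
noncomputable def xc79 : XT := (XT.nd (nat_lit 1248) (nat_lit 0) (nat_lit 0) (XT.nd (nat_lit 624) (nat_lit 0) (nat_lit 0) (XT.nd (nat_lit 312) (nat_lit 76) (nat_lit 0) (XT.nd (nat_lit 156) (nat_lit 0) (nat_lit 0) (XT.nd (nat_lit 78) (nat_lit 0) (nat_lit 0) (XT.lf (nat_lit 0) (nat_lit 47347249426) (nat_lit 152) (nat_lit 17658579242) (nat_lit 0) (nat_lit 26019299891) (nat_lit 4) (nat_lit 5) (nat_lit 6) (nat_lit 4) (nat_lit 4) (nat_lit 4) (nat_lit 323) (nat_lit 235) (nat_lit 162)) (XT.lf (nat_lit 0) (nat_lit 52003585543) (nat_lit 152) (nat_lit 12749037734) (nat_lit 0) (nat_lit 30645959045) (nat_lit 4) (nat_lit 5) (nat_lit 6) (nat_lit 4) (nat_lit 4) (nat_lit 4) (nat_lit 324) (nat_lit 235) (nat_lit 161))) (XT.nd (nat_lit 78) (nat_lit 0) (nat_lit 0) (XT.lf (nat_lit 0) (nat_lit 56884269076) (nat_lit 152) (nat_lit 7608505561) (nat_lit 0) (nat_lit 35498378803) (nat_lit 4) (nat_lit 5) (nat_lit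 6) (nat_lit 4) (nat_lit 4) (nat_lit 4) (nat_lit 325) (nat_lit 235) (nat_lit 160)) (XT.lf (nat_lit 0) (nat_lit 62000920700) (nat_lit 152) (nat_lit 2224743360) (nat_lit 0) (nat_lit 40588112546) (nat_lit 4) (nat_lit 5) (nat_lit 6) (nat_lit 4) (nat_lit 4) (nat_lit 4) (nat_lit 326) (nat_lit 235) (nat_lit 159)))) (XT.nd (nat_lit 156) (nat_lit 0) (nat_lit 0) (XT.nd (nat_lit 78) (nat_lit 0) (nat_lit 0) (XT.lf (nat_lit 0) (nat_lit 3527984897) (nat_lit 76) (nat_lit 63892819752) (nat_lit 76) (nat_lit 42454375522) (nat_lit 3) (nat_lit 4) (nat_lit 4) (nat_lit 5) (nat_lit 4) (nat_lit 4) (nat_lit 327) (nat_lit 235) (nat_lit 158)) (XT.lf (nat_lit 0) (nat_lit 9632659962) (nat_lit 76) (nat_lit 63509181925) (nat_lit 76) (nat_lit 42046322383) (nat_lit 3) (nat_lit 4) (nat_lit 4) (nat_lit 5) (nat_lit 4) (nat_lit 4) (nat_lit 328) (nat_lit 235) (nat_lit 157))) (XT.nd (nat_lit 78) (nat_lit 0) (nat_lit 0)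 (XT.lf (nat_lit 0) (nat_lit 16030256712) (nat_lit 76) (nat_lit 63111514262) (nat_lit 76) (nat_lit 41625402042) (nat_lit 3) (nat_lit 4) (nat_lit 4) (nat_lit 5) (nat_lit 4) (nat_lit 4) (nat_lit 329) (nat_lit 235) (nat_lit 156)) (XT.lf (nat_lit 0) (nat_lit 22736007519) (nat_lit 76) (nat_lit 62698869934) (nat_lit 76) (nat_lit 41190612307) (nat_lit 3) (nat_lit 4) (nat_lit 4) (nat_lit 5) (nat_lit 4) (nat_lit 4) (nat_lit 330) (nat_lit 235) (nat_lit 155))))) (XT.nd (nat_lit 312) (nat_lit 0) (nat_lit 0) (XT.nd (nat_lit 156) (nat_lit 0) (nat_lit 0) (XT.nd (nat_lit 78) (nat_lit 0) (nat_lit 0) (XT.lf (nat_lit 0) (nat_lit 29765878458) (nat_lit 76) (nat_lit 62270266455) (nat_lit 76) (nat_lit 40740917965) (nat_lit 3) (nat_lit 4) (nat_lit 4) (nat_lit 5) (nat_lit 4) (nat_lit 4) (nat_lit 331) (nat_lit 235) (nat_lit 154)) (XT.lf (nat_lit 0) (nat_lit 37136607315) (nat_lit 76) (nat_lit 61824683341) (nat_lit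 76) (nat_lit 40275248314) (nat_lit 3) (nat_lit 4) (nat_lit 4) (nat_lit 5) (nat_lit 4) (nat_lit 4) (nat_lit 332) (nat_lit 235) (nat_lit 153))) (XT.nd (nat_lit 78) (nat_lit 0) (nat_lit 0) (XT.lf (nat_lit 0) (nat_lit 44865743446) (nat_lit 76) (nat_lit 61361059680) (nat_lit 76) (nat_lit 39792494617) (nat_lit 3) (nat_lit 4) (nat_lit 4) (nat_lit 5) (nat_lit 4) (nat_lit 4) (nat_lit 333) (nat_lit 235) (nat_lit 152)) (XT.lf (nat_lit 0) (nat_lit 52971689556) (nat_lit 76) (nat_lit 60878291605) (nat_lit 76) (nat_lit 39291507461) (nat_lit 3) (nat_lit 4) (nat_lit 4) (nat_lit 5) (nat_lit 4) (nat_lit 4) (nat_lit 334) (nat_lit 235) (nat_lit 151)))) (XT.nd (nat_lit 156) (nat_lit 0) (nat_lit 0) (XT.nd (nat_lit 78) (nat_lit 0) (nat_lit 0) (XT.lf (nat_lit 0) (nat_lit 61473745515) (nat_lit 76) (nat_lit 60375229669) (nat_lit 76) (nat_lit 38771094019) (nat_lit 3) (nat_lit 4) (nat_lit 4) (nat_lit 5) (nat_lit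 4) (nat_lit 4) (nat_lit 335) (nat_lit 235) (nat_lit 150)) (XT.lf (nat_lit 0) (nat_lit 70392154315) (nat_lit 76) (nat_lit 59850676105) (nat_lit 76) (nat_lit 38230015211) (nat_lit 3) (nat_lit 4) (nat_lit 4) (nat_lit 5) (nat_lit 4) (nat_lit 4) (nat_lit 336) (nat_lit 235) (nat_lit 149))) (XT.nd (nat_lit 78) (nat_lit 0) (nat_lit 0) (XT.lf (nat_lit 0) (nat_lit 79748150263) (nat_lit 76) (nat_lit 59303381976) (nat_lit 76) (nat_lit 37666982755) (nat_lit 3) (nat_lit 4) (nat_lit 4) (nat_lit 5) (nat_lit 4) (nat_lit 4) (nat_lit 337) (nat_lit 235) (nat_lit 148)) (XT.lf (nat_lit 0) (nat_lit 89564009538) (nat_lit 76) (nat_lit 58732044202) (nat_lit 76) (nat_lit 37080656098) (nat_lit 3) (nat_lit 4) (nat_lit 4) (nat_lit 5) (nat_lit 4) (nat_lit 4) (nat_lit 338) (nat_lit 235) (nat_lit 147)))))) (XT.nd (nat_lit 624) (nat_lit 0) (nat_lit 0) (XT.nd (nat_lit 312) (nat_lit 0) (nat_lit 0) (XT.nd (nat_lit 156)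 (nat_lit 0) (nat_lit 0) (XT.nd (nat_lit 78) (nat_lit 0) (nat_lit 0) (XT.lf (nat_lit 0) (nat_lit 99863103235) (nat_lit 76) (nat_lit 58135302454) (nat_lit 76) (nat_lit 36469639222) (nat_lit 3) (nat_lit 4) (nat_lit 4) (nat_lit 5) (nat_lit 4) (nat_lit 4) (nat_lit 339) (nat_lit 235) (nat_lit 146)) (XT.lf (nat_lit 0) (nat_lit 110669953005) (nat_lit 76) (nat_lit 57511735917) (nat_lit 76) (nat_lit 35832477327) (nat_lit 3) (nat_lit 4) (nat_lit 4) (nat_lit 5) (nat_lit 4) (nat_lit 4) (nat_lit 340) (nat_lit 235) (nat_lit 145))) (XT.nd (nat_lit 78) (nat_lit 0) (nat_lit 0) (XT.lf (nat_lit 0) (nat_lit 122010289443) (nat_lit 76) (nat_lit 56859859911) (nat_lit 76) (nat_lit 35167653360) (nat_lit 3) (nat_lit 4) (nat_lit 4) (nat_lit 5) (nat_lit 4) (nat_lit 4) (nat_lit 341) (nat_lit 235) (nat_lit 144)) (XT.lf (nat_lit 0) (nat_lit 133911113351) (nat_lit 76) (nat_lit 56178122350) (nat_lit 76) (nat_lit 34473584407)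 (nat_lit 3) (nat_lit 4) (nat_lit 4) (nat_lit 5) (nat_lit 4) (nat_lit 4) (nat_lit 342) (nat_lit 235) (nat_lit 143)))) (XT.nd (nat_lit 156) (nat_lit 0) (nat_lit 0) (XT.nd (nat_lit 78) (nat_lit 0) (nat_lit 0) (XT.lf (nat_lit 0) (nat_lit 146400760022) (nat_lit 76) (nat_lit 55464900048) (nat_lit 76) (nat_lit 33748617923) (nat_lit 3) (nat_lit 4) (nat_lit 4) (nat_lit 5) (nat_lit 4) (nat_lit 4) (nat_lit 343) (nat_lit 235) (nat_lit 142)) (XT.lf (nat_lit 0) (nat_lit 159508966711) (nat_lit 76) (nat_lit 54718494857) (nat_lit 76) (nat_lit 32991027797) (nat_lit 3) (nat_lit 4) (nat_lit 4) (nat_lit 5) (nat_lit 4) (nat_lit 4) (nat_lit 344) (nat_lit 235) (nat_lit 141))) (XT.nd (nat_lit 78) (nat_lit 0) (nat_lit 0) (XT.lf (nat_lit 0) (nat_lit 173266943434) (nat_lit 76) (nat_lit 53937129622) (nat_lit 76) (nat_lit 32199010243) (nat_lit 3) (nat_lit 4) (nat_lit 4) (nat_lit 5) (nat_lit 4) (nat_lit 4) (nat_lit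 345) (nat_lit 235) (nat_lit 140)) (XT.lf (nat_lit 0) (nat_lit 187707447278) (nat_lit 76) (nat_lit 53118943950) (nat_lit 76) (nat_lit 31370679505) (nat_lit 3) (nat_lit 4) (nat_lit 4) (nat_lit 5) (nat_lit 4) (nat_lit 4) (nat_lit 346) (nat_lit 235) (nat_lit 139))))) (XT.nd (nat_lit 312) (nat_lit 0) (nat_lit 0) (XT.nd (nat_lit 156) (nat_lit 0) (nat_lit 0) (XT.nd (nat_lit 78) (nat_lit 0) (nat_lit 0) (XT.lf (nat_lit 0) (nat_lit 202864860396) (nat_lit 76) (nat_lit 52261989780) (nat_lit 76) (nat_lit 30504063367) (nat_lit 3) (nat_lit 4) (nat_lit 4) (nat_lit 5) (nat_lit 4) (nat_lit 4) (nat_lit 347) (nat_lit 235) (nat_lit 138)) (XT.lf (nat_lit 0) (nat_lit 218775271865) (nat_lit 76) (nat_lit 51364226744) (nat_lit 76) (nat_lit 29597098457) (nat_lit 3) (nat_lit 4) (nat_lit 4) (nat_lit 5) (nat_lit 4) (nat_lit 4) (nat_lit 348) (nat_lit 235) (nat_lit 137))) (XT.nd (nat_lit 78) (nat_lit 0) (nat_lit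 0) (XT.lf (nat_lit 0) (nat_lit 235476563620) (nat_lit 76) (nat_lit 50423517312) (nat_lit 76) (nat_lit 28647625335) (nat_lit 3) (nat_lit 4) (nat_lit 4) (nat_lit 5) (nat_lit 4) (nat_lit 4) (nat_lit 349) (nat_lit 235) (nat_lit 136)) (XT.lf (nat_lit 0) (nat_lit 253008500638) (nat_lit 76) (nat_lit 49437621699) (nat_lit 76) (nat_lit 27653383351) (nat_lit 3) (nat_lit 4) (nat_lit 4) (nat_lit 5) (nat_lit 4) (nat_lit 4) (nat_lit 350) (nat_lit 235) (nat_lit 135)))) (XT.nd (nat_lit 156) (nat_lit 0) (nat_lit 0) (XT.nd (nat_lit 78) (nat_lit 0) (nat_lit 0) (XT.lf (nat_lit 0) (nat_lit 271412825629) (nat_lit 76) (nat_lit 48404192534) (nat_lit 76) (nat_lit 26612005261) (nat_lit 3) (nat_lit 4) (nat_lit 4) (nat_lit 5) (nat_lit 4) (nat_lit 4) (nat_lit 351) (nat_lit 235) (nat_lit 134)) (XT.lf (nat_lit 0) (nat_lit 290733358412) (nat_lit 76) (nat_lit 47320769272) (nat_lit 76) (nat_lit 25521011595) (nat_lit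 3) (nat_lit 4) (nat_lit 4) (nat_lit 5) (nat_lit 4) (nat_lit 4) (nat_lit 352) (nat_lit 235) (nat_lit 133))) (XT.nd (nat_lit 78) (nat_lit 0) (nat_lit 0) (XT.lf (nat_lit 0) (nat_lit 311016100258) (nat_lit 76) (nat_lit 46184772334) (nat_lit 76) (nat_lit 24377804748) (nat_lit 3) (nat_lit 4) (nat_lit 4) (nat_lit 5) (nat_lit 4) (nat_lit 4) (nat_lit 353) (nat_lit 235) (nat_lit 132)) (XT.lf (nat_lit 0) (nat_lit 332309343408) (nat_lit 76) (nat_lit 44993496965) (nat_lit 76) (nat_lit 23179662799) (nat_lit 3) (nat_lit 4) (nat_lit 4) (nat_lit 5) (nat_lit 4) (nat_lit 4) (nat_lit 354) (nat_lit 235) (nat_lit 131)))))))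
noncomputable def xc80 : XT := (XT.nd (nat_lit 30264) (nat_lit 0) (nat_lit 1216) (XT.nd (nat_lit 29640) (nat_lit 0) (nat_lit 3192) (XT.nd (nat_lit 29328) (nat_lit 0) (nat_lit 5320) (XT.nd (nat_lit 29172) (nat_lit 0) (nat_lit 6232) (XT.nd (nat_lit 78) (nat_lit 0) (nat_lit 0) (XT.lf (nat_lit 0) (nat_lit 354663786060) (nat_lit 76) (nat_lit 43744106796) (nat_lit 76) (nat_lit 21923733029) (nat_lit 3) (nat_lit 4) (nat_lit 4) (nat_lit 5) (nat_lit 4) (nat_lit 4) (nat_lit 355) (nat_lit 235) (nat_lit 130)) (XT.lf (nat_lit 0) (nat_lit 378132653077) (nat_lit 76) (nat_lit 42433627087) (nat_lit 76) (nat_lit 20607025130) (nat_lit 3) (nat_lit 4) (nat_lit 4) (nat_lit 5) (nat_lit 4) (nat_lit 4) (nat_lit 356) (nat_lit 235) (nat_lit 129))) (XT.nd (nat_lit 78) (nat_lit 380) (nat_lit 0) (XT.lf (nat_lit 0) (nat_lit 2348011771) (nat_lit 228) (nat_lit 489062695) (nat_lit 228) (nat_lit 489062695) (nat_lit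 90) (nat_lit 4) (nat_lit 93) (nat_lit 5) (nat_lit 93) (nat_lit 4) (nat_lit 248) (nat_lit 236) (nat_lit 236)) (XT.lf (nat_lit 0) (nat_lit 1474340439) (nat_lit 304) (nat_lit 206341236) (nat_lit 380) (nat_lit 5030132837) (nat_lit 85) (nat_lit 5) (nat_lit 89) (nat_lit 5) (nat_lit 90) (nat_lit 4) (nat_lit 249) (nat_lit 236) (nat_lit 235)))) (XT.nd (nat_lit 156) (nat_lit 456) (nat_lit 0) (XT.nd (nat_lit 78) (nat_lit 456) (nat_lit 0) (XT.lf (nat_lit 0) (nat_lit 4334898185) (nat_lit 380) (nat_lit 1773261363) (nat_lit 0) (nat_lit 669894248) (nat_lit 85) (nat_lit 5) (nat_lit 90) (nat_lit 4) (nat_lit 85) (nat_lit 4) (nat_lit 250) (nat_lit 236) (nat_lit 234)) (XT.lf (nat_lit 0) (nat_lit 152193471) (nat_lit 456) (nat_lit 5055680461) (nat_lit 76) (nat_lit 1647395751) (nat_lit 79) (nat_lit 5) (nat_lit 85) (nat_lit 5) (nat_lit 80) (nat_lit 4) (nat_lit 251) (nat_lit 236) (nat_lit 233))) (XT.nd (nat_lit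 78) (nat_lit 456) (nat_lit 0) (XT.lf (nat_lit 0) (nat_lit 2686527973) (nat_lit 456) (nat_lit 1481888201) (nat_lit 76) (nat_lit 2772519686) (nat_lit 79) (nat_lit 5) (nat_lit 85) (nat_lit 5) (nat_lit 80) (nat_lit 4) (nat_lit 252) (nat_lit 236) (nat_lit 232)) (XT.lf (nat_lit 0) (nat_lit 2228446139) (nat_lit 456) (nat_lit 3021354552) (nat_lit 532) (nat_lit 1787076704) (nat_lit 73) (nat_lit 5) (nat_lit 79) (nat_lit 5) (nat_lit 80) (nat_lit 4) (nat_lit 253) (nat_lit 236) (nat_lit 231))))) (XT.nd (nat_lit 312) (nat_lit 836) (nat_lit 0) (XT.nd (nat_lit 156) (nat_lit 684) (nat_lit 0) (XT.nd (nat_lit 78) (nat_lit 532) (nat_lit 0) (XT.lf (nat_lit 0) (nat_lit 672291771) (nat_lit 532) (nat_lit 1090551768) (nat_lit 76) (nat_lit 5380426114) (nat_lit 72) (nat_lit 5) (nat_lit 79) (nat_lit 5) (nat_lit 73) (nat_lit 5) (nat_lit 254) (nat_lit 236) (nat_lit 230)) (XT.lf (nat_lit 0) (nat_lit 2760883830)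 (nat_lit 532) (nat_lit 351919825) (nat_lit 608) (nat_lit 4145754349) (nat_lit 65) (nat_lit 5) (nat_lit 72) (nat_lit 5) (nat_lit 73) (nat_lit 5) (nat_lit 255) (nat_lit 236) (nat_lit 229))) (XT.nd (nat_lit 78) (nat_lit 684) (nat_lit 0) (XT.lf (nat_lit 0) (nat_lit 5591282882) (nat_lit 608) (nat_lit 670594588) (nat_lit 76) (nat_lit 1122843760) (nat_lit 65) (nat_lit 5) (nat_lit 73) (nat_lit 5) (nat_lit 66) (nat_lit 4) (nat_lit 256) (nat_lit 236) (nat_lit 228)) (XT.lf (nat_lit 0) (nat_lit 596224364) (nat_lit 684) (nat_lit 4192781315) (nat_lit 76) (nat_lit 2731412861) (nat_lit 56) (nat_lit 5) (nat_lit 65) (nat_lit 5) (nat_lit 57) (nat_lit 5) (nat_lit 257) (nat_lit 236) (nat_lit 227)))) (XT.nd (nat_lit 156) (nat_lit 380) (nat_lit 0) (XT.nd (nat_lit 78) (nat_lit 456) (nat_lit 0) (XT.lf (nat_lit 0) (nat_lit 2943052558) (nat_lit 684) (nat_lit 256767885) (nat_lit 76) (nat_lit 4467496530) (nat_lit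 56) (nat_lit 5) (nat_lit 65) (nat_lit 5) (nat_lit 57) (nat_lit 5) (nat_lit 258) (nat_lit 236) (nat_lit 226)) (XT.lf (nat_lit 0) (nat_lit 3892132706) (nat_lit 456) (nat_lit 1467676185) (nat_lit 532) (nat_lit 2464868739) (nat_lit 50) (nat_lit 5) (nat_lit 56) (nat_lit 5) (nat_lit 57) (nat_lit 5) (nat_lit 259) (nat_lit 236) (nat_lit 225))) (XT.nd (nat_lit 78) (nat_lit 76) (nat_lit 0) (XT.lf (nat_lit 0) (nat_lit 154444180) (nat_lit 304) (nat_lit 7650543972) (nat_lit 380) (nat_lit 190249995) (nat_lit 46) (nat_lit 5) (nat_lit 50) (nat_lit 5) (nat_lit 51) (nat_lit 4) (nat_lit 260) (nat_lit 236) (nat_lit 224)) (XT.lf (nat_lit 0) (nat_lit 2115708731) (nat_lit 380) (nat_lit 3763065515) (nat_lit 76) (nat_lit 2295083397) (nat_lit 45) (nat_lit 5) (nat_lit 50) (nat_lit 5) (nat_lit 46) (nat_lit 5) (nat_lit 261) (nat_lit 236) (nat_lit 223)))))) (XT.nd (nat_lit 624) (nat_lit 836) (nat_lit 0) (XT.nd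 (nat_lit 312) (nat_lit 532) (nat_lit 0) (XT.nd (nat_lit 156) (nat_lit 304) (nat_lit 0) (XT.nd (nat_lit 78) (nat_lit 0) (nat_lit 0) (XT.lf (nat_lit 0) (nat_lit 419416291) (nat_lit 304) (nat_lit 4018856435) (nat_lit 380) (nat_lit 3928208656) (nat_lit 41) (nat_lit 5) (nat_lit 45) (nat_lit 5) (nat_lit 46) (nat_lit 5) (nat_lit 262) (nat_lit 236) (nat_lit 222)) (XT.lf (nat_lit 0) (nat_lit 4833994301) (nat_lit 304) (nat_lit 2010878607) (nat_lit 380) (nat_lit 1726053011) (nat_lit 41) (nat_lit 5) (nat_lit 45) (nat_lit 5) (nat_lit 46) (nat_lit 5) (nat_lit 263) (nat_lit 236) (nat_lit 221))) (XT.nd (nat_lit 78) (nat_lit 0) (nat_lit 0) (XT.lf (nat_lit 0) (nat_lit 484943549) (nat_lit 304) (nat_lit 8204304873) (nat_lit 76) (nat_lit 100542488) (nat_lit 37) (nat_lit 5) (nat_lit 41) (nat_lit 5) (nat_lit 38) (nat_lit 5) (nat_lit 264) (nat_lit 236) (nat_lit 220)) (XT.lf (nat_lit 0) (nat_lit 2755072669)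 (nat_lit 304) (nat_lit 3934231260) (nat_lit 76) (nat_lit 2329056308) (nat_lit 37) (nat_lit 5) (nat_lit 41) (nat_lit 5) (nat_lit 38) (nat_lit 5) (nat_lit 265) (nat_lit 236) (nat_lit 219)))) (XT.nd (nat_lit 156) (nat_lit 304) (nat_lit 0) (XT.nd (nat_lit 78) (nat_lit 0) (nat_lit 0) (XT.lf (nat_lit 0) (nat_lit 460011967) (nat_lit 228) (nat_lit 4599497376) (nat_lit 304) (nat_lit 4203289919) (nat_lit 34) (nat_lit 5) (nat_lit 37) (nat_lit 5) (nat_lit 38) (nat_lit 5) (nat_lit 266) (nat_lit 236) (nat_lit 218)) (XT.lf (nat_lit 0) (nat_lit 5108176002) (nat_lit 228) (nat_lit 2353753939) (nat_lit 304) (nat_lit 2058850565) (nat_lit 34) (nat_lit 5) (nat_lit 37) (nat_lit 5) (nat_lit 38) (nat_lit 5) (nat_lit 267) (nat_lit 236) (nat_lit 217))) (XT.nd (nat_lit 78) (nat_lit 0) (nat_lit 0) (XT.lf (nat_lit 0) (nat_lit 96549542) (nat_lit 228) (nat_lit 9993119) (nat_lit 304) (nat_lit 9689388240) (nat_lit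 30) (nat_lit 5) (nat_lit 33) (nat_lit 5) (nat_lit 34) (nat_lit 5) (nat_lit 268) (nat_lit 236) (nat_lit 216)) (XT.lf (nat_lit 0) (nat_lit 2345663550) (nat_lit 304) (nat_lit 5273034383) (nat_lit 76) (nat_lit 2463116813) (nat_lit 30) (nat_lit 5) (nat_lit 34) (nat_lit 5) (nat_lit 31) (nat_lit 5) (nat_lit 269) (nat_lit 236) (nat_lit 215))))) (XT.nd (nat_lit 312) (nat_lit 380) (nat_lit 0) (XT.nd (nat_lit 156) (nat_lit 228) (nat_lit 0) (XT.nd (nat_lit 78) (nat_lit 228) (nat_lit 0) (XT.lf (nat_lit 0) (nat_lit 4621121376) (nat_lit 304) (nat_lit 723672920) (nat_lit 76) (nat_lit 5041356546) (nat_lit 30) (nat_lit 5) (nat_lit 34) (nat_lit 5) (nat_lit 31) (nat_lit 5) (nat_lit 270) (nat_lit 236) (nat_lit 214)) (XT.lf (nat_lit 0) (nat_lit 4090616124) (nat_lit 228) (nat_lit 2911427733) (nat_lit 304) (nat_lit 3704434444) (nat_lit 27) (nat_lit 5) (nat_lit 30) (nat_lit 5) (nat_lit 31) (nat_lit 5) (nat_lit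 271) (nat_lit 236) (nat_lit 213))) (XT.nd (nat_lit 78) (nat_lit 228) (nat_lit 0) (XT.lf (nat_lit 0) (nat_lit 9078785671) (nat_lit 228) (nat_lit 365309466) (nat_lit 304) (nat_lit 1601964906) (nat_lit 27) (nat_lit 5) (nat_lit 30) (nat_lit 5) (nat_lit 31) (nat_lit 5) (nat_lit 272) (nat_lit 236) (nat_lit 212)) (XT.lf (nat_lit 0) (nat_lit 599984435) (nat_lit 228) (nat_lit 8533004683) (nat_lit 76) (nat_lit 2268782208) (nat_lit 24) (nat_lit 5) (nat_lit 27) (nat_lit 5) (nat_lit 25) (nat_lit 5) (nat_lit 273) (nat_lit 236) (nat_lit 211)))) (XT.nd (nat_lit 156) (nat_lit 152) (nat_lit 0) (XT.nd (nat_lit 78) (nat_lit 228) (nat_lit 0) (XT.lf (nat_lit 0) (nat_lit 2831320408) (nat_lit 228) (nat_lit 3883447790) (nat_lit 76) (nat_lit 5060826077) (nat_lit 24) (nat_lit 5) (nat_lit 27) (nat_lit 5) (nat_lit 25) (nat_lit 5) (nat_lit 274) (nat_lit 236) (nat_lit 210)) (XT.lf (nat_lit 0) (nat_lit 941130021)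 (nat_lit 228) (nat_lit 4184238348) (nat_lit 304) (nat_lit 7045464142) (nat_lit 21) (nat_lit 5) (nat_lit 24) (nat_lit 5) (nat_lit 25) (nat_lit 5) (nat_lit 275) (nat_lit 236) (nat_lit 209))) (XT.nd (nat_lit 78) (nat_lit 152) (nat_lit 0) (XT.lf (nat_lit 0) (nat_lit 6055594862) (nat_lit 228) (nat_lit 1482424268) (nat_lit 304) (nat_lit 5047886510) (nat_lit 21) (nat_lit 5) (nat_lit 24) (nat_lit 5) (nat_lit 25) (nat_lit 5) (nat_lit 276) (nat_lit 236) (nat_lit 208)) (XT.nd (nat_lit 78) (nat_lit 152) (nat_lit 0) (XT.lf (nat_lit 0) (nat_lit 10033166772) (nat_lit 304) (nat_lit 1701999966) (nat_lit 76) (nat_lit 1288727707) (nat_lit 21) (nat_lit 5) (nat_lit 25) (nat_lit 5) (nat_lit 22) (nat_lit 4) (nat_lit 277) (nat_lit 236) (nat_lit 207)) (XT.lf (nat_lit 0) (nat_lit 3370439214) (nat_lit 152) (nat_lit 9303096721) (nat_lit 228) (nat_lit 809466632) (nat_lit 19) (nat_lit 5) (nat_lit 21) (nat_lit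 5) (nat_lit 22) (nat_lit 4) (nat_lit 278) (nat_lit 236) (nat_lit 206))))))))
noncomputable def xc81 : XT := (XT.nd (nat_lit 2496) (nat_lit 152) (nat_lit 0) (XT.nd (nat_lit 1248) (nat_lit 456) (nat_lit 0) (XT.nd (nat_lit 624) (nat_lit 228) (nat_lit 0) (XT.nd (nat_lit 312) (nat_lit 152) (nat_lit 0) (XT.nd (nat_lit 156) (nat_lit 152) (nat_lit 0) (XT.nd (nat_lit 78) (nat_lit 0) (nat_lit 0) (XT.lf (nat_lit 0) (nat_lit 1406618111) (nat_lit 228) (nat_lit 5313260546) (nat_lit 76) (nat_lit 7245594040) (nat_lit 18) (nat_lit 5) (nat_lit 21) (nat_lit 5) (nat_lit 19) (nat_lit 5) (nat_lit 279) (nat_lit 236) (nat_lit 205)) (XT.lf (nat_lit 0) (nat_lit 3652837626) (nat_lit 228) (nat_lit 365008016) (nat_lit 76) (nat_lit 10456440483) (nat_lit 18) (nat_lit 5) (nat_lit 21) (nat_lit 5) (nat_lit 19) (nat_lit 5) (nat_lit 280) (nat_lit 236) (nat_lit 204))) (XT.nd (nat_lit 78) (nat_lit 0) (nat_lit 0) (XT.lf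 (nat_lit 0) (nat_lit 4913888968) (nat_lit 152) (nat_lit 1123278652) (nat_lit 228) (nat_lit 8970282616) (nat_lit 16) (nat_lit 5) (nat_lit 18) (nat_lit 5) (nat_lit 19) (nat_lit 5) (nat_lit 281) (nat_lit 236) (nat_lit 203)) (XT.lf (nat_lit 0) (nat_lit 8526916267) (nat_lit 228) (nat_lit 5202734829) (nat_lit 76) (nat_lit 1838501809) (nat_lit 16) (nat_lit 5) (nat_lit 19) (nat_lit 5) (nat_lit 17) (nat_lit 4) (nat_lit 282) (nat_lit 236) (nat_lit 202)))) (XT.nd (nat_lit 156) (nat_lit 76) (nat_lit 0) (XT.nd (nat_lit 78) (nat_lit 76) (nat_lit 0) (XT.lf (nat_lit 0) (nat_lit 11111952313) (nat_lit 228) (nat_lit 157361171) (nat_lit 76) (nat_lit 4889218620) (nat_lit 16) (nat_lit 5) (nat_lit 19) (nat_lit 5) (nat_lit 17) (nat_lit 4) (nat_lit 283) (nat_lit 236) (nat_lit 201)) (XT.lf (nat_lit 0) (nat_lit 5239816889) (nat_lit 76) (nat_lit 8622884414) (nat_lit 152) (nat_lit 2914078658) (nat_lit 15) (nat_lit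 5) (nat_lit 16) (nat_lit 5) (nat_lit 17) (nat_lit 4) (nat_lit 284) (nat_lit 236) (nat_lit 200))) (XT.nd (nat_lit 78) (nat_lit 76) (nat_lit 0) (XT.lf (nat_lit 0) (nat_lit 10845245469) (nat_lit 76) (nat_lit 5864172385) (nat_lit 152) (nat_lit 718765379) (nat_lit 15) (nat_lit 5) (nat_lit 16) (nat_lit 5) (nat_lit 17) (nat_lit 4) (nat_lit 285) (nat_lit 236) (nat_lit 199)) (XT.lf (nat_lit 0) (nat_lit 1492570860) (nat_lit 152) (nat_lit 1471425754) (nat_lit 76) (nat_lit 15149219487) (nat_lit 14) (nat_lit 5) (nat_lit 16) (nat_lit 5) (nat_lit 15) (nat_lit 5) (nat_lit 286) (nat_lit 236) (nat_lit 198))))) (XT.nd (nat_lit 312) (nat_lit 0) (nat_lit 0) (XT.nd (nat_lit 156) (nat_lit 76) (nat_lit 0) (XT.nd (nat_lit 78) (nat_lit 0) (nat_lit 0) (XT.lf (nat_lit 0) (nat_lit 3813168987) (nat_lit 228) (nat_lit 14885249656) (nat_lit 76) (nat_lit 132492428) (nat_lit 12) (nat_lit 5) (nat_lit 15) (nat_lit 5)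 (nat_lit 13) (nat_lit 4) (nat_lit 287) (nat_lit 236) (nat_lit 197)) (XT.lf (nat_lit 0) (nat_lit 6283447733) (nat_lit 228) (nat_lit 10010679802) (nat_lit 76) (nat_lit 3288816075) (nat_lit 12) (nat_lit 5) (nat_lit 15) (nat_lit 5) (nat_lit 13) (nat_lit 4) (nat_lit 288) (nat_lit 236) (nat_lit 196))) (XT.nd (nat_lit 78) (nat_lit 76) (nat_lit 0) (XT.lf (nat_lit 0) (nat_lit 8838890688) (nat_lit 228) (nat_lit 4952499437) (nat_lit 76) (nat_lit 6583234053) (nat_lit 12) (nat_lit 5) (nat_lit 15) (nat_lit 5) (nat_lit 13) (nat_lit 4) (nat_lit 289) (nat_lit 236) (nat_lit 195)) (XT.lf (nat_lit 0) (nat_lit 311298214) (nat_lit 76) (nat_lit 11179144263) (nat_lit 152) (nat_lit 9717152236) (nat_lit 11) (nat_lit 5) (nat_lit 12) (nat_lit 5) (nat_lit 13) (nat_lit 4) (nat_lit 290) (nat_lit 236) (nat_lit 194)))) (XT.nd (nat_lit 156) (nat_lit 0) (nat_lit 0) (XT.nd (nat_lit 78) (nat_lit 0) (nat_lit 0) (XT.lf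 (nat_lit 0) (nat_lit 5953893596) (nat_lit 76) (nat_lit 8368887402) (nat_lit 152) (nat_lit 7757139246) (nat_lit 11) (nat_lit 5) (nat_lit 12) (nat_lit 5) (nat_lit 13) (nat_lit 4) (nat_lit 291) (nat_lit 236) (nat_lit 193)) (XT.lf (nat_lit 0) (nat_lit 11824969463) (nat_lit 76) (nat_lit 5437801429) (nat_lit 152) (nat_lit 5734900797) (nat_lit 11) (nat_lit 5) (nat_lit 12) (nat_lit 5) (nat_lit 13) (nat_lit 4) (nat_lit 292) (nat_lit 236) (nat_lit 192))) (XT.nd (nat_lit 78) (nat_lit 0) (nat_lit 0) (XT.lf (nat_lit 0) (nat_lit 17938504567) (nat_lit 76) (nat_lit 2378907568) (nat_lit 152) (nat_lit 3645622036) (nat_lit 11) (nat_lit 5) (nat_lit 12) (nat_lit 5) (nat_lit 13) (nat_lit 4) (nat_lit 293) (nat_lit 236) (nat_lit 191)) (XT.lf (nat_lit 0) (nat_lit 23506703323) (nat_lit 152) (nat_lit 681976868) (nat_lit 0) (nat_lit 788989699) (nat_lit 11) (nat_lit 5) (nat_lit 13) (nat_lit 4) (nat_lit 11) (nat_lit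 4) (nat_lit 294) (nat_lit 236) (nat_lit 190)))))) (XT.nd (nat_lit 624) (nat_lit 152) (nat_lit 0) (XT.nd (nat_lit 312) (nat_lit 76) (nat_lit 0) (XT.nd (nat_lit 156) (nat_lit 0) (nat_lit 0) (XT.nd (nat_lit 78) (nat_lit 0) (nat_lit 0) (XT.lf (nat_lit 0) (nat_lit 875233939) (nat_lit 228) (nat_lit 21051746173) (nat_lit 76) (nat_lit 4111073946) (nat_lit 8) (nat_lit 5) (nat_lit 11) (nat_lit 5) (nat_lit 9) (nat_lit 4) (nat_lit 295) (nat_lit 236) (nat_lit 189)) (XT.lf (nat_lit 0) (nat_lit 3271558174) (nat_lit 228) (nat_lit 16261435897) (nat_lit 76) (nat_lit 7618232517) (nat_lit 8) (nat_lit 5) (nat_lit 11) (nat_lit 5) (nat_lit 9) (nat_lit 4) (nat_lit 296) (nat_lit 236) (nat_lit 188))) (XT.nd (nat_lit 78) (nat_lit 0) (nat_lit 0) (XT.lf (nat_lit 0) (nat_lit 5759611840) (nat_lit 228) (nat_lit 11277263413) (nat_lit 76) (nat_lit 11284669929) (nat_lit 8) (nat_lit 5) (nat_lit 11) (nat_lit 5) (nat_lit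 9) (nat_lit 4) (nat_lit 297) (nat_lit 236) (nat_lit 187)) (XT.lf (nat_lit 0) (nat_lit 8345318872) (nat_lit 228) (nat_lit 6087361644) (nat_lit 76) (nat_lit 15119115796) (nat_lit 8) (nat_lit 5) (nat_lit 11) (nat_lit 5) (nat_lit 9) (nat_lit 4) (nat_lit 298) (nat_lit 236) (nat_lit 186)))) (XT.nd (nat_lit 156) (nat_lit 0) (nat_lit 0) (XT.nd (nat_lit 78) (nat_lit 76) (nat_lit 0) (XT.lf (nat_lit 0) (nat_lit 11034835716) (nat_lit 228) (nat_lit 679373681) (nat_lit 76) (nat_lit 19130699750) (nat_lit 8) (nat_lit 5) (nat_lit 11) (nat_lit 5) (nat_lit 9) (nat_lit 4) (nat_lit 299) (nat_lit 236) (nat_lit 185)) (XT.lf (nat_lit 0) (nat_lit 5123562638) (nat_lit 76) (nat_lit 8790996518) (nat_lit 152) (nat_lit 18285403715) (nat_lit 7) (nat_lit 5) (nat_lit 8) (nat_lit 5) (nat_lit 9) (nat_lit 4) (nat_lit 300) (nat_lit 236) (nat_lit 184))) (XT.nd (nat_lit 78) (nat_lit 0) (nat_lit 0) (XT.lf (nat_lit 0) (nat_lit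 11201431134) (nat_lit 76) (nat_lit 5724630300) (nat_lit 152) (nat_lit 16697386579) (nat_lit 7) (nat_lit 5) (nat_lit 8) (nat_lit 5) (nat_lit 9) (nat_lit 4) (nat_lit 301) (nat_lit 236) (nat_lit 183)) (XT.lf (nat_lit 0) (nat_lit 17546239757) (nat_lit 76) (nat_lit 2519315394) (nat_lit 152) (nat_lit 15053746553) (nat_lit 7) (nat_lit 5) (nat_lit 8) (nat_lit 5) (nat_lit 9) (nat_lit 4) (nat_lit 302) (nat_lit 236) (nat_lit 182))))) (XT.nd (nat_lit 312) (nat_lit 76) (nat_lit 0) (XT.nd (nat_lit 156) (nat_lit 76) (nat_lit 0) (XT.nd (nat_lit 78) (nat_lit 0) (nat_lit 0) (XT.lf (nat_lit 0) (nat_lit 23353514201) (nat_lit 152) (nat_lit 12530989212) (nat_lit 0) (nat_lit 805932144) (nat_lit 7) (nat_lit 5) (nat_lit 9) (nat_lit 4) (nat_lit 7) (nat_lit 4) (nat_lit 303) (nat_lit 236) (nat_lit 181)) (XT.lf (nat_lit 0) (nat_lit 26826483906) (nat_lit 152) (nat_lit 7312510589) (nat_lit 0) (nat_lit 4200160030)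 (nat_lit 7) (nat_lit 5) (nat_lit 9) (nat_lit 4) (nat_lit 7) (nat_lit 4) (nat_lit 304) (nat_lit 236) (nat_lit 180))) (XT.nd (nat_lit 78) (nat_lit 76) (nat_lit 0) (XT.lf (nat_lit 0) (nat_lit 30453399668) (nat_lit 152) (nat_lit 1865867555) (nat_lit 0) (nat_lit 7752083583) (nat_lit 7) (nat_lit 5) (nat_lit 9) (nat_lit 4) (nat_lit 7) (nat_lit 4) (nat_lit 305) (nat_lit 236) (nat_lit 179)) (XT.lf (nat_lit 0) (nat_lit 3948277629) (nat_lit 76) (nat_lit 30356263051) (nat_lit 76) (nat_lit 7583525815) (nat_lit 6) (nat_lit 4) (nat_lit 7) (nat_lit 5) (nat_lit 7) (nat_lit 4) (nat_lit 306) (nat_lit 236) (nat_lit 178)))) (XT.nd (nat_lit 156) (nat_lit 76) (nat_lit 0) (XT.nd (nat_lit 78) (nat_lit 0) (nat_lit 0) (XT.lf (nat_lit 0) (nat_lit 10087212456) (nat_lit 76) (nat_lit 28274275717) (nat_lit 76) (nat_lit 5433518337) (nat_lit 6) (nat_lit 4) (nat_lit 7) (nat_lit 5) (nat_lit 7) (nat_lit 4) (nat_lit 307)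 (nat_lit 236) (nat_lit 177)) (XT.lf (nat_lit 0) (nat_lit 16503859430) (nat_lit 76) (nat_lit 26099947480) (nat_lit 76) (nat_lit 3194409010) (nat_lit 6) (nat_lit 4) (nat_lit 7) (nat_lit 5) (nat_lit 7) (nat_lit 4) (nat_lit 308) (nat_lit 236) (nat_lit 176))) (XT.nd (nat_lit 78) (nat_lit 76) (nat_lit 0) (XT.lf (nat_lit 0) (nat_lit 23213496282) (nat_lit 76) (nat_lit 23828101366) (nat_lit 76) (nat_lit 860866620) (nat_lit 6) (nat_lit 4) (nat_lit 7) (nat_lit 5) (nat_lit 7) (nat_lit 4) (nat_lit 309) (nat_lit 236) (nat_lit 175)) (XT.lf (nat_lit 0) (nat_lit 1522329786) (nat_lit 152) (nat_lit 19905217041) (nat_lit 76) (nat_lit 28683987159) (nat_lit 5) (nat_lit 5) (nat_lit 7) (nat_lit 5) (nat_lit 6) (nat_lit 4) (nat_lit 310) (nat_lit 236) (nat_lit 174))))))) (XT.nd (nat_lit 1248) (nat_lit 76) (nat_lit 0) (XT.nd (nat_lit 624) (nat_lit 0) (nat_lit 0) (XT.nd (nat_lit 312) (nat_lit 0) (nat_lit 0) (XT.nd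 (nat_lit 156) (nat_lit 76) (nat_lit 0) (XT.nd (nat_lit 78) (nat_lit 0) (nat_lit 0) (XT.lf (nat_lit 0) (nat_lit 3980370598) (nat_lit 152) (nat_lit 14922193716) (nat_lit 76) (nat_lit 33528596451) (nat_lit 5) (nat_lit 5) (nat_lit 7) (nat_lit 5) (nat_lit 6) (nat_lit 4) (nat_lit 311) (nat_lit 236) (nat_lit 173)) (XT.lf (nat_lit 0) (nat_lit 6546661403) (nat_lit 152) (nat_lit 9714593129) (nat_lit 76) (nat_lit 38606285023) (nat_lit 5) (nat_lit 5) (nat_lit 7) (nat_lit 5) (nat_lit 6) (nat_lit 4) (nat_lit 312) (nat_lit 236) (nat_lit 172))) (XT.nd (nat_lit 78) (nat_lit 76) (nat_lit 0) (XT.lf (nat_lit 0) (nat_lit 9227312416) (nat_lit 152) (nat_lit 4270016232) (nat_lit 76) (nat_lit 43929142608) (nat_lit 5) (nat_lit 5) (nat_lit 7) (nat_lit 5) (nat_lit 6) (nat_lit 4) (nat_lit 313) (nat_lit 236) (nat_lit 171)) (XT.lf (nat_lit 0) (nat_lit 1471600665) (nat_lit 76) (nat_lit 10580081284) (nat_lit 152)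 (nat_lit 48061217823) (nat_lit 4) (nat_lit 5) (nat_lit 5) (nat_lit 5) (nat_lit 6) (nat_lit 4) (nat_lit 314) (nat_lit 236) (nat_lit 170)))) (XT.nd (nat_lit 156) (nat_lit 0) (nat_lit 0) (XT.nd (nat_lit 78) (nat_lit 0) (nat_lit 0) (XT.lf (nat_lit 0) (nat_lit 7626613977) (nat_lit 76) (nat_lit 7449971398) (nat_lit 152) (nat_lit 47854131453) (nat_lit 4) (nat_lit 5) (nat_lit 5) (nat_lit 5) (nat_lit 6) (nat_lit 4) (nat_lit 315) (nat_lit 236) (nat_lit 169)) (XT.lf (nat_lit 0) (nat_lit 14068492478) (nat_lit 76) (nat_lit 4171861137) (nat_lit 152) (nat_lit 47649721459) (nat_lit 4) (nat_lit 5) (nat_lit 5) (nat_lit 5) (nat_lit 6) (nat_lit 4) (nat_lit 316) (nat_lit 236) (nat_lit 168))) (XT.nd (nat_lit 78) (nat_lit 0) (nat_lit 0) (XT.lf (nat_lit 0) (nat_lit 20812573972) (nat_lit 76) (nat_lit 737945478) (nat_lit 152) (nat_lit 47447501151) (nat_lit 4) (nat_lit 5) (nat_lit 5) (nat_lit 5) (nat_lit 6)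 (nat_lit 4) (nat_lit 317) (nat_lit 236) (nat_lit 167)) (XT.lf (nat_lit 0) (nat_lit 25059616087) (nat_lit 152) (nat_lit 44431689341) (nat_lit 0) (nat_lit 2768415257) (nat_lit 4) (nat_lit 5) (nat_lit 6) (nat_lit 4) (nat_lit 4) (nat_lit 4) (nat_lit 318) (nat_lit 236) (nat_lit 166))))) (XT.nd (nat_lit 312) (nat_lit 0) (nat_lit 0) (XT.nd (nat_lit 156) (nat_lit 0) (nat_lit 0) (XT.nd (nat_lit 78) (nat_lit 0) (nat_lit 0) (XT.lf (nat_lit 0) (nat_lit 28745455696) (nat_lit 152) (nat_lit 40520830394) (nat_lit 0) (nat_lit 6418182331) (nat_lit 4) (nat_lit 5) (nat_lit 6) (nat_lit 4) (nat_lit 4) (nat_lit 4) (nat_lit 319) (nat_lit 236) (nat_lit 165)) (XT.lf (nat_lit 0) (nat_lit 32605292689) (nat_lit 152) (nat_lit 36432036822) (nat_lit 0) (nat_lit 10243664529) (nat_lit 4) (nat_lit 5) (nat_lit 6) (nat_lit 4) (nat_lit 4) (nat_lit 4) (nat_lit 320) (nat_lit 236) (nat_lit 164))) (XT.nd (nat_lit 78) (nat_lit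 0) (nat_lit 0) (XT.lf (nat_lit 0) (nat_lit 36648317153) (nat_lit 152) (nat_lit 32155573402) (nat_lit 0) (nat_lit 14253970142) (nat_lit 4) (nat_lit 5) (nat_lit 6) (nat_lit 4) (nat_lit 4) (nat_lit 4) (nat_lit 321) (nat_lit 236) (nat_lit 163)) (XT.lf (nat_lit 0) (nat_lit 40884155339) (nat_lit 152) (nat_lit 27681258078) (nat_lit 0) (nat_lit 18458647516) (nat_lit 4) (nat_lit 5) (nat_lit 6) (nat_lit 4) (nat_lit 4) (nat_lit 4) (nat_lit 322) (nat_lit 236) (nat_lit 162)))) (XT.nd (nat_lit 156) (nat_lit 0) (nat_lit 0) (XT.nd (nat_lit 78) (nat_lit 0) (nat_lit 0) (XT.lf (nat_lit 0) (nat_lit 45322892575) (nat_lit 152) (nat_lit 22998437719) (nat_lit 0) (nat_lit 22867707788) (nat_lit 4) (nat_lit 5) (nat_lit 6) (nat_lit 4) (nat_lit 4) (nat_lit 4) (nat_lit 323) (nat_lit 236) (nat_lit 161)) (XT.lf (nat_lit 0) (nat_lit 49975097282) (nat_lit 152) (nat_lit 18095962753) (nat_lit 0) (nat_lit 27491648720)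 (nat_lit 4) (nat_lit 5) (nat_lit 6) (nat_lit 4) (nat_lit 4) (nat_lit 4) (nat_lit 324) (nat_lit 236) (nat_lit 160))) (XT.nd (nat_lit 78) (nat_lit 0) (nat_lit 0) (XT.lf (nat_lit 0) (nat_lit 54851846139) (nat_lit 152) (nat_lit 12962160619) (nat_lit 0) (nat_lit 32341479697) (nat_lit 4) (nat_lit 5) (nat_lit 6) (nat_lit 4) (nat_lit 4) (nat_lit 4) (nat_lit 325) (nat_lit 236) (nat_lit 159)) (XT.lf (nat_lit 0) (nat_lit 59964750452) (nat_lit 152) (nat_lit 7584807981) (nat_lit 0) (nat_lit 37428747933) (nat_lit 4) (nat_lit 5) (nat_lit 6) (nat_lit 4) (nat_lit 4) (nat_lit 4) (nat_lit 326) (nat_lit 236) (nat_lit 158)))))) (XT.nd (nat_lit 624) (nat_lit 0) (nat_lit 0) (XT.nd (nat_lit 312) (nat_lit 0) (nat_lit 0) (XT.nd (nat_lit 156) (nat_lit 0) (nat_lit 0) (XT.nd (nat_lit 78) (nat_lit 76) (nat_lit 0) (XT.lf (nat_lit 0) (nat_lit 65325983804) (nat_lit 152) (nat_lit 1951101616) (nat_lit 0) (nat_lit 42765565974)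 (nat_lit 4) (nat_lit 5) (nat_lit 6) (nat_lit 4) (nat_lit 4) (nat_lit 4) (nat_lit 327) (nat_lit 236) (nat_lit 157)) (XT.lf (nat_lit 0) (nat_lit 4083055330) (nat_lit 76) (nat_lit 66929003641) (nat_lit 76) (nat_lit 44345333133) (nat_lit 3) (nat_lit 4) (nat_lit 4) (nat_lit 5) (nat_lit 4) (nat_lit 4) (nat_lit 328) (nat_lit 236) (nat_lit 156))) (XT.nd (nat_lit 78) (nat_lit 0) (nat_lit 0) (XT.lf (nat_lit 0) (nat_lit 10474932187) (nat_lit 76) (nat_lit 66533729499) (nat_lit 76) (nat_lit 43927913584) (nat_lit 3) (nat_lit 4) (nat_lit 4) (nat_lit 5) (nat_lit 4) (nat_lit 4) (nat_lit 329) (nat_lit 236) (nat_lit 155)) (XT.lf (nat_lit 0) (nat_lit 17175235478) (nat_lit 76) (nat_lit 66123364715) (nat_lit 76) (nat_lit 43496457936) (nat_lit 3) (nat_lit 4) (nat_lit 4) (nat_lit 5) (nat_lit 4) (nat_lit 4) (nat_lit 330) (nat_lit 236) (nat_lit 154)))) (XT.nd (nat_lit 156) (nat_lit 0) (nat_lit 0) (XT.nd (nat_lit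 78) (nat_lit 0) (nat_lit 0) (XT.lf (nat_lit 0) (nat_lit 24199918305) (nat_lit 76) (nat_lit 65696932231) (nat_lit 76) (nat_lit 43049938915) (nat_lit 3) (nat_lit 4) (nat_lit 4) (nat_lit 5) (nat_lit 4) (nat_lit 4) (nat_lit 331) (nat_lit 236) (nat_lit 153)) (XT.lf (nat_lit 0) (nat_lit 31565706105) (nat_lit 76) (nat_lit 65253416730) (nat_lit 76) (nat_lit 42587293379) (nat_lit 3) (nat_lit 4) (nat_lit 4) (nat_lit 5) (nat_lit 4) (nat_lit 4) (nat_lit 332) (nat_lit 236) (nat_lit 152))) (XT.nd (nat_lit 78) (nat_lit 0) (nat_lit 0) (XT.lf (nat_lit 0) (nat_lit 39290136466) (nat_lit 76) (nat_lit 64791762225) (nat_lit 76) (nat_lit 42107419792) (nat_lit 3) (nat_lit 4) (nat_lit 4) (nat_lit 5) (nat_lit 4) (nat_lit 4) (nat_lit 333) (nat_lit 236) (nat_lit 151)) (XT.lf (nat_lit 0) (nat_lit 47391600889) (nat_lit 76) (nat_lit 64310869536) (nat_lit 76) (nat_lit 41609175598) (nat_lit 3) (nat_lit 4) (nat_lit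 4) (nat_lit 5) (nat_lit 4) (nat_lit 4) (nat_lit 334) (nat_lit 236) (nat_lit 150))))) (XT.nd (nat_lit 312) (nat_lit 0) (nat_lit 0) (XT.nd (nat_lit 156) (nat_lit 0) (nat_lit 0) (XT.nd (nat_lit 78) (nat_lit 0) (nat_lit 0) (XT.lf (nat_lit 0) (nat_lit 55889388577) (nat_lit 76) (nat_lit 63809593683) (nat_lit 76) (nat_lit 41091374501) (nat_lit 3) (nat_lit 4) (nat_lit 4) (nat_lit 5) (nat_lit 4) (nat_lit 4) (nat_lit 335) (nat_lit 236) (nat_lit 149)) (XT.lf (nat_lit 0) (nat_lit 64803732356) (nat_lit 76) (nat_lit 63286741150) (nat_lit 76) (nat_lit 40552783641) (nat_lit 3) (nat_lit 4) (nat_lit 4) (nat_lit 5) (nat_lit 4) (nat_lit 4) (nat_lit 336) (nat_lit 236) (nat_lit 148))) (XT.nd (nat_lit 78) (nat_lit 0) (nat_lit 0) (XT.lf (nat_lit 0) (nat_lit 74155856855) (nat_lit 76) (nat_lit 62741067051) (nat_lit 76) (nat_lit 39992120658) (nat_lit 3) (nat_lit 4) (nat_lit 4) (nat_lit 5) (nat_lit 4) (nat_lit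 4) (nat_lit 337) (nat_lit 236) (nat_lit 147)) (XT.lf (nat_lit 0) (nat_lit 83968029037) (nat_lit 76) (nat_lit 62171272162) (nat_lit 76) (nat_lit 39408050642) (nat_lit 3) (nat_lit 4) (nat_lit 4) (nat_lit 5) (nat_lit 4) (nat_lit 4) (nat_lit 338) (nat_lit 236) (nat_lit 146)))) (XT.nd (nat_lit 156) (nat_lit 0) (nat_lit 0) (XT.nd (nat_lit 78) (nat_lit 0) (nat_lit 0) (XT.lf (nat_lit 0) (nat_lit 94263611216) (nat_lit 76) (nat_lit 61575999828) (nat_lit 76) (nat_lit 38799182950) (nat_lit 3) (nat_lit 4) (nat_lit 4) (nat_lit 5) (nat_lit 4) (nat_lit 4) (nat_lit 339) (nat_lit 236) (nat_lit 145)) (XT.lf (nat_lit 0) (nat_lit 105067116684) (nat_lit 76) (nat_lit 60953832734) (nat_lit 76) (nat_lit 38164067895) (nat_lit 3) (nat_lit 4) (nat_lit 4) (nat_lit 5) (nat_lit 4) (nat_lit 4) (nat_lit 340) (nat_lit 236) (nat_lit 144))) (XT.nd (nat_lit 78) (nat_lit 0) (nat_lit 0) (XT.lf (nat_lit 0) (nat_lit 116404268072)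 (nat_lit 76) (nat_lit 60303289531) (nat_lit 76) (nat_lit 37501193300) (nat_lit 3) (nat_lit 4) (nat_lit 4) (nat_lit 5) (nat_lit 4) (nat_lit 4) (nat_lit 341) (nat_lit 236) (nat_lit 143)) (XT.lf (nat_lit 0) (nat_lit 128302058598) (nat_lit 76) (nat_lit 59622821304) (nat_lit 76) (nat_lit 36808980891) (nat_lit 3) (nat_lit 4) (nat_lit 4) (nat_lit 5) (nat_lit 4) (nat_lit 4) (nat_lit 342) (nat_lit 236) (nat_lit 142))))))))
noncomputable def xc82 : XT := (XT.nd (nat_lit 30108) (nat_lit 0) (nat_lit 2888) (XT.nd (nat_lit 624) (nat_lit 0) (nat_lit 0) (XT.nd (nat_lit 312) (nat_lit 0) (nat_lit 0) (XT.nd (nat_lit 156) (nat_lit 0) (nat_lit 0) (XT.nd (nat_lit 78) (nat_lit 0) (nat_lit 0) (XT.lf (nat_lit 0) (nat_lit 140788816334) (nat_lit 76) (nat_lit 58910807893) (nat_lit 76) (nat_lit 36085782545) (nat_lit 3) (nat_lit 4) (nat_lit 4) (nat_lit 5) (nat_lit 4) (nat_lit 4) (nat_lit 343) (nat_lit 236) (nat_lit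 141)) (XT.lf (nat_lit 0) (nat_lit 153894271657) (nat_lit 76) (nat_lit 58165554027) (nat_lit 76) (nat_lit 35329876359) (nat_lit 3) (nat_lit 4) (nat_lit 4) (nat_lit 5) (nat_lit 4) (nat_lit 4) (nat_lit 344) (nat_lit 236) (nat_lit 140))) (XT.nd (nat_lit 78) (nat_lit 0) (nat_lit 0) (XT.lf (nat_lit 0) (nat_lit 167649628031) (nat_lit 76) (nat_lit 57385285292) (nat_lit 76) (nat_lit 34539462558) (nat_lit 3) (nat_lit 4) (nat_lit 4) (nat_lit 5) (nat_lit 4) (nat_lit 4) (nat_lit 345) (nat_lit 236) (nat_lit 139)) (XT.lf (nat_lit 0) (nat_lit 182087636306) (nat_lit 76) (nat_lit 56568143906) (nat_lit 76) (nat_lit 33712659204) (nat_lit 3) (nat_lit 4) (nat_lit 4) (nat_lit 5) (nat_lit 4) (nat_lit 4) (nat_lit 346) (nat_lit 236) (nat_lit 138)))) (XT.nd (nat_lit 156) (nat_lit 0) (nat_lit 0) (XT.nd (nat_lit 78) (nat_lit 0) (nat_lit 0) (XT.lf (nat_lit 0) (nat_lit 197242672690) (nat_lit 76) (nat_lit 55712184293)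 (nat_lit 76) (nat_lit 32847497717) (nat_lit 3) (nat_lit 4) (nat_lit 4) (nat_lit 5) (nat_lit 4) (nat_lit 4) (nat_lit 347) (nat_lit 236) (nat_lit 137)) (XT.lf (nat_lit 0) (nat_lit 213150820604) (nat_lit 76) (nat_lit 54815368455) (nat_lit 76) (nat_lit 31941918190) (nat_lit 3) (nat_lit 4) (nat_lit 4) (nat_lit 5) (nat_lit 4) (nat_lit 4) (nat_lit 348) (nat_lit 236) (nat_lit 136))) (XT.nd (nat_lit 78) (nat_lit 0) (nat_lit 0) (XT.lf (nat_lit 0) (nat_lit 229849956590) (nat_lit 76) (nat_lit 53875561116) (nat_lit 76) (nat_lit 30993764479) (nat_lit 3) (nat_lit 4) (nat_lit 4) (nat_lit 5) (nat_lit 4) (nat_lit 4) (nat_lit 349) (nat_lit 236) (nat_lit 135)) (XT.lf (nat_lit 0) (nat_lit 247379840497) (nat_lit 76) (nat_lit 52890524639) (nat_lit 76) (nat_lit 30000779077) (nat_lit 3) (nat_lit 4) (nat_lit 4) (nat_lit 5) (nat_lit 4) (nat_lit 4) (nat_lit 350) (nat_lit 236) (nat_lit 134))))) (XT.nd (nat_lit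 312) (nat_lit 0) (nat_lit 0) (XT.nd (nat_lit 156) (nat_lit 0) (nat_lit 0) (XT.nd (nat_lit 78) (nat_lit 0) (nat_lit 0) (XT.lf (nat_lit 0) (nat_lit 265782210143) (nat_lit 76) (nat_lit 51857913699) (nat_lit 76) (nat_lit 28960597733) (nat_lit 3) (nat_lit 4) (nat_lit 4) (nat_lit 5) (nat_lit 4) (nat_lit 4) (nat_lit 351) (nat_lit 236) (nat_lit 133)) (XT.lf (nat_lit 0) (nat_lit 285100880694) (nat_lit 76) (nat_lit 50775269699) (nat_lit 76) (nat_lit 27870743824) (nat_lit 3) (nat_lit 4) (nat_lit 4) (nat_lit 5) (nat_lit 4) (nat_lit 4) (nat_lit 352) (nat_lit 236) (nat_lit 132))) (XT.nd (nat_lit 78) (nat_lit 0) (nat_lit 0) (XT.lf (nat_lit 0) (nat_lit 305381848985) (nat_lit 76) (nat_lit 49640014915) (nat_lit 76) (nat_lit 26728622460) (nat_lit 3) (nat_lit 4) (nat_lit 4) (nat_lit 5) (nat_lit 4) (nat_lit 4) (nat_lit 353) (nat_lit 236) (nat_lit 131)) (XT.lf (nat_lit 0) (nat_lit 326673403034) (nat_lit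 76) (nat_lit 48449446360) (nat_lit 76) (nat_lit 25531514305) (nat_lit 3) (nat_lit 4) (nat_lit 4) (nat_lit 5) (nat_lit 4) (nat_lit 4) (nat_lit 354) (nat_lit 236) (nat_lit 130)))) (XT.nd (nat_lit 29016) (nat_lit 0) (nat_lit 6612) (XT.nd (nat_lit 78) (nat_lit 0) (nat_lit 0) (XT.lf (nat_lit 0) (nat_lit 349026237019) (nat_lit 76) (nat_lit 47200729346) (nat_lit 76) (nat_lit 24276569101) (nat_lit 3) (nat_lit 4) (nat_lit 4) (nat_lit 5) (nat_lit 4) (nat_lit 4) (nat_lit 355) (nat_lit 236) (nat_lit 129)) (XT.lf (nat_lit 0) (nat_lit 372493571973) (nat_lit 76) (nat_lit 45890890738) (nat_lit 76) (nat_lit 22960798882) (nat_lit 3) (nat_lit 4) (nat_lit 4) (nat_lit 5) (nat_lit 4) (nat_lit 4) (nat_lit 356) (nat_lit 236) (nat_lit 128))) (XT.nd (nat_lit 78) (nat_lit 228) (nat_lit 0) (XT.lf (nat_lit 0) (nat_lit 1153287125) (nat_lit 228) (nat_lit 972579400) (nat_lit 0) (nat_lit 1153287125) (nat_lit 93)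 (nat_lit 5) (nat_lit 96) (nat_lit 4) (nat_lit 93) (nat_lit 4) (nat_lit 246) (nat_lit 237) (nat_lit 237)) (XT.lf (nat_lit 0) (nat_lit 1288236443) (nat_lit 228) (nat_lit 3692039058) (nat_lit 228) (nat_lit 1622429213) (nat_lit 90) (nat_lit 4) (nat_lit 93) (nat_lit 5) (nat_lit 93) (nat_lit 4) (nat_lit 247) (nat_lit 237) (nat_lit 236)))))) (XT.nd (nat_lit 624) (nat_lit 1824) (nat_lit 0) (XT.nd (nat_lit 312) (nat_lit 1064) (nat_lit 0) (XT.nd (nat_lit 156) (nat_lit 456) (nat_lit 0) (XT.nd (nat_lit 78) (nat_lit 304) (nat_lit 0) (XT.lf (nat_lit 0) (nat_lit 981466381) (nat_lit 304) (nat_lit 2028660759) (nat_lit 76) (nat_lit 3645736095) (nat_lit 89) (nat_lit 5) (nat_lit 93) (nat_lit 5) (nat_lit 90) (nat_lit 4) (nat_lit 248) (nat_lit 237) (nat_lit 235)) (XT.lf (nat_lit 0) (nat_lit 1329284246) (nat_lit 304) (nat_lit 2205910009) (nat_lit 380) (nat_lit 3182788332) (nat_lit 85) (nat_lit 5) (nat_lit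 89) (nat_lit 5) (nat_lit 90) (nat_lit 4) (nat_lit 249) (nat_lit 237) (nat_lit 234))) (XT.nd (nat_lit 78) (nat_lit 456) (nat_lit 0) (XT.lf (nat_lit 0) (nat_lit 4819199510) (nat_lit 304) (nat_lit 1290493312) (nat_lit 380) (nat_lit 680137875) (nat_lit 85) (nat_lit 5) (nat_lit 89) (nat_lit 5) (nat_lit 90) (nat_lit 4) (nat_lit 250) (nat_lit 237) (nat_lit 233)) (XT.lf (nat_lit 0) (nat_lit 1529885345) (nat_lit 380) (nat_lit 241381014) (nat_lit 456) (nat_lit 5099344823) (nat_lit 79) (nat_lit 5) (nat_lit 84) (nat_lit 5) (nat_lit 85) (nat_lit 5) (nat_lit 251) (nat_lit 237) (nat_lit 232)))) (XT.nd (nat_lit 156) (nat_lit 608) (nat_lit 0) (XT.nd (nat_lit 78) (nat_lit 456) (nat_lit 0) (XT.lf (nat_lit 0) (nat_lit 4237163545) (nat_lit 456) (nat_lit 1818517005) (nat_lit 76) (nat_lit 904556784) (nat_lit 79) (nat_lit 5) (nat_lit 85) (nat_lit 5) (nat_lit 80) (nat_lit 4) (nat_lit 252) (nat_lit 237) (nat_lit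 231)) (XT.lf (nat_lit 0) (nat_lit 1826227580) (nat_lit 456) (nat_lit 4906339703) (nat_lit 532) (nat_lit 327517521) (nat_lit 73) (nat_lit 5) (nat_lit 79) (nat_lit 5) (nat_lit 80) (nat_lit 4) (nat_lit 253) (nat_lit 237) (nat_lit 230))) (XT.nd (nat_lit 78) (nat_lit 532) (nat_lit 0) (XT.lf (nat_lit 0) (nat_lit 2024222456) (nat_lit 532) (nat_lit 1593110447) (nat_lit 76) (nat_lit 3551515282) (nat_lit 72) (nat_lit 5) (nat_lit 79) (nat_lit 5) (nat_lit 73) (nat_lit 5) (nat_lit 254) (nat_lit 237) (nat_lit 229)) (XT.lf (nat_lit 0) (nat_lit 2188239922) (nat_lit 532) (nat_lit 2209540996) (nat_lit 608) (nat_lit 2890145994) (nat_lit 65) (nat_lit 5) (nat_lit 72) (nat_lit 5) (nat_lit 73) (nat_lit 5) (nat_lit 255) (nat_lit 237) (nat_lit 228))))) (XT.nd (nat_lit 312) (nat_lit 684) (nat_lit 0) (XT.nd (nat_lit 156) (nat_lit 456) (nat_lit 0) (XT.nd (nat_lit 78) (nat_lit 684) (nat_lit 0) (XT.lf (nat_lit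 0) (nat_lit 6109576378) (nat_lit 532) (nat_lit 692528013) (nat_lit 608) (nat_lit 616115156) (nat_lit 65) (nat_lit 5) (nat_lit 72) (nat_lit 5) (nat_lit 73) (nat_lit 5) (nat_lit 256) (nat_lit 237) (nat_lit 227)) (XT.lf (nat_lit 0) (nat_lit 1659184288) (nat_lit 684) (nat_lit 4948905873) (nat_lit 76) (nat_lit 949124134) (nat_lit 56) (nat_lit 5) (nat_lit 65) (nat_lit 5) (nat_lit 57) (nat_lit 5) (nat_lit 257) (nat_lit 237) (nat_lit 226))) (XT.nd (nat_lit 78) (nat_lit 456) (nat_lit 0) (XT.lf (nat_lit 0) (nat_lit 3953241570) (nat_lit 684) (nat_lit 1065812474) (nat_lit 76) (nat_lit 2688061443) (nat_lit 56) (nat_lit 5) (nat_lit 65) (nat_lit 5) (nat_lit 57) (nat_lit 5) (nat_lit 258) (nat_lit 237) (nat_lit 225)) (XT.lf (nat_lit 0) (nat_lit 3004270968) (nat_lit 456) (nat_lit 3301606914) (nat_lit 532) (nat_lit 1562151133) (nat_lit 50) (nat_lit 5) (nat_lit 56) (nat_lit 5) (nat_lit 57) (nat_lit 5)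 (nat_lit 259) (nat_lit 237) (nat_lit 224)))) (XT.nd (nat_lit 156) (nat_lit 304) (nat_lit 0) (XT.nd (nat_lit 78) (nat_lit 304) (nat_lit 0) (XT.lf (nat_lit 0) (nat_lit 631846059) (nat_lit 532) (nat_lit 838731921) (nat_lit 76) (nat_lit 6570660901) (nat_lit 49) (nat_lit 5) (nat_lit 56) (nat_lit 5) (nat_lit 50) (nat_lit 5) (nat_lit 260) (nat_lit 237) (nat_lit 223)) (XT.lf (nat_lit 0) (nat_lit 2846787864) (nat_lit 380) (nat_lit 4863824202) (nat_lit 76) (nat_lit 513643820) (nat_lit 45) (nat_lit 5) (nat_lit 50) (nat_lit 5) (nat_lit 46) (nat_lit 5) (nat_lit 261) (nat_lit 237) (nat_lit 222))) (XT.nd (nat_lit 78) (nat_lit 304) (nat_lit 0) (XT.lf (nat_lit 0) (nat_lit 5116881512) (nat_lit 380) (nat_lit 745608684) (nat_lit 76) (nat_lit 2557298317) (nat_lit 45) (nat_lit 5) (nat_lit 50) (nat_lit 5) (nat_lit 46) (nat_lit 5) (nat_lit 262) (nat_lit 237) (nat_lit 221)) (XT.lf (nat_lit 0) (nat_lit 3594293824)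 (nat_lit 304) (nat_lit 3872645619) (nat_lit 380) (nat_lit 1160392503) (nat_lit 41) (nat_lit 5) (nat_lit 45) (nat_lit 5) (nat_lit 46) (nat_lit 5) (nat_lit 263) (nat_lit 237) (nat_lit 220)))))))
noncomputable def xc83 : XT := (XT.nd (nat_lit 1248) (nat_lit 760) (nat_lit 0) (XT.nd (nat_lit 624) (nat_lit 684) (nat_lit 0) (XT.nd (nat_lit 312) (nat_lit 532) (nat_lit 0) (XT.nd (nat_lit 156) (nat_lit 228) (nat_lit 0) (XT.nd (nat_lit 78) (nat_lit 228) (nat_lit 0) (XT.lf (nat_lit 0) (nat_lit 978368011) (nat_lit 380) (nat_lit 785862878) (nat_lit 76) (nat_lit 7084477553) (nat_lit 40) (nat_lit 5) (nat_lit 45) (nat_lit 5) (nat_lit 41) (nat_lit 5) (nat_lit 264) (nat_lit 237) (nat_lit 219)) (XT.lf (nat_lit 0) (nat_lit 3165932482) (nat_lit 304) (nat_lit 5414122935) (nat_lit 76) (nat_lit 501585358) (nat_lit 37) (nat_lit 5) (nat_lit 41) (nat_lit 5) (nat_lit 38) (nat_lit 5) (nat_lit 265) (nat_lit 237)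 (nat_lit 218))) (XT.nd (nat_lit 78) (nat_lit 228) (nat_lit 0) (XT.lf (nat_lit 0) (nat_lit 5423056546) (nat_lit 304) (nat_lit 1082945506) (nat_lit 76) (nat_lit 2822666976) (nat_lit 37) (nat_lit 5) (nat_lit 41) (nat_lit 5) (nat_lit 38) (nat_lit 5) (nat_lit 266) (nat_lit 237) (nat_lit 217)) (XT.lf (nat_lit 0) (nat_lit 3481848634) (nat_lit 228) (nat_lit 4287199500) (nat_lit 304) (nat_lit 1820636536) (nat_lit 34) (nat_lit 5) (nat_lit 37) (nat_lit 5) (nat_lit 38) (nat_lit 5) (nat_lit 267) (nat_lit 237) (nat_lit 216)))) (XT.nd (nat_lit 156) (nat_lit 228) (nat_lit 0) (XT.nd (nat_lit 78) (nat_lit 228) (nat_lit 0) (XT.lf (nat_lit 0) (nat_lit 297713513) (nat_lit 304) (nat_lit 1652235967) (nat_lit 76) (nat_lit 7916863718) (nat_lit 33) (nat_lit 5) (nat_lit 37) (nat_lit 5) (nat_lit 34) (nat_lit 5) (nat_lit 268) (nat_lit 237) (nat_lit 215)) (XT.lf (nat_lit 0) (nat_lit 2442493129) (nat_lit 304) (nat_lit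 7165812700) (nat_lit 76) (nat_lit 549292231) (nat_lit 30) (nat_lit 5) (nat_lit 34) (nat_lit 5) (nat_lit 31) (nat_lit 5) (nat_lit 269) (nat_lit 237) (nat_lit 214))) (XT.nd (nat_lit 78) (nat_lit 228) (nat_lit 0) (XT.lf (nat_lit 0) (nat_lit 4682744019) (nat_lit 304) (nat_lit 2662044288) (nat_lit 76) (nat_lit 3119081389) (nat_lit 30) (nat_lit 5) (nat_lit 34) (nat_lit 5) (nat_lit 31) (nat_lit 5) (nat_lit 270) (nat_lit 237) (nat_lit 213)) (XT.lf (nat_lit 0) (nat_lit 2043295767) (nat_lit 228) (nat_lit 4954875910) (nat_lit 304) (nat_lit 3789467070) (nat_lit 27) (nat_lit 5) (nat_lit 30) (nat_lit 5) (nat_lit 31) (nat_lit 5) (nat_lit 271) (nat_lit 237) (nat_lit 212))))) (XT.nd (nat_lit 312) (nat_lit 456) (nat_lit 0) (XT.nd (nat_lit 156) (nat_lit 0) (nat_lit 0) (XT.nd (nat_lit 78) (nat_lit 228) (nat_lit 0) (XT.lf (nat_lit 0) (nat_lit 6988743715) (nat_lit 228) (nat_lit 2418878509) (nat_lit 304)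 (nat_lit 1721387206) (nat_lit 27) (nat_lit 5) (nat_lit 30) (nat_lit 5) (nat_lit 31) (nat_lit 5) (nat_lit 272) (nat_lit 237) (nat_lit 211)) (XT.lf (nat_lit 0) (nat_lit 384150394) (nat_lit 228) (nat_lit 10872903205) (nat_lit 76) (nat_lit 232916173) (nat_lit 24) (nat_lit 5) (nat_lit 27) (nat_lit 5) (nat_lit 25) (nat_lit 5) (nat_lit 273) (nat_lit 237) (nat_lit 210))) (XT.nd (nat_lit 78) (nat_lit 0) (nat_lit 0) (XT.lf (nat_lit 0) (nat_lit 2584487104) (nat_lit 228) (nat_lit 6266067758) (nat_lit 76) (nat_lit 3014925089) (nat_lit 24) (nat_lit 5) (nat_lit 27) (nat_lit 5) (nat_lit 25) (nat_lit 5) (nat_lit 274) (nat_lit 237) (nat_lit 209)) (XT.lf (nat_lit 0) (nat_lit 4834318283) (nat_lit 228) (nat_lit 1512299075) (nat_lit 76) (nat_lit 5916442400) (nat_lit 24) (nat_lit 5) (nat_lit 27) (nat_lit 5) (nat_lit 25) (nat_lit 5) (nat_lit 275) (nat_lit 237) (nat_lit 208)))) (XT.nd (nat_lit 156) (nat_lit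 228) (nat_lit 0) (XT.nd (nat_lit 78) (nat_lit 0) (nat_lit 0) (XT.lf (nat_lit 0) (nat_lit 3512131479) (nat_lit 228) (nat_lit 3681703405) (nat_lit 304) (nat_lit 5487079217) (nat_lit 21) (nat_lit 5) (nat_lit 24) (nat_lit 5) (nat_lit 25) (nat_lit 5) (nat_lit 276) (nat_lit 237) (nat_lit 207)) (XT.lf (nat_lit 0) (nat_lit 8762131707) (nat_lit 228) (nat_lit 878691328) (nat_lit 304) (nat_lit 3480606423) (nat_lit 21) (nat_lit 5) (nat_lit 24) (nat_lit 5) (nat_lit 25) (nat_lit 5) (nat_lit 277) (nat_lit 237) (nat_lit 206))) (XT.nd (nat_lit 78) (nat_lit 76) (nat_lit 0) (XT.lf (nat_lit 0) (nat_lit 600643779) (nat_lit 152) (nat_lit 11597355399) (nat_lit 228) (nat_lit 1386810986) (nat_lit 19) (nat_lit 5) (nat_lit 21) (nat_lit 5) (nat_lit 22) (nat_lit 4) (nat_lit 278) (nat_lit 237) (nat_lit 205)) (XT.lf (nat_lit 0) (nat_lit 821671368) (nat_lit 228) (nat_lit 8213774235) (nat_lit 76) (nat_lit 5033691871)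 (nat_lit 18) (nat_lit 5) (nat_lit 21) (nat_lit 5) (nat_lit 19) (nat_lit 5) (nat_lit 279) (nat_lit 237) (nat_lit 204)))))) (XT.nd (nat_lit 624) (nat_lit 304) (nat_lit 0) (XT.nd (nat_lit 312) (nat_lit 304) (nat_lit 0) (XT.nd (nat_lit 156) (nat_lit 0) (nat_lit 0) (XT.nd (nat_lit 78) (nat_lit 152) (nat_lit 0) (XT.lf (nat_lit 0) (nat_lit 3043051822) (nat_lit 228) (nat_lit 3301640391) (nat_lit 76) (nat_lit 8234598196) (nat_lit 18) (nat_lit 5) (nat_lit 21) (nat_lit 5) (nat_lit 19) (nat_lit 5) (nat_lit 280) (nat_lit 237) (nat_lit 203)) (XT.lf (nat_lit 0) (nat_lit 1844622137) (nat_lit 152) (nat_lit 3511183573) (nat_lit 228) (nat_lit 9760320523) (nat_lit 16) (nat_lit 5) (nat_lit 18) (nat_lit 5) (nat_lit 19) (nat_lit 5) (nat_lit 281) (nat_lit 237) (nat_lit 202))) (XT.nd (nat_lit 78) (nat_lit 0) (nat_lit 0) (XT.lf (nat_lit 0) (nat_lit 7293443234) (nat_lit 152) (nat_lit 499399709) (nat_lit 228)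 (nat_lit 7886710015) (nat_lit 16) (nat_lit 5) (nat_lit 18) (nat_lit 5) (nat_lit 19) (nat_lit 5) (nat_lit 282) (nat_lit 237) (nat_lit 201)) (XT.lf (nat_lit 0) (nat_lit 10347961432) (nat_lit 228) (nat_lit 3366193254) (nat_lit 76) (nat_lit 2557357620) (nat_lit 16) (nat_lit 5) (nat_lit 19) (nat_lit 5) (nat_lit 17) (nat_lit 4) (nat_lit 283) (nat_lit 237) (nat_lit 200)))) (XT.nd (nat_lit 156) (nat_lit 228) (nat_lit 0) (XT.nd (nat_lit 78) (nat_lit 0) (nat_lit 0) (XT.lf (nat_lit 0) (nat_lit 1892168468) (nat_lit 76) (nat_lit 11133208609) (nat_lit 152) (nat_lit 3868130011) (nat_lit 15) (nat_lit 5) (nat_lit 16) (nat_lit 5) (nat_lit 17) (nat_lit 4) (nat_lit 284) (nat_lit 237) (nat_lit 199)) (XT.lf (nat_lit 0) (nat_lit 7466437184) (nat_lit 76) (nat_lit 8385105980) (nat_lit 152) (nat_lit 1694471156) (nat_lit 15) (nat_lit 5) (nat_lit 16) (nat_lit 5) (nat_lit 17) (nat_lit 4) (nat_lit 285) (nat_lit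 237) (nat_lit 198))) (XT.nd (nat_lit 78) (nat_lit 152) (nat_lit 0) (XT.lf (nat_lit 0) (nat_lit 528130574) (nat_lit 152) (nat_lit 4983237088) (nat_lit 76) (nat_lit 12721508689) (nat_lit 14) (nat_lit 5) (nat_lit 16) (nat_lit 5) (nat_lit 15) (nat_lit 5) (nat_lit 286) (nat_lit 237) (nat_lit 197)) (XT.lf (nat_lit 0) (nat_lit 290062508) (nat_lit 152) (nat_lit 2480407481) (nat_lit 228) (nat_lit 16184080295) (nat_lit 12) (nat_lit 5) (nat_lit 14) (nat_lit 5) (nat_lit 15) (nat_lit 5) (nat_lit 287) (nat_lit 237) (nat_lit 196))))) (XT.nd (nat_lit 312) (nat_lit 228) (nat_lit 0) (XT.nd (nat_lit 156) (nat_lit 76) (nat_lit 0) (XT.nd (nat_lit 78) (nat_lit 0) (nat_lit 0) (XT.lf (nat_lit 0) (nat_lit 5183315440) (nat_lit 228) (nat_lit 13780517655) (nat_lit 76) (nat_lit 745684279) (nat_lit 12) (nat_lit 5) (nat_lit 15) (nat_lit 5) (nat_lit 13) (nat_lit 4) (nat_lit 288) (nat_lit 237) (nat_lit 195)) (XT.lf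 (nat_lit 0) (nat_lit 7720942028) (nat_lit 228) (nat_lit 8750266665) (nat_lit 76) (nat_lit 4030939956) (nat_lit 12) (nat_lit 5) (nat_lit 15) (nat_lit 5) (nat_lit 13) (nat_lit 4) (nat_lit 289) (nat_lit 237) (nat_lit 194))) (XT.nd (nat_lit 78) (nat_lit 76) (nat_lit 0) (XT.lf (nat_lit 0) (nat_lit 10350665611) (nat_lit 228) (nat_lit 3523031906) (nat_lit 76) (nat_lit 7462570114) (nat_lit 12) (nat_lit 5) (nat_lit 15) (nat_lit 5) (nat_lit 13) (nat_lit 4) (nat_lit 290) (nat_lit 237) (nat_lit 193)) (XT.lf (nat_lit 0) (nat_lit 1976905748) (nat_lit 76) (nat_lit 11132706727) (nat_lit 152) (nat_lit 9102704593) (nat_lit 11) (nat_lit 5) (nat_lit 12) (nat_lit 5) (nat_lit 13) (nat_lit 4) (nat_lit 291) (nat_lit 237) (nat_lit 192)))) (XT.nd (nat_lit 156) (nat_lit 228) (nat_lit 0) (XT.nd (nat_lit 78) (nat_lit 0) (nat_lit 0) (XT.lf (nat_lit 0) (nat_lit 7823057441) (nat_lit 76) (nat_lit 8210765344) (nat_lit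 152) (nat_lit 7097086442) (nat_lit 11) (nat_lit 5) (nat_lit 12) (nat_lit 5) (nat_lit 13) (nat_lit 4) (nat_lit 292) (nat_lit 237) (nat_lit 191)) (XT.lf (nat_lit 0) (nat_lit 13912855237) (nat_lit 76) (nat_lit 5160580617) (nat_lit 152) (nat_lit 5023636536) (nat_lit 11) (nat_lit 5) (nat_lit 12) (nat_lit 5) (nat_lit 13) (nat_lit 4) (nat_lit 293) (nat_lit 237) (nat_lit 190))) (XT.nd (nat_lit 78) (nat_lit 228) (nat_lit 0) (XT.lf (nat_lit 0) (nat_lit 20260798653) (nat_lit 76) (nat_lit 1974890200) (nat_lit 152) (nat_lit 2877418090) (nat_lit 11) (nat_lit 5) (nat_lit 12) (nat_lit 5) (nat_lit 13) (nat_lit 4) (nat_lit 294) (nat_lit 237) (nat_lit 189)) (XT.nd (nat_lit 78) (nat_lit 76) (nat_lit 0) (XT.lf (nat_lit 0) (nat_lit 701896876) (nat_lit 152) (nat_lit 24858310689) (nat_lit 152) (nat_lit 619619620) (nat_lit 9) (nat_lit 4) (nat_lit 11) (nat_lit 5) (nat_lit 11) (nat_lit 4) (nat_lit 295) (nat_lit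 237) (nat_lit 188)) (XT.lf (nat_lit 0) (nat_lit 1782835443) (nat_lit 228) (nat_lit 20700215940) (nat_lit 76) (nat_lit 4811157612) (nat_lit 8) (nat_lit 5) (nat_lit 11) (nat_lit 5) (nat_lit 9) (nat_lit 4) (nat_lit 296) (nat_lit 237) (nat_lit 187))))))))
noncomputable def xc84 : XT := (XT.nd (nat_lit 1248) (nat_lit 76) (nat_lit 0) (XT.nd (nat_lit 624) (nat_lit 152) (nat_lit 0) (XT.nd (nat_lit 312) (nat_lit 0) (nat_lit 0) (XT.nd (nat_lit 156) (nat_lit 76) (nat_lit 0) (XT.nd (nat_lit 78) (nat_lit 0) (nat_lit 0) (XT.lf (nat_lit 0) (nat_lit 4257840661) (nat_lit 228) (nat_lit 15737252889) (nat_lit 76) (nat_lit 8470125065) (nat_lit 8) (nat_lit 5) (nat_lit 11) (nat_lit 5) (nat_lit 9) (nat_lit 4) (nat_lit 297) (nat_lit 237) (nat_lit 186)) (XT.lf (nat_lit 0) (nat_lit 6831120601) (nat_lit 228) (nat_lit 10567550581) (nat_lit 76) (nat_lit 12297456685) (nat_lit 8) (nat_lit 5) (nat_lit 11) (nat_lit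 5) (nat_lit 9) (nat_lit 4) (nat_lit 298) (nat_lit 237) (nat_lit 185))) (XT.nd (nat_lit 78) (nat_lit 76) (nat_lit 0) (XT.lf (nat_lit 0) (nat_lit 9508802120) (nat_lit 228) (nat_lit 5178800200) (nat_lit 76) (nat_lit 16302265166) (nat_lit 8) (nat_lit 5) (nat_lit 11) (nat_lit 5) (nat_lit 9) (nat_lit 4) (nat_lit 299) (nat_lit 237) (nat_lit 184)) (XT.lf (nat_lit 0) (nat_lit 456437460) (nat_lit 76) (nat_lit 11847949456) (nat_lit 152) (nat_lit 20044774573) (nat_lit 7) (nat_lit 5) (nat_lit 8) (nat_lit 5) (nat_lit 9) (nat_lit 4) (nat_lit 300) (nat_lit 237) (nat_lit 183)))) (XT.nd (nat_lit 156) (nat_lit 0) (nat_lit 0) (XT.nd (nat_lit 78) (nat_lit 0) (nat_lit 0) (XT.lf (nat_lit 0) (nat_lit 6516279957) (nat_lit 76) (nat_lit 8788592810) (nat_lit 152) (nat_lit 18468356446) (nat_lit 7) (nat_lit 5) (nat_lit 8) (nat_lit 5) (nat_lit 9) (nat_lit 4) (nat_lit 301) (nat_lit 237) (nat_lit 182)) (XT.lf (nat_lit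 0) (nat_lit 12843920964) (nat_lit 76) (nat_lit 5589953688) (nat_lit 152) (nat_lit 16835763094) (nat_lit 7) (nat_lit 5) (nat_lit 8) (nat_lit 5) (nat_lit 9) (nat_lit 4) (nat_lit 302) (nat_lit 237) (nat_lit 181))) (XT.nd (nat_lit 78) (nat_lit 0) (nat_lit 0) (XT.lf (nat_lit 0) (nat_lit 19454426291) (nat_lit 76) (nat_lit 2244416281) (nat_lit 152) (nat_lit 15143107391) (nat_lit 7) (nat_lit 5) (nat_lit 8) (nat_lit 5) (nat_lit 9) (nat_lit 4) (nat_lit 303) (nat_lit 237) (nat_lit 180)) (XT.lf (nat_lit 0) (nat_lit 25127159709) (nat_lit 152) (nat_lit 12149983675) (nat_lit 0) (nat_lit 1215785611) (nat_lit 7) (nat_lit 5) (nat_lit 9) (nat_lit 4) (nat_lit 7) (nat_lit 4) (nat_lit 304) (nat_lit 237) (nat_lit 179))))) (XT.nd (nat_lit 312) (nat_lit 76) (nat_lit 0) (XT.nd (nat_lit 156) (nat_lit 76) (nat_lit 0) (XT.nd (nat_lit 78) (nat_lit 0) (nat_lit 0) (XT.lf (nat_lit 0) (nat_lit 28744922195) (nat_lit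 152) (nat_lit 6718559930) (nat_lit 0) (nat_lit 4762126945) (nat_lit 7) (nat_lit 5) (nat_lit 9) (nat_lit 4) (nat_lit 7) (nat_lit 4) (nat_lit 305) (nat_lit 237) (nat_lit 178)) (XT.lf (nat_lit 0) (nat_lit 32525702122) (nat_lit 152) (nat_lit 1045278848) (nat_lit 0) (nat_lit 8474886728) (nat_lit 7) (nat_lit 5) (nat_lit 9) (nat_lit 4) (nat_lit 7) (nat_lit 4) (nat_lit 306) (nat_lit 237) (nat_lit 177))) (XT.nd (nat_lit 78) (nat_lit 0) (nat_lit 0) (XT.lf (nat_lit 0) (nat_lit 5044833561) (nat_lit 76) (nat_lit 31512431775) (nat_lit 76) (nat_lit 7396835292) (nat_lit 6) (nat_lit 4) (nat_lit 7) (nat_lit 5) (nat_lit 7) (nat_lit 4) (nat_lit 307) (nat_lit 237) (nat_lit 176)) (XT.lf (nat_lit 0) (nat_lit 11447898842) (nat_lit 76) (nat_lit 29343566238) (nat_lit 76) (nat_lit 5166273479) (nat_lit 6) (nat_lit 4) (nat_lit 7) (nat_lit 5) (nat_lit 7) (nat_lit 4) (nat_lit 308) (nat_lit 237) (nat_lit 175))))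 (XT.nd (nat_lit 156) (nat_lit 76) (nat_lit 0) (XT.nd (nat_lit 78) (nat_lit 0) (nat_lit 0) (XT.lf (nat_lit 0) (nat_lit 18144600748) (nat_lit 76) (nat_lit 27076922696) (nat_lit 76) (nat_lit 2840871579) (nat_lit 6) (nat_lit 4) (nat_lit 7) (nat_lit 5) (nat_lit 7) (nat_lit 4) (nat_lit 309) (nat_lit 237) (nat_lit 174)) (XT.lf (nat_lit 0) (nat_lit 25150883806) (nat_lit 76) (nat_lit 24707104379) (nat_lit 76) (nat_lit 415092922) (nat_lit 6) (nat_lit 4) (nat_lit 7) (nat_lit 5) (nat_lit 7) (nat_lit 4) (nat_lit 310) (nat_lit 237) (nat_lit 173))) (XT.nd (nat_lit 78) (nat_lit 0) (nat_lit 0) (XT.lf (nat_lit 0) (nat_lit 2049086115) (nat_lit 152) (nat_lit 20144680483) (nat_lit 76) (nat_lit 30399641264) (nat_lit 5) (nat_lit 5) (nat_lit 7) (nat_lit 5) (nat_lit 6) (nat_lit 4) (nat_lit 311) (nat_lit 237) (nat_lit 172)) (XT.lf (nat_lit 0) (nat_lit 4608569928) (nat_lit 152) (nat_lit 14948496345) (nat_lit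 76) (nat_lit 35473078414) (nat_lit 5) (nat_lit 5) (nat_lit 7) (nat_lit 5) (nat_lit 6) (nat_lit 4) (nat_lit 312) (nat_lit 237) (nat_lit 171)))))) (XT.nd (nat_lit 624) (nat_lit 0) (nat_lit 0) (XT.nd (nat_lit 312) (nat_lit 0) (nat_lit 0) (XT.nd (nat_lit 156) (nat_lit 76) (nat_lit 0) (XT.nd (nat_lit 78) (nat_lit 0) (nat_lit 0) (XT.lf (nat_lit 0) (nat_lit 7282738092) (nat_lit 152) (nat_lit 9514792255) (nat_lit 76) (nat_lit 40791887026) (nat_lit 5) (nat_lit 5) (nat_lit 7) (nat_lit 5) (nat_lit 6) (nat_lit 4) (nat_lit 313) (nat_lit 237) (nat_lit 170)) (XT.lf (nat_lit 0) (nat_lit 10077957673) (nat_lit 152) (nat_lit 3830630824) (nat_lit 76) (nat_lit 46368730932) (nat_lit 5) (nat_lit 5) (nat_lit 7) (nat_lit 5) (nat_lit 6) (nat_lit 4) (nat_lit 314) (nat_lit 237) (nat_lit 169))) (XT.nd (nat_lit 78) (nat_lit 0) (nat_lit 0) (XT.lf (nat_lit 0) (nat_lit 2187536495) (nat_lit 76) (nat_lit 10847501037)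 (nat_lit 152) (nat_lit 50063505409) (nat_lit 4) (nat_lit 5) (nat_lit 5) (nat_lit 5) (nat_lit 6) (nat_lit 4) (nat_lit 315) (nat_lit 237) (nat_lit 168)) (XT.lf (nat_lit 0) (nat_lit 8619712102) (nat_lit 76) (nat_lit 7573342052) (nat_lit 152) (nat_lit 49865149164) (nat_lit 4) (nat_lit 5) (nat_lit 5) (nat_lit 5) (nat_lit 6) (nat_lit 4) (nat_lit 316) (nat_lit 237) (nat_lit 167)))) (XT.nd (nat_lit 156) (nat_lit 0) (nat_lit 0) (XT.nd (nat_lit 78) (nat_lit 0) (nat_lit 0) (XT.lf (nat_lit 0) (nat_lit 15354552745) (nat_lit 76) (nat_lit 4143189513) (nat_lit 152) (nat_lit 49668694330) (nat_lit 4) (nat_lit 5) (nat_lit 5) (nat_lit 5) (nat_lit 6) (nat_lit 4) (nat_lit 317) (nat_lit 237) (nat_lit 166)) (XT.lf (nat_lit 0) (nat_lit 22408093759) (nat_lit 76) (nat_lit 548876389) (nat_lit 152) (nat_lit 49473673159) (nat_lit 4) (nat_lit 5) (nat_lit 5) (nat_lit 5) (nat_lit 6) (nat_lit 4) (nat_lit 318) (nat_lit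 237) (nat_lit 165))) (XT.nd (nat_lit 78) (nat_lit 0) (nat_lit 0) (XT.lf (nat_lit 0) (nat_lit 26629218504) (nat_lit 152) (nat_lit 46111710528) (nat_lit 0) (nat_lit 3115154142) (nat_lit 4) (nat_lit 5) (nat_lit 6) (nat_lit 4) (nat_lit 4) (nat_lit 4) (nat_lit 319) (nat_lit 237) (nat_lit 164)) (XT.lf (nat_lit 0) (nat_lit 30484272874) (nat_lit 152) (nat_lit 42031097361) (nat_lit 0) (nat_lit 6937489659) (nat_lit 4) (nat_lit 5) (nat_lit 6) (nat_lit 4) (nat_lit 4) (nat_lit 4) (nat_lit 320) (nat_lit 237) (nat_lit 163))))) (XT.nd (nat_lit 312) (nat_lit 0) (nat_lit 0) (XT.nd (nat_lit 156) (nat_lit 0) (nat_lit 0) (XT.nd (nat_lit 78) (nat_lit 0) (nat_lit 0) (XT.lf (nat_lit 0) (nat_lit 34522742460) (nat_lit 152) (nat_lit 37762424803) (nat_lit 0) (nat_lit 10944798433) (nat_lit 4) (nat_lit 5) (nat_lit 6) (nat_lit 4) (nat_lit 4) (nat_lit 4) (nat_lit 321) (nat_lit 237) (nat_lit 162)) (XT.lf (nat_lit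 0) (nat_lit 38754242665) (nat_lit 152) (nat_lit 33295529348) (nat_lit 0) (nat_lit 15146621675) (nat_lit 4) (nat_lit 5) (nat_lit 6) (nat_lit 4) (nat_lit 4) (nat_lit 4) (nat_lit 322) (nat_lit 237) (nat_lit 161))) (XT.nd (nat_lit 78) (nat_lit 0) (nat_lit 0) (XT.lf (nat_lit 0) (nat_lit 43188848491) (nat_lit 152) (nat_lit 28619775531) (nat_lit 0) (nat_lit 19552963726) (nat_lit 4) (nat_lit 5) (nat_lit 6) (nat_lit 4) (nat_lit 4) (nat_lit 4) (nat_lit 323) (nat_lit 237) (nat_lit 160)) (XT.lf (nat_lit 0) (nat_lit 47837118522) (nat_lit 152) (nat_lit 23724030604) (nat_lit 0) (nat_lit 24174315877) (nat_lit 4) (nat_lit 5) (nat_lit 6) (nat_lit 4) (nat_lit 4) (nat_lit 4) (nat_lit 324) (nat_lit 237) (nat_lit 159)))) (XT.nd (nat_lit 156) (nat_lit 0) (nat_lit 0) (XT.nd (nat_lit 78) (nat_lit 0) (nat_lit 0) (XT.lf (nat_lit 0) (nat_lit 52710120069) (nat_lit 152) (nat_lit 18596638032) (nat_lit 0) (nat_lit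 29021681347) (nat_lit 4) (nat_lit 5) (nat_lit 6) (nat_lit 4) (nat_lit 4) (nat_lit 4) (nat_lit 325) (nat_lit 237) (nat_lit 158)) (XT.lf (nat_lit 0) (nat_lit 57819455515) (nat_lit 152) (nat_lit 13225389738) (nat_lit 0) (nat_lit 34106601482) (nat_lit 4) (nat_lit 5) (nat_lit 6) (nat_lit 4) (nat_lit 4) (nat_lit 4) (nat_lit 326) (nat_lit 237) (nat_lit 157))) (XT.nd (nat_lit 78) (nat_lit 0) (nat_lit 0) (XT.lf (nat_lit 0) (nat_lit 63177289946) (nat_lit 152) (nat_lit 7597497034) (nat_lit 0) (nat_lit 39441183235) (nat_lit 4) (nat_lit 5) (nat_lit 6) (nat_lit 4) (nat_lit 4) (nat_lit 4) (nat_lit 327) (nat_lit 237) (nat_lit 156)) (XT.lf (nat_lit 0) (nat_lit 68796380109) (nat_lit 152) (nat_lit 1699560177) (nat_lit 0) (nat_lit 45038127991) (nat_lit 4) (nat_lit 5) (nat_lit 6) (nat_lit 4) (nat_lit 4) (nat_lit 4) (nat_lit 328) (nat_lit 237) (nat_lit 155)))))))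
noncomputable def xc85 : XT := (XT.nd (nat_lit 1248) (nat_lit 0) (nat_lit 0) (XT.nd (nat_lit 624) (nat_lit 0) (nat_lit 0) (XT.nd (nat_lit 312) (nat_lit 0) (nat_lit 0) (XT.nd (nat_lit 156) (nat_lit 0) (nat_lit 0) (XT.nd (nat_lit 78) (nat_lit 0) (nat_lit 0) (XT.lf (nat_lit 0) (nat_lit 4630674027) (nat_lit 76) (nat_lit 70131728563) (nat_lit 76) (nat_lit 46352385581) (nat_lit 3) (nat_lit 4) (nat_lit 4) (nat_lit 5) (nat_lit 4) (nat_lit 4) (nat_lit 329) (nat_lit 237) (nat_lit 154)) (XT.lf (nat_lit 0) (nat_lit 11325789207) (nat_lit 76) (nat_lit 69723534774) (nat_lit 76) (nat_lit 45924105255) (nat_lit 3) (nat_lit 4) (nat_lit 4) (nat_lit 5) (nat_lit 4) (nat_lit 4) (nat_lit 330) (nat_lit 237) (nat_lit 153))) (XT.nd (nat_lit 78) (nat_lit 0) (nat_lit 0) (XT.lf (nat_lit 0) (nat_lit 18345530976) (nat_lit 76) (nat_lit 69299169903) (nat_lit 76) (nat_lit 45480610349) (nat_lit 3) (nat_lit 4) (nat_lit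 4) (nat_lit 5) (nat_lit 4) (nat_lit 4) (nat_lit 331) (nat_lit 237) (nat_lit 152)) (XT.lf (nat_lit 0) (nat_lit 25706613005) (nat_lit 76) (nat_lit 68857623559) (nat_lit 76) (nat_lit 45020844923) (nat_lit 3) (nat_lit 4) (nat_lit 4) (nat_lit 5) (nat_lit 4) (nat_lit 4) (nat_lit 332) (nat_lit 237) (nat_lit 151)))) (XT.nd (nat_lit 156) (nat_lit 0) (nat_lit 0) (XT.nd (nat_lit 78) (nat_lit 0) (nat_lit 0) (XT.lf (nat_lit 0) (nat_lit 33426561681) (nat_lit 76) (nat_lit 68397844440) (nat_lit 76) (nat_lit 44543714299) (nat_lit 3) (nat_lit 4) (nat_lit 4) (nat_lit 5) (nat_lit 4) (nat_lit 4) (nat_lit 333) (nat_lit 237) (nat_lit 150)) (XT.lf (nat_lit 0) (nat_lit 41523757833) (nat_lit 76) (nat_lit 67918737834) (nat_lit 76) (nat_lit 44048082449) (nat_lit 3) (nat_lit 4) (nat_lit 4) (nat_lit 5) (nat_lit 4) (nat_lit 4) (nat_lit 334) (nat_lit 237) (nat_lit 149))) (XT.nd (nat_lit 78) (nat_lit 0) (nat_lit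 0) (XT.lf (nat_lit 0) (nat_lit 50017480499) (nat_lit 76) (nat_lit 67419163011) (nat_lit 76) (nat_lit 43532769299) (nat_lit 3) (nat_lit 4) (nat_lit 4) (nat_lit 5) (nat_lit 4) (nat_lit 4) (nat_lit 335) (nat_lit 237) (nat_lit 148)) (XT.lf (nat_lit 0) (nat_lit 58927952830) (nat_lit 76) (nat_lit 66897930508) (nat_lit 76) (nat_lit 42996547913) (nat_lit 3) (nat_lit 4) (nat_lit 4) (nat_lit 5) (nat_lit 4) (nat_lit 4) (nat_lit 336) (nat_lit 237) (nat_lit 147))))) (XT.nd (nat_lit 312) (nat_lit 0) (nat_lit 0) (XT.nd (nat_lit 156) (nat_lit 0) (nat_lit 0) (XT.nd (nat_lit 78) (nat_lit 0) (nat_lit 0) (XT.lf (nat_lit 0) (nat_lit 68276390235) (nat_lit 76) (nat_lit 66353799294) (nat_lit 76) (nat_lit 42438141572) (nat_lit 3) (nat_lit 4) (nat_lit 4) (nat_lit 5) (nat_lit 4) (nat_lit 4) (nat_lit 337) (nat_lit 237) (nat_lit 146)) (XT.lf (nat_lit 0) (nat_lit 78085050899) (nat_lit 76) (nat_lit 65785473820)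 (nat_lit 76) (nat_lit 41856220738) (nat_lit 3) (nat_lit 4) (nat_lit 4) (nat_lit 5) (nat_lit 4) (nat_lit 4) (nat_lit 338) (nat_lit 237) (nat_lit 145))) (XT.nd (nat_lit 78) (nat_lit 0) (nat_lit 0) (XT.lf (nat_lit 0) (nat_lit 88377288776) (nat_lit 76) (nat_lit 65191600928) (nat_lit 76) (nat_lit 41249399886) (nat_lit 3) (nat_lit 4) (nat_lit 4) (nat_lit 5) (nat_lit 4) (nat_lit 4) (nat_lit 339) (nat_lit 237) (nat_lit 144)) (XT.lf (nat_lit 0) (nat_lit 99177609193) (nat_lit 76) (nat_lit 64570766637) (nat_lit 76) (nat_lit 40616234203) (nat_lit 3) (nat_lit 4) (nat_lit 4) (nat_lit 5) (nat_lit 4) (nat_lit 4) (nat_lit 340) (nat_lit 237) (nat_lit 143)))) (XT.nd (nat_lit 156) (nat_lit 0) (nat_lit 0) (XT.nd (nat_lit 78) (nat_lit 0) (nat_lit 0) (XT.lf (nat_lit 0) (nat_lit 110511727200) (nat_lit 76) (nat_lit 63921492768) (nat_lit 76) (nat_lit 39955216153) (nat_lit 3) (nat_lit 4) (nat_lit 4) (nat_lit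 5) (nat_lit 4) (nat_lit 4) (nat_lit 341) (nat_lit 237) (nat_lit 142)) (XT.lf (nat_lit 0) (nat_lit 122406628791) (nat_lit 76) (nat_lit 63242233433) (nat_lit 76) (nat_lit 39264771882) (nat_lit 3) (nat_lit 4) (nat_lit 4) (nat_lit 5) (nat_lit 4) (nat_lit 4) (nat_lit 342) (nat_lit 237) (nat_lit 141))) (XT.nd (nat_lit 78) (nat_lit 0) (nat_lit 0) (XT.lf (nat_lit 0) (nat_lit 134890635162) (nat_lit 76) (nat_lit 62531371347) (nat_lit 76) (nat_lit 38543257476) (nat_lit 3) (nat_lit 4) (nat_lit 4) (nat_lit 5) (nat_lit 4) (nat_lit 4) (nat_lit 343) (nat_lit 237) (nat_lit 140)) (XT.lf (nat_lit 0) (nat_lit 147993470136) (nat_lit 76) (nat_lit 61787213980) (nat_lit 76) (nat_lit 37788955044) (nat_lit 3) (nat_lit 4) (nat_lit 4) (nat_lit 5) (nat_lit 4) (nat_lit 4) (nat_lit 344) (nat_lit 237) (nat_lit 139)))))) (XT.nd (nat_lit 624) (nat_lit 0) (nat_lit 0) (XT.nd (nat_lit 312) (nat_lit 0) (nat_lit 0) (XT.nd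 (nat_lit 156) (nat_lit 0) (nat_lit 0) (XT.nd (nat_lit 78) (nat_lit 0) (nat_lit 0) (XT.lf (nat_lit 0) (nat_lit 161746330940) (nat_lit 76) (nat_lit 61007989531) (nat_lit 76) (nat_lit 37000068626) (nat_lit 3) (nat_lit 4) (nat_lit 4) (nat_lit 5) (nat_lit 4) (nat_lit 4) (nat_lit 345) (nat_lit 237) (nat_lit 138)) (XT.lf (nat_lit 0) (nat_lit 176181962481) (nat_lit 76) (nat_lit 60191842702) (nat_lit 76) (nat_lit 36174719923) (nat_lit 3) (nat_lit 4) (nat_lit 4) (nat_lit 5) (nat_lit 4) (nat_lit 4) (nat_lit 346) (nat_lit 237) (nat_lit 137))) (XT.nd (nat_lit 78) (nat_lit 0) (nat_lit 0) (XT.lf (nat_lit 0) (nat_lit 191334735309) (nat_lit 76) (nat_lit 59336830287) (nat_lit 76) (nat_lit 35310943819) (nat_lit 3) (nat_lit 4) (nat_lit 4) (nat_lit 5) (nat_lit 4) (nat_lit 4) (nat_lit 347) (nat_lit 237) (nat_lit 136)) (XT.lf (nat_lit 0) (nat_lit 207240727456) (nat_lit 76) (nat_lit 58440916542) (nat_lit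 76) (nat_lit 34406683703) (nat_lit 3) (nat_lit 4) (nat_lit 4) (nat_lit 5) (nat_lit 4) (nat_lit 4) (nat_lit 348) (nat_lit 237) (nat_lit 135)))) (XT.nd (nat_lit 156) (nat_lit 0) (nat_lit 0) (XT.nd (nat_lit 78) (nat_lit 0) (nat_lit 0) (XT.lf (nat_lit 0) (nat_lit 223937810331) (nat_lit 76) (nat_lit 57501968339) (nat_lit 76) (nat_lit 33459786575) (nat_lit 3) (nat_lit 4) (nat_lit 4) (nat_lit 5) (nat_lit 4) (nat_lit 4) (nat_lit 349) (nat_lit 237) (nat_lit 134)) (XT.lf (nat_lit 0) (nat_lit 241465738893) (nat_lit 76) (nat_lit 56517750087) (nat_lit 76) (nat_lit 32467997918) (nat_lit 3) (nat_lit 4) (nat_lit 4) (nat_lit 5) (nat_lit 4) (nat_lit 4) (nat_lit 350) (nat_lit 237) (nat_lit 133))) (XT.nd (nat_lit 78) (nat_lit 0) (nat_lit 0) (XT.lf (nat_lit 0) (nat_lit 259866246306) (nat_lit 76) (nat_lit 55485918409) (nat_lit 76) (nat_lit 31428956331) (nat_lit 3) (nat_lit 4) (nat_lit 4) (nat_lit 5) (nat_lit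 4) (nat_lit 4) (nat_lit 351) (nat_lit 237) (nat_lit 132)) (XT.lf (nat_lit 0) (nat_lit 279183143302) (nat_lit 76) (nat_lit 54404016563) (nat_lit 76) (nat_lit 30340187906) (nat_lit 3) (nat_lit 4) (nat_lit 4) (nat_lit 5) (nat_lit 4) (nat_lit 4) (nat_lit 352) (nat_lit 237) (nat_lit 131))))) (XT.nd (nat_lit 29016) (nat_lit 0) (nat_lit 6536) (XT.nd (nat_lit 156) (nat_lit 0) (nat_lit 0) (XT.nd (nat_lit 78) (nat_lit 0) (nat_lit 0) (XT.lf (nat_lit 0) (nat_lit 299462422492) (nat_lit 76) (nat_lit 53269468593) (nat_lit 76) (nat_lit 29199100335) (nat_lit 3) (nat_lit 4) (nat_lit 4) (nat_lit 5) (nat_lit 4) (nat_lit 4) (nat_lit 353) (nat_lit 237) (nat_lit 130)) (XT.lf (nat_lit 0) (nat_lit 320752367875) (nat_lit 76) (nat_lit 52079573193) (nat_lit 76) (nat_lit 28002976745) (nat_lit 3) (nat_lit 4) (nat_lit 4) (nat_lit 5) (nat_lit 4) (nat_lit 4) (nat_lit 354) (nat_lit 237) (nat_lit 129))) (XT.nd (nat_lit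 78) (nat_lit 0) (nat_lit 0) (XT.lf (nat_lit 0) (nat_lit 343103669797) (nat_lit 76) (nat_lit 50831497280) (nat_lit 76) (nat_lit 26748969222) (nat_lit 3) (nat_lit 4) (nat_lit 4) (nat_lit 5) (nat_lit 4) (nat_lit 4) (nat_lit 355) (nat_lit 237) (nat_lit 128)) (XT.lf (nat_lit 0) (nat_lit 366569545642) (nat_lit 76) (nat_lit 49522269244) (nat_lit 76) (nat_lit 25434092033) (nat_lit 3) (nat_lit 4) (nat_lit 4) (nat_lit 5) (nat_lit 4) (nat_lit 4) (nat_lit 356) (nat_lit 237) (nat_lit 127)))) (XT.nd (nat_lit 156) (nat_lit 304) (nat_lit 0) (XT.nd (nat_lit 78) (nat_lit 228) (nat_lit 0) (XT.lf (nat_lit 0) (nat_lit 2439750238) (nat_lit 76) (nat_lit 403431770) (nat_lit 76) (nat_lit 403431770) (nat_lit 96) (nat_lit 4) (nat_lit 97) (nat_lit 5) (nat_lit 97) (nat_lit 4) (nat_lit 244) (nat_lit 238) (nat_lit 238)) (XT.lf (nat_lit 0) (nat_lit 1428814613) (nat_lit 152) (nat_lit 381214395) (nat_lit 228) (nat_lit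 4713636008) (nat_lit 93) (nat_lit 5) (nat_lit 95) (nat_lit 5) (nat_lit 96) (nat_lit 4) (nat_lit 245) (nat_lit 238) (nat_lit 237))) (XT.nd (nat_lit 78) (nat_lit 304) (nat_lit 0) (XT.lf (nat_lit 0) (nat_lit 4403675073) (nat_lit 228) (nat_lit 1998213988) (nat_lit 0) (nat_lit 160974891) (nat_lit 93) (nat_lit 5) (nat_lit 96) (nat_lit 4) (nat_lit 93) (nat_lit 4) (nat_lit 246) (nat_lit 238) (nat_lit 236)) (XT.nd (nat_lit 78) (nat_lit 0) (nat_lit 0) (XT.lf (nat_lit 0) (nat_lit 379114834) (nat_lit 304) (nat_lit 5436571767) (nat_lit 76) (nat_lit 795692227) (nat_lit 89) (nat_lit 5) (nat_lit 93) (nat_lit 5) (nat_lit 90) (nat_lit 4) (nat_lit 247) (nat_lit 238) (nat_lit 235)) (XT.lf (nat_lit 0) (nat_lit 2859574224) (nat_lit 304) (nat_lit 2228827156) (nat_lit 76) (nat_lit 1579098928) (nat_lit 89) (nat_lit 5) (nat_lit 93) (nat_lit 5) (nat_lit 90) (nat_lit 4) (nat_lit 248) (nat_lit 238) (nat_lit 234))))))))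
noncomputable def xc86 : XT := (XT.nd (nat_lit 1248) (nat_lit 1672) (nat_lit 0) (XT.nd (nat_lit 624) (nat_lit 1824) (nat_lit 0) (XT.nd (nat_lit 312) (nat_lit 1140) (nat_lit 0) (XT.nd (nat_lit 156) (nat_lit 380) (nat_lit 0) (XT.nd (nat_lit 78) (nat_lit 76) (nat_lit 0) (XT.lf (nat_lit 0) (nat_lit 1070617731) (nat_lit 304) (nat_lit 4270542681) (nat_lit 380) (nat_lit 1392689262) (nat_lit 85) (nat_lit 5) (nat_lit 89) (nat_lit 5) (nat_lit 90) (nat_lit 4) (nat_lit 249) (nat_lit 238) (nat_lit 233)) (XT.lf (nat_lit 0) (nat_lit 1007153681) (nat_lit 380) (nat_lit 2314695208) (nat_lit 76) (nat_lit 3486911522) (nat_lit 84) (nat_lit 5) (nat_lit 89) (nat_lit 5) (nat_lit 85) (nat_lit 5) (nat_lit 250) (nat_lit 238) (nat_lit 232))) (XT.nd (nat_lit 78) (nat_lit 0) (nat_lit 0) (XT.lf (nat_lit 0) (nat_lit 1112116186) (nat_lit 380) (nat_lit 2254072598) (nat_lit 456) (nat_lit 3526889302) (nat_lit 79) (nat_lit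 5) (nat_lit 84) (nat_lit 5) (nat_lit 85) (nat_lit 5) (nat_lit 251) (nat_lit 238) (nat_lit 231)) (XT.lf (nat_lit 0) (nat_lit 4690357074) (nat_lit 380) (nat_lit 1065349002) (nat_lit 456) (nat_lit 1231329642) (nat_lit 79) (nat_lit 5) (nat_lit 84) (nat_lit 5) (nat_lit 85) (nat_lit 5) (nat_lit 252) (nat_lit 238) (nat_lit 230)))) (XT.nd (nat_lit 156) (nat_lit 608) (nat_lit 0) (XT.nd (nat_lit 78) (nat_lit 0) (nat_lit 0) (XT.lf (nat_lit 0) (nat_lit 1041578815) (nat_lit 532) (nat_lit 5810775271) (nat_lit 76) (nat_lit 238354362) (nat_lit 72) (nat_lit 5) (nat_lit 79) (nat_lit 5) (nat_lit 73) (nat_lit 5) (nat_lit 253) (nat_lit 238) (nat_lit 229)) (XT.lf (nat_lit 0) (nat_lit 3324823340) (nat_lit 532) (nat_lit 2226899009) (nat_lit 76) (nat_lit 1650837155) (nat_lit 72) (nat_lit 5) (nat_lit 79) (nat_lit 5) (nat_lit 73) (nat_lit 5) (nat_lit 254) (nat_lit 238) (nat_lit 228))) (XT.nd (nat_lit 78) (nat_lit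 76) (nat_lit 0) (XT.lf (nat_lit 0) (nat_lit 1482573189) (nat_lit 532) (nat_lit 4149540846) (nat_lit 608) (nat_lit 1693259206) (nat_lit 65) (nat_lit 5) (nat_lit 72) (nat_lit 5) (nat_lit 73) (nat_lit 5) (nat_lit 255) (nat_lit 238) (nat_lit 227)) (XT.lf (nat_lit 0) (nat_lit 507543050) (nat_lit 608) (nat_lit 2111510171) (nat_lit 76) (nat_lit 4839273720) (nat_lit 64) (nat_lit 5) (nat_lit 72) (nat_lit 5) (nat_lit 65) (nat_lit 5) (nat_lit 256) (nat_lit 238) (nat_lit 226))))) (XT.nd (nat_lit 312) (nat_lit 684) (nat_lit 0) (XT.nd (nat_lit 156) (nat_lit 532) (nat_lit 0) (XT.nd (nat_lit 78) (nat_lit 0) (nat_lit 0) (XT.lf (nat_lit 0) (nat_lit 1735162604) (nat_lit 608) (nat_lit 946730349) (nat_lit 684) (nat_lit 4919373486) (nat_lit 56) (nat_lit 5) (nat_lit 64) (nat_lit 5) (nat_lit 65) (nat_lit 5) (nat_lit 257) (nat_lit 238) (nat_lit 225)) (XT.lf (nat_lit 0) (nat_lit 4910911110) (nat_lit 684) (nat_lit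 2018629351) (nat_lit 76) (nat_lit 825225997) (nat_lit 56) (nat_lit 5) (nat_lit 65) (nat_lit 5) (nat_lit 57) (nat_lit 5) (nat_lit 258) (nat_lit 238) (nat_lit 224))) (XT.nd (nat_lit 78) (nat_lit 76) (nat_lit 0) (XT.lf (nat_lit 0) (nat_lit 1970362537) (nat_lit 456) (nat_lit 5229177904) (nat_lit 532) (nat_lit 719670247) (nat_lit 50) (nat_lit 5) (nat_lit 56) (nat_lit 5) (nat_lit 57) (nat_lit 5) (nat_lit 259) (nat_lit 238) (nat_lit 223)) (XT.lf (nat_lit 0) (nat_lit 1399975529) (nat_lit 532) (nat_lit 1986067806) (nat_lit 76) (nat_lit 4708388523) (nat_lit 49) (nat_lit 5) (nat_lit 56) (nat_lit 5) (nat_lit 50) (nat_lit 5) (nat_lit 260) (nat_lit 238) (nat_lit 222)))) (XT.nd (nat_lit 156) (nat_lit 380) (nat_lit 0) (XT.nd (nat_lit 78) (nat_lit 0) (nat_lit 0) (XT.lf (nat_lit 0) (nat_lit 2135558018) (nat_lit 304) (nat_lit 1406684958) (nat_lit 380) (nat_lit 4739124974) (nat_lit 45) (nat_lit 5) (nat_lit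 49) (nat_lit 5) (nat_lit 50) (nat_lit 5) (nat_lit 261) (nat_lit 238) (nat_lit 221)) (XT.lf (nat_lit 0) (nat_lit 5746639014) (nat_lit 380) (nat_lit 2054053405) (nat_lit 76) (nat_lit 679764821) (nat_lit 45) (nat_lit 5) (nat_lit 50) (nat_lit 5) (nat_lit 46) (nat_lit 5) (nat_lit 262) (nat_lit 238) (nat_lit 220))) (XT.nd (nat_lit 78) (nat_lit 76) (nat_lit 0) (XT.lf (nat_lit 0) (nat_lit 2194945715) (nat_lit 304) (nat_lit 5838250801) (nat_lit 380) (nat_lit 658238019) (nat_lit 41) (nat_lit 5) (nat_lit 45) (nat_lit 5) (nat_lit 46) (nat_lit 5) (nat_lit 263) (nat_lit 238) (nat_lit 219)) (XT.lf (nat_lit 0) (nat_lit 1423172262) (nat_lit 380) (nat_lit 2304124943) (nat_lit 76) (nat_lit 5187420507) (nat_lit 40) (nat_lit 5) (nat_lit 45) (nat_lit 5) (nat_lit 41) (nat_lit 5) (nat_lit 264) (nat_lit 238) (nat_lit 218)))))) (XT.nd (nat_lit 624) (nat_lit 684) (nat_lit 0) (XT.nd (nat_lit 312) (nat_lit 456)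 (nat_lit 0) (XT.nd (nat_lit 156) (nat_lit 304) (nat_lit 0) (XT.nd (nat_lit 78) (nat_lit 0) (nat_lit 0) (XT.lf (nat_lit 0) (nat_lit 2061336040) (nat_lit 228) (nat_lit 1476788456) (nat_lit 304) (nat_lit 5613379757) (nat_lit 37) (nat_lit 5) (nat_lit 40) (nat_lit 5) (nat_lit 41) (nat_lit 5) (nat_lit 265) (nat_lit 238) (nat_lit 217)) (XT.lf (nat_lit 0) (nat_lit 5733972196) (nat_lit 304) (nat_lit 2781974495) (nat_lit 76) (nat_lit 885862581) (nat_lit 37) (nat_lit 5) (nat_lit 41) (nat_lit 5) (nat_lit 38) (nat_lit 5) (nat_lit 266) (nat_lit 238) (nat_lit 216))) (XT.nd (nat_lit 78) (nat_lit 76) (nat_lit 0) (XT.lf (nat_lit 0) (nat_lit 1681344147) (nat_lit 228) (nat_lit 6334109138) (nat_lit 304) (nat_lit 1650799962) (nat_lit 34) (nat_lit 5) (nat_lit 37) (nat_lit 5) (nat_lit 38) (nat_lit 5) (nat_lit 267) (nat_lit 238) (nat_lit 215)) (XT.lf (nat_lit 0) (nat_lit 426008131) (nat_lit 304) (nat_lit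 3576479324) (nat_lit 76) (nat_lit 5942750996) (nat_lit 33) (nat_lit 5) (nat_lit 37) (nat_lit 5) (nat_lit 34) (nat_lit 5) (nat_lit 268) (nat_lit 238) (nat_lit 214)))) (XT.nd (nat_lit 156) (nat_lit 228) (nat_lit 0) (XT.nd (nat_lit 78) (nat_lit 0) (nat_lit 0) (XT.lf (nat_lit 0) (nat_lit 969419732) (nat_lit 228) (nat_lit 1526401643) (nat_lit 304) (nat_lit 7744125450) (nat_lit 30) (nat_lit 5) (nat_lit 33) (nat_lit 5) (nat_lit 34) (nat_lit 5) (nat_lit 269) (nat_lit 238) (nat_lit 213)) (XT.lf (nat_lit 0) (nat_lit 4678710444) (nat_lit 304) (nat_lit 4786349227) (nat_lit 76) (nat_lit 1084193733) (nat_lit 30) (nat_lit 5) (nat_lit 34) (nat_lit 5) (nat_lit 31) (nat_lit 5) (nat_lit 270) (nat_lit 238) (nat_lit 212))) (XT.nd (nat_lit 78) (nat_lit 228) (nat_lit 0) (XT.lf (nat_lit 0) (nat_lit 6930302800) (nat_lit 304) (nat_lit 187761637) (nat_lit 76) (nat_lit 3758308688) (nat_lit 30) (nat_lit 5) (nat_lit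 34) (nat_lit 5) (nat_lit 31) (nat_lit 5) (nat_lit 271) (nat_lit 238) (nat_lit 211)) (XT.lf (nat_lit 0) (nat_lit 4710790826) (nat_lit 228) (nat_lit 4594885791) (nat_lit 304) (nat_lit 1913922365) (nat_lit 27) (nat_lit 5) (nat_lit 30) (nat_lit 5) (nat_lit 31) (nat_lit 5) (nat_lit 272) (nat_lit 238) (nat_lit 210))))) (XT.nd (nat_lit 312) (nat_lit 228) (nat_lit 0) (XT.nd (nat_lit 156) (nat_lit 228) (nat_lit 0) (XT.nd (nat_lit 78) (nat_lit 152) (nat_lit 0) (XT.lf (nat_lit 0) (nat_lit 154131030) (nat_lit 304) (nat_lit 1804286917) (nat_lit 76) (nat_lit 9624611274) (nat_lit 26) (nat_lit 5) (nat_lit 30) (nat_lit 5) (nat_lit 27) (nat_lit 5) (nat_lit 273) (nat_lit 238) (nat_lit 209)) (XT.lf (nat_lit 0) (nat_lit 2264789768) (nat_lit 228) (nat_lit 8851227261) (nat_lit 76) (nat_lit 847137001) (nat_lit 24) (nat_lit 5) (nat_lit 27) (nat_lit 5) (nat_lit 25) (nat_lit 5) (nat_lit 274) (nat_lit 238) (nat_lit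 208))) (XT.nd (nat_lit 78) (nat_lit 228) (nat_lit 0) (XT.lf (nat_lit 0) (nat_lit 4486503702) (nat_lit 228) (nat_lit 4136208190) (nat_lit 76) (nat_lit 3739552315) (nat_lit 24) (nat_lit 5) (nat_lit 27) (nat_lit 5) (nat_lit 25) (nat_lit 5) (nat_lit 275) (nat_lit 238) (nat_lit 207)) (XT.lf (nat_lit 0) (nat_lit 763339463) (nat_lit 228) (nat_lit 6012986166) (nat_lit 304) (nat_lit 6007396231) (nat_lit 21) (nat_lit 5) (nat_lit 24) (nat_lit 5) (nat_lit 25) (nat_lit 5) (nat_lit 276) (nat_lit 238) (nat_lit 206)))) (XT.nd (nat_lit 156) (nat_lit 228) (nat_lit 0) (XT.nd (nat_lit 78) (nat_lit 0) (nat_lit 0) (XT.lf (nat_lit 0) (nat_lit 5977030532) (nat_lit 228) (nat_lit 3220213191) (nat_lit 304) (nat_lit 4028409928) (nat_lit 21) (nat_lit 5) (nat_lit 24) (nat_lit 5) (nat_lit 25) (nat_lit 5) (nat_lit 277) (nat_lit 238) (nat_lit 205)) (XT.lf (nat_lit 0) (nat_lit 11380516843) (nat_lit 228) (nat_lit 307792195)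 (nat_lit 304) (nat_lit 2004138412) (nat_lit 21) (nat_lit 5) (nat_lit 24) (nat_lit 5) (nat_lit 25) (nat_lit 5) (nat_lit 278) (nat_lit 238) (nat_lit 204))) (XT.nd (nat_lit 78) (nat_lit 0) (nat_lit 0) (XT.lf (nat_lit 0) (nat_lit 156557213) (nat_lit 228) (nat_lit 11333356915) (nat_lit 76) (nat_lit 2690817351) (nat_lit 18) (nat_lit 5) (nat_lit 21) (nat_lit 5) (nat_lit 19) (nat_lit 5) (nat_lit 279) (nat_lit 238) (nat_lit 203)) (XT.lf (nat_lit 0) (nat_lit 2354281418) (nat_lit 228) (nat_lit 6455621820) (nat_lit 76) (nat_lit 5882256896) (nat_lit 18) (nat_lit 5) (nat_lit 21) (nat_lit 5) (nat_lit 19) (nat_lit 5) (nat_lit 280) (nat_lit 238) (nat_lit 202)))))))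
noncomputable def xc87 : XT := (XT.nd (nat_lit 1248) (nat_lit 228) (nat_lit 0) (XT.nd (nat_lit 624) (nat_lit 304) (nat_lit 0) (XT.nd (nat_lit 312) (nat_lit 304) (nat_lit 0) (XT.nd (nat_lit 156) (nat_lit 0) (nat_lit 0) (XT.nd (nat_lit 78) (nat_lit 152) (nat_lit 0) (XT.lf (nat_lit 0) (nat_lit 4615705825) (nat_lit 228) (nat_lit 1401159433) (nat_lit 76) (nat_lit 9214785660) (nat_lit 18) (nat_lit 5) (nat_lit 21) (nat_lit 5) (nat_lit 19) (nat_lit 5) (nat_lit 281) (nat_lit 238) (nat_lit 201)) (XT.lf (nat_lit 0) (nat_lit 3969100690) (nat_lit 152) (nat_lit 3039082871) (nat_lit 228) (nat_lit 8789206328) (nat_lit 16) (nat_lit 5) (nat_lit 18) (nat_lit 5) (nat_lit 19) (nat_lit 5) (nat_lit 282) (nat_lit 238) (nat_lit 200))) (XT.nd (nat_lit 78) (nat_lit 0) (nat_lit 0) (XT.lf (nat_lit 0) (nat_lit 9502583306) (nat_lit 228) (nat_lit 6800391839) (nat_lit 76) (nat_lit 89490285) (nat_lit 16) (nat_lit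 5) (nat_lit 19) (nat_lit 5) (nat_lit 17) (nat_lit 4) (nat_lit 283) (nat_lit 238) (nat_lit 199)) (XT.lf (nat_lit 0) (nat_lit 12130392928) (nat_lit 228) (nat_lit 1632753878) (nat_lit 76) (nat_lit 3253870145) (nat_lit 16) (nat_lit 5) (nat_lit 19) (nat_lit 5) (nat_lit 17) (nat_lit 4) (nat_lit 284) (nat_lit 238) (nat_lit 198)))) (XT.nd (nat_lit 156) (nat_lit 228) (nat_lit 0) (XT.nd (nat_lit 78) (nat_lit 0) (nat_lit 0) (XT.lf (nat_lit 0) (nat_lit 3857852559) (nat_lit 76) (nat_lit 11052799844) (nat_lit 152) (nat_lit 2761239906) (nat_lit 15) (nat_lit 5) (nat_lit 16) (nat_lit 5) (nat_lit 17) (nat_lit 4) (nat_lit 285) (nat_lit 238) (nat_lit 197)) (XT.lf (nat_lit 0) (nat_lit 9621735870) (nat_lit 76) (nat_lit 8197628712) (nat_lit 152) (nat_lit 540816994) (nat_lit 15) (nat_lit 5) (nat_lit 16) (nat_lit 5) (nat_lit 17) (nat_lit 4) (nat_lit 286) (nat_lit 238) (nat_lit 196))) (XT.nd (nat_lit 78) (nat_lit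 152) (nat_lit 0) (XT.lf (nat_lit 0) (nat_lit 1696196054) (nat_lit 152) (nat_lit 3493564905) (nat_lit 76) (nat_lit 13893711413) (nat_lit 14) (nat_lit 5) (nat_lit 16) (nat_lit 5) (nat_lit 15) (nat_lit 5) (nat_lit 287) (nat_lit 238) (nat_lit 195)) (XT.lf (nat_lit 0) (nat_lit 2015353961) (nat_lit 152) (nat_lit 2007643967) (nat_lit 228) (nat_lit 15819803601) (nat_lit 12) (nat_lit 5) (nat_lit 14) (nat_lit 5) (nat_lit 15) (nat_lit 5) (nat_lit 288) (nat_lit 238) (nat_lit 194))))) (XT.nd (nat_lit 312) (nat_lit 228) (nat_lit 0) (XT.nd (nat_lit 156) (nat_lit 76) (nat_lit 0) (XT.nd (nat_lit 78) (nat_lit 0) (nat_lit 0) (XT.lf (nat_lit 0) (nat_lit 6512311601) (nat_lit 228) (nat_lit 12792451036) (nat_lit 76) (nat_lit 1333142852) (nat_lit 12) (nat_lit 5) (nat_lit 15) (nat_lit 5) (nat_lit 13) (nat_lit 4) (nat_lit 289) (nat_lit 238) (nat_lit 193)) (XT.lf (nat_lit 0) (nat_lit 9125875214) (nat_lit 228)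 (nat_lit 7590549044) (nat_lit 76) (nat_lit 4756462533) (nat_lit 12) (nat_lit 5) (nat_lit 15) (nat_lit 5) (nat_lit 13) (nat_lit 4) (nat_lit 290) (nat_lit 238) (nat_lit 192))) (XT.nd (nat_lit 78) (nat_lit 76) (nat_lit 0) (XT.lf (nat_lit 0) (nat_lit 11838566592) (nat_lit 228) (nat_lit 2178011164) (nat_lit 76) (nat_lit 8334722981) (nat_lit 12) (nat_lit 5) (nat_lit 15) (nat_lit 5) (nat_lit 13) (nat_lit 4) (nat_lit 291) (nat_lit 238) (nat_lit 191)) (XT.lf (nat_lit 0) (nat_lit 3572388335) (nat_lit 76) (nat_lit 11140231180) (nat_lit 152) (nat_lit 8559830522) (nat_lit 11) (nat_lit 5) (nat_lit 12) (nat_lit 5) (nat_lit 13) (nat_lit 4) (nat_lit 292) (nat_lit 238) (nat_lit 190)))) (XT.nd (nat_lit 156) (nat_lit 228) (nat_lit 0) (XT.nd (nat_lit 78) (nat_lit 0) (nat_lit 0) (XT.lf (nat_lit 0) (nat_lit 9639579170) (nat_lit 76) (nat_lit 8098340865) (nat_lit 152) (nat_lit 6501455716) (nat_lit 11) (nat_lit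 5) (nat_lit 12) (nat_lit 5) (nat_lit 13) (nat_lit 4) (nat_lit 293) (nat_lit 238) (nat_lit 189)) (XT.lf (nat_lit 0) (nat_lit 15965992148) (nat_lit 76) (nat_lit 4920549889) (nat_lit 152) (nat_lit 4369594507) (nat_lit 11) (nat_lit 5) (nat_lit 12) (nat_lit 5) (nat_lit 13) (nat_lit 4) (nat_lit 294) (nat_lit 238) (nat_lit 188))) (XT.nd (nat_lit 78) (nat_lit 228) (nat_lit 0) (XT.lf (nat_lit 0) (nat_lit 22566690157) (nat_lit 76) (nat_lit 1599292083) (nat_lit 152) (nat_lit 2159171036) (nat_lit 11) (nat_lit 5) (nat_lit 12) (nat_lit 5) (nat_lit 13) (nat_lit 4) (nat_lit 295) (nat_lit 238) (nat_lit 187)) (XT.lf (nat_lit 0) (nat_lit 192927258) (nat_lit 228) (nat_lit 25404414324) (nat_lit 76) (nat_lit 1848415545) (nat_lit 8) (nat_lit 5) (nat_lit 11) (nat_lit 5) (nat_lit 9) (nat_lit 4) (nat_lit 296) (nat_lit 238) (nat_lit 186)))))) (XT.nd (nat_lit 624) (nat_lit 152) (nat_lit 0) (XT.nd (nat_lit 312)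 (nat_lit 76) (nat_lit 0) (XT.nd (nat_lit 156) (nat_lit 0) (nat_lit 0) (XT.nd (nat_lit 78) (nat_lit 0) (nat_lit 0) (XT.lf (nat_lit 0) (nat_lit 2655505384) (nat_lit 228) (nat_lit 20461650735) (nat_lit 76) (nat_lit 5500268751) (nat_lit 8) (nat_lit 5) (nat_lit 11) (nat_lit 5) (nat_lit 9) (nat_lit 4) (nat_lit 297) (nat_lit 238) (nat_lit 185)) (XT.lf (nat_lit 0) (nat_lit 5216949998) (nat_lit 228) (nat_lit 15311186008) (nat_lit 76) (nat_lit 9320824898) (nat_lit 8) (nat_lit 5) (nat_lit 11) (nat_lit 5) (nat_lit 9) (nat_lit 4) (nat_lit 298) (nat_lit 238) (nat_lit 184))) (XT.nd (nat_lit 78) (nat_lit 0) (nat_lit 0) (XT.lf (nat_lit 0) (nat_lit 7883359778) (nat_lit 228) (nat_lit 9940757133) (nat_lit 76) (nat_lit 13319180548) (nat_lit 8) (nat_lit 5) (nat_lit 11) (nat_lit 5) (nat_lit 9) (nat_lit 4) (nat_lit 299) (nat_lit 238) (nat_lit 183)) (XT.lf (nat_lit 0) (nat_lit 10661083318) (nat_lit 228) (nat_lit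 4337577375) (nat_lit 76) (nat_lit 17504855594) (nat_lit 8) (nat_lit 5) (nat_lit 11) (nat_lit 5) (nat_lit 9) (nat_lit 4) (nat_lit 300) (nat_lit 238) (nat_lit 182)))) (XT.nd (nat_lit 156) (nat_lit 0) (nat_lit 0) (XT.nd (nat_lit 78) (nat_lit 0) (nat_lit 0) (XT.lf (nat_lit 0) (nat_lit 1561677607) (nat_lit 76) (nat_lit 12019438802) (nat_lit 152) (nat_lit 20350520488) (nat_lit 7) (nat_lit 5) (nat_lit 8) (nat_lit 5) (nat_lit 9) (nat_lit 4) (nat_lit 301) (nat_lit 238) (nat_lit 181)) (XT.lf (nat_lit 0) (nat_lit 7872968501) (nat_lit 76) (nat_lit 8827157568) (nat_lit 152) (nat_lit 18728447778) (nat_lit 7) (nat_lit 5) (nat_lit 8) (nat_lit 5) (nat_lit 9) (nat_lit 4) (nat_lit 302) (nat_lit 238) (nat_lit 180))) (XT.nd (nat_lit 78) (nat_lit 0) (nat_lit 0) (XT.lf (nat_lit 0) (nat_lit 14467902294) (nat_lit 76) (nat_lit 5487675294) (nat_lit 152) (nat_lit 17045811734) (nat_lit 7) (nat_lit 5) (nat_lit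 8) (nat_lit 5) (nat_lit 9) (nat_lit 4) (nat_lit 303) (nat_lit 238) (nat_lit 179)) (XT.lf (nat_lit 0) (nat_lit 21362181208) (nat_lit 76) (nat_lit 1993040830) (nat_lit 152) (nat_lit 15298606080) (nat_lit 7) (nat_lit 5) (nat_lit 8) (nat_lit 5) (nat_lit 9) (nat_lit 4) (nat_lit 304) (nat_lit 238) (nat_lit 178))))) (XT.nd (nat_lit 312) (nat_lit 76) (nat_lit 0) (XT.nd (nat_lit 156) (nat_lit 76) (nat_lit 0) (XT.nd (nat_lit 78) (nat_lit 0) (nat_lit 0) (XT.lf (nat_lit 0) (nat_lit 26933150165) (nat_lit 152) (nat_lit 11843600774) (nat_lit 0) (nat_lit 1611773858) (nat_lit 7) (nat_lit 5) (nat_lit 9) (nat_lit 4) (nat_lit 7) (nat_lit 4) (nat_lit 305) (nat_lit 238) (nat_lit 177)) (XT.lf (nat_lit 0) (nat_lit 30705627800) (nat_lit 152) (nat_lit 6184124036) (nat_lit 0) (nat_lit 5319470403) (nat_lit 7) (nat_lit 5) (nat_lit 9) (nat_lit 4) (nat_lit 7) (nat_lit 4) (nat_lit 306) (nat_lit 238) (nat_lit 176)))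 (XT.nd (nat_lit 78) (nat_lit 76) (nat_lit 0) (XT.lf (nat_lit 0) (nat_lit 34650520080) (nat_lit 152) (nat_lit 268624800) (nat_lit 0) (nat_lit 9202666408) (nat_lit 7) (nat_lit 5) (nat_lit 9) (nat_lit 4) (nat_lit 7) (nat_lit 4) (nat_lit 307) (nat_lit 238) (nat_lit 175)) (XT.lf (nat_lit 0) (nat_lit 6112623585) (nat_lit 76) (nat_lit 32760031206) (nat_lit 76) (nat_lit 7253419176) (nat_lit 6) (nat_lit 4) (nat_lit 7) (nat_lit 5) (nat_lit 7) (nat_lit 4) (nat_lit 308) (nat_lit 238) (nat_lit 174)))) (XT.nd (nat_lit 156) (nat_lit 76) (nat_lit 0) (XT.nd (nat_lit 78) (nat_lit 0) (nat_lit 0) (XT.lf (nat_lit 0) (nat_lit 12797006494) (nat_lit 76) (nat_lit 30498342494) (nat_lit 76) (nat_lit 4935770124) (nat_lit 6) (nat_lit 4) (nat_lit 7) (nat_lit 5) (nat_lit 7) (nat_lit 4) (nat_lit 309) (nat_lit 238) (nat_lit 173)) (XT.lf (nat_lit 0) (nat_lit 19791557176) (nat_lit 76) (nat_lit 28133243064) (nat_lit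 76) (nat_lit 2517375131) (nat_lit 6) (nat_lit 4) (nat_lit 7) (nat_lit 5) (nat_lit 7) (nat_lit 4) (nat_lit 310) (nat_lit 238) (nat_lit 172))) (XT.nd (nat_lit 78) (nat_lit 0) (nat_lit 0) (XT.lf (nat_lit 0) (nat_lit 7283075) (nat_lit 152) (nat_lit 25651695308) (nat_lit 76) (nat_lit 27105522904) (nat_lit 5) (nat_lit 5) (nat_lit 7) (nat_lit 5) (nat_lit 6) (nat_lit 4) (nat_lit 311) (nat_lit 238) (nat_lit 171)) (XT.nd (nat_lit 78) (nat_lit 0) (nat_lit 0) (XT.lf (nat_lit 0) (nat_lit 2560284039) (nat_lit 152) (nat_lit 20466383977) (nat_lit 76) (nat_lit 32174911080) (nat_lit 5) (nat_lit 5) (nat_lit 7) (nat_lit 5) (nat_lit 6) (nat_lit 4) (nat_lit 312) (nat_lit 238) (nat_lit 170)) (XT.lf (nat_lit 0) (nat_lit 5228278061) (nat_lit 152) (nat_lit 15043034943) (nat_lit 76) (nat_lit 37489863528) (nat_lit 5) (nat_lit 5) (nat_lit 7) (nat_lit 5) (nat_lit 6) (nat_lit 4) (nat_lit 313) (nat_lit 238) (nat_lit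 169))))))))
noncomputable def xc88 : XT := (XT.nd (nat_lit 2496) (nat_lit 0) (nat_lit 0) (XT.nd (nat_lit 1248) (nat_lit 76) (nat_lit 0) (XT.nd (nat_lit 624) (nat_lit 0) (nat_lit 0) (XT.nd (nat_lit 312) (nat_lit 0) (nat_lit 0) (XT.nd (nat_lit 156) (nat_lit 76) (nat_lit 0) (XT.nd (nat_lit 78) (nat_lit 0) (nat_lit 0) (XT.lf (nat_lit 0) (nat_lit 8017617508) (nat_lit 152) (nat_lit 9368735469) (nat_lit 76) (nat_lit 43063034895) (nat_lit 5) (nat_lit 5) (nat_lit 7) (nat_lit 5) (nat_lit 6) (nat_lit 4) (nat_lit 314) (nat_lit 238) (nat_lit 168)) (XT.lf (nat_lit 0) (nat_lit 10934943663) (nat_lit 152) (nat_lit 3429975318) (nat_lit 76) (nat_lit 48907694637) (nat_lit 5) (nat_lit 5) (nat_lit 7) (nat_lit 5) (nat_lit 6) (nat_lit 4) (nat_lit 315) (nat_lit 238) (nat_lit 167))) (XT.nd (nat_lit 78) (nat_lit 0) (nat_lit 0) (XT.lf (nat_lit 0) (nat_lit 2879548963) (nat_lit 76) (nat_lit 11152611408) (nat_lit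 152) (nat_lit 52203167477) (nat_lit 4) (nat_lit 5) (nat_lit 5) (nat_lit 5) (nat_lit 6) (nat_lit 4) (nat_lit 316) (nat_lit 238) (nat_lit 166)) (XT.lf (nat_lit 0) (nat_lit 9605588796) (nat_lit 76) (nat_lit 7726042791) (nat_lit 152) (nat_lit 52012203572) (nat_lit 4) (nat_lit 5) (nat_lit 5) (nat_lit 5) (nat_lit 6) (nat_lit 4) (nat_lit 317) (nat_lit 238) (nat_lit 165)))) (XT.nd (nat_lit 156) (nat_lit 0) (nat_lit 0) (XT.nd (nat_lit 78) (nat_lit 0) (nat_lit 0) (XT.lf (nat_lit 0) (nat_lit 16650748086) (nat_lit 76) (nat_lit 4135142928) (nat_lit 152) (nat_lit 51822411857) (nat_lit 4) (nat_lit 5) (nat_lit 5) (nat_lit 5) (nat_lit 6) (nat_lit 4) (nat_lit 318) (nat_lit 238) (nat_lit 164)) (XT.lf (nat_lit 0) (nat_lit 24031801022) (nat_lit 76) (nat_lit 371362056) (nat_lit 152) (nat_lit 51633340445) (nat_lit 4) (nat_lit 5) (nat_lit 5) (nat_lit 5) (nat_lit 6) (nat_lit 4) (nat_lit 319) (nat_lit 238)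 (nat_lit 163))) (XT.nd (nat_lit 78) (nat_lit 0) (nat_lit 0) (XT.lf (nat_lit 0) (nat_lit 28247864566) (nat_lit 152) (nat_lit 47926082194) (nat_lit 0) (nat_lit 3459862527) (nat_lit 4) (nat_lit 5) (nat_lit 6) (nat_lit 4) (nat_lit 4) (nat_lit 4) (nat_lit 320) (nat_lit 238) (nat_lit 162)) (XT.lf (nat_lit 0) (nat_lit 32281996172) (nat_lit 152) (nat_lit 43664829505) (nat_lit 0) (nat_lit 7464317169) (nat_lit 4) (nat_lit 5) (nat_lit 6) (nat_lit 4) (nat_lit 4) (nat_lit 4) (nat_lit 321) (nat_lit 238) (nat_lit 161))))) (XT.nd (nat_lit 312) (nat_lit 0) (nat_lit 0) (XT.nd (nat_lit 156) (nat_lit 0) (nat_lit 0) (XT.nd (nat_lit 78) (nat_lit 0) (nat_lit 0) (XT.lf (nat_lit 0) (nat_lit 36509364967) (nat_lit 152) (nat_lit 39205000592) (nat_lit 0) (nat_lit 11663422190) (nat_lit 4) (nat_lit 5) (nat_lit 6) (nat_lit 4) (nat_lit 4) (nat_lit 4) (nat_lit 322) (nat_lit 238) (nat_lit 160)) (XT.lf (nat_lit 0) (nat_lit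 40940036117) (nat_lit 152) (nat_lit 34535976814) (nat_lit 0) (nat_lit 16067175459) (nat_lit 4) (nat_lit 5) (nat_lit 6) (nat_lit 4) (nat_lit 4) (nat_lit 4) (nat_lit 323) (nat_lit 238) (nat_lit 159))) (XT.nd (nat_lit 78) (nat_lit 0) (nat_lit 0) (XT.lf (nat_lit 0) (nat_lit 45584558838) (nat_lit 152) (nat_lit 29646641449) (nat_lit 0) (nat_lit 20686062103) (nat_lit 4) (nat_lit 5) (nat_lit 6) (nat_lit 4) (nat_lit 4) (nat_lit 4) (nat_lit 324) (nat_lit 238) (nat_lit 158)) (XT.lf (nat_lit 0) (nat_lit 50453991518) (nat_lit 152) (nat_lit 24525353222) (nat_lit 0) (nat_lit 25531079471) (nat_lit 4) (nat_lit 5) (nat_lit 6) (nat_lit 4) (nat_lit 4) (nat_lit 4) (nat_lit 325) (nat_lit 238) (nat_lit 157)))) (XT.nd (nat_lit 156) (nat_lit 0) (nat_lit 0) (XT.nd (nat_lit 78) (nat_lit 0) (nat_lit 0) (XT.lf (nat_lit 0) (nat_lit 55559928043) (nat_lit 152) (nat_lit 19159918588) (nat_lit 0) (nat_lit 30613763319)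 (nat_lit 4) (nat_lit 5) (nat_lit 6) (nat_lit 4) (nat_lit 4) (nat_lit 4) (nat_lit 326) (nat_lit 238) (nat_lit 156)) (XT.lf (nat_lit 0) (nat_lit 60914525406) (nat_lit 152) (nat_lit 13537562705) (nat_lit 0) (nat_lit 35946215275) (nat_lit 4) (nat_lit 5) (nat_lit 6) (nat_lit 4) (nat_lit 4) (nat_lit 4) (nat_lit 327) (nat_lit 238) (nat_lit 155))) (XT.nd (nat_lit 78) (nat_lit 0) (nat_lit 0) (XT.lf (nat_lit 0) (nat_lit 66530532648) (nat_lit 152) (nat_lit 7644899010) (nat_lit 0) (nat_lit 41541131653) (nat_lit 4) (nat_lit 5) (nat_lit 6) (nat_lit 4) (nat_lit 4) (nat_lit 4) (nat_lit 328) (nat_lit 238) (nat_lit 154)) (XT.lf (nat_lit 0) (nat_lit 72421321214) (nat_lit 152) (nat_lit 1467897352) (nat_lit 0) (nat_lit 47411833683) (nat_lit 4) (nat_lit 5) (nat_lit 6) (nat_lit 4) (nat_lit 4) (nat_lit 4) (nat_lit 329) (nat_lit 238) (nat_lit 153)))))) (XT.nd (nat_lit 624) (nat_lit 0) (nat_lit 0) (XT.nd (nat_lit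 312) (nat_lit 0) (nat_lit 0) (XT.nd (nat_lit 156) (nat_lit 0) (nat_lit 0) (XT.nd (nat_lit 78) (nat_lit 0) (nat_lit 0) (XT.lf (nat_lit 0) (nat_lit 5173741452) (nat_lit 76) (nat_lit 73507951943) (nat_lit 76) (nat_lit 48479334376) (nat_lit 3) (nat_lit 4) (nat_lit 4) (nat_lit 5) (nat_lit 4) (nat_lit 4) (nat_lit 330) (nat_lit 238) (nat_lit 152)) (XT.lf (nat_lit 0) (nat_lit 12188777452) (nat_lit 76) (nat_lit 73085556229) (nat_lit 76) (nat_lit 48038719581) (nat_lit 3) (nat_lit 4) (nat_lit 4) (nat_lit 5) (nat_lit 4) (nat_lit 4) (nat_lit 331) (nat_lit 238) (nat_lit 151))) (XT.nd (nat_lit 78) (nat_lit 0) (nat_lit 0) (XT.lf (nat_lit 0) (nat_lit 19545377795) (nat_lit 76) (nat_lit 72645885271) (nat_lit 76) (nat_lit 47581697117) (nat_lit 3) (nat_lit 4) (nat_lit 4) (nat_lit 5) (nat_lit 4) (nat_lit 4) (nat_lit 332) (nat_lit 238) (nat_lit 150)) (XT.lf (nat_lit 0) (nat_lit 27261058199) (nat_lit 76)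 (nat_lit 72187892235) (nat_lit 76) (nat_lit 47107178837) (nat_lit 3) (nat_lit 4) (nat_lit 4) (nat_lit 5) (nat_lit 4) (nat_lit 4) (nat_lit 333) (nat_lit 238) (nat_lit 149)))) (XT.nd (nat_lit 156) (nat_lit 0) (nat_lit 0) (XT.nd (nat_lit 78) (nat_lit 0) (nat_lit 0) (XT.lf (nat_lit 0) (nat_lit 35354189330) (nat_lit 76) (nat_lit 71710486660) (nat_lit 76) (nat_lit 46614034935) (nat_lit 3) (nat_lit 4) (nat_lit 4) (nat_lit 5) (nat_lit 4) (nat_lit 4) (nat_lit 334) (nat_lit 238) (nat_lit 148)) (XT.lf (nat_lit 0) (nat_lit 43844040549) (nat_lit 76) (nat_lit 71212531867) (nat_lit 76) (nat_lit 46101091258) (nat_lit 3) (nat_lit 4) (nat_lit 4) (nat_lit 5) (nat_lit 4) (nat_lit 4) (nat_lit 335) (nat_lit 238) (nat_lit 147))) (XT.nd (nat_lit 78) (nat_lit 0) (nat_lit 0) (XT.lf (nat_lit 0) (nat_lit 52750825786) (nat_lit 76) (nat_lit 70692842249) (nat_lit 76) (nat_lit 45567126513) (nat_lit 3) (nat_lit 4)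 (nat_lit 4) (nat_lit 5) (nat_lit 4) (nat_lit 4) (nat_lit 336) (nat_lit 238) (nat_lit 146)) (XT.lf (nat_lit 0) (nat_lit 62095751673) (nat_lit 76) (nat_lit 70150180450) (nat_lit 76) (nat_lit 45010869355) (nat_lit 3) (nat_lit 4) (nat_lit 4) (nat_lit 5) (nat_lit 4) (nat_lit 4) (nat_lit 337) (nat_lit 238) (nat_lit 145))))) (XT.nd (nat_lit 312) (nat_lit 0) (nat_lit 0) (XT.nd (nat_lit 156) (nat_lit 0) (nat_lit 0) (XT.nd (nat_lit 78) (nat_lit 0) (nat_lit 0) (XT.lf (nat_lit 0) (nat_lit 71901068034) (nat_lit 76) (nat_lit 69583254417) (nat_lit 76) (nat_lit 44430995362) (nat_lit 3) (nat_lit 4) (nat_lit 4) (nat_lit 5) (nat_lit 4) (nat_lit 4) (nat_lit 338) (nat_lit 238) (nat_lit 144)) (XT.lf (nat_lit 0) (nat_lit 82190120860) (nat_lit 76) (nat_lit 68990714328) (nat_lit 76) (nat_lit 43826123881) (nat_lit 3) (nat_lit 4) (nat_lit 4) (nat_lit 5) (nat_lit 4) (nat_lit 4) (nat_lit 339) (nat_lit 238) (nat_lit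 143))) (XT.nd (nat_lit 78) (nat_lit 0) (nat_lit 0) (XT.lf (nat_lit 0) (nat_lit 92987407896) (nat_lit 76) (nat_lit 68371149372) (nat_lit 76) (nat_lit 43194814743) (nat_lit 3) (nat_lit 4) (nat_lit 4) (nat_lit 5) (nat_lit 4) (nat_lit 4) (nat_lit 340) (nat_lit 238) (nat_lit 142)) (XT.lf (nat_lit 0) (nat_lit 104318636969) (nat_lit 76) (nat_lit 67723084395) (nat_lit 76) (nat_lit 42535564830) (nat_lit 3) (nat_lit 4) (nat_lit 4) (nat_lit 5) (nat_lit 4) (nat_lit 4) (nat_lit 341) (nat_lit 238) (nat_lit 141)))) (XT.nd (nat_lit 156) (nat_lit 0) (nat_lit 0) (XT.nd (nat_lit 78) (nat_lit 0) (nat_lit 0) (XT.lf (nat_lit 0) (nat_lit 116210787194) (nat_lit 76) (nat_lit 67044976384) (nat_lit 76) (nat_lit 41846804500) (nat_lit 3) (nat_lit 4) (nat_lit 4) (nat_lit 5) (nat_lit 4) (nat_lit 4) (nat_lit 342) (nat_lit 238) (nat_lit 140)) (XT.lf (nat_lit 0) (nat_lit 128692173216) (nat_lit 76) (nat_lit 66335210797)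 (nat_lit 76) (nat_lit 41126893848) (nat_lit 3) (nat_lit 4) (nat_lit 4) (nat_lit 5) (nat_lit 4) (nat_lit 4) (nat_lit 343) (nat_lit 238) (nat_lit 139))) (XT.nd (nat_lit 78) (nat_lit 0) (nat_lit 0) (XT.lf (nat_lit 0) (nat_lit 141792512620) (nat_lit 76) (nat_lit 65592097716) (nat_lit 76) (nat_lit 40374118799) (nat_lit 3) (nat_lit 4) (nat_lit 4) (nat_lit 5) (nat_lit 4) (nat_lit 4) (nat_lit 344) (nat_lit 238) (nat_lit 138)) (XT.lf (nat_lit 0) (nat_lit 155542996691) (nat_lit 76) (nat_lit 64813867825) (nat_lit 76) (nat_lit 39586687033) (nat_lit 3) (nat_lit 4) (nat_lit 4) (nat_lit 5) (nat_lit 4) (nat_lit 4) (nat_lit 345) (nat_lit 238) (nat_lit 137))))))) (XT.nd (nat_lit 29796) (nat_lit 0) (nat_lit 3192) (XT.nd (nat_lit 624) (nat_lit 0) (nat_lit 0) (XT.nd (nat_lit 312) (nat_lit 0) (nat_lit 0) (XT.nd (nat_lit 156) (nat_lit 0) (nat_lit 0) (XT.nd (nat_lit 78) (nat_lit 0) (nat_lit 0) (XT.lf (nat_lit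 0) (nat_lit 169976364675) (nat_lit 76) (nat_lit 63998668193) (nat_lit 76) (nat_lit 38762723712) (nat_lit 3) (nat_lit 4) (nat_lit 4) (nat_lit 5) (nat_lit 4) (nat_lit 4) (nat_lit 346) (nat_lit 238) (nat_lit 136)) (XT.lf (nat_lit 0) (nat_lit 185126981737) (nat_lit 76) (nat_lit 63144557871) (nat_lit 76) (nat_lit 37900267019) (nat_lit 3) (nat_lit 4) (nat_lit 4) (nat_lit 5) (nat_lit 4) (nat_lit 4) (nat_lit 347) (nat_lit 238) (nat_lit 135))) (XT.nd (nat_lit 78) (nat_lit 0) (nat_lit 0) (XT.lf (nat_lit 0) (nat_lit 201030920772) (nat_lit 76) (nat_lit 62249503262) (nat_lit 76) (nat_lit 36997263485) (nat_lit 3) (nat_lit 4) (nat_lit 4) (nat_lit 5) (nat_lit 4) (nat_lit 4) (nat_lit 348) (nat_lit 238) (nat_lit 134)) (XT.lf (nat_lit 0) (nat_lit 217726048302) (nat_lit 76) (nat_lit 61311373284) (nat_lit 76) (nat_lit 36051563103) (nat_lit 3) (nat_lit 4) (nat_lit 4) (nat_lit 5) (nat_lit 4) (nat_lit 4)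 (nat_lit 349) (nat_lit 238) (nat_lit 133)))) (XT.nd (nat_lit 156) (nat_lit 0) (nat_lit 0) (XT.nd (nat_lit 78) (nat_lit 0) (nat_lit 0) (XT.lf (nat_lit 0) (nat_lit 235252114631) (nat_lit 76) (nat_lit 60327934294) (nat_lit 76) (nat_lit 35060914203) (nat_lit 3) (nat_lit 4) (nat_lit 4) (nat_lit 5) (nat_lit 4) (nat_lit 4) (nat_lit 350) (nat_lit 238) (nat_lit 132)) (XT.lf (nat_lit 0) (nat_lit 253650848489) (nat_lit 76) (nat_lit 59296844770) (nat_lit 76) (nat_lit 34022958100) (nat_lit 3) (nat_lit 4) (nat_lit 4) (nat_lit 5) (nat_lit 4) (nat_lit 4) (nat_lit 351) (nat_lit 238) (nat_lit 131))) (XT.nd (nat_lit 78) (nat_lit 0) (nat_lit 0) (XT.lf (nat_lit 0) (nat_lit 272966056385) (nat_lit 76) (nat_lit 58215649738) (nat_lit 76) (nat_lit 32935223468) (nat_lit 3) (nat_lit 4) (nat_lit 4) (nat_lit 5) (nat_lit 4) (nat_lit 4) (nat_lit 352) (nat_lit 238) (nat_lit 130)) (XT.lf (nat_lit 0) (nat_lit 293243726908)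 (nat_lit 76) (nat_lit 57081774924) (nat_lit 76) (nat_lit 31795120462) (nat_lit 3) (nat_lit 4) (nat_lit 4) (nat_lit 5) (nat_lit 4) (nat_lit 4) (nat_lit 353) (nat_lit 238) (nat_lit 129))))) (XT.nd (nat_lit 28860) (nat_lit 0) (nat_lit 6840) (XT.nd (nat_lit 156) (nat_lit 0) (nat_lit 0) (XT.nd (nat_lit 78) (nat_lit 0) (nat_lit 0) (XT.lf (nat_lit 0) (nat_lit 314532140228) (nat_lit 76) (nat_lit 55892520625) (nat_lit 76) (nat_lit 30599934553) (nat_lit 3) (nat_lit 4) (nat_lit 4) (nat_lit 5) (nat_lit 4) (nat_lit 4) (nat_lit 354) (nat_lit 238) (nat_lit 128)) (XT.lf (nat_lit 0) (nat_lit 336881983041) (nat_lit 76) (nat_lit 54645055284) (nat_lit 76) (nat_lit 29346820060) (nat_lit 3) (nat_lit 4) (nat_lit 4) (nat_lit 5) (nat_lit 4) (nat_lit 4) (nat_lit 355) (nat_lit 238) (nat_lit 127))) (XT.nd (nat_lit 28626) (nat_lit 0) (nat_lit 7144) (XT.lf (nat_lit 0) (nat_lit 360346469260) (nat_lit 76) (nat_lit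 53336408745) (nat_lit 76) (nat_lit 28032793376) (nat_lit 3) (nat_lit 4) (nat_lit 4) (nat_lit 5) (nat_lit 4) (nat_lit 4) (nat_lit 356) (nat_lit 238) (nat_lit 126)) (XT.lf (nat_lit 0) (nat_lit 1365086705) (nat_lit 76) (nat_lit 496682666) (nat_lit 0) (nat_lit 1365086705) (nat_lit 97) (nat_lit 5) (nat_lit 98) (nat_lit 0) (nat_lit 97) (nat_lit 4) (nat_lit 242) (nat_lit 239) (nat_lit 239)))) (XT.nd (nat_lit 156) (nat_lit 152) (nat_lit 0) (XT.nd (nat_lit 78) (nat_lit 76) (nat_lit 0) (XT.lf (nat_lit 0) (nat_lit 1877876673) (nat_lit 76) (nat_lit 3494472092) (nat_lit 76) (nat_lit 1098639995) (nat_lit 96) (nat_lit 4) (nat_lit 97) (nat_lit 5) (nat_lit 97) (nat_lit 4) (nat_lit 243) (nat_lit 239) (nat_lit 238)) (XT.lf (nat_lit 0) (nat_lit 1458644501) (nat_lit 152) (nat_lit 1687355722) (nat_lit 76) (nat_lit 3350755311) (nat_lit 95) (nat_lit 5) (nat_lit 97) (nat_lit 5) (nat_lit 96) (nat_lit 4) (nat_lit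 244) (nat_lit 239) (nat_lit 237))) (XT.nd (nat_lit 78) (nat_lit 0) (nat_lit 0) (XT.lf (nat_lit 0) (nat_lit 1291704584) (nat_lit 152) (nat_lit 2680184134) (nat_lit 228) (nat_lit 2559322763) (nat_lit 93) (nat_lit 5) (nat_lit 95) (nat_lit 5) (nat_lit 96) (nat_lit 4) (nat_lit 245) (nat_lit 239) (nat_lit 236)) (XT.lf (nat_lit 0) (nat_lit 4384520444) (nat_lit 152) (nat_lit 2105624715) (nat_lit 228) (nat_lit 84755857) (nat_lit 93) (nat_lit 5) (nat_lit 95) (nat_lit 5) (nat_lit 96) (nat_lit 4) (nat_lit 246) (nat_lit 239) (nat_lit 235)))))) (XT.nd (nat_lit 624) (nat_lit 2052) (nat_lit 0) (XT.nd (nat_lit 312) (nat_lit 912) (nat_lit 0) (XT.nd (nat_lit 156) (nat_lit 380) (nat_lit 0) (XT.nd (nat_lit 78) (nat_lit 0) (nat_lit 0) (XT.lf (nat_lit 0) (nat_lit 905464100) (nat_lit 228) (nat_lit 1395950329) (nat_lit 304) (nat_lit 4325323085) (nat_lit 89) (nat_lit 5) (nat_lit 92) (nat_lit 5) (nat_lit 93)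 (nat_lit 5) (nat_lit 247) (nat_lit 239) (nat_lit 234)) (XT.lf (nat_lit 0) (nat_lit 4136775533) (nat_lit 228) (nat_lit 564006127) (nat_lit 304) (nat_lit 1986754869) (nat_lit 89) (nat_lit 5) (nat_lit 92) (nat_lit 5) (nat_lit 93) (nat_lit 5) (nat_lit 248) (nat_lit 239) (nat_lit 233))) (XT.nd (nat_lit 78) (nat_lit 0) (nat_lit 0) (XT.lf (nat_lit 0) (nat_lit 333402711) (nat_lit 380) (nat_lit 6066105995) (nat_lit 76) (nat_lit 358675972) (nat_lit 84) (nat_lit 5) (nat_lit 89) (nat_lit 5) (nat_lit 85) (nat_lit 5) (nat_lit 249) (nat_lit 239) (nat_lit 232)) (XT.lf (nat_lit 0) (nat_lit 2624592976) (nat_lit 380) (nat_lit 2789028100) (nat_lit 76) (nat_lit 1422129156) (nat_lit 84) (nat_lit 5) (nat_lit 89) (nat_lit 5) (nat_lit 85) (nat_lit 5) (nat_lit 250) (nat_lit 239) (nat_lit 231)))) (XT.nd (nat_lit 156) (nat_lit 456) (nat_lit 0) (XT.nd (nat_lit 78) (nat_lit 76) (nat_lit 0) (XT.lf (nat_lit 0) (nat_lit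 573186502) (nat_lit 380) (nat_lit 4341000778) (nat_lit 456) (nat_lit 2009865152) (nat_lit 79) (nat_lit 5) (nat_lit 84) (nat_lit 5) (nat_lit 85) (nat_lit 5) (nat_lit 251) (nat_lit 239) (nat_lit 230)) (XT.lf (nat_lit 0) (nat_lit 216265446) (nat_lit 456) (nat_lit 2920085304) (nat_lit 76) (nat_lit 3884915381) (nat_lit 78) (nat_lit 5) (nat_lit 84) (nat_lit 5) (nat_lit 79) (nat_lit 5) (nat_lit 252) (nat_lit 239) (nat_lit 229))) (XT.nd (nat_lit 78) (nat_lit 0) (nat_lit 0) (XT.lf (nat_lit 0) (nat_lit 571839233) (nat_lit 456) (nat_lit 1805547316) (nat_lit 532) (nat_lit 4750652648) (nat_lit 72) (nat_lit 5) (nat_lit 78) (nat_lit 5) (nat_lit 79) (nat_lit 5) (nat_lit 253) (nat_lit 239) (nat_lit 228)) (XT.lf (nat_lit 0) (nat_lit 4245534166) (nat_lit 456) (nat_lit 336917144) (nat_lit 532) (nat_lit 2661769553) (nat_lit 72) (nat_lit 5) (nat_lit 78) (nat_lit 5) (nat_lit 79) (nat_lit 5) (nat_lit 254)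 (nat_lit 239) (nat_lit 227))))) (XT.nd (nat_lit 312) (nat_lit 836) (nat_lit 0) (XT.nd (nat_lit 156) (nat_lit 608) (nat_lit 0) (XT.nd (nat_lit 78) (nat_lit 76) (nat_lit 0) (XT.lf (nat_lit 0) (nat_lit 642203474) (nat_lit 532) (nat_lit 6176538423) (nat_lit 608) (nat_lit 552244255) (nat_lit 65) (nat_lit 5) (nat_lit 72) (nat_lit 5) (nat_lit 73) (nat_lit 5) (nat_lit 255) (nat_lit 239) (nat_lit 226)) (XT.lf (nat_lit 0) (nat_lit 1560000053) (nat_lit 608) (nat_lit 3063580064) (nat_lit 76) (nat_lit 2882435144) (nat_lit 64) (nat_lit 5) (nat_lit 72) (nat_lit 5) (nat_lit 65) (nat_lit 5) (nat_lit 256) (nat_lit 239) (nat_lit 225))) (XT.nd (nat_lit 78) (nat_lit 0) (nat_lit 0) (XT.lf (nat_lit 0) (nat_lit 704118749) (nat_lit 608) (nat_lit 2964573394) (nat_lit 684) (nat_lit 3983892377) (nat_lit 56) (nat_lit 5) (nat_lit 64) (nat_lit 5) (nat_lit 65) (nat_lit 5) (nat_lit 257) (nat_lit 239) (nat_lit 224))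 (XT.lf (nat_lit 0) (nat_lit 4673836253) (nat_lit 608) (nat_lit 1162657430) (nat_lit 684) (nat_lit 1972982039) (nat_lit 56) (nat_lit 5) (nat_lit 64) (nat_lit 5) (nat_lit 65) (nat_lit 5) (nat_lit 258) (nat_lit 239) (nat_lit 223)))) (XT.nd (nat_lit 156) (nat_lit 304) (nat_lit 0) (XT.nd (nat_lit 78) (nat_lit 0) (nat_lit 0) (XT.lf (nat_lit 0) (nat_lit 62512870) (nat_lit 532) (nat_lit 7191407055) (nat_lit 76) (nat_lit 724374169) (nat_lit 49) (nat_lit 5) (nat_lit 56) (nat_lit 5) (nat_lit 50) (nat_lit 5) (nat_lit 259) (nat_lit 239) (nat_lit 222)) (XT.lf (nat_lit 0) (nat_lit 2113994449) (nat_lit 532) (nat_lit 3286617343) (nat_lit 76) (nat_lit 2754883550) (nat_lit 49) (nat_lit 5) (nat_lit 56) (nat_lit 5) (nat_lit 50) (nat_lit 5) (nat_lit 260) (nat_lit 239) (nat_lit 221))) (XT.nd (nat_lit 78) (nat_lit 0) (nat_lit 0) (XT.lf (nat_lit 0) (nat_lit 746005980) (nat_lit 304) (nat_lit 3445579921) (nat_lit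 380) (nat_lit 4154351118) (nat_lit 45) (nat_lit 5) (nat_lit 49) (nat_lit 5) (nat_lit 50) (nat_lit 5) (nat_lit 261) (nat_lit 239) (nat_lit 220)) (XT.lf (nat_lit 0) (nat_lit 5004553982) (nat_lit 304) (nat_lit 1338845539) (nat_lit 380) (nat_lit 2204514748) (nat_lit 45) (nat_lit 5) (nat_lit 49) (nat_lit 5) (nat_lit 50) (nat_lit 5) (nat_lit 262) (nat_lit 239) (nat_lit 219))))))))
noncomputable def xc89 : XT := (XT.nd (nat_lit 1248) (nat_lit 760) (nat_lit 0) (XT.nd (nat_lit 624) (nat_lit 684) (nat_lit 0) (XT.nd (nat_lit 312) (nat_lit 532) (nat_lit 0) (XT.nd (nat_lit 156) (nat_lit 228) (nat_lit 0) (XT.nd (nat_lit 78) (nat_lit 76) (nat_lit 0) (XT.lf (nat_lit 0) (nat_lit 632618193) (nat_lit 304) (nat_lit 7912374166) (nat_lit 380) (nat_lit 218393952) (nat_lit 41) (nat_lit 5) (nat_lit 45) (nat_lit 5) (nat_lit 46) (nat_lit 5) (nat_lit 263) (nat_lit 239) (nat_lit 218)) (XT.lf (nat_lit 0) (nat_lit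 1809626045) (nat_lit 380) (nat_lit 3990006038) (nat_lit 76) (nat_lit 3188883267) (nat_lit 40) (nat_lit 5) (nat_lit 45) (nat_lit 5) (nat_lit 41) (nat_lit 5) (nat_lit 264) (nat_lit 239) (nat_lit 217))) (XT.nd (nat_lit 78) (nat_lit 0) (nat_lit 0) (XT.lf (nat_lit 0) (nat_lit 275699030) (nat_lit 228) (nat_lit 3583559948) (nat_lit 304) (nat_lit 5369521826) (nat_lit 37) (nat_lit 5) (nat_lit 40) (nat_lit 5) (nat_lit 41) (nat_lit 5) (nat_lit 265) (nat_lit 239) (nat_lit 216)) (XT.lf (nat_lit 0) (nat_lit 4807283066) (nat_lit 228) (nat_lit 1197223439) (nat_lit 304) (nat_lit 3477312135) (nat_lit 37) (nat_lit 5) (nat_lit 40) (nat_lit 5) (nat_lit 41) (nat_lit 5) (nat_lit 266) (nat_lit 239) (nat_lit 215)))) (XT.nd (nat_lit 156) (nat_lit 228) (nat_lit 0) (XT.nd (nat_lit 78) (nat_lit 304) (nat_lit 0) (XT.lf (nat_lit 0) (nat_lit 8206378823) (nat_lit 304) (nat_lit 288098537) (nat_lit 76) (nat_lit 1255958844)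 (nat_lit 37) (nat_lit 5) (nat_lit 41) (nat_lit 5) (nat_lit 38) (nat_lit 5) (nat_lit 267) (nat_lit 239) (nat_lit 214)) (XT.lf (nat_lit 0) (nat_lit 490224570) (nat_lit 304) (nat_lit 5683852248) (nat_lit 76) (nat_lit 3857391942) (nat_lit 33) (nat_lit 5) (nat_lit 37) (nat_lit 5) (nat_lit 34) (nat_lit 5) (nat_lit 268) (nat_lit 239) (nat_lit 213))) (XT.nd (nat_lit 78) (nat_lit 228) (nat_lit 0) (XT.lf (nat_lit 0) (nat_lit 2512153136) (nat_lit 304) (nat_lit 1209360421) (nat_lit 76) (nat_lit 6607224661) (nat_lit 33) (nat_lit 5) (nat_lit 37) (nat_lit 5) (nat_lit 34) (nat_lit 5) (nat_lit 269) (nat_lit 239) (nat_lit 212)) (XT.lf (nat_lit 0) (nat_lit 3522769994) (nat_lit 228) (nat_lit 1103469300) (nat_lit 304) (nat_lit 6015404553) (nat_lit 30) (nat_lit 5) (nat_lit 33) (nat_lit 5) (nat_lit 34) (nat_lit 5) (nat_lit 270) (nat_lit 239) (nat_lit 211))))) (XT.nd (nat_lit 312) (nat_lit 228) (nat_lit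 0) (XT.nd (nat_lit 156) (nat_lit 228) (nat_lit 0) (XT.nd (nat_lit 78) (nat_lit 228) (nat_lit 0) (XT.lf (nat_lit 0) (nat_lit 6830190328) (nat_lit 304) (nat_lit 2542443006) (nat_lit 76) (nat_lit 1598663638) (nat_lit 30) (nat_lit 5) (nat_lit 34) (nat_lit 5) (nat_lit 31) (nat_lit 5) (nat_lit 271) (nat_lit 239) (nat_lit 210)) (XT.lf (nat_lit 0) (nat_lit 2239503307) (nat_lit 228) (nat_lit 6898512281) (nat_lit 304) (nat_lit 2180028802) (nat_lit 27) (nat_lit 5) (nat_lit 30) (nat_lit 5) (nat_lit 31) (nat_lit 5) (nat_lit 272) (nat_lit 239) (nat_lit 209))) (XT.nd (nat_lit 78) (nat_lit 228) (nat_lit 0) (XT.lf (nat_lit 0) (nat_lit 7273160546) (nat_lit 228) (nat_lit 4273397505) (nat_lit 304) (nat_lit 136586232) (nat_lit 27) (nat_lit 5) (nat_lit 30) (nat_lit 5) (nat_lit 31) (nat_lit 5) (nat_lit 273) (nat_lit 239) (nat_lit 208)) (XT.lf (nat_lit 0) (nat_lit 399250134) (nat_lit 152) (nat_lit 1495567072)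 (nat_lit 228) (nat_lit 10172864363) (nat_lit 24) (nat_lit 5) (nat_lit 26) (nat_lit 5) (nat_lit 27) (nat_lit 5) (nat_lit 274) (nat_lit 239) (nat_lit 207)))) (XT.nd (nat_lit 156) (nat_lit 228) (nat_lit 0) (XT.nd (nat_lit 78) (nat_lit 0) (nat_lit 0) (XT.lf (nat_lit 0) (nat_lit 4066402820) (nat_lit 228) (nat_lit 6966966761) (nat_lit 76) (nat_lit 1436047157) (nat_lit 24) (nat_lit 5) (nat_lit 27) (nat_lit 5) (nat_lit 25) (nat_lit 5) (nat_lit 275) (nat_lit 239) (nat_lit 206)) (XT.lf (nat_lit 0) (nat_lit 6318803710) (nat_lit 228) (nat_lit 2126997777) (nat_lit 76) (nat_lit 4447056888) (nat_lit 24) (nat_lit 5) (nat_lit 27) (nat_lit 5) (nat_lit 25) (nat_lit 5) (nat_lit 276) (nat_lit 239) (nat_lit 205))) (XT.nd (nat_lit 78) (nat_lit 0) (nat_lit 0) (XT.lf (nat_lit 0) (nat_lit 2981784987) (nat_lit 228) (nat_lit 5698801775) (nat_lit 304) (nat_lit 4657267710) (nat_lit 21) (nat_lit 5) (nat_lit 24)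 (nat_lit 5) (nat_lit 25) (nat_lit 5) (nat_lit 277) (nat_lit 239) (nat_lit 204)) (XT.lf (nat_lit 0) (nat_lit 8352337821) (nat_lit 228) (nat_lit 2795667947) (nat_lit 304) (nat_lit 2657927251) (nat_lit 21) (nat_lit 5) (nat_lit 24) (nat_lit 5) (nat_lit 25) (nat_lit 5) (nat_lit 278) (nat_lit 239) (nat_lit 203)))))) (XT.nd (nat_lit 624) (nat_lit 304) (nat_lit 0) (XT.nd (nat_lit 312) (nat_lit 76) (nat_lit 0) (XT.nd (nat_lit 156) (nat_lit 152) (nat_lit 0) (XT.nd (nat_lit 78) (nat_lit 228) (nat_lit 0) (XT.lf (nat_lit 0) (nat_lit 13696290172) (nat_lit 304) (nat_lit 376465261) (nat_lit 76) (nat_lit 226985323) (nat_lit 21) (nat_lit 5) (nat_lit 25) (nat_lit 5) (nat_lit 22) (nat_lit 4) (nat_lit 279) (nat_lit 239) (nat_lit 202)) (XT.lf (nat_lit 0) (nat_lit 1584886485) (nat_lit 228) (nat_lit 9834461783) (nat_lit 76) (nat_lit 3393815772) (nat_lit 18) (nat_lit 5) (nat_lit 21) (nat_lit 5) (nat_lit 19)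 (nat_lit 5) (nat_lit 280) (nat_lit 239) (nat_lit 201))) (XT.nd (nat_lit 78) (nat_lit 152) (nat_lit 0) (XT.lf (nat_lit 0) (nat_lit 3824853976) (nat_lit 228) (nat_lit 4811200075) (nat_lit 76) (nat_lit 6717757888) (nat_lit 18) (nat_lit 5) (nat_lit 21) (nat_lit 5) (nat_lit 19) (nat_lit 5) (nat_lit 281) (nat_lit 239) (nat_lit 200)) (XT.lf (nat_lit 0) (nat_lit 415611261) (nat_lit 152) (nat_lit 5725805365) (nat_lit 228) (nat_lit 9782010297) (nat_lit 16) (nat_lit 5) (nat_lit 18) (nat_lit 5) (nat_lit 19) (nat_lit 5) (nat_lit 282) (nat_lit 239) (nat_lit 199)))) (XT.nd (nat_lit 156) (nat_lit 76) (nat_lit 0) (XT.nd (nat_lit 78) (nat_lit 0) (nat_lit 0) (XT.lf (nat_lit 0) (nat_lit 6010864065) (nat_lit 152) (nat_lit 2603590410) (nat_lit 228) (nat_lit 7905192521) (nat_lit 16) (nat_lit 5) (nat_lit 18) (nat_lit 5) (nat_lit 19) (nat_lit 5) (nat_lit 283) (nat_lit 239) (nat_lit 198)) (XT.lf (nat_lit 0)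 (nat_lit 11182506210) (nat_lit 228) (nat_lit 5329221870) (nat_lit 76) (nat_lit 635531127) (nat_lit 16) (nat_lit 5) (nat_lit 19) (nat_lit 5) (nat_lit 17) (nat_lit 4) (nat_lit 284) (nat_lit 239) (nat_lit 197))) (XT.nd (nat_lit 78) (nat_lit 0) (nat_lit 0) (XT.lf (nat_lit 0) (nat_lit 10899726) (nat_lit 76) (nat_lit 13873605630) (nat_lit 152) (nat_lit 3921611555) (nat_lit 15) (nat_lit 5) (nat_lit 16) (nat_lit 5) (nat_lit 17) (nat_lit 4) (nat_lit 285) (nat_lit 239) (nat_lit 196)) (XT.lf (nat_lit 0) (nat_lit 5747865974) (nat_lit 76) (nat_lit 11027599297) (nat_lit 152) (nat_lit 1719894549) (nat_lit 15) (nat_lit 5) (nat_lit 16) (nat_lit 5) (nat_lit 17) (nat_lit 4) (nat_lit 286) (nat_lit 239) (nat_lit 195))))) (XT.nd (nat_lit 312) (nat_lit 76) (nat_lit 0) (XT.nd (nat_lit 156) (nat_lit 152) (nat_lit 0) (XT.nd (nat_lit 78) (nat_lit 0) (nat_lit 0) (XT.lf (nat_lit 0) (nat_lit 537611391) (nat_lit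 152) (nat_lit 7510469723) (nat_lit 76) (nat_lit 11172412074) (nat_lit 14) (nat_lit 5) (nat_lit 16) (nat_lit 5) (nat_lit 15) (nat_lit 5) (nat_lit 287) (nat_lit 239) (nat_lit 194)) (XT.lf (nat_lit 0) (nat_lit 2816524179) (nat_lit 152) (nat_lit 2091069420) (nat_lit 76) (nat_lit 15074680240) (nat_lit 14) (nat_lit 5) (nat_lit 16) (nat_lit 5) (nat_lit 15) (nat_lit 5) (nat_lit 288) (nat_lit 239) (nat_lit 193))) (XT.nd (nat_lit 78) (nat_lit 0) (nat_lit 0) (XT.lf (nat_lit 0) (nat_lit 3667857103) (nat_lit 152) (nat_lit 1566725587) (nat_lit 228) (nat_lit 15546412186) (nat_lit 12) (nat_lit 5) (nat_lit 14) (nat_lit 5) (nat_lit 15) (nat_lit 5) (nat_lit 289) (nat_lit 239) (nat_lit 192)) (XT.lf (nat_lit 0) (nat_lit 7808294880) (nat_lit 228) (nat_lit 11910901250) (nat_lit 76) (nat_lit 1898824356) (nat_lit 12) (nat_lit 5) (nat_lit 15) (nat_lit 5) (nat_lit 13) (nat_lit 4) (nat_lit 290) (nat_lit 239)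 (nat_lit 191)))) (XT.nd (nat_lit 156) (nat_lit 76) (nat_lit 0) (XT.nd (nat_lit 78) (nat_lit 0) (nat_lit 0) (XT.lf (nat_lit 0) (nat_lit 10506328689) (nat_lit 228) (nat_lit 6521340936) (nat_lit 76) (nat_lit 5469546957) (nat_lit 12) (nat_lit 5) (nat_lit 15) (nat_lit 5) (nat_lit 13) (nat_lit 4) (nat_lit 291) (nat_lit 239) (nat_lit 190)) (XT.lf (nat_lit 0) (nat_lit 13310647030) (nat_lit 228) (nat_lit 907163570) (nat_lit 76) (nat_lit 9204088937) (nat_lit 12) (nat_lit 5) (nat_lit 15) (nat_lit 5) (nat_lit 13) (nat_lit 4) (nat_lit 292) (nat_lit 239) (nat_lit 189))) (XT.nd (nat_lit 78) (nat_lit 0) (nat_lit 0) (XT.lf (nat_lit 0) (nat_lit 5108501902) (nat_lit 76) (nat_lit 11199182980) (nat_lit 152) (nat_lit 8082598193) (nat_lit 11) (nat_lit 5) (nat_lit 12) (nat_lit 5) (nat_lit 13) (nat_lit 4) (nat_lit 293) (nat_lit 239) (nat_lit 188)) (XT.lf (nat_lit 0) (nat_lit 11414409700) (nat_lit 76) (nat_lit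 8028915282) (nat_lit 152) (nat_lit 5964410544) (nat_lit 11) (nat_lit 5) (nat_lit 12) (nat_lit 5) (nat_lit 13) (nat_lit 4) (nat_lit 294) (nat_lit 239) (nat_lit 187)))))))
noncomputable def xc90 : XT := (XT.nd (nat_lit 1248) (nat_lit 152) (nat_lit 0) (XT.nd (nat_lit 624) (nat_lit 76) (nat_lit 0) (XT.nd (nat_lit 312) (nat_lit 76) (nat_lit 0) (XT.nd (nat_lit 156) (nat_lit 228) (nat_lit 0) (XT.nd (nat_lit 78) (nat_lit 0) (nat_lit 0) (XT.lf (nat_lit 0) (nat_lit 17995578966) (nat_lit 76) (nat_lit 4714822501) (nat_lit 152) (nat_lit 3767009511) (nat_lit 11) (nat_lit 5) (nat_lit 12) (nat_lit 5) (nat_lit 13) (nat_lit 4) (nat_lit 295) (nat_lit 239) (nat_lit 186)) (XT.lf (nat_lit 0) (nat_lit 24867679151) (nat_lit 76) (nat_lit 1249013941) (nat_lit 152) (nat_lit 1485163187) (nat_lit 11) (nat_lit 5) (nat_lit 12) (nat_lit 5) (nat_lit 13) (nat_lit 4) (nat_lit 296) (nat_lit 239) (nat_lit 185))) (XT.nd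 (nat_lit 78) (nat_lit 0) (nat_lit 0) (XT.lf (nat_lit 0) (nat_lit 948790925) (nat_lit 228) (nat_lit 25461705515) (nat_lit 76) (nat_lit 2368029902) (nat_lit 8) (nat_lit 5) (nat_lit 11) (nat_lit 5) (nat_lit 9) (nat_lit 4) (nat_lit 297) (nat_lit 239) (nat_lit 184)) (XT.lf (nat_lit 0) (nat_lit 3498963800) (nat_lit 228) (nat_lit 20329562294) (nat_lit 76) (nat_lit 6182133217) (nat_lit 8) (nat_lit 5) (nat_lit 11) (nat_lit 5) (nat_lit 9) (nat_lit 4) (nat_lit 298) (nat_lit 239) (nat_lit 183)))) (XT.nd (nat_lit 156) (nat_lit 76) (nat_lit 0) (XT.nd (nat_lit 78) (nat_lit 0) (nat_lit 0) (XT.lf (nat_lit 0) (nat_lit 6154638590) (nat_lit 228) (nat_lit 14976582473) (nat_lit 76) (nat_lit 10174343313) (nat_lit 8) (nat_lit 5) (nat_lit 11) (nat_lit 5) (nat_lit 9) (nat_lit 4) (nat_lit 299) (nat_lit 239) (nat_lit 182)) (XT.lf (nat_lit 0) (nat_lit 8922138331) (nat_lit 228) (nat_lit 9390020861) (nat_lit 76)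 (nat_lit 14354165451) (nat_lit 8) (nat_lit 5) (nat_lit 11) (nat_lit 5) (nat_lit 9) (nat_lit 4) (nat_lit 300) (nat_lit 239) (nat_lit 181))) (XT.nd (nat_lit 78) (nat_lit 76) (nat_lit 0) (XT.lf (nat_lit 0) (nat_lit 11808052306) (nat_lit 228) (nat_lit 3556576121) (nat_lit 76) (nat_lit 18731551589) (nat_lit 8) (nat_lit 5) (nat_lit 11) (nat_lit 5) (nat_lit 9) (nat_lit 4) (nat_lit 301) (nat_lit 239) (nat_lit 180)) (XT.lf (nat_lit 0) (nat_lit 2621546769) (nat_lit 76) (nat_lit 12238634664) (nat_lit 152) (nat_lit 20736306998) (nat_lit 7) (nat_lit 5) (nat_lit 8) (nat_lit 5) (nat_lit 9) (nat_lit 4) (nat_lit 302) (nat_lit 239) (nat_lit 179))))) (XT.nd (nat_lit 312) (nat_lit 76) (nat_lit 0) (XT.nd (nat_lit 156) (nat_lit 0) (nat_lit 0) (XT.nd (nat_lit 78) (nat_lit 0) (nat_lit 0) (XT.lf (nat_lit 0) (nat_lit 9201650528) (nat_lit 76) (nat_lit 8904919182) (nat_lit 152) (nat_lit 19063213487) (nat_lit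 7) (nat_lit 5) (nat_lit 8) (nat_lit 5) (nat_lit 9) (nat_lit 4) (nat_lit 303) (nat_lit 239) (nat_lit 178)) (XT.lf (nat_lit 0) (nat_lit 16081805601) (nat_lit 76) (nat_lit 5415776901) (nat_lit 152) (nat_lit 17325095959) (nat_lit 7) (nat_lit 5) (nat_lit 8) (nat_lit 5) (nat_lit 9) (nat_lit 4) (nat_lit 304) (nat_lit 239) (nat_lit 177))) (XT.nd (nat_lit 78) (nat_lit 0) (nat_lit 0) (XT.lf (nat_lit 0) (nat_lit 23278393309) (nat_lit 76) (nat_lit 1762900341) (nat_lit 152) (nat_lit 15517816039) (nat_lit 7) (nat_lit 5) (nat_lit 8) (nat_lit 5) (nat_lit 9) (nat_lit 4) (nat_lit 305) (nat_lit 239) (nat_lit 176)) (XT.lf (nat_lit 0) (nat_lit 28778340525) (nat_lit 152) (nat_lit 11606862822) (nat_lit 0) (nat_lit 1996397894) (nat_lit 7) (nat_lit 5) (nat_lit 9) (nat_lit 4) (nat_lit 7) (nat_lit 4) (nat_lit 306) (nat_lit 239) (nat_lit 175)))) (XT.nd (nat_lit 156) (nat_lit 0) (nat_lit 0) (XT.nd (nat_lit 78)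 (nat_lit 76) (nat_lit 0) (XT.lf (nat_lit 0) (nat_lit 32715702382) (nat_lit 152) (nat_lit 5703884532) (nat_lit 0) (nat_lit 5875001393) (nat_lit 7) (nat_lit 5) (nat_lit 9) (nat_lit 4) (nat_lit 7) (nat_lit 4) (nat_lit 307) (nat_lit 239) (nat_lit 174)) (XT.lf (nat_lit 0) (nat_lit 485330623) (nat_lit 76) (nat_lit 36357476825) (nat_lit 76) (nat_lit 9460815495) (nat_lit 6) (nat_lit 4) (nat_lit 7) (nat_lit 5) (nat_lit 7) (nat_lit 4) (nat_lit 308) (nat_lit 239) (nat_lit 173))) (XT.nd (nat_lit 78) (nat_lit 0) (nat_lit 0) (XT.lf (nat_lit 0) (nat_lit 7157981155) (nat_lit 76) (nat_lit 34100507000) (nat_lit 76) (nat_lit 7150550107) (nat_lit 6) (nat_lit 4) (nat_lit 7) (nat_lit 5) (nat_lit 7) (nat_lit 4) (nat_lit 309) (nat_lit 239) (nat_lit 172)) (XT.lf (nat_lit 0) (nat_lit 14141358144) (nat_lit 76) (nat_lit 31739901746) (nat_lit 76) (nat_lit 4739187175) (nat_lit 6) (nat_lit 4) (nat_lit 7) (nat_lit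 5) (nat_lit 7) (nat_lit 4) (nat_lit 310) (nat_lit 239) (nat_lit 171)))))) (XT.nd (nat_lit 624) (nat_lit 0) (nat_lit 0) (XT.nd (nat_lit 312) (nat_lit 76) (nat_lit 0) (XT.nd (nat_lit 156) (nat_lit 0) (nat_lit 0) (XT.nd (nat_lit 78) (nat_lit 76) (nat_lit 0) (XT.lf (nat_lit 0) (nat_lit 21452088677) (nat_lit 76) (nat_lit 29270040576) (nat_lit 76) (nat_lit 2220985358) (nat_lit 6) (nat_lit 4) (nat_lit 7) (nat_lit 5) (nat_lit 7) (nat_lit 4) (nat_lit 311) (nat_lit 239) (nat_lit 170)) (XT.lf (nat_lit 0) (nat_lit 396926865) (nat_lit 152) (nat_lit 26281393854) (nat_lit 76) (nat_lit 28703930242) (nat_lit 5) (nat_lit 5) (nat_lit 7) (nat_lit 5) (nat_lit 6) (nat_lit 4) (nat_lit 312) (nat_lit 239) (nat_lit 169))) (XT.nd (nat_lit 78) (nat_lit 0) (nat_lit 0) (XT.lf (nat_lit 0) (nat_lit 3059040752) (nat_lit 152) (nat_lit 20867906776) (nat_lit 76) (nat_lit 34015210151) (nat_lit 5) (nat_lit 5) (nat_lit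 7) (nat_lit 5) (nat_lit 6) (nat_lit 4) (nat_lit 313) (nat_lit 239) (nat_lit 168)) (XT.lf (nat_lit 0) (nat_lit 5842780070) (nat_lit 152) (nat_lit 15202999642) (nat_lit 76) (nat_lit 39584883863) (nat_lit 5) (nat_lit 5) (nat_lit 7) (nat_lit 5) (nat_lit 6) (nat_lit 4) (nat_lit 314) (nat_lit 239) (nat_lit 167)))) (XT.nd (nat_lit 156) (nat_lit 76) (nat_lit 0) (XT.nd (nat_lit 78) (nat_lit 0) (nat_lit 0) (XT.lf (nat_lit 0) (nat_lit 8754772770) (nat_lit 152) (nat_lit 9273184578) (nat_lit 76) (nat_lit 45426212506) (nat_lit 5) (nat_lit 5) (nat_lit 7) (nat_lit 5) (nat_lit 6) (nat_lit 4) (nat_lit 315) (nat_lit 239) (nat_lit 166)) (XT.lf (nat_lit 0) (nat_lit 11801952167) (nat_lit 152) (nat_lit 3064342975) (nat_lit 76) (nat_lit 51553104003) (nat_lit 5) (nat_lit 5) (nat_lit 7) (nat_lit 5) (nat_lit 6) (nat_lit 4) (nat_lit 316) (nat_lit 239) (nat_lit 165))) (XT.nd (nat_lit 78) (nat_lit 0) (nat_lit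 0) (XT.lf (nat_lit 0) (nat_lit 3551994115) (nat_lit 76) (nat_lit 11495035918) (nat_lit 152) (nat_lit 54483608661) (nat_lit 4) (nat_lit 5) (nat_lit 5) (nat_lit 5) (nat_lit 6) (nat_lit 4) (nat_lit 317) (nat_lit 239) (nat_lit 164)) (XT.lf (nat_lit 0) (nat_lit 10589170810) (nat_lit 76) (nat_lit 7907386778) (nat_lit 152) (nat_lit 54298797380) (nat_lit 4) (nat_lit 5) (nat_lit 5) (nat_lit 5) (nat_lit 6) (nat_lit 4) (nat_lit 318) (nat_lit 239) (nat_lit 163))))) (XT.nd (nat_lit 312) (nat_lit 0) (nat_lit 0) (XT.nd (nat_lit 156) (nat_lit 0) (nat_lit 0) (XT.nd (nat_lit 78) (nat_lit 0) (nat_lit 0) (XT.lf (nat_lit 0) (nat_lit 17962621276) (nat_lit 76) (nat_lit 4146701834) (nat_lit 152) (nat_lit 54114469239) (nat_lit 4) (nat_lit 5) (nat_lit 5) (nat_lit 5) (nat_lit 6) (nat_lit 4) (nat_lit 319) (nat_lit 239) (nat_lit 162)) (XT.lf (nat_lit 0) (nat_lit 25689901345) (nat_lit 76) (nat_lit 204027072) (nat_lit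 152) (nat_lit 53930185362) (nat_lit 4) (nat_lit 5) (nat_lit 5) (nat_lit 5) (nat_lit 6) (nat_lit 4) (nat_lit 320) (nat_lit 239) (nat_lit 161))) (XT.nd (nat_lit 78) (nat_lit 0) (nat_lit 0) (XT.lf (nat_lit 0) (nat_lit 29920743179) (nat_lit 152) (nat_lit 49876840853) (nat_lit 0) (nat_lit 3804239488) (nat_lit 4) (nat_lit 5) (nat_lit 6) (nat_lit 4) (nat_lit 4) (nat_lit 4) (nat_lit 321) (nat_lit 239) (nat_lit 160)) (XT.lf (nat_lit 0) (nat_lit 34144177299) (nat_lit 152) (nat_lit 45423741979) (nat_lit 0) (nat_lit 8000755727) (nat_lit 4) (nat_lit 5) (nat_lit 6) (nat_lit 4) (nat_lit 4) (nat_lit 4) (nat_lit 322) (nat_lit 239) (nat_lit 159)))) (XT.nd (nat_lit 156) (nat_lit 0) (nat_lit 0) (XT.nd (nat_lit 78) (nat_lit 0) (nat_lit 0) (XT.lf (nat_lit 0) (nat_lit 38571101138) (nat_lit 152) (nat_lit 40761127763) (nat_lit 0) (nat_lit 12402043490) (nat_lit 4) (nat_lit 5) (nat_lit 6) (nat_lit 4) (nat_lit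 4) (nat_lit 4) (nat_lit 323) (nat_lit 239) (nat_lit 158)) (XT.lf (nat_lit 0) (nat_lit 43212054992) (nat_lit 152) (nat_lit 35877896742) (nat_lit 0) (nat_lit 17018582032) (nat_lit 4) (nat_lit 5) (nat_lit 6) (nat_lit 4) (nat_lit 4) (nat_lit 4) (nat_lit 324) (nat_lit 239) (nat_lit 157))) (XT.nd (nat_lit 78) (nat_lit 0) (nat_lit 0) (XT.lf (nat_lit 0) (nat_lit 48078088751) (nat_lit 152) (nat_lit 30762422176) (nat_lit 0) (nat_lit 21861363113) (nat_lit 4) (nat_lit 5) (nat_lit 6) (nat_lit 4) (nat_lit 4) (nat_lit 4) (nat_lit 325) (nat_lit 239) (nat_lit 156)) (XT.nd (nat_lit 78) (nat_lit 0) (nat_lit 0) (XT.lf (nat_lit 0) (nat_lit 53180788208) (nat_lit 152) (nat_lit 25402524363) (nat_lit 0) (nat_lit 26941917164) (nat_lit 4) (nat_lit 5) (nat_lit 6) (nat_lit 4) (nat_lit 4) (nat_lit 4) (nat_lit 326) (nat_lit 239) (nat_lit 155)) (XT.lf (nat_lit 0) (nat_lit 58532302650) (nat_lit 152) (nat_lit 19785441642)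 (nat_lit 0) (nat_lit 32272340741) (nat_lit 4) (nat_lit 5) (nat_lit 6) (nat_lit 4) (nat_lit 4) (nat_lit 4) (nat_lit 327) (nat_lit 239) (nat_lit 154))))))))
noncomputable def xc91 : XT := (XT.nd (nat_lit 1248) (nat_lit 0) (nat_lit 0) (XT.nd (nat_lit 624) (nat_lit 0) (nat_lit 0) (XT.nd (nat_lit 312) (nat_lit 0) (nat_lit 0) (XT.nd (nat_lit 156) (nat_lit 76) (nat_lit 0) (XT.nd (nat_lit 78) (nat_lit 0) (nat_lit 0) (XT.lf (nat_lit 0) (nat_lit 64145373776) (nat_lit 152) (nat_lit 13897800007) (nat_lit 0) (nat_lit 37865325330) (nat_lit 4) (nat_lit 5) (nat_lit 6) (nat_lit 4) (nat_lit 4) (nat_lit 4) (nat_lit 328) (nat_lit 239) (nat_lit 153)) (XT.lf (nat_lit 0) (nat_lit 70033366042) (nat_lit 152) (nat_lit 7725581262) (nat_lit 0) (nat_lit 43734187561) (nat_lit 4) (nat_lit 5) (nat_lit 6) (nat_lit 4) (nat_lit 4) (nat_lit 4) (nat_lit 329) (nat_lit 239) (nat_lit 152))) (XT.nd (nat_lit 78) (nat_lit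 76) (nat_lit 0) (XT.lf (nat_lit 0) (nat_lit 76210298477) (nat_lit 152) (nat_lit 1254089649) (nat_lit 0) (nat_lit 49892900915) (nat_lit 4) (nat_lit 5) (nat_lit 6) (nat_lit 4) (nat_lit 4) (nat_lit 4) (nat_lit 330) (nat_lit 239) (nat_lit 151)) (XT.lf (nat_lit 0) (nat_lit 5714998796) (nat_lit 76) (nat_lit 77065106414) (nat_lit 76) (nat_lit 50730357346) (nat_lit 3) (nat_lit 4) (nat_lit 4) (nat_lit 5) (nat_lit 4) (nat_lit 4) (nat_lit 331) (nat_lit 239) (nat_lit 150)))) (XT.nd (nat_lit 156) (nat_lit 0) (nat_lit 0) (XT.nd (nat_lit 78) (nat_lit 0) (nat_lit 0) (XT.lf (nat_lit 0) (nat_lit 13067330868) (nat_lit 76) (nat_lit 76627221538) (nat_lit 76) (nat_lit 50275947227) (nat_lit 3) (nat_lit 4) (nat_lit 4) (nat_lit 5) (nat_lit 4) (nat_lit 4) (nat_lit 332) (nat_lit 239) (nat_lit 149)) (XT.lf (nat_lit 0) (nat_lit 20778946251) (nat_lit 76) (nat_lit 76170929533) (nat_lit 76) (nat_lit 49803916894)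 (nat_lit 3) (nat_lit 4) (nat_lit 4) (nat_lit 5) (nat_lit 4) (nat_lit 4) (nat_lit 333) (nat_lit 239) (nat_lit 148))) (XT.nd (nat_lit 78) (nat_lit 0) (nat_lit 0) (XT.lf (nat_lit 0) (nat_lit 28868205933) (nat_lit 76) (nat_lit 75695143988) (nat_lit 76) (nat_lit 49313142465) (nat_lit 3) (nat_lit 4) (nat_lit 4) (nat_lit 5) (nat_lit 4) (nat_lit 4) (nat_lit 334) (nat_lit 239) (nat_lit 147)) (XT.lf (nat_lit 0) (nat_lit 37354370058) (nat_lit 76) (nat_lit 75198732080) (nat_lit 76) (nat_lit 48802455431) (nat_lit 3) (nat_lit 4) (nat_lit 4) (nat_lit 5) (nat_lit 4) (nat_lit 4) (nat_lit 335) (nat_lit 239) (nat_lit 146))))) (XT.nd (nat_lit 312) (nat_lit 0) (nat_lit 0) (XT.nd (nat_lit 156) (nat_lit 0) (nat_lit 0) (XT.nd (nat_lit 78) (nat_lit 0) (nat_lit 0) (XT.lf (nat_lit 0) (nat_lit 46257643777) (nat_lit 76) (nat_lit 74680511876) (nat_lit 76) (nat_lit 48270639868) (nat_lit 3) (nat_lit 4) (nat_lit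 4) (nat_lit 5) (nat_lit 4) (nat_lit 4) (nat_lit 336) (nat_lit 239) (nat_lit 145)) (XT.lf (nat_lit 0) (nat_lit 55599225362) (nat_lit 76) (nat_lit 74139249519) (nat_lit 76) (nat_lit 47716429550) (nat_lit 3) (nat_lit 4) (nat_lit 4) (nat_lit 5) (nat_lit 4) (nat_lit 4) (nat_lit 337) (nat_lit 239) (nat_lit 144))) (XT.nd (nat_lit 78) (nat_lit 0) (nat_lit 0) (XT.lf (nat_lit 0) (nat_lit 65401356673) (nat_lit 76) (nat_lit 73573656289) (nat_lit 76) (nat_lit 47138504929) (nat_lit 3) (nat_lit 4) (nat_lit 4) (nat_lit 5) (nat_lit 4) (nat_lit 4) (nat_lit 338) (nat_lit 239) (nat_lit 143)) (XT.lf (nat_lit 0) (nat_lit 75687376118) (nat_lit 76) (nat_lit 72982385535) (nat_lit 76) (nat_lit 46535489993) (nat_lit 3) (nat_lit 4) (nat_lit 4) (nat_lit 5) (nat_lit 4) (nat_lit 4) (nat_lit 339) (nat_lit 239) (nat_lit 142)))) (XT.nd (nat_lit 156) (nat_lit 0) (nat_lit 0) (XT.nd (nat_lit 78) (nat_lit 0) (nat_lit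 0) (XT.lf (nat_lit 0) (nat_lit 86481774219) (nat_lit 76) (nat_lit 72364029470) (nat_lit 76) (nat_lit 45905948993) (nat_lit 3) (nat_lit 4) (nat_lit 4) (nat_lit 5) (nat_lit 4) (nat_lit 4) (nat_lit 340) (nat_lit 239) (nat_lit 141)) (XT.lf (nat_lit 0) (nat_lit 97810251926) (nat_lit 76) (nat_lit 71717115818) (nat_lit 76) (nat_lit 45248383020) (nat_lit 3) (nat_lit 4) (nat_lit 4) (nat_lit 5) (nat_lit 4) (nat_lit 4) (nat_lit 341) (nat_lit 239) (nat_lit 140))) (XT.nd (nat_lit 78) (nat_lit 0) (nat_lit 0) (XT.lf (nat_lit 0) (nat_lit 109699781802) (nat_lit 76) (nat_lit 71040104307) (nat_lit 76) (nat_lit 44561226443) (nat_lit 3) (nat_lit 4) (nat_lit 4) (nat_lit 5) (nat_lit 4) (nat_lit 4) (nat_lit 342) (nat_lit 239) (nat_lit 139)) (XT.lf (nat_lit 0) (nat_lit 122178672254) (nat_lit 76) (nat_lit 70331383006) (nat_lit 76) (nat_lit 43842843174) (nat_lit 3) (nat_lit 4) (nat_lit 4) (nat_lit 5) (nat_lit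 4) (nat_lit 4) (nat_lit 343) (nat_lit 239) (nat_lit 138)))))) (XT.nd (nat_lit 624) (nat_lit 0) (nat_lit 0) (XT.nd (nat_lit 312) (nat_lit 0) (nat_lit 0) (XT.nd (nat_lit 156) (nat_lit 0) (nat_lit 0) (XT.nd (nat_lit 78) (nat_lit 0) (nat_lit 0) (XT.lf (nat_lit 0) (nat_lit 135276634925) (nat_lit 76) (nat_lit 69589264482) (nat_lit 76) (nat_lit 43091522777) (nat_lit 3) (nat_lit 4) (nat_lit 4) (nat_lit 5) (nat_lit 4) (nat_lit 4) (nat_lit 344) (nat_lit 239) (nat_lit 137)) (XT.lf (nat_lit 0) (nat_lit 149024855439) (nat_lit 76) (nat_lit 68811981788) (nat_lit 76) (nat_lit 42305476393) (nat_lit 3) (nat_lit 4) (nat_lit 4) (nat_lit 5) (nat_lit 4) (nat_lit 4) (nat_lit 345) (nat_lit 239) (nat_lit 136))) (XT.nd (nat_lit 78) (nat_lit 0) (nat_lit 0) (XT.lf (nat_lit 0) (nat_lit 163456067657) (nat_lit 76) (nat_lit 67997684250) (nat_lit 76) (nat_lit 41482832484) (nat_lit 3) (nat_lit 4) (nat_lit 4) (nat_lit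 5) (nat_lit 4) (nat_lit 4) (nat_lit 346) (nat_lit 239) (nat_lit 135)) (XT.lf (nat_lit 0) (nat_lit 178604631606) (nat_lit 76) (nat_lit 67144433064) (nat_lit 76) (nat_lit 40621632374) (nat_lit 3) (nat_lit 4) (nat_lit 4) (nat_lit 5) (nat_lit 4) (nat_lit 4) (nat_lit 347) (nat_lit 239) (nat_lit 134)))) (XT.nd (nat_lit 156) (nat_lit 0) (nat_lit 0) (XT.nd (nat_lit 78) (nat_lit 0) (nat_lit 0) (XT.lf (nat_lit 0) (nat_lit 194506615297) (nat_lit 76) (nat_lit 66250196680) (nat_lit 76) (nat_lit 39719825585) (nat_lit 3) (nat_lit 4) (nat_lit 4) (nat_lit 5) (nat_lit 4) (nat_lit 4) (nat_lit 348) (nat_lit 239) (nat_lit 133)) (XT.lf (nat_lit 0) (nat_lit 211199880594) (nat_lit 76) (nat_lit 65312845964) (nat_lit 76) (nat_lit 38775264960) (nat_lit 3) (nat_lit 4) (nat_lit 4) (nat_lit 5) (nat_lit 4) (nat_lit 4) (nat_lit 349) (nat_lit 239) (nat_lit 132))) (XT.nd (nat_lit 78) (nat_lit 0) (nat_lit 0) (XT.lf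 (nat_lit 0) (nat_lit 228724173369) (nat_lit 76) (nat_lit 64330149128) (nat_lit 76) (nat_lit 37785701544) (nat_lit 3) (nat_lit 4) (nat_lit 4) (nat_lit 5) (nat_lit 4) (nat_lit 4) (nat_lit 350) (nat_lit 239) (nat_lit 131)) (XT.lf (nat_lit 0) (nat_lit 247121218126) (nat_lit 76) (nat_lit 63299766418) (nat_lit 76) (nat_lit 36748779233) (nat_lit 3) (nat_lit 4) (nat_lit 4) (nat_lit 5) (nat_lit 4) (nat_lit 4) (nat_lit 351) (nat_lit 239) (nat_lit 130))))) (XT.nd (nat_lit 312) (nat_lit 0) (nat_lit 0) (XT.nd (nat_lit 156) (nat_lit 0) (nat_lit 0) (XT.nd (nat_lit 78) (nat_lit 0) (nat_lit 0) (XT.lf (nat_lit 0) (nat_lit 266434817355) (nat_lit 76) (nat_lit 62219244541) (nat_lit 76) (nat_lit 35662029166) (nat_lit 3) (nat_lit 4) (nat_lit 4) (nat_lit 5) (nat_lit 4) (nat_lit 4) (nat_lit 352) (nat_lit 239) (nat_lit 129)) (XT.lf (nat_lit 0) (nat_lit 286710955815) (nat_lit 76) (nat_lit 61086010828) (nat_lit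 76) (nat_lit 34522863842) (nat_lit 3) (nat_lit 4) (nat_lit 4) (nat_lit 5) (nat_lit 4) (nat_lit 4) (nat_lit 353) (nat_lit 239) (nat_lit 128))) (XT.nd (nat_lit 78) (nat_lit 0) (nat_lit 0) (XT.lf (nat_lit 0) (nat_lit 307997910026) (nat_lit 76) (nat_lit 59897367101) (nat_lit 76) (nat_lit 33328570963) (nat_lit 3) (nat_lit 4) (nat_lit 4) (nat_lit 5) (nat_lit 4) (nat_lit 4) (nat_lit 354) (nat_lit 239) (nat_lit 127)) (XT.lf (nat_lit 0) (nat_lit 330346363212) (nat_lit 76) (nat_lit 58650483257) (nat_lit 76) (nat_lit 32076306974) (nat_lit 3) (nat_lit 4) (nat_lit 4) (nat_lit 5) (nat_lit 4) (nat_lit 4) (nat_lit 355) (nat_lit 239) (nat_lit 126)))) (XT.nd (nat_lit 28548) (nat_lit 0) (nat_lit 7144) (XT.nd (nat_lit 28470) (nat_lit 0) (nat_lit 7220) (XT.lf (nat_lit 0) (nat_lit 353809525977) (nat_lit 76) (nat_lit 57342390525) (nat_lit 76) (nat_lit 30763090294) (nat_lit 3) (nat_lit 4) (nat_lit 4) (nat_lit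 5) (nat_lit 4) (nat_lit 4) (nat_lit 356) (nat_lit 239) (nat_lit 125)) (XT.lf (nat_lit 0) (nat_lit 1073741823) (nat_lit 0) (nat_lit 0) (nat_lit 0) (nat_lit 0) (nat_lit 98) (nat_lit 0) (nat_lit 1) (nat_lit 0) (nat_lit 1) (nat_lit 0) (nat_lit 240) (nat_lit 240) (nat_lit 240))) (XT.nd (nat_lit 78) (nat_lit 0) (nat_lit 0) (XT.lf (nat_lit 0) (nat_lit 2600165154) (nat_lit 76) (nat_lit 3760726674) (nat_lit 0) (nat_lit 84541452) (nat_lit 97) (nat_lit 5) (nat_lit 98) (nat_lit 0) (nat_lit 97) (nat_lit 4) (nat_lit 241) (nat_lit 240) (nat_lit 239)) (XT.lf (nat_lit 0) (nat_lit 5165281444) (nat_lit 76) (nat_lit 1039507373) (nat_lit 0) (nat_lit 253825646) (nat_lit 97) (nat_lit 5) (nat_lit 98) (nat_lit 0) (nat_lit 97) (nat_lit 4) (nat_lit 242) (nat_lit 240) (nat_lit 238)))))))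
noncomputable def xc92 : XT := (XT.nd (nat_lit 1248) (nat_lit 2432) (nat_lit 0) (XT.nd (nat_lit 624) (nat_lit 2128) (nat_lit 0) (XT.nd (nat_lit 312) (nat_lit 608) (nat_lit 0) (XT.nd (nat_lit 156) (nat_lit 228) (nat_lit 0) (XT.nd (nat_lit 78) (nat_lit 0) (nat_lit 0) (XT.lf (nat_lit 0) (nat_lit 1208723746) (nat_lit 152) (nat_lit 4715316972) (nat_lit 76) (nat_lit 555617087) (nat_lit 95) (nat_lit 5) (nat_lit 97) (nat_lit 5) (nat_lit 96) (nat_lit 4) (nat_lit 243) (nat_lit 240) (nat_lit 237)) (XT.lf (nat_lit 0) (nat_lit 3655161914) (nat_lit 152) (nat_lit 1873209065) (nat_lit 76) (nat_lit 980737282) (nat_lit 95) (nat_lit 5) (nat_lit 97) (nat_lit 5) (nat_lit 96) (nat_lit 4) (nat_lit 244) (nat_lit 240) (nat_lit 236))) (XT.nd (nat_lit 78) (nat_lit 76) (nat_lit 0) (XT.lf (nat_lit 0) (nat_lit 1053960411) (nat_lit 152) (nat_lit 5038654831) (nat_lit 228) (nat_lit 455459628) (nat_lit 93) (nat_lit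 5) (nat_lit 95) (nat_lit 5) (nat_lit 96) (nat_lit 4) (nat_lit 245) (nat_lit 240) (nat_lit 235)) (XT.lf (nat_lit 0) (nat_lit 1883355021) (nat_lit 228) (nat_lit 2523085268) (nat_lit 76) (nat_lit 2187958407) (nat_lit 92) (nat_lit 5) (nat_lit 95) (nat_lit 5) (nat_lit 93) (nat_lit 5) (nat_lit 246) (nat_lit 240) (nat_lit 234)))) (XT.nd (nat_lit 156) (nat_lit 380) (nat_lit 0) (XT.nd (nat_lit 78) (nat_lit 0) (nat_lit 0) (XT.lf (nat_lit 0) (nat_lit 514569626) (nat_lit 228) (nat_lit 3678398850) (nat_lit 304) (nat_lit 2457515688) (nat_lit 89) (nat_lit 5) (nat_lit 92) (nat_lit 5) (nat_lit 93) (nat_lit 5) (nat_lit 247) (nat_lit 240) (nat_lit 233)) (XT.lf (nat_lit 0) (nat_lit 3702241032) (nat_lit 228) (nat_lit 2824897945) (nat_lit 304) (nat_lit 187997305) (nat_lit 89) (nat_lit 5) (nat_lit 92) (nat_lit 5) (nat_lit 93) (nat_lit 5) (nat_lit 248) (nat_lit 240) (nat_lit 232))) (XT.nd (nat_lit 78) (nat_lit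 0) (nat_lit 0) (XT.lf (nat_lit 0) (nat_lit 146059878) (nat_lit 304) (nat_lit 1850467145) (nat_lit 380) (nat_lit 4792294425) (nat_lit 84) (nat_lit 5) (nat_lit 88) (nat_lit 5) (nat_lit 89) (nat_lit 5) (nat_lit 249) (nat_lit 240) (nat_lit 231)) (XT.lf (nat_lit 0) (nat_lit 3475221575) (nat_lit 304) (nat_lit 734038537) (nat_lit 380) (nat_lit 2661562232) (nat_lit 84) (nat_lit 5) (nat_lit 88) (nat_lit 5) (nat_lit 89) (nat_lit 5) (nat_lit 250) (nat_lit 240) (nat_lit 230))))) (XT.nd (nat_lit 312) (nat_lit 1216) (nat_lit 0) (XT.nd (nat_lit 156) (nat_lit 456) (nat_lit 0) (XT.nd (nat_lit 78) (nat_lit 456) (nat_lit 0) (XT.lf (nat_lit 0) (nat_lit 6420324404) (nat_lit 380) (nat_lit 85364340) (nat_lit 76) (nat_lit 457850383) (nat_lit 84) (nat_lit 5) (nat_lit 89) (nat_lit 5) (nat_lit 85) (nat_lit 5) (nat_lit 251) (nat_lit 240) (nat_lit 229)) (XT.lf (nat_lit 0) (nat_lit 1577160149) (nat_lit 456) (nat_lit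 3690596966) (nat_lit 76) (nat_lit 1795234177) (nat_lit 78) (nat_lit 5) (nat_lit 84) (nat_lit 5) (nat_lit 79) (nat_lit 5) (nat_lit 252) (nat_lit 240) (nat_lit 228))) (XT.nd (nat_lit 78) (nat_lit 456) (nat_lit 0) (XT.lf (nat_lit 0) (nat_lit 3674672919) (nat_lit 456) (nat_lit 261457520) (nat_lit 76) (nat_lit 3237235958) (nat_lit 78) (nat_lit 5) (nat_lit 84) (nat_lit 5) (nat_lit 79) (nat_lit 5) (nat_lit 253) (nat_lit 240) (nat_lit 227)) (XT.lf (nat_lit 0) (nat_lit 3359827243) (nat_lit 456) (nat_lit 2462933587) (nat_lit 532) (nat_lit 1470037622) (nat_lit 72) (nat_lit 5) (nat_lit 78) (nat_lit 5) (nat_lit 79) (nat_lit 5) (nat_lit 254) (nat_lit 240) (nat_lit 226)))) (XT.nd (nat_lit 156) (nat_lit 608) (nat_lit 0) (XT.nd (nat_lit 78) (nat_lit 532) (nat_lit 0) (XT.lf (nat_lit 0) (nat_lit 537971035) (nat_lit 532) (nat_lit 346784886) (nat_lit 76) (nat_lit 6538725276) (nat_lit 71) (nat_lit 5) (nat_lit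 78) (nat_lit 5) (nat_lit 72) (nat_lit 5) (nat_lit 255) (nat_lit 240) (nat_lit 225)) (XT.lf (nat_lit 0) (nat_lit 2563481233) (nat_lit 608) (nat_lit 4157500396) (nat_lit 76) (nat_lit 840897385) (nat_lit 64) (nat_lit 5) (nat_lit 72) (nat_lit 5) (nat_lit 65) (nat_lit 5) (nat_lit 256) (nat_lit 240) (nat_lit 224))) (XT.nd (nat_lit 78) (nat_lit 608) (nat_lit 0) (XT.lf (nat_lit 0) (nat_lit 4613979744) (nat_lit 608) (nat_lit 456122655) (nat_lit 76) (nat_lit 2641585905) (nat_lit 64) (nat_lit 5) (nat_lit 72) (nat_lit 5) (nat_lit 65) (nat_lit 5) (nat_lit 257) (nat_lit 240) (nat_lit 223)) (XT.lf (nat_lit 0) (nat_lit 3455434705) (nat_lit 608) (nat_lit 3273364505) (nat_lit 684) (nat_lit 1142744022) (nat_lit 56) (nat_lit 5) (nat_lit 64) (nat_lit 5) (nat_lit 65) (nat_lit 5) (nat_lit 258) (nat_lit 240) (nat_lit 222)))))) (XT.nd (nat_lit 624) (nat_lit 988) (nat_lit 0) (XT.nd (nat_lit 312) (nat_lit 608)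 (nat_lit 0) (XT.nd (nat_lit 156) (nat_lit 304) (nat_lit 0) (XT.nd (nat_lit 78) (nat_lit 456) (nat_lit 0) (XT.lf (nat_lit 0) (nat_lit 797562574) (nat_lit 684) (nat_lit 562637230) (nat_lit 76) (nat_lit 6683229829) (nat_lit 55) (nat_lit 5) (nat_lit 64) (nat_lit 5) (nat_lit 56) (nat_lit 5) (nat_lit 259) (nat_lit 240) (nat_lit 221)) (XT.lf (nat_lit 0) (nat_lit 2775602866) (nat_lit 532) (nat_lit 4743477081) (nat_lit 76) (nat_lit 705494782) (nat_lit 49) (nat_lit 5) (nat_lit 56) (nat_lit 5) (nat_lit 50) (nat_lit 5) (nat_lit 260) (nat_lit 240) (nat_lit 220))) (XT.nd (nat_lit 78) (nat_lit 304) (nat_lit 0) (XT.lf (nat_lit 0) (nat_lit 4800612602) (nat_lit 532) (nat_lit 777138376) (nat_lit 76) (nat_lit 2840153352) (nat_lit 49) (nat_lit 5) (nat_lit 56) (nat_lit 5) (nat_lit 50) (nat_lit 5) (nat_lit 261) (nat_lit 240) (nat_lit 219)) (XT.lf (nat_lit 0) (nat_lit 3413990148) (nat_lit 304) (nat_lit 3486264948)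 (nat_lit 380) (nat_lit 1722481555) (nat_lit 45) (nat_lit 5) (nat_lit 49) (nat_lit 5) (nat_lit 50) (nat_lit 5) (nat_lit 262) (nat_lit 240) (nat_lit 218)))) (XT.nd (nat_lit 156) (nat_lit 228) (nat_lit 0) (XT.nd (nat_lit 78) (nat_lit 304) (nat_lit 0) (XT.lf (nat_lit 0) (nat_lit 192777899) (nat_lit 380) (nat_lit 1084417540) (nat_lit 76) (nat_lit 7564152204) (nat_lit 44) (nat_lit 5) (nat_lit 49) (nat_lit 5) (nat_lit 45) (nat_lit 5) (nat_lit 263) (nat_lit 240) (nat_lit 217)) (XT.lf (nat_lit 0) (nat_lit 2138649487) (nat_lit 380) (nat_lit 5847520165) (nat_lit 76) (nat_lit 1084107413) (nat_lit 40) (nat_lit 5) (nat_lit 45) (nat_lit 5) (nat_lit 41) (nat_lit 5) (nat_lit 264) (nat_lit 240) (nat_lit 216))) (XT.nd (nat_lit 78) (nat_lit 228) (nat_lit 0) (XT.lf (nat_lit 0) (nat_lit 4148320365) (nat_lit 380) (nat_lit 1631214787) (nat_lit 76) (nat_lit 3533208278) (nat_lit 40) (nat_lit 5) (nat_lit 45)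 (nat_lit 5) (nat_lit 41) (nat_lit 5) (nat_lit 265) (nat_lit 240) (nat_lit 215)) (XT.lf (nat_lit 0) (nat_lit 2806512766) (nat_lit 228) (nat_lit 3426162289) (nat_lit 304) (nat_lit 3336344003) (nat_lit 37) (nat_lit 5) (nat_lit 40) (nat_lit 5) (nat_lit 41) (nat_lit 5) (nat_lit 266) (nat_lit 240) (nat_lit 214))))) (XT.nd (nat_lit 312) (nat_lit 456) (nat_lit 0) (XT.nd (nat_lit 156) (nat_lit 228) (nat_lit 0) (XT.nd (nat_lit 78) (nat_lit 304) (nat_lit 0) (XT.lf (nat_lit 0) (nat_lit 7444817491) (nat_lit 228) (nat_lit 936536366) (nat_lit 304) (nat_lit 1459126394) (nat_lit 37) (nat_lit 5) (nat_lit 40) (nat_lit 5) (nat_lit 41) (nat_lit 5) (nat_lit 267) (nat_lit 240) (nat_lit 213)) (XT.lf (nat_lit 0) (nat_lit 490515726) (nat_lit 304) (nat_lit 7979372294) (nat_lit 76) (nat_lit 1655821412) (nat_lit 33) (nat_lit 5) (nat_lit 37) (nat_lit 5) (nat_lit 34) (nat_lit 5) (nat_lit 268) (nat_lit 240) (nat_lit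 212))) (XT.nd (nat_lit 78) (nat_lit 228) (nat_lit 0) (XT.lf (nat_lit 0) (nat_lit 2481254464) (nat_lit 304) (nat_lit 3543337366) (nat_lit 76) (nat_lit 4400105458) (nat_lit 33) (nat_lit 5) (nat_lit 37) (nat_lit 5) (nat_lit 34) (nat_lit 5) (nat_lit 269) (nat_lit 240) (nat_lit 211)) (XT.lf (nat_lit 0) (nat_lit 1073784604) (nat_lit 228) (nat_lit 3453615895) (nat_lit 304) (nat_lit 6213750762) (nat_lit 30) (nat_lit 5) (nat_lit 33) (nat_lit 5) (nat_lit 34) (nat_lit 5) (nat_lit 270) (nat_lit 240) (nat_lit 210)))) (XT.nd (nat_lit 156) (nat_lit 456) (nat_lit 0) (XT.nd (nat_lit 78) (nat_lit 0) (nat_lit 0) (XT.lf (nat_lit 0) (nat_lit 5970907836) (nat_lit 228) (nat_lit 705806099) (nat_lit 304) (nat_lit 4396966462) (nat_lit 30) (nat_lit 5) (nat_lit 33) (nat_lit 5) (nat_lit 34) (nat_lit 5) (nat_lit 271) (nat_lit 240) (nat_lit 209)) (XT.lf (nat_lit 0) (nat_lit 8910969107) (nat_lit 304) (nat_lit 417208076)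 (nat_lit 76) (nat_lit 2096066406) (nat_lit 30) (nat_lit 5) (nat_lit 34) (nat_lit 5) (nat_lit 31) (nat_lit 5) (nat_lit 272) (nat_lit 240) (nat_lit 208))) (XT.nd (nat_lit 78) (nat_lit 228) (nat_lit 0) (XT.lf (nat_lit 0) (nat_lit 4567507213) (nat_lit 228) (nat_lit 6718454490) (nat_lit 304) (nat_lit 505190002) (nat_lit 27) (nat_lit 5) (nat_lit 30) (nat_lit 5) (nat_lit 31) (nat_lit 5) (nat_lit 273) (nat_lit 240) (nat_lit 207)) (XT.nd (nat_lit 78) (nat_lit 152) (nat_lit 0) (XT.lf (nat_lit 0) (nat_lit 1505694851) (nat_lit 304) (nat_lit 2455888663) (nat_lit 76) (nat_lit 8216127613) (nat_lit 26) (nat_lit 5) (nat_lit 30) (nat_lit 5) (nat_lit 27) (nat_lit 5) (nat_lit 274) (nat_lit 240) (nat_lit 206)) (XT.lf (nat_lit 0) (nat_lit 2556529797) (nat_lit 152) (nat_lit 1032607496) (nat_lit 228) (nat_lit 8994829092) (nat_lit 24) (nat_lit 5) (nat_lit 26) (nat_lit 5) (nat_lit 27) (nat_lit 5) (nat_lit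 275) (nat_lit 240) (nat_lit 205))))))))
noncomputable def xc93 : XT := (XT.nd (nat_lit 1248) (nat_lit 380) (nat_lit 0) (XT.nd (nat_lit 624) (nat_lit 304) (nat_lit 0) (XT.nd (nat_lit 312) (nat_lit 380) (nat_lit 0) (XT.nd (nat_lit 156) (nat_lit 228) (nat_lit 0) (XT.nd (nat_lit 78) (nat_lit 0) (nat_lit 0) (XT.lf (nat_lit 0) (nat_lit 5801127554) (nat_lit 228) (nat_lit 5204819078) (nat_lit 76) (nat_lit 2003589475) (nat_lit 24) (nat_lit 5) (nat_lit 27) (nat_lit 5) (nat_lit 25) (nat_lit 5) (nat_lit 276) (nat_lit 240) (nat_lit 204)) (XT.lf (nat_lit 0) (nat_lit 8093224460) (nat_lit 228) (nat_lit 223351455) (nat_lit 76) (nat_lit 5141543028) (nat_lit 24) (nat_lit 5) (nat_lit 27) (nat_lit 5) (nat_lit 25) (nat_lit 5) (nat_lit 277) (nat_lit 240) (nat_lit 203))) (XT.nd (nat_lit 78) (nat_lit 0) (nat_lit 0) (XT.lf (nat_lit 0) (nat_lit 5108451153) (nat_lit 228) (nat_lit 5426069574) (nat_lit 304) (nat_lit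 3393080454) (nat_lit 21) (nat_lit 5) (nat_lit 24) (nat_lit 5) (nat_lit 25) (nat_lit 5) (nat_lit 278) (nat_lit 240) (nat_lit 202)) (XT.lf (nat_lit 0) (nat_lit 10653361299) (nat_lit 228) (nat_lit 2404334878) (nat_lit 304) (nat_lit 1365061098) (nat_lit 21) (nat_lit 5) (nat_lit 24) (nat_lit 5) (nat_lit 25) (nat_lit 5) (nat_lit 279) (nat_lit 240) (nat_lit 201)))) (XT.nd (nat_lit 156) (nat_lit 152) (nat_lit 0) (XT.nd (nat_lit 78) (nat_lit 0) (nat_lit 0) (XT.lf (nat_lit 0) (nat_lit 733035129) (nat_lit 228) (nat_lit 13446205137) (nat_lit 76) (nat_lit 763349964) (nat_lit 18) (nat_lit 5) (nat_lit 21) (nat_lit 5) (nat_lit 19) (nat_lit 5) (nat_lit 280) (nat_lit 240) (nat_lit 200)) (XT.lf (nat_lit 0) (nat_lit 2952567463) (nat_lit 228) (nat_lit 8452658362) (nat_lit 76) (nat_lit 4079114320) (nat_lit 18) (nat_lit 5) (nat_lit 21) (nat_lit 5) (nat_lit 19) (nat_lit 5) (nat_lit 281) (nat_lit 240) (nat_lit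 199))) (XT.nd (nat_lit 78) (nat_lit 152) (nat_lit 0) (XT.lf (nat_lit 0) (nat_lit 5243179203) (nat_lit 228) (nat_lit 3267449117) (nat_lit 76) (nat_lit 7544700791) (nat_lit 18) (nat_lit 5) (nat_lit 21) (nat_lit 5) (nat_lit 19) (nat_lit 5) (nat_lit 282) (nat_lit 240) (nat_lit 198)) (XT.lf (nat_lit 0) (nat_lit 2191923577) (nat_lit 152) (nat_lit 5452622677) (nat_lit 228) (nat_lit 9010659266) (nat_lit 16) (nat_lit 5) (nat_lit 18) (nat_lit 5) (nat_lit 19) (nat_lit 5) (nat_lit 283) (nat_lit 240) (nat_lit 197))))) (XT.nd (nat_lit 312) (nat_lit 228) (nat_lit 0) (XT.nd (nat_lit 156) (nat_lit 76) (nat_lit 0) (XT.nd (nat_lit 78) (nat_lit 0) (nat_lit 0) (XT.lf (nat_lit 0) (nat_lit 7983342271) (nat_lit 152) (nat_lit 2200938544) (nat_lit 228) (nat_lit 7100022104) (nat_lit 16) (nat_lit 5) (nat_lit 18) (nat_lit 5) (nat_lit 19) (nat_lit 5) (nat_lit 284) (nat_lit 240) (nat_lit 196)) (XT.lf (nat_lit 0)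 (nat_lit 12834414956) (nat_lit 228) (nat_lit 3952880640) (nat_lit 76) (nat_lit 1158524307) (nat_lit 16) (nat_lit 5) (nat_lit 19) (nat_lit 5) (nat_lit 17) (nat_lit 4) (nat_lit 285) (nat_lit 240) (nat_lit 195))) (XT.nd (nat_lit 78) (nat_lit 0) (nat_lit 0) (XT.lf (nat_lit 0) (nat_lit 1627750224) (nat_lit 76) (nat_lit 14016961588) (nat_lit 152) (nat_lit 2994447036) (nat_lit 15) (nat_lit 5) (nat_lit 16) (nat_lit 5) (nat_lit 17) (nat_lit 4) (nat_lit 286) (nat_lit 240) (nat_lit 194)) (XT.lf (nat_lit 0) (nat_lit 7574597856) (nat_lit 76) (nat_lit 11054860858) (nat_lit 152) (nat_lit 736132042) (nat_lit 15) (nat_lit 5) (nat_lit 16) (nat_lit 5) (nat_lit 17) (nat_lit 4) (nat_lit 287) (nat_lit 240) (nat_lit 193)))) (XT.nd (nat_lit 156) (nat_lit 152) (nat_lit 0) (XT.nd (nat_lit 78) (nat_lit 0) (nat_lit 0) (XT.lf (nat_lit 0) (nat_lit 1550699888) (nat_lit 152) (nat_lit 6383922990) (nat_lit 76) (nat_lit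 12194159588) (nat_lit 14) (nat_lit 5) (nat_lit 16) (nat_lit 5) (nat_lit 15) (nat_lit 5) (nat_lit 288) (nat_lit 240) (nat_lit 192)) (XT.lf (nat_lit 0) (nat_lit 3896596033) (nat_lit 152) (nat_lit 765079825) (nat_lit 76) (nat_lit 16269487499) (nat_lit 14) (nat_lit 5) (nat_lit 16) (nat_lit 5) (nat_lit 15) (nat_lit 5) (nat_lit 289) (nat_lit 240) (nat_lit 191))) (XT.nd (nat_lit 78) (nat_lit 0) (nat_lit 0) (XT.lf (nat_lit 0) (nat_lit 5258719749) (nat_lit 152) (nat_lit 1154086285) (nat_lit 228) (nat_lit 15358307313) (nat_lit 12) (nat_lit 5) (nat_lit 14) (nat_lit 5) (nat_lit 15) (nat_lit 5) (nat_lit 290) (nat_lit 240) (nat_lit 190)) (XT.lf (nat_lit 0) (nat_lit 9078861733) (nat_lit 228) (nat_lit 11126698160) (nat_lit 76) (nat_lit 2446395380) (nat_lit 12) (nat_lit 5) (nat_lit 15) (nat_lit 5) (nat_lit 13) (nat_lit 4) (nat_lit 291) (nat_lit 240) (nat_lit 189)))))) (XT.nd (nat_lit 624) (nat_lit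 76) (nat_lit 0) (XT.nd (nat_lit 312) (nat_lit 228) (nat_lit 0) (XT.nd (nat_lit 156) (nat_lit 0) (nat_lit 0) (XT.nd (nat_lit 78) (nat_lit 76) (nat_lit 0) (XT.lf (nat_lit 0) (nat_lit 11869885227) (nat_lit 228) (nat_lit 5533362124) (nat_lit 76) (nat_lit 6174100311) (nat_lit 12) (nat_lit 5) (nat_lit 15) (nat_lit 5) (nat_lit 13) (nat_lit 4) (nat_lit 292) (nat_lit 240) (nat_lit 188)) (XT.lf (nat_lit 0) (nat_lit 308835151) (nat_lit 76) (nat_lit 14470489919) (nat_lit 152) (nat_lit 9770828591) (nat_lit 11) (nat_lit 5) (nat_lit 12) (nat_lit 5) (nat_lit 13) (nat_lit 4) (nat_lit 293) (nat_lit 240) (nat_lit 187))) (XT.nd (nat_lit 78) (nat_lit 0) (nat_lit 0) (XT.lf (nat_lit 0) (nat_lit 6595214207) (nat_lit 76) (nat_lit 11307387247) (nat_lit 152) (nat_lit 7665663381) (nat_lit 11) (nat_lit 5) (nat_lit 12) (nat_lit 5) (nat_lit 13) (nat_lit 4) (nat_lit 294) (nat_lit 240) (nat_lit 186)) (XT.lf (nat_lit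 0) (nat_lit 13157784671) (nat_lit 76) (nat_lit 8000118300) (nat_lit 152) (nat_lit 5480664670) (nat_lit 11) (nat_lit 5) (nat_lit 12) (nat_lit 5) (nat_lit 13) (nat_lit 4) (nat_lit 295) (nat_lit 240) (nat_lit 185)))) (XT.nd (nat_lit 156) (nat_lit 228) (nat_lit 0) (XT.nd (nat_lit 78) (nat_lit 0) (nat_lit 0) (XT.lf (nat_lit 0) (nat_lit 20012171711) (nat_lit 76) (nat_lit 4540808630) (nat_lit 152) (nat_lit 3210630081) (nat_lit 11) (nat_lit 5) (nat_lit 12) (nat_lit 5) (nat_lit 13) (nat_lit 4) (nat_lit 296) (nat_lit 240) (nat_lit 184)) (XT.lf (nat_lit 0) (nat_lit 27174695296) (nat_lit 76) (nat_lit 921221785) (nat_lit 152) (nat_lit 850154769) (nat_lit 11) (nat_lit 5) (nat_lit 12) (nat_lit 5) (nat_lit 13) (nat_lit 4) (nat_lit 297) (nat_lit 240) (nat_lit 183))) (XT.nd (nat_lit 78) (nat_lit 0) (nat_lit 0) (XT.lf (nat_lit 0) (nat_lit 1673071564) (nat_lit 228) (nat_lit 25634627955) (nat_lit 76)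 (nat_lit 2873908567) (nat_lit 8) (nat_lit 5) (nat_lit 11) (nat_lit 5) (nat_lit 9) (nat_lit 4) (nat_lit 298) (nat_lit 240) (nat_lit 182)) (XT.lf (nat_lit 0) (nat_lit 4318522554) (nat_lit 228) (nat_lit 20298266280) (nat_lit 76) (nat_lit 6860265754) (nat_lit 8) (nat_lit 5) (nat_lit 11) (nat_lit 5) (nat_lit 9) (nat_lit 4) (nat_lit 299) (nat_lit 240) (nat_lit 181))))) (XT.nd (nat_lit 312) (nat_lit 0) (nat_lit 0) (XT.nd (nat_lit 156) (nat_lit 76) (nat_lit 0) (XT.nd (nat_lit 78) (nat_lit 0) (nat_lit 0) (XT.lf (nat_lit 0) (nat_lit 7076285343) (nat_lit 228) (nat_lit 14727531474) (nat_lit 76) (nat_lit 11034513694) (nat_lit 8) (nat_lit 5) (nat_lit 11) (nat_lit 5) (nat_lit 9) (nat_lit 4) (nat_lit 300) (nat_lit 240) (nat_lit 180)) (XT.lf (nat_lit 0) (nat_lit 9952926031) (nat_lit 228) (nat_lit 8909159883) (nat_lit 76) (nat_lit 15406591072) (nat_lit 8) (nat_lit 5) (nat_lit 11) (nat_lit 5) (nat_lit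 9) (nat_lit 4) (nat_lit 301) (nat_lit 240) (nat_lit 179))) (XT.nd (nat_lit 78) (nat_lit 76) (nat_lit 0) (XT.lf (nat_lit 0) (nat_lit 12955293763) (nat_lit 228) (nat_lit 2829298240) (nat_lit 76) (nat_lit 19986907595) (nat_lit 8) (nat_lit 5) (nat_lit 11) (nat_lit 5) (nat_lit 9) (nat_lit 4) (nat_lit 302) (nat_lit 240) (nat_lit 178)) (XT.lf (nat_lit 0) (nat_lit 3643132300) (nat_lit 76) (nat_lit 12504284239) (nat_lit 152) (nat_lit 21200115986) (nat_lit 7) (nat_lit 5) (nat_lit 8) (nat_lit 5) (nat_lit 9) (nat_lit 4) (nat_lit 303) (nat_lit 240) (nat_lit 177)))) (XT.nd (nat_lit 156) (nat_lit 0) (nat_lit 0) (XT.nd (nat_lit 78) (nat_lit 0) (nat_lit 0) (XT.lf (nat_lit 0) (nat_lit 10509836095) (nat_lit 76) (nat_lit 9020372610) (nat_lit 152) (nat_lit 19470653816) (nat_lit 7) (nat_lit 5) (nat_lit 8) (nat_lit 5) (nat_lit 9) (nat_lit 4) (nat_lit 304) (nat_lit 240) (nat_lit 176)) (XT.lf (nat_lit 0)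 (nat_lit 17693613062) (nat_lit 76) (nat_lit 5372477621) (nat_lit 152) (nat_lit 17671617095) (nat_lit 7) (nat_lit 5) (nat_lit 8) (nat_lit 5) (nat_lit 9) (nat_lit 4) (nat_lit 305) (nat_lit 240) (nat_lit 175))) (XT.nd (nat_lit 78) (nat_lit 0) (nat_lit 0) (XT.lf (nat_lit 0) (nat_lit 25211567432) (nat_lit 76) (nat_lit 1551913810) (nat_lit 152) (nat_lit 15798722401) (nat_lit 7) (nat_lit 5) (nat_lit 8) (nat_lit 5) (nat_lit 9) (nat_lit 4) (nat_lit 306) (nat_lit 240) (nat_lit 174)) (XT.lf (nat_lit 0) (nat_lit 30669441545) (nat_lit 152) (nat_lit 11435352910) (nat_lit 0) (nat_lit 2371986807) (nat_lit 7) (nat_lit 5) (nat_lit 9) (nat_lit 4) (nat_lit 7) (nat_lit 4) (nat_lit 307) (nat_lit 240) (nat_lit 173)))))))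
noncomputable def xc94 : XT := (XT.nd (nat_lit 1248) (nat_lit 76) (nat_lit 0) (XT.nd (nat_lit 624) (nat_lit 76) (nat_lit 0) (XT.nd (nat_lit 312) (nat_lit 76) (nat_lit 0) (XT.nd (nat_lit 156) (nat_lit 0) (nat_lit 0) (XT.nd (nat_lit 78) (nat_lit 76) (nat_lit 0) (XT.lf (nat_lit 0) (nat_lit 34782138923) (nat_lit 152) (nat_lit 5273028233) (nat_lit 0) (nat_lit 6431388623) (nat_lit 7) (nat_lit 5) (nat_lit 9) (nat_lit 4) (nat_lit 7) (nat_lit 4) (nat_lit 308) (nat_lit 240) (nat_lit 172)) (XT.lf (nat_lit 0) (nat_lit 1214098479) (nat_lit 76) (nat_lit 37891992793) (nat_lit 76) (nat_lit 9490484814) (nat_lit 6) (nat_lit 4) (nat_lit 7) (nat_lit 5) (nat_lit 7) (nat_lit 4) (nat_lit 309) (nat_lit 240) (nat_lit 171))) (XT.nd (nat_lit 78) (nat_lit 0) (nat_lit 0) (XT.lf (nat_lit 0) (nat_lit 8186833855) (nat_lit 76) (nat_lit 35535667709) (nat_lit 76) (nat_lit 7085819083) (nat_lit 6) (nat_lit 4) (nat_lit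 7) (nat_lit 5) (nat_lit 7) (nat_lit 4) (nat_lit 310) (nat_lit 240) (nat_lit 170)) (XT.lf (nat_lit 0) (nat_lit 15487429520) (nat_lit 76) (nat_lit 33069882890) (nat_lit 76) (nat_lit 4573995554) (nat_lit 6) (nat_lit 4) (nat_lit 7) (nat_lit 5) (nat_lit 7) (nat_lit 4) (nat_lit 311) (nat_lit 240) (nat_lit 169)))) (XT.nd (nat_lit 156) (nat_lit 0) (nat_lit 0) (XT.nd (nat_lit 78) (nat_lit 76) (nat_lit 0) (XT.lf (nat_lit 0) (nat_lit 23133267843) (nat_lit 76) (nat_lit 30488767421) (nat_lit 76) (nat_lit 1949033693) (nat_lit 6) (nat_lit 4) (nat_lit 7) (nat_lit 5) (nat_lit 7) (nat_lit 4) (nat_lit 312) (nat_lit 240) (nat_lit 168)) (XT.lf (nat_lit 0) (nat_lit 769861314) (nat_lit 152) (nat_lit 27003276499) (nat_lit 76) (nat_lit 30359653913) (nat_lit 5) (nat_lit 5) (nat_lit 7) (nat_lit 5) (nat_lit 6) (nat_lit 4) (nat_lit 313) (nat_lit 240) (nat_lit 167))) (XT.nd (nat_lit 78) (nat_lit 0) (nat_lit 0)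 (XT.lf (nat_lit 0) (nat_lit 3548267177) (nat_lit 152) (nat_lit 21347314451) (nat_lit 76) (nat_lit 35925996525) (nat_lit 5) (nat_lit 5) (nat_lit 7) (nat_lit 5) (nat_lit 6) (nat_lit 4) (nat_lit 314) (nat_lit 240) (nat_lit 166)) (XT.lf (nat_lit 0) (nat_lit 6455180394) (nat_lit 152) (nat_lit 15426018516) (nat_lit 76) (nat_lit 41764152691) (nat_lit 5) (nat_lit 5) (nat_lit 7) (nat_lit 5) (nat_lit 6) (nat_lit 4) (nat_lit 315) (nat_lit 240) (nat_lit 165))))) (XT.nd (nat_lit 312) (nat_lit 0) (nat_lit 0) (XT.nd (nat_lit 156) (nat_lit 76) (nat_lit 0) (XT.nd (nat_lit 78) (nat_lit 0) (nat_lit 0) (XT.lf (nat_lit 0) (nat_lit 9497522190) (nat_lit 152) (nat_lit 9225290370) (nat_lit 76) (nat_lit 47888022782) (nat_lit 5) (nat_lit 5) (nat_lit 7) (nat_lit 5) (nat_lit 6) (nat_lit 4) (nat_lit 316) (nat_lit 240) (nat_lit 164)) (XT.lf (nat_lit 0) (nat_lit 12682536234) (nat_lit 152) (nat_lit 2730366375) (nat_lit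 76) (nat_lit 54312187443) (nat_lit 5) (nat_lit 5) (nat_lit 7) (nat_lit 5) (nat_lit 6) (nat_lit 4) (nat_lit 317) (nat_lit 240) (nat_lit 163))) (XT.nd (nat_lit 78) (nat_lit 0) (nat_lit 0) (XT.lf (nat_lit 0) (nat_lit 4208929606) (nat_lit 76) (nat_lit 11874589473) (nat_lit 152) (nat_lit 56908725883) (nat_lit 4) (nat_lit 5) (nat_lit 5) (nat_lit 5) (nat_lit 6) (nat_lit 4) (nat_lit 318) (nat_lit 240) (nat_lit 162)) (XT.lf (nat_lit 0) (nat_lit 11575139623) (nat_lit 76) (nat_lit 8116853031) (nat_lit 152) (nat_lit 56728915143) (nat_lit 4) (nat_lit 5) (nat_lit 5) (nat_lit 5) (nat_lit 6) (nat_lit 4) (nat_lit 319) (nat_lit 240) (nat_lit 161)))) (XT.nd (nat_lit 156) (nat_lit 0) (nat_lit 0) (XT.nd (nat_lit 78) (nat_lit 0) (nat_lit 0) (XT.lf (nat_lit 0) (nat_lit 19295524027) (nat_lit 76) (nat_lit 4176986367) (nat_lit 152) (nat_lit 56548933552) (nat_lit 4) (nat_lit 5) (nat_lit 5) (nat_lit 5) (nat_lit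 6) (nat_lit 4) (nat_lit 320) (nat_lit 240) (nat_lit 160)) (XT.lf (nat_lit 0) (nat_lit 27388464686) (nat_lit 76) (nat_lit 45608847) (nat_lit 152) (nat_lit 56368352584) (nat_lit 4) (nat_lit 5) (nat_lit 5) (nat_lit 5) (nat_lit 6) (nat_lit 4) (nat_lit 321) (nat_lit 240) (nat_lit 159))) (XT.nd (nat_lit 78) (nat_lit 0) (nat_lit 0) (XT.lf (nat_lit 0) (nat_lit 31653048261) (nat_lit 152) (nat_lit 51966560037) (nat_lit 0) (nat_lit 4149901653) (nat_lit 4) (nat_lit 5) (nat_lit 6) (nat_lit 4) (nat_lit 4) (nat_lit 4) (nat_lit 322) (nat_lit 240) (nat_lit 158)) (XT.lf (nat_lit 0) (nat_lit 36076403233) (nat_lit 152) (nat_lit 47310050165) (nat_lit 0) (nat_lit 8548841314) (nat_lit 4) (nat_lit 5) (nat_lit 6) (nat_lit 4) (nat_lit 4) (nat_lit 4) (nat_lit 323) (nat_lit 240) (nat_lit 157)))))) (XT.nd (nat_lit 624) (nat_lit 76) (nat_lit 0) (XT.nd (nat_lit 312) (nat_lit 0) (nat_lit 0) (XT.nd (nat_lit 156)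 (nat_lit 0) (nat_lit 0) (XT.nd (nat_lit 78) (nat_lit 0) (nat_lit 0) (XT.lf (nat_lit 0) (nat_lit 40713958166) (nat_lit 152) (nat_lit 42432632806) (nat_lit 0) (nat_lit 13163143569) (nat_lit 4) (nat_lit 5) (nat_lit 6) (nat_lit 4) (nat_lit 4) (nat_lit 4) (nat_lit 324) (nat_lit 240) (nat_lit 156)) (XT.lf (nat_lit 0) (nat_lit 45576754857) (nat_lit 152) (nat_lit 37322695060) (nat_lit 0) (nat_lit 18003794853) (nat_lit 4) (nat_lit 5) (nat_lit 6) (nat_lit 4) (nat_lit 4) (nat_lit 4) (nat_lit 325) (nat_lit 240) (nat_lit 155))) (XT.nd (nat_lit 78) (nat_lit 0) (nat_lit 0) (XT.lf (nat_lit 0) (nat_lit 50676371393) (nat_lit 152) (nat_lit 31968070409) (nat_lit 0) (nat_lit 23082320525) (nat_lit 4) (nat_lit 5) (nat_lit 6) (nat_lit 4) (nat_lit 4) (nat_lit 4) (nat_lit 326) (nat_lit 240) (nat_lit 154)) (XT.lf (nat_lit 0) (nat_lit 56024949718) (nat_lit 152) (nat_lit 26356009748) (nat_lit 0) (nat_lit 28410812314)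 (nat_lit 4) (nat_lit 5) (nat_lit 6) (nat_lit 4) (nat_lit 4) (nat_lit 4) (nat_lit 327) (nat_lit 240) (nat_lit 153)))) (XT.nd (nat_lit 156) (nat_lit 0) (nat_lit 0) (XT.nd (nat_lit 78) (nat_lit 0) (nat_lit 0) (XT.lf (nat_lit 0) (nat_lit 61635224544) (nat_lit 152) (nat_lit 20473151025) (nat_lit 0) (nat_lit 34001957104) (nat_lit 4) (nat_lit 5) (nat_lit 6) (nat_lit 4) (nat_lit 4) (nat_lit 4) (nat_lit 328) (nat_lit 240) (nat_lit 152)) (XT.lf (nat_lit 0) (nat_lit 67520553666) (nat_lit 152) (nat_lit 14305487437) (nat_lit 0) (nat_lit 39869067145) (nat_lit 4) (nat_lit 5) (nat_lit 6) (nat_lit 4) (nat_lit 4) (nat_lit 4) (nat_lit 329) (nat_lit 240) (nat_lit 151))) (XT.nd (nat_lit 78) (nat_lit 0) (nat_lit 0) (XT.lf (nat_lit 0) (nat_lit 73694949774) (nat_lit 152) (nat_lit 7838334067) (nat_lit 0) (nat_lit 46026111747) (nat_lit 4) (nat_lit 5) (nat_lit 6) (nat_lit 4) (nat_lit 4) (nat_lit 4) (nat_lit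 330) (nat_lit 240) (nat_lit 150)) (XT.lf (nat_lit 0) (nat_lit 80173113810) (nat_lit 152) (nat_lit 1056292934) (nat_lit 0) (nat_lit 52487750539) (nat_lit 4) (nat_lit 5) (nat_lit 6) (nat_lit 4) (nat_lit 4) (nat_lit 4) (nat_lit 331) (nat_lit 240) (nat_lit 149))))) (XT.nd (nat_lit 312) (nat_lit 0) (nat_lit 0) (XT.nd (nat_lit 156) (nat_lit 0) (nat_lit 0) (XT.nd (nat_lit 78) (nat_lit 0) (nat_lit 0) (XT.lf (nat_lit 0) (nat_lit 6257048301) (nat_lit 76) (nat_lit 80811111732) (nat_lit 76) (nat_lit 53110010134) (nat_lit 3) (nat_lit 4) (nat_lit 4) (nat_lit 5) (nat_lit 4) (nat_lit 4) (nat_lit 332) (nat_lit 240) (nat_lit 148)) (XT.lf (nat_lit 0) (nat_lit 13964792236) (nat_lit 76) (nat_lit 80356439756) (nat_lit 76) (nat_lit 52640349275) (nat_lit 3) (nat_lit 4) (nat_lit 4) (nat_lit 5) (nat_lit 4) (nat_lit 4) (nat_lit 333) (nat_lit 240) (nat_lit 147))) (XT.nd (nat_lit 78) (nat_lit 0) (nat_lit 0) (XT.lf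 (nat_lit 0) (nat_lit 22050364825) (nat_lit 76) (nat_lit 79882197096) (nat_lit 76) (nat_lit 52151831488) (nat_lit 3) (nat_lit 4) (nat_lit 4) (nat_lit 5) (nat_lit 4) (nat_lit 4) (nat_lit 334) (nat_lit 240) (nat_lit 146)) (XT.lf (nat_lit 0) (nat_lit 30533017431) (nat_lit 76) (nat_lit 79387254603) (nat_lit 76) (nat_lit 51643293636) (nat_lit 3) (nat_lit 4) (nat_lit 4) (nat_lit 5) (nat_lit 4) (nat_lit 4) (nat_lit 335) (nat_lit 240) (nat_lit 145)))) (XT.nd (nat_lit 156) (nat_lit 0) (nat_lit 0) (XT.nd (nat_lit 78) (nat_lit 0) (nat_lit 0) (XT.lf (nat_lit 0) (nat_lit 39432946848) (nat_lit 76) (nat_lit 78870433842) (nat_lit 76) (nat_lit 51113524914) (nat_lit 3) (nat_lit 4) (nat_lit 4) (nat_lit 5) (nat_lit 4) (nat_lit 4) (nat_lit 336) (nat_lit 240) (nat_lit 144)) (XT.lf (nat_lit 0) (nat_lit 48771343382) (nat_lit 76) (nat_lit 78330504287) (nat_lit 76) (nat_lit 50561263968) (nat_lit 3) (nat_lit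 4) (nat_lit 4) (nat_lit 5) (nat_lit 4) (nat_lit 4) (nat_lit 337) (nat_lit 240) (nat_lit 143))) (XT.nd (nat_lit 78) (nat_lit 0) (nat_lit 0) (XT.lf (nat_lit 0) (nat_lit 58570441312) (nat_lit 76) (nat_lit 77766180393) (nat_lit 76) (nat_lit 49985195891) (nat_lit 3) (nat_lit 4) (nat_lit 4) (nat_lit 5) (nat_lit 4) (nat_lit 4) (nat_lit 338) (nat_lit 240) (nat_lit 142)) (XT.nd (nat_lit 78) (nat_lit 0) (nat_lit 0) (XT.lf (nat_lit 0) (nat_lit 68853571822) (nat_lit 76) (nat_lit 77176118530) (nat_lit 76) (nat_lit 49383949093) (nat_lit 3) (nat_lit 4) (nat_lit 4) (nat_lit 5) (nat_lit 4) (nat_lit 4) (nat_lit 339) (nat_lit 240) (nat_lit 141)) (XT.lf (nat_lit 0) (nat_lit 79645218558) (nat_lit 76) (nat_lit 76558913789) (nat_lit 76) (nat_lit 48756092033) (nat_lit 3) (nat_lit 4) (nat_lit 4) (nat_lit 5) (nat_lit 4) (nat_lit 4) (nat_lit 340) (nat_lit 240) (nat_lit 140))))))))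
noncomputable def xc95 : XT := (XT.nd (nat_lit 30966) (nat_lit 0) (nat_lit 836) (XT.nd (nat_lit 29718) (nat_lit 0) (nat_lit 4636) (XT.nd (nat_lit 624) (nat_lit 0) (nat_lit 0) (XT.nd (nat_lit 312) (nat_lit 0) (nat_lit 0) (XT.nd (nat_lit 156) (nat_lit 0) (nat_lit 0) (XT.nd (nat_lit 78) (nat_lit 0) (nat_lit 0) (XT.lf (nat_lit 0) (nat_lit 90971075915) (nat_lit 76) (nat_lit 75913096636) (nat_lit 76) (nat_lit 48100129814) (nat_lit 3) (nat_lit 4) (nat_lit 4) (nat_lit 5) (nat_lit 4) (nat_lit 4) (nat_lit 341) (nat_lit 240) (nat_lit 139)) (XT.lf (nat_lit 0) (nat_lit 102858110222) (nat_lit 76) (nat_lit 75237129411) (nat_lit 76) (nat_lit 47414500621) (nat_lit 3) (nat_lit 4) (nat_lit 4) (nat_lit 5) (nat_lit 4) (nat_lit 4) (nat_lit 342) (nat_lit 240) (nat_lit 138))) (XT.nd (nat_lit 78) (nat_lit 0) (nat_lit 0) (XT.lf (nat_lit 0) (nat_lit 115334623940) (nat_lit 76) (nat_lit 74529402667) (nat_lit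 76) (nat_lit 46697572003) (nat_lit 3) (nat_lit 4) (nat_lit 4) (nat_lit 5) (nat_lit 4) (nat_lit 4) (nat_lit 343) (nat_lit 240) (nat_lit 137)) (XT.lf (nat_lit 0) (nat_lit 128430323055) (nat_lit 76) (nat_lit 73788231342) (nat_lit 76) (nat_lit 45947636988) (nat_lit 3) (nat_lit 4) (nat_lit 4) (nat_lit 5) (nat_lit 4) (nat_lit 4) (nat_lit 344) (nat_lit 240) (nat_lit 136)))) (XT.nd (nat_lit 156) (nat_lit 0) (nat_lit 0) (XT.nd (nat_lit 78) (nat_lit 0) (nat_lit 0) (XT.lf (nat_lit 0) (nat_lit 142176387803) (nat_lit 76) (nat_lit 73011850741) (nat_lit 76) (nat_lit 45162910015) (nat_lit 3) (nat_lit 4) (nat_lit 4) (nat_lit 5) (nat_lit 4) (nat_lit 4) (nat_lit 345) (nat_lit 240) (nat_lit 135)) (XT.lf (nat_lit 0) (nat_lit 156605546908) (nat_lit 76) (nat_lit 72198412339) (nat_lit 76) (nat_lit 44341522689) (nat_lit 3) (nat_lit 4) (nat_lit 4) (nat_lit 5) (nat_lit 4) (nat_lit 4) (nat_lit 346) (nat_lit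 240) (nat_lit 134))) (XT.nd (nat_lit 78) (nat_lit 0) (nat_lit 0) (XT.lf (nat_lit 0) (nat_lit 171752155513) (nat_lit 76) (nat_lit 71345979378) (nat_lit 76) (nat_lit 43481519323) (nat_lit 3) (nat_lit 4) (nat_lit 4) (nat_lit 5) (nat_lit 4) (nat_lit 4) (nat_lit 347) (nat_lit 240) (nat_lit 133)) (XT.lf (nat_lit 0) (nat_lit 187652276971) (nat_lit 76) (nat_lit 70452522256) (nat_lit 76) (nat_lit 42580852292) (nat_lit 3) (nat_lit 4) (nat_lit 4) (nat_lit 5) (nat_lit 4) (nat_lit 4) (nat_lit 348) (nat_lit 240) (nat_lit 132))))) (XT.nd (nat_lit 312) (nat_lit 0) (nat_lit 0) (XT.nd (nat_lit 156) (nat_lit 0) (nat_lit 0) (XT.nd (nat_lit 78) (nat_lit 0) (nat_lit 0) (XT.lf (nat_lit 0) (nat_lit 204343768713) (nat_lit 76) (nat_lit 69515913694) (nat_lit 76) (nat_lit 41637377150) (nat_lit 3) (nat_lit 4) (nat_lit 4) (nat_lit 5) (nat_lit 4) (nat_lit 4) (nat_lit 349) (nat_lit 240) (nat_lit 131)) (XT.lf (nat_lit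 0) (nat_lit 221866372387) (nat_lit 76) (nat_lit 68533923671) (nat_lit 76) (nat_lit 40648847527) (nat_lit 3) (nat_lit 4) (nat_lit 4) (nat_lit 5) (nat_lit 4) (nat_lit 4) (nat_lit 350) (nat_lit 240) (nat_lit 130))) (XT.nd (nat_lit 78) (nat_lit 0) (nat_lit 0) (XT.lf (nat_lit 0) (nat_lit 240261808478) (nat_lit 76) (nat_lit 67504214117) (nat_lit 76) (nat_lit 39612909782) (nat_lit 3) (nat_lit 4) (nat_lit 4) (nat_lit 5) (nat_lit 4) (nat_lit 4) (nat_lit 351) (nat_lit 240) (nat_lit 129)) (XT.lf (nat_lit 0) (nat_lit 259573875643) (nat_lit 76) (nat_lit 66424333341) (nat_lit 76) (nat_lit 38527097397) (nat_lit 3) (nat_lit 4) (nat_lit 4) (nat_lit 5) (nat_lit 4) (nat_lit 4) (nat_lit 352) (nat_lit 240) (nat_lit 128)))) (XT.nd (nat_lit 156) (nat_lit 0) (nat_lit 0) (XT.nd (nat_lit 78) (nat_lit 0) (nat_lit 0) (XT.lf (nat_lit 0) (nat_lit 279848554995) (nat_lit 76) (nat_lit 65291710199) (nat_lit 76) (nat_lit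 37388825102) (nat_lit 3) (nat_lit 4) (nat_lit 4) (nat_lit 5) (nat_lit 4) (nat_lit 4) (nat_lit 353) (nat_lit 240) (nat_lit 127)) (XT.lf (nat_lit 0) (nat_lit 301134119579) (nat_lit 76) (nat_lit 64103647970) (nat_lit 76) (nat_lit 36195382728) (nat_lit 3) (nat_lit 4) (nat_lit 4) (nat_lit 5) (nat_lit 4) (nat_lit 4) (nat_lit 354) (nat_lit 240) (nat_lit 126))) (XT.nd (nat_lit 78) (nat_lit 0) (nat_lit 0) (XT.lf (nat_lit 0) (nat_lit 323481249311) (nat_lit 76) (nat_lit 62857317933) (nat_lit 76) (nat_lit 34943928743) (nat_lit 3) (nat_lit 4) (nat_lit 4) (nat_lit 5) (nat_lit 4) (nat_lit 4) (nat_lit 355) (nat_lit 240) (nat_lit 125)) (XT.lf (nat_lit 0) (nat_lit 346943151644) (nat_lit 76) (nat_lit 61549752636) (nat_lit 76) (nat_lit 33631483496) (nat_lit 3) (nat_lit 4) (nat_lit 4) (nat_lit 5) (nat_lit 4) (nat_lit 4) (nat_lit 356) (nat_lit 240) (nat_lit 124)))))) (XT.nd (nat_lit 624) (nat_lit 1824)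 (nat_lit 0) (XT.nd (nat_lit 312) (nat_lit 456) (nat_lit 0) (XT.nd (nat_lit 156) (nat_lit 0) (nat_lit 0) (XT.nd (nat_lit 78) (nat_lit 228) (nat_lit 0) (XT.lf (nat_lit 0) (nat_lit 1279113503) (nat_lit 0) (nat_lit 1279113503) (nat_lit 76) (nat_lit 668515971) (nat_lit 97) (nat_lit 5) (nat_lit 97) (nat_lit 3) (nat_lit 98) (nat_lit 0) (nat_lit 241) (nat_lit 241) (nat_lit 238)) (XT.lf (nat_lit 0) (nat_lit 1093883586) (nat_lit 228) (nat_lit 1232294025) (nat_lit 228) (nat_lit 4144442913) (nat_lit 94) (nat_lit 3) (nat_lit 97) (nat_lit 3) (nat_lit 97) (nat_lit 5) (nat_lit 242) (nat_lit 241) (nat_lit 237))) (XT.nd (nat_lit 78) (nat_lit 0) (nat_lit 0) (XT.lf (nat_lit 76) (nat_lit 1508047485) (nat_lit 0) (nat_lit 1961968381) (nat_lit 228) (nat_lit 3025622034) (nat_lit 95) (nat_lit 5) (nat_lit 94) (nat_lit 3) (nat_lit 97) (nat_lit 5) (nat_lit 243) (nat_lit 241) (nat_lit 236)) (XT.lf (nat_lit 76)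 (nat_lit 4347393013) (nat_lit 0) (nat_lit 1489607101) (nat_lit 228) (nat_lit 692782056) (nat_lit 95) (nat_lit 5) (nat_lit 94) (nat_lit 3) (nat_lit 97) (nat_lit 5) (nat_lit 244) (nat_lit 241) (nat_lit 235)))) (XT.nd (nat_lit 156) (nat_lit 228) (nat_lit 0) (XT.nd (nat_lit 78) (nat_lit 0) (nat_lit 0) (XT.lf (nat_lit 76) (nat_lit 674123995) (nat_lit 0) (nat_lit 891451845) (nat_lit 304) (nat_lit 5006772254) (nat_lit 92) (nat_lit 5) (nat_lit 91) (nat_lit 5) (nat_lit 95) (nat_lit 5) (nat_lit 245) (nat_lit 241) (nat_lit 234)) (XT.lf (nat_lit 76) (nat_lit 3655740774) (nat_lit 0) (nat_lit 154830280) (nat_lit 304) (nat_lit 2812330339) (nat_lit 92) (nat_lit 5) (nat_lit 91) (nat_lit 5) (nat_lit 95) (nat_lit 5) (nat_lit 246) (nat_lit 241) (nat_lit 233))) (XT.nd (nat_lit 78) (nat_lit 76) (nat_lit 0) (XT.lf (nat_lit 0) (nat_lit 14668373) (nat_lit 228) (nat_lit 6030778556) (nat_lit 304) (nat_lit 637870078)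 (nat_lit 89) (nat_lit 5) (nat_lit 92) (nat_lit 5) (nat_lit 93) (nat_lit 5) (nat_lit 247) (nat_lit 241) (nat_lit 232)) (XT.lf (nat_lit 0) (nat_lit 1515768410) (nat_lit 304) (nat_lit 3615308777) (nat_lit 76) (nat_lit 1619339166) (nat_lit 88) (nat_lit 5) (nat_lit 92) (nat_lit 5) (nat_lit 89) (nat_lit 5) (nat_lit 248) (nat_lit 241) (nat_lit 231))))) (XT.nd (nat_lit 312) (nat_lit 1064) (nat_lit 0) (XT.nd (nat_lit 156) (nat_lit 456) (nat_lit 0) (XT.nd (nat_lit 78) (nat_lit 304) (nat_lit 0) (XT.lf (nat_lit 0) (nat_lit 3631369572) (nat_lit 304) (nat_lit 506063475) (nat_lit 76) (nat_lit 2690179501) (nat_lit 88) (nat_lit 5) (nat_lit 92) (nat_lit 5) (nat_lit 89) (nat_lit 5) (nat_lit 249) (nat_lit 241) (nat_lit 230)) (XT.lf (nat_lit 0) (nat_lit 2764944671) (nat_lit 304) (nat_lit 3012610244) (nat_lit 380) (nat_lit 1135874001) (nat_lit 84) (nat_lit 5) (nat_lit 88) (nat_lit 5) (nat_lit 89) (nat_lit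 5) (nat_lit 250) (nat_lit 241) (nat_lit 229))) (XT.nd (nat_lit 78) (nat_lit 380) (nat_lit 0) (XT.lf (nat_lit 0) (nat_lit 886555779) (nat_lit 380) (nat_lit 887855902) (nat_lit 76) (nat_lit 5234633384) (nat_lit 83) (nat_lit 5) (nat_lit 88) (nat_lit 5) (nat_lit 84) (nat_lit 5) (nat_lit 251) (nat_lit 241) (nat_lit 228)) (XT.lf (nat_lit 0) (nat_lit 2516155601) (nat_lit 380) (nat_lit 383842181) (nat_lit 456) (nat_lit 4212974346) (nat_lit 78) (nat_lit 5) (nat_lit 83) (nat_lit 5) (nat_lit 84) (nat_lit 5) (nat_lit 252) (nat_lit 241) (nat_lit 227)))) (XT.nd (nat_lit 156) (nat_lit 608) (nat_lit 0) (XT.nd (nat_lit 78) (nat_lit 456) (nat_lit 0) (XT.lf (nat_lit 0) (nat_lit 4939441205) (nat_lit 456) (nat_lit 1204048672) (nat_lit 76) (nat_lit 1083162369) (nat_lit 78) (nat_lit 5) (nat_lit 84) (nat_lit 5) (nat_lit 79) (nat_lit 5) (nat_lit 253) (nat_lit 241) (nat_lit 226)) (XT.lf (nat_lit 0) (nat_lit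 2344388625) (nat_lit 456) (nat_lit 4677689986) (nat_lit 532) (nat_lit 327660640) (nat_lit 72) (nat_lit 5) (nat_lit 78) (nat_lit 5) (nat_lit 79) (nat_lit 5) (nat_lit 254) (nat_lit 241) (nat_lit 225))) (XT.nd (nat_lit 78) (nat_lit 532) (nat_lit 0) (XT.lf (nat_lit 0) (nat_lit 1594793071) (nat_lit 532) (nat_lit 1478663098) (nat_lit 76) (nat_lit 4408870499) (nat_lit 71) (nat_lit 5) (nat_lit 78) (nat_lit 5) (nat_lit 72) (nat_lit 5) (nat_lit 255) (nat_lit 241) (nat_lit 224)) (XT.lf (nat_lit 0) (nat_lit 2208325303) (nat_lit 532) (nat_lit 1332860212) (nat_lit 608) (nat_lit 4083825211) (nat_lit 64) (nat_lit 5) (nat_lit 71) (nat_lit 5) (nat_lit 72) (nat_lit 5) (nat_lit 256) (nat_lit 241) (nat_lit 223))))))) (XT.nd (nat_lit 1248) (nat_lit 1216) (nat_lit 0) (XT.nd (nat_lit 624) (nat_lit 760) (nat_lit 0) (XT.nd (nat_lit 312) (nat_lit 684) (nat_lit 0) (XT.nd (nat_lit 156) (nat_lit 532) (nat_lit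 0) (XT.nd (nat_lit 78) (nat_lit 608) (nat_lit 0) (XT.lf (nat_lit 0) (nat_lit 5525921665) (nat_lit 608) (nat_lit 1736197881) (nat_lit 76) (nat_lit 516303210) (nat_lit 64) (nat_lit 5) (nat_lit 72) (nat_lit 5) (nat_lit 65) (nat_lit 5) (nat_lit 257) (nat_lit 241) (nat_lit 222)) (XT.lf (nat_lit 0) (nat_lit 2092007108) (nat_lit 608) (nat_lit 5484635022) (nat_lit 684) (nat_lit 365140143) (nat_lit 56) (nat_lit 5) (nat_lit 64) (nat_lit 5) (nat_lit 65) (nat_lit 5) (nat_lit 258) (nat_lit 241) (nat_lit 221))) (XT.nd (nat_lit 78) (nat_lit 456) (nat_lit 0) (XT.lf (nat_lit 0) (nat_lit 1507940165) (nat_lit 684) (nat_lit 2049189736) (nat_lit 76) (nat_lit 4558320431) (nat_lit 55) (nat_lit 5) (nat_lit 64) (nat_lit 5) (nat_lit 56) (nat_lit 5) (nat_lit 259) (nat_lit 241) (nat_lit 220)) (XT.lf (nat_lit 0) (nat_lit 1917252788) (nat_lit 456) (nat_lit 1492424172) (nat_lit 532) (nat_lit 4890992483) (nat_lit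 49) (nat_lit 5) (nat_lit 55) (nat_lit 5) (nat_lit 56) (nat_lit 5) (nat_lit 260) (nat_lit 241) (nat_lit 219)))) (XT.nd (nat_lit 156) (nat_lit 380) (nat_lit 0) (XT.nd (nat_lit 78) (nat_lit 304) (nat_lit 0) (XT.lf (nat_lit 0) (nat_lit 5372400562) (nat_lit 532) (nat_lit 2434165378) (nat_lit 76) (nat_lit 690793925) (nat_lit 49) (nat_lit 5) (nat_lit 56) (nat_lit 5) (nat_lit 50) (nat_lit 5) (nat_lit 261) (nat_lit 241) (nat_lit 218)) (XT.lf (nat_lit 0) (nat_lit 1662437424) (nat_lit 304) (nat_lit 5745130213) (nat_lit 380) (nat_lit 1298083097) (nat_lit 45) (nat_lit 5) (nat_lit 49) (nat_lit 5) (nat_lit 50) (nat_lit 5) (nat_lit 262) (nat_lit 241) (nat_lit 217))) (XT.nd (nat_lit 78) (nat_lit 304) (nat_lit 0) (XT.lf (nat_lit 0) (nat_lit 566835550) (nat_lit 380) (nat_lit 2964783402) (nat_lit 76) (nat_lit 5394362289) (nat_lit 44) (nat_lit 5) (nat_lit 49) (nat_lit 5) (nat_lit 45) (nat_lit 5) (nat_lit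 263) (nat_lit 241) (nat_lit 216)) (XT.lf (nat_lit 0) (nat_lit 1259937965) (nat_lit 304) (nat_lit 1169344761) (nat_lit 380) (nat_lit 6730001966) (nat_lit 40) (nat_lit 5) (nat_lit 44) (nat_lit 5) (nat_lit 45) (nat_lit 5) (nat_lit 264) (nat_lit 241) (nat_lit 215))))) (XT.nd (nat_lit 312) (nat_lit 456) (nat_lit 0) (XT.nd (nat_lit 156) (nat_lit 76) (nat_lit 0) (XT.nd (nat_lit 78) (nat_lit 228) (nat_lit 0) (XT.lf (nat_lit 0) (nat_lit 4386737216) (nat_lit 380) (nat_lit 3703428029) (nat_lit 76) (nat_lit 1314389781) (nat_lit 40) (nat_lit 5) (nat_lit 45) (nat_lit 5) (nat_lit 41) (nat_lit 5) (nat_lit 265) (nat_lit 241) (nat_lit 214)) (XT.lf (nat_lit 0) (nat_lit 627762650) (nat_lit 228) (nat_lit 5776970348) (nat_lit 304) (nat_lit 3259599555) (nat_lit 37) (nat_lit 5) (nat_lit 40) (nat_lit 5) (nat_lit 41) (nat_lit 5) (nat_lit 266) (nat_lit 241) (nat_lit 213))) (XT.nd (nat_lit 78) (nat_lit 76) (nat_lit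 0) (XT.lf (nat_lit 0) (nat_lit 5229857711) (nat_lit 228) (nat_lit 3292186361) (nat_lit 304) (nat_lit 1415493253) (nat_lit 37) (nat_lit 5) (nat_lit 40) (nat_lit 5) (nat_lit 41) (nat_lit 5) (nat_lit 267) (nat_lit 241) (nat_lit 212)) (XT.lf (nat_lit 0) (nat_lit 441572107) (nat_lit 304) (nat_lit 243566132) (nat_lit 76) (nat_lit 9542312122) (nat_lit 36) (nat_lit 5) (nat_lit 40) (nat_lit 5) (nat_lit 37) (nat_lit 5) (nat_lit 268) (nat_lit 241) (nat_lit 211)))) (XT.nd (nat_lit 156) (nat_lit 228) (nat_lit 0) (XT.nd (nat_lit 78) (nat_lit 0) (nat_lit 0) (XT.lf (nat_lit 0) (nat_lit 2387916431) (nat_lit 304) (nat_lit 6069095676) (nat_lit 76) (nat_lit 2071797168) (nat_lit 33) (nat_lit 5) (nat_lit 37) (nat_lit 5) (nat_lit 34) (nat_lit 5) (nat_lit 269) (nat_lit 241) (nat_lit 210)) (XT.lf (nat_lit 0) (nat_lit 4389007586) (nat_lit 304) (nat_lit 1521223060) (nat_lit 76) (nat_lit 4937429478) (nat_lit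 33) (nat_lit 5) (nat_lit 37) (nat_lit 5) (nat_lit 34) (nat_lit 5) (nat_lit 270) (nat_lit 241) (nat_lit 209))) (XT.nd (nat_lit 78) (nat_lit 0) (nat_lit 0) (XT.lf (nat_lit 0) (nat_lit 3291282732) (nat_lit 228) (nat_lit 3195023674) (nat_lit 304) (nat_lit 4696620855) (nat_lit 30) (nat_lit 5) (nat_lit 33) (nat_lit 5) (nat_lit 34) (nat_lit 5) (nat_lit 271) (nat_lit 241) (nat_lit 208)) (XT.lf (nat_lit 0) (nat_lit 8330223607) (nat_lit 228) (nat_lit 330360199) (nat_lit 304) (nat_lit 2876036266) (nat_lit 30) (nat_lit 5) (nat_lit 33) (nat_lit 5) (nat_lit 34) (nat_lit 5) (nat_lit 272) (nat_lit 241) (nat_lit 207)))))) (XT.nd (nat_lit 624) (nat_lit 532) (nat_lit 0) (XT.nd (nat_lit 312) (nat_lit 228) (nat_lit 0) (XT.nd (nat_lit 156) (nat_lit 152) (nat_lit 0) (XT.nd (nat_lit 78) (nat_lit 76) (nat_lit 0) (XT.lf (nat_lit 0) (nat_lit 1657950560) (nat_lit 228) (nat_lit 9302020749) (nat_lit 304) (nat_lit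 947461641) (nat_lit 27) (nat_lit 5) (nat_lit 30) (nat_lit 5) (nat_lit 31) (nat_lit 5) (nat_lit 273) (nat_lit 241) (nat_lit 206)) (XT.lf (nat_lit 0) (nat_lit 1052737910) (nat_lit 304) (nat_lit 5507635254) (nat_lit 76) (nat_lit 5735319431) (nat_lit 26) (nat_lit 5) (nat_lit 30) (nat_lit 5) (nat_lit 27) (nat_lit 5) (nat_lit 274) (nat_lit 241) (nat_lit 205))) (XT.nd (nat_lit 78) (nat_lit 152) (nat_lit 0) (XT.lf (nat_lit 0) (nat_lit 3072607894) (nat_lit 304) (nat_lit 608292944) (nat_lit 76) (nat_lit 9024333192) (nat_lit 26) (nat_lit 5) (nat_lit 30) (nat_lit 5) (nat_lit 27) (nat_lit 5) (nat_lit 275) (nat_lit 241) (nat_lit 204)) (XT.lf (nat_lit 0) (nat_lit 4622965953) (nat_lit 152) (nat_lit 596493717) (nat_lit 228) (nat_lit 7914703437) (nat_lit 24) (nat_lit 5) (nat_lit 26) (nat_lit 5) (nat_lit 27) (nat_lit 5) (nat_lit 276) (nat_lit 241) (nat_lit 203)))) (XT.nd (nat_lit 156) (nat_lit 0) (nat_lit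 0) (XT.nd (nat_lit 78) (nat_lit 228) (nat_lit 0) (XT.lf (nat_lit 0) (nat_lit 7480213041) (nat_lit 228) (nat_lit 3550777927) (nat_lit 76) (nat_lit 2553419706) (nat_lit 24) (nat_lit 5) (nat_lit 27) (nat_lit 5) (nat_lit 25) (nat_lit 5) (nat_lit 277) (nat_lit 241) (nat_lit 202)) (XT.lf (nat_lit 0) (nat_lit 1641133300) (nat_lit 228) (nat_lit 8205259939) (nat_lit 304) (nat_lit 4211348385) (nat_lit 21) (nat_lit 5) (nat_lit 24) (nat_lit 5) (nat_lit 25) (nat_lit 5) (nat_lit 278) (nat_lit 241) (nat_lit 201))) (XT.nd (nat_lit 78) (nat_lit 0) (nat_lit 0) (XT.lf (nat_lit 0) (nat_lit 7157594270) (nat_lit 228) (nat_lit 5191547847) (nat_lit 304) (nat_lit 2204865414) (nat_lit 21) (nat_lit 5) (nat_lit 24) (nat_lit 5) (nat_lit 25) (nat_lit 5) (nat_lit 279) (nat_lit 241) (nat_lit 200)) (XT.lf (nat_lit 0) (nat_lit 12894334659) (nat_lit 228) (nat_lit 2042813330) (nat_lit 304) (nat_lit 140105521) (nat_lit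 21) (nat_lit 5) (nat_lit 24) (nat_lit 5) (nat_lit 25) (nat_lit 5) (nat_lit 280) (nat_lit 241) (nat_lit 199))))) (XT.nd (nat_lit 312) (nat_lit 152) (nat_lit 0) (XT.nd (nat_lit 156) (nat_lit 152) (nat_lit 0) (XT.nd (nat_lit 78) (nat_lit 0) (nat_lit 0) (XT.lf (nat_lit 0) (nat_lit 1996769413) (nat_lit 228) (nat_lit 12334204432) (nat_lit 76) (nat_lit 1292572471) (nat_lit 18) (nat_lit 5) (nat_lit 21) (nat_lit 5) (nat_lit 19) (nat_lit 5) (nat_lit 281) (nat_lit 241) (nat_lit 198)) (XT.lf (nat_lit 0) (nat_lit 4268845863) (nat_lit 228) (nat_lit 7175947507) (nat_lit 76) (nat_lit 4750741473) (nat_lit 18) (nat_lit 5) (nat_lit 21) (nat_lit 5) (nat_lit 19) (nat_lit 5) (nat_lit 282) (nat_lit 241) (nat_lit 197))) (XT.nd (nat_lit 78) (nat_lit 152) (nat_lit 0) (XT.lf (nat_lit 0) (nat_lit 6618338188) (nat_lit 228) (nat_lit 1812398931) (nat_lit 76) (nat_lit 8367337199) (nat_lit 18) (nat_lit 5) (nat_lit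 21) (nat_lit 5) (nat_lit 19) (nat_lit 5) (nat_lit 283) (nat_lit 241) (nat_lit 196)) (XT.lf (nat_lit 0) (nat_lit 3893838806) (nat_lit 152) (nat_lit 5217795348) (nat_lit 228) (nat_lit 8317925521) (nat_lit 16) (nat_lit 5) (nat_lit 18) (nat_lit 5) (nat_lit 19) (nat_lit 5) (nat_lit 284) (nat_lit 241) (nat_lit 195)))) (XT.nd (nat_lit 156) (nat_lit 152) (nat_lit 0) (XT.nd (nat_lit 78) (nat_lit 0) (nat_lit 0) (XT.lf (nat_lit 0) (nat_lit 9899003719) (nat_lit 152) (nat_lit 1827691696) (nat_lit 228) (nat_lit 6366197772) (nat_lit 16) (nat_lit 5) (nat_lit 18) (nat_lit 5) (nat_lit 19) (nat_lit 5) (nat_lit 285) (nat_lit 241) (nat_lit 194)) (XT.lf (nat_lit 0) (nat_lit 14467322493) (nat_lit 228) (nat_lit 2660454538) (nat_lit 76) (nat_lit 1661998481) (nat_lit 16) (nat_lit 5) (nat_lit 19) (nat_lit 5) (nat_lit 17) (nat_lit 4) (nat_lit 286) (nat_lit 241) (nat_lit 193))) (XT.nd (nat_lit 78) (nat_lit 76)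 (nat_lit 0) (XT.lf (nat_lit 0) (nat_lit 3175174480) (nat_lit 76) (nat_lit 14218649283) (nat_lit 152) (nat_lit 2125352974) (nat_lit 15) (nat_lit 5) (nat_lit 16) (nat_lit 5) (nat_lit 17) (nat_lit 4) (nat_lit 287) (nat_lit 241) (nat_lit 192)) (XT.lf (nat_lit 0) (nat_lit 191045863) (nat_lit 152) (nat_lit 10937931741) (nat_lit 76) (nat_lit 9155271902) (nat_lit 14) (nat_lit 5) (nat_lit 16) (nat_lit 5) (nat_lit 15) (nat_lit 5) (nat_lit 288) (nat_lit 241) (nat_lit 191))))))))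
noncomputable def xc96 : XT := (XT.nd (nat_lit 1248) (nat_lit 228) (nat_lit 0) (XT.nd (nat_lit 624) (nat_lit 304) (nat_lit 0) (XT.nd (nat_lit 312) (nat_lit 76) (nat_lit 0) (XT.nd (nat_lit 156) (nat_lit 0) (nat_lit 0) (XT.nd (nat_lit 78) (nat_lit 152) (nat_lit 0) (XT.lf (nat_lit 0) (nat_lit 2522754543) (nat_lit 152) (nat_lit 5340697172) (nat_lit 76) (nat_lit 13223937327) (nat_lit 14) (nat_lit 5) (nat_lit 16) (nat_lit 5) (nat_lit 15) (nat_lit 5) (nat_lit 289) (nat_lit 241) (nat_lit 190)) (XT.lf (nat_lit 0) (nat_lit 510551759) (nat_lit 152) (nat_lit 4440768706) (nat_lit 228) (nat_lit 16980447697) (nat_lit 12) (nat_lit 5) (nat_lit 14) (nat_lit 5) (nat_lit 15) (nat_lit 5) (nat_lit 290) (nat_lit 241) (nat_lit 189))) (XT.nd (nat_lit 78) (nat_lit 0) (nat_lit 0) (XT.lf (nat_lit 0) (nat_lit 6798272327) (nat_lit 152) (nat_lit 766461274) (nat_lit 228) (nat_lit 15250553306) (nat_lit 12) (nat_lit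 5) (nat_lit 14) (nat_lit 5) (nat_lit 15) (nat_lit 5) (nat_lit 291) (nat_lit 241) (nat_lit 188)) (XT.lf (nat_lit 0) (nat_lit 10331128727) (nat_lit 228) (nat_lit 10431560821) (nat_lit 76) (nat_lit 2979263727) (nat_lit 12) (nat_lit 5) (nat_lit 15) (nat_lit 5) (nat_lit 13) (nat_lit 4) (nat_lit 292) (nat_lit 241) (nat_lit 187)))) (XT.nd (nat_lit 156) (nat_lit 0) (nat_lit 0) (XT.nd (nat_lit 78) (nat_lit 76) (nat_lit 0) (XT.lf (nat_lit 0) (nat_lit 13223687972) (nat_lit 228) (nat_lit 4618151899) (nat_lit 76) (nat_lit 6873803971) (nat_lit 12) (nat_lit 5) (nat_lit 15) (nat_lit 5) (nat_lit 13) (nat_lit 4) (nat_lit 293) (nat_lit 241) (nat_lit 186)) (XT.lf (nat_lit 0) (nat_lit 1496931395) (nat_lit 76) (nat_lit 14763771670) (nat_lit 152) (nat_lit 9477403620) (nat_lit 11) (nat_lit 5) (nat_lit 12) (nat_lit 5) (nat_lit 13) (nat_lit 4) (nat_lit 294) (nat_lit 241) (nat_lit 185))) (XT.nd (nat_lit 78)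 (nat_lit 0) (nat_lit 0) (XT.lf (nat_lit 0) (nat_lit 8041788714) (nat_lit 76) (nat_lit 11463001613) (nat_lit 152) (nat_lit 7304216644) (nat_lit 11) (nat_lit 5) (nat_lit 12) (nat_lit 5) (nat_lit 13) (nat_lit 4) (nat_lit 295) (nat_lit 241) (nat_lit 184)) (XT.lf (nat_lit 0) (nat_lit 14879306092) (nat_lit 76) (nat_lit 8009881362) (nat_lit 152) (nat_lit 5045431326) (nat_lit 11) (nat_lit 5) (nat_lit 12) (nat_lit 5) (nat_lit 13) (nat_lit 4) (nat_lit 296) (nat_lit 241) (nat_lit 183))))) (XT.nd (nat_lit 312) (nat_lit 76) (nat_lit 0) (XT.nd (nat_lit 156) (nat_lit 228) (nat_lit 0) (XT.nd (nat_lit 78) (nat_lit 0) (nat_lit 0) (XT.lf (nat_lit 0) (nat_lit 22025763332) (nat_lit 76) (nat_lit 4396189202) (nat_lit 152) (nat_lit 2695669606) (nat_lit 11) (nat_lit 5) (nat_lit 12) (nat_lit 5) (nat_lit 13) (nat_lit 4) (nat_lit 297) (nat_lit 241) (nat_lit 182)) (XT.lf (nat_lit 0) (nat_lit 29498175809) (nat_lit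 76) (nat_lit 613321103) (nat_lit 152) (nat_lit 249336813) (nat_lit 11) (nat_lit 5) (nat_lit 12) (nat_lit 5) (nat_lit 13) (nat_lit 4) (nat_lit 298) (nat_lit 241) (nat_lit 181))) (XT.nd (nat_lit 78) (nat_lit 0) (nat_lit 0) (XT.lf (nat_lit 0) (nat_lit 2370639965) (nat_lit 228) (nat_lit 25918479230) (nat_lit 76) (nat_lit 3369057211) (nat_lit 8) (nat_lit 5) (nat_lit 11) (nat_lit 5) (nat_lit 9) (nat_lit 4) (nat_lit 299) (nat_lit 241) (nat_lit 180)) (XT.lf (nat_lit 0) (nat_lit 5119129466) (nat_lit 228) (nat_lit 20362817573) (nat_lit 76) (nat_lit 7537996390) (nat_lit 8) (nat_lit 5) (nat_lit 11) (nat_lit 5) (nat_lit 9) (nat_lit 4) (nat_lit 300) (nat_lit 241) (nat_lit 179)))) (XT.nd (nat_lit 156) (nat_lit 76) (nat_lit 0) (XT.nd (nat_lit 78) (nat_lit 0) (nat_lit 0) (XT.lf (nat_lit 0) (nat_lit 7986938451) (nat_lit 228) (nat_lit 14558801361) (nat_lit 76) (nat_lit 11905017805) (nat_lit 8) (nat_lit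 5) (nat_lit 11) (nat_lit 5) (nat_lit 9) (nat_lit 4) (nat_lit 301) (nat_lit 241) (nat_lit 178)) (XT.lf (nat_lit 0) (nat_lit 10980895039) (nat_lit 228) (nat_lit 8492611508) (nat_lit 76) (nat_lit 16480519127) (nat_lit 8) (nat_lit 5) (nat_lit 11) (nat_lit 5) (nat_lit 9) (nat_lit 4) (nat_lit 302) (nat_lit 241) (nat_lit 177))) (XT.nd (nat_lit 78) (nat_lit 76) (nat_lit 0) (XT.lf (nat_lit 0) (nat_lit 14108127696) (nat_lit 228) (nat_lit 2149804705) (nat_lit 76) (nat_lit 21275394405) (nat_lit 8) (nat_lit 5) (nat_lit 11) (nat_lit 5) (nat_lit 9) (nat_lit 4) (nat_lit 303) (nat_lit 241) (nat_lit 176)) (XT.lf (nat_lit 0) (nat_lit 4633006096) (nat_lit 76) (nat_lit 12815410327) (nat_lit 152) (nat_lit 21740388123) (nat_lit 7) (nat_lit 5) (nat_lit 8) (nat_lit 5) (nat_lit 9) (nat_lit 4) (nat_lit 304) (nat_lit 241) (nat_lit 175)))))) (XT.nd (nat_lit 624) (nat_lit 152) (nat_lit 0) (XT.nd (nat_lit 312)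 (nat_lit 76) (nat_lit 0) (XT.nd (nat_lit 156) (nat_lit 0) (nat_lit 0) (XT.nd (nat_lit 78) (nat_lit 0) (nat_lit 0) (XT.lf (nat_lit 0) (nat_lit 11804582358) (nat_lit 76) (nat_lit 9172259693) (nat_lit 152) (nat_lit 19949202067) (nat_lit 7) (nat_lit 5) (nat_lit 8) (nat_lit 5) (nat_lit 9) (nat_lit 4) (nat_lit 305) (nat_lit 241) (nat_lit 174)) (XT.lf (nat_lit 0) (nat_lit 19310917009) (nat_lit 76) (nat_lit 5356214315) (nat_lit 152) (nat_lit 18083784197) (nat_lit 7) (nat_lit 5) (nat_lit 8) (nat_lit 5) (nat_lit 9) (nat_lit 4) (nat_lit 306) (nat_lit 241) (nat_lit 173))) (XT.nd (nat_lit 78) (nat_lit 0) (nat_lit 0) (XT.lf (nat_lit 0) (nat_lit 27169882274) (nat_lit 76) (nat_lit 1358188369) (nat_lit 152) (nat_lit 16139693043) (nat_lit 7) (nat_lit 5) (nat_lit 8) (nat_lit 5) (nat_lit 9) (nat_lit 4) (nat_lit 307) (nat_lit 241) (nat_lit 172)) (XT.lf (nat_lit 0) (nat_lit 32613057833) (nat_lit 152) (nat_lit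 11325167673) (nat_lit 0) (nat_lit 2740716777) (nat_lit 7) (nat_lit 5) (nat_lit 9) (nat_lit 4) (nat_lit 7) (nat_lit 4) (nat_lit 308) (nat_lit 241) (nat_lit 171)))) (XT.nd (nat_lit 156) (nat_lit 0) (nat_lit 0) (XT.nd (nat_lit 78) (nat_lit 76) (nat_lit 0) (XT.lf (nat_lit 0) (nat_lit 36911859404) (nat_lit 152) (nat_lit 4887200709) (nat_lit 0) (nat_lit 6991177701) (nat_lit 7) (nat_lit 5) (nat_lit 9) (nat_lit 4) (nat_lit 7) (nat_lit 4) (nat_lit 309) (nat_lit 241) (nat_lit 170)) (XT.lf (nat_lit 0) (nat_lit 1913806871) (nat_lit 76) (nat_lit 39529578489) (nat_lit 76) (nat_lit 9562858075) (nat_lit 6) (nat_lit 4) (nat_lit 7) (nat_lit 5) (nat_lit 7) (nat_lit 4) (nat_lit 310) (nat_lit 241) (nat_lit 169))) (XT.nd (nat_lit 78) (nat_lit 0) (nat_lit 0) (XT.lf (nat_lit 0) (nat_lit 9204750280) (nat_lit 76) (nat_lit 37067675910) (nat_lit 76) (nat_lit 7057109105) (nat_lit 6) (nat_lit 4) (nat_lit 7) (nat_lit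 5) (nat_lit 7) (nat_lit 4) (nat_lit 311) (nat_lit 241) (nat_lit 168)) (XT.lf (nat_lit 0) (nat_lit 16841395979) (nat_lit 76) (nat_lit 34490257811) (nat_lit 76) (nat_lit 4437932538) (nat_lit 6) (nat_lit 4) (nat_lit 7) (nat_lit 5) (nat_lit 7) (nat_lit 4) (nat_lit 312) (nat_lit 241) (nat_lit 167))))) (XT.nd (nat_lit 312) (nat_lit 76) (nat_lit 0) (XT.nd (nat_lit 156) (nat_lit 0) (nat_lit 0) (XT.nd (nat_lit 78) (nat_lit 76) (nat_lit 0) (XT.lf (nat_lit 0) (nat_lit 24841926457) (nat_lit 76) (nat_lit 31791187484) (nat_lit 76) (nat_lit 1699092242) (nat_lit 6) (nat_lit 4) (nat_lit 7) (nat_lit 5) (nat_lit 7) (nat_lit 4) (nat_lit 313) (nat_lit 241) (nat_lit 166)) (XT.lf (nat_lit 0) (nat_lit 1128615701) (nat_lit 152) (nat_lit 27816309216) (nat_lit 76) (nat_lit 32077661243) (nat_lit 5) (nat_lit 5) (nat_lit 7) (nat_lit 5) (nat_lit 6) (nat_lit 4) (nat_lit 314) (nat_lit 241) (nat_lit 165))) (XT.nd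 (nat_lit 78) (nat_lit 0) (nat_lit 0) (XT.lf (nat_lit 0) (nat_lit 4030691317) (nat_lit 152) (nat_lit 21903126737) (nat_lit 76) (nat_lit 37912796003) (nat_lit 5) (nat_lit 5) (nat_lit 7) (nat_lit 5) (nat_lit 6) (nat_lit 4) (nat_lit 315) (nat_lit 241) (nat_lit 164)) (XT.lf (nat_lit 0) (nat_lit 7068425873) (nat_lit 152) (nat_lit 15710125693) (nat_lit 76) (nat_lit 44033788565) (nat_lit 5) (nat_lit 5) (nat_lit 7) (nat_lit 5) (nat_lit 6) (nat_lit 4) (nat_lit 316) (nat_lit 241) (nat_lit 163)))) (XT.nd (nat_lit 156) (nat_lit 76) (nat_lit 0) (XT.nd (nat_lit 78) (nat_lit 0) (nat_lit 0) (XT.lf (nat_lit 0) (nat_lit 10249052069) (nat_lit 152) (nat_lit 9222560842) (nat_lit 76) (nat_lit 50455212721) (nat_lit 5) (nat_lit 5) (nat_lit 7) (nat_lit 5) (nat_lit 6) (nat_lit 4) (nat_lit 317) (nat_lit 241) (nat_lit 162)) (XT.lf (nat_lit 0) (nat_lit 13580142826) (nat_lit 152) (nat_lit 2424985601) (nat_lit 76)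 (nat_lit 57192357577) (nat_lit 5) (nat_lit 5) (nat_lit 7) (nat_lit 5) (nat_lit 6) (nat_lit 4) (nat_lit 318) (nat_lit 241) (nat_lit 161))) (XT.nd (nat_lit 78) (nat_lit 0) (nat_lit 0) (XT.lf (nat_lit 0) (nat_lit 4854147774) (nat_lit 76) (nat_lit 12291268388) (nat_lit 152) (nat_lit 59482903029) (nat_lit 4) (nat_lit 5) (nat_lit 5) (nat_lit 5) (nat_lit 6) (nat_lit 4) (nat_lit 319) (nat_lit 241) (nat_lit 160)) (XT.lf (nat_lit 0) (nat_lit 12567964878) (nat_lit 76) (nat_lit 8354076103) (nat_lit 152) (nat_lit 59307018854) (nat_lit 4) (nat_lit 5) (nat_lit 5) (nat_lit 5) (nat_lit 6) (nat_lit 4) (nat_lit 320) (nat_lit 241) (nat_lit 159)))))))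
noncomputable def xc97 : XT := (XT.nd (nat_lit 1248) (nat_lit 0) (nat_lit 0) (XT.nd (nat_lit 624) (nat_lit 76) (nat_lit 0) (XT.nd (nat_lit 312) (nat_lit 0) (nat_lit 0) (XT.nd (nat_lit 156) (nat_lit 0) (nat_lit 0) (XT.nd (nat_lit 78) (nat_lit 0) (nat_lit 0) (XT.lf (nat_lit 0) (nat_lit 20654650966) (nat_lit 76) (nat_lit 4225245610) (nat_lit 152) (nat_lit 59130340186) (nat_lit 4) (nat_lit 5) (nat_lit 5) (nat_lit 5) (nat_lit 6) (nat_lit 4) (nat_lit 321) (nat_lit 241) (nat_lit 158)) (XT.lf (nat_lit 0) (nat_lit 29030046593) (nat_lit 152) (nat_lit 58849032904) (nat_lit 0) (nat_lit 101691267) (nat_lit 4) (nat_lit 5) (nat_lit 6) (nat_lit 4) (nat_lit 4) (nat_lit 4) (nat_lit 322) (nat_lit 241) (nat_lit 157))) (XT.nd (nat_lit 78) (nat_lit 0) (nat_lit 0) (XT.lf (nat_lit 0) (nat_lit 33450002644) (nat_lit 152) (nat_lit 54198336693) (nat_lit 0) (nat_lit 4498394640) (nat_lit 4) (nat_lit 5) (nat_lit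 6) (nat_lit 4) (nat_lit 4) (nat_lit 4) (nat_lit 323) (nat_lit 241) (nat_lit 156)) (XT.lf (nat_lit 0) (nat_lit 38084320510) (nat_lit 152) (nat_lit 49326456154) (nat_lit 0) (nat_lit 9110567099) (nat_lit 4) (nat_lit 5) (nat_lit 6) (nat_lit 4) (nat_lit 4) (nat_lit 4) (nat_lit 324) (nat_lit 241) (nat_lit 155)))) (XT.nd (nat_lit 156) (nat_lit 0) (nat_lit 0) (XT.nd (nat_lit 78) (nat_lit 0) (nat_lit 0) (XT.lf (nat_lit 0) (nat_lit 42944034279) (nat_lit 152) (nat_lit 44221791571) (nat_lit 0) (nat_lit 13949190004) (nat_lit 4) (nat_lit 5) (nat_lit 6) (nat_lit 4) (nat_lit 4) (nat_lit 4) (nat_lit 325) (nat_lit 241) (nat_lit 154)) (XT.lf (nat_lit 0) (nat_lit 48040714699) (nat_lit 152) (nat_lit 38872188979) (nat_lit 0) (nat_lit 19025783887) (nat_lit 4) (nat_lit 5) (nat_lit 6) (nat_lit 4) (nat_lit 4) (nat_lit 4) (nat_lit 326) (nat_lit 241) (nat_lit 153))) (XT.nd (nat_lit 78) (nat_lit 0) (nat_lit 0)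 (XT.lf (nat_lit 0) (nat_lit 53386496724) (nat_lit 152) (nat_lit 33264911231) (nat_lit 0) (nat_lit 24352435877) (nat_lit 4) (nat_lit 5) (nat_lit 6) (nat_lit 4) (nat_lit 4) (nat_lit 4) (nat_lit 327) (nat_lit 241) (nat_lit 152)) (XT.lf (nat_lit 0) (nat_lit 58994108406) (nat_lit 152) (nat_lit 27386607665) (nat_lit 0) (nat_lit 29941828477) (nat_lit 4) (nat_lit 5) (nat_lit 6) (nat_lit 4) (nat_lit 4) (nat_lit 4) (nat_lit 328) (nat_lit 241) (nat_lit 151))))) (XT.nd (nat_lit 312) (nat_lit 76) (nat_lit 0) (XT.nd (nat_lit 156) (nat_lit 0) (nat_lit 0) (XT.nd (nat_lit 78) (nat_lit 0) (nat_lit 0) (XT.lf (nat_lit 0) (nat_lit 64876901201) (nat_lit 152) (nat_lit 21223282319) (nat_lit 0) (nat_lit 35807269767) (nat_lit 4) (nat_lit 5) (nat_lit 6) (nat_lit 4) (nat_lit 4) (nat_lit 4) (nat_lit 329) (nat_lit 241) (nat_lit 150)) (XT.lf (nat_lit 0) (nat_lit 71048881759) (nat_lit 152) (nat_lit 14760260611)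 (nat_lit 0) (nat_lit 41962725081) (nat_lit 4) (nat_lit 5) (nat_lit 6) (nat_lit 4) (nat_lit 4) (nat_lit 4) (nat_lit 330) (nat_lit 241) (nat_lit 149))) (XT.nd (nat_lit 78) (nat_lit 0) (nat_lit 0) (XT.lf (nat_lit 0) (nat_lit 77524745272) (nat_lit 152) (nat_lit 7982154392) (nat_lit 0) (nat_lit 48422850266) (nat_lit 4) (nat_lit 5) (nat_lit 6) (nat_lit 4) (nat_lit 4) (nat_lit 4) (nat_lit 331) (nat_lit 241) (nat_lit 148)) (XT.lf (nat_lit 0) (nat_lit 84319910462) (nat_lit 152) (nat_lit 872825315) (nat_lit 0) (nat_lit 55203026573) (nat_lit 4) (nat_lit 5) (nat_lit 6) (nat_lit 4) (nat_lit 4) (nat_lit 4) (nat_lit 332) (nat_lit 241) (nat_lit 147)))) (XT.nd (nat_lit 156) (nat_lit 0) (nat_lit 0) (XT.nd (nat_lit 78) (nat_lit 0) (nat_lit 0) (XT.lf (nat_lit 0) (nat_lit 6802371978) (nat_lit 76) (nat_lit 84754388406) (nat_lit 76) (nat_lit 55623229390) (nat_lit 3) (nat_lit 4) (nat_lit 4) (nat_lit 5) (nat_lit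 4) (nat_lit 4) (nat_lit 333) (nat_lit 241) (nat_lit 146)) (XT.lf (nat_lit 0) (nat_lit 14884433049) (nat_lit 76) (nat_lit 84281615160) (nat_lit 76) (nat_lit 55136860786) (nat_lit 3) (nat_lit 4) (nat_lit 4) (nat_lit 5) (nat_lit 4) (nat_lit 4) (nat_lit 334) (nat_lit 241) (nat_lit 145))) (XT.nd (nat_lit 78) (nat_lit 0) (nat_lit 0) (XT.lf (nat_lit 0) (nat_lit 23363741353) (nat_lit 76) (nat_lit 83788072109) (nat_lit 76) (nat_lit 54630369774) (nat_lit 3) (nat_lit 4) (nat_lit 4) (nat_lit 5) (nat_lit 4) (nat_lit 4) (nat_lit 335) (nat_lit 241) (nat_lit 144)) (XT.lf (nat_lit 0) (nat_lit 32260485719) (nat_lit 76) (nat_lit 83272584150) (nat_lit 76) (nat_lit 54102550423) (nat_lit 3) (nat_lit 4) (nat_lit 4) (nat_lit 5) (nat_lit 4) (nat_lit 4) (nat_lit 336) (nat_lit 241) (nat_lit 143)))))) (XT.nd (nat_lit 624) (nat_lit 0) (nat_lit 0) (XT.nd (nat_lit 312) (nat_lit 0) (nat_lit 0) (XT.nd (nat_lit 156)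 (nat_lit 0) (nat_lit 0) (XT.nd (nat_lit 78) (nat_lit 0) (nat_lit 0) (XT.lf (nat_lit 0) (nat_lit 41595848872) (nat_lit 76) (nat_lit 82733923931) (nat_lit 76) (nat_lit 53552146022) (nat_lit 3) (nat_lit 4) (nat_lit 4) (nat_lit 5) (nat_lit 4) (nat_lit 4) (nat_lit 337) (nat_lit 241) (nat_lit 142)) (XT.lf (nat_lit 0) (nat_lit 51392057867) (nat_lit 76) (nat_lit 82170808927) (nat_lit 76) (nat_lit 52977846083) (nat_lit 3) (nat_lit 4) (nat_lit 4) (nat_lit 5) (nat_lit 4) (nat_lit 4) (nat_lit 338) (nat_lit 241) (nat_lit 141))) (XT.nd (nat_lit 78) (nat_lit 0) (nat_lit 0) (XT.lf (nat_lit 0) (nat_lit 61672437012) (nat_lit 76) (nat_lit 81581898389) (nat_lit 76) (nat_lit 52378283226) (nat_lit 3) (nat_lit 4) (nat_lit 4) (nat_lit 5) (nat_lit 4) (nat_lit 4) (nat_lit 339) (nat_lit 241) (nat_lit 140)) (XT.lf (nat_lit 0) (nat_lit 72461463399) (nat_lit 76) (nat_lit 80965790149) (nat_lit 76) (nat_lit 51752029919)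 (nat_lit 3) (nat_lit 4) (nat_lit 4) (nat_lit 5) (nat_lit 4) (nat_lit 4) (nat_lit 340) (nat_lit 241) (nat_lit 139)))) (XT.nd (nat_lit 156) (nat_lit 0) (nat_lit 0) (XT.nd (nat_lit 78) (nat_lit 0) (nat_lit 0) (XT.lf (nat_lit 0) (nat_lit 83784825186) (nat_lit 76) (nat_lit 80321017281) (nat_lit 76) (nat_lit 51097595083) (nat_lit 3) (nat_lit 4) (nat_lit 4) (nat_lit 5) (nat_lit 4) (nat_lit 4) (nat_lit 341) (nat_lit 241) (nat_lit 138)) (XT.lf (nat_lit 0) (nat_lit 95669482759) (nat_lit 76) (nat_lit 79646044613) (nat_lit 76) (nat_lit 50413420542) (nat_lit 3) (nat_lit 4) (nat_lit 4) (nat_lit 5) (nat_lit 4) (nat_lit 4) (nat_lit 342) (nat_lit 241) (nat_lit 137))) (XT.nd (nat_lit 78) (nat_lit 0) (nat_lit 0) (XT.lf (nat_lit 0) (nat_lit 108143732921) (nat_lit 76) (nat_lit 78939265067) (nat_lit 76) (nat_lit 49697877306) (nat_lit 3) (nat_lit 4) (nat_lit 4) (nat_lit 5) (nat_lit 4) (nat_lit 4) (nat_lit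 343) (nat_lit 241) (nat_lit 136)) (XT.lf (nat_lit 0) (nat_lit 121237276269) (nat_lit 76) (nat_lit 78198995835) (nat_lit 76) (nat_lit 48949261702) (nat_lit 3) (nat_lit 4) (nat_lit 4) (nat_lit 5) (nat_lit 4) (nat_lit 4) (nat_lit 344) (nat_lit 241) (nat_lit 135))))) (XT.nd (nat_lit 312) (nat_lit 0) (nat_lit 0) (XT.nd (nat_lit 156) (nat_lit 0) (nat_lit 0) (XT.nd (nat_lit 78) (nat_lit 0) (nat_lit 0) (XT.lf (nat_lit 0) (nat_lit 134981287905) (nat_lit 76) (nat_lit 77423474370) (nat_lit 76) (nat_lit 48165791313) (nat_lit 3) (nat_lit 4) (nat_lit 4) (nat_lit 5) (nat_lit 4) (nat_lit 4) (nat_lit 345) (nat_lit 241) (nat_lit 134)) (XT.lf (nat_lit 0) (nat_lit 149408491666) (nat_lit 76) (nat_lit 76610854193) (nat_lit 76) (nat_lit 47345600731) (nat_lit 3) (nat_lit 4) (nat_lit 4) (nat_lit 5) (nat_lit 4) (nat_lit 4) (nat_lit 346) (nat_lit 241) (nat_lit 133))) (XT.nd (nat_lit 78) (nat_lit 0) (nat_lit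 0) (XT.lf (nat_lit 0) (nat_lit 164553238038) (nat_lit 76) (nat_lit 75759200494) (nat_lit 76) (nat_lit 46486737123) (nat_lit 3) (nat_lit 4) (nat_lit 4) (nat_lit 5) (nat_lit 4) (nat_lit 4) (nat_lit 347) (nat_lit 241) (nat_lit 132)) (XT.lf (nat_lit 0) (nat_lit 180451585940) (nat_lit 76) (nat_lit 74866485526) (nat_lit 76) (nat_lit 45587155575) (nat_lit 3) (nat_lit 4) (nat_lit 4) (nat_lit 5) (nat_lit 4) (nat_lit 4) (nat_lit 348) (nat_lit 241) (nat_lit 131)))) (XT.nd (nat_lit 156) (nat_lit 0) (nat_lit 0) (XT.nd (nat_lit 78) (nat_lit 0) (nat_lit 0) (XT.lf (nat_lit 0) (nat_lit 197141388582) (nat_lit 76) (nat_lit 73930583778) (nat_lit 76) (nat_lit 44644714227) (nat_lit 3) (nat_lit 4) (nat_lit 4) (nat_lit 5) (nat_lit 4) (nat_lit 4) (nat_lit 349) (nat_lit 241) (nat_lit 130)) (XT.lf (nat_lit 0) (nat_lit 214662383590) (nat_lit 76) (nat_lit 72949266911) (nat_lit 76) (nat_lit 43657169169) (nat_lit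 3) (nat_lit 4) (nat_lit 4) (nat_lit 5) (nat_lit 4) (nat_lit 4) (nat_lit 350) (nat_lit 241) (nat_lit 129))) (XT.nd (nat_lit 78) (nat_lit 0) (nat_lit 0) (XT.lf (nat_lit 0) (nat_lit 233056287617) (nat_lit 76) (nat_lit 71920198457) (nat_lit 76) (nat_lit 42622169105) (nat_lit 3) (nat_lit 4) (nat_lit 4) (nat_lit 5) (nat_lit 4) (nat_lit 4) (nat_lit 351) (nat_lit 241) (nat_lit 128)) (XT.nd (nat_lit 78) (nat_lit 0) (nat_lit 0) (XT.lf (nat_lit 0) (nat_lit 252366895674) (nat_lit 76) (nat_lit 70840928253) (nat_lit 76) (nat_lit 41537249749) (nat_lit 3) (nat_lit 4) (nat_lit 4) (nat_lit 5) (nat_lit 4) (nat_lit 4) (nat_lit 352) (nat_lit 241) (nat_lit 127)) (XT.lf (nat_lit 0) (nat_lit 272640185399) (nat_lit 76) (nat_lit 69708886609) (nat_lit 76) (nat_lit 40399827959) (nat_lit 3) (nat_lit 4) (nat_lit 4) (nat_lit 5) (nat_lit 4) (nat_lit 4) (nat_lit 353) (nat_lit 241) (nat_lit 126))))))))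
noncomputable def xc98 : XT := (XT.nd (nat_lit 29796) (nat_lit 0) (nat_lit 2280) (XT.nd (nat_lit 29172) (nat_lit 0) (nat_lit 5168) (XT.nd (nat_lit 28860) (nat_lit 0) (nat_lit 6688) (XT.nd (nat_lit 156) (nat_lit 0) (nat_lit 0) (XT.nd (nat_lit 78) (nat_lit 0) (nat_lit 0) (XT.lf (nat_lit 0) (nat_lit 293924426529) (nat_lit 76) (nat_lit 68521378186) (nat_lit 76) (nat_lit 39207195589) (nat_lit 3) (nat_lit 4) (nat_lit 4) (nat_lit 5) (nat_lit 4) (nat_lit 4) (nat_lit 354) (nat_lit 241) (nat_lit 125)) (XT.lf (nat_lit 0) (nat_lit 316270295829) (nat_lit 76) (nat_lit 67275575584) (nat_lit 76) (nat_lit 37956513037) (nat_lit 3) (nat_lit 4) (nat_lit 4) (nat_lit 5) (nat_lit 4) (nat_lit 4) (nat_lit 355) (nat_lit 241) (nat_lit 124))) (XT.nd (nat_lit 28626) (nat_lit 0) (nat_lit 6916) (XT.lf (nat_lit 0) (nat_lit 339730997749) (nat_lit 76) (nat_lit 65968512606) (nat_lit 76) (nat_lit 36644802487) (nat_lit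 3) (nat_lit 4) (nat_lit 4) (nat_lit 5) (nat_lit 4) (nat_lit 4) (nat_lit 356) (nat_lit 241) (nat_lit 123)) (XT.lf (nat_lit 0) (nat_lit 1703212424) (nat_lit 228) (nat_lit 771205680) (nat_lit 228) (nat_lit 771205680) (nat_lit 94) (nat_lit 3) (nat_lit 97) (nat_lit 3) (nat_lit 97) (nat_lit 5) (nat_lit 242) (nat_lit 242) (nat_lit 236)))) (XT.nd (nat_lit 156) (nat_lit 0) (nat_lit 0) (XT.nd (nat_lit 78) (nat_lit 228) (nat_lit 0) (XT.lf (nat_lit 76) (nat_lit 1148263819) (nat_lit 0) (nat_lit 4556694276) (nat_lit 228) (nat_lit 815907923) (nat_lit 95) (nat_lit 5) (nat_lit 94) (nat_lit 3) (nat_lit 97) (nat_lit 5) (nat_lit 243) (nat_lit 242) (nat_lit 235)) (XT.lf (nat_lit 0) (nat_lit 1397442377) (nat_lit 228) (nat_lit 2631619788) (nat_lit 304) (nat_lit 2528964940) (nat_lit 91) (nat_lit 5) (nat_lit 94) (nat_lit 3) (nat_lit 95) (nat_lit 5) (nat_lit 244) (nat_lit 242) (nat_lit 234))) (XT.nd (nat_lit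 78) (nat_lit 0) (nat_lit 0) (XT.lf (nat_lit 76) (nat_lit 158984376) (nat_lit 0) (nat_lit 3399039411) (nat_lit 304) (nat_lit 3046431513) (nat_lit 92) (nat_lit 5) (nat_lit 91) (nat_lit 5) (nat_lit 95) (nat_lit 5) (nat_lit 245) (nat_lit 242) (nat_lit 233)) (XT.lf (nat_lit 76) (nat_lit 3102618783) (nat_lit 0) (nat_lit 2635464007) (nat_lit 304) (nat_lit 920765886) (nat_lit 92) (nat_lit 5) (nat_lit 91) (nat_lit 5) (nat_lit 95) (nat_lit 5) (nat_lit 246) (nat_lit 242) (nat_lit 232))))) (XT.nd (nat_lit 312) (nat_lit 912) (nat_lit 0) (XT.nd (nat_lit 156) (nat_lit 304) (nat_lit 0) (XT.nd (nat_lit 78) (nat_lit 0) (nat_lit 0) (XT.lf (nat_lit 0) (nat_lit 1139237179) (nat_lit 304) (nat_lit 622554958) (nat_lit 380) (nat_lit 4960748136) (nat_lit 87) (nat_lit 5) (nat_lit 91) (nat_lit 5) (nat_lit 92) (nat_lit 5) (nat_lit 247) (nat_lit 242) (nat_lit 231)) (XT.lf (nat_lit 76) (nat_lit 2445202471) (nat_lit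 0) (nat_lit 740480337) (nat_lit 380) (nat_lit 3608310201) (nat_lit 88) (nat_lit 5) (nat_lit 87) (nat_lit 5) (nat_lit 92) (nat_lit 5) (nat_lit 248) (nat_lit 242) (nat_lit 230))) (XT.nd (nat_lit 78) (nat_lit 380) (nat_lit 0) (XT.lf (nat_lit 0) (nat_lit 5231984260) (nat_lit 304) (nat_lit 1268079344) (nat_lit 76) (nat_lit 375078667) (nat_lit 88) (nat_lit 5) (nat_lit 92) (nat_lit 5) (nat_lit 89) (nat_lit 5) (nat_lit 249) (nat_lit 242) (nat_lit 229)) (XT.lf (nat_lit 0) (nat_lit 334398848) (nat_lit 380) (nat_lit 5031927066) (nat_lit 76) (nat_lit 1598222675) (nat_lit 83) (nat_lit 5) (nat_lit 88) (nat_lit 5) (nat_lit 84) (nat_lit 5) (nat_lit 250) (nat_lit 242) (nat_lit 228)))) (XT.nd (nat_lit 156) (nat_lit 532) (nat_lit 0) (XT.nd (nat_lit 78) (nat_lit 380) (nat_lit 0) (XT.lf (nat_lit 0) (nat_lit 2266219571) (nat_lit 380) (nat_lit 1828818296) (nat_lit 76) (nat_lit 2967374485) (nat_lit 83) (nat_lit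 5) (nat_lit 88) (nat_lit 5) (nat_lit 84) (nat_lit 5) (nat_lit 251) (nat_lit 242) (nat_lit 227)) (XT.lf (nat_lit 0) (nat_lit 1504937044) (nat_lit 380) (nat_lit 2707266102) (nat_lit 456) (nat_lit 2957910737) (nat_lit 78) (nat_lit 5) (nat_lit 83) (nat_lit 5) (nat_lit 84) (nat_lit 5) (nat_lit 252) (nat_lit 242) (nat_lit 226))) (XT.nd (nat_lit 78) (nat_lit 532) (nat_lit 0) (XT.lf (nat_lit 0) (nat_lit 4992449185) (nat_lit 380) (nat_lit 1191935008) (nat_lit 456) (nat_lit 1103155352) (nat_lit 78) (nat_lit 5) (nat_lit 83) (nat_lit 5) (nat_lit 84) (nat_lit 5) (nat_lit 253) (nat_lit 242) (nat_lit 225)) (XT.lf (nat_lit 0) (nat_lit 743497937) (nat_lit 532) (nat_lit 6230370136) (nat_lit 76) (nat_lit 440711166) (nat_lit 71) (nat_lit 5) (nat_lit 78) (nat_lit 5) (nat_lit 72) (nat_lit 5) (nat_lit 254) (nat_lit 242) (nat_lit 224)))))) (XT.nd (nat_lit 624) (nat_lit 1216) (nat_lit 0) (XT.nd (nat_lit 312)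 (nat_lit 456) (nat_lit 0) (XT.nd (nat_lit 156) (nat_lit 684) (nat_lit 0) (XT.nd (nat_lit 78) (nat_lit 532) (nat_lit 0) (XT.lf (nat_lit 0) (nat_lit 2608805655) (nat_lit 532) (nat_lit 2748477439) (nat_lit 76) (nat_lit 2192291070) (nat_lit 71) (nat_lit 5) (nat_lit 78) (nat_lit 5) (nat_lit 72) (nat_lit 5) (nat_lit 255) (nat_lit 242) (nat_lit 223)) (XT.lf (nat_lit 0) (nat_lit 857486019) (nat_lit 532) (nat_lit 3632184733) (nat_lit 608) (nat_lit 3206178457) (nat_lit 64) (nat_lit 5) (nat_lit 71) (nat_lit 5) (nat_lit 72) (nat_lit 5) (nat_lit 256) (nat_lit 242) (nat_lit 222))) (XT.nd (nat_lit 78) (nat_lit 684) (nat_lit 0) (XT.lf (nat_lit 0) (nat_lit 4662949298) (nat_lit 532) (nat_lit 1760228734) (nat_lit 608) (nat_lit 1428944291) (nat_lit 64) (nat_lit 5) (nat_lit 71) (nat_lit 5) (nat_lit 72) (nat_lit 5) (nat_lit 257) (nat_lit 242) (nat_lit 221)) (XT.lf (nat_lit 0) (nat_lit 350104984) (nat_lit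 684) (nat_lit 7445699728) (nat_lit 76) (nat_lit 224273026) (nat_lit 55) (nat_lit 5) (nat_lit 64) (nat_lit 5) (nat_lit 56) (nat_lit 5) (nat_lit 258) (nat_lit 242) (nat_lit 220)))) (XT.nd (nat_lit 156) (nat_lit 0) (nat_lit 0) (XT.nd (nat_lit 78) (nat_lit 456) (nat_lit 0) (XT.lf (nat_lit 0) (nat_lit 2171176521) (nat_lit 684) (nat_lit 3689620201) (nat_lit 76) (nat_lit 2334938973) (nat_lit 55) (nat_lit 5) (nat_lit 64) (nat_lit 5) (nat_lit 56) (nat_lit 5) (nat_lit 259) (nat_lit 242) (nat_lit 219)) (XT.lf (nat_lit 0) (nat_lit 184403131) (nat_lit 456) (nat_lit 3823053633) (nat_lit 532) (nat_lit 4377017383) (nat_lit 49) (nat_lit 5) (nat_lit 55) (nat_lit 5) (nat_lit 56) (nat_lit 5) (nat_lit 260) (nat_lit 242) (nat_lit 218))) (XT.nd (nat_lit 78) (nat_lit 0) (nat_lit 0) (XT.lf (nat_lit 0) (nat_lit 4305682661) (nat_lit 456) (nat_lit 1616214919) (nat_lit 532) (nat_lit 2661915904) (nat_lit 49) (nat_lit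 5) (nat_lit 55) (nat_lit 5) (nat_lit 56) (nat_lit 5) (nat_lit 261) (nat_lit 242) (nat_lit 217)) (XT.lf (nat_lit 0) (nat_lit 7870514969) (nat_lit 532) (nat_lit 246136181) (nat_lit 76) (nat_lit 680004282) (nat_lit 49) (nat_lit 5) (nat_lit 56) (nat_lit 5) (nat_lit 50) (nat_lit 5) (nat_lit 262) (nat_lit 242) (nat_lit 216))))) (XT.nd (nat_lit 312) (nat_lit 532) (nat_lit 0) (XT.nd (nat_lit 156) (nat_lit 304) (nat_lit 0) (XT.nd (nat_lit 78) (nat_lit 0) (nat_lit 0) (XT.lf (nat_lit 0) (nat_lit 887831622) (nat_lit 380) (nat_lit 5015843425) (nat_lit 76) (nat_lit 3115175451) (nat_lit 44) (nat_lit 5) (nat_lit 49) (nat_lit 5) (nat_lit 45) (nat_lit 5) (nat_lit 263) (nat_lit 242) (nat_lit 215)) (XT.lf (nat_lit 0) (nat_lit 2697267584) (nat_lit 380) (nat_lit 867069715) (nat_lit 76) (nat_lit 5690660361) (nat_lit 44) (nat_lit 5) (nat_lit 49) (nat_lit 5) (nat_lit 45) (nat_lit 5) (nat_lit 264) (nat_lit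 242) (nat_lit 214))) (XT.nd (nat_lit 78) (nat_lit 0) (nat_lit 0) (XT.lf (nat_lit 0) (nat_lit 3532662674) (nat_lit 304) (nat_lit 1054574953) (nat_lit 380) (nat_lit 4916588542) (nat_lit 40) (nat_lit 5) (nat_lit 44) (nat_lit 5) (nat_lit 45) (nat_lit 5) (nat_lit 265) (nat_lit 242) (nat_lit 213)) (XT.lf (nat_lit 0) (nat_lit 6548165011) (nat_lit 380) (nat_lit 1678651000) (nat_lit 76) (nat_lit 1539816297) (nat_lit 40) (nat_lit 5) (nat_lit 45) (nat_lit 5) (nat_lit 41) (nat_lit 5) (nat_lit 266) (nat_lit 242) (nat_lit 212)))) (XT.nd (nat_lit 156) (nat_lit 228) (nat_lit 0) (XT.nd (nat_lit 78) (nat_lit 76) (nat_lit 0) (XT.lf (nat_lit 0) (nat_lit 2833454883) (nat_lit 228) (nat_lit 5775072158) (nat_lit 304) (nat_lit 1434324342) (nat_lit 37) (nat_lit 5) (nat_lit 40) (nat_lit 5) (nat_lit 41) (nat_lit 5) (nat_lit 267) (nat_lit 242) (nat_lit 211)) (XT.lf (nat_lit 0) (nat_lit 394272040) (nat_lit 304)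 (nat_lit 2778944825) (nat_lit 76) (nat_lit 7161167178) (nat_lit 36) (nat_lit 5) (nat_lit 40) (nat_lit 5) (nat_lit 37) (nat_lit 5) (nat_lit 268) (nat_lit 242) (nat_lit 210))) (XT.nd (nat_lit 78) (nat_lit 0) (nat_lit 0) (XT.lf (nat_lit 0) (nat_lit 1842182587) (nat_lit 228) (nat_lit 395915569) (nat_lit 304) (nat_lit 8402914843) (nat_lit 33) (nat_lit 5) (nat_lit 36) (nat_lit 5) (nat_lit 37) (nat_lit 5) (nat_lit 269) (nat_lit 242) (nat_lit 209)) (XT.lf (nat_lit 0) (nat_lit 4206065014) (nat_lit 304) (nat_lit 4277996960) (nat_lit 76) (nat_lit 2477595357) (nat_lit 33) (nat_lit 5) (nat_lit 37) (nat_lit 5) (nat_lit 34) (nat_lit 5) (nat_lit 270) (nat_lit 242) (nat_lit 208)))))))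
noncomputable def xc99 : XT := (XT.nd (nat_lit 1248) (nat_lit 608) (nat_lit 0) (XT.nd (nat_lit 624) (nat_lit 608) (nat_lit 0) (XT.nd (nat_lit 312) (nat_lit 152) (nat_lit 0) (XT.nd (nat_lit 156) (nat_lit 304) (nat_lit 0) (XT.nd (nat_lit 78) (nat_lit 0) (nat_lit 0) (XT.lf (nat_lit 0) (nat_lit 410672735) (nat_lit 228) (nat_lit 5822056754) (nat_lit 304) (nat_lit 5067857427) (nat_lit 30) (nat_lit 5) (nat_lit 33) (nat_lit 5) (nat_lit 34) (nat_lit 5) (nat_lit 271) (nat_lit 242) (nat_lit 207)) (XT.lf (nat_lit 0) (nat_lit 5418485324) (nat_lit 228) (nat_lit 2963597519) (nat_lit 304) (nat_lit 3273567593) (nat_lit 30) (nat_lit 5) (nat_lit 33) (nat_lit 5) (nat_lit 34) (nat_lit 5) (nat_lit 272) (nat_lit 242) (nat_lit 206))) (XT.nd (nat_lit 78) (nat_lit 304) (nat_lit 0) (XT.lf (nat_lit 0) (nat_lit 10590643438) (nat_lit 304) (nat_lit 1415629816) (nat_lit 76) (nat_lit 24849984) (nat_lit 30) (nat_lit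 5) (nat_lit 34) (nat_lit 5) (nat_lit 31) (nat_lit 5) (nat_lit 273) (nat_lit 242) (nat_lit 205)) (XT.lf (nat_lit 0) (nat_lit 528634501) (nat_lit 304) (nat_lit 8776034200) (nat_lit 76) (nat_lit 3117549851) (nat_lit 26) (nat_lit 5) (nat_lit 30) (nat_lit 5) (nat_lit 27) (nat_lit 5) (nat_lit 274) (nat_lit 242) (nat_lit 204)))) (XT.nd (nat_lit 156) (nat_lit 0) (nat_lit 0) (XT.nd (nat_lit 78) (nat_lit 152) (nat_lit 0) (XT.lf (nat_lit 0) (nat_lit 2525973187) (nat_lit 304) (nat_lit 3906454967) (nat_lit 76) (nat_lit 6400560829) (nat_lit 26) (nat_lit 5) (nat_lit 30) (nat_lit 5) (nat_lit 27) (nat_lit 5) (nat_lit 275) (nat_lit 242) (nat_lit 203)) (XT.lf (nat_lit 0) (nat_lit 1186468770) (nat_lit 152) (nat_lit 3411244461) (nat_lit 228) (nat_lit 8668057970) (nat_lit 24) (nat_lit 5) (nat_lit 26) (nat_lit 5) (nat_lit 27) (nat_lit 5) (nat_lit 276) (nat_lit 242) (nat_lit 202))) (XT.nd (nat_lit 78) (nat_lit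 0) (nat_lit 0) (XT.lf (nat_lit 0) (nat_lit 6612490365) (nat_lit 152) (nat_lit 183920077) (nat_lit 228) (nat_lit 6922804043) (nat_lit 24) (nat_lit 5) (nat_lit 26) (nat_lit 5) (nat_lit 27) (nat_lit 5) (nat_lit 277) (nat_lit 242) (nat_lit 201)) (XT.lf (nat_lit 0) (nat_lit 9114114042) (nat_lit 228) (nat_lit 1992006524) (nat_lit 76) (nat_lit 3088937183) (nat_lit 24) (nat_lit 5) (nat_lit 27) (nat_lit 5) (nat_lit 25) (nat_lit 5) (nat_lit 278) (nat_lit 242) (nat_lit 200))))) (XT.nd (nat_lit 312) (nat_lit 152) (nat_lit 0) (XT.nd (nat_lit 156) (nat_lit 228) (nat_lit 0) (XT.nd (nat_lit 78) (nat_lit 0) (nat_lit 0) (XT.lf (nat_lit 0) (nat_lit 3431495260) (nat_lit 228) (nat_lit 8133784645) (nat_lit 304) (nat_lit 3128707173) (nat_lit 21) (nat_lit 5) (nat_lit 24) (nat_lit 5) (nat_lit 25) (nat_lit 5) (nat_lit 279) (nat_lit 242) (nat_lit 199)) (XT.lf (nat_lit 0) (nat_lit 9142431407) (nat_lit 228) (nat_lit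 4992326867) (nat_lit 304) (nat_lit 1083481416) (nat_lit 21) (nat_lit 5) (nat_lit 24) (nat_lit 5) (nat_lit 25) (nat_lit 5) (nat_lit 280) (nat_lit 242) (nat_lit 198))) (XT.nd (nat_lit 78) (nat_lit 152) (nat_lit 0) (XT.lf (nat_lit 0) (nat_lit 993033384) (nat_lit 304) (nat_lit 698152281) (nat_lit 76) (nat_lit 14078683767) (nat_lit 20) (nat_lit 5) (nat_lit 24) (nat_lit 5) (nat_lit 21) (nat_lit 5) (nat_lit 281) (nat_lit 242) (nat_lit 197)) (XT.lf (nat_lit 0) (nat_lit 3209607909) (nat_lit 228) (nat_lit 11332492012) (nat_lit 76) (nat_lit 1802602463) (nat_lit 18) (nat_lit 5) (nat_lit 21) (nat_lit 5) (nat_lit 19) (nat_lit 5) (nat_lit 282) (nat_lit 242) (nat_lit 196)))) (XT.nd (nat_lit 156) (nat_lit 152) (nat_lit 0) (XT.nd (nat_lit 78) (nat_lit 0) (nat_lit 0) (XT.lf (nat_lit 0) (nat_lit 5542288180) (nat_lit 228) (nat_lit 5993389985) (nat_lit 76) (nat_lit 5412470326) (nat_lit 18) (nat_lit 5)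 (nat_lit 21) (nat_lit 5) (nat_lit 19) (nat_lit 5) (nat_lit 283) (nat_lit 242) (nat_lit 195)) (XT.lf (nat_lit 0) (nat_lit 7958778930) (nat_lit 228) (nat_lit 435061833) (nat_lit 76) (nat_lit 9189696230) (nat_lit 18) (nat_lit 5) (nat_lit 21) (nat_lit 5) (nat_lit 19) (nat_lit 5) (nat_lit 284) (nat_lit 242) (nat_lit 194))) (XT.nd (nat_lit 78) (nat_lit 0) (nat_lit 0) (XT.lf (nat_lit 0) (nat_lit 5532811065) (nat_lit 152) (nat_lit 5018405329) (nat_lit 228) (nat_lit 7696845191) (nat_lit 16) (nat_lit 5) (nat_lit 18) (nat_lit 5) (nat_lit 19) (nat_lit 5) (nat_lit 285) (nat_lit 242) (nat_lit 193)) (XT.lf (nat_lit 0) (nat_lit 11769458969) (nat_lit 152) (nat_lit 1480714580) (nat_lit 228) (nat_lit 5696910893) (nat_lit 16) (nat_lit 5) (nat_lit 18) (nat_lit 5) (nat_lit 19) (nat_lit 5) (nat_lit 286) (nat_lit 242) (nat_lit 192)))))) (XT.nd (nat_lit 624) (nat_lit 304) (nat_lit 0) (XT.nd (nat_lit 312)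 (nat_lit 152) (nat_lit 0) (XT.nd (nat_lit 156) (nat_lit 76) (nat_lit 0) (XT.nd (nat_lit 78) (nat_lit 76) (nat_lit 0) (XT.lf (nat_lit 0) (nat_lit 16089724255) (nat_lit 228) (nat_lit 1441939728) (nat_lit 76) (nat_lit 2149223537) (nat_lit 16) (nat_lit 5) (nat_lit 19) (nat_lit 5) (nat_lit 17) (nat_lit 4) (nat_lit 287) (nat_lit 242) (nat_lit 191)) (XT.lf (nat_lit 0) (nat_lit 4663671749) (nat_lit 76) (nat_lit 14476828565) (nat_lit 152) (nat_lit 1307524101) (nat_lit 15) (nat_lit 5) (nat_lit 16) (nat_lit 5) (nat_lit 17) (nat_lit 4) (nat_lit 288) (nat_lit 242) (nat_lit 190))) (XT.nd (nat_lit 78) (nat_lit 0) (nat_lit 0) (XT.lf (nat_lit 0) (nat_lit 1052521643) (nat_lit 152) (nat_lit 10187283597) (nat_lit 76) (nat_lit 10013101935) (nat_lit 14) (nat_lit 5) (nat_lit 16) (nat_lit 5) (nat_lit 15) (nat_lit 5) (nat_lit 289) (nat_lit 242) (nat_lit 189)) (XT.lf (nat_lit 0) (nat_lit 3460247972) (nat_lit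 152) (nat_lit 4371975144) (nat_lit 76) (nat_lit 14266149849) (nat_lit 14) (nat_lit 5) (nat_lit 16) (nat_lit 5) (nat_lit 15) (nat_lit 5) (nat_lit 290) (nat_lit 242) (nat_lit 188)))) (XT.nd (nat_lit 156) (nat_lit 0) (nat_lit 0) (XT.nd (nat_lit 78) (nat_lit 0) (nat_lit 0) (XT.lf (nat_lit 0) (nat_lit 1751904671) (nat_lit 152) (nat_lit 4238683974) (nat_lit 228) (nat_lit 16995499251) (nat_lit 12) (nat_lit 5) (nat_lit 14) (nat_lit 5) (nat_lit 15) (nat_lit 5) (nat_lit 291) (nat_lit 242) (nat_lit 187)) (XT.lf (nat_lit 0) (nat_lit 8296114823) (nat_lit 152) (nat_lit 400857511) (nat_lit 228) (nat_lit 15218823037) (nat_lit 12) (nat_lit 5) (nat_lit 14) (nat_lit 5) (nat_lit 15) (nat_lit 5) (nat_lit 292) (nat_lit 242) (nat_lit 186))) (XT.nd (nat_lit 78) (nat_lit 0) (nat_lit 0) (XT.lf (nat_lit 0) (nat_lit 11571788482) (nat_lit 228) (nat_lit 9818016643) (nat_lit 76) (nat_lit 3500606575) (nat_lit 12)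 (nat_lit 5) (nat_lit 15) (nat_lit 5) (nat_lit 13) (nat_lit 4) (nat_lit 293) (nat_lit 242) (nat_lit 185)) (XT.lf (nat_lit 0) (nat_lit 14574494578) (nat_lit 228) (nat_lit 3767990714) (nat_lit 76) (nat_lit 7572141467) (nat_lit 12) (nat_lit 5) (nat_lit 15) (nat_lit 5) (nat_lit 13) (nat_lit 4) (nat_lit 294) (nat_lit 242) (nat_lit 184))))) (XT.nd (nat_lit 312) (nat_lit 228) (nat_lit 0) (XT.nd (nat_lit 156) (nat_lit 0) (nat_lit 0) (XT.nd (nat_lit 78) (nat_lit 0) (nat_lit 0) (XT.lf (nat_lit 0) (nat_lit 2635410152) (nat_lit 76) (nat_lit 15111717400) (nat_lit 152) (nat_lit 9242007223) (nat_lit 11) (nat_lit 5) (nat_lit 12) (nat_lit 5) (nat_lit 13) (nat_lit 4) (nat_lit 295) (nat_lit 242) (nat_lit 183)) (XT.lf (nat_lit 0) (nat_lit 9456861185) (nat_lit 76) (nat_lit 11664491834) (nat_lit 152) (nat_lit 6993935498) (nat_lit 11) (nat_lit 5) (nat_lit 12) (nat_lit 5) (nat_lit 13) (nat_lit 4) (nat_lit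 296) (nat_lit 242) (nat_lit 182))) (XT.nd (nat_lit 78) (nat_lit 0) (nat_lit 0) (XT.lf (nat_lit 0) (nat_lit 16588017145) (nat_lit 76) (nat_lit 8056413659) (nat_lit 152) (nat_lit 4654377199) (nat_lit 11) (nat_lit 5) (nat_lit 12) (nat_lit 5) (nat_lit 13) (nat_lit 4) (nat_lit 297) (nat_lit 242) (nat_lit 181)) (XT.lf (nat_lit 0) (nat_lit 24045856973) (nat_lit 76) (nat_lit 4278892213) (nat_lit 152) (nat_lit 2217761950) (nat_lit 11) (nat_lit 5) (nat_lit 12) (nat_lit 5) (nat_lit 13) (nat_lit 4) (nat_lit 298) (nat_lit 242) (nat_lit 180)))) (XT.nd (nat_lit 156) (nat_lit 0) (nat_lit 0) (XT.nd (nat_lit 78) (nat_lit 152) (nat_lit 0) (XT.lf (nat_lit 0) (nat_lit 311414929) (nat_lit 152) (nat_lit 6244505) (nat_lit 76) (nat_lit 31531448539) (nat_lit 10) (nat_lit 5) (nat_lit 12) (nat_lit 5) (nat_lit 11) (nat_lit 5) (nat_lit 299) (nat_lit 242) (nat_lit 179)) (XT.lf (nat_lit 0) (nat_lit 3046010805) (nat_lit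 228) (nat_lit 26309296505) (nat_lit 76) (nat_lit 3856288498) (nat_lit 8) (nat_lit 5) (nat_lit 11) (nat_lit 5) (nat_lit 9) (nat_lit 4) (nat_lit 300) (nat_lit 242) (nat_lit 178))) (XT.nd (nat_lit 78) (nat_lit 0) (nat_lit 0) (XT.lf (nat_lit 0) (nat_lit 5905408645) (nat_lit 228) (nat_lit 20518952083) (nat_lit 76) (nat_lit 8218494711) (nat_lit 8) (nat_lit 5) (nat_lit 11) (nat_lit 5) (nat_lit 9) (nat_lit 4) (nat_lit 301) (nat_lit 242) (nat_lit 177)) (XT.nd (nat_lit 78) (nat_lit 0) (nat_lit 0) (XT.lf (nat_lit 0) (nat_lit 8891354618) (nat_lit 228) (nat_lit 14465782982) (nat_lit 76) (nat_lit 12789410126) (nat_lit 8) (nat_lit 5) (nat_lit 11) (nat_lit 5) (nat_lit 9) (nat_lit 4) (nat_lit 302) (nat_lit 242) (nat_lit 176)) (XT.lf (nat_lit 0) (nat_lit 12010958118) (nat_lit 228) (nat_lit 8135376896) (nat_lit 76) (nat_lit 17579917874) (nat_lit 8) (nat_lit 5) (nat_lit 11) (nat_lit 5) (nat_lit 9) (nat_lit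 4) (nat_lit 303) (nat_lit 242) (nat_lit 175))))))))
noncomputable def xc100 : XT := (XT.nd (nat_lit 1248) (nat_lit 152) (nat_lit 0) (XT.nd (nat_lit 624) (nat_lit 76) (nat_lit 0) (XT.nd (nat_lit 312) (nat_lit 76) (nat_lit 0) (XT.nd (nat_lit 156) (nat_lit 0) (nat_lit 0) (XT.nd (nat_lit 78) (nat_lit 76) (nat_lit 0) (XT.lf (nat_lit 0) (nat_lit 15271646773) (nat_lit 228) (nat_lit 1512661429) (nat_lit 76) (nat_lit 22601423926) (nat_lit 8) (nat_lit 5) (nat_lit 11) (nat_lit 5) (nat_lit 9) (nat_lit 4) (nat_lit 304) (nat_lit 242) (nat_lit 174)) (XT.lf (nat_lit 0) (nat_lit 5597279695) (nat_lit 76) (nat_lit 13171293655) (nat_lit 152) (nat_lit 22355993777) (nat_lit 7) (nat_lit 5) (nat_lit 8) (nat_lit 5) (nat_lit 9) (nat_lit 4) (nat_lit 305) (nat_lit 242) (nat_lit 173))) (XT.nd (nat_lit 78) (nat_lit 0) (nat_lit 0) (XT.lf (nat_lit 0) (nat_lit 13092547946) (nat_lit 76) (nat_lit 9359551546) (nat_lit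 152) (nat_lit 20497696692) (nat_lit 7) (nat_lit 5) (nat_lit 8) (nat_lit 5) (nat_lit 9) (nat_lit 4) (nat_lit 306) (nat_lit 242) (nat_lit 172)) (XT.lf (nat_lit 0) (nat_lit 20940973783) (nat_lit 76) (nat_lit 5365623953) (nat_lit 152) (nat_lit 18560387237) (nat_lit 7) (nat_lit 5) (nat_lit 8) (nat_lit 5) (nat_lit 9) (nat_lit 4) (nat_lit 307) (nat_lit 242) (nat_lit 171)))) (XT.nd (nat_lit 156) (nat_lit 76) (nat_lit 0) (XT.nd (nat_lit 78) (nat_lit 0) (nat_lit 0) (XT.lf (nat_lit 0) (nat_lit 29161243934) (nat_lit 76) (nat_lit 1180001524) (nat_lit 152) (nat_lit 16539452772) (nat_lit 7) (nat_lit 5) (nat_lit 8) (nat_lit 5) (nat_lit 9) (nat_lit 4) (nat_lit 308) (nat_lit 242) (nat_lit 170)) (XT.lf (nat_lit 0) (nat_lit 34615723615) (nat_lit 152) (nat_lit 11272874690) (nat_lit 0) (nat_lit 3104628470) (nat_lit 7) (nat_lit 5) (nat_lit 9) (nat_lit 4) (nat_lit 7) (nat_lit 4) (nat_lit 309) (nat_lit 242)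 (nat_lit 169))) (XT.nd (nat_lit 78) (nat_lit 76) (nat_lit 0) (XT.lf (nat_lit 0) (nat_lit 39111750365) (nat_lit 152) (nat_lit 4542464204) (nat_lit 0) (nat_lit 7556808829) (nat_lit 7) (nat_lit 5) (nat_lit 9) (nat_lit 4) (nat_lit 7) (nat_lit 4) (nat_lit 310) (nat_lit 242) (nat_lit 168)) (XT.lf (nat_lit 0) (nat_lit 2589092198) (nat_lit 76) (nat_lit 41272938190) (nat_lit 76) (nat_lit 9676238186) (nat_lit 6) (nat_lit 4) (nat_lit 7) (nat_lit 5) (nat_lit 7) (nat_lit 4) (nat_lit 311) (nat_lit 242) (nat_lit 167))))) (XT.nd (nat_lit 312) (nat_lit 0) (nat_lit 0) (XT.nd (nat_lit 156) (nat_lit 76) (nat_lit 0) (XT.nd (nat_lit 78) (nat_lit 0) (nat_lit 0) (XT.lf (nat_lit 0) (nat_lit 10216983016) (nat_lit 76) (nat_lit 38699041397) (nat_lit 76) (nat_lit 7062571423) (nat_lit 6) (nat_lit 4) (nat_lit 7) (nat_lit 5) (nat_lit 7) (nat_lit 4) (nat_lit 312) (nat_lit 242) (nat_lit 166)) (XT.lf (nat_lit 0) (nat_lit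 18209175513) (nat_lit 76) (nat_lit 36003324694) (nat_lit 76) (nat_lit 4328978559) (nat_lit 6) (nat_lit 4) (nat_lit 7) (nat_lit 5) (nat_lit 7) (nat_lit 4) (nat_lit 313) (nat_lit 242) (nat_lit 165))) (XT.nd (nat_lit 78) (nat_lit 76) (nat_lit 0) (XT.lf (nat_lit 0) (nat_lit 26584698718) (nat_lit 76) (nat_lit 33179369708) (nat_lit 76) (nat_lit 1468951038) (nat_lit 6) (nat_lit 4) (nat_lit 7) (nat_lit 5) (nat_lit 7) (nat_lit 4) (nat_lit 314) (nat_lit 242) (nat_lit 164)) (XT.lf (nat_lit 0) (nat_lit 1475532944) (nat_lit 152) (nat_lit 28719930927) (nat_lit 76) (nat_lit 33862972545) (nat_lit 5) (nat_lit 5) (nat_lit 7) (nat_lit 5) (nat_lit 6) (nat_lit 4) (nat_lit 315) (nat_lit 242) (nat_lit 163)))) (XT.nd (nat_lit 156) (nat_lit 0) (nat_lit 0) (XT.nd (nat_lit 78) (nat_lit 0) (nat_lit 0) (XT.lf (nat_lit 0) (nat_lit 4508879653) (nat_lit 152) (nat_lit 22534289027) (nat_lit 76) (nat_lit 39981224603)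 (nat_lit 5) (nat_lit 5) (nat_lit 7) (nat_lit 5) (nat_lit 6) (nat_lit 4) (nat_lit 316) (nat_lit 242) (nat_lit 162)) (XT.lf (nat_lit 0) (nat_lit 7685326947) (nat_lit 152) (nat_lit 16053732885) (nat_lit 76) (nat_lit 46400038755) (nat_lit 5) (nat_lit 5) (nat_lit 7) (nat_lit 5) (nat_lit 6) (nat_lit 4) (nat_lit 317) (nat_lit 242) (nat_lit 161))) (XT.nd (nat_lit 78) (nat_lit 0) (nat_lit 0) (XT.lf (nat_lit 0) (nat_lit 11012437798) (nat_lit 152) (nat_lit 9262832605) (nat_lit 76) (nat_lit 53134697892) (nat_lit 5) (nat_lit 5) (nat_lit 7) (nat_lit 5) (nat_lit 6) (nat_lit 4) (nat_lit 318) (nat_lit 242) (nat_lit 160)) (XT.lf (nat_lit 0) (nat_lit 14498133896) (nat_lit 152) (nat_lit 2145419378) (nat_lit 76) (nat_lit 60201236918) (nat_lit 5) (nat_lit 5) (nat_lit 7) (nat_lit 5) (nat_lit 6) (nat_lit 4) (nat_lit 319) (nat_lit 242) (nat_lit 159)))))) (XT.nd (nat_lit 624) (nat_lit 76) (nat_lit 0) (XT.nd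 (nat_lit 312) (nat_lit 0) (nat_lit 0) (XT.nd (nat_lit 156) (nat_lit 0) (nat_lit 0) (XT.nd (nat_lit 78) (nat_lit 0) (nat_lit 0) (XT.lf (nat_lit 0) (nat_lit 5491205900) (nat_lit 76) (nat_lit 12745241732) (nat_lit 152) (nat_lit 62211008137) (nat_lit 4) (nat_lit 5) (nat_lit 5) (nat_lit 5) (nat_lit 6) (nat_lit 4) (nat_lit 320) (nat_lit 242) (nat_lit 158)) (XT.lf (nat_lit 0) (nat_lit 13571935252) (nat_lit 76) (nat_lit 8618836979) (nat_lit 152) (nat_lit 62038045945) (nat_lit 4) (nat_lit 5) (nat_lit 5) (nat_lit 5) (nat_lit 6) (nat_lit 4) (nat_lit 321) (nat_lit 242) (nat_lit 157))) (XT.nd (nat_lit 78) (nat_lit 0) (nat_lit 0) (XT.lf (nat_lit 0) (nat_lit 22045071257) (nat_lit 76) (nat_lit 4290847958) (nat_lit 152) (nat_lit 61863691623) (nat_lit 4) (nat_lit 5) (nat_lit 5) (nat_lit 5) (nat_lit 6) (nat_lit 4) (nat_lit 322) (nat_lit 242) (nat_lit 156)) (XT.lf (nat_lit 0) (nat_lit 30685646038) (nat_lit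 152) (nat_lit 61442388030) (nat_lit 0) (nat_lit 241059549) (nat_lit 4) (nat_lit 5) (nat_lit 6) (nat_lit 4) (nat_lit 4) (nat_lit 4) (nat_lit 323) (nat_lit 242) (nat_lit 155)))) (XT.nd (nat_lit 156) (nat_lit 0) (nat_lit 0) (XT.nd (nat_lit 78) (nat_lit 0) (nat_lit 0) (XT.lf (nat_lit 0) (nat_lit 35316880981) (nat_lit 152) (nat_lit 56575780653) (nat_lit 0) (nat_lit 4851203629) (nat_lit 4) (nat_lit 5) (nat_lit 6) (nat_lit 4) (nat_lit 4) (nat_lit 4) (nat_lit 324) (nat_lit 242) (nat_lit 154)) (XT.lf (nat_lit 0) (nat_lit 40173658635) (nat_lit 152) (nat_lit 51476138128) (nat_lit 0) (nat_lit 9687894745) (nat_lit 4) (nat_lit 5) (nat_lit 6) (nat_lit 4) (nat_lit 4) (nat_lit 4) (nat_lit 325) (nat_lit 242) (nat_lit 153))) (XT.nd (nat_lit 78) (nat_lit 0) (nat_lit 0) (XT.lf (nat_lit 0) (nat_lit 45267542754) (nat_lit 152) (nat_lit 46131318450) (nat_lit 0) (nat_lit 14762648829) (nat_lit 4) (nat_lit 5)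 (nat_lit 6) (nat_lit 4) (nat_lit 4) (nat_lit 4) (nat_lit 326) (nat_lit 242) (nat_lit 152)) (XT.lf (nat_lit 0) (nat_lit 50610661636) (nat_lit 152) (nat_lit 40528595858) (nat_lit 0) (nat_lit 20087548630) (nat_lit 4) (nat_lit 5) (nat_lit 6) (nat_lit 4) (nat_lit 4) (nat_lit 4) (nat_lit 327) (nat_lit 242) (nat_lit 151))))) (XT.nd (nat_lit 312) (nat_lit 76) (nat_lit 0) (XT.nd (nat_lit 156) (nat_lit 0) (nat_lit 0) (XT.nd (nat_lit 78) (nat_lit 0) (nat_lit 0) (XT.lf (nat_lit 0) (nat_lit 56215736990) (nat_lit 152) (nat_lit 34654630535) (nat_lit 0) (nat_lit 25675272478) (nat_lit 4) (nat_lit 5) (nat_lit 6) (nat_lit 4) (nat_lit 4) (nat_lit 4) (nat_lit 328) (nat_lit 242) (nat_lit 150)) (XT.lf (nat_lit 0) (nat_lit 62096114236) (nat_lit 152) (nat_lit 28495436850) (nat_lit 0) (nat_lit 31539124480) (nat_lit 4) (nat_lit 5) (nat_lit 6) (nat_lit 4) (nat_lit 4) (nat_lit 4) (nat_lit 329) (nat_lit 242) (nat_lit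 149))) (XT.nd (nat_lit 78) (nat_lit 0) (nat_lit 0) (XT.lf (nat_lit 0) (nat_lit 68265794270) (nat_lit 152) (nat_lit 22036350056) (nat_lit 0) (nat_lit 37693066187) (nat_lit 4) (nat_lit 5) (nat_lit 6) (nat_lit 4) (nat_lit 4) (nat_lit 4) (nat_lit 330) (nat_lit 242) (nat_lit 148)) (XT.lf (nat_lit 0) (nat_lit 74739466808) (nat_lit 152) (nat_lit 15261991376) (nat_lit 0) (nat_lit 44151749842) (nat_lit 4) (nat_lit 5) (nat_lit 6) (nat_lit 4) (nat_lit 4) (nat_lit 4) (nat_lit 331) (nat_lit 242) (nat_lit 147)))) (XT.nd (nat_lit 156) (nat_lit 76) (nat_lit 0) (XT.nd (nat_lit 78) (nat_lit 0) (nat_lit 0) (XT.lf (nat_lit 0) (nat_lit 81532545355) (nat_lit 152) (nat_lit 8156231383) (nat_lit 0) (nat_lit 50930553262) (nat_lit 4) (nat_lit 5) (nat_lit 6) (nat_lit 4) (nat_lit 4) (nat_lit 4) (nat_lit 332) (nat_lit 242) (nat_lit 146)) (XT.lf (nat_lit 0) (nat_lit 88661203909) (nat_lit 152) (nat_lit 702151601)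 (nat_lit 0) (nat_lit 58045616456) (nat_lit 4) (nat_lit 5) (nat_lit 6) (nat_lit 4) (nat_lit 4) (nat_lit 4) (nat_lit 333) (nat_lit 242) (nat_lit 145))) (XT.nd (nat_lit 78) (nat_lit 0) (nat_lit 0) (XT.lf (nat_lit 0) (nat_lit 7353348863) (nat_lit 76) (nat_lit 88903872984) (nat_lit 76) (nat_lit 58275337571) (nat_lit 3) (nat_lit 4) (nat_lit 4) (nat_lit 5) (nat_lit 4) (nat_lit 4) (nat_lit 334) (nat_lit 242) (nat_lit 144)) (XT.lf (nat_lit 0) (nat_lit 15829472117) (nat_lit 76) (nat_lit 88411662735) (nat_lit 76) (nat_lit 57770795931) (nat_lit 3) (nat_lit 4) (nat_lit 4) (nat_lit 5) (nat_lit 4) (nat_lit 4) (nat_lit 335) (nat_lit 242) (nat_lit 143)))))))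
noncomputable def xc101 : XT := (XT.nd (nat_lit 1248) (nat_lit 0) (nat_lit 0) (XT.nd (nat_lit 624) (nat_lit 0) (nat_lit 0) (XT.nd (nat_lit 312) (nat_lit 0) (nat_lit 0) (XT.nd (nat_lit 156) (nat_lit 0) (nat_lit 0) (XT.nd (nat_lit 78) (nat_lit 0) (nat_lit 0) (XT.lf (nat_lit 0) (nat_lit 24723183102) (nat_lit 76) (nat_lit 87897444112) (nat_lit 76) (nat_lit 57244833125) (nat_lit 3) (nat_lit 4) (nat_lit 4) (nat_lit 5) (nat_lit 4) (nat_lit 4) (nat_lit 336) (nat_lit 242) (nat_lit 142)) (XT.lf (nat_lit 0) (nat_lit 34055657321) (nat_lit 76) (nat_lit 87359992784) (nat_lit 76) (nat_lit 56696196862) (nat_lit 3) (nat_lit 4) (nat_lit 4) (nat_lit 5) (nat_lit 4) (nat_lit 4) (nat_lit 337) (nat_lit 242) (nat_lit 141))) (XT.nd (nat_lit 78) (nat_lit 0) (nat_lit 0) (XT.lf (nat_lit 0) (nat_lit 43849114950) (nat_lit 76) (nat_lit 86798029105) (nat_lit 76) (nat_lit 56123580863) (nat_lit 3) (nat_lit 4) (nat_lit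 4) (nat_lit 5) (nat_lit 4) (nat_lit 4) (nat_lit 338) (nat_lit 242) (nat_lit 140)) (XT.lf (nat_lit 0) (nat_lit 54126873746) (nat_lit 76) (nat_lit 86210215066) (nat_lit 76) (nat_lit 55525621759) (nat_lit 3) (nat_lit 4) (nat_lit 4) (nat_lit 5) (nat_lit 4) (nat_lit 4) (nat_lit 339) (nat_lit 242) (nat_lit 139)))) (XT.nd (nat_lit 156) (nat_lit 0) (nat_lit 0) (XT.nd (nat_lit 78) (nat_lit 0) (nat_lit 0) (XT.lf (nat_lit 0) (nat_lit 64913404563) (nat_lit 76) (nat_lit 85595151111) (nat_lit 76) (nat_lit 54900895836) (nat_lit 3) (nat_lit 4) (nat_lit 4) (nat_lit 5) (nat_lit 4) (nat_lit 4) (nat_lit 340) (nat_lit 242) (nat_lit 138)) (XT.lf (nat_lit 0) (nat_lit 76234389616) (nat_lit 76) (nat_lit 84951372801) (nat_lit 76) (nat_lit 54247915652) (nat_lit 3) (nat_lit 4) (nat_lit 4) (nat_lit 5) (nat_lit 4) (nat_lit 4) (nat_lit 341) (nat_lit 242) (nat_lit 137))) (XT.nd (nat_lit 78) (nat_lit 0) (nat_lit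 0) (XT.lf (nat_lit 0) (nat_lit 88116783634) (nat_lit 76) (nat_lit 84277347331) (nat_lit 76) (nat_lit 53565126492) (nat_lit 3) (nat_lit 4) (nat_lit 4) (nat_lit 5) (nat_lit 4) (nat_lit 4) (nat_lit 342) (nat_lit 242) (nat_lit 136)) (XT.lf (nat_lit 0) (nat_lit 100588878029) (nat_lit 76) (nat_lit 83571469878) (nat_lit 76) (nat_lit 52850902668) (nat_lit 3) (nat_lit 4) (nat_lit 4) (nat_lit 5) (nat_lit 4) (nat_lit 4) (nat_lit 343) (nat_lit 242) (nat_lit 135))))) (XT.nd (nat_lit 312) (nat_lit 0) (nat_lit 0) (XT.nd (nat_lit 156) (nat_lit 0) (nat_lit 0) (XT.nd (nat_lit 78) (nat_lit 0) (nat_lit 0) (XT.lf (nat_lit 0) (nat_lit 113680368264) (nat_lit 76) (nat_lit 82832059782) (nat_lit 76) (nat_lit 52103543647) (nat_lit 3) (nat_lit 4) (nat_lit 4) (nat_lit 5) (nat_lit 4) (nat_lit 4) (nat_lit 344) (nat_lit 242) (nat_lit 134)) (XT.lf (nat_lit 0) (nat_lit 127422424556) (nat_lit 76) (nat_lit 82057356542)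 (nat_lit 76) (nat_lit 51321270003) (nat_lit 3) (nat_lit 4) (nat_lit 4) (nat_lit 5) (nat_lit 4) (nat_lit 4) (nat_lit 345) (nat_lit 242) (nat_lit 133))) (XT.nd (nat_lit 78) (nat_lit 0) (nat_lit 0) (XT.lf (nat_lit 0) (nat_lit 141847766084) (nat_lit 76) (nat_lit 81245515627) (nat_lit 76) (nat_lit 50502219178) (nat_lit 3) (nat_lit 4) (nat_lit 4) (nat_lit 5) (nat_lit 4) (nat_lit 4) (nat_lit 346) (nat_lit 242) (nat_lit 132)) (XT.lf (nat_lit 0) (nat_lit 156990738901) (nat_lit 76) (nat_lit 80394604082) (nat_lit 76) (nat_lit 49644441053) (nat_lit 3) (nat_lit 4) (nat_lit 4) (nat_lit 5) (nat_lit 4) (nat_lit 4) (nat_lit 347) (nat_lit 242) (nat_lit 131)))) (XT.nd (nat_lit 156) (nat_lit 0) (nat_lit 0) (XT.nd (nat_lit 78) (nat_lit 0) (nat_lit 0) (XT.lf (nat_lit 0) (nat_lit 172887397703) (nat_lit 76) (nat_lit 79502595928) (nat_lit 76) (nat_lit 48745893299) (nat_lit 3) (nat_lit 4) (nat_lit 4) (nat_lit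 5) (nat_lit 4) (nat_lit 4) (nat_lit 348) (nat_lit 242) (nat_lit 130)) (XT.lf (nat_lit 0) (nat_lit 189575591678) (nat_lit 76) (nat_lit 78567367335) (nat_lit 76) (nat_lit 47804436516) (nat_lit 3) (nat_lit 4) (nat_lit 4) (nat_lit 5) (nat_lit 4) (nat_lit 4) (nat_lit 349) (nat_lit 242) (nat_lit 129))) (XT.nd (nat_lit 78) (nat_lit 0) (nat_lit 0) (XT.lf (nat_lit 0) (nat_lit 207095054622) (nat_lit 76) (nat_lit 77586691569) (nat_lit 76) (nat_lit 46817829139) (nat_lit 3) (nat_lit 4) (nat_lit 4) (nat_lit 5) (nat_lit 4) (nat_lit 4) (nat_lit 350) (nat_lit 242) (nat_lit 128)) (XT.lf (nat_lit 0) (nat_lit 225487499541) (nat_lit 76) (nat_lit 76558233687) (nat_lit 76) (nat_lit 45783722105) (nat_lit 3) (nat_lit 4) (nat_lit 4) (nat_lit 5) (nat_lit 4) (nat_lit 4) (nat_lit 351) (nat_lit 242) (nat_lit 127)))))) (XT.nd (nat_lit 29328) (nat_lit 0) (nat_lit 5168) (XT.nd (nat_lit 29016) (nat_lit 0) (nat_lit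 6384) (XT.nd (nat_lit 156) (nat_lit 0) (nat_lit 0) (XT.nd (nat_lit 78) (nat_lit 0) (nat_lit 0) (XT.lf (nat_lit 0) (nat_lit 244796717972) (nat_lit 76) (nat_lit 75479544981) (nat_lit 76) (nat_lit 44699653254) (nat_lit 3) (nat_lit 4) (nat_lit 4) (nat_lit 5) (nat_lit 4) (nat_lit 4) (nat_lit 352) (nat_lit 242) (nat_lit 126)) (XT.lf (nat_lit 0) (nat_lit 265068684242) (nat_lit 76) (nat_lit 74348057143) (nat_lit 76) (nat_lit 43563041468) (nat_lit 3) (nat_lit 4) (nat_lit 4) (nat_lit 5) (nat_lit 4) (nat_lit 4) (nat_lit 353) (nat_lit 242) (nat_lit 125))) (XT.nd (nat_lit 78) (nat_lit 0) (nat_lit 0) (XT.lf (nat_lit 0) (nat_lit 286351664940) (nat_lit 76) (nat_lit 73161076155) (nat_lit 76) (nat_lit 42371180530) (nat_lit 3) (nat_lit 4) (nat_lit 4) (nat_lit 5) (nat_lit 4) (nat_lit 4) (nat_lit 354) (nat_lit 242) (nat_lit 124)) (XT.lf (nat_lit 0) (nat_lit 308696333827) (nat_lit 76) (nat_lit 71915775873)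 (nat_lit 76) (nat_lit 41121232676) (nat_lit 3) (nat_lit 4) (nat_lit 4) (nat_lit 5) (nat_lit 4) (nat_lit 4) (nat_lit 355) (nat_lit 242) (nat_lit 123)))) (XT.nd (nat_lit 156) (nat_lit 304) (nat_lit 0) (XT.nd (nat_lit 78) (nat_lit 0) (nat_lit 0) (XT.lf (nat_lit 0) (nat_lit 330258500) (nat_lit 0) (nat_lit 330258500) (nat_lit 228) (nat_lit 2616621820) (nat_lit 91) (nat_lit 5) (nat_lit 91) (nat_lit 3) (nat_lit 94) (nat_lit 3) (nat_lit 243) (nat_lit 243) (nat_lit 234)) (XT.lf (nat_lit 0) (nat_lit 3401019784) (nat_lit 0) (nat_lit 29843428) (nat_lit 228) (nat_lit 3164431864) (nat_lit 91) (nat_lit 5) (nat_lit 91) (nat_lit 3) (nat_lit 94) (nat_lit 3) (nat_lit 244) (nat_lit 243) (nat_lit 233))) (XT.nd (nat_lit 78) (nat_lit 304) (nat_lit 0) (XT.lf (nat_lit 0) (nat_lit 5524153292) (nat_lit 228) (nat_lit 445060380) (nat_lit 304) (nat_lit 676467433) (nat_lit 91) (nat_lit 5) (nat_lit 94) (nat_lit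 3) (nat_lit 95) (nat_lit 5) (nat_lit 245) (nat_lit 243) (nat_lit 232)) (XT.lf (nat_lit 0) (nat_lit 901298281) (nat_lit 304) (nat_lit 4270943054) (nat_lit 380) (nat_lit 1531122427) (nat_lit 87) (nat_lit 5) (nat_lit 91) (nat_lit 5) (nat_lit 92) (nat_lit 5) (nat_lit 246) (nat_lit 243) (nat_lit 231))))) (XT.nd (nat_lit 312) (nat_lit 836) (nat_lit 0) (XT.nd (nat_lit 156) (nat_lit 380) (nat_lit 0) (XT.nd (nat_lit 78) (nat_lit 0) (nat_lit 0) (XT.lf (nat_lit 0) (nat_lit 2871445585) (nat_lit 304) (nat_lit 1388604088) (nat_lit 380) (nat_lit 2509818659) (nat_lit 87) (nat_lit 5) (nat_lit 91) (nat_lit 5) (nat_lit 92) (nat_lit 5) (nat_lit 247) (nat_lit 243) (nat_lit 230)) (XT.lf (nat_lit 76) (nat_lit 1617460195) (nat_lit 0) (nat_lit 3229997639) (nat_lit 380) (nat_lit 1997872984) (nat_lit 88) (nat_lit 5) (nat_lit 87) (nat_lit 5) (nat_lit 92) (nat_lit 5) (nat_lit 248) (nat_lit 243) (nat_lit 229)))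 (XT.nd (nat_lit 78) (nat_lit 380) (nat_lit 0) (XT.lf (nat_lit 76) (nat_lit 4751040313) (nat_lit 0) (nat_lit 2081357175) (nat_lit 380) (nat_lit 97615523) (nat_lit 88) (nat_lit 5) (nat_lit 87) (nat_lit 5) (nat_lit 92) (nat_lit 5) (nat_lit 249) (nat_lit 243) (nat_lit 228)) (XT.lf (nat_lit 76) (nat_lit 951043392) (nat_lit 0) (nat_lit 790083863) (nat_lit 456) (nat_lit 5281974536) (nat_lit 83) (nat_lit 5) (nat_lit 82) (nat_lit 5) (nat_lit 88) (nat_lit 5) (nat_lit 250) (nat_lit 243) (nat_lit 227)))) (XT.nd (nat_lit 156) (nat_lit 532) (nat_lit 0) (XT.nd (nat_lit 78) (nat_lit 380) (nat_lit 0) (XT.lf (nat_lit 0) (nat_lit 3608942083) (nat_lit 380) (nat_lit 2894505061) (nat_lit 76) (nat_lit 621120252) (nat_lit 83) (nat_lit 5) (nat_lit 88) (nat_lit 5) (nat_lit 84) (nat_lit 5) (nat_lit 251) (nat_lit 243) (nat_lit 226)) (XT.lf (nat_lit 0) (nat_lit 366734150) (nat_lit 380) (nat_lit 5121210997) (nat_lit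 456) (nat_lit 1748055229) (nat_lit 78) (nat_lit 5) (nat_lit 83) (nat_lit 5) (nat_lit 84) (nat_lit 5) (nat_lit 252) (nat_lit 243) (nat_lit 225))) (XT.nd (nat_lit 78) (nat_lit 456) (nat_lit 0) (XT.lf (nat_lit 0) (nat_lit 54734168) (nat_lit 456) (nat_lit 3538302306) (nat_lit 76) (nat_lit 3763080686) (nat_lit 77) (nat_lit 5) (nat_lit 83) (nat_lit 5) (nat_lit 78) (nat_lit 5) (nat_lit 253) (nat_lit 243) (nat_lit 224)) (XT.nd (nat_lit 78) (nat_lit 456) (nat_lit 0) (XT.lf (nat_lit 0) (nat_lit 1794127033) (nat_lit 456) (nat_lit 142576521) (nat_lit 76) (nat_lit 5549520113) (nat_lit 77) (nat_lit 5) (nat_lit 83) (nat_lit 5) (nat_lit 78) (nat_lit 5) (nat_lit 254) (nat_lit 243) (nat_lit 223)) (XT.lf (nat_lit 0) (nat_lit 3464163082) (nat_lit 456) (nat_lit 120135674) (nat_lit 532) (nat_lit 4040991257) (nat_lit 71) (nat_lit 5) (nat_lit 77) (nat_lit 5) (nat_lit 78) (nat_lit 5) (nat_lit 255) (nat_lit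 243) (nat_lit 222))))))))
noncomputable def xc102 : XT := (XT.nd (nat_lit 2496) (nat_lit 836) (nat_lit 0) (XT.nd (nat_lit 1248) (nat_lit 1292) (nat_lit 0) (XT.nd (nat_lit 624) (nat_lit 836) (nat_lit 0) (XT.nd (nat_lit 312) (nat_lit 836) (nat_lit 0) (XT.nd (nat_lit 156) (nat_lit 684) (nat_lit 0) (XT.nd (nat_lit 78) (nat_lit 532) (nat_lit 0) (XT.lf (nat_lit 0) (nat_lit 5407579527) (nat_lit 532) (nat_lit 616722868) (nat_lit 76) (nat_lit 1750441521) (nat_lit 71) (nat_lit 5) (nat_lit 78) (nat_lit 5) (nat_lit 72) (nat_lit 5) (nat_lit 256) (nat_lit 243) (nat_lit 221)) (XT.lf (nat_lit 0) (nat_lit 3132939111) (nat_lit 532) (nat_lit 4157342076) (nat_lit 608) (nat_lit 643561494) (nat_lit 64) (nat_lit 5) (nat_lit 71) (nat_lit 5) (nat_lit 72) (nat_lit 5) (nat_lit 257) (nat_lit 243) (nat_lit 220))) (XT.nd (nat_lit 78) (nat_lit 608) (nat_lit 0) (XT.lf (nat_lit 0) (nat_lit 1057892537) (nat_lit 608)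 (nat_lit 1099620384) (nat_lit 76) (nat_lit 5946553819) (nat_lit 63) (nat_lit 5) (nat_lit 71) (nat_lit 5) (nat_lit 64) (nat_lit 5) (nat_lit 258) (nat_lit 243) (nat_lit 219)) (XT.lf (nat_lit 0) (nat_lit 2788850775) (nat_lit 684) (nat_lit 5487834411) (nat_lit 76) (nat_lit 7791689) (nat_lit 55) (nat_lit 5) (nat_lit 64) (nat_lit 5) (nat_lit 56) (nat_lit 5) (nat_lit 259) (nat_lit 243) (nat_lit 218)))) (XT.nd (nat_lit 156) (nat_lit 380) (nat_lit 0) (XT.nd (nat_lit 78) (nat_lit 456) (nat_lit 0) (XT.lf (nat_lit 0) (nat_lit 4585678720) (nat_lit 684) (nat_lit 1654910446) (nat_lit 76) (nat_lit 2234833553) (nat_lit 55) (nat_lit 5) (nat_lit 64) (nat_lit 5) (nat_lit 56) (nat_lit 5) (nat_lit 260) (nat_lit 243) (nat_lit 217)) (XT.lf (nat_lit 0) (nat_lit 2377020653) (nat_lit 456) (nat_lit 4061034446) (nat_lit 532) (nat_lit 2240033773) (nat_lit 49) (nat_lit 5) (nat_lit 55) (nat_lit 5) (nat_lit 56) (nat_lit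 5) (nat_lit 261) (nat_lit 243) (nat_lit 216))) (XT.nd (nat_lit 78) (nat_lit 380) (nat_lit 0) (XT.lf (nat_lit 0) (nat_lit 6600392857) (nat_lit 456) (nat_lit 1741623885) (nat_lit 532) (nat_lit 551359814) (nat_lit 49) (nat_lit 5) (nat_lit 55) (nat_lit 5) (nat_lit 56) (nat_lit 5) (nat_lit 262) (nat_lit 243) (nat_lit 215)) (XT.lf (nat_lit 0) (nat_lit 1156530392) (nat_lit 380) (nat_lit 7242481087) (nat_lit 76) (nat_lit 721165053) (nat_lit 44) (nat_lit 5) (nat_lit 49) (nat_lit 5) (nat_lit 45) (nat_lit 5) (nat_lit 263) (nat_lit 243) (nat_lit 214))))) (XT.nd (nat_lit 312) (nat_lit 304) (nat_lit 0) (XT.nd (nat_lit 156) (nat_lit 228) (nat_lit 0) (XT.nd (nat_lit 78) (nat_lit 304) (nat_lit 0) (XT.lf (nat_lit 0) (nat_lit 2934213924) (nat_lit 380) (nat_lit 3127632876) (nat_lit 76) (nat_lit 3296248468) (nat_lit 44) (nat_lit 5) (nat_lit 49) (nat_lit 5) (nat_lit 45) (nat_lit 5) (nat_lit 264) (nat_lit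 243) (nat_lit 213)) (XT.lf (nat_lit 0) (nat_lit 1163976773) (nat_lit 304) (nat_lit 3592984960) (nat_lit 380) (nat_lit 4853498350) (nat_lit 40) (nat_lit 5) (nat_lit 44) (nat_lit 5) (nat_lit 45) (nat_lit 5) (nat_lit 265) (nat_lit 243) (nat_lit 212))) (XT.nd (nat_lit 78) (nat_lit 228) (nat_lit 0) (XT.lf (nat_lit 0) (nat_lit 5713584072) (nat_lit 304) (nat_lit 950172594) (nat_lit 380) (nat_lit 3212383028) (nat_lit 40) (nat_lit 5) (nat_lit 44) (nat_lit 5) (nat_lit 45) (nat_lit 5) (nat_lit 266) (nat_lit 243) (nat_lit 211)) (XT.lf (nat_lit 0) (nat_lit 249903288) (nat_lit 228) (nat_lit 8391105391) (nat_lit 304) (nat_lit 1515664496) (nat_lit 37) (nat_lit 5) (nat_lit 40) (nat_lit 5) (nat_lit 41) (nat_lit 5) (nat_lit 267) (nat_lit 243) (nat_lit 210)))) (XT.nd (nat_lit 156) (nat_lit 228) (nat_lit 0) (XT.nd (nat_lit 78) (nat_lit 0) (nat_lit 0) (XT.lf (nat_lit 0) (nat_lit 287847955) (nat_lit 304)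 (nat_lit 5507387133) (nat_lit 76) (nat_lit 4654562743) (nat_lit 36) (nat_lit 5) (nat_lit 40) (nat_lit 5) (nat_lit 37) (nat_lit 5) (nat_lit 268) (nat_lit 243) (nat_lit 209)) (XT.lf (nat_lit 0) (nat_lit 2076543558) (nat_lit 304) (nat_lit 976019990) (nat_lit 76) (nat_lit 7706757032) (nat_lit 36) (nat_lit 5) (nat_lit 40) (nat_lit 5) (nat_lit 37) (nat_lit 5) (nat_lit 269) (nat_lit 243) (nat_lit 208))) (XT.nd (nat_lit 78) (nat_lit 0) (nat_lit 0) (XT.lf (nat_lit 0) (nat_lit 3844843275) (nat_lit 228) (nat_lit 118377345) (nat_lit 304) (nat_lit 7120939514) (nat_lit 33) (nat_lit 5) (nat_lit 36) (nat_lit 5) (nat_lit 37) (nat_lit 5) (nat_lit 270) (nat_lit 243) (nat_lit 207)) (XT.lf (nat_lit 0) (nat_lit 5957187095) (nat_lit 304) (nat_lit 2592075040) (nat_lit 76) (nat_lit 2875586990) (nat_lit 33) (nat_lit 5) (nat_lit 37) (nat_lit 5) (nat_lit 34) (nat_lit 5) (nat_lit 271) (nat_lit 243) (nat_lit 206))))))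 (XT.nd (nat_lit 624) (nat_lit 608) (nat_lit 0) (XT.nd (nat_lit 312) (nat_lit 152) (nat_lit 0) (XT.nd (nat_lit 156) (nat_lit 304) (nat_lit 0) (XT.nd (nat_lit 78) (nat_lit 0) (nat_lit 0) (XT.lf (nat_lit 0) (nat_lit 2300385854) (nat_lit 228) (nat_lit 5740609746) (nat_lit 304) (nat_lit 3742312866) (nat_lit 30) (nat_lit 5) (nat_lit 33) (nat_lit 5) (nat_lit 34) (nat_lit 5) (nat_lit 272) (nat_lit 243) (nat_lit 205)) (XT.lf (nat_lit 0) (nat_lit 7469580525) (nat_lit 228) (nat_lit 2756968018) (nat_lit 304) (nat_lit 1933496037) (nat_lit 30) (nat_lit 5) (nat_lit 33) (nat_lit 5) (nat_lit 34) (nat_lit 5) (nat_lit 273) (nat_lit 243) (nat_lit 204))) (XT.nd (nat_lit 78) (nat_lit 76) (nat_lit 0) (XT.lf (nat_lit 0) (nat_lit 287573551) (nat_lit 228) (nat_lit 12199854865) (nat_lit 304) (nat_lit 70107105) (nat_lit 27) (nat_lit 5) (nat_lit 30) (nat_lit 5) (nat_lit 31) (nat_lit 5) (nat_lit 274) (nat_lit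 243) (nat_lit 203)) (XT.lf (nat_lit 0) (nat_lit 1908017066) (nat_lit 304) (nat_lit 7427633958) (nat_lit 76) (nat_lit 3633880130) (nat_lit 26) (nat_lit 5) (nat_lit 30) (nat_lit 5) (nat_lit 27) (nat_lit 5) (nat_lit 275) (nat_lit 243) (nat_lit 202)))) (XT.nd (nat_lit 156) (nat_lit 0) (nat_lit 0) (XT.nd (nat_lit 78) (nat_lit 152) (nat_lit 0) (XT.lf (nat_lit 0) (nat_lit 3940796456) (nat_lit 304) (nat_lit 2399680618) (nat_lit 76) (nat_lit 7063877239) (nat_lit 26) (nat_lit 5) (nat_lit 30) (nat_lit 5) (nat_lit 27) (nat_lit 5) (nat_lit 276) (nat_lit 243) (nat_lit 201)) (XT.lf (nat_lit 0) (nat_lit 2920436127) (nat_lit 152) (nat_lit 3160474945) (nat_lit 228) (nat_lit 7779904138) (nat_lit 24) (nat_lit 5) (nat_lit 26) (nat_lit 5) (nat_lit 27) (nat_lit 5) (nat_lit 277) (nat_lit 243) (nat_lit 200))) (XT.nd (nat_lit 78) (nat_lit 0) (nat_lit 0) (XT.lf (nat_lit 0) (nat_lit 8333111452) (nat_lit 228)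 (nat_lit 5805416386) (nat_lit 76) (nat_lit 201490069) (nat_lit 24) (nat_lit 5) (nat_lit 27) (nat_lit 5) (nat_lit 25) (nat_lit 5) (nat_lit 278) (nat_lit 243) (nat_lit 199)) (XT.lf (nat_lit 0) (nat_lit 10712577430) (nat_lit 228) (nat_lit 516722225) (nat_lit 76) (nat_lit 3613312832) (nat_lit 24) (nat_lit 5) (nat_lit 27) (nat_lit 5) (nat_lit 25) (nat_lit 5) (nat_lit 279) (nat_lit 243) (nat_lit 198))))) (XT.nd (nat_lit 312) (nat_lit 152) (nat_lit 0) (XT.nd (nat_lit 156) (nat_lit 228) (nat_lit 0) (XT.nd (nat_lit 78) (nat_lit 0) (nat_lit 0) (XT.lf (nat_lit 0) (nat_lit 5152553283) (nat_lit 228) (nat_lit 8103523046) (nat_lit 304) (nat_lit 2112164181) (nat_lit 21) (nat_lit 5) (nat_lit 24) (nat_lit 5) (nat_lit 25) (nat_lit 5) (nat_lit 280) (nat_lit 243) (nat_lit 197)) (XT.lf (nat_lit 0) (nat_lit 11075251321) (nat_lit 228) (nat_lit 4825799561) (nat_lit 304) (nat_lit 20533249) (nat_lit 21) (nat_lit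 5) (nat_lit 24) (nat_lit 5) (nat_lit 25) (nat_lit 5) (nat_lit 281) (nat_lit 243) (nat_lit 196))) (XT.nd (nat_lit 78) (nat_lit 0) (nat_lit 0) (XT.lf (nat_lit 0) (nat_lit 734077530) (nat_lit 152) (nat_lit 1349942197) (nat_lit 228) (nat_lit 14418113351) (nat_lit 18) (nat_lit 5) (nat_lit 20) (nat_lit 5) (nat_lit 21) (nat_lit 5) (nat_lit 282) (nat_lit 243) (nat_lit 195)) (XT.lf (nat_lit 0) (nat_lit 4379612137) (nat_lit 228) (nat_lit 10431159568) (nat_lit 76) (nat_lit 2296724757) (nat_lit 18) (nat_lit 5) (nat_lit 21) (nat_lit 5) (nat_lit 19) (nat_lit 5) (nat_lit 283) (nat_lit 243) (nat_lit 194)))) (XT.nd (nat_lit 156) (nat_lit 0) (nat_lit 0) (XT.nd (nat_lit 78) (nat_lit 152) (nat_lit 0) (XT.lf (nat_lit 0) (nat_lit 6780853858) (nat_lit 228) (nat_lit 4895005157) (nat_lit 76) (nat_lit 6067848290) (nat_lit 18) (nat_lit 5) (nat_lit 21) (nat_lit 5) (nat_lit 19) (nat_lit 5) (nat_lit 284) (nat_lit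 243) (nat_lit 193)) (XT.lf (nat_lit 0) (nat_lit 903585774) (nat_lit 152) (nat_lit 8382907483) (nat_lit 228) (nat_lit 9126135581) (nat_lit 16) (nat_lit 5) (nat_lit 18) (nat_lit 5) (nat_lit 19) (nat_lit 5) (nat_lit 285) (nat_lit 243) (nat_lit 192))) (XT.nd (nat_lit 78) (nat_lit 0) (nat_lit 0) (XT.lf (nat_lit 0) (nat_lit 7119456441) (nat_lit 152) (nat_lit 4851838262) (nat_lit 228) (nat_lit 7141119100) (nat_lit 16) (nat_lit 5) (nat_lit 18) (nat_lit 5) (nat_lit 19) (nat_lit 5) (nat_lit 286) (nat_lit 243) (nat_lit 191)) (XT.lf (nat_lit 0) (nat_lit 13605555559) (nat_lit 152) (nat_lit 1157143325) (nat_lit 228) (nat_lit 5085977057) (nat_lit 16) (nat_lit 5) (nat_lit 18) (nat_lit 5) (nat_lit 19) (nat_lit 5) (nat_lit 287) (nat_lit 243) (nat_lit 190))))))) (XT.nd (nat_lit 1248) (nat_lit 228) (nat_lit 0) (XT.nd (nat_lit 624) (nat_lit 304) (nat_lit 0) (XT.nd (nat_lit 312) (nat_lit 152) (nat_lit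 0) (XT.nd (nat_lit 156) (nat_lit 76) (nat_lit 0) (XT.nd (nat_lit 78) (nat_lit 76) (nat_lit 0) (XT.lf (nat_lit 0) (nat_lit 17709662292) (nat_lit 228) (nat_lit 288152327) (nat_lit 76) (nat_lit 2623238121) (nat_lit 16) (nat_lit 5) (nat_lit 19) (nat_lit 5) (nat_lit 17) (nat_lit 4) (nat_lit 288) (nat_lit 243) (nat_lit 189)) (XT.lf (nat_lit 0) (nat_lit 6102967395) (nat_lit 76) (nat_lit 14790009509) (nat_lit 152) (nat_lit 534717521) (nat_lit 15) (nat_lit 5) (nat_lit 16) (nat_lit 5) (nat_lit 17) (nat_lit 4) (nat_lit 289) (nat_lit 243) (nat_lit 188))) (XT.nd (nat_lit 78) (nat_lit 0) (nat_lit 0) (XT.lf (nat_lit 0) (nat_lit 1877867442) (nat_lit 152) (nat_lit 9519736456) (nat_lit 76) (nat_lit 10876629085) (nat_lit 14) (nat_lit 5) (nat_lit 16) (nat_lit 5) (nat_lit 15) (nat_lit 5) (nat_lit 290) (nat_lit 243) (nat_lit 187)) (XT.lf (nat_lit 0) (nat_lit 4369183910) (nat_lit 152) (nat_lit 3469705976)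 (nat_lit 76) (nat_lit 15325049772) (nat_lit 14) (nat_lit 5) (nat_lit 16) (nat_lit 5) (nat_lit 15) (nat_lit 5) (nat_lit 291) (nat_lit 243) (nat_lit 186)))) (XT.nd (nat_lit 156) (nat_lit 0) (nat_lit 0) (XT.nd (nat_lit 78) (nat_lit 0) (nat_lit 0) (XT.lf (nat_lit 0) (nat_lit 2942289314) (nat_lit 152) (nat_lit 4065925957) (nat_lit 228) (nat_lit 17088838086) (nat_lit 12) (nat_lit 5) (nat_lit 14) (nat_lit 5) (nat_lit 15) (nat_lit 5) (nat_lit 292) (nat_lit 243) (nat_lit 185)) (XT.lf (nat_lit 0) (nat_lit 9761196193) (nat_lit 152) (nat_lit 54526849) (nat_lit 228) (nat_lit 15259348829) (nat_lit 12) (nat_lit 5) (nat_lit 14) (nat_lit 5) (nat_lit 15) (nat_lit 5) (nat_lit 293) (nat_lit 243) (nat_lit 184))) (XT.nd (nat_lit 78) (nat_lit 0) (nat_lit 0) (XT.lf (nat_lit 0) (nat_lit 12807160960) (nat_lit 228) (nat_lit 9279328160) (nat_lit 76) (nat_lit 4013396234) (nat_lit 12) (nat_lit 5) (nat_lit 15)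 (nat_lit 5) (nat_lit 13) (nat_lit 4) (nat_lit 294) (nat_lit 243) (nat_lit 183)) (XT.lf (nat_lit 0) (nat_lit 15928726978) (nat_lit 228) (nat_lit 2975828998) (nat_lit 76) (nat_lit 8272424093) (nat_lit 12) (nat_lit 5) (nat_lit 15) (nat_lit 5) (nat_lit 13) (nat_lit 4) (nat_lit 295) (nat_lit 243) (nat_lit 182))))) (XT.nd (nat_lit 312) (nat_lit 228) (nat_lit 0) (XT.nd (nat_lit 156) (nat_lit 0) (nat_lit 0) (XT.nd (nat_lit 78) (nat_lit 0) (nat_lit 0) (XT.lf (nat_lit 0) (nat_lit 3731926408) (nat_lit 76) (nat_lit 15513341499) (nat_lit 152) (nat_lit 9060781891) (nat_lit 11) (nat_lit 5) (nat_lit 12) (nat_lit 5) (nat_lit 13) (nat_lit 4) (nat_lit 296) (nat_lit 243) (nat_lit 181)) (XT.lf (nat_lit 0) (nat_lit 10848509719) (nat_lit 76) (nat_lit 11910609976) (nat_lit 152) (nat_lit 6730941136) (nat_lit 11) (nat_lit 5) (nat_lit 12) (nat_lit 5) (nat_lit 13) (nat_lit 4) (nat_lit 297) (nat_lit 243) (nat_lit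 180))) (XT.nd (nat_lit 78) (nat_lit 0) (nat_lit 0) (XT.lf (nat_lit 0) (nat_lit 18292470835) (nat_lit 76) (nat_lit 8138180581) (nat_lit 152) (nat_lit 4303580690) (nat_lit 11) (nat_lit 5) (nat_lit 12) (nat_lit 5) (nat_lit 13) (nat_lit 4) (nat_lit 298) (nat_lit 243) (nat_lit 179)) (XT.lf (nat_lit 0) (nat_lit 26081533472) (nat_lit 76) (nat_lit 4187071337) (nat_lit 152) (nat_lit 1772921125) (nat_lit 11) (nat_lit 5) (nat_lit 12) (nat_lit 5) (nat_lit 13) (nat_lit 4) (nat_lit 299) (nat_lit 243) (nat_lit 178)))) (XT.nd (nat_lit 156) (nat_lit 0) (nat_lit 0) (XT.nd (nat_lit 78) (nat_lit 0) (nat_lit 0) (XT.lf (nat_lit 0) (nat_lit 832289269) (nat_lit 152) (nat_lit 20016609) (nat_lit 228) (nat_lit 32561422459) (nat_lit 8) (nat_lit 5) (nat_lit 10) (nat_lit 5) (nat_lit 11) (nat_lit 5) (nat_lit 300) (nat_lit 243) (nat_lit 177)) (XT.lf (nat_lit 0) (nat_lit 3703380589) (nat_lit 228) (nat_lit 26803802883)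 (nat_lit 76) (nat_lit 4338244353) (nat_lit 8) (nat_lit 5) (nat_lit 11) (nat_lit 5) (nat_lit 9) (nat_lit 4) (nat_lit 301) (nat_lit 243) (nat_lit 176))) (XT.nd (nat_lit 78) (nat_lit 0) (nat_lit 0) (XT.lf (nat_lit 0) (nat_lit 6681697405) (nat_lit 228) (nat_lit 20763034500) (nat_lit 76) (nat_lit 8904792237) (nat_lit 8) (nat_lit 5) (nat_lit 11) (nat_lit 5) (nat_lit 9) (nat_lit 4) (nat_lit 302) (nat_lit 243) (nat_lit 175)) (XT.lf (nat_lit 0) (nat_lit 9794035042) (nat_lit 228) (nat_lit 14444438620) (nat_lit 76) (nat_lit 13691140433) (nat_lit 8) (nat_lit 5) (nat_lit 11) (nat_lit 5) (nat_lit 9) (nat_lit 4) (nat_lit 303) (nat_lit 243) (nat_lit 174)))))) (XT.nd (nat_lit 624) (nat_lit 152) (nat_lit 0) (XT.nd (nat_lit 312) (nat_lit 0) (nat_lit 0) (XT.nd (nat_lit 156) (nat_lit 76) (nat_lit 0) (XT.nd (nat_lit 78) (nat_lit 0) (nat_lit 0) (XT.lf (nat_lit 0) (nat_lit 13047803827) (nat_lit 228) (nat_lit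 7832970968) (nat_lit 76) (nat_lit 18708685006) (nat_lit 8) (nat_lit 5) (nat_lit 11) (nat_lit 5) (nat_lit 9) (nat_lit 4) (nat_lit 304) (nat_lit 243) (nat_lit 173)) (XT.lf (nat_lit 0) (nat_lit 16450750829) (nat_lit 228) (nat_lit 912889955) (nat_lit 76) (nat_lit 23969372493) (nat_lit 8) (nat_lit 5) (nat_lit 11) (nat_lit 5) (nat_lit 9) (nat_lit 4) (nat_lit 305) (nat_lit 243) (nat_lit 172))) (XT.nd (nat_lit 78) (nat_lit 0) (nat_lit 0) (XT.lf (nat_lit 0) (nat_lit 6541654603) (nat_lit 76) (nat_lit 13571457260) (nat_lit 152) (nat_lit 23046207296) (nat_lit 7) (nat_lit 5) (nat_lit 8) (nat_lit 5) (nat_lit 9) (nat_lit 4) (nat_lit 306) (nat_lit 243) (nat_lit 171)) (XT.lf (nat_lit 0) (nat_lit 14380042890) (nat_lit 76) (nat_lit 9581432859) (nat_lit 152) (nat_lit 21115356603) (nat_lit 7) (nat_lit 5) (nat_lit 8) (nat_lit 5) (nat_lit 9) (nat_lit 4) (nat_lit 307) (nat_lit 243) (nat_lit 170)))) (XT.nd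 (nat_lit 156) (nat_lit 0) (nat_lit 0) (XT.nd (nat_lit 78) (nat_lit 0) (nat_lit 0) (XT.lf (nat_lit 0) (nat_lit 22590753469) (nat_lit 76) (nat_lit 5399527756) (nat_lit 152) (nat_lit 19100573339) (nat_lit 7) (nat_lit 5) (nat_lit 8) (nat_lit 5) (nat_lit 9) (nat_lit 4) (nat_lit 308) (nat_lit 243) (nat_lit 169)) (XT.lf (nat_lit 0) (nat_lit 31193335652) (nat_lit 76) (nat_lit 1015785034) (nat_lit 152) (nat_lit 16997060400) (nat_lit 7) (nat_lit 5) (nat_lit 8) (nat_lit 5) (nat_lit 9) (nat_lit 4) (nat_lit 309) (nat_lit 243) (nat_lit 168))) (XT.nd (nat_lit 78) (nat_lit 0) (nat_lit 0) (XT.lf (nat_lit 0) (nat_lit 36683936454) (nat_lit 152) (nat_lit 11275474100) (nat_lit 0) (nat_lit 3465642981) (nat_lit 7) (nat_lit 5) (nat_lit 9) (nat_lit 4) (nat_lit 7) (nat_lit 4) (nat_lit 310) (nat_lit 243) (nat_lit 167)) (XT.lf (nat_lit 0) (nat_lit 41388696605) (nat_lit 152) (nat_lit 4235259487) (nat_lit 0) (nat_lit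 8130633163) (nat_lit 7) (nat_lit 5) (nat_lit 9) (nat_lit 4) (nat_lit 7) (nat_lit 4) (nat_lit 311) (nat_lit 243) (nat_lit 166))))) (XT.nd (nat_lit 312) (nat_lit 76) (nat_lit 0) (XT.nd (nat_lit 156) (nat_lit 0) (nat_lit 0) (XT.nd (nat_lit 78) (nat_lit 0) (nat_lit 0) (XT.lf (nat_lit 0) (nat_lit 3244256543) (nat_lit 76) (nat_lit 43125139092) (nat_lit 76) (nat_lit 9829199489) (nat_lit 6) (nat_lit 4) (nat_lit 7) (nat_lit 5) (nat_lit 7) (nat_lit 4) (nat_lit 312) (nat_lit 243) (nat_lit 165)) (XT.lf (nat_lit 0) (nat_lit 11228508105) (nat_lit 76) (nat_lit 40432616317) (nat_lit 76) (nat_lit 7100604179) (nat_lit 6) (nat_lit 4) (nat_lit 7) (nat_lit 5) (nat_lit 7) (nat_lit 4) (nat_lit 313) (nat_lit 243) (nat_lit 164))) (XT.nd (nat_lit 78) (nat_lit 0) (nat_lit 0) (XT.lf (nat_lit 0) (nat_lit 19596468516) (nat_lit 76) (nat_lit 37611703167) (nat_lit 76) (nat_lit 4245336234) (nat_lit 6) (nat_lit 4)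 (nat_lit 7) (nat_lit 5) (nat_lit 7) (nat_lit 4) (nat_lit 314) (nat_lit 243) (nat_lit 163)) (XT.lf (nat_lit 0) (nat_lit 28368061489) (nat_lit 76) (nat_lit 34655683182) (nat_lit 76) (nat_lit 1256597397) (nat_lit 6) (nat_lit 4) (nat_lit 7) (nat_lit 5) (nat_lit 7) (nat_lit 4) (nat_lit 315) (nat_lit 243) (nat_lit 162)))) (XT.nd (nat_lit 156) (nat_lit 0) (nat_lit 0) (XT.nd (nat_lit 78) (nat_lit 0) (nat_lit 0) (XT.lf (nat_lit 0) (nat_lit 1812789373) (nat_lit 152) (nat_lit 29714028381) (nat_lit 76) (nat_lit 35720681934) (nat_lit 5) (nat_lit 5) (nat_lit 7) (nat_lit 5) (nat_lit 6) (nat_lit 4) (nat_lit 316) (nat_lit 243) (nat_lit 161)) (XT.lf (nat_lit 0) (nat_lit 4985256760) (nat_lit 152) (nat_lit 23240147200) (nat_lit 76) (nat_lit 42137010367) (nat_lit 5) (nat_lit 5) (nat_lit 7) (nat_lit 5) (nat_lit 6) (nat_lit 4) (nat_lit 317) (nat_lit 243) (nat_lit 160))) (XT.nd (nat_lit 78) (nat_lit 0) (nat_lit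 0) (XT.lf (nat_lit 0) (nat_lit 8308577223) (nat_lit 152) (nat_lit 16455604026) (nat_lit 76) (nat_lit 48869302154) (nat_lit 5) (nat_lit 5) (nat_lit 7) (nat_lit 5) (nat_lit 6) (nat_lit 4) (nat_lit 318) (nat_lit 243) (nat_lit 159)) (XT.lf (nat_lit 0) (nat_lit 11790663429) (nat_lit 152) (nat_lit 9344245185) (nat_lit 76) (nat_lit 55933586560) (nat_lit 5) (nat_lit 5) (nat_lit 7) (nat_lit 5) (nat_lit 6) (nat_lit 4) (nat_lit 319) (nat_lit 243) (nat_lit 158))))))))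
noncomputable def xc103 : XT := (XT.nd (nat_lit 1248) (nat_lit 0) (nat_lit 0) (XT.nd (nat_lit 624) (nat_lit 76) (nat_lit 0) (XT.nd (nat_lit 312) (nat_lit 0) (nat_lit 0) (XT.nd (nat_lit 156) (nat_lit 0) (nat_lit 0) (XT.nd (nat_lit 78) (nat_lit 76) (nat_lit 0) (XT.lf (nat_lit 0) (nat_lit 15439806059) (nat_lit 152) (nat_lit 1889138870) (nat_lit 76) (nat_lit 63346683309) (nat_lit 5) (nat_lit 5) (nat_lit 7) (nat_lit 5) (nat_lit 6) (nat_lit 4) (nat_lit 320) (nat_lit 243) (nat_lit 157)) (XT.lf (nat_lit 0) (nat_lit 6123453938) (nat_lit 76) (nat_lit 13236843886) (nat_lit 152) (nat_lit 65098392971) (nat_lit 4) (nat_lit 5) (nat_lit 5) (nat_lit 5) (nat_lit 6) (nat_lit 4) (nat_lit 321) (nat_lit 243) (nat_lit 156))) (XT.nd (nat_lit 78) (nat_lit 0) (nat_lit 0) (XT.lf (nat_lit 0) (nat_lit 14591187009) (nat_lit 76) (nat_lit 8911055083) (nat_lit 152) (nat_lit 64927409602) (nat_lit 4) (nat_lit 5) (nat_lit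 5) (nat_lit 5) (nat_lit 6) (nat_lit 4) (nat_lit 322) (nat_lit 243) (nat_lit 155)) (XT.lf (nat_lit 0) (nat_lit 23471758147) (nat_lit 76) (nat_lit 4373272503) (nat_lit 152) (nat_lit 64754458451) (nat_lit 4) (nat_lit 5) (nat_lit 5) (nat_lit 5) (nat_lit 6) (nat_lit 4) (nat_lit 323) (nat_lit 243) (nat_lit 154)))) (XT.nd (nat_lit 156) (nat_lit 0) (nat_lit 0) (XT.nd (nat_lit 78) (nat_lit 0) (nat_lit 0) (XT.lf (nat_lit 0) (nat_lit 32405050439) (nat_lit 152) (nat_lit 64197866597) (nat_lit 0) (nat_lit 374911818) (nat_lit 4) (nat_lit 5) (nat_lit 6) (nat_lit 4) (nat_lit 4) (nat_lit 4) (nat_lit 324) (nat_lit 243) (nat_lit 153)) (XT.lf (nat_lit 0) (nat_lit 37259031792) (nat_lit 152) (nat_lit 59103006986) (nat_lit 0) (nat_lit 5209763136) (nat_lit 4) (nat_lit 5) (nat_lit 6) (nat_lit 4) (nat_lit 4) (nat_lit 4) (nat_lit 325) (nat_lit 243) (nat_lit 152))) (XT.nd (nat_lit 78) (nat_lit 0) (nat_lit 0)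 (XT.lf (nat_lit 0) (nat_lit 42350252768) (nat_lit 152) (nat_lit 53762742464) (nat_lit 0) (nat_lit 10282765030) (nat_lit 4) (nat_lit 5) (nat_lit 6) (nat_lit 4) (nat_lit 4) (nat_lit 4) (nat_lit 326) (nat_lit 243) (nat_lit 151)) (XT.lf (nat_lit 0) (nat_lit 47690835322) (nat_lit 152) (nat_lit 48164358115) (nat_lit 0) (nat_lit 15605996079) (nat_lit 4) (nat_lit 5) (nat_lit 6) (nat_lit 4) (nat_lit 4) (nat_lit 4) (nat_lit 327) (nat_lit 243) (nat_lit 150))))) (XT.nd (nat_lit 312) (nat_lit 76) (nat_lit 0) (XT.nd (nat_lit 156) (nat_lit 0) (nat_lit 0) (XT.nd (nat_lit 78) (nat_lit 0) (nat_lit 0) (XT.lf (nat_lit 0) (nat_lit 53293495127) (nat_lit 152) (nat_lit 42294524453) (nat_lit 0) (nat_lit 21192130640) (nat_lit 4) (nat_lit 5) (nat_lit 6) (nat_lit 4) (nat_lit 4) (nat_lit 4) (nat_lit 328) (nat_lit 243) (nat_lit 149)) (XT.lf (nat_lit 0) (nat_lit 59171571849) (nat_lit 152) (nat_lit 36139265683)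 (nat_lit 0) (nat_lit 27054469034) (nat_lit 4) (nat_lit 5) (nat_lit 6) (nat_lit 4) (nat_lit 4) (nat_lit 4) (nat_lit 329) (nat_lit 243) (nat_lit 148))) (XT.nd (nat_lit 78) (nat_lit 0) (nat_lit 0) (XT.lf (nat_lit 0) (nat_lit 65339060909) (nat_lit 152) (nat_lit 29683926427) (nat_lit 0) (nat_lit 33206969211) (nat_lit 4) (nat_lit 5) (nat_lit 6) (nat_lit 4) (nat_lit 4) (nat_lit 4) (nat_lit 330) (nat_lit 243) (nat_lit 147)) (XT.lf (nat_lit 0) (nat_lit 71810646804) (nat_lit 152) (nat_lit 22913136830) (nat_lit 0) (nat_lit 39664279979) (nat_lit 4) (nat_lit 5) (nat_lit 6) (nat_lit 4) (nat_lit 4) (nat_lit 4) (nat_lit 331) (nat_lit 243) (nat_lit 146)))) (XT.nd (nat_lit 156) (nat_lit 76) (nat_lit 0) (XT.nd (nat_lit 78) (nat_lit 0) (nat_lit 0) (XT.lf (nat_lit 0) (nat_lit 78601738072) (nat_lit 152) (nat_lit 15810775965) (nat_lit 0) (nat_lit 46441775889) (nat_lit 4) (nat_lit 5) (nat_lit 6) (nat_lit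 4) (nat_lit 4) (nat_lit 4) (nat_lit 332) (nat_lit 243) (nat_lit 145)) (XT.lf (nat_lit 0) (nat_lit 85728503979) (nat_lit 152) (nat_lit 8359933447) (nat_lit 0) (nat_lit 53555593835) (nat_lit 4) (nat_lit 5) (nat_lit 6) (nat_lit 4) (nat_lit 4) (nat_lit 4) (nat_lit 333) (nat_lit 243) (nat_lit 144))) (XT.nd (nat_lit 78) (nat_lit 76) (nat_lit 0) (XT.lf (nat_lit 0) (nat_lit 93207913015) (nat_lit 152) (nat_lit 542869177) (nat_lit 0) (nat_lit 61022671479) (nat_lit 4) (nat_lit 5) (nat_lit 6) (nat_lit 4) (nat_lit 4) (nat_lit 4) (nat_lit 334) (nat_lit 243) (nat_lit 143)) (XT.lf (nat_lit 0) (nat_lit 7912270988) (nat_lit 76) (nat_lit 93269035031) (nat_lit 76) (nat_lit 61072049312) (nat_lit 3) (nat_lit 4) (nat_lit 4) (nat_lit 5) (nat_lit 4) (nat_lit 4) (nat_lit 335) (nat_lit 243) (nat_lit 142)))))) (XT.nd (nat_lit 624) (nat_lit 0) (nat_lit 0) (XT.nd (nat_lit 312) (nat_lit 0) (nat_lit 0) (XT.nd (nat_lit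 156) (nat_lit 0) (nat_lit 0) (XT.nd (nat_lit 78) (nat_lit 0) (nat_lit 0) (XT.lf (nat_lit 0) (nat_lit 16803093039) (nat_lit 76) (nat_lit 92756025298) (nat_lit 76) (nat_lit 60547854645) (nat_lit 3) (nat_lit 4) (nat_lit 4) (nat_lit 5) (nat_lit 4) (nat_lit 4) (nat_lit 336) (nat_lit 243) (nat_lit 141)) (XT.lf (nat_lit 0) (nat_lit 26132815892) (nat_lit 76) (nat_lit 92219725295) (nat_lit 76) (nat_lit 60000902322) (nat_lit 3) (nat_lit 4) (nat_lit 4) (nat_lit 5) (nat_lit 4) (nat_lit 4) (nat_lit 337) (nat_lit 243) (nat_lit 140))) (XT.nd (nat_lit 78) (nat_lit 0) (nat_lit 0) (XT.lf (nat_lit 0) (nat_lit 35923653172) (nat_lit 76) (nat_lit 91658858115) (nat_lit 76) (nat_lit 59429890076) (nat_lit 3) (nat_lit 4) (nat_lit 4) (nat_lit 5) (nat_lit 4) (nat_lit 4) (nat_lit 338) (nat_lit 243) (nat_lit 139)) (XT.lf (nat_lit 0) (nat_lit 46198916398) (nat_lit 76) (nat_lit 91072088362) (nat_lit 76) (nat_lit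 58833458356) (nat_lit 3) (nat_lit 4) (nat_lit 4) (nat_lit 5) (nat_lit 4) (nat_lit 4) (nat_lit 339) (nat_lit 243) (nat_lit 138)))) (XT.nd (nat_lit 156) (nat_lit 0) (nat_lit 0) (XT.nd (nat_lit 78) (nat_lit 0) (nat_lit 0) (XT.lf (nat_lit 0) (nat_lit 56983070481) (nat_lit 76) (nat_lit 90458018965) (nat_lit 76) (nat_lit 58210187084) (nat_lit 3) (nat_lit 4) (nat_lit 4) (nat_lit 5) (nat_lit 4) (nat_lit 4) (nat_lit 340) (nat_lit 243) (nat_lit 137)) (XT.lf (nat_lit 0) (nat_lit 68301791979) (nat_lit 76) (nat_lit 89815187853) (nat_lit 76) (nat_lit 57558592282) (nat_lit 3) (nat_lit 4) (nat_lit 4) (nat_lit 5) (nat_lit 4) (nat_lit 4) (nat_lit 341) (nat_lit 243) (nat_lit 136))) (XT.nd (nat_lit 78) (nat_lit 0) (nat_lit 0) (XT.lf (nat_lit 0) (nat_lit 80182030229) (nat_lit 76) (nat_lit 89142064476) (nat_lit 76) (nat_lit 56877122534) (nat_lit 3) (nat_lit 4) (nat_lit 4) (nat_lit 5) (nat_lit 4) (nat_lit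 4) (nat_lit 342) (nat_lit 243) (nat_lit 135)) (XT.lf (nat_lit 0) (nat_lit 92652071512) (nat_lit 76) (nat_lit 88437046159) (nat_lit 76) (nat_lit 56164155292) (nat_lit 3) (nat_lit 4) (nat_lit 4) (nat_lit 5) (nat_lit 4) (nat_lit 4) (nat_lit 343) (nat_lit 243) (nat_lit 134))))) (XT.nd (nat_lit 312) (nat_lit 0) (nat_lit 0) (XT.nd (nat_lit 156) (nat_lit 0) (nat_lit 0) (XT.nd (nat_lit 78) (nat_lit 0) (nat_lit 0) (XT.lf (nat_lit 0) (nat_lit 105741606403) (nat_lit 76) (nat_lit 87698454287) (nat_lit 76) (nat_lit 55417993017) (nat_lit 3) (nat_lit 4) (nat_lit 4) (nat_lit 5) (nat_lit 4) (nat_lit 4) (nat_lit 344) (nat_lit 243) (nat_lit 133)) (XT.lf (nat_lit 0) (nat_lit 119481800462) (nat_lit 76) (nat_lit 86924530309) (nat_lit 76) (nat_lit 54636859129) (nat_lit 3) (nat_lit 4) (nat_lit 4) (nat_lit 5) (nat_lit 4) (nat_lit 4) (nat_lit 345) (nat_lit 243) (nat_lit 132))) (XT.nd (nat_lit 78) (nat_lit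 0) (nat_lit 0) (XT.lf (nat_lit 0) (nat_lit 133905368435) (nat_lit 76) (nat_lit 86113431548) (nat_lit 76) (nat_lit 53818893788) (nat_lit 3) (nat_lit 4) (nat_lit 4) (nat_lit 5) (nat_lit 4) (nat_lit 4) (nat_lit 346) (nat_lit 243) (nat_lit 131)) (XT.lf (nat_lit 0) (nat_lit 149046652151) (nat_lit 76) (nat_lit 85263226817) (nat_lit 76) (nat_lit 52962149457) (nat_lit 3) (nat_lit 4) (nat_lit 4) (nat_lit 5) (nat_lit 4) (nat_lit 4) (nat_lit 347) (nat_lit 243) (nat_lit 130)))) (XT.nd (nat_lit 156) (nat_lit 0) (nat_lit 0) (XT.nd (nat_lit 78) (nat_lit 0) (nat_lit 0) (XT.lf (nat_lit 0) (nat_lit 164941702287) (nat_lit 76) (nat_lit 84371891819) (nat_lit 76) (nat_lit 52064586268) (nat_lit 3) (nat_lit 4) (nat_lit 4) (nat_lit 5) (nat_lit 4) (nat_lit 4) (nat_lit 348) (nat_lit 243) (nat_lit 129)) (XT.lf (nat_lit 0) (nat_lit 181628364199) (nat_lit 76) (nat_lit 83437304326) (nat_lit 76) (nat_lit 51124067166)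 (nat_lit 3) (nat_lit 4) (nat_lit 4) (nat_lit 5) (nat_lit 4) (nat_lit 4) (nat_lit 349) (nat_lit 243) (nat_lit 128))) (XT.nd (nat_lit 78) (nat_lit 0) (nat_lit 0) (XT.lf (nat_lit 0) (nat_lit 199146368034) (nat_lit 76) (nat_lit 82457239132) (nat_lit 76) (nat_lit 50138352819) (nat_lit 3) (nat_lit 4) (nat_lit 4) (nat_lit 5) (nat_lit 4) (nat_lit 4) (nat_lit 350) (nat_lit 243) (nat_lit 127)) (XT.lf (nat_lit 0) (nat_lit 217537423327) (nat_lit 76) (nat_lit 81429362748) (nat_lit 76) (nat_lit 49105096289) (nat_lit 3) (nat_lit 4) (nat_lit 4) (nat_lit 5) (nat_lit 4) (nat_lit 4) (nat_lit 351) (nat_lit 243) (nat_lit 126)))))))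
noncomputable def xc104 : XT := (XT.nd (nat_lit 30030) (nat_lit 0) (nat_lit 2280) (XT.nd (nat_lit 29406) (nat_lit 0) (nat_lit 5168) (XT.nd (nat_lit 29094) (nat_lit 0) (nat_lit 6308) (XT.nd (nat_lit 156) (nat_lit 0) (nat_lit 0) (XT.nd (nat_lit 78) (nat_lit 0) (nat_lit 0) (XT.lf (nat_lit 0) (nat_lit 236845318303) (nat_lit 76) (nat_lit 80351227848) (nat_lit 76) (nat_lit 48021837442) (nat_lit 3) (nat_lit 4) (nat_lit 4) (nat_lit 5) (nat_lit 4) (nat_lit 4) (nat_lit 352) (nat_lit 243) (nat_lit 125)) (XT.lf (nat_lit 0) (nat_lit 257116024141) (nat_lit 76) (nat_lit 79220267446) (nat_lit 76) (nat_lit 46885997089) (nat_lit 3) (nat_lit 4) (nat_lit 4) (nat_lit 5) (nat_lit 4) (nat_lit 4) (nat_lit 353) (nat_lit 243) (nat_lit 124))) (XT.nd (nat_lit 78) (nat_lit 0) (nat_lit 0) (XT.lf (nat_lit 0) (nat_lit 278397804426) (nat_lit 76) (nat_lit 78033788777) (nat_lit 76) (nat_lit 45694870849) (nat_lit 3)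 (nat_lit 4) (nat_lit 4) (nat_lit 5) (nat_lit 4) (nat_lit 4) (nat_lit 354) (nat_lit 243) (nat_lit 123)) (XT.lf (nat_lit 0) (nat_lit 300741330065) (nat_lit 76) (nat_lit 76788966894) (nat_lit 76) (nat_lit 44445622707) (nat_lit 3) (nat_lit 4) (nat_lit 4) (nat_lit 5) (nat_lit 4) (nat_lit 4) (nat_lit 355) (nat_lit 243) (nat_lit 122)))) (XT.nd (nat_lit 156) (nat_lit 0) (nat_lit 0) (XT.nd (nat_lit 78) (nat_lit 380) (nat_lit 0) (XT.lf (nat_lit 0) (nat_lit 1368960745) (nat_lit 0) (nat_lit 1368960745) (nat_lit 228) (nat_lit 582152633) (nat_lit 91) (nat_lit 5) (nat_lit 91) (nat_lit 3) (nat_lit 94) (nat_lit 3) (nat_lit 244) (nat_lit 244) (nat_lit 232)) (XT.lf (nat_lit 0) (nat_lit 776067719) (nat_lit 380) (nat_lit 1189152072) (nat_lit 380) (nat_lit 4728887246) (nat_lit 86) (nat_lit 3) (nat_lit 91) (nat_lit 3) (nat_lit 91) (nat_lit 5) (nat_lit 245) (nat_lit 244) (nat_lit 231))) (XT.nd (nat_lit 78)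 (nat_lit 0) (nat_lit 0) (XT.lf (nat_lit 76) (nat_lit 1627138879) (nat_lit 0) (nat_lit 1048970087) (nat_lit 380) (nat_lit 4079662151) (nat_lit 87) (nat_lit 5) (nat_lit 86) (nat_lit 3) (nat_lit 91) (nat_lit 5) (nat_lit 246) (nat_lit 244) (nat_lit 230)) (XT.lf (nat_lit 76) (nat_lit 4561155259) (nat_lit 0) (nat_lit 11391499) (nat_lit 380) (nat_lit 2253902486) (nat_lit 87) (nat_lit 5) (nat_lit 86) (nat_lit 3) (nat_lit 91) (nat_lit 5) (nat_lit 247) (nat_lit 244) (nat_lit 229))))) (XT.nd (nat_lit 312) (nat_lit 836) (nat_lit 0) (XT.nd (nat_lit 156) (nat_lit 0) (nat_lit 0) (XT.nd (nat_lit 78) (nat_lit 380) (nat_lit 0) (XT.lf (nat_lit 76) (nat_lit 677334227) (nat_lit 0) (nat_lit 5801597495) (nat_lit 380) (nat_lit 426926213) (nat_lit 88) (nat_lit 5) (nat_lit 87) (nat_lit 5) (nat_lit 92) (nat_lit 5) (nat_lit 248) (nat_lit 244) (nat_lit 228)) (XT.lf (nat_lit 0) (nat_lit 1372205104) (nat_lit 380)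 (nat_lit 3237818051) (nat_lit 456) (nat_lit 2382486971) (nat_lit 82) (nat_lit 5) (nat_lit 87) (nat_lit 5) (nat_lit 88) (nat_lit 5) (nat_lit 249) (nat_lit 244) (nat_lit 227))) (XT.nd (nat_lit 78) (nat_lit 0) (nat_lit 0) (XT.lf (nat_lit 0) (nat_lit 3141574798) (nat_lit 380) (nat_lit 173279090) (nat_lit 456) (nat_lit 3774382800) (nat_lit 82) (nat_lit 5) (nat_lit 87) (nat_lit 5) (nat_lit 88) (nat_lit 5) (nat_lit 250) (nat_lit 244) (nat_lit 226)) (XT.lf (nat_lit 76) (nat_lit 3077556228) (nat_lit 0) (nat_lit 1869553008) (nat_lit 456) (nat_lit 2247089500) (nat_lit 83) (nat_lit 5) (nat_lit 82) (nat_lit 5) (nat_lit 88) (nat_lit 5) (nat_lit 251) (nat_lit 244) (nat_lit 225)))) (XT.nd (nat_lit 156) (nat_lit 456) (nat_lit 0) (XT.nd (nat_lit 78) (nat_lit 380) (nat_lit 0) (XT.lf (nat_lit 76) (nat_lit 6432572912) (nat_lit 0) (nat_lit 316702653) (nat_lit 456) (nat_lit 560562202) (nat_lit 83) (nat_lit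 5) (nat_lit 82) (nat_lit 5) (nat_lit 88) (nat_lit 5) (nat_lit 252) (nat_lit 244) (nat_lit 224)) (XT.lf (nat_lit 0) (nat_lit 1138655027) (nat_lit 456) (nat_lit 4934889052) (nat_lit 76) (nat_lit 1359092068) (nat_lit 77) (nat_lit 5) (nat_lit 83) (nat_lit 5) (nat_lit 78) (nat_lit 5) (nat_lit 253) (nat_lit 244) (nat_lit 223))) (XT.nd (nat_lit 78) (nat_lit 456) (nat_lit 0) (XT.lf (nat_lit 0) (nat_lit 2834010781) (nat_lit 456) (nat_lit 1573137571) (nat_lit 76) (nat_lit 3158110780) (nat_lit 77) (nat_lit 5) (nat_lit 83) (nat_lit 5) (nat_lit 78) (nat_lit 5) (nat_lit 254) (nat_lit 244) (nat_lit 222)) (XT.lf (nat_lit 0) (nat_lit 1952874893) (nat_lit 456) (nat_lit 2605772061) (nat_lit 532) (nat_lit 3149254942) (nat_lit 71) (nat_lit 5) (nat_lit 77) (nat_lit 5) (nat_lit 78) (nat_lit 5) (nat_lit 255) (nat_lit 244) (nat_lit 221)))))) (XT.nd (nat_lit 624) (nat_lit 1140) (nat_lit 0) (XT.nd (nat_lit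 312) (nat_lit 532) (nat_lit 0) (XT.nd (nat_lit 156) (nat_lit 608) (nat_lit 0) (XT.nd (nat_lit 78) (nat_lit 608) (nat_lit 0) (XT.lf (nat_lit 0) (nat_lit 5644542832) (nat_lit 456) (nat_lit 668711978) (nat_lit 532) (nat_lit 1547820004) (nat_lit 71) (nat_lit 5) (nat_lit 77) (nat_lit 5) (nat_lit 78) (nat_lit 5) (nat_lit 256) (nat_lit 244) (nat_lit 220)) (XT.lf (nat_lit 0) (nat_lit 93676060) (nat_lit 608) (nat_lit 6568410403) (nat_lit 76) (nat_lit 1362032767) (nat_lit 63) (nat_lit 5) (nat_lit 71) (nat_lit 5) (nat_lit 64) (nat_lit 5) (nat_lit 257) (nat_lit 244) (nat_lit 219))) (XT.nd (nat_lit 78) (nat_lit 608) (nat_lit 0) (XT.lf (nat_lit 0) (nat_lit 1736614169) (nat_lit 608) (nat_lit 2910792869) (nat_lit 76) (nat_lit 3548576272) (nat_lit 63) (nat_lit 5) (nat_lit 71) (nat_lit 5) (nat_lit 64) (nat_lit 5) (nat_lit 258) (nat_lit 244) (nat_lit 218)) (XT.lf (nat_lit 0) (nat_lit 892640763) (nat_lit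 608) (nat_lit 2508964788) (nat_lit 684) (nat_lit 4978321012) (nat_lit 55) (nat_lit 5) (nat_lit 63) (nat_lit 5) (nat_lit 64) (nat_lit 5) (nat_lit 259) (nat_lit 244) (nat_lit 217)))) (XT.nd (nat_lit 156) (nat_lit 76) (nat_lit 0) (XT.nd (nat_lit 78) (nat_lit 456) (nat_lit 0) (XT.lf (nat_lit 0) (nat_lit 4922726002) (nat_lit 608) (nat_lit 204902966) (nat_lit 684) (nat_lit 3447007261) (nat_lit 55) (nat_lit 5) (nat_lit 63) (nat_lit 5) (nat_lit 64) (nat_lit 5) (nat_lit 260) (nat_lit 244) (nat_lit 216)) (XT.lf (nat_lit 0) (nat_lit 284315339) (nat_lit 456) (nat_lit 6626644890) (nat_lit 532) (nat_lit 1870007358) (nat_lit 49) (nat_lit 5) (nat_lit 55) (nat_lit 5) (nat_lit 56) (nat_lit 5) (nat_lit 261) (nat_lit 244) (nat_lit 215))) (XT.nd (nat_lit 78) (nat_lit 76) (nat_lit 0) (XT.lf (nat_lit 0) (nat_lit 4476277460) (nat_lit 456) (nat_lit 4306560665) (nat_lit 532) (nat_lit 215224142) (nat_lit 49)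 (nat_lit 5) (nat_lit 55) (nat_lit 5) (nat_lit 56) (nat_lit 5) (nat_lit 262) (nat_lit 244) (nat_lit 214)) (XT.lf (nat_lit 0) (nat_lit 1409525321) (nat_lit 532) (nat_lit 435760665) (nat_lit 76) (nat_lit 7383116922) (nat_lit 48) (nat_lit 5) (nat_lit 55) (nat_lit 5) (nat_lit 49) (nat_lit 5) (nat_lit 263) (nat_lit 244) (nat_lit 213))))) (XT.nd (nat_lit 312) (nat_lit 532) (nat_lit 0) (XT.nd (nat_lit 156) (nat_lit 304) (nat_lit 0) (XT.nd (nat_lit 78) (nat_lit 0) (nat_lit 0) (XT.lf (nat_lit 0) (nat_lit 3121014741) (nat_lit 380) (nat_lit 5567459693) (nat_lit 76) (nat_lit 781332110) (nat_lit 44) (nat_lit 5) (nat_lit 49) (nat_lit 5) (nat_lit 45) (nat_lit 5) (nat_lit 264) (nat_lit 244) (nat_lit 212)) (XT.lf (nat_lit 0) (nat_lit 4896789220) (nat_lit 380) (nat_lit 1343875997) (nat_lit 76) (nat_lit 3484021657) (nat_lit 44) (nat_lit 5) (nat_lit 49) (nat_lit 5) (nat_lit 45) (nat_lit 5) (nat_lit 265)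 (nat_lit 244) (nat_lit 211))) (XT.nd (nat_lit 78) (nat_lit 0) (nat_lit 0) (XT.lf (nat_lit 0) (nat_lit 3131021577) (nat_lit 304) (nat_lit 3622985534) (nat_lit 380) (nat_lit 3238997133) (nat_lit 40) (nat_lit 5) (nat_lit 44) (nat_lit 5) (nat_lit 45) (nat_lit 5) (nat_lit 266) (nat_lit 244) (nat_lit 210)) (XT.lf (nat_lit 0) (nat_lit 7817211814) (nat_lit 304) (nat_lit 855158677) (nat_lit 380) (nat_lit 1604263004) (nat_lit 40) (nat_lit 5) (nat_lit 44) (nat_lit 5) (nat_lit 45) (nat_lit 5) (nat_lit 267) (nat_lit 244) (nat_lit 209)))) (XT.nd (nat_lit 156) (nat_lit 228) (nat_lit 0) (XT.nd (nat_lit 78) (nat_lit 0) (nat_lit 0) (XT.lf (nat_lit 0) (nat_lit 122046460) (nat_lit 304) (nat_lit 8435389348) (nat_lit 76) (nat_lit 2016530709) (nat_lit 36) (nat_lit 5) (nat_lit 40) (nat_lit 5) (nat_lit 37) (nat_lit 5) (nat_lit 268) (nat_lit 244) (nat_lit 208)) (XT.lf (nat_lit 0) (nat_lit 1885628843) (nat_lit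 304) (nat_lit 3933354512) (nat_lit 76) (nat_lit 5065892304) (nat_lit 36) (nat_lit 5) (nat_lit 40) (nat_lit 5) (nat_lit 37) (nat_lit 5) (nat_lit 269) (nat_lit 244) (nat_lit 207))) (XT.nd (nat_lit 78) (nat_lit 0) (nat_lit 0) (XT.lf (nat_lit 0) (nat_lit 760866712) (nat_lit 228) (nat_lit 2939372324) (nat_lit 304) (nat_lit 7513204027) (nat_lit 33) (nat_lit 5) (nat_lit 36) (nat_lit 5) (nat_lit 37) (nat_lit 5) (nat_lit 270) (nat_lit 244) (nat_lit 206)) (XT.nd (nat_lit 78) (nat_lit 0) (nat_lit 0) (XT.lf (nat_lit 0) (nat_lit 5626887545) (nat_lit 304) (nat_lit 5789988025) (nat_lit 76) (nat_lit 140740961) (nat_lit 33) (nat_lit 5) (nat_lit 37) (nat_lit 5) (nat_lit 34) (nat_lit 5) (nat_lit 271) (nat_lit 244) (nat_lit 205)) (XT.lf (nat_lit 0) (nat_lit 7652614551) (nat_lit 304) (nat_lit 998484444) (nat_lit 76) (nat_lit 3267993882) (nat_lit 33) (nat_lit 5) (nat_lit 37) (nat_lit 5) (nat_lit 34) (nat_lit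 5) (nat_lit 272) (nat_lit 244) (nat_lit 204))))))))
noncomputable def xc105 : XT := (XT.nd (nat_lit 1248) (nat_lit 608) (nat_lit 0) (XT.nd (nat_lit 624) (nat_lit 380) (nat_lit 0) (XT.nd (nat_lit 312) (nat_lit 380) (nat_lit 0) (XT.nd (nat_lit 156) (nat_lit 304) (nat_lit 0) (XT.nd (nat_lit 78) (nat_lit 0) (nat_lit 0) (XT.lf (nat_lit 0) (nat_lit 4110806037) (nat_lit 228) (nat_lit 5689726540) (nat_lit 304) (nat_lit 2497285713) (nat_lit 30) (nat_lit 5) (nat_lit 33) (nat_lit 5) (nat_lit 34) (nat_lit 5) (nat_lit 273) (nat_lit 244) (nat_lit 203)) (XT.lf (nat_lit 0) (nat_lit 9457727066) (nat_lit 228) (nat_lit 2572993854) (nat_lit 304) (nat_lit 666225319) (nat_lit 30) (nat_lit 5) (nat_lit 33) (nat_lit 5) (nat_lit 34) (nat_lit 5) (nat_lit 274) (nat_lit 244) (nat_lit 202))) (XT.nd (nat_lit 78) (nat_lit 0) (nat_lit 0) (XT.lf (nat_lit 0) (nat_lit 1217268207) (nat_lit 304) (nat_lit 11180213675)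 (nat_lit 76) (nat_lit 717703761) (nat_lit 26) (nat_lit 5) (nat_lit 30) (nat_lit 5) (nat_lit 27) (nat_lit 5) (nat_lit 275) (nat_lit 244) (nat_lit 201)) (XT.lf (nat_lit 0) (nat_lit 3230584214) (nat_lit 304) (nat_lit 6177970801) (nat_lit 76) (nat_lit 4142515440) (nat_lit 26) (nat_lit 5) (nat_lit 30) (nat_lit 5) (nat_lit 27) (nat_lit 5) (nat_lit 276) (nat_lit 244) (nat_lit 200)))) (XT.nd (nat_lit 156) (nat_lit 228) (nat_lit 0) (XT.nd (nat_lit 78) (nat_lit 152) (nat_lit 0) (XT.lf (nat_lit 0) (nat_lit 5306566083) (nat_lit 304) (nat_lit 975812407) (nat_lit 76) (nat_lit 7728443771) (nat_lit 26) (nat_lit 5) (nat_lit 30) (nat_lit 5) (nat_lit 27) (nat_lit 5) (nat_lit 277) (nat_lit 244) (nat_lit 199)) (XT.lf (nat_lit 0) (nat_lit 4585409333) (nat_lit 152) (nat_lit 2936338385) (nat_lit 228) (nat_lit 6970208434) (nat_lit 24) (nat_lit 5) (nat_lit 26) (nat_lit 5) (nat_lit 27) (nat_lit 5) (nat_lit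 278) (nat_lit 244) (nat_lit 198))) (XT.nd (nat_lit 78) (nat_lit 228) (nat_lit 0) (XT.lf (nat_lit 0) (nat_lit 9838107678) (nat_lit 228) (nat_lit 4595797086) (nat_lit 76) (nat_lit 563877706) (nat_lit 24) (nat_lit 5) (nat_lit 27) (nat_lit 5) (nat_lit 25) (nat_lit 5) (nat_lit 279) (nat_lit 244) (nat_lit 197)) (XT.lf (nat_lit 0) (nat_lit 915200578) (nat_lit 228) (nat_lit 11383809478) (nat_lit 304) (nat_lit 3228603060) (nat_lit 21) (nat_lit 5) (nat_lit 24) (nat_lit 5) (nat_lit 25) (nat_lit 5) (nat_lit 280) (nat_lit 244) (nat_lit 196))))) (XT.nd (nat_lit 312) (nat_lit 152) (nat_lit 0) (XT.nd (nat_lit 156) (nat_lit 152) (nat_lit 0) (XT.nd (nat_lit 78) (nat_lit 76) (nat_lit 0) (XT.lf (nat_lit 0) (nat_lit 6815607941) (nat_lit 228) (nat_lit 8112371914) (nat_lit 304) (nat_lit 1153846449) (nat_lit 21) (nat_lit 5) (nat_lit 24) (nat_lit 5) (nat_lit 25) (nat_lit 5) (nat_lit 281) (nat_lit 244) (nat_lit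 195)) (XT.lf (nat_lit 0) (nat_lit 959962203) (nat_lit 304) (nat_lit 3713415355) (nat_lit 76) (nat_lit 11991296157) (nat_lit 20) (nat_lit 5) (nat_lit 24) (nat_lit 5) (nat_lit 21) (nat_lit 5) (nat_lit 282) (nat_lit 244) (nat_lit 194))) (XT.nd (nat_lit 78) (nat_lit 0) (nat_lit 0) (XT.lf (nat_lit 0) (nat_lit 2123503126) (nat_lit 152) (nat_lit 1019963139) (nat_lit 228) (nat_lit 14132235142) (nat_lit 18) (nat_lit 5) (nat_lit 20) (nat_lit 5) (nat_lit 21) (nat_lit 5) (nat_lit 283) (nat_lit 244) (nat_lit 193)) (XT.lf (nat_lit 0) (nat_lit 5514260619) (nat_lit 228) (nat_lit 9621237234) (nat_lit 76) (nat_lit 2777993803) (nat_lit 18) (nat_lit 5) (nat_lit 21) (nat_lit 5) (nat_lit 19) (nat_lit 5) (nat_lit 284) (nat_lit 244) (nat_lit 192)))) (XT.nd (nat_lit 156) (nat_lit 0) (nat_lit 0) (XT.nd (nat_lit 78) (nat_lit 152) (nat_lit 0) (XT.lf (nat_lit 0) (nat_lit 7991961194) (nat_lit 228) (nat_lit 3871678926)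 (nat_lit 76) (nat_lit 6720224332) (nat_lit 18) (nat_lit 5) (nat_lit 21) (nat_lit 5) (nat_lit 19) (nat_lit 5) (nat_lit 285) (nat_lit 244) (nat_lit 191)) (XT.lf (nat_lit 0) (nat_lit 2196388704) (nat_lit 152) (nat_lit 8404445873) (nat_lit 228) (nat_lit 8686662978) (nat_lit 16) (nat_lit 5) (nat_lit 18) (nat_lit 5) (nat_lit 19) (nat_lit 5) (nat_lit 286) (nat_lit 244) (nat_lit 190))) (XT.nd (nat_lit 78) (nat_lit 0) (nat_lit 0) (XT.lf (nat_lit 0) (nat_lit 8663642255) (nat_lit 152) (nat_lit 4715756856) (nat_lit 228) (nat_lit 6645051835) (nat_lit 16) (nat_lit 5) (nat_lit 18) (nat_lit 5) (nat_lit 19) (nat_lit 5) (nat_lit 287) (nat_lit 244) (nat_lit 189)) (XT.lf (nat_lit 0) (nat_lit 15417464758) (nat_lit 152) (nat_lit 854359235) (nat_lit 228) (nat_lit 4527777605) (nat_lit 16) (nat_lit 5) (nat_lit 18) (nat_lit 5) (nat_lit 19) (nat_lit 5) (nat_lit 288) (nat_lit 244) (nat_lit 188)))))) (XT.nd (nat_lit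 624) (nat_lit 304) (nat_lit 0) (XT.nd (nat_lit 312) (nat_lit 152) (nat_lit 0) (XT.nd (nat_lit 156) (nat_lit 0) (nat_lit 0) (XT.nd (nat_lit 78) (nat_lit 76) (nat_lit 0) (XT.lf (nat_lit 0) (nat_lit 836114209) (nat_lit 76) (nat_lit 18511724127) (nat_lit 152) (nat_lit 2263814650) (nat_lit 15) (nat_lit 5) (nat_lit 16) (nat_lit 5) (nat_lit 17) (nat_lit 4) (nat_lit 289) (nat_lit 244) (nat_lit 187)) (XT.lf (nat_lit 0) (nat_lit 192440156) (nat_lit 152) (nat_lit 14961329597) (nat_lit 76) (nat_lit 7306395732) (nat_lit 14) (nat_lit 5) (nat_lit 16) (nat_lit 5) (nat_lit 15) (nat_lit 5) (nat_lit 290) (nat_lit 244) (nat_lit 186))) (XT.nd (nat_lit 78) (nat_lit 0) (nat_lit 0) (XT.lf (nat_lit 0) (nat_lit 2672640375) (nat_lit 152) (nat_lit 8928230018) (nat_lit 76) (nat_lit 11749596187) (nat_lit 14) (nat_lit 5) (nat_lit 16) (nat_lit 5) (nat_lit 15) (nat_lit 5) (nat_lit 291) (nat_lit 244) (nat_lit 185))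 (XT.lf (nat_lit 0) (nat_lit 5255147449) (nat_lit 152) (nat_lit 2626531026) (nat_lit 76) (nat_lit 16404764783) (nat_lit 14) (nat_lit 5) (nat_lit 16) (nat_lit 5) (nat_lit 15) (nat_lit 5) (nat_lit 292) (nat_lit 244) (nat_lit 184)))) (XT.nd (nat_lit 156) (nat_lit 0) (nat_lit 0) (XT.nd (nat_lit 78) (nat_lit 0) (nat_lit 0) (XT.lf (nat_lit 0) (nat_lit 4089666282) (nat_lit 152) (nat_lit 3920295076) (nat_lit 228) (nat_lit 17257170124) (nat_lit 12) (nat_lit 5) (nat_lit 14) (nat_lit 5) (nat_lit 15) (nat_lit 5) (nat_lit 293) (nat_lit 244) (nat_lit 183)) (XT.lf (nat_lit 0) (nat_lit 10931122982) (nat_lit 228) (nat_lit 15098114327) (nat_lit 76) (nat_lit 266254820) (nat_lit 12) (nat_lit 5) (nat_lit 15) (nat_lit 5) (nat_lit 13) (nat_lit 4) (nat_lit 294) (nat_lit 244) (nat_lit 182))) (XT.nd (nat_lit 78) (nat_lit 0) (nat_lit 0) (XT.lf (nat_lit 0) (nat_lit 14043240600) (nat_lit 228) (nat_lit 8809426709)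 (nat_lit 76) (nat_lit 4520423715) (nat_lit 12) (nat_lit 5) (nat_lit 15) (nat_lit 5) (nat_lit 13) (nat_lit 4) (nat_lit 295) (nat_lit 244) (nat_lit 181)) (XT.lf (nat_lit 0) (nat_lit 17292517224) (nat_lit 228) (nat_lit 2235222487) (nat_lit 76) (nat_lit 8977814507) (nat_lit 12) (nat_lit 5) (nat_lit 15) (nat_lit 5) (nat_lit 13) (nat_lit 4) (nat_lit 296) (nat_lit 244) (nat_lit 180))))) (XT.nd (nat_lit 312) (nat_lit 228) (nat_lit 0) (XT.nd (nat_lit 156) (nat_lit 0) (nat_lit 0) (XT.nd (nat_lit 78) (nat_lit 0) (nat_lit 0) (XT.lf (nat_lit 0) (nat_lit 4793575561) (nat_lit 76) (nat_lit 15967954813) (nat_lit 152) (nat_lit 8930305617) (nat_lit 11) (nat_lit 5) (nat_lit 12) (nat_lit 5) (nat_lit 13) (nat_lit 4) (nat_lit 297) (nat_lit 244) (nat_lit 179)) (XT.lf (nat_lit 0) (nat_lit 12224318855) (nat_lit 76) (nat_lit 12200374989) (nat_lit 152) (nat_lit 6511759270) (nat_lit 11) (nat_lit 5) (nat_lit 12)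 (nat_lit 5) (nat_lit 13) (nat_lit 4) (nat_lit 298) (nat_lit 244) (nat_lit 178))) (XT.nd (nat_lit 78) (nat_lit 0) (nat_lit 0) (XT.lf (nat_lit 0) (nat_lit 20000793091) (nat_lit 76) (nat_lit 8253884384) (nat_lit 152) (nat_lit 3989494084) (nat_lit 11) (nat_lit 5) (nat_lit 12) (nat_lit 5) (nat_lit 13) (nat_lit 4) (nat_lit 299) (nat_lit 244) (nat_lit 177)) (XT.lf (nat_lit 0) (nat_lit 28141513683) (nat_lit 76) (nat_lit 4119086594) (nat_lit 152) (nat_lit 1357504666) (nat_lit 11) (nat_lit 5) (nat_lit 12) (nat_lit 5) (nat_lit 13) (nat_lit 4) (nat_lit 300) (nat_lit 244) (nat_lit 176)))) (XT.nd (nat_lit 156) (nat_lit 0) (nat_lit 0) (XT.nd (nat_lit 78) (nat_lit 0) (nat_lit 0) (XT.lf (nat_lit 0) (nat_lit 1375611359) (nat_lit 228) (nat_lit 33428317693) (nat_lit 76) (nat_lit 255028040) (nat_lit 8) (nat_lit 5) (nat_lit 11) (nat_lit 5) (nat_lit 9) (nat_lit 4) (nat_lit 301) (nat_lit 244) (nat_lit 175))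 (XT.lf (nat_lit 0) (nat_lit 4346662312) (nat_lit 228) (nat_lit 27399359516) (nat_lit 76) (nat_lit 4817416371) (nat_lit 8) (nat_lit 5) (nat_lit 11) (nat_lit 5) (nat_lit 9) (nat_lit 4) (nat_lit 302) (nat_lit 244) (nat_lit 174))) (XT.nd (nat_lit 78) (nat_lit 0) (nat_lit 0) (XT.lf (nat_lit 0) (nat_lit 7452080078) (nat_lit 228) (nat_lit 21092011452) (nat_lit 76) (nat_lit 9599803088) (nat_lit 8) (nat_lit 5) (nat_lit 11) (nat_lit 5) (nat_lit 9) (nat_lit 4) (nat_lit 303) (nat_lit 244) (nat_lit 173)) (XT.lf (nat_lit 0) (nat_lit 10699258511) (nat_lit 228) (nat_lit 14491256005) (nat_lit 76) (nat_lit 14613574824) (nat_lit 8) (nat_lit 5) (nat_lit 11) (nat_lit 5) (nat_lit 9) (nat_lit 4) (nat_lit 304) (nat_lit 244) (nat_lit 172)))))))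
noncomputable def xc106 : XT := (XT.nd (nat_lit 1248) (nat_lit 152) (nat_lit 0) (XT.nd (nat_lit 624) (nat_lit 152) (nat_lit 0) (XT.nd (nat_lit 312) (nat_lit 0) (nat_lit 0) (XT.nd (nat_lit 156) (nat_lit 76) (nat_lit 0) (XT.nd (nat_lit 78) (nat_lit 0) (nat_lit 0) (XT.lf (nat_lit 0) (nat_lit 14095928987) (nat_lit 228) (nat_lit 7581377092) (nat_lit 76) (nat_lit 19870669133) (nat_lit 8) (nat_lit 5) (nat_lit 11) (nat_lit 5) (nat_lit 9) (nat_lit 4) (nat_lit 305) (nat_lit 244) (nat_lit 171)) (XT.lf (nat_lit 0) (nat_lit 17650178817) (nat_lit 228) (nat_lit 345922620) (nat_lit 76) (nat_lit 25383602904) (nat_lit 8) (nat_lit 5) (nat_lit 11) (nat_lit 5) (nat_lit 9) (nat_lit 4) (nat_lit 306) (nat_lit 244) (nat_lit 170))) (XT.nd (nat_lit 78) (nat_lit 0) (nat_lit 0) (XT.lf (nat_lit 0) (nat_lit 7471468330) (nat_lit 76) (nat_lit 14015652729) (nat_lit 152) (nat_lit 23810684400) (nat_lit 7) (nat_lit 5)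 (nat_lit 8) (nat_lit 5) (nat_lit 9) (nat_lit 4) (nat_lit 307) (nat_lit 244) (nat_lit 169)) (XT.lf (nat_lit 0) (nat_lit 15673074555) (nat_lit 76) (nat_lit 9837287936) (nat_lit 152) (nat_lit 21801759423) (nat_lit 7) (nat_lit 5) (nat_lit 8) (nat_lit 5) (nat_lit 9) (nat_lit 4) (nat_lit 308) (nat_lit 244) (nat_lit 168)))) (XT.nd (nat_lit 156) (nat_lit 0) (nat_lit 0) (XT.nd (nat_lit 78) (nat_lit 0) (nat_lit 0) (XT.lf (nat_lit 0) (nat_lit 24266985924) (nat_lit 76) (nat_lit 5456916938) (nat_lit 152) (nat_lit 19703825806) (nat_lit 7) (nat_lit 5) (nat_lit 8) (nat_lit 5) (nat_lit 9) (nat_lit 4) (nat_lit 309) (nat_lit 244) (nat_lit 167)) (XT.lf (nat_lit 0) (nat_lit 33273664131) (nat_lit 76) (nat_lit 864110280) (nat_lit 152) (nat_lit 17511888468) (nat_lit 7) (nat_lit 5) (nat_lit 8) (nat_lit 5) (nat_lit 9) (nat_lit 4) (nat_lit 310) (nat_lit 244) (nat_lit 166))) (XT.nd (nat_lit 78) (nat_lit 0) (nat_lit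 0) (XT.lf (nat_lit 0) (nat_lit 38824189202) (nat_lit 152) (nat_lit 11330364065) (nat_lit 0) (nat_lit 3825576457) (nat_lit 7) (nat_lit 5) (nat_lit 9) (nat_lit 4) (nat_lit 7) (nat_lit 4) (nat_lit 311) (nat_lit 244) (nat_lit 165)) (XT.lf (nat_lit 0) (nat_lit 43749613269) (nat_lit 152) (nat_lit 3962371279) (nat_lit 0) (nat_lit 8714927990) (nat_lit 7) (nat_lit 5) (nat_lit 9) (nat_lit 4) (nat_lit 7) (nat_lit 4) (nat_lit 312) (nat_lit 244) (nat_lit 164))))) (XT.nd (nat_lit 312) (nat_lit 76) (nat_lit 0) (XT.nd (nat_lit 156) (nat_lit 0) (nat_lit 0) (XT.nd (nat_lit 78) (nat_lit 0) (nat_lit 0) (XT.lf (nat_lit 0) (nat_lit 3883303597) (nat_lit 76) (nat_lit 45089608285) (nat_lit 76) (nat_lit 10020568211) (nat_lit 6) (nat_lit 4) (nat_lit 7) (nat_lit 5) (nat_lit 7) (nat_lit 4) (nat_lit 313) (nat_lit 244) (nat_lit 163)) (XT.lf (nat_lit 0) (nat_lit 12244061346) (nat_lit 76) (nat_lit 42271592121) (nat_lit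 76) (nat_lit 7169833195) (nat_lit 6) (nat_lit 4) (nat_lit 7) (nat_lit 5) (nat_lit 7) (nat_lit 4) (nat_lit 314) (nat_lit 244) (nat_lit 162))) (XT.nd (nat_lit 78) (nat_lit 0) (nat_lit 0) (XT.lf (nat_lit 0) (nat_lit 21008794642) (nat_lit 76) (nat_lit 39318331171) (nat_lit 76) (nat_lit 4185411433) (nat_lit 6) (nat_lit 4) (nat_lit 7) (nat_lit 5) (nat_lit 7) (nat_lit 4) (nat_lit 315) (nat_lit 244) (nat_lit 161)) (XT.lf (nat_lit 0) (nat_lit 30198371897) (nat_lit 76) (nat_lit 36222793861) (nat_lit 76) (nat_lit 1060197160) (nat_lit 6) (nat_lit 4) (nat_lit 7) (nat_lit 5) (nat_lit 7) (nat_lit 4) (nat_lit 316) (nat_lit 244) (nat_lit 160)))) (XT.nd (nat_lit 156) (nat_lit 0) (nat_lit 0) (XT.nd (nat_lit 78) (nat_lit 0) (nat_lit 0) (XT.lf (nat_lit 0) (nat_lit 2142412770) (nat_lit 152) (nat_lit 30798914297) (nat_lit 76) (nat_lit 37655977492) (nat_lit 5) (nat_lit 5) (nat_lit 7) (nat_lit 5) (nat_lit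 6) (nat_lit 4) (nat_lit 317) (nat_lit 244) (nat_lit 159)) (XT.lf (nat_lit 0) (nat_lit 5462123340) (nat_lit 152) (nat_lit 24020425509) (nat_lit 76) (nat_lit 44386014659) (nat_lit 5) (nat_lit 5) (nat_lit 7) (nat_lit 5) (nat_lit 6) (nat_lit 4) (nat_lit 318) (nat_lit 244) (nat_lit 158))) (XT.nd (nat_lit 78) (nat_lit 0) (nat_lit 0) (XT.lf (nat_lit 0) (nat_lit 8940771552) (nat_lit 152) (nat_lit 16914832750) (nat_lit 76) (nat_lit 51448151808) (nat_lit 5) (nat_lit 5) (nat_lit 7) (nat_lit 5) (nat_lit 6) (nat_lit 4) (nat_lit 319) (nat_lit 244) (nat_lit 157)) (XT.lf (nat_lit 0) (nat_lit 12586639903) (nat_lit 152) (nat_lit 9465217942) (nat_lit 76) (nat_lit 58859203551) (nat_lit 5) (nat_lit 5) (nat_lit 7) (nat_lit 5) (nat_lit 6) (nat_lit 4) (nat_lit 320) (nat_lit 244) (nat_lit 156)))))) (XT.nd (nat_lit 624) (nat_lit 76) (nat_lit 0) (XT.nd (nat_lit 312) (nat_lit 0) (nat_lit 0) (XT.nd (nat_lit 156)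 (nat_lit 0) (nat_lit 0) (XT.nd (nat_lit 78) (nat_lit 76) (nat_lit 0) (XT.lf (nat_lit 0) (nat_lit 16408409031) (nat_lit 152) (nat_lit 1653843907) (nat_lit 76) (nat_lit 66636815249) (nat_lit 5) (nat_lit 5) (nat_lit 7) (nat_lit 5) (nat_lit 6) (nat_lit 4) (nat_lit 321) (nat_lit 244) (nat_lit 155)) (XT.lf (nat_lit 0) (nat_lit 6754059962) (nat_lit 76) (nat_lit 13766568228) (nat_lit 152) (nat_lit 68150894867) (nat_lit 4) (nat_lit 5) (nat_lit 5) (nat_lit 5) (nat_lit 6) (nat_lit 4) (nat_lit 322) (nat_lit 244) (nat_lit 154))) (XT.nd (nat_lit 78) (nat_lit 0) (nat_lit 0) (XT.lf (nat_lit 0) (nat_lit 15629730481) (nat_lit 76) (nat_lit 9230781311) (nat_lit 152) (nat_lit 67981001270) (nat_lit 4) (nat_lit 5) (nat_lit 5) (nat_lit 5) (nat_lit 6) (nat_lit 4) (nat_lit 323) (nat_lit 244) (nat_lit 153)) (XT.lf (nat_lit 0) (nat_lit 24939616647) (nat_lit 76) (nat_lit 4472101342) (nat_lit 152) (nat_lit 67808582504)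 (nat_lit 4) (nat_lit 5) (nat_lit 5) (nat_lit 5) (nat_lit 6) (nat_lit 4) (nat_lit 324) (nat_lit 244) (nat_lit 152)))) (XT.nd (nat_lit 156) (nat_lit 0) (nat_lit 0) (XT.nd (nat_lit 78) (nat_lit 0) (nat_lit 0) (XT.lf (nat_lit 0) (nat_lit 34193214163) (nat_lit 152) (nat_lit 67120557356) (nat_lit 0) (nat_lit 504132957) (nat_lit 4) (nat_lit 5) (nat_lit 6) (nat_lit 4) (nat_lit 4) (nat_lit 4) (nat_lit 325) (nat_lit 244) (nat_lit 151)) (XT.lf (nat_lit 0) (nat_lit 39281898812) (nat_lit 152) (nat_lit 61784631078) (nat_lit 0) (nat_lit 5575466100) (nat_lit 4) (nat_lit 5) (nat_lit 6) (nat_lit 4) (nat_lit 4) (nat_lit 4) (nat_lit 326) (nat_lit 244) (nat_lit 150))) (XT.nd (nat_lit 78) (nat_lit 0) (nat_lit 0) (XT.lf (nat_lit 0) (nat_lit 44620065816) (nat_lit 152) (nat_lit 56190378390) (nat_lit 0) (nat_lit 10897107861) (nat_lit 4) (nat_lit 5) (nat_lit 6) (nat_lit 4) (nat_lit 4) (nat_lit 4) (nat_lit 327)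 (nat_lit 244) (nat_lit 149)) (XT.lf (nat_lit 0) (nat_lit 50220425097) (nat_lit 152) (nat_lit 50324479642) (nat_lit 0) (nat_lit 16481728815) (nat_lit 4) (nat_lit 5) (nat_lit 6) (nat_lit 4) (nat_lit 4) (nat_lit 4) (nat_lit 328) (nat_lit 244) (nat_lit 148))))) (XT.nd (nat_lit 312) (nat_lit 76) (nat_lit 0) (XT.nd (nat_lit 156) (nat_lit 0) (nat_lit 0) (XT.nd (nat_lit 78) (nat_lit 0) (nat_lit 0) (XT.lf (nat_lit 0) (nat_lit 56096310845) (nat_lit 152) (nat_lit 44172968410) (nat_lit 0) (nat_lit 22342625678) (nat_lit 4) (nat_lit 5) (nat_lit 6) (nat_lit 4) (nat_lit 4) (nat_lit 4) (nat_lit 329) (nat_lit 244) (nat_lit 147)) (XT.lf (nat_lit 0) (nat_lit 62261713262) (nat_lit 152) (nat_lit 37721198238) (nat_lit 0) (nat_lit 28493752969) (nat_lit 4) (nat_lit 5) (nat_lit 6) (nat_lit 4) (nat_lit 4) (nat_lit 4) (nat_lit 330) (nat_lit 244) (nat_lit 146))) (XT.nd (nat_lit 78) (nat_lit 0) (nat_lit 0) (XT.lf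 (nat_lit 0) (nat_lit 68731311878) (nat_lit 152) (nat_lit 30953807768) (nat_lit 0) (nat_lit 34949756226) (nat_lit 4) (nat_lit 5) (nat_lit 6) (nat_lit 4) (nat_lit 4) (nat_lit 4) (nat_lit 331) (nat_lit 244) (nat_lit 145)) (XT.lf (nat_lit 0) (nat_lit 75520510500) (nat_lit 152) (nat_lit 23854684167) (nat_lit 0) (nat_lit 41726006887) (nat_lit 4) (nat_lit 5) (nat_lit 6) (nat_lit 4) (nat_lit 4) (nat_lit 4) (nat_lit 332) (nat_lit 244) (nat_lit 144)))) (XT.nd (nat_lit 156) (nat_lit 76) (nat_lit 0) (XT.nd (nat_lit 78) (nat_lit 0) (nat_lit 0) (XT.lf (nat_lit 0) (nat_lit 82645473886) (nat_lit 152) (nat_lit 16406924758) (nat_lit 0) (nat_lit 48838638882) (nat_lit 4) (nat_lit 5) (nat_lit 6) (nat_lit 4) (nat_lit 4) (nat_lit 4) (nat_lit 333) (nat_lit 244) (nat_lit 143)) (XT.lf (nat_lit 0) (nat_lit 90123166236) (nat_lit 152) (nat_lit 8592796782) (nat_lit 0) (nat_lit 56304587050) (nat_lit 4) (nat_lit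 5) (nat_lit 6) (nat_lit 4) (nat_lit 4) (nat_lit 4) (nat_lit 334) (nat_lit 244) (nat_lit 142))) (XT.nd (nat_lit 78) (nat_lit 76) (nat_lit 0) (XT.lf (nat_lit 0) (nat_lit 97971391577) (nat_lit 152) (nat_lit 393695171) (nat_lit 0) (nat_lit 64141627456) (nat_lit 4) (nat_lit 5) (nat_lit 6) (nat_lit 4) (nat_lit 4) (nat_lit 4) (nat_lit 335) (nat_lit 244) (nat_lit 141)) (XT.nd (nat_lit 78) (nat_lit 0) (nat_lit 0) (XT.lf (nat_lit 0) (nat_lit 8481358172) (nat_lit 76) (nat_lit 97859895759) (nat_lit 76) (nat_lit 64019479318) (nat_lit 3) (nat_lit 4) (nat_lit 4) (nat_lit 5) (nat_lit 4) (nat_lit 4) (nat_lit 336) (nat_lit 244) (nat_lit 140)) (XT.lf (nat_lit 0) (nat_lit 17808460676) (nat_lit 76) (nat_lit 97324692256) (nat_lit 76) (nat_lit 63474130748) (nat_lit 3) (nat_lit 4) (nat_lit 4) (nat_lit 5) (nat_lit 4) (nat_lit 4) (nat_lit 337) (nat_lit 244) (nat_lit 139))))))))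
noncomputable def xc107 : XT := (XT.nd (nat_lit 1248) (nat_lit 0) (nat_lit 0) (XT.nd (nat_lit 624) (nat_lit 0) (nat_lit 0) (XT.nd (nat_lit 312) (nat_lit 0) (nat_lit 0) (XT.nd (nat_lit 156) (nat_lit 0) (nat_lit 0) (XT.nd (nat_lit 78) (nat_lit 0) (nat_lit 0) (XT.lf (nat_lit 0) (nat_lit 27596802386) (nat_lit 76) (nat_lit 96764869362) (nat_lit 76) (nat_lit 62904645887) (nat_lit 3) (nat_lit 4) (nat_lit 4) (nat_lit 5) (nat_lit 4) (nat_lit 4) (nat_lit 338) (nat_lit 244) (nat_lit 138)) (XT.lf (nat_lit 0) (nat_lit 37869688878) (nat_lit 76) (nat_lit 96179094166) (nat_lit 76) (nat_lit 62309668817) (nat_lit 3) (nat_lit 4) (nat_lit 4) (nat_lit 5) (nat_lit 4) (nat_lit 4) (nat_lit 339) (nat_lit 244) (nat_lit 137))) (XT.nd (nat_lit 78) (nat_lit 0) (nat_lit 0) (XT.lf (nat_lit 0) (nat_lit 48651579406) (nat_lit 76) (nat_lit 95565971966) (nat_lit 76) (nat_lit 61687782928) (nat_lit 3) (nat_lit 4) (nat_lit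 4) (nat_lit 5) (nat_lit 4) (nat_lit 4) (nat_lit 340) (nat_lit 244) (nat_lit 136)) (XT.lf (nat_lit 0) (nat_lit 59968145137) (nat_lit 76) (nat_lit 94924042947) (nat_lit 76) (nat_lit 61037507538) (nat_lit 3) (nat_lit 4) (nat_lit 4) (nat_lit 5) (nat_lit 4) (nat_lit 4) (nat_lit 341) (nat_lit 244) (nat_lit 135)))) (XT.nd (nat_lit 156) (nat_lit 0) (nat_lit 0) (XT.nd (nat_lit 78) (nat_lit 0) (nat_lit 0) (XT.lf (nat_lit 0) (nat_lit 71846330275) (nat_lit 76) (nat_lit 94251778706) (nat_lit 76) (nat_lit 60357294372) (nat_lit 3) (nat_lit 4) (nat_lit 4) (nat_lit 5) (nat_lit 4) (nat_lit 4) (nat_lit 342) (nat_lit 244) (nat_lit 134)) (XT.lf (nat_lit 0) (nat_lit 84314416214) (nat_lit 76) (nat_lit 93547578615) (nat_lit 76) (nat_lit 59645523876) (nat_lit 3) (nat_lit 4) (nat_lit 4) (nat_lit 5) (nat_lit 4) (nat_lit 4) (nat_lit 343) (nat_lit 244) (nat_lit 133))) (XT.nd (nat_lit 78) (nat_lit 0) (nat_lit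 0) (XT.lf (nat_lit 0) (nat_lit 97402088872) (nat_lit 76) (nat_lit 92809766005) (nat_lit 76) (nat_lit 58900501357) (nat_lit 3) (nat_lit 4) (nat_lit 4) (nat_lit 5) (nat_lit 4) (nat_lit 4) (nat_lit 344) (nat_lit 244) (nat_lit 132)) (XT.lf (nat_lit 0) (nat_lit 111140509375) (nat_lit 76) (nat_lit 92036584181) (nat_lit 76) (nat_lit 58120452953) (nat_lit 3) (nat_lit 4) (nat_lit 4) (nat_lit 5) (nat_lit 4) (nat_lit 4) (nat_lit 345) (nat_lit 244) (nat_lit 131))))) (XT.nd (nat_lit 312) (nat_lit 0) (nat_lit 0) (XT.nd (nat_lit 156) (nat_lit 0) (nat_lit 0) (XT.nd (nat_lit 78) (nat_lit 0) (nat_lit 0) (XT.lf (nat_lit 0) (nat_lit 125562388248) (nat_lit 76) (nat_lit 91226192234) (nat_lit 76) (nat_lit 57303521406) (nat_lit 3) (nat_lit 4) (nat_lit 4) (nat_lit 5) (nat_lit 4) (nat_lit 4) (nat_lit 346) (nat_lit 244) (nat_lit 130)) (XT.lf (nat_lit 0) (nat_lit 140702063298) (nat_lit 76) (nat_lit 90376660658)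 (nat_lit 76) (nat_lit 56447761639) (nat_lit 3) (nat_lit 4) (nat_lit 4) (nat_lit 5) (nat_lit 4) (nat_lit 4) (nat_lit 347) (nat_lit 244) (nat_lit 129))) (XT.nd (nat_lit 78) (nat_lit 0) (nat_lit 0) (XT.lf (nat_lit 0) (nat_lit 156595581370) (nat_lit 76) (nat_lit 89485966760) (nat_lit 76) (nat_lit 55551136131) (nat_lit 3) (nat_lit 4) (nat_lit 4) (nat_lit 5) (nat_lit 4) (nat_lit 4) (nat_lit 348) (nat_lit 244) (nat_lit 128)) (XT.lf (nat_lit 0) (nat_lit 173280784173) (nat_lit 76) (nat_lit 88551989840) (nat_lit 76) (nat_lit 54611510059) (nat_lit 3) (nat_lit 4) (nat_lit 4) (nat_lit 5) (nat_lit 4) (nat_lit 4) (nat_lit 349) (nat_lit 244) (nat_lit 127)))) (XT.nd (nat_lit 156) (nat_lit 0) (nat_lit 0) (XT.nd (nat_lit 78) (nat_lit 0) (nat_lit 0) (XT.lf (nat_lit 0) (nat_lit 190797398382) (nat_lit 76) (nat_lit 87572506143) (nat_lit 76) (nat_lit 53626646217) (nat_lit 3) (nat_lit 4) (nat_lit 4) (nat_lit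 5) (nat_lit 4) (nat_lit 4) (nat_lit 350) (nat_lit 244) (nat_lit 126)) (XT.lf (nat_lit 0) (nat_lit 209187130220) (nat_lit 76) (nat_lit 86545183566) (nat_lit 76) (nat_lit 52594199691) (nat_lit 3) (nat_lit 4) (nat_lit 4) (nat_lit 5) (nat_lit 4) (nat_lit 4) (nat_lit 351) (nat_lit 244) (nat_lit 125))) (XT.nd (nat_lit 78) (nat_lit 0) (nat_lit 0) (XT.lf (nat_lit 0) (nat_lit 228493764764) (nat_lit 76) (nat_lit 85467576101) (nat_lit 76) (nat_lit 51511712277) (nat_lit 3) (nat_lit 4) (nat_lit 4) (nat_lit 5) (nat_lit 4) (nat_lit 4) (nat_lit 352) (nat_lit 244) (nat_lit 124)) (XT.lf (nat_lit 0) (nat_lit 248763270190) (nat_lit 76) (nat_lit 84337118018) (nat_lit 76) (nat_lit 50376606622) (nat_lit 3) (nat_lit 4) (nat_lit 4) (nat_lit 5) (nat_lit 4) (nat_lit 4) (nat_lit 353) (nat_lit 244) (nat_lit 123)))))) (XT.nd (nat_lit 29484) (nat_lit 0) (nat_lit 4560) (XT.nd (nat_lit 29172) (nat_lit 0) (nat_lit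 5928) (XT.nd (nat_lit 29016) (nat_lit 0) (nat_lit 6308) (XT.nd (nat_lit 78) (nat_lit 0) (nat_lit 0) (XT.lf (nat_lit 0) (nat_lit 270043907226) (nat_lit 76) (nat_lit 83151117749) (nat_lit 76) (nat_lit 49186180094) (nat_lit 3) (nat_lit 4) (nat_lit 4) (nat_lit 5) (nat_lit 4) (nat_lit 4) (nat_lit 354) (nat_lit 244) (nat_lit 122)) (XT.lf (nat_lit 0) (nat_lit 292386344055) (nat_lit 76) (nat_lit 81906751483) (nat_lit 76) (nat_lit 47937598344) (nat_lit 3) (nat_lit 4) (nat_lit 4) (nat_lit 5) (nat_lit 4) (nat_lit 4) (nat_lit 355) (nat_lit 244) (nat_lit 121))) (XT.nd (nat_lit 78) (nat_lit 0) (nat_lit 0) (XT.lf (nat_lit 0) (nat_lit 1309435078) (nat_lit 380) (nat_lit 1032953631) (nat_lit 380) (nat_lit 1032953631) (nat_lit 86) (nat_lit 3) (nat_lit 91) (nat_lit 3) (nat_lit 91) (nat_lit 5) (nat_lit 245) (nat_lit 245) (nat_lit 230)) (XT.lf (nat_lit 76) (nat_lit 689992350) (nat_lit 0) (nat_lit 3756853751)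 (nat_lit 380) (nat_lit 2369594009) (nat_lit 87) (nat_lit 5) (nat_lit 86) (nat_lit 3) (nat_lit 91) (nat_lit 5) (nat_lit 246) (nat_lit 245) (nat_lit 229)))) (XT.nd (nat_lit 156) (nat_lit 0) (nat_lit 0) (XT.nd (nat_lit 78) (nat_lit 380) (nat_lit 0) (XT.lf (nat_lit 76) (nat_lit 3594102205) (nat_lit 0) (nat_lit 2694015888) (nat_lit 380) (nat_lit 602223274) (nat_lit 87) (nat_lit 5) (nat_lit 86) (nat_lit 3) (nat_lit 91) (nat_lit 5) (nat_lit 247) (nat_lit 245) (nat_lit 228)) (XT.lf (nat_lit 0) (nat_lit 1103046853) (nat_lit 380) (nat_lit 406992918) (nat_lit 456) (nat_lit 5463301138) (nat_lit 81) (nat_lit 5) (nat_lit 86) (nat_lit 3) (nat_lit 87) (nat_lit 5) (nat_lit 248) (nat_lit 245) (nat_lit 227))) (XT.nd (nat_lit 78) (nat_lit 0) (nat_lit 76) (XT.lf (nat_lit 76) (nat_lit 2641480437) (nat_lit 0) (nat_lit 168008213) (nat_lit 456) (nat_lit 4254523981) (nat_lit 82) (nat_lit 5) (nat_lit 81) (nat_lit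 5) (nat_lit 87) (nat_lit 5) (nat_lit 249) (nat_lit 245) (nat_lit 226)) (XT.lf (nat_lit 0) (nat_lit 4527282574) (nat_lit 380) (nat_lit 1387288012) (nat_lit 456) (nat_lit 1249129821) (nat_lit 82) (nat_lit 5) (nat_lit 87) (nat_lit 5) (nat_lit 88) (nat_lit 5) (nat_lit 250) (nat_lit 245) (nat_lit 225))))) (XT.nd (nat_lit 312) (nat_lit 988) (nat_lit 0) (XT.nd (nat_lit 156) (nat_lit 0) (nat_lit 0) (XT.nd (nat_lit 78) (nat_lit 456) (nat_lit 0) (XT.lf (nat_lit 76) (nat_lit 1792003635) (nat_lit 0) (nat_lit 4474120687) (nat_lit 456) (nat_lit 1006236981) (nat_lit 83) (nat_lit 5) (nat_lit 82) (nat_lit 5) (nat_lit 88) (nat_lit 5) (nat_lit 251) (nat_lit 245) (nat_lit 224)) (XT.lf (nat_lit 0) (nat_lit 612576984) (nat_lit 456) (nat_lit 2283358254) (nat_lit 532) (nat_lit 4494161376) (nat_lit 76) (nat_lit 5) (nat_lit 82) (nat_lit 5) (nat_lit 83) (nat_lit 5) (nat_lit 252) (nat_lit 245) (nat_lit 223)))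 (XT.nd (nat_lit 78) (nat_lit 0) (nat_lit 76) (XT.lf (nat_lit 76) (nat_lit 1027892665) (nat_lit 0) (nat_lit 1176979127) (nat_lit 532) (nat_lit 5312349273) (nat_lit 77) (nat_lit 5) (nat_lit 76) (nat_lit 5) (nat_lit 83) (nat_lit 5) (nat_lit 253) (nat_lit 245) (nat_lit 222)) (XT.lf (nat_lit 0) (nat_lit 3839911498) (nat_lit 456) (nat_lit 3141557456) (nat_lit 76) (nat_lit 671690538) (nat_lit 77) (nat_lit 5) (nat_lit 83) (nat_lit 5) (nat_lit 78) (nat_lit 5) (nat_lit 254) (nat_lit 245) (nat_lit 221)))) (XT.nd (nat_lit 156) (nat_lit 608) (nat_lit 0) (XT.nd (nat_lit 78) (nat_lit 0) (nat_lit 0) (XT.lf (nat_lit 0) (nat_lit 300761361) (nat_lit 456) (nat_lit 5198049228) (nat_lit 532) (nat_lit 2300563891) (nat_lit 71) (nat_lit 5) (nat_lit 77) (nat_lit 5) (nat_lit 78) (nat_lit 5) (nat_lit 255) (nat_lit 245) (nat_lit 220)) (XT.lf (nat_lit 0) (nat_lit 3962110633) (nat_lit 456) (nat_lit 3252793540)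 (nat_lit 532) (nat_lit 739840722) (nat_lit 71) (nat_lit 5) (nat_lit 77) (nat_lit 5) (nat_lit 78) (nat_lit 5) (nat_lit 256) (nat_lit 245) (nat_lit 219))) (XT.nd (nat_lit 78) (nat_lit 532) (nat_lit 0) (XT.lf (nat_lit 0) (nat_lit 793206729) (nat_lit 532) (nat_lit 387634057) (nat_lit 76) (nat_lit 6940693711) (nat_lit 70) (nat_lit 5) (nat_lit 77) (nat_lit 5) (nat_lit 71) (nat_lit 5) (nat_lit 257) (nat_lit 245) (nat_lit 218)) (XT.lf (nat_lit 0) (nat_lit 2375241627) (nat_lit 608) (nat_lit 4878158836) (nat_lit 76) (nat_lit 1043278048) (nat_lit 63) (nat_lit 5) (nat_lit 71) (nat_lit 5) (nat_lit 64) (nat_lit 5) (nat_lit 258) (nat_lit 245) (nat_lit 217)))))))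
noncomputable def xc108 : XT := (XT.nd (nat_lit 1248) (nat_lit 1216) (nat_lit 0) (XT.nd (nat_lit 624) (nat_lit 760) (nat_lit 0) (XT.nd (nat_lit 312) (nat_lit 608) (nat_lit 0) (XT.nd (nat_lit 156) (nat_lit 532) (nat_lit 0) (XT.nd (nat_lit 78) (nat_lit 608) (nat_lit 0) (XT.lf (nat_lit 0) (nat_lit 3991903701) (nat_lit 608) (nat_lit 1133787667) (nat_lit 76) (nat_lit 3357570459) (nat_lit 63) (nat_lit 5) (nat_lit 71) (nat_lit 5) (nat_lit 64) (nat_lit 5) (nat_lit 259) (nat_lit 245) (nat_lit 216)) (XT.lf (nat_lit 0) (nat_lit 2828808859) (nat_lit 608) (nat_lit 2837608028) (nat_lit 684) (nat_lit 3014343064) (nat_lit 55) (nat_lit 5) (nat_lit 63) (nat_lit 5) (nat_lit 64) (nat_lit 5) (nat_lit 260) (nat_lit 245) (nat_lit 215))) (XT.nd (nat_lit 78) (nat_lit 532) (nat_lit 0) (XT.lf (nat_lit 0) (nat_lit 6970325214) (nat_lit 608) (nat_lit 408667162) (nat_lit 684) (nat_lit 1511839529) (nat_lit 55) (nat_lit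 5) (nat_lit 63) (nat_lit 5) (nat_lit 64) (nat_lit 5) (nat_lit 261) (nat_lit 245) (nat_lit 214)) (XT.lf (nat_lit 0) (nat_lit 69260604) (nat_lit 532) (nat_lit 6927995469) (nat_lit 76) (nat_lit 2114198277) (nat_lit 48) (nat_lit 5) (nat_lit 55) (nat_lit 5) (nat_lit 49) (nat_lit 5) (nat_lit 262) (nat_lit 245) (nat_lit 213)))) (XT.nd (nat_lit 156) (nat_lit 304) (nat_lit 0) (XT.nd (nat_lit 78) (nat_lit 304) (nat_lit 0) (XT.lf (nat_lit 0) (nat_lit 1657365518) (nat_lit 532) (nat_lit 2874980512) (nat_lit 76) (nat_lit 4810943943) (nat_lit 48) (nat_lit 5) (nat_lit 55) (nat_lit 5) (nat_lit 49) (nat_lit 5) (nat_lit 263) (nat_lit 245) (nat_lit 212)) (XT.lf (nat_lit 0) (nat_lit 1366536892) (nat_lit 304) (nat_lit 1921579142) (nat_lit 380) (nat_lit 6300781371) (nat_lit 44) (nat_lit 5) (nat_lit 48) (nat_lit 5) (nat_lit 49) (nat_lit 5) (nat_lit 264) (nat_lit 245) (nat_lit 211))) (XT.nd (nat_lit 78) (nat_lit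 304) (nat_lit 0) (XT.lf (nat_lit 0) (nat_lit 5006460335) (nat_lit 380) (nat_lit 3998081704) (nat_lit 76) (nat_lit 842266111) (nat_lit 44) (nat_lit 5) (nat_lit 49) (nat_lit 5) (nat_lit 45) (nat_lit 5) (nat_lit 265) (nat_lit 245) (nat_lit 210)) (XT.lf (nat_lit 0) (nat_lit 360222401) (nat_lit 304) (nat_lit 6434073082) (nat_lit 380) (nat_lit 3324450512) (nat_lit 40) (nat_lit 5) (nat_lit 44) (nat_lit 5) (nat_lit 45) (nat_lit 5) (nat_lit 266) (nat_lit 245) (nat_lit 209))))) (XT.nd (nat_lit 312) (nat_lit 456) (nat_lit 0) (XT.nd (nat_lit 156) (nat_lit 304) (nat_lit 0) (XT.nd (nat_lit 78) (nat_lit 0) (nat_lit 0) (XT.lf (nat_lit 0) (nat_lit 5018952216) (nat_lit 304) (nat_lit 3668399053) (nat_lit 380) (nat_lit 1716433489) (nat_lit 40) (nat_lit 5) (nat_lit 44) (nat_lit 5) (nat_lit 45) (nat_lit 5) (nat_lit 267) (nat_lit 245) (nat_lit 208)) (XT.lf (nat_lit 0) (nat_lit 9857005319) (nat_lit 304)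 (nat_lit 768644460) (nat_lit 380) (nat_lit 80177583) (nat_lit 40) (nat_lit 5) (nat_lit 44) (nat_lit 5) (nat_lit 45) (nat_lit 5) (nat_lit 268) (nat_lit 245) (nat_lit 207))) (XT.nd (nat_lit 78) (nat_lit 0) (nat_lit 0) (XT.lf (nat_lit 0) (nat_lit 1636137822) (nat_lit 304) (nat_lit 7095823599) (nat_lit 76) (nat_lit 2287453839) (nat_lit 36) (nat_lit 5) (nat_lit 40) (nat_lit 5) (nat_lit 37) (nat_lit 5) (nat_lit 269) (nat_lit 245) (nat_lit 206)) (XT.lf (nat_lit 0) (nat_lit 3416090323) (nat_lit 304) (nat_lit 2452560128) (nat_lit 76) (nat_lit 5481183675) (nat_lit 36) (nat_lit 5) (nat_lit 40) (nat_lit 5) (nat_lit 37) (nat_lit 5) (nat_lit 270) (nat_lit 245) (nat_lit 205)))) (XT.nd (nat_lit 156) (nat_lit 228) (nat_lit 0) (XT.nd (nat_lit 78) (nat_lit 0) (nat_lit 0) (XT.lf (nat_lit 0) (nat_lit 2449316318) (nat_lit 228) (nat_lit 2829492649) (nat_lit 304) (nat_lit 6418508050) (nat_lit 33) (nat_lit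 5) (nat_lit 36) (nat_lit 5) (nat_lit 37) (nat_lit 5) (nat_lit 271) (nat_lit 245) (nat_lit 204)) (XT.lf (nat_lit 0) (nat_lit 7239249160) (nat_lit 304) (nat_lit 4438349952) (nat_lit 76) (nat_lit 384566144) (nat_lit 33) (nat_lit 5) (nat_lit 37) (nat_lit 5) (nat_lit 34) (nat_lit 5) (nat_lit 272) (nat_lit 245) (nat_lit 203))) (XT.nd (nat_lit 78) (nat_lit 0) (nat_lit 0) (XT.lf (nat_lit 0) (nat_lit 531593722) (nat_lit 228) (nat_lit 8779586689) (nat_lit 304) (nat_lit 3133612030) (nat_lit 30) (nat_lit 5) (nat_lit 33) (nat_lit 5) (nat_lit 34) (nat_lit 5) (nat_lit 273) (nat_lit 245) (nat_lit 202)) (XT.lf (nat_lit 0) (nat_lit 5854124924) (nat_lit 228) (nat_lit 5667715187) (nat_lit 304) (nat_lit 1323154265) (nat_lit 30) (nat_lit 5) (nat_lit 33) (nat_lit 5) (nat_lit 34) (nat_lit 5) (nat_lit 274) (nat_lit 245) (nat_lit 201)))))) (XT.nd (nat_lit 624) (nat_lit 532) (nat_lit 0) (XT.nd (nat_lit 312)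 (nat_lit 228) (nat_lit 0) (XT.nd (nat_lit 156) (nat_lit 152) (nat_lit 0) (XT.nd (nat_lit 78) (nat_lit 228) (nat_lit 0) (XT.lf (nat_lit 0) (nat_lit 520395580) (nat_lit 304) (nat_lit 1880532263) (nat_lit 76) (nat_lit 10865955722) (nat_lit 29) (nat_lit 5) (nat_lit 33) (nat_lit 5) (nat_lit 30) (nat_lit 5) (nat_lit 275) (nat_lit 245) (nat_lit 200)) (XT.lf (nat_lit 0) (nat_lit 2446861422) (nat_lit 304) (nat_lit 10195372116) (nat_lit 76) (nat_lit 1064961619) (nat_lit 26) (nat_lit 5) (nat_lit 30) (nat_lit 5) (nat_lit 27) (nat_lit 5) (nat_lit 276) (nat_lit 245) (nat_lit 199))) (XT.nd (nat_lit 78) (nat_lit 152) (nat_lit 0) (XT.lf (nat_lit 0) (nat_lit 4505189429) (nat_lit 304) (nat_lit 5016533872) (nat_lit 76) (nat_lit 4646186612) (nat_lit 26) (nat_lit 5) (nat_lit 30) (nat_lit 5) (nat_lit 27) (nat_lit 5) (nat_lit 277) (nat_lit 245) (nat_lit 198)) (XT.lf (nat_lit 0) (nat_lit 388139349) (nat_lit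 152) (nat_lit 6249887366) (nat_lit 228) (nat_lit 8015210743) (nat_lit 24) (nat_lit 5) (nat_lit 26) (nat_lit 5) (nat_lit 27) (nat_lit 5) (nat_lit 278) (nat_lit 245) (nat_lit 197)))) (XT.nd (nat_lit 156) (nat_lit 228) (nat_lit 0) (XT.nd (nat_lit 78) (nat_lit 0) (nat_lit 0) (XT.lf (nat_lit 0) (nat_lit 6192413496) (nat_lit 152) (nat_lit 2736524641) (nat_lit 228) (nat_lit 6231470863) (nat_lit 24) (nat_lit 5) (nat_lit 26) (nat_lit 5) (nat_lit 27) (nat_lit 5) (nat_lit 279) (nat_lit 245) (nat_lit 196)) (XT.lf (nat_lit 0) (nat_lit 11317170117) (nat_lit 228) (nat_lit 3465142388) (nat_lit 76) (nat_lit 911629990) (nat_lit 24) (nat_lit 5) (nat_lit 27) (nat_lit 5) (nat_lit 25) (nat_lit 5) (nat_lit 280) (nat_lit 245) (nat_lit 195))) (XT.nd (nat_lit 78) (nat_lit 0) (nat_lit 0) (XT.lf (nat_lit 0) (nat_lit 2299462505) (nat_lit 228) (nat_lit 11575545395) (nat_lit 304) (nat_lit 2376770412) (nat_lit 21)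 (nat_lit 5) (nat_lit 24) (nat_lit 5) (nat_lit 25) (nat_lit 5) (nat_lit 281) (nat_lit 245) (nat_lit 194)) (XT.lf (nat_lit 0) (nat_lit 8431152051) (nat_lit 228) (nat_lit 8158509979) (nat_lit 304) (nat_lit 246526579) (nat_lit 21) (nat_lit 5) (nat_lit 24) (nat_lit 5) (nat_lit 25) (nat_lit 5) (nat_lit 282) (nat_lit 245) (nat_lit 193))))) (XT.nd (nat_lit 312) (nat_lit 304) (nat_lit 0) (XT.nd (nat_lit 156) (nat_lit 0) (nat_lit 0) (XT.nd (nat_lit 78) (nat_lit 152) (nat_lit 0) (XT.lf (nat_lit 0) (nat_lit 1897603909) (nat_lit 304) (nat_lit 2652013573) (nat_lit 76) (nat_lit 12900211505) (nat_lit 20) (nat_lit 5) (nat_lit 24) (nat_lit 5) (nat_lit 21) (nat_lit 5) (nat_lit 283) (nat_lit 245) (nat_lit 192)) (XT.lf (nat_lit 0) (nat_lit 3456636759) (nat_lit 152) (nat_lit 710438694) (nat_lit 228) (nat_lit 13925664244) (nat_lit 18) (nat_lit 5) (nat_lit 20) (nat_lit 5) (nat_lit 21) (nat_lit 5) (nat_lit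 284) (nat_lit 245) (nat_lit 191))) (XT.nd (nat_lit 78) (nat_lit 0) (nat_lit 0) (XT.lf (nat_lit 0) (nat_lit 6620511405) (nat_lit 228) (nat_lit 8894607203) (nat_lit 76) (nat_lit 3249258851) (nat_lit 18) (nat_lit 5) (nat_lit 21) (nat_lit 5) (nat_lit 19) (nat_lit 5) (nat_lit 285) (nat_lit 245) (nat_lit 190)) (XT.lf (nat_lit 0) (nat_lit 9182547592) (nat_lit 228) (nat_lit 2915080117) (nat_lit 76) (nat_lit 7372773985) (nat_lit 18) (nat_lit 5) (nat_lit 21) (nat_lit 5) (nat_lit 19) (nat_lit 5) (nat_lit 286) (nat_lit 245) (nat_lit 189)))) (XT.nd (nat_lit 156) (nat_lit 152) (nat_lit 0) (XT.nd (nat_lit 78) (nat_lit 0) (nat_lit 0) (XT.lf (nat_lit 0) (nat_lit 3437839560) (nat_lit 152) (nat_lit 8464026911) (nat_lit 228) (nat_lit 8308497822) (nat_lit 16) (nat_lit 5) (nat_lit 18) (nat_lit 5) (nat_lit 19) (nat_lit 5) (nat_lit 287) (nat_lit 245) (nat_lit 188)) (XT.lf (nat_lit 0) (nat_lit 10174568578)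 (nat_lit 152) (nat_lit 4608076837) (nat_lit 228) (nat_lit 6203496517) (nat_lit 16) (nat_lit 5) (nat_lit 18) (nat_lit 5) (nat_lit 19) (nat_lit 5) (nat_lit 288) (nat_lit 245) (nat_lit 187))) (XT.nd (nat_lit 78) (nat_lit 152) (nat_lit 0) (XT.lf (nat_lit 0) (nat_lit 17214761054) (nat_lit 152) (nat_lit 569964947) (nat_lit 228) (nat_lit 4017206571) (nat_lit 16) (nat_lit 5) (nat_lit 18) (nat_lit 5) (nat_lit 19) (nat_lit 5) (nat_lit 289) (nat_lit 245) (nat_lit 186)) (XT.nd (nat_lit 78) (nat_lit 76) (nat_lit 0) (XT.lf (nat_lit 0) (nat_lit 1919804863) (nat_lit 76) (nat_lit 19082566368) (nat_lit 152) (nat_lit 1652951578) (nat_lit 15) (nat_lit 5) (nat_lit 16) (nat_lit 5) (nat_lit 17) (nat_lit 4) (nat_lit 290) (nat_lit 245) (nat_lit 185)) (XT.lf (nat_lit 0) (nat_lit 869566508) (nat_lit 152) (nat_lit 14692735828) (nat_lit 76) (nat_lit 7985178041) (nat_lit 14) (nat_lit 5) (nat_lit 16) (nat_lit 5)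 (nat_lit 15) (nat_lit 5) (nat_lit 291) (nat_lit 245) (nat_lit 184))))))))
noncomputable def xc109 : XT := (XT.nd (nat_lit 2496) (nat_lit 76) (nat_lit 0) (XT.nd (nat_lit 1248) (nat_lit 228) (nat_lit 0) (XT.nd (nat_lit 624) (nat_lit 304) (nat_lit 0) (XT.nd (nat_lit 312) (nat_lit 76) (nat_lit 0) (XT.nd (nat_lit 156) (nat_lit 152) (nat_lit 0) (XT.nd (nat_lit 78) (nat_lit 0) (nat_lit 0) (XT.lf (nat_lit 0) (nat_lit 3441990816) (nat_lit 152) (nat_lit 8406393662) (nat_lit 76) (nat_lit 12635611732) (nat_lit 14) (nat_lit 5) (nat_lit 16) (nat_lit 5) (nat_lit 15) (nat_lit 5) (nat_lit 292) (nat_lit 245) (nat_lit 183)) (XT.lf (nat_lit 0) (nat_lit 6123350939) (nat_lit 152) (nat_lit 1835716762) (nat_lit 76) (nat_lit 17509322771) (nat_lit 14) (nat_lit 5) (nat_lit 16) (nat_lit 5) (nat_lit 15) (nat_lit 5) (nat_lit 293) (nat_lit 245) (nat_lit 182))) (XT.nd (nat_lit 78) (nat_lit 0) (nat_lit 0) (XT.lf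 (nat_lit 0) (nat_lit 5201417173) (nat_lit 152) (nat_lit 3799822592) (nat_lit 228) (nat_lit 17497706756) (nat_lit 12) (nat_lit 5) (nat_lit 14) (nat_lit 5) (nat_lit 15) (nat_lit 5) (nat_lit 294) (nat_lit 245) (nat_lit 181)) (XT.lf (nat_lit 0) (nat_lit 12045033028) (nat_lit 228) (nat_lit 14963622083) (nat_lit 76) (nat_lit 571336770) (nat_lit 12) (nat_lit 5) (nat_lit 15) (nat_lit 5) (nat_lit 13) (nat_lit 4) (nat_lit 295) (nat_lit 245) (nat_lit 180)))) (XT.nd (nat_lit 156) (nat_lit 76) (nat_lit 0) (XT.nd (nat_lit 78) (nat_lit 0) (nat_lit 0) (XT.lf (nat_lit 0) (nat_lit 15285739675) (nat_lit 228) (nat_lit 8402852367) (nat_lit 76) (nat_lit 5024320338) (nat_lit 12) (nat_lit 5) (nat_lit 15) (nat_lit 5) (nat_lit 13) (nat_lit 4) (nat_lit 296) (nat_lit 245) (nat_lit 179)) (XT.lf (nat_lit 0) (nat_lit 18671749794) (nat_lit 228) (nat_lit 1540273442) (nat_lit 76) (nat_lit 9691348506) (nat_lit 12)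 (nat_lit 5) (nat_lit 15) (nat_lit 5) (nat_lit 13) (nat_lit 4) (nat_lit 297) (nat_lit 245) (nat_lit 178))) (XT.nd (nat_lit 78) (nat_lit 0) (nat_lit 0) (XT.lf (nat_lit 0) (nat_lit 5826953053) (nat_lit 76) (nat_lit 16475147328) (nat_lit 152) (nat_lit 8847555257) (nat_lit 11) (nat_lit 5) (nat_lit 12) (nat_lit 5) (nat_lit 13) (nat_lit 4) (nat_lit 298) (nat_lit 245) (nat_lit 177)) (XT.lf (nat_lit 0) (nat_lit 13591438335) (nat_lit 76) (nat_lit 12533055428) (nat_lit 152) (nat_lit 6333284719) (nat_lit 11) (nat_lit 5) (nat_lit 12) (nat_lit 5) (nat_lit 13) (nat_lit 4) (nat_lit 299) (nat_lit 245) (nat_lit 176))))) (XT.nd (nat_lit 312) (nat_lit 76) (nat_lit 0) (XT.nd (nat_lit 156) (nat_lit 228) (nat_lit 0) (XT.nd (nat_lit 78) (nat_lit 0) (nat_lit 0) (XT.lf (nat_lit 0) (nat_lit 21720740876) (nat_lit 76) (nat_lit 8402446880) (nat_lit 152) (nat_lit 3708909251) (nat_lit 11) (nat_lit 5) (nat_lit 12)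 (nat_lit 5) (nat_lit 13) (nat_lit 4) (nat_lit 300) (nat_lit 245) (nat_lit 175)) (XT.lf (nat_lit 0) (nat_lit 30234216158) (nat_lit 76) (nat_lit 4073486901) (nat_lit 152) (nat_lit 968180340) (nat_lit 11) (nat_lit 5) (nat_lit 12) (nat_lit 5) (nat_lit 13) (nat_lit 4) (nat_lit 301) (nat_lit 245) (nat_lit 174))) (XT.nd (nat_lit 78) (nat_lit 0) (nat_lit 0) (XT.lf (nat_lit 0) (nat_lit 1880689730) (nat_lit 228) (nat_lit 34390558805) (nat_lit 76) (nat_lit 517550680) (nat_lit 8) (nat_lit 5) (nat_lit 11) (nat_lit 5) (nat_lit 9) (nat_lit 4) (nat_lit 302) (nat_lit 245) (nat_lit 173)) (XT.lf (nat_lit 0) (nat_lit 4979517144) (nat_lit 228) (nat_lit 28093922946) (nat_lit 76) (nat_lit 5296164560) (nat_lit 8) (nat_lit 5) (nat_lit 11) (nat_lit 5) (nat_lit 9) (nat_lit 4) (nat_lit 303) (nat_lit 245) (nat_lit 172)))) (XT.nd (nat_lit 156) (nat_lit 76) (nat_lit 0) (XT.nd (nat_lit 78) (nat_lit 0) (nat_lit 0)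 (XT.lf (nat_lit 0) (nat_lit 8220419051) (nat_lit 228) (nat_lit 21503369600) (nat_lit 76) (nat_lit 10306343118) (nat_lit 8) (nat_lit 5) (nat_lit 11) (nat_lit 5) (nat_lit 9) (nat_lit 4) (nat_lit 304) (nat_lit 245) (nat_lit 171)) (XT.lf (nat_lit 0) (nat_lit 11611111883) (nat_lit 228) (nat_lit 14603206973) (nat_lit 76) (nat_lit 15560015352) (nat_lit 8) (nat_lit 5) (nat_lit 11) (nat_lit 5) (nat_lit 9) (nat_lit 4) (nat_lit 305) (nat_lit 245) (nat_lit 170))) (XT.nd (nat_lit 78) (nat_lit 76) (nat_lit 0) (XT.lf (nat_lit 0) (nat_lit 15159668719) (nat_lit 228) (nat_lit 7377006106) (nat_lit 76) (nat_lit 21069690006) (nat_lit 8) (nat_lit 5) (nat_lit 11) (nat_lit 5) (nat_lit 9) (nat_lit 4) (nat_lit 306) (nat_lit 245) (nat_lit 169)) (XT.lf (nat_lit 0) (nat_lit 198801116) (nat_lit 76) (nat_lit 18678841228) (nat_lit 152) (nat_lit 26652788076) (nat_lit 7) (nat_lit 5) (nat_lit 8) (nat_lit 5) (nat_lit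 9) (nat_lit 4) (nat_lit 307) (nat_lit 245) (nat_lit 168)))))) (XT.nd (nat_lit 624) (nat_lit 152) (nat_lit 0) (XT.nd (nat_lit 312) (nat_lit 76) (nat_lit 0) (XT.nd (nat_lit 156) (nat_lit 0) (nat_lit 0) (XT.nd (nat_lit 78) (nat_lit 0) (nat_lit 0) (XT.lf (nat_lit 0) (nat_lit 8391736528) (nat_lit 76) (nat_lit 14503848159) (nat_lit 152) (nat_lit 24649442420) (nat_lit 7) (nat_lit 5) (nat_lit 8) (nat_lit 5) (nat_lit 9) (nat_lit 4) (nat_lit 308) (nat_lit 245) (nat_lit 167)) (XT.lf (nat_lit 0) (nat_lit 16977389980) (nat_lit 76) (nat_lit 10126688327) (nat_lit 152) (nat_lit 22556822442) (nat_lit 7) (nat_lit 5) (nat_lit 8) (nat_lit 5) (nat_lit 9) (nat_lit 4) (nat_lit 309) (nat_lit 245) (nat_lit 166))) (XT.nd (nat_lit 78) (nat_lit 0) (nat_lit 0) (XT.lf (nat_lit 0) (nat_lit 25976203503) (nat_lit 76) (nat_lit 5536939922) (nat_lit 152) (nat_lit 20369945713) (nat_lit 7) (nat_lit 5) (nat_lit 8) (nat_lit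 5) (nat_lit 9) (nat_lit 4) (nat_lit 310) (nat_lit 245) (nat_lit 165)) (XT.lf (nat_lit 0) (nat_lit 35409602845) (nat_lit 76) (nat_lit 723674972) (nat_lit 152) (nat_lit 18083605383) (nat_lit 7) (nat_lit 5) (nat_lit 8) (nat_lit 5) (nat_lit 9) (nat_lit 4) (nat_lit 311) (nat_lit 245) (nat_lit 164)))) (XT.nd (nat_lit 156) (nat_lit 76) (nat_lit 0) (XT.nd (nat_lit 78) (nat_lit 0) (nat_lit 0) (XT.lf (nat_lit 0) (nat_lit 41043000408) (nat_lit 152) (nat_lit 11435309714) (nat_lit 0) (nat_lit 4186153535) (nat_lit 7) (nat_lit 5) (nat_lit 9) (nat_lit 4) (nat_lit 7) (nat_lit 4) (nat_lit 312) (nat_lit 245) (nat_lit 163)) (XT.lf (nat_lit 0) (nat_lit 46201476548) (nat_lit 152) (nat_lit 3720896935) (nat_lit 0) (nat_lit 9311910823) (nat_lit 7) (nat_lit 5) (nat_lit 9) (nat_lit 4) (nat_lit 7) (nat_lit 4) (nat_lit 313) (nat_lit 245) (nat_lit 162))) (XT.nd (nat_lit 78) (nat_lit 0) (nat_lit 0) (XT.lf (nat_lit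 0) (nat_lit 4509971477) (nat_lit 76) (nat_lit 47170131545) (nat_lit 76) (nat_lit 10249405009) (nat_lit 6) (nat_lit 4) (nat_lit 7) (nat_lit 5) (nat_lit 7) (nat_lit 4) (nat_lit 314) (nat_lit 245) (nat_lit 161)) (XT.lf (nat_lit 0) (nat_lit 13268171747) (nat_lit 76) (nat_lit 44219498248) (nat_lit 76) (nat_lit 7269094747) (nat_lit 6) (nat_lit 4) (nat_lit 7) (nat_lit 5) (nat_lit 7) (nat_lit 4) (nat_lit 315) (nat_lit 245) (nat_lit 160))))) (XT.nd (nat_lit 312) (nat_lit 76) (nat_lit 0) (XT.nd (nat_lit 156) (nat_lit 76) (nat_lit 0) (XT.nd (nat_lit 78) (nat_lit 0) (nat_lit 0) (XT.lf (nat_lit 0) (nat_lit 22451527072) (nat_lit 76) (nat_lit 41126463464) (nat_lit 76) (nat_lit 4147796189) (nat_lit 6) (nat_lit 4) (nat_lit 7) (nat_lit 5) (nat_lit 7) (nat_lit 4) (nat_lit 316) (nat_lit 245) (nat_lit 159)) (XT.lf (nat_lit 0) (nat_lit 32081902586) (nat_lit 76) (nat_lit 37883662825) (nat_lit 76) (nat_lit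 878077669) (nat_lit 6) (nat_lit 4) (nat_lit 7) (nat_lit 5) (nat_lit 7) (nat_lit 4) (nat_lit 317) (nat_lit 245) (nat_lit 158))) (XT.nd (nat_lit 78) (nat_lit 0) (nat_lit 0) (XT.lf (nat_lit 0) (nat_lit 2466298876) (nat_lit 152) (nat_lit 31975308535) (nat_lit 76) (nat_lit 39674160912) (nat_lit 5) (nat_lit 5) (nat_lit 7) (nat_lit 5) (nat_lit 6) (nat_lit 4) (nat_lit 318) (nat_lit 245) (nat_lit 157)) (XT.lf (nat_lit 0) (nat_lit 5941672810) (nat_lit 152) (nat_lit 24875207283) (nat_lit 76) (nat_lit 46734253055) (nat_lit 5) (nat_lit 5) (nat_lit 7) (nat_lit 5) (nat_lit 6) (nat_lit 4) (nat_lit 319) (nat_lit 245) (nat_lit 156)))) (XT.nd (nat_lit 156) (nat_lit 76) (nat_lit 0) (XT.nd (nat_lit 78) (nat_lit 0) (nat_lit 0) (XT.lf (nat_lit 0) (nat_lit 9584422799) (nat_lit 152) (nat_lit 17430822481) (nat_lit 76) (nat_lit 54143357172) (nat_lit 5) (nat_lit 5) (nat_lit 7) (nat_lit 5) (nat_lit 6) (nat_lit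 4) (nat_lit 320) (nat_lit 245) (nat_lit 155)) (XT.lf (nat_lit 0) (nat_lit 13403222060) (nat_lit 152) (nat_lit 9624429405) (nat_lit 76) (nat_lit 61919113989) (nat_lit 5) (nat_lit 5) (nat_lit 7) (nat_lit 5) (nat_lit 6) (nat_lit 4) (nat_lit 321) (nat_lit 245) (nat_lit 154))) (XT.nd (nat_lit 78) (nat_lit 76) (nat_lit 0) (XT.lf (nat_lit 0) (nat_lit 17407162970) (nat_lit 152) (nat_lit 1437441403) (nat_lit 76) (nat_lit 70080037212) (nat_lit 5) (nat_lit 5) (nat_lit 7) (nat_lit 5) (nat_lit 6) (nat_lit 4) (nat_lit 322) (nat_lit 245) (nat_lit 153)) (XT.lf (nat_lit 0) (nat_lit 7386033552) (nat_lit 76) (nat_lit 14335061853) (nat_lit 152) (nat_lit 71374840741) (nat_lit 4) (nat_lit 5) (nat_lit 5) (nat_lit 5) (nat_lit 6) (nat_lit 4) (nat_lit 323) (nat_lit 245) (nat_lit 152))))))) (XT.nd (nat_lit 1248) (nat_lit 0) (nat_lit 0) (XT.nd (nat_lit 624) (nat_lit 76) (nat_lit 0) (XT.nd (nat_lit 312) (nat_lit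 0) (nat_lit 0) (XT.nd (nat_lit 156) (nat_lit 0) (nat_lit 0) (XT.nd (nat_lit 78) (nat_lit 0) (nat_lit 0) (XT.lf (nat_lit 0) (nat_lit 16691474711) (nat_lit 76) (nat_lit 9578192008) (nat_lit 152) (nat_lit 71205195268) (nat_lit 4) (nat_lit 5) (nat_lit 5) (nat_lit 5) (nat_lit 6) (nat_lit 4) (nat_lit 324) (nat_lit 245) (nat_lit 151)) (XT.lf (nat_lit 0) (nat_lit 26453509580) (nat_lit 76) (nat_lit 4587012724) (nat_lit 152) (nat_lit 71032482043) (nat_lit 4) (nat_lit 5) (nat_lit 5) (nat_lit 5) (nat_lit 6) (nat_lit 4) (nat_lit 325) (nat_lit 245) (nat_lit 150))) (XT.nd (nat_lit 78) (nat_lit 0) (nat_lit 0) (XT.lf (nat_lit 0) (nat_lit 36055175281) (nat_lit 152) (nat_lit 70216084027) (nat_lit 0) (nat_lit 629544184) (nat_lit 4) (nat_lit 5) (nat_lit 6) (nat_lit 4) (nat_lit 4) (nat_lit 4) (nat_lit 326) (nat_lit 245) (nat_lit 149)) (XT.lf (nat_lit 0) (nat_lit 41391041761) (nat_lit 152) (nat_lit 64625766253)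 (nat_lit 0) (nat_lit 5949672337) (nat_lit 4) (nat_lit 5) (nat_lit 6) (nat_lit 4) (nat_lit 4) (nat_lit 4) (nat_lit 327) (nat_lit 245) (nat_lit 148)))) (XT.nd (nat_lit 156) (nat_lit 0) (nat_lit 0) (XT.nd (nat_lit 78) (nat_lit 0) (nat_lit 0) (XT.lf (nat_lit 0) (nat_lit 46989210068) (nat_lit 152) (nat_lit 58763615044) (nat_lit 0) (nat_lit 11532851760) (nat_lit 4) (nat_lit 5) (nat_lit 6) (nat_lit 4) (nat_lit 4) (nat_lit 4) (nat_lit 328) (nat_lit 245) (nat_lit 147)) (XT.lf (nat_lit 0) (nat_lit 52863009172) (nat_lit 152) (nat_lit 52615672895) (nat_lit 0) (nat_lit 17392375738) (nat_lit 4) (nat_lit 5) (nat_lit 6) (nat_lit 4) (nat_lit 4) (nat_lit 4) (nat_lit 329) (nat_lit 245) (nat_lit 146))) (XT.nd (nat_lit 78) (nat_lit 0) (nat_lit 0) (XT.lf (nat_lit 0) (nat_lit 59026424311) (nat_lit 152) (nat_lit 46167301851) (nat_lit 0) (nat_lit 23542195517) (nat_lit 4) (nat_lit 5) (nat_lit 6) (nat_lit 4)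 (nat_lit 4) (nat_lit 4) (nat_lit 330) (nat_lit 245) (nat_lit 145)) (XT.lf (nat_lit 0) (nat_lit 65494130281) (nat_lit 152) (nat_lit 39403148645) (nat_lit 0) (nat_lit 29996953526) (nat_lit 4) (nat_lit 5) (nat_lit 6) (nat_lit 4) (nat_lit 4) (nat_lit 4) (nat_lit 331) (nat_lit 245) (nat_lit 144))))) (XT.nd (nat_lit 312) (nat_lit 76) (nat_lit 0) (XT.nd (nat_lit 156) (nat_lit 0) (nat_lit 0) (XT.nd (nat_lit 78) (nat_lit 0) (nat_lit 0) (XT.lf (nat_lit 0) (nat_lit 72281526382) (nat_lit 152) (nat_lit 32307108152) (nat_lit 0) (nat_lit 36772018237) (nat_lit 4) (nat_lit 5) (nat_lit 6) (nat_lit 4) (nat_lit 4) (nat_lit 4) (nat_lit 332) (nat_lit 245) (nat_lit 143)) (XT.lf (nat_lit 0) (nat_lit 79404773083) (nat_lit 152) (nat_lit 24862285038) (nat_lit 0) (nat_lit 43883520755) (nat_lit 4) (nat_lit 5) (nat_lit 6) (nat_lit 4) (nat_lit 4) (nat_lit 4) (nat_lit 333) (nat_lit 245) (nat_lit 142))) (XT.nd (nat_lit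 78) (nat_lit 0) (nat_lit 0) (XT.lf (nat_lit 0) (nat_lit 86880830493) (nat_lit 152) (nat_lit 17050953532) (nat_lit 0) (nat_lit 51348393230) (nat_lit 4) (nat_lit 5) (nat_lit 6) (nat_lit 4) (nat_lit 4) (nat_lit 4) (nat_lit 334) (nat_lit 245) (nat_lit 141)) (XT.lf (nat_lit 0) (nat_lit 94727498750) (nat_lit 152) (nat_lit 8854515226) (nat_lit 0) (nat_lit 59184409167) (nat_lit 4) (nat_lit 5) (nat_lit 6) (nat_lit 4) (nat_lit 4) (nat_lit 4) (nat_lit 335) (nat_lit 245) (nat_lit 140)))) (XT.nd (nat_lit 156) (nat_lit 0) (nat_lit 0) (XT.nd (nat_lit 78) (nat_lit 76) (nat_lit 0) (XT.lf (nat_lit 0) (nat_lit 102963460396) (nat_lit 152) (nat_lit 253454792) (nat_lit 0) (nat_lit 67410225747) (nat_lit 4) (nat_lit 5) (nat_lit 6) (nat_lit 4) (nat_lit 4) (nat_lit 4) (nat_lit 336) (nat_lit 245) (nat_lit 139)) (XT.lf (nat_lit 0) (nat_lit 9062771781) (nat_lit 76) (nat_lit 102687048350) (nat_lit 76) (nat_lit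 67124151733) (nat_lit 3) (nat_lit 4) (nat_lit 4) (nat_lit 5) (nat_lit 4) (nat_lit 4) (nat_lit 337) (nat_lit 245) (nat_lit 138))) (XT.nd (nat_lit 78) (nat_lit 0) (nat_lit 0) (XT.lf (nat_lit 0) (nat_lit 18848736758) (nat_lit 76) (nat_lit 102128220014) (nat_lit 76) (nat_lit 66556121523) (nat_lit 3) (nat_lit 4) (nat_lit 4) (nat_lit 5) (nat_lit 4) (nat_lit 4) (nat_lit 338) (nat_lit 245) (nat_lit 137)) (XT.lf (nat_lit 0) (nat_lit 29119359694) (nat_lit 76) (nat_lit 101543392016) (nat_lit 76) (nat_lit 65962529836) (nat_lit 3) (nat_lit 4) (nat_lit 4) (nat_lit 5) (nat_lit 4) (nat_lit 4) (nat_lit 339) (nat_lit 245) (nat_lit 136)))))) (XT.nd (nat_lit 624) (nat_lit 0) (nat_lit 0) (XT.nd (nat_lit 312) (nat_lit 0) (nat_lit 0) (XT.nd (nat_lit 156) (nat_lit 0) (nat_lit 0) (XT.nd (nat_lit 78) (nat_lit 0) (nat_lit 0) (XT.lf (nat_lit 0) (nat_lit 39899094454) (nat_lit 76) (nat_lit 100931171909) (nat_lit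 76) (nat_lit 65341963358) (nat_lit 3) (nat_lit 4) (nat_lit 4) (nat_lit 5) (nat_lit 4) (nat_lit 4) (nat_lit 340) (nat_lit 245) (nat_lit 135)) (XT.lf (nat_lit 0) (nat_lit 51213607073) (nat_lit 76) (nat_lit 100290102026) (nat_lit 76) (nat_lit 64692944550) (nat_lit 3) (nat_lit 4) (nat_lit 4) (nat_lit 5) (nat_lit 4) (nat_lit 4) (nat_lit 341) (nat_lit 245) (nat_lit 134))) (XT.nd (nat_lit 78) (nat_lit 0) (nat_lit 0) (XT.lf (nat_lit 0) (nat_lit 63089836867) (nat_lit 76) (nat_lit 99618656010) (nat_lit 76) (nat_lit 64013928129) (nat_lit 3) (nat_lit 4) (nat_lit 4) (nat_lit 5) (nat_lit 4) (nat_lit 4) (nat_lit 342) (nat_lit 245) (nat_lit 133)) (XT.lf (nat_lit 0) (nat_lit 75556060573) (nat_lit 76) (nat_lit 98915235180) (nat_lit 76) (nat_lit 63303297391) (nat_lit 3) (nat_lit 4) (nat_lit 4) (nat_lit 5) (nat_lit 4) (nat_lit 4) (nat_lit 343) (nat_lit 245) (nat_lit 132)))) (XT.nd (nat_lit 156) (nat_lit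 0) (nat_lit 0) (XT.nd (nat_lit 78) (nat_lit 0) (nat_lit 0) (XT.lf (nat_lit 0) (nat_lit 88641959676) (nat_lit 76) (nat_lit 98178164725) (nat_lit 76) (nat_lit 62559360355) (nat_lit 3) (nat_lit 4) (nat_lit 4) (nat_lit 5) (nat_lit 4) (nat_lit 4) (nat_lit 344) (nat_lit 245) (nat_lit 131)) (XT.lf (nat_lit 0) (nat_lit 102378691079) (nat_lit 76) (nat_lit 97405689714) (nat_lit 76) (nat_lit 61780345745) (nat_lit 3) (nat_lit 4) (nat_lit 4) (nat_lit 5) (nat_lit 4) (nat_lit 4) (nat_lit 345) (nat_lit 245) (nat_lit 130))) (XT.nd (nat_lit 78) (nat_lit 0) (nat_lit 0) (XT.lf (nat_lit 0) (nat_lit 116798961285) (nat_lit 76) (nat_lit 96595970923) (nat_lit 76) (nat_lit 60964398762) (nat_lit 3) (nat_lit 4) (nat_lit 4) (nat_lit 5) (nat_lit 4) (nat_lit 4) (nat_lit 346) (nat_lit 245) (nat_lit 129)) (XT.lf (nat_lit 0) (nat_lit 131937104271) (nat_lit 76) (nat_lit 95747080448) (nat_lit 76) (nat_lit 60109576677)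 (nat_lit 3) (nat_lit 4) (nat_lit 4) (nat_lit 5) (nat_lit 4) (nat_lit 4) (nat_lit 347) (nat_lit 245) (nat_lit 128))))) (XT.nd (nat_lit 312) (nat_lit 0) (nat_lit 0) (XT.nd (nat_lit 156) (nat_lit 0) (nat_lit 0) (XT.nd (nat_lit 78) (nat_lit 0) (nat_lit 0) (XT.lf (nat_lit 0) (nat_lit 147829163235) (nat_lit 76) (nat_lit 94856997122) (nat_lit 76) (nat_lit 59213844199) (nat_lit 3) (nat_lit 4) (nat_lit 4) (nat_lit 5) (nat_lit 4) (nat_lit 4) (nat_lit 348) (nat_lit 245) (nat_lit 127)) (XT.lf (nat_lit 0) (nat_lit 164512976412) (nat_lit 76) (nat_lit 93923601699) (nat_lit 76) (nat_lit 58275068631) (nat_lit 3) (nat_lit 4) (nat_lit 4) (nat_lit 5) (nat_lit 4) (nat_lit 4) (nat_lit 349) (nat_lit 245) (nat_lit 126))) (XT.nd (nat_lit 78) (nat_lit 0) (nat_lit 0) (XT.lf (nat_lit 0) (nat_lit 182028267166) (nat_lit 76) (nat_lit 92944671809) (nat_lit 76) (nat_lit 57291014793) (nat_lit 3) (nat_lit 4) (nat_lit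 4) (nat_lit 5) (nat_lit 4) (nat_lit 4) (nat_lit 350) (nat_lit 245) (nat_lit 125)) (XT.lf (nat_lit 0) (nat_lit 200416738572) (nat_lit 76) (nat_lit 91917876667) (nat_lit 76) (nat_lit 56259339700) (nat_lit 3) (nat_lit 4) (nat_lit 4) (nat_lit 5) (nat_lit 4) (nat_lit 4) (nat_lit 351) (nat_lit 245) (nat_lit 124)))) (XT.nd (nat_lit 156) (nat_lit 0) (nat_lit 0) (XT.nd (nat_lit 78) (nat_lit 0) (nat_lit 0) (XT.lf (nat_lit 0) (nat_lit 219722172704) (nat_lit 76) (nat_lit 90840771521) (nat_lit 76) (nat_lit 55177586983) (nat_lit 3) (nat_lit 4) (nat_lit 4) (nat_lit 5) (nat_lit 4) (nat_lit 4) (nat_lit 352) (nat_lit 245) (nat_lit 123)) (XT.lf (nat_lit 0) (nat_lit 239990534880) (nat_lit 76) (nat_lit 89710791837) (nat_lit 76) (nat_lit 54043181040) (nat_lit 3) (nat_lit 4) (nat_lit 4) (nat_lit 5) (nat_lit 4) (nat_lit 4) (nat_lit 353) (nat_lit 245) (nat_lit 122))) (XT.nd (nat_lit 78) (nat_lit 0) (nat_lit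 0) (XT.lf (nat_lit 0) (nat_lit 261270083107) (nat_lit 76) (nat_lit 88525247186) (nat_lit 76) (nat_lit 52853420905) (nat_lit 3) (nat_lit 4) (nat_lit 4) (nat_lit 5) (nat_lit 4) (nat_lit 4) (nat_lit 354) (nat_lit 245) (nat_lit 121)) (XT.lf (nat_lit 0) (nat_lit 283611482976) (nat_lit 76) (nat_lit 87281314843) (nat_lit 76) (nat_lit 51605473815) (nat_lit 3) (nat_lit 4) (nat_lit 4) (nat_lit 5) (nat_lit 4) (nat_lit 4) (nat_lit 355) (nat_lit 245) (nat_lit 120))))))))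
noncomputable def xc110 : XT := (XT.nd (nat_lit 1248) (nat_lit 2204) (nat_lit 0) (XT.nd (nat_lit 624) (nat_lit 1596) (nat_lit 0) (XT.nd (nat_lit 312) (nat_lit 380) (nat_lit 0) (XT.nd (nat_lit 156) (nat_lit 0) (nat_lit 0) (XT.nd (nat_lit 78) (nat_lit 380) (nat_lit 0) (XT.lf (nat_lit 0) (nat_lit 3099288871) (nat_lit 380) (nat_lit 171973712) (nat_lit 380) (nat_lit 171973712) (nat_lit 86) (nat_lit 3) (nat_lit 91) (nat_lit 3) (nat_lit 91) (nat_lit 5) (nat_lit 246) (nat_lit 246) (nat_lit 228)) (XT.lf (nat_lit 0) (nat_lit 985458748) (nat_lit 380) (nat_lit 4459307800) (nat_lit 456) (nat_lit 1518159601) (nat_lit 81) (nat_lit 5) (nat_lit 86) (nat_lit 3) (nat_lit 87) (nat_lit 5) (nat_lit 247) (nat_lit 246) (nat_lit 227))) (XT.nd (nat_lit 78) (nat_lit 0) (nat_lit 0) (XT.lf (nat_lit 0) (nat_lit 2620188556) (nat_lit 380) (nat_lit 1608686659) (nat_lit 456) (nat_lit 2819545171) (nat_lit 81) (nat_lit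 5) (nat_lit 86) (nat_lit 3) (nat_lit 87) (nat_lit 5) (nat_lit 248) (nat_lit 246) (nat_lit 226)) (XT.lf (nat_lit 76) (nat_lit 1371301897) (nat_lit 0) (nat_lit 2886673207) (nat_lit 456) (nat_lit 2884932192) (nat_lit 82) (nat_lit 5) (nat_lit 81) (nat_lit 5) (nat_lit 87) (nat_lit 5) (nat_lit 249) (nat_lit 246) (nat_lit 225)))) (XT.nd (nat_lit 156) (nat_lit 0) (nat_lit 0) (XT.nd (nat_lit 78) (nat_lit 380) (nat_lit 0) (XT.lf (nat_lit 76) (nat_lit 4500006208) (nat_lit 0) (nat_lit 1408688808) (nat_lit 456) (nat_lit 1337617969) (nat_lit 82) (nat_lit 5) (nat_lit 81) (nat_lit 5) (nat_lit 87) (nat_lit 5) (nat_lit 250) (nat_lit 246) (nat_lit 224)) (XT.lf (nat_lit 0) (nat_lit 192986672) (nat_lit 456) (nat_lit 6981992102) (nat_lit 532) (nat_lit 184607693) (nat_lit 76) (nat_lit 5) (nat_lit 82) (nat_lit 5) (nat_lit 83) (nat_lit 5) (nat_lit 251) (nat_lit 246) (nat_lit 223))) (XT.nd (nat_lit 78) (nat_lit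 0) (nat_lit 0) (XT.lf (nat_lit 0) (nat_lit 1735842585) (nat_lit 456) (nat_lit 3830947628) (nat_lit 532) (nat_lit 1912248286) (nat_lit 76) (nat_lit 5) (nat_lit 82) (nat_lit 5) (nat_lit 83) (nat_lit 5) (nat_lit 252) (nat_lit 246) (nat_lit 222)) (XT.lf (nat_lit 0) (nat_lit 3270420362) (nat_lit 456) (nat_lit 581400228) (nat_lit 532) (nat_lit 3757527852) (nat_lit 76) (nat_lit 5) (nat_lit 82) (nat_lit 5) (nat_lit 83) (nat_lit 5) (nat_lit 253) (nat_lit 246) (nat_lit 221))))) (XT.nd (nat_lit 312) (nat_lit 1140) (nat_lit 0) (XT.nd (nat_lit 156) (nat_lit 456) (nat_lit 0) (XT.nd (nat_lit 78) (nat_lit 0) (nat_lit 76) (XT.lf (nat_lit 76) (nat_lit 2866120884) (nat_lit 0) (nat_lit 1979001054) (nat_lit 532) (nat_lit 2903467209) (nat_lit 77) (nat_lit 5) (nat_lit 76) (nat_lit 5) (nat_lit 83) (nat_lit 5) (nat_lit 254) (nat_lit 246) (nat_lit 220)) (XT.lf (nat_lit 0) (nat_lit 6430386637) (nat_lit 456)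 (nat_lit 1448226215) (nat_lit 76) (nat_lit 20144785) (nat_lit 77) (nat_lit 5) (nat_lit 83) (nat_lit 5) (nat_lit 78) (nat_lit 5) (nat_lit 255) (nat_lit 246) (nat_lit 219))) (XT.nd (nat_lit 78) (nat_lit 0) (nat_lit 0) (XT.lf (nat_lit 0) (nat_lit 28122778) (nat_lit 532) (nat_lit 5921479187) (nat_lit 76) (nat_lit 2107764184) (nat_lit 70) (nat_lit 5) (nat_lit 77) (nat_lit 5) (nat_lit 71) (nat_lit 5) (nat_lit 256) (nat_lit 246) (nat_lit 218)) (XT.lf (nat_lit 0) (nat_lit 1501745819) (nat_lit 532) (nat_lit 2356946557) (nat_lit 76) (nat_lit 4366907844) (nat_lit 70) (nat_lit 5) (nat_lit 77) (nat_lit 5) (nat_lit 71) (nat_lit 5) (nat_lit 257) (nat_lit 246) (nat_lit 217)))) (XT.nd (nat_lit 156) (nat_lit 608) (nat_lit 0) (XT.nd (nat_lit 78) (nat_lit 0) (nat_lit 0) (XT.lf (nat_lit 0) (nat_lit 1373311038) (nat_lit 532) (nat_lit 1627392573) (nat_lit 608) (nat_lit 5404418075) (nat_lit 63) (nat_lit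 5) (nat_lit 70) (nat_lit 5) (nat_lit 71) (nat_lit 5) (nat_lit 258) (nat_lit 246) (nat_lit 216)) (XT.lf (nat_lit 0) (nat_lit 4559202588) (nat_lit 608) (nat_lit 3291071687) (nat_lit 76) (nat_lit 744551830) (nat_lit 63) (nat_lit 5) (nat_lit 71) (nat_lit 5) (nat_lit 64) (nat_lit 5) (nat_lit 259) (nat_lit 246) (nat_lit 215))) (XT.nd (nat_lit 78) (nat_lit 0) (nat_lit 0) (XT.lf (nat_lit 0) (nat_lit 571623313) (nat_lit 608) (nat_lit 5595656289) (nat_lit 684) (nat_lit 2628569243) (nat_lit 55) (nat_lit 5) (nat_lit 63) (nat_lit 5) (nat_lit 64) (nat_lit 5) (nat_lit 260) (nat_lit 246) (nat_lit 214)) (XT.lf (nat_lit 0) (nat_lit 4685928266) (nat_lit 608) (nat_lit 3163792285) (nat_lit 684) (nat_lit 1157900127) (nat_lit 55) (nat_lit 5) (nat_lit 63) (nat_lit 5) (nat_lit 64) (nat_lit 5) (nat_lit 261) (nat_lit 246) (nat_lit 213)))))) (XT.nd (nat_lit 624) (nat_lit 760) (nat_lit 0) (XT.nd (nat_lit 312)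 (nat_lit 608) (nat_lit 0) (XT.nd (nat_lit 156) (nat_lit 304) (nat_lit 0) (XT.nd (nat_lit 78) (nat_lit 456) (nat_lit 0) (XT.lf (nat_lit 0) (nat_lit 313774722) (nat_lit 684) (nat_lit 285539352) (nat_lit 76) (nat_lit 8633732792) (nat_lit 54) (nat_lit 5) (nat_lit 63) (nat_lit 5) (nat_lit 55) (nat_lit 5) (nat_lit 262) (nat_lit 246) (nat_lit 212)) (XT.lf (nat_lit 0) (nat_lit 1859502611) (nat_lit 532) (nat_lit 5494047366) (nat_lit 76) (nat_lit 2113618215) (nat_lit 48) (nat_lit 5) (nat_lit 55) (nat_lit 5) (nat_lit 49) (nat_lit 5) (nat_lit 263) (nat_lit 246) (nat_lit 211))) (XT.nd (nat_lit 78) (nat_lit 304) (nat_lit 0) (XT.lf (nat_lit 0) (nat_lit 3441928057) (nat_lit 532) (nat_lit 1323160132) (nat_lit 76) (nat_lit 4950262593) (nat_lit 48) (nat_lit 5) (nat_lit 55) (nat_lit 5) (nat_lit 49) (nat_lit 5) (nat_lit 264) (nat_lit 246) (nat_lit 210)) (XT.lf (nat_lit 0) (nat_lit 3103085249) (nat_lit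 304) (nat_lit 1996143403) (nat_lit 380) (nat_lit 4877236399) (nat_lit 44) (nat_lit 5) (nat_lit 48) (nat_lit 5) (nat_lit 49) (nat_lit 5) (nat_lit 265) (nat_lit 246) (nat_lit 209)))) (XT.nd (nat_lit 156) (nat_lit 304) (nat_lit 0) (XT.nd (nat_lit 78) (nat_lit 304) (nat_lit 0) (XT.lf (nat_lit 0) (nat_lit 6825395467) (nat_lit 380) (nat_lit 2522021187) (nat_lit 76) (nat_lit 904213790) (nat_lit 44) (nat_lit 5) (nat_lit 49) (nat_lit 5) (nat_lit 45) (nat_lit 5) (nat_lit 266) (nat_lit 246) (nat_lit 208)) (XT.lf (nat_lit 0) (nat_lit 2027166435) (nat_lit 304) (nat_lit 6626504586) (nat_lit 380) (nat_lit 1886374466) (nat_lit 40) (nat_lit 5) (nat_lit 44) (nat_lit 5) (nat_lit 45) (nat_lit 5) (nat_lit 267) (nat_lit 246) (nat_lit 207))) (XT.nd (nat_lit 78) (nat_lit 304) (nat_lit 0) (XT.lf (nat_lit 0) (nat_lit 6840312127) (nat_lit 304) (nat_lit 3728702671) (nat_lit 380) (nat_lit 274351762) (nat_lit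 40) (nat_lit 5) (nat_lit 44) (nat_lit 5) (nat_lit 45) (nat_lit 5) (nat_lit 268) (nat_lit 246) (nat_lit 206)) (XT.lf (nat_lit 0) (nat_lit 681545801) (nat_lit 228) (nat_lit 656175402) (nat_lit 304) (nat_lit 9825026273) (nat_lit 36) (nat_lit 5) (nat_lit 39) (nat_lit 5) (nat_lit 40) (nat_lit 5) (nat_lit 269) (nat_lit 246) (nat_lit 205))))) (XT.nd (nat_lit 312) (nat_lit 532) (nat_lit 0) (XT.nd (nat_lit 156) (nat_lit 228) (nat_lit 0) (XT.nd (nat_lit 78) (nat_lit 0) (nat_lit 0) (XT.lf (nat_lit 0) (nat_lit 3085735225) (nat_lit 304) (nat_lit 5853031817) (nat_lit 76) (nat_lit 2556109156) (nat_lit 36) (nat_lit 5) (nat_lit 40) (nat_lit 5) (nat_lit 37) (nat_lit 5) (nat_lit 270) (nat_lit 246) (nat_lit 204)) (XT.lf (nat_lit 0) (nat_lit 4889552469) (nat_lit 304) (nat_lit 1053680551) (nat_lit 76) (nat_lit 5902178692) (nat_lit 36) (nat_lit 5) (nat_lit 40) (nat_lit 5) (nat_lit 37) (nat_lit 5) (nat_lit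 271) (nat_lit 246) (nat_lit 203))) (XT.nd (nat_lit 78) (nat_lit 0) (nat_lit 0) (XT.lf (nat_lit 0) (nat_lit 4068749272) (nat_lit 228) (nat_lit 2737998310) (nat_lit 304) (nat_lit 5405777055) (nat_lit 33) (nat_lit 5) (nat_lit 36) (nat_lit 5) (nat_lit 37) (nat_lit 5) (nat_lit 272) (nat_lit 246) (nat_lit 202)) (XT.lf (nat_lit 0) (nat_lit 8808483490) (nat_lit 304) (nat_lit 3171707383) (nat_lit 76) (nat_lit 618568270) (nat_lit 33) (nat_lit 5) (nat_lit 37) (nat_lit 5) (nat_lit 34) (nat_lit 5) (nat_lit 273) (nat_lit 246) (nat_lit 201)))) (XT.nd (nat_lit 156) (nat_lit 304) (nat_lit 0) (XT.nd (nat_lit 78) (nat_lit 0) (nat_lit 0) (XT.lf (nat_lit 0) (nat_lit 2022724442) (nat_lit 228) (nat_lit 8926663470) (nat_lit 304) (nat_lit 2053153838) (nat_lit 30) (nat_lit 5) (nat_lit 33) (nat_lit 5) (nat_lit 34) (nat_lit 5) (nat_lit 274) (nat_lit 246) (nat_lit 200)) (XT.lf (nat_lit 0) (nat_lit 7541641679)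 (nat_lit 228) (nat_lit 5673098515) (nat_lit 304) (nat_lit 211084556) (nat_lit 30) (nat_lit 5) (nat_lit 33) (nat_lit 5) (nat_lit 34) (nat_lit 5) (nat_lit 275) (nat_lit 246) (nat_lit 199))) (XT.nd (nat_lit 78) (nat_lit 228) (nat_lit 0) (XT.lf (nat_lit 0) (nat_lit 1632621823) (nat_lit 304) (nat_lit 605192760) (nat_lit 76) (nat_lit 11633042573) (nat_lit 29) (nat_lit 5) (nat_lit 33) (nat_lit 5) (nat_lit 30) (nat_lit 5) (nat_lit 276) (nat_lit 246) (nat_lit 198)) (XT.lf (nat_lit 0) (nat_lit 3629276878) (nat_lit 304) (nat_lit 9304821228) (nat_lit 76) (nat_lit 1400633890) (nat_lit 26) (nat_lit 5) (nat_lit 30) (nat_lit 5) (nat_lit 27) (nat_lit 5) (nat_lit 277) (nat_lit 246) (nat_lit 197)))))))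
noncomputable def xc111 : XT := (XT.nd (nat_lit 1248) (nat_lit 532) (nat_lit 0) (XT.nd (nat_lit 624) (nat_lit 304) (nat_lit 0) (XT.nd (nat_lit 312) (nat_lit 456) (nat_lit 0) (XT.nd (nat_lit 156) (nat_lit 0) (nat_lit 0) (XT.nd (nat_lit 78) (nat_lit 152) (nat_lit 0) (XT.lf (nat_lit 0) (nat_lit 5740041648) (nat_lit 304) (nat_lit 3933722952) (nat_lit 76) (nat_lit 5147471362) (nat_lit 26) (nat_lit 5) (nat_lit 30) (nat_lit 5) (nat_lit 27) (nat_lit 5) (nat_lit 278) (nat_lit 246) (nat_lit 196)) (XT.lf (nat_lit 0) (nat_lit 1719673646) (nat_lit 152) (nat_lit 6232257292) (nat_lit 228) (nat_lit 7380497002) (nat_lit 24) (nat_lit 5) (nat_lit 26) (nat_lit 5) (nat_lit 27) (nat_lit 5) (nat_lit 279) (nat_lit 246) (nat_lit 195))) (XT.nd (nat_lit 78) (nat_lit 0) (nat_lit 0) (XT.lf (nat_lit 0) (nat_lit 7751679246) (nat_lit 152) (nat_lit 2558946642) (nat_lit 228) (nat_lit 5556878427) (nat_lit 24) (nat_lit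 5) (nat_lit 26) (nat_lit 5) (nat_lit 27) (nat_lit 5) (nat_lit 280) (nat_lit 246) (nat_lit 194)) (XT.lf (nat_lit 0) (nat_lit 12778409171) (nat_lit 228) (nat_lit 2404436194) (nat_lit 76) (nat_lit 1247060377) (nat_lit 24) (nat_lit 5) (nat_lit 27) (nat_lit 5) (nat_lit 25) (nat_lit 5) (nat_lit 281) (nat_lit 246) (nat_lit 193)))) (XT.nd (nat_lit 156) (nat_lit 152) (nat_lit 0) (XT.nd (nat_lit 78) (nat_lit 76) (nat_lit 0) (XT.lf (nat_lit 0) (nat_lit 3628496310) (nat_lit 228) (nat_lit 11811960255) (nat_lit 304) (nat_lit 1576549702) (nat_lit 21) (nat_lit 5) (nat_lit 24) (nat_lit 5) (nat_lit 25) (nat_lit 5) (nat_lit 282) (nat_lit 246) (nat_lit 192)) (XT.lf (nat_lit 0) (nat_lit 596711615) (nat_lit 304) (nat_lit 7633558825) (nat_lit 76) (nat_lit 9402140705) (nat_lit 20) (nat_lit 5) (nat_lit 24) (nat_lit 5) (nat_lit 21) (nat_lit 5) (nat_lit 283) (nat_lit 246) (nat_lit 191))) (XT.nd (nat_lit 78)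 (nat_lit 152) (nat_lit 0) (XT.lf (nat_lit 0) (nat_lit 2799417070) (nat_lit 304) (nat_lit 1653482687) (nat_lit 76) (nat_lit 13825812138) (nat_lit 20) (nat_lit 5) (nat_lit 24) (nat_lit 5) (nat_lit 21) (nat_lit 5) (nat_lit 284) (nat_lit 246) (nat_lit 190)) (XT.lf (nat_lit 0) (nat_lit 4742356104) (nat_lit 152) (nat_lit 418956002) (nat_lit 228) (nat_lit 13793663869) (nat_lit 18) (nat_lit 5) (nat_lit 20) (nat_lit 5) (nat_lit 21) (nat_lit 5) (nat_lit 285) (nat_lit 246) (nat_lit 189))))) (XT.nd (nat_lit 312) (nat_lit 152) (nat_lit 0) (XT.nd (nat_lit 156) (nat_lit 152) (nat_lit 0) (XT.nd (nat_lit 78) (nat_lit 0) (nat_lit 0) (XT.lf (nat_lit 0) (nat_lit 7704859203) (nat_lit 228) (nat_lit 8243925415) (nat_lit 76) (nat_lit 3713186972) (nat_lit 18) (nat_lit 5) (nat_lit 21) (nat_lit 5) (nat_lit 19) (nat_lit 5) (nat_lit 286) (nat_lit 246) (nat_lit 188)) (XT.lf (nat_lit 0) (nat_lit 10359124712) (nat_lit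 228) (nat_lit 2017584458) (nat_lit 76) (nat_lit 8028522378) (nat_lit 18) (nat_lit 5) (nat_lit 21) (nat_lit 5) (nat_lit 19) (nat_lit 5) (nat_lit 287) (nat_lit 246) (nat_lit 187))) (XT.nd (nat_lit 78) (nat_lit 0) (nat_lit 0) (XT.lf (nat_lit 0) (nat_lit 4636154596) (nat_lit 152) (nat_lit 8560116006) (nat_lit 228) (nat_lit 7986962800) (nat_lit 16) (nat_lit 5) (nat_lit 18) (nat_lit 5) (nat_lit 19) (nat_lit 5) (nat_lit 288) (nat_lit 246) (nat_lit 186)) (XT.lf (nat_lit 0) (nat_lit 11660842776) (nat_lit 152) (nat_lit 4526945202) (nat_lit 228) (nat_lit 5811804758) (nat_lit 16) (nat_lit 5) (nat_lit 18) (nat_lit 5) (nat_lit 19) (nat_lit 5) (nat_lit 289) (nat_lit 246) (nat_lit 185)))) (XT.nd (nat_lit 156) (nat_lit 76) (nat_lit 0) (XT.nd (nat_lit 78) (nat_lit 76) (nat_lit 0) (XT.lf (nat_lit 0) (nat_lit 19006495077) (nat_lit 152) (nat_lit 301762740) (nat_lit 228) (nat_lit 3549622533) (nat_lit 16)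 (nat_lit 5) (nat_lit 18) (nat_lit 5) (nat_lit 19) (nat_lit 5) (nat_lit 290) (nat_lit 246) (nat_lit 184)) (XT.lf (nat_lit 0) (nat_lit 2960815464) (nat_lit 76) (nat_lit 19714931452) (nat_lit 152) (nat_lit 1078861013) (nat_lit 15) (nat_lit 5) (nat_lit 16) (nat_lit 5) (nat_lit 17) (nat_lit 4) (nat_lit 291) (nat_lit 246) (nat_lit 183))) (XT.nd (nat_lit 78) (nat_lit 0) (nat_lit 0) (XT.lf (nat_lit 0) (nat_lit 1518490950) (nat_lit 152) (nat_lit 14505231804) (nat_lit 76) (nat_lit 8668756691) (nat_lit 14) (nat_lit 5) (nat_lit 16) (nat_lit 5) (nat_lit 15) (nat_lit 5) (nat_lit 292) (nat_lit 246) (nat_lit 182)) (XT.lf (nat_lit 0) (nat_lit 4190705706) (nat_lit 152) (nat_lit 7948483998) (nat_lit 76) (nat_lit 13538173032) (nat_lit 14) (nat_lit 5) (nat_lit 16) (nat_lit 5) (nat_lit 15) (nat_lit 5) (nat_lit 293) (nat_lit 246) (nat_lit 181)))))) (XT.nd (nat_lit 624) (nat_lit 304) (nat_lit 0) (XT.nd (nat_lit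 312) (nat_lit 76) (nat_lit 0) (XT.nd (nat_lit 156) (nat_lit 0) (nat_lit 0) (XT.nd (nat_lit 78) (nat_lit 152) (nat_lit 0) (XT.lf (nat_lit 0) (nat_lit 6978675961) (nat_lit 152) (nat_lit 1091093698) (nat_lit 76) (nat_lit 18642675302) (nat_lit 14) (nat_lit 5) (nat_lit 16) (nat_lit 5) (nat_lit 15) (nat_lit 5) (nat_lit 294) (nat_lit 246) (nat_lit 180)) (XT.lf (nat_lit 0) (nat_lit 6284406468) (nat_lit 152) (nat_lit 3702750468) (nat_lit 228) (nat_lit 17808127808) (nat_lit 12) (nat_lit 5) (nat_lit 14) (nat_lit 5) (nat_lit 15) (nat_lit 5) (nat_lit 295) (nat_lit 246) (nat_lit 179))) (XT.nd (nat_lit 78) (nat_lit 0) (nat_lit 0) (XT.lf (nat_lit 0) (nat_lit 13161891389) (nat_lit 228) (nat_lit 14905093018) (nat_lit 76) (nat_lit 864546882) (nat_lit 12) (nat_lit 5) (nat_lit 15) (nat_lit 5) (nat_lit 13) (nat_lit 4) (nat_lit 296) (nat_lit 246) (nat_lit 178)) (XT.lf (nat_lit 0) (nat_lit 16540128286) (nat_lit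 228) (nat_lit 8054699587) (nat_lit 76) (nat_lit 5527577568) (nat_lit 12) (nat_lit 5) (nat_lit 15) (nat_lit 5) (nat_lit 13) (nat_lit 4) (nat_lit 297) (nat_lit 246) (nat_lit 177)))) (XT.nd (nat_lit 156) (nat_lit 0) (nat_lit 0) (XT.nd (nat_lit 78) (nat_lit 76) (nat_lit 0) (XT.lf (nat_lit 0) (nat_lit 20072100739) (nat_lit 228) (nat_lit 885577211) (nat_lit 76) (nat_lit 10415955181) (nat_lit 12) (nat_lit 5) (nat_lit 15) (nat_lit 5) (nat_lit 13) (nat_lit 4) (nat_lit 298) (nat_lit 246) (nat_lit 176)) (XT.lf (nat_lit 0) (nat_lit 6838208837) (nat_lit 76) (nat_lit 17034772971) (nat_lit 152) (nat_lit 8809873482) (nat_lit 11) (nat_lit 5) (nat_lit 12) (nat_lit 5) (nat_lit 13) (nat_lit 4) (nat_lit 299) (nat_lit 246) (nat_lit 175))) (XT.nd (nat_lit 78) (nat_lit 0) (nat_lit 0) (XT.lf (nat_lit 0) (nat_lit 14956637043) (nat_lit 76) (nat_lit 12908154177) (nat_lit 152) (nat_lit 6192749395) (nat_lit 11)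 (nat_lit 5) (nat_lit 12) (nat_lit 5) (nat_lit 13) (nat_lit 4) (nat_lit 300) (nat_lit 246) (nat_lit 174)) (XT.lf (nat_lit 0) (nat_lit 23459755817) (nat_lit 76) (nat_lit 8582993964) (nat_lit 152) (nat_lit 3458926561) (nat_lit 11) (nat_lit 5) (nat_lit 12) (nat_lit 5) (nat_lit 13) (nat_lit 4) (nat_lit 301) (nat_lit 246) (nat_lit 173))))) (XT.nd (nat_lit 312) (nat_lit 76) (nat_lit 0) (XT.nd (nat_lit 156) (nat_lit 0) (nat_lit 0) (XT.nd (nat_lit 78) (nat_lit 228) (nat_lit 0) (XT.lf (nat_lit 0) (nat_lit 32367810677) (nat_lit 76) (nat_lit 4048994332) (nat_lit 152) (nat_lit 601895879) (nat_lit 11) (nat_lit 5) (nat_lit 12) (nat_lit 5) (nat_lit 13) (nat_lit 4) (nat_lit 302) (nat_lit 246) (nat_lit 172)) (XT.lf (nat_lit 0) (nat_lit 2370459185) (nat_lit 228) (nat_lit 35466844321) (nat_lit 76) (nat_lit 769978090) (nat_lit 8) (nat_lit 5) (nat_lit 11) (nat_lit 5) (nat_lit 9) (nat_lit 4) (nat_lit 303)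 (nat_lit 246) (nat_lit 171))) (XT.nd (nat_lit 78) (nat_lit 0) (nat_lit 0) (XT.lf (nat_lit 0) (nat_lit 5605383448) (nat_lit 228) (nat_lit 28886007261) (nat_lit 76) (nat_lit 5776734575) (nat_lit 8) (nat_lit 5) (nat_lit 11) (nat_lit 5) (nat_lit 9) (nat_lit 4) (nat_lit 304) (nat_lit 246) (nat_lit 170)) (XT.lf (nat_lit 0) (nat_lit 8990383286) (nat_lit 228) (nat_lit 21995098239) (nat_lit 76) (nat_lit 11027147690) (nat_lit 8) (nat_lit 5) (nat_lit 11) (nat_lit 5) (nat_lit 9) (nat_lit 4) (nat_lit 305) (nat_lit 246) (nat_lit 169)))) (XT.nd (nat_lit 156) (nat_lit 76) (nat_lit 0) (XT.nd (nat_lit 78) (nat_lit 0) (nat_lit 0) (XT.lf (nat_lit 0) (nat_lit 12533518222) (nat_lit 228) (nat_lit 14777710331) (nat_lit 76) (nat_lit 16533718421) (nat_lit 8) (nat_lit 5) (nat_lit 11) (nat_lit 5) (nat_lit 9) (nat_lit 4) (nat_lit 306) (nat_lit 246) (nat_lit 168)) (XT.lf (nat_lit 0) (nat_lit 16243224293) (nat_lit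 228) (nat_lit 7216659277) (nat_lit 76) (nat_lit 22309557650) (nat_lit 8) (nat_lit 5) (nat_lit 11) (nat_lit 5) (nat_lit 9) (nat_lit 4) (nat_lit 307) (nat_lit 246) (nat_lit 167))) (XT.nd (nat_lit 78) (nat_lit 0) (nat_lit 0) (XT.lf (nat_lit 0) (nat_lit 729402869) (nat_lit 76) (nat_lit 19410319284) (nat_lit 152) (nat_lit 27650402528) (nat_lit 7) (nat_lit 5) (nat_lit 8) (nat_lit 5) (nat_lit 9) (nat_lit 4) (nat_lit 308) (nat_lit 246) (nat_lit 166)) (XT.nd (nat_lit 78) (nat_lit 0) (nat_lit 0) (XT.lf (nat_lit 0) (nat_lit 9307191637) (nat_lit 76) (nat_lit 15036217705) (nat_lit 152) (nat_lit 25562843158) (nat_lit 7) (nat_lit 5) (nat_lit 8) (nat_lit 5) (nat_lit 9) (nat_lit 4) (nat_lit 309) (nat_lit 246) (nat_lit 165)) (XT.lf (nat_lit 0) (nat_lit 18298514986) (nat_lit 76) (nat_lit 10449381922) (nat_lit 152) (nat_lit 23380786056) (nat_lit 7) (nat_lit 5) (nat_lit 8) (nat_lit 5) (nat_lit 9) (nat_lit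 4) (nat_lit 310) (nat_lit 246) (nat_lit 164))))))))
noncomputable def xc112 : XT := (XT.nd (nat_lit 2496) (nat_lit 0) (nat_lit 0) (XT.nd (nat_lit 1248) (nat_lit 76) (nat_lit 0) (XT.nd (nat_lit 624) (nat_lit 152) (nat_lit 0) (XT.nd (nat_lit 312) (nat_lit 76) (nat_lit 0) (XT.nd (nat_lit 156) (nat_lit 0) (nat_lit 0) (XT.nd (nat_lit 78) (nat_lit 0) (nat_lit 0) (XT.lf (nat_lit 0) (nat_lit 27724780828) (nat_lit 76) (nat_lit 5638890898) (nat_lit 152) (nat_lit 21099035848) (nat_lit 7) (nat_lit 5) (nat_lit 8) (nat_lit 5) (nat_lit 9) (nat_lit 4) (nat_lit 311) (nat_lit 246) (nat_lit 163)) (XT.lf (nat_lit 0) (nat_lit 37608432654) (nat_lit 76) (nat_lit 593291082) (nat_lit 152) (nat_lit 18712159795) (nat_lit 7) (nat_lit 5) (nat_lit 8) (nat_lit 5) (nat_lit 9) (nat_lit 4) (nat_lit 312) (nat_lit 246) (nat_lit 162))) (XT.nd (nat_lit 78) (nat_lit 0) (nat_lit 0) (XT.lf (nat_lit 0) (nat_lit 43346943396)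 (nat_lit 152) (nat_lit 11588415287) (nat_lit 0) (nat_lit 4549019721) (nat_lit 7) (nat_lit 5) (nat_lit 9) (nat_lit 4) (nat_lit 7) (nat_lit 4) (nat_lit 313) (nat_lit 246) (nat_lit 161)) (XT.lf (nat_lit 0) (nat_lit 48751353202) (nat_lit 152) (nat_lit 3508218055) (nat_lit 0) (nat_lit 9923752563) (nat_lit 7) (nat_lit 5) (nat_lit 9) (nat_lit 4) (nat_lit 7) (nat_lit 4) (nat_lit 314) (nat_lit 246) (nat_lit 160)))) (XT.nd (nat_lit 156) (nat_lit 0) (nat_lit 0) (XT.nd (nat_lit 78) (nat_lit 0) (nat_lit 0) (XT.lf (nat_lit 0) (nat_lit 5127762750) (nat_lit 76) (nat_lit 49370853856) (nat_lit 76) (nat_lit 10514989443) (nat_lit 6) (nat_lit 4) (nat_lit 7) (nat_lit 5) (nat_lit 7) (nat_lit 4) (nat_lit 315) (nat_lit 246) (nat_lit 159)) (XT.lf (nat_lit 0) (nat_lit 14305192428) (nat_lit 76) (nat_lit 46280202430) (nat_lit 76) (nat_lit 7397420136) (nat_lit 6) (nat_lit 4) (nat_lit 7) (nat_lit 5) (nat_lit 7)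 (nat_lit 4) (nat_lit 316) (nat_lit 246) (nat_lit 158))) (XT.nd (nat_lit 78) (nat_lit 0) (nat_lit 0) (XT.lf (nat_lit 0) (nat_lit 23929924468) (nat_lit 76) (nat_lit 43039671656) (nat_lit 76) (nat_lit 4131253285) (nat_lit 6) (nat_lit 4) (nat_lit 7) (nat_lit 5) (nat_lit 7) (nat_lit 4) (nat_lit 317) (nat_lit 246) (nat_lit 157)) (XT.lf (nat_lit 0) (nat_lit 34024874898) (nat_lit 76) (nat_lit 39641545984) (nat_lit 76) (nat_lit 708712302) (nat_lit 6) (nat_lit 4) (nat_lit 7) (nat_lit 5) (nat_lit 7) (nat_lit 4) (nat_lit 318) (nat_lit 246) (nat_lit 156))))) (XT.nd (nat_lit 312) (nat_lit 76) (nat_lit 0) (XT.nd (nat_lit 156) (nat_lit 0) (nat_lit 0) (XT.nd (nat_lit 78) (nat_lit 0) (nat_lit 0) (XT.lf (nat_lit 0) (nat_lit 2786226489) (nat_lit 152) (nat_lit 33244322055) (nat_lit 76) (nat_lit 41780666732) (nat_lit 5) (nat_lit 5) (nat_lit 7) (nat_lit 5) (nat_lit 6) (nat_lit 4) (nat_lit 319) (nat_lit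 246) (nat_lit 155)) (XT.lf (nat_lit 0) (nat_lit 6426006611) (nat_lit 152) (nat_lit 25804918212) (nat_lit 76) (nat_lit 49187915968) (nat_lit 5) (nat_lit 5) (nat_lit 7) (nat_lit 5) (nat_lit 6) (nat_lit 4) (nat_lit 320) (nat_lit 246) (nat_lit 154))) (XT.nd (nat_lit 78) (nat_lit 0) (nat_lit 0) (XT.lf (nat_lit 0) (nat_lit 10241977426) (nat_lit 152) (nat_lit 18003268906) (nat_lit 76) (nat_lit 56961906232) (nat_lit 5) (nat_lit 5) (nat_lit 7) (nat_lit 5) (nat_lit 6) (nat_lit 4) (nat_lit 321) (nat_lit 246) (nat_lit 153)) (XT.lf (nat_lit 0) (nat_lit 14243224579) (nat_lit 152) (nat_lit 9820798780) (nat_lit 76) (nat_lit 65121147023) (nat_lit 5) (nat_lit 5) (nat_lit 7) (nat_lit 5) (nat_lit 6) (nat_lit 4) (nat_lit 322) (nat_lit 246) (nat_lit 152)))) (XT.nd (nat_lit 156) (nat_lit 0) (nat_lit 0) (XT.nd (nat_lit 78) (nat_lit 76) (nat_lit 0) (XT.lf (nat_lit 0) (nat_lit 18439274848) (nat_lit 152) (nat_lit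 1238025764) (nat_lit 76) (nat_lit 73685065105) (nat_lit 5) (nat_lit 5) (nat_lit 7) (nat_lit 5) (nat_lit 6) (nat_lit 4) (nat_lit 323) (nat_lit 246) (nat_lit 151)) (XT.lf (nat_lit 0) (nat_lit 8022247331) (nat_lit 76) (nat_lit 14943121261) (nat_lit 152) (nat_lit 74777053192) (nat_lit 4) (nat_lit 5) (nat_lit 5) (nat_lit 5) (nat_lit 6) (nat_lit 4) (nat_lit 324) (nat_lit 246) (nat_lit 150))) (XT.nd (nat_lit 78) (nat_lit 0) (nat_lit 0) (XT.lf (nat_lit 0) (nat_lit 17780250448) (nat_lit 76) (nat_lit 9953583814) (nat_lit 152) (nat_lit 74606855425) (nat_lit 4) (nat_lit 5) (nat_lit 5) (nat_lit 5) (nat_lit 6) (nat_lit 4) (nat_lit 325) (nat_lit 246) (nat_lit 149)) (XT.lf (nat_lit 0) (nat_lit 28018282203) (nat_lit 76) (nat_lit 4717774985) (nat_lit 152) (nat_lit 74433058902) (nat_lit 4) (nat_lit 5) (nat_lit 5) (nat_lit 5) (nat_lit 6) (nat_lit 4) (nat_lit 326) (nat_lit 246) (nat_lit 148)))))) (XT.nd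 (nat_lit 624) (nat_lit 76) (nat_lit 0) (XT.nd (nat_lit 312) (nat_lit 0) (nat_lit 0) (XT.nd (nat_lit 156) (nat_lit 0) (nat_lit 0) (XT.nd (nat_lit 78) (nat_lit 0) (nat_lit 0) (XT.lf (nat_lit 0) (nat_lit 37996075006) (nat_lit 152) (nat_lit 73490605963) (nat_lit 0) (nat_lit 751909900) (nat_lit 4) (nat_lit 5) (nat_lit 6) (nat_lit 4) (nat_lit 4) (nat_lit 4) (nat_lit 327) (nat_lit 246) (nat_lit 147)) (XT.lf (nat_lit 0) (nat_lit 43592156670) (nat_lit 152) (nat_lit 67632023837) (nat_lit 0) (nat_lit 6333716437) (nat_lit 4) (nat_lit 5) (nat_lit 6) (nat_lit 4) (nat_lit 4) (nat_lit 4) (nat_lit 328) (nat_lit 246) (nat_lit 146))) (XT.nd (nat_lit 78) (nat_lit 0) (nat_lit 0) (XT.lf (nat_lit 0) (nat_lit 49463968495) (nat_lit 152) (nat_lit 61487480816) (nat_lit 0) (nat_lit 12191932903) (nat_lit 4) (nat_lit 5) (nat_lit 6) (nat_lit 4) (nat_lit 4) (nat_lit 4) (nat_lit 329) (nat_lit 246) (nat_lit 145))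 (XT.lf (nat_lit 0) (nat_lit 55625490987) (nat_lit 152) (nat_lit 55042347035) (nat_lit 0) (nat_lit 18340507434) (nat_lit 4) (nat_lit 5) (nat_lit 6) (nat_lit 4) (nat_lit 4) (nat_lit 4) (nat_lit 330) (nat_lit 246) (nat_lit 144)))) (XT.nd (nat_lit 156) (nat_lit 0) (nat_lit 0) (XT.nd (nat_lit 78) (nat_lit 0) (nat_lit 0) (XT.lf (nat_lit 0) (nat_lit 62091394437) (nat_lit 152) (nat_lit 48281276939) (nat_lit 0) (nat_lit 24794079493) (nat_lit 4) (nat_lit 5) (nat_lit 6) (nat_lit 4) (nat_lit 4) (nat_lit 4) (nat_lit 331) (nat_lit 246) (nat_lit 143)) (XT.lf (nat_lit 0) (nat_lit 68877073852) (nat_lit 152) (nat_lit 41188172740) (nat_lit 0) (nat_lit 31568014726) (nat_lit 4) (nat_lit 5) (nat_lit 6) (nat_lit 4) (nat_lit 4) (nat_lit 4) (nat_lit 332) (nat_lit 246) (nat_lit 142))) (XT.nd (nat_lit 78) (nat_lit 0) (nat_lit 0) (XT.lf (nat_lit 0) (nat_lit 75998685614) (nat_lit 152) (nat_lit 33746146096) (nat_lit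 0) (nat_lit 38678441552) (nat_lit 4) (nat_lit 5) (nat_lit 6) (nat_lit 4) (nat_lit 4) (nat_lit 4) (nat_lit 333) (nat_lit 246) (nat_lit 141)) (XT.lf (nat_lit 0) (nat_lit 83473185939) (nat_lit 152) (nat_lit 25937477895) (nat_lit 0) (nat_lit 46142289558) (nat_lit 4) (nat_lit 5) (nat_lit 6) (nat_lit 4) (nat_lit 4) (nat_lit 4) (nat_lit 334) (nat_lit 246) (nat_lit 140))))) (XT.nd (nat_lit 312) (nat_lit 0) (nat_lit 0) (XT.nd (nat_lit 156) (nat_lit 76) (nat_lit 0) (XT.nd (nat_lit 78) (nat_lit 0) (nat_lit 0) (XT.lf (nat_lit 0) (nat_lit 91318371257) (nat_lit 152) (nat_lit 17743576070) (nat_lit 0) (nat_lit 53977329810) (nat_lit 4) (nat_lit 5) (nat_lit 6) (nat_lit 4) (nat_lit 4) (nat_lit 4) (nat_lit 335) (nat_lit 246) (nat_lit 139)) (XT.lf (nat_lit 0) (nat_lit 99552920582) (nat_lit 152) (nat_lit 9144931332) (nat_lit 0) (nat_lit 62202217167) (nat_lit 4) (nat_lit 5) (nat_lit 6) (nat_lit 4) (nat_lit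 4) (nat_lit 4) (nat_lit 336) (nat_lit 246) (nat_lit 138))) (XT.nd (nat_lit 78) (nat_lit 76) (nat_lit 0) (XT.lf (nat_lit 0) (nat_lit 108196439983) (nat_lit 152) (nat_lit 121070717) (nat_lit 0) (nat_lit 70836534694) (nat_lit 4) (nat_lit 5) (nat_lit 6) (nat_lit 4) (nat_lit 4) (nat_lit 4) (nat_lit 337) (nat_lit 246) (nat_lit 137)) (XT.lf (nat_lit 0) (nat_lit 9658627558) (nat_lit 76) (nat_lit 107761679953) (nat_lit 76) (nat_lit 70393010974) (nat_lit 3) (nat_lit 4) (nat_lit 4) (nat_lit 5) (nat_lit 4) (nat_lit 4) (nat_lit 338) (nat_lit 246) (nat_lit 136)))) (XT.nd (nat_lit 156) (nat_lit 0) (nat_lit 0) (XT.nd (nat_lit 78) (nat_lit 0) (nat_lit 0) (XT.lf (nat_lit 0) (nat_lit 19927094727) (nat_lit 76) (nat_lit 107177754048) (nat_lit 76) (nat_lit 69800738699) (nat_lit 3) (nat_lit 4) (nat_lit 4) (nat_lit 5) (nat_lit 4) (nat_lit 4) (nat_lit 339) (nat_lit 246) (nat_lit 135)) (XT.lf (nat_lit 0) (nat_lit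 30704776376) (nat_lit 76) (nat_lit 106566393078) (nat_lit 76) (nat_lit 69181428803) (nat_lit 3) (nat_lit 4) (nat_lit 4) (nat_lit 5) (nat_lit 4) (nat_lit 4) (nat_lit 340) (nat_lit 246) (nat_lit 134))) (XT.nd (nat_lit 78) (nat_lit 0) (nat_lit 0) (XT.lf (nat_lit 0) (nat_lit 42017333650) (nat_lit 76) (nat_lit 105926141420) (nat_lit 76) (nat_lit 68533606741) (nat_lit 3) (nat_lit 4) (nat_lit 4) (nat_lit 5) (nat_lit 4) (nat_lit 4) (nat_lit 341) (nat_lit 246) (nat_lit 133)) (XT.lf (nat_lit 0) (nat_lit 53891701211) (nat_lit 76) (nat_lit 105255474666) (nat_lit 76) (nat_lit 67855730077) (nat_lit 3) (nat_lit 4) (nat_lit 4) (nat_lit 5) (nat_lit 4) (nat_lit 4) (nat_lit 342) (nat_lit 246) (nat_lit 132))))))) (XT.nd (nat_lit 30264) (nat_lit 0) (nat_lit 3116) (XT.nd (nat_lit 624) (nat_lit 0) (nat_lit 0) (XT.nd (nat_lit 312) (nat_lit 0) (nat_lit 0) (XT.nd (nat_lit 156) (nat_lit 0) (nat_lit 0) (XT.nd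 (nat_lit 78) (nat_lit 0) (nat_lit 0) (XT.lf (nat_lit 0) (nat_lit 66356151362) (nat_lit 76) (nat_lit 104552795990) (nat_lit 76) (nat_lit 67146184822) (nat_lit 3) (nat_lit 4) (nat_lit 4) (nat_lit 5) (nat_lit 4) (nat_lit 4) (nat_lit 343) (nat_lit 246) (nat_lit 131)) (XT.lf (nat_lit 0) (nat_lit 79440361365) (nat_lit 76) (nat_lit 103816432348) (nat_lit 76) (nat_lit 66403281580) (nat_lit 3) (nat_lit 4) (nat_lit 4) (nat_lit 5) (nat_lit 4) (nat_lit 4) (nat_lit 344) (nat_lit 246) (nat_lit 130))) (XT.nd (nat_lit 78) (nat_lit 0) (nat_lit 0) (XT.lf (nat_lit 0) (nat_lit 93175484101) (nat_lit 76) (nat_lit 103044630493) (nat_lit 76) (nat_lit 65625251534) (nat_lit 3) (nat_lit 4) (nat_lit 4) (nat_lit 5) (nat_lit 4) (nat_lit 4) (nat_lit 345) (nat_lit 246) (nat_lit 129)) (XT.lf (nat_lit 0) (nat_lit 107594222243) (nat_lit 76) (nat_lit 102235552802) (nat_lit 76) (nat_lit 64810242233) (nat_lit 3) (nat_lit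 4) (nat_lit 4) (nat_lit 5) (nat_lit 4) (nat_lit 4) (nat_lit 346) (nat_lit 246) (nat_lit 128)))) (XT.nd (nat_lit 156) (nat_lit 0) (nat_lit 0) (XT.nd (nat_lit 78) (nat_lit 0) (nat_lit 0) (XT.lf (nat_lit 0) (nat_lit 122730906121) (nat_lit 76) (nat_lit 101387272900) (nat_lit 76) (nat_lit 63956313178) (nat_lit 3) (nat_lit 4) (nat_lit 4) (nat_lit 5) (nat_lit 4) (nat_lit 4) (nat_lit 347) (nat_lit 246) (nat_lit 127)) (XT.lf (nat_lit 0) (nat_lit 138621575458) (nat_lit 76) (nat_lit 100497771071) (nat_lit 76) (nat_lit 63061431204) (nat_lit 3) (nat_lit 4) (nat_lit 4) (nat_lit 5) (nat_lit 4) (nat_lit 4) (nat_lit 348) (nat_lit 246) (nat_lit 126))) (XT.nd (nat_lit 78) (nat_lit 0) (nat_lit 0) (XT.lf (nat_lit 0) (nat_lit 155304065181) (nat_lit 76) (nat_lit 99564929455) (nat_lit 76) (nat_lit 62123465640) (nat_lit 3) (nat_lit 4) (nat_lit 4) (nat_lit 5) (nat_lit 4) (nat_lit 4) (nat_lit 349) (nat_lit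 246) (nat_lit 125)) (XT.lf (nat_lit 0) (nat_lit 172818095503) (nat_lit 76) (nat_lit 98586527000) (nat_lit 76) (nat_lit 61140183235) (nat_lit 3) (nat_lit 4) (nat_lit 4) (nat_lit 5) (nat_lit 4) (nat_lit 4) (nat_lit 350) (nat_lit 246) (nat_lit 124))))) (XT.nd (nat_lit 312) (nat_lit 0) (nat_lit 0) (XT.nd (nat_lit 156) (nat_lit 0) (nat_lit 0) (XT.nd (nat_lit 78) (nat_lit 0) (nat_lit 0) (XT.lf (nat_lit 0) (nat_lit 191205366497) (nat_lit 76) (nat_lit 97560234177) (nat_lit 76) (nat_lit 60109242840) (nat_lit 3) (nat_lit 4) (nat_lit 4) (nat_lit 5) (nat_lit 4) (nat_lit 4) (nat_lit 351) (nat_lit 246) (nat_lit 123)) (XT.lf (nat_lit 0) (nat_lit 210509657379) (nat_lit 76) (nat_lit 96483607431) (nat_lit 76) (nat_lit 59028189835) (nat_lit 3) (nat_lit 4) (nat_lit 4) (nat_lit 5) (nat_lit 4) (nat_lit 4) (nat_lit 352) (nat_lit 246) (nat_lit 122))) (XT.nd (nat_lit 78) (nat_lit 0) (nat_lit 0) (XT.lf (nat_lit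 0) (nat_lit 230776930746) (nat_lit 76) (nat_lit 95354083365) (nat_lit 76) (nat_lit 57894450285) (nat_lit 3) (nat_lit 4) (nat_lit 4) (nat_lit 5) (nat_lit 4) (nat_lit 4) (nat_lit 353) (nat_lit 246) (nat_lit 121)) (XT.lf (nat_lit 0) (nat_lit 252055442013) (nat_lit 76) (nat_lit 94168972636) (nat_lit 76) (nat_lit 56705324809) (nat_lit 3) (nat_lit 4) (nat_lit 4) (nat_lit 5) (nat_lit 4) (nat_lit 4) (nat_lit 354) (nat_lit 246) (nat_lit 120)))) (XT.nd (nat_lit 29172) (nat_lit 0) (nat_lit 5928) (XT.nd (nat_lit 29094) (nat_lit 0) (nat_lit 5928) (XT.lf (nat_lit 0) (nat_lit 274395854299) (nat_lit 76) (nat_lit 92925453552) (nat_lit 76) (nat_lit 55457982156) (nat_lit 3) (nat_lit 4) (nat_lit 4) (nat_lit 5) (nat_lit 4) (nat_lit 4) (nat_lit 355) (nat_lit 246) (nat_lit 119)) (XT.lf (nat_lit 0) (nat_lit 636768904) (nat_lit 0) (nat_lit 636768904) (nat_lit 380) (nat_lit 2248327312) (nat_lit 81) (nat_lit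 5) (nat_lit 81) (nat_lit 3) (nat_lit 86) (nat_lit 3) (nat_lit 247) (nat_lit 247) (nat_lit 226))) (XT.nd (nat_lit 78) (nat_lit 0) (nat_lit 0) (XT.lf (nat_lit 0) (nat_lit 4113097727) (nat_lit 380) (nat_lit 2927518953) (nat_lit 456) (nat_lit 92425609) (nat_lit 81) (nat_lit 5) (nat_lit 86) (nat_lit 3) (nat_lit 87) (nat_lit 5) (nat_lit 248) (nat_lit 247) (nat_lit 225)) (XT.lf (nat_lit 0) (nat_lit 5682975167) (nat_lit 380) (nat_lit 17926481) (nat_lit 456) (nat_lit 1530387218) (nat_lit 81) (nat_lit 5) (nat_lit 86) (nat_lit 3) (nat_lit 87) (nat_lit 5) (nat_lit 249) (nat_lit 247) (nat_lit 224)))))) (XT.nd (nat_lit 624) (nat_lit 1900) (nat_lit 0) (XT.nd (nat_lit 312) (nat_lit 456) (nat_lit 0) (XT.nd (nat_lit 156) (nat_lit 0) (nat_lit 0) (XT.nd (nat_lit 78) (nat_lit 456) (nat_lit 0) (XT.lf (nat_lit 76) (nat_lit 3084106752) (nat_lit 0) (nat_lit 4204607042) (nat_lit 456) (nat_lit 48576697) (nat_lit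 82) (nat_lit 5) (nat_lit 81) (nat_lit 5) (nat_lit 87) (nat_lit 5) (nat_lit 250) (nat_lit 247) (nat_lit 223)) (XT.lf (nat_lit 0) (nat_lit 1388267412) (nat_lit 456) (nat_lit 1185059308) (nat_lit 532) (nat_lit 4879170755) (nat_lit 75) (nat_lit 5) (nat_lit 81) (nat_lit 5) (nat_lit 82) (nat_lit 5) (nat_lit 251) (nat_lit 247) (nat_lit 222))) (XT.nd (nat_lit 78) (nat_lit 0) (nat_lit 76) (XT.lf (nat_lit 76) (nat_lit 2049348976) (nat_lit 0) (nat_lit 792880646) (nat_lit 532) (nat_lit 4734464210) (nat_lit 76) (nat_lit 5) (nat_lit 75) (nat_lit 5) (nat_lit 82) (nat_lit 5) (nat_lit 252) (nat_lit 247) (nat_lit 221)) (XT.lf (nat_lit 0) (nat_lit 4324743789) (nat_lit 456) (nat_lit 2292851258) (nat_lit 532) (nat_lit 1092297279) (nat_lit 76) (nat_lit 5) (nat_lit 82) (nat_lit 5) (nat_lit 83) (nat_lit 5) (nat_lit 253) (nat_lit 247) (nat_lit 220)))) (XT.nd (nat_lit 156) (nat_lit 532) (nat_lit 0) (XT.nd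 (nat_lit 78) (nat_lit 0) (nat_lit 0) (XT.lf (nat_lit 76) (nat_lit 1071091128) (nat_lit 0) (nat_lit 4762534009) (nat_lit 532) (nat_lit 2019070687) (nat_lit 77) (nat_lit 5) (nat_lit 76) (nat_lit 5) (nat_lit 83) (nat_lit 5) (nat_lit 254) (nat_lit 247) (nat_lit 219)) (XT.lf (nat_lit 76) (nat_lit 4630137662) (nat_lit 0) (nat_lit 2752030898) (nat_lit 532) (nat_lit 622790659) (nat_lit 77) (nat_lit 5) (nat_lit 76) (nat_lit 5) (nat_lit 83) (nat_lit 5) (nat_lit 255) (nat_lit 247) (nat_lit 218))) (XT.nd (nat_lit 78) (nat_lit 0) (nat_lit 76) (XT.lf (nat_lit 76) (nat_lit 140561446) (nat_lit 0) (nat_lit 605231856) (nat_lit 608) (nat_lit 7422391409) (nat_lit 70) (nat_lit 5) (nat_lit 69) (nat_lit 5) (nat_lit 77) (nat_lit 5) (nat_lit 256) (nat_lit 247) (nat_lit 217)) (XT.lf (nat_lit 0) (nat_lit 2175924230) (nat_lit 532) (nat_lit 4481180877) (nat_lit 76) (nat_lit 1681711877) (nat_lit 70) (nat_lit 5)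 (nat_lit 77) (nat_lit 5) (nat_lit 71) (nat_lit 5) (nat_lit 257) (nat_lit 247) (nat_lit 216))))) (XT.nd (nat_lit 312) (nat_lit 836) (nat_lit 0) (XT.nd (nat_lit 156) (nat_lit 608) (nat_lit 0) (XT.nd (nat_lit 78) (nat_lit 532) (nat_lit 0) (XT.lf (nat_lit 0) (nat_lit 3621019123) (nat_lit 532) (nat_lit 821106009) (nat_lit 76) (nat_lit 4079119411) (nat_lit 70) (nat_lit 5) (nat_lit 77) (nat_lit 5) (nat_lit 71) (nat_lit 5) (nat_lit 258) (nat_lit 247) (nat_lit 215)) (XT.lf (nat_lit 0) (nat_lit 3068992081) (nat_lit 532) (nat_lit 2053992804) (nat_lit 608) (nat_lit 3590993545) (nat_lit 63) (nat_lit 5) (nat_lit 70) (nat_lit 5) (nat_lit 71) (nat_lit 5) (nat_lit 259) (nat_lit 247) (nat_lit 214))) (XT.nd (nat_lit 78) (nat_lit 608) (nat_lit 0) (XT.lf (nat_lit 0) (nat_lit 6660358980) (nat_lit 608) (nat_lit 1794858749) (nat_lit 76) (nat_lit 463511739) (nat_lit 63) (nat_lit 5) (nat_lit 71) (nat_lit 5)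 (nat_lit 64) (nat_lit 5) (nat_lit 260) (nat_lit 247) (nat_lit 213)) (XT.lf (nat_lit 0) (nat_lit 2234184445) (nat_lit 608) (nat_lit 6050966585) (nat_lit 684) (nat_lit 848416667) (nat_lit 55) (nat_lit 5) (nat_lit 63) (nat_lit 5) (nat_lit 64) (nat_lit 5) (nat_lit 261) (nat_lit 247) (nat_lit 212)))) (XT.nd (nat_lit 156) (nat_lit 304) (nat_lit 0) (XT.nd (nat_lit 78) (nat_lit 456) (nat_lit 0) (XT.lf (nat_lit 0) (nat_lit 585402195) (nat_lit 684) (nat_lit 2893834664) (nat_lit 76) (nat_lit 5881079810) (nat_lit 54) (nat_lit 5) (nat_lit 63) (nat_lit 5) (nat_lit 55) (nat_lit 5) (nat_lit 262) (nat_lit 247) (nat_lit 211)) (XT.lf (nat_lit 0) (nat_lit 1289021758) (nat_lit 456) (nat_lit 738932934) (nat_lit 532) (nat_lit 7571800978) (nat_lit 48) (nat_lit 5) (nat_lit 54) (nat_lit 5) (nat_lit 55) (nat_lit 5) (nat_lit 263) (nat_lit 247) (nat_lit 210))) (XT.nd (nat_lit 78) (nat_lit 304) (nat_lit 0) (XT.lf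 (nat_lit 0) (nat_lit 3573138944) (nat_lit 532) (nat_lit 4153921728) (nat_lit 76) (nat_lit 2122890985) (nat_lit 48) (nat_lit 5) (nat_lit 55) (nat_lit 5) (nat_lit 49) (nat_lit 5) (nat_lit 264) (nat_lit 247) (nat_lit 209)) (XT.lf (nat_lit 0) (nat_lit 153527121) (nat_lit 304) (nat_lit 5006381187) (nat_lit 380) (nat_lit 4954828312) (nat_lit 44) (nat_lit 5) (nat_lit 48) (nat_lit 5) (nat_lit 49) (nat_lit 5) (nat_lit 265) (nat_lit 247) (nat_lit 208))))))))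
noncomputable def xc113 : XT := (XT.nd (nat_lit 1248) (nat_lit 912) (nat_lit 0) (XT.nd (nat_lit 624) (nat_lit 684) (nat_lit 0) (XT.nd (nat_lit 312) (nat_lit 456) (nat_lit 0) (XT.nd (nat_lit 156) (nat_lit 380) (nat_lit 0) (XT.nd (nat_lit 78) (nat_lit 0) (nat_lit 0) (XT.lf (nat_lit 0) (nat_lit 4771365600) (nat_lit 304) (nat_lit 2076436109) (nat_lit 380) (nat_lit 3544151243) (nat_lit 44) (nat_lit 5) (nat_lit 48) (nat_lit 5) (nat_lit 49) (nat_lit 5) (nat_lit 266) (nat_lit 247) (nat_lit 207)) (XT.lf (nat_lit 0) (nat_lit 8589442669) (nat_lit 380) (nat_lit 1127972947) (nat_lit 76) (nat_lit 967414841) (nat_lit 44) (nat_lit 5) (nat_lit 49) (nat_lit 5) (nat_lit 45) (nat_lit 5) (nat_lit 267) (nat_lit 247) (nat_lit 206))) (XT.nd (nat_lit 78) (nat_lit 76) (nat_lit 0) (XT.lf (nat_lit 0) (nat_lit 3624155519) (nat_lit 304) (nat_lit 6840576163) (nat_lit 380) (nat_lit 525547093) (nat_lit 40) (nat_lit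 5) (nat_lit 44) (nat_lit 5) (nat_lit 45) (nat_lit 5) (nat_lit 268) (nat_lit 247) (nat_lit 205)) (XT.lf (nat_lit 0) (nat_lit 1062648128) (nat_lit 380) (nat_lit 2722823071) (nat_lit 76) (nat_lit 7526093394) (nat_lit 39) (nat_lit 5) (nat_lit 44) (nat_lit 5) (nat_lit 40) (nat_lit 5) (nat_lit 269) (nat_lit 247) (nat_lit 204)))) (XT.nd (nat_lit 156) (nat_lit 228) (nat_lit 0) (XT.nd (nat_lit 78) (nat_lit 0) (nat_lit 0) (XT.lf (nat_lit 0) (nat_lit 2167704984) (nat_lit 228) (nat_lit 537189977) (nat_lit 304) (nat_lit 8944194266) (nat_lit 36) (nat_lit 5) (nat_lit 39) (nat_lit 5) (nat_lit 40) (nat_lit 5) (nat_lit 270) (nat_lit 247) (nat_lit 203)) (XT.lf (nat_lit 0) (nat_lit 4480648300) (nat_lit 304) (nat_lit 4696628566) (nat_lit 76) (nat_lit 2823853502) (nat_lit 36) (nat_lit 5) (nat_lit 40) (nat_lit 5) (nat_lit 37) (nat_lit 5) (nat_lit 271) (nat_lit 247) (nat_lit 202))) (XT.nd (nat_lit 78) (nat_lit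 0) (nat_lit 0) (XT.lf (nat_lit 0) (nat_lit 282737000) (nat_lit 228) (nat_lit 6037256280) (nat_lit 304) (nat_lit 6052240075) (nat_lit 33) (nat_lit 5) (nat_lit 36) (nat_lit 5) (nat_lit 37) (nat_lit 5) (nat_lit 272) (nat_lit 247) (nat_lit 201)) (XT.lf (nat_lit 0) (nat_lit 5629980059) (nat_lit 228) (nat_lit 2663588501) (nat_lit 304) (nat_lit 4466400241) (nat_lit 33) (nat_lit 5) (nat_lit 36) (nat_lit 5) (nat_lit 37) (nat_lit 5) (nat_lit 273) (nat_lit 247) (nat_lit 200))))) (XT.nd (nat_lit 312) (nat_lit 152) (nat_lit 0) (XT.nd (nat_lit 156) (nat_lit 304) (nat_lit 0) (XT.nd (nat_lit 78) (nat_lit 228) (nat_lit 0) (XT.lf (nat_lit 0) (nat_lit 10343938841) (nat_lit 304) (nat_lit 1980124890) (nat_lit 76) (nat_lit 844302869) (nat_lit 33) (nat_lit 5) (nat_lit 37) (nat_lit 5) (nat_lit 34) (nat_lit 5) (nat_lit 274) (nat_lit 247) (nat_lit 199)) (XT.lf (nat_lit 0) (nat_lit 3452251625) (nat_lit 228)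 (nat_lit 9108232424) (nat_lit 304) (nat_lit 1033690175) (nat_lit 30) (nat_lit 5) (nat_lit 33) (nat_lit 5) (nat_lit 34) (nat_lit 5) (nat_lit 275) (nat_lit 247) (nat_lit 198))) (XT.nd (nat_lit 78) (nat_lit 228) (nat_lit 0) (XT.lf (nat_lit 0) (nat_lit 819937387) (nat_lit 304) (nat_lit 4870773617) (nat_lit 76) (nat_lit 8350034587) (nat_lit 29) (nat_lit 5) (nat_lit 33) (nat_lit 5) (nat_lit 30) (nat_lit 5) (nat_lit 276) (nat_lit 247) (nat_lit 197)) (XT.lf (nat_lit 0) (nat_lit 626660071) (nat_lit 228) (nat_lit 2082598045) (nat_lit 304) (nat_lit 11800801828) (nat_lit 26) (nat_lit 5) (nat_lit 29) (nat_lit 5) (nat_lit 30) (nat_lit 5) (nat_lit 277) (nat_lit 247) (nat_lit 196)))) (XT.nd (nat_lit 156) (nat_lit 152) (nat_lit 0) (XT.nd (nat_lit 78) (nat_lit 0) (nat_lit 0) (XT.lf (nat_lit 0) (nat_lit 4772257625) (nat_lit 304) (nat_lit 8499931229) (nat_lit 76) (nat_lit 1726832651) (nat_lit 26) (nat_lit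 5) (nat_lit 30) (nat_lit 5) (nat_lit 27) (nat_lit 5) (nat_lit 278) (nat_lit 247) (nat_lit 195)) (XT.lf (nat_lit 0) (nat_lit 6942774114) (nat_lit 304) (nat_lit 2920760471) (nat_lit 76) (nat_lit 5648813565) (nat_lit 26) (nat_lit 5) (nat_lit 30) (nat_lit 5) (nat_lit 27) (nat_lit 5) (nat_lit 279) (nat_lit 247) (nat_lit 194))) (XT.nd (nat_lit 78) (nat_lit 0) (nat_lit 0) (XT.lf (nat_lit 0) (nat_lit 2995795496) (nat_lit 152) (nat_lit 6244437557) (nat_lit 228) (nat_lit 6810316157) (nat_lit 24) (nat_lit 5) (nat_lit 26) (nat_lit 5) (nat_lit 27) (nat_lit 5) (nat_lit 280) (nat_lit 247) (nat_lit 193)) (XT.lf (nat_lit 0) (nat_lit 9272728130) (nat_lit 152) (nat_lit 2401720069) (nat_lit 228) (nat_lit 4940240734) (nat_lit 24) (nat_lit 5) (nat_lit 26) (nat_lit 5) (nat_lit 27) (nat_lit 5) (nat_lit 281) (nat_lit 247) (nat_lit 192)))))) (XT.nd (nat_lit 624) (nat_lit 304) (nat_lit 0) (XT.nd (nat_lit 312)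 (nat_lit 304) (nat_lit 0) (XT.nd (nat_lit 156) (nat_lit 76) (nat_lit 0) (XT.nd (nat_lit 78) (nat_lit 228) (nat_lit 0) (XT.lf (nat_lit 0) (nat_lit 14229466182) (nat_lit 228) (nat_lit 1405416903) (nat_lit 76) (nat_lit 1572314880) (nat_lit 24) (nat_lit 5) (nat_lit 27) (nat_lit 5) (nat_lit 25) (nat_lit 5) (nat_lit 282) (nat_lit 247) (nat_lit 191)) (XT.lf (nat_lit 0) (nat_lit 4911109950) (nat_lit 228) (nat_lit 12092025470) (nat_lit 304) (nat_lit 821763373) (nat_lit 21) (nat_lit 5) (nat_lit 24) (nat_lit 5) (nat_lit 25) (nat_lit 5) (nat_lit 283) (nat_lit 247) (nat_lit 190))) (XT.nd (nat_lit 78) (nat_lit 0) (nat_lit 0) (XT.lf (nat_lit 0) (nat_lit 1395054782) (nat_lit 304) (nat_lit 6937968610) (nat_lit 76) (nat_lit 10139476367) (nat_lit 20) (nat_lit 5) (nat_lit 24) (nat_lit 5) (nat_lit 21) (nat_lit 5) (nat_lit 284) (nat_lit 247) (nat_lit 189)) (XT.lf (nat_lit 0) (nat_lit 3671299911) (nat_lit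 304) (nat_lit 710187149) (nat_lit 76) (nat_lit 14771606199) (nat_lit 20) (nat_lit 5) (nat_lit 24) (nat_lit 5) (nat_lit 21) (nat_lit 5) (nat_lit 285) (nat_lit 247) (nat_lit 188)))) (XT.nd (nat_lit 156) (nat_lit 152) (nat_lit 0) (XT.nd (nat_lit 78) (nat_lit 0) (nat_lit 0) (XT.lf (nat_lit 0) (nat_lit 5988895684) (nat_lit 152) (nat_lit 143300966) (nat_lit 228) (nat_lit 13732069432) (nat_lit 18) (nat_lit 5) (nat_lit 20) (nat_lit 5) (nat_lit 21) (nat_lit 5) (nat_lit 286) (nat_lit 247) (nat_lit 187)) (XT.lf (nat_lit 0) (nat_lit 8773387630) (nat_lit 228) (nat_lit 7662550576) (nat_lit 76) (nat_lit 4172284124) (nat_lit 18) (nat_lit 5) (nat_lit 21) (nat_lit 5) (nat_lit 19) (nat_lit 5) (nat_lit 287) (nat_lit 247) (nat_lit 186))) (XT.nd (nat_lit 78) (nat_lit 152) (nat_lit 0) (XT.lf (nat_lit 0) (nat_lit 11527829011) (nat_lit 228) (nat_lit 1172205482) (nat_lit 76) (nat_lit 8690365452) (nat_lit 18)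 (nat_lit 5) (nat_lit 21) (nat_lit 5) (nat_lit 19) (nat_lit 5) (nat_lit 288) (nat_lit 247) (nat_lit 185)) (XT.lf (nat_lit 0) (nat_lit 5798958296) (nat_lit 152) (nat_lit 8691421352) (nat_lit 228) (nat_lit 7717866573) (nat_lit 16) (nat_lit 5) (nat_lit 18) (nat_lit 5) (nat_lit 19) (nat_lit 5) (nat_lit 289) (nat_lit 247) (nat_lit 184))))) (XT.nd (nat_lit 312) (nat_lit 152) (nat_lit 0) (XT.nd (nat_lit 156) (nat_lit 152) (nat_lit 0) (XT.nd (nat_lit 78) (nat_lit 0) (nat_lit 0) (XT.lf (nat_lit 0) (nat_lit 13130547744) (nat_lit 152) (nat_lit 4470720601) (nat_lit 228) (nat_lit 5465781314) (nat_lit 16) (nat_lit 5) (nat_lit 18) (nat_lit 5) (nat_lit 19) (nat_lit 5) (nat_lit 290) (nat_lit 247) (nat_lit 183)) (XT.lf (nat_lit 0) (nat_lit 20801260620) (nat_lit 152) (nat_lit 47734819) (nat_lit 228) (nat_lit 3120804915) (nat_lit 16) (nat_lit 5) (nat_lit 18) (nat_lit 5) (nat_lit 19) (nat_lit 5) (nat_lit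 291) (nat_lit 247) (nat_lit 182))) (XT.nd (nat_lit 78) (nat_lit 76) (nat_lit 0) (XT.lf (nat_lit 0) (nat_lit 3966017559) (nat_lit 76) (nat_lit 20408829286) (nat_lit 152) (nat_lit 537123206) (nat_lit 15) (nat_lit 5) (nat_lit 16) (nat_lit 5) (nat_lit 17) (nat_lit 4) (nat_lit 292) (nat_lit 247) (nat_lit 181)) (XT.lf (nat_lit 0) (nat_lit 2143572973) (nat_lit 152) (nat_lit 14394084491) (nat_lit 76) (nat_lit 9360080919) (nat_lit 14) (nat_lit 5) (nat_lit 16) (nat_lit 5) (nat_lit 15) (nat_lit 5) (nat_lit 293) (nat_lit 247) (nat_lit 180)))) (XT.nd (nat_lit 156) (nat_lit 152) (nat_lit 0) (XT.nd (nat_lit 78) (nat_lit 0) (nat_lit 0) (XT.lf (nat_lit 0) (nat_lit 4923248111) (nat_lit 152) (nat_lit 7549328290) (nat_lit 76) (nat_lit 14460687772) (nat_lit 14) (nat_lit 5) (nat_lit 16) (nat_lit 5) (nat_lit 15) (nat_lit 5) (nat_lit 294) (nat_lit 247) (nat_lit 179)) (XT.lf (nat_lit 0) (nat_lit 7825711778)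 (nat_lit 152) (nat_lit 387000852) (nat_lit 76) (nat_lit 19808719628) (nat_lit 14) (nat_lit 5) (nat_lit 16) (nat_lit 5) (nat_lit 15) (nat_lit 5) (nat_lit 295) (nat_lit 247) (nat_lit 178))) (XT.nd (nat_lit 78) (nat_lit 0) (nat_lit 0) (XT.lf (nat_lit 0) (nat_lit 7345038072) (nat_lit 152) (nat_lit 3627513158) (nat_lit 228) (nat_lit 18186548453) (nat_lit 12) (nat_lit 5) (nat_lit 14) (nat_lit 5) (nat_lit 15) (nat_lit 5) (nat_lit 296) (nat_lit 247) (nat_lit 177)) (XT.lf (nat_lit 0) (nat_lit 14286749413) (nat_lit 228) (nat_lit 14918637766) (nat_lit 76) (nat_lit 1147813477) (nat_lit 12) (nat_lit 5) (nat_lit 15) (nat_lit 5) (nat_lit 13) (nat_lit 4) (nat_lit 297) (nat_lit 247) (nat_lit 176)))))))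
noncomputable def xc114 : XT := (XT.nd (nat_lit 1248) (nat_lit 228) (nat_lit 0) (XT.nd (nat_lit 624) (nat_lit 76) (nat_lit 0) (XT.nd (nat_lit 312) (nat_lit 228) (nat_lit 0) (XT.nd (nat_lit 156) (nat_lit 76) (nat_lit 0) (XT.nd (nat_lit 78) (nat_lit 0) (nat_lit 0) (XT.lf (nat_lit 0) (nat_lit 17811671324) (nat_lit 228) (nat_lit 7760567992) (nat_lit 76) (nat_lit 6032565256) (nat_lit 12) (nat_lit 5) (nat_lit 15) (nat_lit 5) (nat_lit 13) (nat_lit 4) (nat_lit 298) (nat_lit 247) (nat_lit 175)) (XT.lf (nat_lit 0) (nat_lit 21499073989) (nat_lit 228) (nat_lit 266173619) (nat_lit 76) (nat_lit 11154475616) (nat_lit 12) (nat_lit 5) (nat_lit 15) (nat_lit 5) (nat_lit 13) (nat_lit 4) (nat_lit 299) (nat_lit 247) (nat_lit 174))) (XT.nd (nat_lit 78) (nat_lit 0) (nat_lit 0) (XT.lf (nat_lit 0) (nat_lit 7833097175) (nat_lit 76) (nat_lit 17646936360) (nat_lit 152) (nat_lit 8814939004) (nat_lit 11) (nat_lit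 5) (nat_lit 12) (nat_lit 5) (nat_lit 13) (nat_lit 4) (nat_lit 300) (nat_lit 247) (nat_lit 173)) (XT.lf (nat_lit 0) (nat_lit 16326352607) (nat_lit 76) (nat_lit 13325394972) (nat_lit 152) (nat_lit 6087693387) (nat_lit 11) (nat_lit 5) (nat_lit 12) (nat_lit 5) (nat_lit 13) (nat_lit 4) (nat_lit 301) (nat_lit 247) (nat_lit 172)))) (XT.nd (nat_lit 156) (nat_lit 228) (nat_lit 0) (XT.nd (nat_lit 78) (nat_lit 0) (nat_lit 0) (XT.lf (nat_lit 0) (nat_lit 25225013809) (nat_lit 76) (nat_lit 8794841840) (nat_lit 152) (nat_lit 3236926720) (nat_lit 11) (nat_lit 5) (nat_lit 12) (nat_lit 5) (nat_lit 13) (nat_lit 4) (nat_lit 302) (nat_lit 247) (nat_lit 171)) (XT.lf (nat_lit 0) (nat_lit 34550268069) (nat_lit 76) (nat_lit 4044489932) (nat_lit 152) (nat_lit 255851464) (nat_lit 11) (nat_lit 5) (nat_lit 12) (nat_lit 5) (nat_lit 13) (nat_lit 4) (nat_lit 303) (nat_lit 247) (nat_lit 170))) (XT.nd (nat_lit 78)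 (nat_lit 0) (nat_lit 0) (XT.lf (nat_lit 0) (nat_lit 2847925426) (nat_lit 228) (nat_lit 36656746696) (nat_lit 76) (nat_lit 1013964411) (nat_lit 8) (nat_lit 5) (nat_lit 11) (nat_lit 5) (nat_lit 9) (nat_lit 4) (nat_lit 304) (nat_lit 247) (nat_lit 169)) (XT.lf (nat_lit 0) (nat_lit 6227503365) (nat_lit 228) (nat_lit 29774650633) (nat_lit 76) (nat_lit 6261273605) (nat_lit 8) (nat_lit 5) (nat_lit 11) (nat_lit 5) (nat_lit 9) (nat_lit 4) (nat_lit 305) (nat_lit 247) (nat_lit 168))))) (XT.nd (nat_lit 312) (nat_lit 0) (nat_lit 0) (XT.nd (nat_lit 156) (nat_lit 76) (nat_lit 0) (XT.nd (nat_lit 78) (nat_lit 0) (nat_lit 0) (XT.lf (nat_lit 0) (nat_lit 9765474588) (nat_lit 228) (nat_lit 22565656017) (nat_lit 76) (nat_lit 11764888219) (nat_lit 8) (nat_lit 5) (nat_lit 11) (nat_lit 5) (nat_lit 9) (nat_lit 4) (nat_lit 306) (nat_lit 247) (nat_lit 167)) (XT.lf (nat_lit 0) (nat_lit 13470262836) (nat_lit 228)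 (nat_lit 15012598576) (nat_lit 76) (nat_lit 17537912098) (nat_lit 8) (nat_lit 5) (nat_lit 11) (nat_lit 5) (nat_lit 9) (nat_lit 4) (nat_lit 307) (nat_lit 247) (nat_lit 166))) (XT.nd (nat_lit 78) (nat_lit 76) (nat_lit 0) (XT.lf (nat_lit 0) (nat_lit 17350689034) (nat_lit 228) (nat_lit 7097494840) (nat_lit 76) (nat_lit 23594090538) (nat_lit 8) (nat_lit 5) (nat_lit 11) (nat_lit 5) (nat_lit 9) (nat_lit 4) (nat_lit 308) (nat_lit 247) (nat_lit 165)) (XT.lf (nat_lit 0) (nat_lit 1238128520) (nat_lit 76) (nat_lit 20197194427) (nat_lit 152) (nat_lit 28729045146) (nat_lit 7) (nat_lit 5) (nat_lit 8) (nat_lit 5) (nat_lit 9) (nat_lit 4) (nat_lit 309) (nat_lit 247) (nat_lit 164)))) (XT.nd (nat_lit 156) (nat_lit 0) (nat_lit 0) (XT.nd (nat_lit 78) (nat_lit 0) (nat_lit 0) (XT.lf (nat_lit 0) (nat_lit 10222318369) (nat_lit 76) (nat_lit 15613132570) (nat_lit 152) (nat_lit 26551578166) (nat_lit 7) (nat_lit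 5) (nat_lit 8) (nat_lit 5) (nat_lit 9) (nat_lit 4) (nat_lit 310) (nat_lit 247) (nat_lit 163)) (XT.lf (nat_lit 0) (nat_lit 19641790402) (nat_lit 76) (nat_lit 10805283380) (nat_lit 152) (nat_lit 24274199501) (nat_lit 7) (nat_lit 5) (nat_lit 8) (nat_lit 5) (nat_lit 9) (nat_lit 4) (nat_lit 311) (nat_lit 247) (nat_lit 162))) (XT.nd (nat_lit 78) (nat_lit 0) (nat_lit 0) (XT.lf (nat_lit 0) (nat_lit 29518971933) (nat_lit 76) (nat_lit 5762199597) (nat_lit 152) (nat_lit 21891486824) (nat_lit 7) (nat_lit 5) (nat_lit 8) (nat_lit 5) (nat_lit 9) (nat_lit 4) (nat_lit 312) (nat_lit 247) (nat_lit 161)) (XT.lf (nat_lit 0) (nat_lit 39877380061) (nat_lit 76) (nat_lit 471873878) (nat_lit 152) (nat_lit 19397767007) (nat_lit 7) (nat_lit 5) (nat_lit 8) (nat_lit 5) (nat_lit 9) (nat_lit 4) (nat_lit 313) (nat_lit 247) (nat_lit 160)))))) (XT.nd (nat_lit 624) (nat_lit 76) (nat_lit 0) (XT.nd (nat_lit 312) (nat_lit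 76) (nat_lit 0) (XT.nd (nat_lit 156) (nat_lit 76) (nat_lit 0) (XT.nd (nat_lit 78) (nat_lit 0) (nat_lit 0) (XT.lf (nat_lit 0) (nat_lit 45742674209) (nat_lit 152) (nat_lit 11788099169) (nat_lit 0) (nat_lit 4915752800) (nat_lit 7) (nat_lit 5) (nat_lit 9) (nat_lit 4) (nat_lit 7) (nat_lit 4) (nat_lit 314) (nat_lit 247) (nat_lit 159)) (XT.lf (nat_lit 0) (nat_lit 51406429094) (nat_lit 152) (nat_lit 3321974785) (nat_lit 0) (nat_lit 10552589804) (nat_lit 7) (nat_lit 5) (nat_lit 9) (nat_lit 4) (nat_lit 7) (nat_lit 4) (nat_lit 315) (nat_lit 247) (nat_lit 158))) (XT.nd (nat_lit 78) (nat_lit 0) (nat_lit 0) (XT.lf (nat_lit 0) (nat_lit 5739971929) (nat_lit 76) (nat_lit 51696281568) (nat_lit 76) (nat_lit 10816806202) (nat_lit 6) (nat_lit 4) (nat_lit 7) (nat_lit 5) (nat_lit 7) (nat_lit 4) (nat_lit 316) (nat_lit 247) (nat_lit 157)) (XT.lf (nat_lit 0) (nat_lit 15359329232) (nat_lit 76) (nat_lit 48457912570)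 (nat_lit 76) (nat_lit 7554021892) (nat_lit 6) (nat_lit 4) (nat_lit 7) (nat_lit 5) (nat_lit 7) (nat_lit 4) (nat_lit 317) (nat_lit 247) (nat_lit 156)))) (XT.nd (nat_lit 156) (nat_lit 76) (nat_lit 0) (XT.nd (nat_lit 78) (nat_lit 0) (nat_lit 0) (XT.lf (nat_lit 0) (nat_lit 25449160865) (nat_lit 76) (nat_lit 45061845732) (nat_lit 76) (nat_lit 4134702377) (nat_lit 6) (nat_lit 4) (nat_lit 7) (nat_lit 5) (nat_lit 7) (nat_lit 4) (nat_lit 318) (nat_lit 247) (nat_lit 155)) (XT.lf (nat_lit 0) (nat_lit 36033490237) (nat_lit 76) (nat_lit 41499995182) (nat_lit 76) (nat_lit 550706419) (nat_lit 6) (nat_lit 4) (nat_lit 7) (nat_lit 5) (nat_lit 7) (nat_lit 4) (nat_lit 319) (nat_lit 247) (nat_lit 154))) (XT.nd (nat_lit 78) (nat_lit 0) (nat_lit 0) (XT.lf (nat_lit 0) (nat_lit 3103871301) (nat_lit 152) (nat_lit 34607443458) (nat_lit 76) (nat_lit 43981081269) (nat_lit 5) (nat_lit 5) (nat_lit 7) (nat_lit 5)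 (nat_lit 6) (nat_lit 4) (nat_lit 320) (nat_lit 247) (nat_lit 153)) (XT.lf (nat_lit 0) (nat_lit 6917148358) (nat_lit 152) (nat_lit 26810312028) (nat_lit 76) (nat_lit 51753389101) (nat_lit 5) (nat_lit 5) (nat_lit 7) (nat_lit 5) (nat_lit 6) (nat_lit 4) (nat_lit 321) (nat_lit 247) (nat_lit 152))))) (XT.nd (nat_lit 312) (nat_lit 0) (nat_lit 0) (XT.nd (nat_lit 156) (nat_lit 76) (nat_lit 0) (XT.nd (nat_lit 78) (nat_lit 0) (nat_lit 0) (XT.lf (nat_lit 0) (nat_lit 10915830027) (nat_lit 152) (nat_lit 18632144641) (nat_lit 76) (nat_lit 59911027576) (nat_lit 5) (nat_lit 5) (nat_lit 7) (nat_lit 5) (nat_lit 6) (nat_lit 4) (nat_lit 322) (nat_lit 247) (nat_lit 151)) (XT.lf (nat_lit 0) (nat_lit 15109436979) (nat_lit 152) (nat_lit 10053469472) (nat_lit 76) (nat_lit 68473419643) (nat_lit 5) (nat_lit 5) (nat_lit 7) (nat_lit 5) (nat_lit 6) (nat_lit 4) (nat_lit 323) (nat_lit 247) (nat_lit 150))) (XT.nd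 (nat_lit 78) (nat_lit 76) (nat_lit 0) (XT.lf (nat_lit 0) (nat_lit 19507953991) (nat_lit 152) (nat_lit 1053861102) (nat_lit 76) (nat_lit 77460951950) (nat_lit 5) (nat_lit 5) (nat_lit 7) (nat_lit 5) (nat_lit 6) (nat_lit 4) (nat_lit 324) (nat_lit 247) (nat_lit 149)) (XT.lf (nat_lit 0) (nat_lit 8665456842) (nat_lit 76) (nat_lit 15591688948) (nat_lit 152) (nat_lit 78364858608) (nat_lit 4) (nat_lit 5) (nat_lit 5) (nat_lit 5) (nat_lit 6) (nat_lit 4) (nat_lit 325) (nat_lit 247) (nat_lit 148)))) (XT.nd (nat_lit 156) (nat_lit 0) (nat_lit 0) (XT.nd (nat_lit 78) (nat_lit 0) (nat_lit 0) (XT.lf (nat_lit 0) (nat_lit 18899831679) (nat_lit 76) (nat_lit 10357369313) (nat_lit 152) (nat_lit 78193343678) (nat_lit 4) (nat_lit 5) (nat_lit 5) (nat_lit 5) (nat_lit 6) (nat_lit 4) (nat_lit 326) (nat_lit 247) (nat_lit 147)) (XT.lf (nat_lit 0) (nat_lit 29638785560) (nat_lit 76) (nat_lit 4864241171) (nat_lit 152)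 (nat_lit 78017707544) (nat_lit 4) (nat_lit 5) (nat_lit 5) (nat_lit 5) (nat_lit 6) (nat_lit 4) (nat_lit 327) (nat_lit 247) (nat_lit 146))) (XT.nd (nat_lit 78) (nat_lit 0) (nat_lit 0) (XT.lf (nat_lit 0) (nat_lit 40021176680) (nat_lit 152) (nat_lit 76950821281) (nat_lit 0) (nat_lit 871943949) (nat_lit 4) (nat_lit 5) (nat_lit 6) (nat_lit 4) (nat_lit 4) (nat_lit 4) (nat_lit 328) (nat_lit 247) (nat_lit 145)) (XT.nd (nat_lit 78) (nat_lit 0) (nat_lit 0) (XT.lf (nat_lit 0) (nat_lit 45891095859) (nat_lit 152) (nat_lit 70809515524) (nat_lit 0) (nat_lit 6728915168) (nat_lit 4) (nat_lit 5) (nat_lit 6) (nat_lit 4) (nat_lit 4) (nat_lit 4) (nat_lit 329) (nat_lit 247) (nat_lit 144)) (XT.lf (nat_lit 0) (nat_lit 52050815831) (nat_lit 152) (nat_lit 64367464852) (nat_lit 0) (nat_lit 12876303748) (nat_lit 4) (nat_lit 5) (nat_lit 6) (nat_lit 4) (nat_lit 4) (nat_lit 4) (nat_lit 330) (nat_lit 247) (nat_lit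 143))))))))
noncomputable def xc115 : XT := (XT.nd (nat_lit 31590) (nat_lit 0) (nat_lit 1140) (XT.nd (nat_lit 1248) (nat_lit 0) (nat_lit 0) (XT.nd (nat_lit 624) (nat_lit 0) (nat_lit 0) (XT.nd (nat_lit 312) (nat_lit 76) (nat_lit 0) (XT.nd (nat_lit 156) (nat_lit 0) (nat_lit 0) (XT.nd (nat_lit 78) (nat_lit 0) (nat_lit 0) (XT.lf (nat_lit 0) (nat_lit 58515002594) (nat_lit 152) (nat_lit 57609331049) (nat_lit 0) (nat_lit 19328746329) (nat_lit 4) (nat_lit 5) (nat_lit 6) (nat_lit 4) (nat_lit 4) (nat_lit 4) (nat_lit 331) (nat_lit 247) (nat_lit 142)) (XT.lf (nat_lit 0) (nat_lit 65299047071) (nat_lit 152) (nat_lit 50519023321) (nat_lit 0) (nat_lit 26101605870) (nat_lit 4) (nat_lit 5) (nat_lit 6) (nat_lit 4) (nat_lit 4) (nat_lit 4) (nat_lit 332) (nat_lit 247) (nat_lit 141))) (XT.nd (nat_lit 78) (nat_lit 0) (nat_lit 0) (XT.lf (nat_lit 0) (nat_lit 72419101747) (nat_lit 152) (nat_lit 43079659982)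 (nat_lit 0) (nat_lit 33211008227) (nat_lit 4) (nat_lit 5) (nat_lit 6) (nat_lit 4) (nat_lit 4) (nat_lit 4) (nat_lit 333) (nat_lit 247) (nat_lit 140)) (XT.lf (nat_lit 0) (nat_lit 79892119134) (nat_lit 152) (nat_lit 35273528262) (nat_lit 0) (nat_lit 40673880548) (nat_lit 4) (nat_lit 5) (nat_lit 6) (nat_lit 4) (nat_lit 4) (nat_lit 4) (nat_lit 334) (nat_lit 247) (nat_lit 139)))) (XT.nd (nat_lit 156) (nat_lit 76) (nat_lit 0) (XT.nd (nat_lit 78) (nat_lit 0) (nat_lit 0) (XT.lf (nat_lit 0) (nat_lit 87735892131) (nat_lit 152) (nat_lit 27082042135) (nat_lit 0) (nat_lit 48507991577) (nat_lit 4) (nat_lit 5) (nat_lit 6) (nat_lit 4) (nat_lit 4) (nat_lit 4) (nat_lit 335) (nat_lit 247) (nat_lit 138)) (XT.lf (nat_lit 0) (nat_lit 95969096387) (nat_lit 152) (nat_lit 18485698060) (nat_lit 0) (nat_lit 56731993960) (nat_lit 4) (nat_lit 5) (nat_lit 6) (nat_lit 4) (nat_lit 4) (nat_lit 4) (nat_lit 336) (nat_lit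 247) (nat_lit 137))) (XT.nd (nat_lit 78) (nat_lit 76) (nat_lit 0) (XT.lf (nat_lit 0) (nat_lit 104611334770) (nat_lit 152) (nat_lit 9464028552) (nat_lit 0) (nat_lit 65365468653) (nat_lit 4) (nat_lit 5) (nat_lit 6) (nat_lit 4) (nat_lit 4) (nat_lit 4) (nat_lit 337) (nat_lit 247) (nat_lit 136)) (XT.lf (nat_lit 0) (nat_lit 4593576) (nat_lit 76) (nat_lit 113678662180) (nat_lit 76) (nat_lit 74424449692) (nat_lit 3) (nat_lit 4) (nat_lit 4) (nat_lit 5) (nat_lit 4) (nat_lit 4) (nat_lit 338) (nat_lit 247) (nat_lit 135))))) (XT.nd (nat_lit 312) (nat_lit 0) (nat_lit 0) (XT.nd (nat_lit 156) (nat_lit 0) (nat_lit 0) (XT.nd (nat_lit 78) (nat_lit 0) (nat_lit 0) (XT.lf (nat_lit 0) (nat_lit 10271007633) (nat_lit 76) (nat_lit 113095595412) (nat_lit 76) (nat_lit 73833433999) (nat_lit 3) (nat_lit 4) (nat_lit 4) (nat_lit 5) (nat_lit 4) (nat_lit 4) (nat_lit 339) (nat_lit 247) (nat_lit 134)) (XT.lf (nat_lit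 0) (nat_lit 21046733937) (nat_lit 76) (nat_lit 112485052666) (nat_lit 76) (nat_lit 73215320848) (nat_lit 3) (nat_lit 4) (nat_lit 4) (nat_lit 5) (nat_lit 4) (nat_lit 4) (nat_lit 340) (nat_lit 247) (nat_lit 133))) (XT.nd (nat_lit 78) (nat_lit 0) (nat_lit 0) (XT.lf (nat_lit 0) (nat_lit 32357428978) (nat_lit 76) (nat_lit 111845580270) (nat_lit 76) (nat_lit 72568638543) (nat_lit 3) (nat_lit 4) (nat_lit 4) (nat_lit 5) (nat_lit 4) (nat_lit 4) (nat_lit 341) (nat_lit 247) (nat_lit 132)) (XT.lf (nat_lit 0) (nat_lit 44230022984) (nat_lit 76) (nat_lit 111175655670) (nat_lit 76) (nat_lit 71891847363) (nat_lit 3) (nat_lit 4) (nat_lit 4) (nat_lit 5) (nat_lit 4) (nat_lit 4) (nat_lit 342) (nat_lit 247) (nat_lit 131)))) (XT.nd (nat_lit 156) (nat_lit 0) (nat_lit 0) (XT.nd (nat_lit 78) (nat_lit 0) (nat_lit 0) (XT.lf (nat_lit 0) (nat_lit 56692784035) (nat_lit 76) (nat_lit 110473683808) (nat_lit 76) (nat_lit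 71183335901) (nat_lit 3) (nat_lit 4) (nat_lit 4) (nat_lit 5) (nat_lit 4) (nat_lit 4) (nat_lit 343) (nat_lit 247) (nat_lit 130)) (XT.lf (nat_lit 0) (nat_lit 69775385371) (nat_lit 76) (nat_lit 109737993322) (nat_lit 76) (nat_lit 70441417224) (nat_lit 3) (nat_lit 4) (nat_lit 4) (nat_lit 5) (nat_lit 4) (nat_lit 4) (nat_lit 344) (nat_lit 247) (nat_lit 129))) (XT.nd (nat_lit 78) (nat_lit 0) (nat_lit 0) (XT.lf (nat_lit 0) (nat_lit 83508976044) (nat_lit 76) (nat_lit 108966832568) (nat_lit 76) (nat_lit 69664324860) (nat_lit 3) (nat_lit 4) (nat_lit 4) (nat_lit 5) (nat_lit 4) (nat_lit 4) (nat_lit 345) (nat_lit 247) (nat_lit 128)) (XT.lf (nat_lit 0) (nat_lit 97926255078) (nat_lit 76) (nat_lit 108158365449) (nat_lit 76) (nat_lit 68850208589) (nat_lit 3) (nat_lit 4) (nat_lit 4) (nat_lit 5) (nat_lit 4) (nat_lit 4) (nat_lit 346) (nat_lit 247) (nat_lit 127)))))) (XT.nd (nat_lit 624) (nat_lit 0) (nat_lit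 0) (XT.nd (nat_lit 312) (nat_lit 0) (nat_lit 0) (XT.nd (nat_lit 156) (nat_lit 0) (nat_lit 0) (XT.nd (nat_lit 78) (nat_lit 0) (nat_lit 0) (XT.lf (nat_lit 0) (nat_lit 113061549329) (nat_lit 76) (nat_lit 107310667043) (nat_lit 76) (nat_lit 67997130038) (nat_lit 3) (nat_lit 4) (nat_lit 4) (nat_lit 5) (nat_lit 4) (nat_lit 4) (nat_lit 347) (nat_lit 247) (nat_lit 126)) (XT.lf (nat_lit 0) (nat_lit 128950895212) (nat_lit 76) (nat_lit 106421719021) (nat_lit 76) (nat_lit 67103058068) (nat_lit 3) (nat_lit 4) (nat_lit 4) (nat_lit 5) (nat_lit 4) (nat_lit 4) (nat_lit 348) (nat_lit 247) (nat_lit 125))) (XT.nd (nat_lit 78) (nat_lit 0) (nat_lit 0) (XT.lf (nat_lit 0) (nat_lit 145632124502) (nat_lit 76) (nat_lit 105489404841) (nat_lit 76) (nat_lit 66165863937) (nat_lit 3) (nat_lit 4) (nat_lit 4) (nat_lit 5) (nat_lit 4) (nat_lit 4) (nat_lit 349) (nat_lit 247) (nat_lit 124)) (XT.lf (nat_lit 0) (nat_lit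 163144954412) (nat_lit 76) (nat_lit 104511504705) (nat_lit 76) (nat_lit 65183316230) (nat_lit 3) (nat_lit 4) (nat_lit 4) (nat_lit 5) (nat_lit 4) (nat_lit 4) (nat_lit 350) (nat_lit 247) (nat_lit 123)))) (XT.nd (nat_lit 156) (nat_lit 0) (nat_lit 0) (XT.nd (nat_lit 78) (nat_lit 0) (nat_lit 0) (XT.lf (nat_lit 0) (nat_lit 181531082156) (nat_lit 76) (nat_lit 103485690281) (nat_lit 76) (nat_lit 64153075547) (nat_lit 3) (nat_lit 4) (nat_lit 4) (nat_lit 5) (nat_lit 4) (nat_lit 4) (nat_lit 351) (nat_lit 247) (nat_lit 122)) (XT.lf (nat_lit 0) (nat_lit 200834284229) (nat_lit 76) (nat_lit 102409519153) (nat_lit 76) (nat_lit 63072688935) (nat_lit 3) (nat_lit 4) (nat_lit 4) (nat_lit 5) (nat_lit 4) (nat_lit 4) (nat_lit 352) (nat_lit 247) (nat_lit 121))) (XT.nd (nat_lit 78) (nat_lit 0) (nat_lit 0) (XT.lf (nat_lit 0) (nat_lit 221100520636) (nat_lit 76) (nat_lit 101280429009) (nat_lit 76) (nat_lit 61939584044)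 (nat_lit 3) (nat_lit 4) (nat_lit 4) (nat_lit 5) (nat_lit 4) (nat_lit 4) (nat_lit 353) (nat_lit 247) (nat_lit 120)) (XT.lf (nat_lit 0) (nat_lit 242378044320) (nat_lit 76) (nat_lit 100095731540) (nat_lit 76) (nat_lit 60751063005) (nat_lit 3) (nat_lit 4) (nat_lit 4) (nat_lit 5) (nat_lit 4) (nat_lit 4) (nat_lit 354) (nat_lit 247) (nat_lit 119))))) (XT.nd (nat_lit 29406) (nat_lit 0) (nat_lit 5472) (XT.nd (nat_lit 29250) (nat_lit 0) (nat_lit 5472) (XT.nd (nat_lit 29172) (nat_lit 0) (nat_lit 5928) (XT.lf (nat_lit 0) (nat_lit 264717516053) (nat_lit 76) (nat_lit 98852606036) (nat_lit 76) (nat_lit 59504296008) (nat_lit 3) (nat_lit 4) (nat_lit 4) (nat_lit 5) (nat_lit 4) (nat_lit 4) (nat_lit 355) (nat_lit 247) (nat_lit 118)) (XT.lf (nat_lit 0) (nat_lit 1407318319) (nat_lit 0) (nat_lit 1407318319) (nat_lit 380) (nat_lit 797968801) (nat_lit 81) (nat_lit 5) (nat_lit 81) (nat_lit 3) (nat_lit 86)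 (nat_lit 3) (nat_lit 248) (nat_lit 248) (nat_lit 224))) (XT.nd (nat_lit 78) (nat_lit 456) (nat_lit 0) (XT.lf (nat_lit 0) (nat_lit 5824511554) (nat_lit 0) (nat_lit 1306812815) (nat_lit 380) (nat_lit 195871275) (nat_lit 81) (nat_lit 5) (nat_lit 81) (nat_lit 3) (nat_lit 86) (nat_lit 3) (nat_lit 249) (nat_lit 248) (nat_lit 223)) (XT.lf (nat_lit 0) (nat_lit 1173809082) (nat_lit 456) (nat_lit 5910291850) (nat_lit 532) (nat_lit 352809348) (nat_lit 75) (nat_lit 5) (nat_lit 81) (nat_lit 5) (nat_lit 82) (nat_lit 5) (nat_lit 250) (nat_lit 248) (nat_lit 222)))) (XT.nd (nat_lit 156) (nat_lit 0) (nat_lit 0) (XT.nd (nat_lit 78) (nat_lit 0) (nat_lit 0) (XT.lf (nat_lit 0) (nat_lit 2567592245) (nat_lit 456) (nat_lit 2868251688) (nat_lit 532) (nat_lit 2118610361) (nat_lit 75) (nat_lit 5) (nat_lit 81) (nat_lit 5) (nat_lit 82) (nat_lit 5) (nat_lit 251) (nat_lit 248) (nat_lit 221)) (XT.lf (nat_lit 76)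 (nat_lit 285585286) (nat_lit 0) (nat_lit 3668902171) (nat_lit 532) (nat_lit 3727801915) (nat_lit 76) (nat_lit 5) (nat_lit 75) (nat_lit 5) (nat_lit 82) (nat_lit 5) (nat_lit 252) (nat_lit 248) (nat_lit 220))) (XT.nd (nat_lit 78) (nat_lit 0) (nat_lit 76) (XT.lf (nat_lit 76) (nat_lit 3648045133) (nat_lit 0) (nat_lit 1733320949) (nat_lit 532) (nat_lit 2437175342) (nat_lit 76) (nat_lit 5) (nat_lit 75) (nat_lit 5) (nat_lit 82) (nat_lit 5) (nat_lit 253) (nat_lit 248) (nat_lit 219)) (XT.lf (nat_lit 0) (nat_lit 6810467668) (nat_lit 456) (nat_lit 838655952) (nat_lit 532) (nat_lit 316469130) (nat_lit 76) (nat_lit 5) (nat_lit 82) (nat_lit 5) (nat_lit 83) (nat_lit 5) (nat_lit 254) (nat_lit 248) (nat_lit 218))))))) (XT.nd (nat_lit 1248) (nat_lit 1596) (nat_lit 0) (XT.nd (nat_lit 624) (nat_lit 1140) (nat_lit 0) (XT.nd (nat_lit 312) (nat_lit 1140) (nat_lit 0) (XT.nd (nat_lit 156) (nat_lit 0) (nat_lit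 0) (XT.nd (nat_lit 78) (nat_lit 0) (nat_lit 0) (XT.lf (nat_lit 0) (nat_lit 184217949) (nat_lit 532) (nat_lit 5455303694) (nat_lit 608) (nat_lit 2480841948) (nat_lit 69) (nat_lit 5) (nat_lit 76) (nat_lit 5) (nat_lit 77) (nat_lit 5) (nat_lit 255) (nat_lit 248) (nat_lit 217)) (XT.lf (nat_lit 0) (nat_lit 1496893139) (nat_lit 532) (nat_lit 1978798935) (nat_lit 608) (nat_lit 4809433208) (nat_lit 69) (nat_lit 5) (nat_lit 76) (nat_lit 5) (nat_lit 77) (nat_lit 5) (nat_lit 256) (nat_lit 248) (nat_lit 216))) (XT.nd (nat_lit 78) (nat_lit 0) (nat_lit 76) (XT.lf (nat_lit 76) (nat_lit 1677070084) (nat_lit 0) (nat_lit 1158362344) (nat_lit 608) (nat_lit 5625117657) (nat_lit 70) (nat_lit 5) (nat_lit 69) (nat_lit 5) (nat_lit 77) (nat_lit 5) (nat_lit 257) (nat_lit 248) (nat_lit 215)) (XT.lf (nat_lit 0) (nat_lit 4231564262) (nat_lit 532) (nat_lit 3130299087) (nat_lit 76) (nat_lit 1283765256) (nat_lit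 70) (nat_lit 5) (nat_lit 77) (nat_lit 5) (nat_lit 71) (nat_lit 5) (nat_lit 258) (nat_lit 248) (nat_lit 214)))) (XT.nd (nat_lit 156) (nat_lit 684) (nat_lit 0) (XT.nd (nat_lit 78) (nat_lit 0) (nat_lit 0) (XT.lf (nat_lit 0) (nat_lit 658870305) (nat_lit 532) (nat_lit 5007623557) (nat_lit 608) (nat_lit 3175413588) (nat_lit 63) (nat_lit 5) (nat_lit 70) (nat_lit 5) (nat_lit 71) (nat_lit 5) (nat_lit 259) (nat_lit 248) (nat_lit 213)) (XT.lf (nat_lit 0) (nat_lit 4698192696) (nat_lit 532) (nat_lit 2469826778) (nat_lit 608) (nat_lit 1880615391) (nat_lit 63) (nat_lit 5) (nat_lit 70) (nat_lit 5) (nat_lit 71) (nat_lit 5) (nat_lit 260) (nat_lit 248) (nat_lit 212))) (XT.nd (nat_lit 78) (nat_lit 684) (nat_lit 0) (XT.lf (nat_lit 0) (nat_lit 8692421158) (nat_lit 608) (nat_lit 378237493) (nat_lit 76) (nat_lit 198009155) (nat_lit 63) (nat_lit 5) (nat_lit 71) (nat_lit 5) (nat_lit 64) (nat_lit 5) (nat_lit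 261) (nat_lit 248) (nat_lit 211)) (XT.lf (nat_lit 0) (nat_lit 816040854) (nat_lit 684) (nat_lit 5682862612) (nat_lit 76) (nat_lit 2998100761) (nat_lit 54) (nat_lit 5) (nat_lit 63) (nat_lit 5) (nat_lit 55) (nat_lit 5) (nat_lit 262) (nat_lit 248) (nat_lit 210))))) (XT.nd (nat_lit 312) (nat_lit 380) (nat_lit 0) (XT.nd (nat_lit 156) (nat_lit 304) (nat_lit 0) (XT.nd (nat_lit 78) (nat_lit 456) (nat_lit 0) (XT.lf (nat_lit 0) (nat_lit 2213116107) (nat_lit 684) (nat_lit 1564639414) (nat_lit 76) (nat_lit 5961112909) (nat_lit 54) (nat_lit 5) (nat_lit 63) (nat_lit 5) (nat_lit 55) (nat_lit 5) (nat_lit 263) (nat_lit 248) (nat_lit 209)) (XT.lf (nat_lit 0) (nat_lit 2803587459) (nat_lit 456) (nat_lit 870732751) (nat_lit 532) (nat_lit 6319087346) (nat_lit 48) (nat_lit 5) (nat_lit 54) (nat_lit 5) (nat_lit 55) (nat_lit 5) (nat_lit 264) (nat_lit 248) (nat_lit 208))) (XT.nd (nat_lit 78) (nat_lit 304) (nat_lit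 0) (XT.lf (nat_lit 0) (nat_lit 5221783378) (nat_lit 532) (nat_lit 2896921211) (nat_lit 76) (nat_lit 2141590509) (nat_lit 48) (nat_lit 5) (nat_lit 55) (nat_lit 5) (nat_lit 49) (nat_lit 5) (nat_lit 265) (nat_lit 248) (nat_lit 207)) (XT.lf (nat_lit 0) (nat_lit 1602275943) (nat_lit 304) (nat_lit 5238115043) (nat_lit 380) (nat_lit 3700715466) (nat_lit 44) (nat_lit 5) (nat_lit 48) (nat_lit 5) (nat_lit 49) (nat_lit 5) (nat_lit 266) (nat_lit 248) (nat_lit 206)))) (XT.nd (nat_lit 156) (nat_lit 76) (nat_lit 0) (XT.nd (nat_lit 78) (nat_lit 304) (nat_lit 0) (XT.lf (nat_lit 0) (nat_lit 6382383847) (nat_lit 304) (nat_lit 2162557721) (nat_lit 380) (nat_lit 2291021413) (nat_lit 44) (nat_lit 5) (nat_lit 48) (nat_lit 5) (nat_lit 49) (nat_lit 5) (nat_lit 267) (nat_lit 248) (nat_lit 205)) (XT.lf (nat_lit 0) (nat_lit 200877980) (nat_lit 304) (nat_lit 10111674160) (nat_lit 380) (nat_lit 834361659) (nat_lit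 40) (nat_lit 5) (nat_lit 44) (nat_lit 5) (nat_lit 45) (nat_lit 5) (nat_lit 268) (nat_lit 248) (nat_lit 204))) (XT.nd (nat_lit 78) (nat_lit 0) (nat_lit 0) (XT.lf (nat_lit 0) (nat_lit 743454010) (nat_lit 380) (nat_lit 6320207689) (nat_lit 76) (nat_lit 4405899721) (nat_lit 39) (nat_lit 5) (nat_lit 44) (nat_lit 5) (nat_lit 40) (nat_lit 5) (nat_lit 269) (nat_lit 248) (nat_lit 203)) (XT.lf (nat_lit 0) (nat_lit 2332558277) (nat_lit 380) (nat_lit 1520291650) (nat_lit 76) (nat_lit 7956995687) (nat_lit 39) (nat_lit 5) (nat_lit 44) (nat_lit 5) (nat_lit 40) (nat_lit 5) (nat_lit 270) (nat_lit 248) (nat_lit 202)))))) (XT.nd (nat_lit 624) (nat_lit 608) (nat_lit 0) (XT.nd (nat_lit 312) (nat_lit 532) (nat_lit 0) (XT.nd (nat_lit 156) (nat_lit 228) (nat_lit 0) (XT.nd (nat_lit 78) (nat_lit 0) (nat_lit 0) (XT.lf (nat_lit 0) (nat_lit 3593171315) (nat_lit 228) (nat_lit 426367665) (nat_lit 304) (nat_lit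 8146883961) (nat_lit 36) (nat_lit 5) (nat_lit 39) (nat_lit 5) (nat_lit 40) (nat_lit 5) (nat_lit 271) (nat_lit 248) (nat_lit 201)) (XT.lf (nat_lit 0) (nat_lit 5829965354) (nat_lit 304) (nat_lit 3617124538) (nat_lit 76) (nat_lit 3091974875) (nat_lit 36) (nat_lit 5) (nat_lit 40) (nat_lit 5) (nat_lit 37) (nat_lit 5) (nat_lit 272) (nat_lit 248) (nat_lit 200))) (XT.nd (nat_lit 78) (nat_lit 0) (nat_lit 0) (XT.lf (nat_lit 0) (nat_lit 1590010348) (nat_lit 228) (nat_lit 6137871737) (nat_lit 304) (nat_lit 5202789539) (nat_lit 33) (nat_lit 5) (nat_lit 36) (nat_lit 5) (nat_lit 37) (nat_lit 5) (nat_lit 273) (nat_lit 248) (nat_lit 199)) (XT.lf (nat_lit 0) (nat_lit 7143037631) (nat_lit 228) (nat_lit 2605103776) (nat_lit 304) (nat_lit 3592517835) (nat_lit 33) (nat_lit 5) (nat_lit 36) (nat_lit 5) (nat_lit 37) (nat_lit 5) (nat_lit 274) (nat_lit 248) (nat_lit 198)))) (XT.nd (nat_lit 156) (nat_lit 304)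 (nat_lit 0) (XT.nd (nat_lit 78) (nat_lit 228) (nat_lit 0) (XT.lf (nat_lit 0) (nat_lit 11854361340) (nat_lit 304) (nat_lit 854489084) (nat_lit 76) (nat_lit 1063212964) (nat_lit 33) (nat_lit 5) (nat_lit 37) (nat_lit 5) (nat_lit 34) (nat_lit 5) (nat_lit 275) (nat_lit 248) (nat_lit 197)) (XT.lf (nat_lit 0) (nat_lit 4829753966) (nat_lit 228) (nat_lit 9323495092) (nat_lit 304) (nat_lit 67577537) (nat_lit 30) (nat_lit 5) (nat_lit 33) (nat_lit 5) (nat_lit 34) (nat_lit 5) (nat_lit 276) (nat_lit 248) (nat_lit 196))) (XT.nd (nat_lit 78) (nat_lit 228) (nat_lit 0) (XT.lf (nat_lit 0) (nat_lit 1799240240) (nat_lit 304) (nat_lit 3931402360) (nat_lit 76) (nat_lit 8960853724) (nat_lit 29) (nat_lit 5) (nat_lit 33) (nat_lit 5) (nat_lit 30) (nat_lit 5) (nat_lit 277) (nat_lit 248) (nat_lit 195)) (XT.lf (nat_lit 0) (nat_lit 1821823819) (nat_lit 228) (nat_lit 1934692608) (nat_lit 304) (nat_lit 11429293652)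 (nat_lit 26) (nat_lit 5) (nat_lit 29) (nat_lit 5) (nat_lit 30) (nat_lit 5) (nat_lit 278) (nat_lit 248) (nat_lit 194))))) (XT.nd (nat_lit 312) (nat_lit 456) (nat_lit 0) (XT.nd (nat_lit 156) (nat_lit 152) (nat_lit 0) (XT.nd (nat_lit 78) (nat_lit 0) (nat_lit 0) (XT.lf (nat_lit 0) (nat_lit 5882994681) (nat_lit 304) (nat_lit 7772881477) (nat_lit 76) (nat_lit 2045525363) (nat_lit 26) (nat_lit 5) (nat_lit 30) (nat_lit 5) (nat_lit 27) (nat_lit 5) (nat_lit 279) (nat_lit 248) (nat_lit 193)) (XT.lf (nat_lit 0) (nat_lit 8120507272) (nat_lit 304) (nat_lit 1969611529) (nat_lit 76) (nat_lit 6152540986) (nat_lit 26) (nat_lit 5) (nat_lit 30) (nat_lit 5) (nat_lit 27) (nat_lit 5) (nat_lit 280) (nat_lit 248) (nat_lit 192))) (XT.nd (nat_lit 78) (nat_lit 0) (nat_lit 0) (XT.lf (nat_lit 0) (nat_lit 4225075671) (nat_lit 152) (nat_lit 6285065239) (nat_lit 228) (nat_lit 6298944714) (nat_lit 24) (nat_lit 5)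 (nat_lit 26) (nat_lit 5) (nat_lit 27) (nat_lit 5) (nat_lit 281) (nat_lit 248) (nat_lit 191)) (XT.lf (nat_lit 0) (nat_lit 10764450633) (nat_lit 152) (nat_lit 2263144934) (nat_lit 228) (nat_lit 4375931579) (nat_lit 24) (nat_lit 5) (nat_lit 26) (nat_lit 5) (nat_lit 27) (nat_lit 5) (nat_lit 282) (nat_lit 248) (nat_lit 190)))) (XT.nd (nat_lit 156) (nat_lit 228) (nat_lit 0) (XT.nd (nat_lit 78) (nat_lit 228) (nat_lit 0) (XT.lf (nat_lit 0) (nat_lit 15677571285) (nat_lit 228) (nat_lit 460503077) (nat_lit 76) (nat_lit 1889390021) (nat_lit 24) (nat_lit 5) (nat_lit 27) (nat_lit 5) (nat_lit 25) (nat_lit 5) (nat_lit 283) (nat_lit 248) (nat_lit 189)) (XT.lf (nat_lit 0) (nat_lit 6155476172) (nat_lit 228) (nat_lit 12414964342) (nat_lit 304) (nat_lit 106739238) (nat_lit 21) (nat_lit 5) (nat_lit 24) (nat_lit 5) (nat_lit 25) (nat_lit 5) (nat_lit 284) (nat_lit 248) (nat_lit 188))) (XT.nd (nat_lit 78)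 (nat_lit 152) (nat_lit 0) (XT.lf (nat_lit 0) (nat_lit 2161866557) (nat_lit 304) (nat_lit 6307753067) (nat_lit 76) (nat_lit 10888834427) (nat_lit 20) (nat_lit 5) (nat_lit 24) (nat_lit 5) (nat_lit 21) (nat_lit 5) (nat_lit 285) (nat_lit 248) (nat_lit 187)) (XT.lf (nat_lit 0) (nat_lit 191001470) (nat_lit 152) (nat_lit 4330711253) (nat_lit 228) (nat_lit 15553009242) (nat_lit 18) (nat_lit 5) (nat_lit 20) (nat_lit 5) (nat_lit 21) (nat_lit 5) (nat_lit 286) (nat_lit 248) (nat_lit 186))))))))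
noncomputable def xc116 : XT := (XT.nd (nat_lit 1248) (nat_lit 380) (nat_lit 0) (XT.nd (nat_lit 624) (nat_lit 228) (nat_lit 0) (XT.nd (nat_lit 312) (nat_lit 152) (nat_lit 0) (XT.nd (nat_lit 156) (nat_lit 152) (nat_lit 0) (XT.nd (nat_lit 78) (nat_lit 0) (nat_lit 0) (XT.lf (nat_lit 0) (nat_lit 7087205350) (nat_lit 228) (nat_lit 13620531523) (nat_lit 76) (nat_lit 114766792) (nat_lit 18) (nat_lit 5) (nat_lit 21) (nat_lit 5) (nat_lit 19) (nat_lit 5) (nat_lit 287) (nat_lit 248) (nat_lit 185)) (XT.lf (nat_lit 0) (nat_lit 9831817072) (nat_lit 228) (nat_lit 7144479820) (nat_lit 76) (nat_lit 4628914478) (nat_lit 18) (nat_lit 5) (nat_lit 21) (nat_lit 5) (nat_lit 19) (nat_lit 5) (nat_lit 288) (nat_lit 248) (nat_lit 184))) (XT.nd (nat_lit 78) (nat_lit 152) (nat_lit 0) (XT.lf (nat_lit 0) (nat_lit 12694468138) (nat_lit 228) (nat_lit 372531675) (nat_lit 76) (nat_lit 9361089580) (nat_lit 18) (nat_lit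 5) (nat_lit 21) (nat_lit 5) (nat_lit 19) (nat_lit 5) (nat_lit 289) (nat_lit 248) (nat_lit 183)) (XT.lf (nat_lit 0) (nat_lit 6933347000) (nat_lit 152) (nat_lit 8856876362) (nat_lit 228) (nat_lit 7497461157) (nat_lit 16) (nat_lit 5) (nat_lit 18) (nat_lit 5) (nat_lit 19) (nat_lit 5) (nat_lit 290) (nat_lit 248) (nat_lit 182)))) (XT.nd (nat_lit 156) (nat_lit 152) (nat_lit 0) (XT.nd (nat_lit 78) (nat_lit 0) (nat_lit 0) (XT.lf (nat_lit 0) (nat_lit 14591304455) (nat_lit 152) (nat_lit 4437955624) (nat_lit 228) (nat_lit 5161643004) (nat_lit 16) (nat_lit 5) (nat_lit 18) (nat_lit 5) (nat_lit 19) (nat_lit 5) (nat_lit 291) (nat_lit 248) (nat_lit 181)) (XT.lf (nat_lit 0) (nat_lit 22416310191) (nat_lit 228) (nat_lit 2535968177) (nat_lit 76) (nat_lit 187766236) (nat_lit 16) (nat_lit 5) (nat_lit 19) (nat_lit 5) (nat_lit 17) (nat_lit 4) (nat_lit 292) (nat_lit 248) (nat_lit 180))) (XT.nd (nat_lit 78)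 (nat_lit 76) (nat_lit 0) (XT.lf (nat_lit 0) (nat_lit 4941789024) (nat_lit 76) (nat_lit 21164555341) (nat_lit 152) (nat_lit 23679270) (nat_lit 15) (nat_lit 5) (nat_lit 16) (nat_lit 5) (nat_lit 17) (nat_lit 4) (nat_lit 293) (nat_lit 248) (nat_lit 179)) (XT.lf (nat_lit 0) (nat_lit 2748853641) (nat_lit 152) (nat_lit 14355141185) (nat_lit 76) (nat_lit 10061995525) (nat_lit 14) (nat_lit 5) (nat_lit 16) (nat_lit 5) (nat_lit 15) (nat_lit 5) (nat_lit 294) (nat_lit 248) (nat_lit 178))))) (XT.nd (nat_lit 312) (nat_lit 76) (nat_lit 0) (XT.nd (nat_lit 156) (nat_lit 0) (nat_lit 0) (XT.nd (nat_lit 78) (nat_lit 152) (nat_lit 0) (XT.lf (nat_lit 0) (nat_lit 5643793392) (nat_lit 152) (nat_lit 7204273247) (nat_lit 76) (nat_lit 15406494123) (nat_lit 14) (nat_lit 5) (nat_lit 16) (nat_lit 5) (nat_lit 15) (nat_lit 5) (nat_lit 295) (nat_lit 248) (nat_lit 177)) (XT.lf (nat_lit 0) (nat_lit 291081195) (nat_lit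 152) (nat_lit 8382253979) (nat_lit 228) (nat_lit 20724782781) (nat_lit 12) (nat_lit 5) (nat_lit 14) (nat_lit 5) (nat_lit 15) (nat_lit 5) (nat_lit 296) (nat_lit 248) (nat_lit 176))) (XT.nd (nat_lit 78) (nat_lit 0) (nat_lit 0) (XT.lf (nat_lit 0) (nat_lit 8389307010) (nat_lit 152) (nat_lit 3572721166) (nat_lit 228) (nat_lit 18631489711) (nat_lit 12) (nat_lit 5) (nat_lit 14) (nat_lit 5) (nat_lit 15) (nat_lit 5) (nat_lit 297) (nat_lit 248) (nat_lit 175)) (XT.lf (nat_lit 0) (nat_lit 15424455097) (nat_lit 228) (nat_lit 15000887202) (nat_lit 76) (nat_lit 1422926827) (nat_lit 12) (nat_lit 5) (nat_lit 15) (nat_lit 5) (nat_lit 13) (nat_lit 4) (nat_lit 298) (nat_lit 248) (nat_lit 174)))) (XT.nd (nat_lit 156) (nat_lit 0) (nat_lit 0) (XT.nd (nat_lit 78) (nat_lit 76) (nat_lit 0) (XT.lf (nat_lit 0) (nat_lit 19105462712) (nat_lit 228) (nat_lit 7516517865) (nat_lit 76) (nat_lit 6541548449) (nat_lit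 12) (nat_lit 5) (nat_lit 15) (nat_lit 5) (nat_lit 13) (nat_lit 4) (nat_lit 299) (nat_lit 248) (nat_lit 173)) (XT.lf (nat_lit 0) (nat_lit 333160463) (nat_lit 76) (nat_lit 22630076243) (nat_lit 152) (nat_lit 11581721387) (nat_lit 11) (nat_lit 5) (nat_lit 12) (nat_lit 5) (nat_lit 13) (nat_lit 4) (nat_lit 300) (nat_lit 248) (nat_lit 172))) (XT.nd (nat_lit 78) (nat_lit 0) (nat_lit 0) (XT.lf (nat_lit 0) (nat_lit 8817022235) (nat_lit 76) (nat_lit 18311981355) (nat_lit 152) (nat_lit 8860739785) (nat_lit 11) (nat_lit 5) (nat_lit 12) (nat_lit 5) (nat_lit 13) (nat_lit 4) (nat_lit 301) (nat_lit 248) (nat_lit 171)) (XT.lf (nat_lit 0) (nat_lit 17706737095) (nat_lit 76) (nat_lit 13784710603) (nat_lit 152) (nat_lit 6015938847) (nat_lit 11) (nat_lit 5) (nat_lit 12) (nat_lit 5) (nat_lit 13) (nat_lit 4) (nat_lit 302) (nat_lit 248) (nat_lit 170)))))) (XT.nd (nat_lit 624) (nat_lit 76) (nat_lit 0) (XT.nd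 (nat_lit 312) (nat_lit 76) (nat_lit 0) (XT.nd (nat_lit 156) (nat_lit 152) (nat_lit 0) (XT.nd (nat_lit 78) (nat_lit 76) (nat_lit 0) (XT.lf (nat_lit 0) (nat_lit 27023471030) (nat_lit 76) (nat_lit 9037484773) (nat_lit 152) (nat_lit 3040545237) (nat_lit 11) (nat_lit 5) (nat_lit 12) (nat_lit 5) (nat_lit 13) (nat_lit 4) (nat_lit 303) (nat_lit 248) (nat_lit 169)) (XT.lf (nat_lit 0) (nat_lit 70204050) (nat_lit 152) (nat_lit 3987607953) (nat_lit 76) (nat_lit 36718013751) (nat_lit 10) (nat_lit 5) (nat_lit 12) (nat_lit 5) (nat_lit 11) (nat_lit 5) (nat_lit 304) (nat_lit 248) (nat_lit 168))) (XT.nd (nat_lit 78) (nat_lit 0) (nat_lit 0) (XT.lf (nat_lit 0) (nat_lit 3315893836) (nat_lit 228) (nat_lit 37960386897) (nat_lit 76) (nat_lit 1251045776) (nat_lit 8) (nat_lit 5) (nat_lit 11) (nat_lit 5) (nat_lit 9) (nat_lit 4) (nat_lit 305) (nat_lit 248) (nat_lit 167)) (XT.lf (nat_lit 0) (nat_lit 6848947236)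 (nat_lit 228) (nat_lit 30759385893) (nat_lit 76) (nat_lit 6751845041) (nat_lit 8) (nat_lit 5) (nat_lit 11) (nat_lit 5) (nat_lit 9) (nat_lit 4) (nat_lit 306) (nat_lit 248) (nat_lit 166)))) (XT.nd (nat_lit 156) (nat_lit 76) (nat_lit 0) (XT.nd (nat_lit 78) (nat_lit 0) (nat_lit 0) (XT.lf (nat_lit 0) (nat_lit 10549051844) (nat_lit 228) (nat_lit 23213941417) (nat_lit 76) (nat_lit 12522187636) (nat_lit 8) (nat_lit 5) (nat_lit 11) (nat_lit 5) (nat_lit 9) (nat_lit 4) (nat_lit 307) (nat_lit 248) (nat_lit 165)) (XT.lf (nat_lit 0) (nat_lit 14425017432) (nat_lit 228) (nat_lit 15306088123) (nat_lit 76) (nat_lit 18575812471) (nat_lit 8) (nat_lit 5) (nat_lit 11) (nat_lit 5) (nat_lit 9) (nat_lit 4) (nat_lit 308) (nat_lit 248) (nat_lit 164))) (XT.nd (nat_lit 78) (nat_lit 76) (nat_lit 0) (XT.lf (nat_lit 0) (nat_lit 18486072489) (nat_lit 228) (nat_lit 7016997790) (nat_lit 76) (nat_lit 24927132939) (nat_lit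 8) (nat_lit 5) (nat_lit 11) (nat_lit 5) (nat_lit 9) (nat_lit 4) (nat_lit 309) (nat_lit 248) (nat_lit 163)) (XT.lf (nat_lit 0) (nat_lit 1728384612) (nat_lit 76) (nat_lit 21040486510) (nat_lit 152) (nat_lit 29889871546) (nat_lit 7) (nat_lit 5) (nat_lit 8) (nat_lit 5) (nat_lit 9) (nat_lit 4) (nat_lit 310) (nat_lit 248) (nat_lit 162))))) (XT.nd (nat_lit 312) (nat_lit 76) (nat_lit 0) (XT.nd (nat_lit 156) (nat_lit 0) (nat_lit 0) (XT.nd (nat_lit 78) (nat_lit 0) (nat_lit 0) (XT.lf (nat_lit 0) (nat_lit 11141386351) (nat_lit 76) (nat_lit 16235153352) (nat_lit 152) (nat_lit 27616656257) (nat_lit 7) (nat_lit 5) (nat_lit 8) (nat_lit 5) (nat_lit 9) (nat_lit 4) (nat_lit 311) (nat_lit 248) (nat_lit 161)) (XT.lf (nat_lit 0) (nat_lit 21012405697) (nat_lit 76) (nat_lit 11194465790) (nat_lit 152) (nat_lit 25237908699) (nat_lit 7) (nat_lit 5) (nat_lit 8) (nat_lit 5) (nat_lit 9) (nat_lit 4) (nat_lit 312)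 (nat_lit 248) (nat_lit 160))) (XT.nd (nat_lit 78) (nat_lit 0) (nat_lit 0) (XT.lf (nat_lit 0) (nat_lit 31364945077) (nat_lit 76) (nat_lit 5906422188) (nat_lit 152) (nat_lit 22747965186) (nat_lit 7) (nat_lit 5) (nat_lit 8) (nat_lit 5) (nat_lit 9) (nat_lit 4) (nat_lit 313) (nat_lit 248) (nat_lit 159)) (XT.lf (nat_lit 0) (nat_lit 42223653395) (nat_lit 76) (nat_lit 358431964) (nat_lit 152) (nat_lit 20140897282) (nat_lit 7) (nat_lit 5) (nat_lit 8) (nat_lit 5) (nat_lit 9) (nat_lit 4) (nat_lit 314) (nat_lit 248) (nat_lit 158)))) (XT.nd (nat_lit 156) (nat_lit 76) (nat_lit 0) (XT.nd (nat_lit 78) (nat_lit 0) (nat_lit 0) (XT.lf (nat_lit 0) (nat_lit 48236958617) (nat_lit 152) (nat_lit 12033071582) (nat_lit 0) (nat_lit 5287873405) (nat_lit 7) (nat_lit 5) (nat_lit 9) (nat_lit 4) (nat_lit 7) (nat_lit 4) (nat_lit 315) (nat_lit 248) (nat_lit 157)) (XT.lf (nat_lit 0) (nat_lit 54174036927) (nat_lit 152)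 (nat_lit 3160042527) (nat_lit 0) (nat_lit 11200536404) (nat_lit 7) (nat_lit 5) (nat_lit 9) (nat_lit 4) (nat_lit 7) (nat_lit 4) (nat_lit 316) (nat_lit 248) (nat_lit 156))) (XT.nd (nat_lit 78) (nat_lit 0) (nat_lit 0) (XT.lf (nat_lit 0) (nat_lit 6349710700) (nat_lit 76) (nat_lit 54151286140) (nat_lit 76) (nat_lit 11154532940) (nat_lit 6) (nat_lit 4) (nat_lit 7) (nat_lit 5) (nat_lit 7) (nat_lit 4) (nat_lit 317) (nat_lit 248) (nat_lit 155)) (XT.lf (nat_lit 0) (nat_lit 16434667288) (nat_lit 76) (nat_lit 50757180097) (nat_lit 76) (nat_lit 7738281489) (nat_lit 6) (nat_lit 4) (nat_lit 7) (nat_lit 5) (nat_lit 7) (nat_lit 4) (nat_lit 318) (nat_lit 248) (nat_lit 154)))))))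
noncomputable def xc117 : XT := (XT.nd (nat_lit 1248) (nat_lit 76) (nat_lit 0) (XT.nd (nat_lit 624) (nat_lit 0) (nat_lit 0) (XT.nd (nat_lit 312) (nat_lit 76) (nat_lit 0) (XT.nd (nat_lit 156) (nat_lit 76) (nat_lit 0) (XT.nd (nat_lit 78) (nat_lit 0) (nat_lit 0) (XT.lf (nat_lit 0) (nat_lit 27014353760) (nat_lit 76) (nat_lit 47197196970) (nat_lit 76) (nat_lit 4157207499) (nat_lit 6) (nat_lit 4) (nat_lit 7) (nat_lit 5) (nat_lit 7) (nat_lit 4) (nat_lit 319) (nat_lit 248) (nat_lit 153)) (XT.lf (nat_lit 0) (nat_lit 38113959846) (nat_lit 76) (nat_lit 43462860609) (nat_lit 76) (nat_lit 402784600) (nat_lit 6) (nat_lit 4) (nat_lit 7) (nat_lit 5) (nat_lit 7) (nat_lit 4) (nat_lit 320) (nat_lit 248) (nat_lit 152))) (XT.nd (nat_lit 78) (nat_lit 0) (nat_lit 0) (XT.lf (nat_lit 0) (nat_lit 3420818595) (nat_lit 152) (nat_lit 36066527922) (nat_lit 76) (nat_lit 46281161365) (nat_lit 5) (nat_lit 5) (nat_lit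 7) (nat_lit 5) (nat_lit 6) (nat_lit 4) (nat_lit 321) (nat_lit 248) (nat_lit 151)) (XT.lf (nat_lit 0) (nat_lit 7417056947) (nat_lit 152) (nat_lit 27892458382) (nat_lit 76) (nat_lit 54437273825) (nat_lit 5) (nat_lit 5) (nat_lit 7) (nat_lit 5) (nat_lit 6) (nat_lit 4) (nat_lit 322) (nat_lit 248) (nat_lit 150)))) (XT.nd (nat_lit 156) (nat_lit 76) (nat_lit 0) (XT.nd (nat_lit 78) (nat_lit 0) (nat_lit 0) (XT.lf (nat_lit 0) (nat_lit 11608336930) (nat_lit 152) (nat_lit 19317685924) (nat_lit 76) (nat_lit 62998212544) (nat_lit 5) (nat_lit 5) (nat_lit 7) (nat_lit 5) (nat_lit 6) (nat_lit 4) (nat_lit 323) (nat_lit 248) (nat_lit 149)) (XT.lf (nat_lit 0) (nat_lit 16004637781) (nat_lit 152) (nat_lit 10321794422) (nat_lit 76) (nat_lit 71984360710) (nat_lit 5) (nat_lit 5) (nat_lit 7) (nat_lit 5) (nat_lit 6) (nat_lit 4) (nat_lit 324) (nat_lit 248) (nat_lit 148))) (XT.nd (nat_lit 78) (nat_lit 76) (nat_lit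 0) (XT.lf (nat_lit 0) (nat_lit 20616426885) (nat_lit 152) (nat_lit 883365087) (nat_lit 76) (nat_lit 81417113915) (nat_lit 5) (nat_lit 5) (nat_lit 7) (nat_lit 5) (nat_lit 6) (nat_lit 4) (nat_lit 325) (nat_lit 248) (nat_lit 147)) (XT.lf (nat_lit 0) (nat_lit 9318318930) (nat_lit 76) (nat_lit 16281850833) (nat_lit 152) (nat_lit 82146097235) (nat_lit 4) (nat_lit 5) (nat_lit 5) (nat_lit 5) (nat_lit 6) (nat_lit 4) (nat_lit 326) (nat_lit 248) (nat_lit 146))))) (XT.nd (nat_lit 312) (nat_lit 0) (nat_lit 0) (XT.nd (nat_lit 156) (nat_lit 0) (nat_lit 0) (XT.nd (nat_lit 78) (nat_lit 0) (nat_lit 0) (XT.lf (nat_lit 0) (nat_lit 20053955878) (nat_lit 76) (nat_lit 10790073433) (nat_lit 152) (nat_lit 81972530574) (nat_lit 4) (nat_lit 5) (nat_lit 5) (nat_lit 5) (nat_lit 6) (nat_lit 4) (nat_lit 327) (nat_lit 248) (nat_lit 145)) (XT.lf (nat_lit 0) (nat_lit 31319898757) (nat_lit 76) (nat_lit 5026344329)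 (nat_lit 152) (nat_lit 81794325980) (nat_lit 4) (nat_lit 5) (nat_lit 5) (nat_lit 5) (nat_lit 6) (nat_lit 4) (nat_lit 328) (nat_lit 248) (nat_lit 144))) (XT.nd (nat_lit 78) (nat_lit 0) (nat_lit 0) (XT.lf (nat_lit 0) (nat_lit 42135884424) (nat_lit 152) (nat_lit 80603972340) (nat_lit 0) (nat_lit 990315346) (nat_lit 4) (nat_lit 5) (nat_lit 6) (nat_lit 4) (nat_lit 4) (nat_lit 4) (nat_lit 329) (nat_lit 248) (nat_lit 143)) (XT.lf (nat_lit 0) (nat_lit 48293887710) (nat_lit 152) (nat_lit 74164857962) (nat_lit 0) (nat_lit 7136574449) (nat_lit 4) (nat_lit 5) (nat_lit 6) (nat_lit 4) (nat_lit 4) (nat_lit 4) (nat_lit 330) (nat_lit 248) (nat_lit 142)))) (XT.nd (nat_lit 156) (nat_lit 0) (nat_lit 0) (XT.nd (nat_lit 78) (nat_lit 0) (nat_lit 0) (XT.lf (nat_lit 0) (nat_lit 54756439534) (nat_lit 152) (nat_lit 67409520630) (nat_lit 0) (nat_lit 13587941338) (nat_lit 4) (nat_lit 5) (nat_lit 6) (nat_lit 4)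 (nat_lit 4) (nat_lit 4) (nat_lit 331) (nat_lit 248) (nat_lit 141)) (XT.lf (nat_lit 0) (nat_lit 61538926926) (nat_lit 152) (nat_lit 60321876207) (nat_lit 0) (nat_lit 20359776411) (nat_lit 4) (nat_lit 5) (nat_lit 6) (nat_lit 4) (nat_lit 4) (nat_lit 4) (nat_lit 332) (nat_lit 248) (nat_lit 140))) (XT.nd (nat_lit 78) (nat_lit 0) (nat_lit 0) (XT.lf (nat_lit 0) (nat_lit 68657498664) (nat_lit 152) (nat_lit 52885049349) (nat_lit 0) (nat_lit 27468203083) (nat_lit 4) (nat_lit 5) (nat_lit 6) (nat_lit 4) (nat_lit 4) (nat_lit 4) (nat_lit 333) (nat_lit 248) (nat_lit 139)) (XT.lf (nat_lit 0) (nat_lit 76129103729) (nat_lit 152) (nat_lit 45081333326) (nat_lit 0) (nat_lit 34930146180) (nat_lit 4) (nat_lit 5) (nat_lit 6) (nat_lit 4) (nat_lit 4) (nat_lit 4) (nat_lit 334) (nat_lit 248) (nat_lit 138)))))) (XT.nd (nat_lit 624) (nat_lit 0) (nat_lit 0) (XT.nd (nat_lit 312) (nat_lit 76) (nat_lit 0) (XT.nd (nat_lit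 156) (nat_lit 0) (nat_lit 0) (XT.nd (nat_lit 78) (nat_lit 0) (nat_lit 0) (XT.lf (nat_lit 0) (nat_lit 83971531658) (nat_lit 152) (nat_lit 36892147861) (nat_lit 0) (nat_lit 42763372235) (nat_lit 4) (nat_lit 5) (nat_lit 6) (nat_lit 4) (nat_lit 4) (nat_lit 4) (nat_lit 335) (nat_lit 248) (nat_lit 137)) (XT.lf (nat_lit 0) (nat_lit 92203454896) (nat_lit 152) (nat_lit 28297994894) (nat_lit 0) (nat_lit 50986531784) (nat_lit 4) (nat_lit 5) (nat_lit 6) (nat_lit 4) (nat_lit 4) (nat_lit 4) (nat_lit 336) (nat_lit 248) (nat_lit 136))) (XT.nd (nat_lit 78) (nat_lit 0) (nat_lit 0) (XT.lf (nat_lit 0) (nat_lit 100844473263) (nat_lit 152) (nat_lit 19278412156) (nat_lit 0) (nat_lit 59619203779) (nat_lit 4) (nat_lit 5) (nat_lit 6) (nat_lit 4) (nat_lit 4) (nat_lit 4) (nat_lit 337) (nat_lit 248) (nat_lit 135)) (XT.lf (nat_lit 0) (nat_lit 109915160610) (nat_lit 152) (nat_lit 9811924450) (nat_lit 0) (nat_lit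 68681942201) (nat_lit 4) (nat_lit 5) (nat_lit 6) (nat_lit 4) (nat_lit 4) (nat_lit 4) (nat_lit 338) (nat_lit 248) (nat_lit 134)))) (XT.nd (nat_lit 156) (nat_lit 0) (nat_lit 0) (XT.nd (nat_lit 78) (nat_lit 0) (nat_lit 0) (XT.lf (nat_lit 0) (nat_lit 128107728) (nat_lit 76) (nat_lit 119311006205) (nat_lit 76) (nat_lit 78070217392) (nat_lit 3) (nat_lit 4) (nat_lit 4) (nat_lit 5) (nat_lit 4) (nat_lit 4) (nat_lit 339) (nat_lit 248) (nat_lit 133)) (XT.lf (nat_lit 0) (nat_lit 10901971799) (nat_lit 76) (nat_lit 118701242721) (nat_lit 76) (nat_lit 77453243999) (nat_lit 3) (nat_lit 4) (nat_lit 4) (nat_lit 5) (nat_lit 4) (nat_lit 4) (nat_lit 340) (nat_lit 248) (nat_lit 132))) (XT.nd (nat_lit 78) (nat_lit 0) (nat_lit 0) (XT.lf (nat_lit 0) (nat_lit 22210893285) (nat_lit 76) (nat_lit 118062512479) (nat_lit 76) (nat_lit 76807647177) (nat_lit 3) (nat_lit 4) (nat_lit 4) (nat_lit 5) (nat_lit 4) (nat_lit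 4) (nat_lit 341) (nat_lit 248) (nat_lit 131)) (XT.lf (nat_lit 0) (nat_lit 34081798191) (nat_lit 76) (nat_lit 117393294693) (nat_lit 76) (nat_lit 76131889790) (nat_lit 3) (nat_lit 4) (nat_lit 4) (nat_lit 5) (nat_lit 4) (nat_lit 4) (nat_lit 342) (nat_lit 248) (nat_lit 130))))) (XT.nd (nat_lit 312) (nat_lit 0) (nat_lit 0) (XT.nd (nat_lit 156) (nat_lit 0) (nat_lit 0) (XT.nd (nat_lit 78) (nat_lit 0) (nat_lit 0) (XT.lf (nat_lit 0) (nat_lit 46542950575) (nat_lit 76) (nat_lit 116691995986) (nat_lit 76) (nat_lit 75424362893) (nat_lit 3) (nat_lit 4) (nat_lit 4) (nat_lit 5) (nat_lit 4) (nat_lit 4) (nat_lit 343) (nat_lit 248) (nat_lit 129)) (XT.lf (nat_lit 0) (nat_lit 59624019847) (nat_lit 76) (nat_lit 115956946601) (nat_lit 76) (nat_lit 74683381898) (nat_lit 3) (nat_lit 4) (nat_lit 4) (nat_lit 5) (nat_lit 4) (nat_lit 4) (nat_lit 344) (nat_lit 248) (nat_lit 128))) (XT.nd (nat_lit 78) (nat_lit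 0) (nat_lit 0) (XT.lf (nat_lit 0) (nat_lit 73356151412) (nat_lit 76) (nat_lit 115186396419) (nat_lit 76) (nat_lit 73907182563) (nat_lit 3) (nat_lit 4) (nat_lit 4) (nat_lit 5) (nat_lit 4) (nat_lit 4) (nat_lit 345) (nat_lit 248) (nat_lit 127)) (XT.lf (nat_lit 0) (nat_lit 87772040819) (nat_lit 76) (nat_lit 114378510797) (nat_lit 76) (nat_lit 73093916796) (nat_lit 3) (nat_lit 4) (nat_lit 4) (nat_lit 5) (nat_lit 4) (nat_lit 4) (nat_lit 346) (nat_lit 248) (nat_lit 126)))) (XT.nd (nat_lit 156) (nat_lit 0) (nat_lit 0) (XT.nd (nat_lit 78) (nat_lit 0) (nat_lit 0) (XT.lf (nat_lit 0) (nat_lit 102906011616) (nat_lit 76) (nat_lit 113531366198) (nat_lit 76) (nat_lit 72241648250) (nat_lit 3) (nat_lit 4) (nat_lit 4) (nat_lit 5) (nat_lit 4) (nat_lit 4) (nat_lit 347) (nat_lit 248) (nat_lit 125)) (XT.lf (nat_lit 0) (nat_lit 118794097066) (nat_lit 76) (nat_lit 112642945611) (nat_lit 76) (nat_lit 71348347713)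 (nat_lit 3) (nat_lit 4) (nat_lit 4) (nat_lit 5) (nat_lit 4) (nat_lit 4) (nat_lit 348) (nat_lit 248) (nat_lit 124))) (XT.nd (nat_lit 78) (nat_lit 0) (nat_lit 0) (XT.lf (nat_lit 0) (nat_lit 135474125944) (nat_lit 76) (nat_lit 111711133750) (nat_lit 76) (nat_lit 70411888279) (nat_lit 3) (nat_lit 4) (nat_lit 4) (nat_lit 5) (nat_lit 4) (nat_lit 4) (nat_lit 349) (nat_lit 248) (nat_lit 123)) (XT.nd (nat_lit 78) (nat_lit 0) (nat_lit 0) (XT.lf (nat_lit 0) (nat_lit 152985812605) (nat_lit 76) (nat_lit 110733712013) (nat_lit 76) (nat_lit 69430040284) (nat_lit 3) (nat_lit 4) (nat_lit 4) (nat_lit 5) (nat_lit 4) (nat_lit 4) (nat_lit 350) (nat_lit 248) (nat_lit 122)) (XT.lf (nat_lit 0) (nat_lit 171370851540) (nat_lit 76) (nat_lit 109708353207) (nat_lit 76) (nat_lit 68400465994) (nat_lit 3) (nat_lit 4) (nat_lit 4) (nat_lit 5) (nat_lit 4) (nat_lit 4) (nat_lit 351) (nat_lit 248) (nat_lit 121))))))))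
noncomputable def xc118 : XT := (XT.nd (nat_lit 30498) (nat_lit 0) (nat_lit 1976) (XT.nd (nat_lit 29874) (nat_lit 0) (nat_lit 4560) (XT.nd (nat_lit 29562) (nat_lit 0) (nat_lit 5396) (XT.nd (nat_lit 156) (nat_lit 0) (nat_lit 0) (XT.nd (nat_lit 78) (nat_lit 0) (nat_lit 0) (XT.lf (nat_lit 0) (nat_lit 190673016653) (nat_lit 76) (nat_lit 108632616002) (nat_lit 76) (nat_lit 67320714041) (nat_lit 3) (nat_lit 4) (nat_lit 4) (nat_lit 5) (nat_lit 4) (nat_lit 4) (nat_lit 352) (nat_lit 248) (nat_lit 120)) (XT.lf (nat_lit 0) (nat_lit 210938265477) (nat_lit 76) (nat_lit 107503939117) (nat_lit 76) (nat_lit 66188213588) (nat_lit 3) (nat_lit 4) (nat_lit 4) (nat_lit 5) (nat_lit 4) (nat_lit 4) (nat_lit 353) (nat_lit 248) (nat_lit 119))) (XT.nd (nat_lit 29328) (nat_lit 0) (nat_lit 5396) (XT.lf (nat_lit 0) (nat_lit 232214848607) (nat_lit 76) (nat_lit 106319635228) (nat_lit 76) (nat_lit 65000268204) (nat_lit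 3) (nat_lit 4) (nat_lit 4) (nat_lit 5) (nat_lit 4) (nat_lit 4) (nat_lit 354) (nat_lit 248) (nat_lit 118)) (XT.lf (nat_lit 0) (nat_lit 561064319) (nat_lit 532) (nat_lit 1577150645) (nat_lit 532) (nat_lit 1577150645) (nat_lit 74) (nat_lit 3) (nat_lit 81) (nat_lit 3) (nat_lit 81) (nat_lit 5) (nat_lit 249) (nat_lit 249) (nat_lit 222)))) (XT.nd (nat_lit 156) (nat_lit 0) (nat_lit 76) (XT.nd (nat_lit 78) (nat_lit 0) (nat_lit 0) (XT.lf (nat_lit 0) (nat_lit 2414469295) (nat_lit 532) (nat_lit 193046576) (nat_lit 532) (nat_lit 4936630251) (nat_lit 74) (nat_lit 3) (nat_lit 81) (nat_lit 3) (nat_lit 81) (nat_lit 5) (nat_lit 250) (nat_lit 249) (nat_lit 221)) (XT.lf (nat_lit 76) (nat_lit 2968500578) (nat_lit 0) (nat_lit 768342831) (nat_lit 532) (nat_lit 3928702549) (nat_lit 75) (nat_lit 5) (nat_lit 74) (nat_lit 3) (nat_lit 81) (nat_lit 5) (nat_lit 251) (nat_lit 249) (nat_lit 220))) (XT.nd (nat_lit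 78) (nat_lit 0) (nat_lit 0) (XT.lf (nat_lit 0) (nat_lit 5069636512) (nat_lit 456) (nat_lit 1563324227) (nat_lit 532) (nat_lit 1163397185) (nat_lit 75) (nat_lit 5) (nat_lit 81) (nat_lit 5) (nat_lit 82) (nat_lit 5) (nat_lit 252) (nat_lit 249) (nat_lit 219)) (XT.lf (nat_lit 76) (nat_lit 1724844272) (nat_lit 0) (nat_lit 4710248488) (nat_lit 532) (nat_lit 1500847174) (nat_lit 76) (nat_lit 5) (nat_lit 75) (nat_lit 5) (nat_lit 82) (nat_lit 5) (nat_lit 253) (nat_lit 249) (nat_lit 218))))) (XT.nd (nat_lit 312) (nat_lit 380) (nat_lit 0) (XT.nd (nat_lit 156) (nat_lit 0) (nat_lit 76) (XT.nd (nat_lit 78) (nat_lit 532) (nat_lit 0) (XT.lf (nat_lit 76) (nat_lit 5187570935) (nat_lit 0) (nat_lit 2637035767) (nat_lit 532) (nat_lit 260610455) (nat_lit 76) (nat_lit 5) (nat_lit 75) (nat_lit 5) (nat_lit 82) (nat_lit 5) (nat_lit 254) (nat_lit 249) (nat_lit 217)) (XT.lf (nat_lit 76) (nat_lit 537660840) (nat_lit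 0) (nat_lit 410138614) (nat_lit 608) (nat_lit 7296828999) (nat_lit 69) (nat_lit 5) (nat_lit 68) (nat_lit 5) (nat_lit 76) (nat_lit 5) (nat_lit 255) (nat_lit 249) (nat_lit 216))) (XT.nd (nat_lit 78) (nat_lit 0) (nat_lit 0) (XT.lf (nat_lit 0) (nat_lit 2221898829) (nat_lit 532) (nat_lit 4247541243) (nat_lit 608) (nat_lit 1942091811) (nat_lit 69) (nat_lit 5) (nat_lit 76) (nat_lit 5) (nat_lit 77) (nat_lit 5) (nat_lit 256) (nat_lit 249) (nat_lit 215)) (XT.lf (nat_lit 0) (nat_lit 3503613971) (nat_lit 532) (nat_lit 667712562) (nat_lit 608) (nat_lit 4418674169) (nat_lit 69) (nat_lit 5) (nat_lit 76) (nat_lit 5) (nat_lit 77) (nat_lit 5) (nat_lit 257) (nat_lit 249) (nat_lit 214)))) (XT.nd (nat_lit 156) (nat_lit 456) (nat_lit 0) (XT.nd (nat_lit 78) (nat_lit 0) (nat_lit 76) (XT.lf (nat_lit 76) (nat_lit 3148207547) (nat_lit 0) (nat_lit 1690537963) (nat_lit 608) (nat_lit 3939576876) (nat_lit 70) (nat_lit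 5) (nat_lit 69) (nat_lit 5) (nat_lit 77) (nat_lit 5) (nat_lit 258) (nat_lit 249) (nat_lit 213)) (XT.lf (nat_lit 0) (nat_lit 6208987211) (nat_lit 532) (nat_lit 1858296279) (nat_lit 76) (nat_lit 910736090) (nat_lit 70) (nat_lit 5) (nat_lit 77) (nat_lit 5) (nat_lit 71) (nat_lit 5) (nat_lit 259) (nat_lit 249) (nat_lit 212))) (XT.nd (nat_lit 78) (nat_lit 0) (nat_lit 0) (XT.lf (nat_lit 0) (nat_lit 2097290975) (nat_lit 532) (nat_lit 5556227910) (nat_lit 608) (nat_lit 1534253000) (nat_lit 63) (nat_lit 5) (nat_lit 70) (nat_lit 5) (nat_lit 71) (nat_lit 5) (nat_lit 260) (nat_lit 249) (nat_lit 211)) (XT.lf (nat_lit 0) (nat_lit 6271652002) (nat_lit 532) (nat_lit 2877340187) (nat_lit 608) (nat_lit 260425906) (nat_lit 63) (nat_lit 5) (nat_lit 70) (nat_lit 5) (nat_lit 71) (nat_lit 5) (nat_lit 261) (nat_lit 249) (nat_lit 210)))))) (XT.nd (nat_lit 624) (nat_lit 760) (nat_lit 0) (XT.nd (nat_lit 312)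 (nat_lit 684) (nat_lit 0) (XT.nd (nat_lit 156) (nat_lit 456) (nat_lit 0) (XT.nd (nat_lit 78) (nat_lit 0) (nat_lit 0) (XT.lf (nat_lit 0) (nat_lit 983797508) (nat_lit 608) (nat_lit 22798277) (nat_lit 684) (nat_lit 8636821406) (nat_lit 54) (nat_lit 5) (nat_lit 62) (nat_lit 5) (nat_lit 63) (nat_lit 5) (nat_lit 262) (nat_lit 249) (nat_lit 209)) (XT.lf (nat_lit 0) (nat_lit 2379170328) (nat_lit 684) (nat_lit 4563303853) (nat_lit 76) (nat_lit 2944176378) (nat_lit 54) (nat_lit 5) (nat_lit 63) (nat_lit 5) (nat_lit 55) (nat_lit 5) (nat_lit 263) (nat_lit 249) (nat_lit 208))) (XT.nd (nat_lit 78) (nat_lit 456) (nat_lit 0) (XT.lf (nat_lit 0) (nat_lit 3773607561) (nat_lit 684) (nat_lit 306012442) (nat_lit 76) (nat_lit 6065045296) (nat_lit 54) (nat_lit 5) (nat_lit 63) (nat_lit 5) (nat_lit 55) (nat_lit 5) (nat_lit 264) (nat_lit 249) (nat_lit 207)) (XT.lf (nat_lit 0) (nat_lit 4259063534) (nat_lit 456)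 (nat_lit 1000304011) (nat_lit 532) (nat_lit 5155401186) (nat_lit 48) (nat_lit 5) (nat_lit 54) (nat_lit 5) (nat_lit 55) (nat_lit 5) (nat_lit 265) (nat_lit 249) (nat_lit 206)))) (XT.nd (nat_lit 156) (nat_lit 380) (nat_lit 0) (XT.nd (nat_lit 78) (nat_lit 304) (nat_lit 0) (XT.lf (nat_lit 0) (nat_lit 6816194529) (nat_lit 532) (nat_lit 1713244274) (nat_lit 76) (nat_lit 2169354818) (nat_lit 48) (nat_lit 5) (nat_lit 55) (nat_lit 5) (nat_lit 49) (nat_lit 5) (nat_lit 266) (nat_lit 249) (nat_lit 205)) (XT.lf (nat_lit 0) (nat_lit 2989484946) (nat_lit 304) (nat_lit 5483163467) (nat_lit 380) (nat_lit 2523525151) (nat_lit 44) (nat_lit 5) (nat_lit 48) (nat_lit 5) (nat_lit 49) (nat_lit 5) (nat_lit 267) (nat_lit 249) (nat_lit 204))) (XT.nd (nat_lit 78) (nat_lit 380) (nat_lit 0) (XT.lf (nat_lit 0) (nat_lit 7946355617) (nat_lit 304) (nat_lit 2254631009) (nat_lit 380) (nat_lit 1108214304) (nat_lit 44)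 (nat_lit 5) (nat_lit 48) (nat_lit 5) (nat_lit 49) (nat_lit 5) (nat_lit 268) (nat_lit 249) (nat_lit 203)) (XT.lf (nat_lit 0) (nat_lit 368738023) (nat_lit 380) (nat_lit 10140986975) (nat_lit 76) (nat_lit 1127921184) (nat_lit 39) (nat_lit 5) (nat_lit 44) (nat_lit 5) (nat_lit 40) (nat_lit 5) (nat_lit 269) (nat_lit 249) (nat_lit 202))))) (XT.nd (nat_lit 312) (nat_lit 532) (nat_lit 0) (XT.nd (nat_lit 156) (nat_lit 228) (nat_lit 0) (XT.nd (nat_lit 78) (nat_lit 0) (nat_lit 0) (XT.lf (nat_lit 0) (nat_lit 1939462656) (nat_lit 380) (nat_lit 5361291812) (nat_lit 76) (nat_lit 4678192443) (nat_lit 39) (nat_lit 5) (nat_lit 44) (nat_lit 5) (nat_lit 40) (nat_lit 5) (nat_lit 270) (nat_lit 249) (nat_lit 201)) (XT.lf (nat_lit 0) (nat_lit 3552839472) (nat_lit 380) (nat_lit 382090745) (nat_lit 76) (nat_lit 8404367125) (nat_lit 39) (nat_lit 5) (nat_lit 44) (nat_lit 5) (nat_lit 40) (nat_lit 5) (nat_lit 271)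 (nat_lit 249) (nat_lit 200))) (XT.nd (nat_lit 78) (nat_lit 0) (nat_lit 0) (XT.lf (nat_lit 0) (nat_lit 4967461248) (nat_lit 228) (nat_lit 322804589) (nat_lit 304) (nat_lit 7425411815) (nat_lit 36) (nat_lit 5) (nat_lit 39) (nat_lit 5) (nat_lit 40) (nat_lit 5) (nat_lit 272) (nat_lit 249) (nat_lit 199)) (XT.lf (nat_lit 0) (nat_lit 7142129961) (nat_lit 304) (nat_lit 2605839761) (nat_lit 76) (nat_lit 3361701688) (nat_lit 36) (nat_lit 5) (nat_lit 40) (nat_lit 5) (nat_lit 37) (nat_lit 5) (nat_lit 273) (nat_lit 249) (nat_lit 198)))) (XT.nd (nat_lit 156) (nat_lit 304) (nat_lit 0) (XT.nd (nat_lit 78) (nat_lit 0) (nat_lit 0) (XT.lf (nat_lit 0) (nat_lit 2842423789) (nat_lit 228) (nat_lit 6262228039) (nat_lit 304) (nat_lit 4417974331) (nat_lit 33) (nat_lit 5) (nat_lit 36) (nat_lit 5) (nat_lit 37) (nat_lit 5) (nat_lit 274) (nat_lit 249) (nat_lit 197)) (XT.lf (nat_lit 0) (nat_lit 8617249440) (nat_lit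 228) (nat_lit 2561513932) (nat_lit 304) (nat_lit 2776948789) (nat_lit 33) (nat_lit 5) (nat_lit 36) (nat_lit 5) (nat_lit 37) (nat_lit 5) (nat_lit 275) (nat_lit 249) (nat_lit 196))) (XT.nd (nat_lit 78) (nat_lit 76) (nat_lit 0) (XT.lf (nat_lit 0) (nat_lit 220634586) (nat_lit 228) (nat_lit 13130774403) (nat_lit 304) (nat_lit 1059451280) (nat_lit 30) (nat_lit 5) (nat_lit 33) (nat_lit 5) (nat_lit 34) (nat_lit 5) (nat_lit 276) (nat_lit 249) (nat_lit 195)) (XT.lf (nat_lit 0) (nat_lit 824939380) (nat_lit 304) (nat_lit 8732937540) (nat_lit 76) (nat_lit 5325202067) (nat_lit 29) (nat_lit 5) (nat_lit 33) (nat_lit 5) (nat_lit 30) (nat_lit 5) (nat_lit 277) (nat_lit 249) (nat_lit 194)))))))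
noncomputable def xc119 : XT := (XT.nd (nat_lit 1248) (nat_lit 608) (nat_lit 0) (XT.nd (nat_lit 624) (nat_lit 304) (nat_lit 0) (XT.nd (nat_lit 312) (nat_lit 456) (nat_lit 0) (XT.nd (nat_lit 156) (nat_lit 0) (nat_lit 0) (XT.nd (nat_lit 78) (nat_lit 228) (nat_lit 0) (XT.lf (nat_lit 0) (nat_lit 2740273438) (nat_lit 304) (nat_lit 3055038295) (nat_lit 76) (nat_lit 9584240998) (nat_lit 29) (nat_lit 5) (nat_lit 33) (nat_lit 5) (nat_lit 30) (nat_lit 5) (nat_lit 278) (nat_lit 249) (nat_lit 193)) (XT.lf (nat_lit 0) (nat_lit 2968543803) (nat_lit 228) (nat_lit 1802823756) (nat_lit 304) (nat_lit 11128605711) (nat_lit 26) (nat_lit 5) (nat_lit 29) (nat_lit 5) (nat_lit 30) (nat_lit 5) (nat_lit 279) (nat_lit 249) (nat_lit 192))) (XT.nd (nat_lit 78) (nat_lit 0) (nat_lit 0) (XT.lf (nat_lit 0) (nat_lit 6968186750) (nat_lit 304) (nat_lit 7116585584) (nat_lit 76) (nat_lit 2358550911) (nat_lit 26) (nat_lit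 5) (nat_lit 30) (nat_lit 5) (nat_lit 27) (nat_lit 5) (nat_lit 280) (nat_lit 249) (nat_lit 191)) (XT.lf (nat_lit 0) (nat_lit 9279906288) (nat_lit 304) (nat_lit 1072911185) (nat_lit 76) (nat_lit 6660881635) (nat_lit 26) (nat_lit 5) (nat_lit 30) (nat_lit 5) (nat_lit 27) (nat_lit 5) (nat_lit 281) (nat_lit 249) (nat_lit 190)))) (XT.nd (nat_lit 156) (nat_lit 304) (nat_lit 0) (XT.nd (nat_lit 78) (nat_lit 0) (nat_lit 0) (XT.lf (nat_lit 0) (nat_lit 5415459071) (nat_lit 152) (nat_lit 6352974559) (nat_lit 228) (nat_lit 5841205100) (nat_lit 24) (nat_lit 5) (nat_lit 26) (nat_lit 5) (nat_lit 27) (nat_lit 5) (nat_lit 282) (nat_lit 249) (nat_lit 189)) (XT.lf (nat_lit 0) (nat_lit 12235177560) (nat_lit 152) (nat_lit 2141688903) (nat_lit 228) (nat_lit 3858835920) (nat_lit 24) (nat_lit 5) (nat_lit 26) (nat_lit 5) (nat_lit 27) (nat_lit 5) (nat_lit 283) (nat_lit 249) (nat_lit 188))) (XT.nd (nat_lit 78)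 (nat_lit 76) (nat_lit 0) (XT.lf (nat_lit 0) (nat_lit 451732451) (nat_lit 228) (nat_lit 16684916959) (nat_lit 304) (nat_lit 1755469583) (nat_lit 21) (nat_lit 5) (nat_lit 24) (nat_lit 5) (nat_lit 25) (nat_lit 5) (nat_lit 284) (nat_lit 249) (nat_lit 187)) (XT.lf (nat_lit 0) (nat_lit 555376685) (nat_lit 304) (nat_lit 12215454199) (nat_lit 76) (nat_lit 6804418494) (nat_lit 20) (nat_lit 5) (nat_lit 24) (nat_lit 5) (nat_lit 21) (nat_lit 5) (nat_lit 285) (nat_lit 249) (nat_lit 186))))) (XT.nd (nat_lit 312) (nat_lit 152) (nat_lit 0) (XT.nd (nat_lit 156) (nat_lit 0) (nat_lit 0) (XT.nd (nat_lit 78) (nat_lit 152) (nat_lit 0) (XT.lf (nat_lit 0) (nat_lit 2902212979) (nat_lit 304) (nat_lit 5736869542) (nat_lit 76) (nat_lit 11653125801) (nat_lit 20) (nat_lit 5) (nat_lit 24) (nat_lit 5) (nat_lit 21) (nat_lit 5) (nat_lit 286) (nat_lit 249) (nat_lit 185)) (XT.lf (nat_lit 0) (nat_lit 1072528026) (nat_lit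 152) (nat_lit 4291030134) (nat_lit 228) (nat_lit 15681677840) (nat_lit 18) (nat_lit 5) (nat_lit 20) (nat_lit 5) (nat_lit 21) (nat_lit 5) (nat_lit 287) (nat_lit 249) (nat_lit 184))) (XT.nd (nat_lit 78) (nat_lit 0) (nat_lit 0) (XT.lf (nat_lit 0) (nat_lit 8031813294) (nat_lit 228) (nat_lit 13443274018) (nat_lit 76) (nat_lit 356710987) (nat_lit 18) (nat_lit 5) (nat_lit 21) (nat_lit 5) (nat_lit 19) (nat_lit 5) (nat_lit 288) (nat_lit 249) (nat_lit 183)) (XT.lf (nat_lit 0) (nat_lit 10885548570) (nat_lit 228) (nat_lit 6684290400) (nat_lit 76) (nat_lit 5085318159) (nat_lit 18) (nat_lit 5) (nat_lit 21) (nat_lit 5) (nat_lit 19) (nat_lit 5) (nat_lit 289) (nat_lit 249) (nat_lit 182)))) (XT.nd (nat_lit 156) (nat_lit 0) (nat_lit 0) (XT.nd (nat_lit 78) (nat_lit 0) (nat_lit 0) (XT.lf (nat_lit 0) (nat_lit 400137605) (nat_lit 152) (nat_lit 13470673251) (nat_lit 228) (nat_lit 9649499396) (nat_lit 16)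 (nat_lit 5) (nat_lit 18) (nat_lit 5) (nat_lit 19) (nat_lit 5) (nat_lit 290) (nat_lit 249) (nat_lit 181)) (XT.lf (nat_lit 0) (nat_lit 8045947039) (nat_lit 152) (nat_lit 9055623983) (nat_lit 228) (nat_lit 7322403381) (nat_lit 16) (nat_lit 5) (nat_lit 18) (nat_lit 5) (nat_lit 19) (nat_lit 5) (nat_lit 291) (nat_lit 249) (nat_lit 180))) (XT.nd (nat_lit 78) (nat_lit 0) (nat_lit 0) (XT.lf (nat_lit 0) (nat_lit 16050329381) (nat_lit 152) (nat_lit 4427380836) (nat_lit 228) (nat_lit 4895981502) (nat_lit 16) (nat_lit 5) (nat_lit 18) (nat_lit 5) (nat_lit 19) (nat_lit 5) (nat_lit 292) (nat_lit 249) (nat_lit 179)) (XT.lf (nat_lit 0) (nat_lit 24013903494) (nat_lit 228) (nat_lit 1946017374) (nat_lit 76) (nat_lit 411470734) (nat_lit 16) (nat_lit 5) (nat_lit 19) (nat_lit 5) (nat_lit 17) (nat_lit 4) (nat_lit 293) (nat_lit 249) (nat_lit 178)))))) (XT.nd (nat_lit 624) (nat_lit 228) (nat_lit 0) (XT.nd (nat_lit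 312) (nat_lit 76) (nat_lit 0) (XT.nd (nat_lit 156) (nat_lit 152) (nat_lit 0) (XT.nd (nat_lit 78) (nat_lit 0) (nat_lit 0) (XT.lf (nat_lit 0) (nat_lit 450315419) (nat_lit 152) (nat_lit 21524736699) (nat_lit 76) (nat_lit 5436125486) (nat_lit 14) (nat_lit 5) (nat_lit 16) (nat_lit 5) (nat_lit 15) (nat_lit 5) (nat_lit 294) (nat_lit 249) (nat_lit 177)) (XT.lf (nat_lit 0) (nat_lit 3338089537) (nat_lit 152) (nat_lit 14384782570) (nat_lit 76) (nat_lit 10777259075) (nat_lit 14) (nat_lit 5) (nat_lit 16) (nat_lit 5) (nat_lit 15) (nat_lit 5) (nat_lit 295) (nat_lit 249) (nat_lit 176))) (XT.nd (nat_lit 78) (nat_lit 152) (nat_lit 0) (XT.lf (nat_lit 0) (nat_lit 6356262313) (nat_lit 152) (nat_lit 6909138648) (nat_lit 76) (nat_lit 16378879566) (nat_lit 14) (nat_lit 5) (nat_lit 16) (nat_lit 5) (nat_lit 15) (nat_lit 5) (nat_lit 296) (nat_lit 249) (nat_lit 175)) (XT.lf (nat_lit 0) (nat_lit 950413383) (nat_lit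 152) (nat_lit 8576445107) (nat_lit 228) (nat_lit 21318749382) (nat_lit 12) (nat_lit 5) (nat_lit 14) (nat_lit 5) (nat_lit 15) (nat_lit 5) (nat_lit 297) (nat_lit 249) (nat_lit 174)))) (XT.nd (nat_lit 156) (nat_lit 76) (nat_lit 0) (XT.nd (nat_lit 78) (nat_lit 0) (nat_lit 0) (XT.lf (nat_lit 0) (nat_lit 9422846768) (nat_lit 152) (nat_lit 3537146205) (nat_lit 228) (nat_lit 19141852256) (nat_lit 12) (nat_lit 5) (nat_lit 14) (nat_lit 5) (nat_lit 15) (nat_lit 5) (nat_lit 298) (nat_lit 249) (nat_lit 173)) (XT.lf (nat_lit 0) (nat_lit 16579685301) (nat_lit 228) (nat_lit 15148952013) (nat_lit 76) (nat_lit 1691554053) (nat_lit 12) (nat_lit 5) (nat_lit 15) (nat_lit 5) (nat_lit 13) (nat_lit 4) (nat_lit 299) (nat_lit 249) (nat_lit 172))) (XT.nd (nat_lit 78) (nat_lit 76) (nat_lit 0) (XT.lf (nat_lit 0) (nat_lit 20426457229) (nat_lit 228) (nat_lit 7319029903) (nat_lit 76) (nat_lit 7056702905) (nat_lit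 12) (nat_lit 5) (nat_lit 15) (nat_lit 5) (nat_lit 13) (nat_lit 4) (nat_lit 300) (nat_lit 249) (nat_lit 171)) (XT.lf (nat_lit 0) (nat_lit 913885344) (nat_lit 76) (nat_lit 23554625938) (nat_lit 152) (nat_lit 11784668247) (nat_lit 11) (nat_lit 5) (nat_lit 12) (nat_lit 5) (nat_lit 13) (nat_lit 4) (nat_lit 301) (nat_lit 249) (nat_lit 170))))) (XT.nd (nat_lit 312) (nat_lit 152) (nat_lit 0) (XT.nd (nat_lit 156) (nat_lit 76) (nat_lit 0) (XT.nd (nat_lit 78) (nat_lit 0) (nat_lit 0) (XT.lf (nat_lit 0) (nat_lit 9795079879) (nat_lit 76) (nat_lit 19030481264) (nat_lit 152) (nat_lit 8945548956) (nat_lit 11) (nat_lit 5) (nat_lit 12) (nat_lit 5) (nat_lit 13) (nat_lit 4) (nat_lit 302) (nat_lit 249) (nat_lit 169)) (XT.lf (nat_lit 0) (nat_lit 19103699218) (nat_lit 76) (nat_lit 14286232649) (nat_lit 152) (nat_lit 5975566438) (nat_lit 11) (nat_lit 5) (nat_lit 12) (nat_lit 5) (nat_lit 13) (nat_lit 4) (nat_lit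 303) (nat_lit 249) (nat_lit 168))) (XT.nd (nat_lit 78) (nat_lit 76) (nat_lit 0) (XT.lf (nat_lit 0) (nat_lit 28861906742) (nat_lit 76) (nat_lit 9310584264) (nat_lit 152) (nat_lit 2867649308) (nat_lit 11) (nat_lit 5) (nat_lit 12) (nat_lit 5) (nat_lit 13) (nat_lit 4) (nat_lit 304) (nat_lit 249) (nat_lit 167)) (XT.lf (nat_lit 0) (nat_lit 373260557) (nat_lit 152) (nat_lit 3712107420) (nat_lit 76) (nat_lit 38713354372) (nat_lit 10) (nat_lit 5) (nat_lit 12) (nat_lit 5) (nat_lit 11) (nat_lit 5) (nat_lit 305) (nat_lit 249) (nat_lit 166)))) (XT.nd (nat_lit 156) (nat_lit 0) (nat_lit 0) (XT.nd (nat_lit 78) (nat_lit 0) (nat_lit 0) (XT.lf (nat_lit 0) (nat_lit 3776992054) (nat_lit 228) (nat_lit 39378408841) (nat_lit 76) (nat_lit 1482653070) (nat_lit 8) (nat_lit 5) (nat_lit 11) (nat_lit 5) (nat_lit 9) (nat_lit 4) (nat_lit 306) (nat_lit 249) (nat_lit 165)) (XT.lf (nat_lit 0) (nat_lit 7472636052) (nat_lit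 228) (nat_lit 31840214806) (nat_lit 76) (nat_lit 7250442060) (nat_lit 8) (nat_lit 5) (nat_lit 11) (nat_lit 5) (nat_lit 9) (nat_lit 4) (nat_lit 307) (nat_lit 249) (nat_lit 164))) (XT.nd (nat_lit 78) (nat_lit 0) (nat_lit 0) (XT.lf (nat_lit 0) (nat_lit 11344353440) (nat_lit 228) (nat_lit 23939266696) (nat_lit 76) (nat_lit 13301634891) (nat_lit 8) (nat_lit 5) (nat_lit 11) (nat_lit 5) (nat_lit 9) (nat_lit 4) (nat_lit 308) (nat_lit 249) (nat_lit 163)) (XT.nd (nat_lit 78) (nat_lit 0) (nat_lit 0) (XT.lf (nat_lit 0) (nat_lit 15401362593) (nat_lit 228) (nat_lit 15656752727) (nat_lit 76) (nat_lit 19650639164) (nat_lit 8) (nat_lit 5) (nat_lit 11) (nat_lit 5) (nat_lit 9) (nat_lit 4) (nat_lit 309) (nat_lit 249) (nat_lit 162)) (XT.lf (nat_lit 0) (nat_lit 19653323056) (nat_lit 228) (nat_lit 6972952630) (nat_lit 76) (nat_lit 26312571557) (nat_lit 8) (nat_lit 5) (nat_lit 11) (nat_lit 5) (nat_lit 9)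 (nat_lit 4) (nat_lit 310) (nat_lit 249) (nat_lit 161))))))))
noncomputable def xc120 : XT := (XT.nd (nat_lit 1248) (nat_lit 152) (nat_lit 0) (XT.nd (nat_lit 624) (nat_lit 76) (nat_lit 0) (XT.nd (nat_lit 312) (nat_lit 76) (nat_lit 0) (XT.nd (nat_lit 156) (nat_lit 0) (nat_lit 0) (XT.nd (nat_lit 78) (nat_lit 0) (nat_lit 0) (XT.lf (nat_lit 0) (nat_lit 2203329618) (nat_lit 76) (nat_lit 21941429077) (nat_lit 152) (nat_lit 31134364345) (nat_lit 7) (nat_lit 5) (nat_lit 8) (nat_lit 5) (nat_lit 9) (nat_lit 4) (nat_lit 311) (nat_lit 249) (nat_lit 160)) (XT.lf (nat_lit 0) (nat_lit 12068480216) (nat_lit 76) (nat_lit 16903023631) (nat_lit 152) (nat_lit 28759393091) (nat_lit 7) (nat_lit 5) (nat_lit 8) (nat_lit 5) (nat_lit 9) (nat_lit 4) (nat_lit 312) (nat_lit 249) (nat_lit 159))) (XT.nd (nat_lit 78) (nat_lit 0) (nat_lit 0) (XT.lf (nat_lit 0) (nat_lit 22415430312) (nat_lit 76) (nat_lit 11617153472)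 (nat_lit 152) (nat_lit 26273046059) (nat_lit 7) (nat_lit 5) (nat_lit 8) (nat_lit 5) (nat_lit 9) (nat_lit 4) (nat_lit 313) (nat_lit 249) (nat_lit 158)) (XT.lf (nat_lit 0) (nat_lit 33268815503) (nat_lit 76) (nat_lit 6071233194) (nat_lit 152) (nat_lit 23669403374) (nat_lit 7) (nat_lit 5) (nat_lit 8) (nat_lit 5) (nat_lit 9) (nat_lit 4) (nat_lit 314) (nat_lit 249) (nat_lit 157)))) (XT.nd (nat_lit 156) (nat_lit 76) (nat_lit 0) (XT.nd (nat_lit 78) (nat_lit 0) (nat_lit 0) (XT.lf (nat_lit 0) (nat_lit 44654477181) (nat_lit 76) (nat_lit 252058225) (nat_lit 152) (nat_lit 20942265888) (nat_lit 7) (nat_lit 5) (nat_lit 8) (nat_lit 5) (nat_lit 9) (nat_lit 4) (nat_lit 315) (nat_lit 249) (nat_lit 156)) (XT.lf (nat_lit 0) (nat_lit 50836698337) (nat_lit 152) (nat_lit 12322314688) (nat_lit 0) (nat_lit 5666854799) (nat_lit 7) (nat_lit 5) (nat_lit 9) (nat_lit 4) (nat_lit 7) (nat_lit 4) (nat_lit 316) (nat_lit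 249) (nat_lit 155))) (XT.nd (nat_lit 78) (nat_lit 76) (nat_lit 0) (XT.lf (nat_lit 0) (nat_lit 57061683334) (nat_lit 152) (nat_lit 3020510870) (nat_lit 0) (nat_lit 11869694389) (nat_lit 7) (nat_lit 5) (nat_lit 9) (nat_lit 4) (nat_lit 7) (nat_lit 4) (nat_lit 317) (nat_lit 249) (nat_lit 154)) (XT.lf (nat_lit 0) (nat_lit 6959931086) (nat_lit 76) (nat_lit 56741109398) (nat_lit 76) (nat_lit 11528029589) (nat_lit 6) (nat_lit 4) (nat_lit 7) (nat_lit 5) (nat_lit 7) (nat_lit 4) (nat_lit 318) (nat_lit 249) (nat_lit 153))))) (XT.nd (nat_lit 312) (nat_lit 0) (nat_lit 0) (XT.nd (nat_lit 156) (nat_lit 76) (nat_lit 0) (XT.nd (nat_lit 78) (nat_lit 0) (nat_lit 0) (XT.lf (nat_lit 0) (nat_lit 17535195749) (nat_lit 76) (nat_lit 53182904770) (nat_lit 76) (nat_lit 7949738424) (nat_lit 6) (nat_lit 4) (nat_lit 7) (nat_lit 5) (nat_lit 7) (nat_lit 4) (nat_lit 319) (nat_lit 249) (nat_lit 152)) (XT.lf (nat_lit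 0) (nat_lit 28630590588) (nat_lit 76) (nat_lit 49450262216) (nat_lit 76) (nat_lit 4197965835) (nat_lit 6) (nat_lit 4) (nat_lit 7) (nat_lit 5) (nat_lit 7) (nat_lit 4) (nat_lit 320) (nat_lit 249) (nat_lit 151))) (XT.nd (nat_lit 78) (nat_lit 76) (nat_lit 0) (XT.lf (nat_lit 0) (nat_lit 40272533210) (nat_lit 76) (nat_lit 45534294494) (nat_lit 76) (nat_lit 263779032) (nat_lit 6) (nat_lit 4) (nat_lit 7) (nat_lit 5) (nat_lit 7) (nat_lit 4) (nat_lit 321) (nat_lit 249) (nat_lit 150)) (XT.lf (nat_lit 0) (nat_lit 3738574926) (nat_lit 152) (nat_lit 37623788368) (nat_lit 76) (nat_lit 48686853023) (nat_lit 5) (nat_lit 5) (nat_lit 7) (nat_lit 5) (nat_lit 6) (nat_lit 4) (nat_lit 322) (nat_lit 249) (nat_lit 149)))) (XT.nd (nat_lit 156) (nat_lit 0) (nat_lit 0) (XT.nd (nat_lit 78) (nat_lit 0) (nat_lit 0) (XT.lf (nat_lit 0) (nat_lit 7927638748) (nat_lit 152) (nat_lit 29052732778) (nat_lit 76) (nat_lit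 57246407602) (nat_lit 5) (nat_lit 5) (nat_lit 7) (nat_lit 5) (nat_lit 6) (nat_lit 4) (nat_lit 323) (nat_lit 249) (nat_lit 148)) (XT.lf (nat_lit 0) (nat_lit 12321828970) (nat_lit 152) (nat_lit 20060381150) (nat_lit 76) (nat_lit 66231237538) (nat_lit 5) (nat_lit 5) (nat_lit 7) (nat_lit 5) (nat_lit 6) (nat_lit 4) (nat_lit 324) (nat_lit 249) (nat_lit 147))) (XT.nd (nat_lit 78) (nat_lit 0) (nat_lit 0) (XT.lf (nat_lit 0) (nat_lit 16931607950) (nat_lit 152) (nat_lit 10625323124) (nat_lit 76) (nat_lit 75662735286) (nat_lit 5) (nat_lit 5) (nat_lit 7) (nat_lit 5) (nat_lit 6) (nat_lit 4) (nat_lit 325) (nat_lit 249) (nat_lit 146)) (XT.lf (nat_lit 0) (nat_lit 21767951352) (nat_lit 152) (nat_lit 725094276) (nat_lit 76) (nat_lit 85563356791) (nat_lit 5) (nat_lit 5) (nat_lit 7) (nat_lit 5) (nat_lit 6) (nat_lit 4) (nat_lit 326) (nat_lit 249) (nat_lit 145)))))) (XT.nd (nat_lit 624) (nat_lit 76) (nat_lit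 0) (XT.nd (nat_lit 312) (nat_lit 0) (nat_lit 0) (XT.nd (nat_lit 156) (nat_lit 0) (nat_lit 0) (XT.nd (nat_lit 78) (nat_lit 0) (nat_lit 0) (XT.lf (nat_lit 0) (nat_lit 9983408796) (nat_lit 76) (nat_lit 17014834474) (nat_lit 152) (nat_lit 86129135156) (nat_lit 4) (nat_lit 5) (nat_lit 5) (nat_lit 5) (nat_lit 6) (nat_lit 4) (nat_lit 327) (nat_lit 249) (nat_lit 144)) (XT.lf (nat_lit 0) (nat_lit 21246343119) (nat_lit 76) (nat_lit 11252330533) (nat_lit 152) (nat_lit 85952807635) (nat_lit 4) (nat_lit 5) (nat_lit 5) (nat_lit 5) (nat_lit 6) (nat_lit 4) (nat_lit 328) (nat_lit 249) (nat_lit 143))) (XT.nd (nat_lit 78) (nat_lit 0) (nat_lit 0) (XT.lf (nat_lit 0) (nat_lit 33066550312) (nat_lit 76) (nat_lit 5204093382) (nat_lit 152) (nat_lit 85771328500) (nat_lit 4) (nat_lit 5) (nat_lit 5) (nat_lit 5) (nat_lit 6) (nat_lit 4) (nat_lit 329) (nat_lit 249) (nat_lit 142)) (XT.lf (nat_lit 0) (nat_lit 44345761558)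 (nat_lit 152) (nat_lit 84457853493) (nat_lit 0) (nat_lit 1107653517) (nat_lit 4) (nat_lit 5) (nat_lit 6) (nat_lit 4) (nat_lit 4) (nat_lit 4) (nat_lit 330) (nat_lit 249) (nat_lit 141)))) (XT.nd (nat_lit 156) (nat_lit 0) (nat_lit 0) (XT.nd (nat_lit 78) (nat_lit 0) (nat_lit 0) (XT.lf (nat_lit 0) (nat_lit 50806756297) (nat_lit 152) (nat_lit 77705179466) (nat_lit 0) (nat_lit 7557995937) (nat_lit 4) (nat_lit 5) (nat_lit 6) (nat_lit 4) (nat_lit 4) (nat_lit 4) (nat_lit 331) (nat_lit 249) (nat_lit 140)) (XT.lf (nat_lit 0) (nat_lit 57587760751) (nat_lit 152) (nat_lit 70620071524) (nat_lit 0) (nat_lit 14328855324) (nat_lit 4) (nat_lit 5) (nat_lit 6) (nat_lit 4) (nat_lit 4) (nat_lit 4) (nat_lit 332) (nat_lit 249) (nat_lit 139))) (XT.nd (nat_lit 78) (nat_lit 0) (nat_lit 0) (XT.lf (nat_lit 0) (nat_lit 64704920167) (nat_lit 152) (nat_lit 63185660362) (nat_lit 0) (nat_lit 21436352773) (nat_lit 4)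 (nat_lit 5) (nat_lit 6) (nat_lit 4) (nat_lit 4) (nat_lit 4) (nat_lit 333) (nat_lit 249) (nat_lit 138)) (XT.lf (nat_lit 0) (nat_lit 72175180164) (nat_lit 152) (nat_lit 55384245002) (nat_lit 0) (nat_lit 28897410896) (nat_lit 4) (nat_lit 5) (nat_lit 6) (nat_lit 4) (nat_lit 4) (nat_lit 4) (nat_lit 334) (nat_lit 249) (nat_lit 137))))) (XT.nd (nat_lit 312) (nat_lit 76) (nat_lit 0) (XT.nd (nat_lit 156) (nat_lit 0) (nat_lit 0) (XT.nd (nat_lit 78) (nat_lit 0) (nat_lit 0) (XT.lf (nat_lit 0) (nat_lit 80016327075) (nat_lit 152) (nat_lit 47197250645) (nat_lit 0) (nat_lit 36729794117) (nat_lit 4) (nat_lit 5) (nat_lit 6) (nat_lit 4) (nat_lit 4) (nat_lit 4) (nat_lit 335) (nat_lit 249) (nat_lit 136)) (XT.lf (nat_lit 0) (nat_lit 88247030297) (nat_lit 152) (nat_lit 38605184448) (nat_lit 0) (nat_lit 44952150968) (nat_lit 4) (nat_lit 5) (nat_lit 6) (nat_lit 4) (nat_lit 4) (nat_lit 4) (nat_lit 336) (nat_lit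 249) (nat_lit 135))) (XT.nd (nat_lit 78) (nat_lit 0) (nat_lit 0) (XT.lf (nat_lit 0) (nat_lit 96886886742) (nat_lit 152) (nat_lit 29587589109) (nat_lit 0) (nat_lit 53584058489) (nat_lit 4) (nat_lit 5) (nat_lit 6) (nat_lit 4) (nat_lit 4) (nat_lit 4) (nat_lit 337) (nat_lit 249) (nat_lit 134)) (XT.lf (nat_lit 0) (nat_lit 105956467498) (nat_lit 152) (nat_lit 20122994164) (nat_lit 0) (nat_lit 62646068840) (nat_lit 4) (nat_lit 5) (nat_lit 6) (nat_lit 4) (nat_lit 4) (nat_lit 4) (nat_lit 338) (nat_lit 249) (nat_lit 133)))) (XT.nd (nat_lit 156) (nat_lit 0) (nat_lit 0) (XT.nd (nat_lit 78) (nat_lit 76) (nat_lit 0) (XT.lf (nat_lit 0) (nat_lit 115477366805) (nat_lit 152) (nat_lit 10188864862) (nat_lit 0) (nat_lit 72159758237) (nat_lit 4) (nat_lit 5) (nat_lit 6) (nat_lit 4) (nat_lit 4) (nat_lit 4) (nat_lit 339) (nat_lit 249) (nat_lit 132)) (XT.lf (nat_lit 0) (nat_lit 246335766) (nat_lit 76) (nat_lit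 125229763694) (nat_lit 76) (nat_lit 81905288547) (nat_lit 3) (nat_lit 4) (nat_lit 4) (nat_lit 5) (nat_lit 4) (nat_lit 4) (nat_lit 340) (nat_lit 249) (nat_lit 131))) (XT.nd (nat_lit 78) (nat_lit 0) (nat_lit 0) (XT.lf (nat_lit 0) (nat_lit 11553568152) (nat_lit 76) (nat_lit 124591740266) (nat_lit 76) (nat_lit 81260725518) (nat_lit 3) (nat_lit 4) (nat_lit 4) (nat_lit 5) (nat_lit 4) (nat_lit 4) (nat_lit 341) (nat_lit 249) (nat_lit 130)) (XT.lf (nat_lit 0) (nat_lit 23422864391) (nat_lit 76) (nat_lit 123923195635) (nat_lit 76) (nat_lit 80585952697) (nat_lit 3) (nat_lit 4) (nat_lit 4) (nat_lit 5) (nat_lit 4) (nat_lit 4) (nat_lit 342) (nat_lit 249) (nat_lit 129)))))))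
noncomputable def xc121 : XT := (XT.nd (nat_lit 30576) (nat_lit 0) (nat_lit 2736) (XT.nd (nat_lit 624) (nat_lit 0) (nat_lit 0) (XT.nd (nat_lit 312) (nat_lit 0) (nat_lit 0) (XT.nd (nat_lit 156) (nat_lit 0) (nat_lit 0) (XT.nd (nat_lit 78) (nat_lit 0) (nat_lit 0) (XT.lf (nat_lit 0) (nat_lit 35882484711) (nat_lit 76) (nat_lit 123222538029) (nat_lit 76) (nat_lit 79879363481) (nat_lit 3) (nat_lit 4) (nat_lit 4) (nat_lit 5) (nat_lit 4) (nat_lit 4) (nat_lit 343) (nat_lit 249) (nat_lit 128)) (XT.lf (nat_lit 0) (nat_lit 48962094875) (nat_lit 76) (nat_lit 122488099216) (nat_lit 76) (nat_lit 79139275515) (nat_lit 3) (nat_lit 4) (nat_lit 4) (nat_lit 5) (nat_lit 4) (nat_lit 4) (nat_lit 344) (nat_lit 249) (nat_lit 127))) (XT.nd (nat_lit 78) (nat_lit 0) (nat_lit 0) (XT.lf (nat_lit 0) (nat_lit 62692836813) (nat_lit 76) (nat_lit 121718130531) (nat_lit 76) (nat_lit 78363926686) (nat_lit 3) (nat_lit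 4) (nat_lit 4) (nat_lit 5) (nat_lit 4) (nat_lit 4) (nat_lit 345) (nat_lit 249) (nat_lit 126)) (XT.lf (nat_lit 0) (nat_lit 77107402766) (nat_lit 76) (nat_lit 120910798716) (nat_lit 76) (nat_lit 77551470923) (nat_lit 3) (nat_lit 4) (nat_lit 4) (nat_lit 5) (nat_lit 4) (nat_lit 4) (nat_lit 346) (nat_lit 249) (nat_lit 125)))) (XT.nd (nat_lit 156) (nat_lit 0) (nat_lit 0) (XT.nd (nat_lit 78) (nat_lit 0) (nat_lit 0) (XT.lf (nat_lit 0) (nat_lit 92240113131) (nat_lit 76) (nat_lit 120064181553) (nat_lit 76) (nat_lit 76699973809) (nat_lit 3) (nat_lit 4) (nat_lit 4) (nat_lit 5) (nat_lit 4) (nat_lit 4) (nat_lit 347) (nat_lit 249) (nat_lit 124)) (XT.lf (nat_lit 0) (nat_lit 108126998169) (nat_lit 76) (nat_lit 119176263285) (nat_lit 76) (nat_lit 75807407970) (nat_lit 3) (nat_lit 4) (nat_lit 4) (nat_lit 5) (nat_lit 4) (nat_lit 4) (nat_lit 348) (nat_lit 249) (nat_lit 123))) (XT.nd (nat_lit 78) (nat_lit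 0) (nat_lit 0) (XT.lf (nat_lit 0) (nat_lit 124805883798) (nat_lit 76) (nat_lit 118244929823) (nat_lit 76) (nat_lit 74871648248) (nat_lit 3) (nat_lit 4) (nat_lit 4) (nat_lit 5) (nat_lit 4) (nat_lit 4) (nat_lit 349) (nat_lit 249) (nat_lit 122)) (XT.lf (nat_lit 0) (nat_lit 142316481649) (nat_lit 76) (nat_lit 117267963705) (nat_lit 76) (nat_lit 73890466646) (nat_lit 3) (nat_lit 4) (nat_lit 4) (nat_lit 5) (nat_lit 4) (nat_lit 4) (nat_lit 350) (nat_lit 249) (nat_lit 121))))) (XT.nd (nat_lit 29640) (nat_lit 0) (nat_lit 5396) (XT.nd (nat_lit 156) (nat_lit 0) (nat_lit 0) (XT.nd (nat_lit 78) (nat_lit 0) (nat_lit 0) (XT.lf (nat_lit 0) (nat_lit 160700483624) (nat_lit 76) (nat_lit 116243038821) (nat_lit 76) (nat_lit 72861527015) (nat_lit 3) (nat_lit 4) (nat_lit 4) (nat_lit 5) (nat_lit 4) (nat_lit 4) (nat_lit 351) (nat_lit 249) (nat_lit 120)) (XT.lf (nat_lit 0) (nat_lit 180001661154) (nat_lit 76)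 (nat_lit 115167714874) (nat_lit 76) (nat_lit 71782379500) (nat_lit 3) (nat_lit 4) (nat_lit 4) (nat_lit 5) (nat_lit 4) (nat_lit 4) (nat_lit 352) (nat_lit 249) (nat_lit 119))) (XT.nd (nat_lit 78) (nat_lit 0) (nat_lit 0) (XT.lf (nat_lit 0) (nat_lit 200265969425) (nat_lit 76) (nat_lit 114039431570) (nat_lit 76) (nat_lit 70650454701) (nat_lit 3) (nat_lit 4) (nat_lit 4) (nat_lit 5) (nat_lit 4) (nat_lit 4) (nat_lit 353) (nat_lit 249) (nat_lit 118)) (XT.lf (nat_lit 0) (nat_lit 221541656789) (nat_lit 76) (nat_lit 112855502519) (nat_lit 76) (nat_lit 69463057561) (nat_lit 3) (nat_lit 4) (nat_lit 4) (nat_lit 5) (nat_lit 4) (nat_lit 4) (nat_lit 354) (nat_lit 249) (nat_lit 117)))) (XT.nd (nat_lit 156) (nat_lit 0) (nat_lit 0) (XT.nd (nat_lit 78) (nat_lit 0) (nat_lit 0) (XT.lf (nat_lit 0) (nat_lit 1833665905) (nat_lit 532) (nat_lit 998122122) (nat_lit 532) (nat_lit 998122122) (nat_lit 74) (nat_lit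 3) (nat_lit 81) (nat_lit 3) (nat_lit 81) (nat_lit 5) (nat_lit 250) (nat_lit 250) (nat_lit 220)) (XT.lf (nat_lit 76) (nat_lit 1085148933) (nat_lit 0) (nat_lit 3837554365) (nat_lit 532) (nat_lit 2862138752) (nat_lit 75) (nat_lit 5) (nat_lit 74) (nat_lit 3) (nat_lit 81) (nat_lit 5) (nat_lit 251) (nat_lit 250) (nat_lit 219))) (XT.nd (nat_lit 78) (nat_lit 0) (nat_lit 76) (XT.lf (nat_lit 76) (nat_lit 4349830349) (nat_lit 0) (nat_lit 1850788445) (nat_lit 532) (nat_lit 1718037942) (nat_lit 75) (nat_lit 5) (nat_lit 74) (nat_lit 3) (nat_lit 81) (nat_lit 5) (nat_lit 252) (nat_lit 250) (nat_lit 218)) (XT.lf (nat_lit 0) (nat_lit 7476102151) (nat_lit 456) (nat_lit 327803322) (nat_lit 532) (nat_lit 259078433) (nat_lit 75) (nat_lit 5) (nat_lit 81) (nat_lit 5) (nat_lit 82) (nat_lit 5) (nat_lit 253) (nat_lit 250) (nat_lit 217)))))) (XT.nd (nat_lit 624) (nat_lit 1748) (nat_lit 0) (XT.nd (nat_lit 312)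 (nat_lit 456) (nat_lit 0) (XT.nd (nat_lit 156) (nat_lit 0) (nat_lit 0) (XT.nd (nat_lit 78) (nat_lit 0) (nat_lit 0) (XT.lf (nat_lit 0) (nat_lit 593462814) (nat_lit 532) (nat_lit 5120389205) (nat_lit 608) (nat_lit 2500071705) (nat_lit 68) (nat_lit 5) (nat_lit 75) (nat_lit 5) (nat_lit 76) (nat_lit 5) (nat_lit 254) (nat_lit 250) (nat_lit 216)) (XT.lf (nat_lit 0) (nat_lit 1753130614) (nat_lit 532) (nat_lit 1727154146) (nat_lit 608) (nat_lit 4895079813) (nat_lit 68) (nat_lit 5) (nat_lit 75) (nat_lit 5) (nat_lit 76) (nat_lit 5) (nat_lit 255) (nat_lit 250) (nat_lit 215))) (XT.nd (nat_lit 78) (nat_lit 0) (nat_lit 76) (XT.lf (nat_lit 76) (nat_lit 1854499159) (nat_lit 0) (nat_lit 1082747582) (nat_lit 608) (nat_lit 5609723233) (nat_lit 69) (nat_lit 5) (nat_lit 68) (nat_lit 5) (nat_lit 76) (nat_lit 5) (nat_lit 256) (nat_lit 250) (nat_lit 214)) (XT.lf (nat_lit 0) (nat_lit 4172875842) (nat_lit 532)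 (nat_lit 3117036096) (nat_lit 608) (nat_lit 1438024306) (nat_lit 69) (nat_lit 5) (nat_lit 76) (nat_lit 5) (nat_lit 77) (nat_lit 5) (nat_lit 257) (nat_lit 250) (nat_lit 213)))) (XT.nd (nat_lit 156) (nat_lit 532) (nat_lit 0) (XT.nd (nat_lit 78) (nat_lit 0) (nat_lit 0) (XT.lf (nat_lit 76) (nat_lit 596943155) (nat_lit 0) (nat_lit 4843440108) (nat_lit 608) (nat_lit 3479439825) (nat_lit 70) (nat_lit 5) (nat_lit 69) (nat_lit 5) (nat_lit 77) (nat_lit 5) (nat_lit 258) (nat_lit 250) (nat_lit 212)) (XT.lf (nat_lit 76) (nat_lit 4563925371) (nat_lit 0) (nat_lit 2205230396) (nat_lit 608) (nat_lit 2352613167) (nat_lit 70) (nat_lit 5) (nat_lit 69) (nat_lit 5) (nat_lit 77) (nat_lit 5) (nat_lit 259) (nat_lit 250) (nat_lit 211))) (XT.nd (nat_lit 78) (nat_lit 608) (nat_lit 0) (XT.lf (nat_lit 0) (nat_lit 8121109801) (nat_lit 532) (nat_lit 655503371) (nat_lit 76) (nat_lit 559703798) (nat_lit 70) (nat_lit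 5) (nat_lit 77) (nat_lit 5) (nat_lit 71) (nat_lit 5) (nat_lit 260) (nat_lit 250) (nat_lit 210)) (XT.lf (nat_lit 0) (nat_lit 20932931) (nat_lit 608) (nat_lit 6083249075) (nat_lit 76) (nat_lit 3455677292) (nat_lit 62) (nat_lit 5) (nat_lit 70) (nat_lit 5) (nat_lit 63) (nat_lit 5) (nat_lit 261) (nat_lit 250) (nat_lit 209))))) (XT.nd (nat_lit 312) (nat_lit 684) (nat_lit 0) (XT.nd (nat_lit 156) (nat_lit 456) (nat_lit 0) (XT.nd (nat_lit 78) (nat_lit 608) (nat_lit 0) (XT.lf (nat_lit 0) (nat_lit 1240388264) (nat_lit 608) (nat_lit 2017428748) (nat_lit 76) (nat_lit 6537943771) (nat_lit 62) (nat_lit 5) (nat_lit 70) (nat_lit 5) (nat_lit 63) (nat_lit 5) (nat_lit 262) (nat_lit 250) (nat_lit 208)) (XT.lf (nat_lit 0) (nat_lit 2285412202) (nat_lit 608) (nat_lit 224480041) (nat_lit 684) (nat_lit 7534392705) (nat_lit 54) (nat_lit 5) (nat_lit 62) (nat_lit 5) (nat_lit 63) (nat_lit 5) (nat_lit 263) (nat_lit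 250) (nat_lit 207))) (XT.nd (nat_lit 78) (nat_lit 456) (nat_lit 0) (XT.lf (nat_lit 0) (nat_lit 3878924700) (nat_lit 684) (nat_lit 3518270054) (nat_lit 76) (nat_lit 2906505904) (nat_lit 54) (nat_lit 5) (nat_lit 63) (nat_lit 5) (nat_lit 55) (nat_lit 5) (nat_lit 264) (nat_lit 250) (nat_lit 206)) (XT.lf (nat_lit 0) (nat_lit 920726399) (nat_lit 456) (nat_lit 4370980331) (nat_lit 532) (nat_lit 5285870763) (nat_lit 48) (nat_lit 5) (nat_lit 54) (nat_lit 5) (nat_lit 55) (nat_lit 5) (nat_lit 265) (nat_lit 250) (nat_lit 205)))) (XT.nd (nat_lit 156) (nat_lit 684) (nat_lit 0) (XT.nd (nat_lit 78) (nat_lit 0) (nat_lit 0) (XT.lf (nat_lit 0) (nat_lit 5665029591) (nat_lit 456) (nat_lit 1128355150) (nat_lit 532) (nat_lit 4071093669) (nat_lit 48) (nat_lit 5) (nat_lit 54) (nat_lit 5) (nat_lit 55) (nat_lit 5) (nat_lit 266) (nat_lit 250) (nat_lit 204)) (XT.lf (nat_lit 0) (nat_lit 8366366598) (nat_lit 532)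 (nat_lit 593896967) (nat_lit 76) (nat_lit 2205881320) (nat_lit 48) (nat_lit 5) (nat_lit 55) (nat_lit 5) (nat_lit 49) (nat_lit 5) (nat_lit 267) (nat_lit 250) (nat_lit 203))) (XT.nd (nat_lit 78) (nat_lit 380) (nat_lit 0) (XT.lf (nat_lit 0) (nat_lit 4324533077) (nat_lit 304) (nat_lit 5742031547) (nat_lit 380) (nat_lit 1414122190) (nat_lit 44) (nat_lit 5) (nat_lit 48) (nat_lit 5) (nat_lit 49) (nat_lit 5) (nat_lit 268) (nat_lit 250) (nat_lit 202)) (XT.nd (nat_lit 78) (nat_lit 304) (nat_lit 0) (XT.lf (nat_lit 0) (nat_lit 12697263) (nat_lit 380) (nat_lit 2339888268) (nat_lit 76) (nat_lit 9459879084) (nat_lit 43) (nat_lit 5) (nat_lit 48) (nat_lit 5) (nat_lit 44) (nat_lit 5) (nat_lit 269) (nat_lit 250) (nat_lit 201)) (XT.lf (nat_lit 0) (nat_lit 1490828205) (nat_lit 380) (nat_lit 9433820836) (nat_lit 76) (nat_lit 1233838897) (nat_lit 39) (nat_lit 5) (nat_lit 44) (nat_lit 5) (nat_lit 40) (nat_lit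 5) (nat_lit 270) (nat_lit 250) (nat_lit 200))))))))
noncomputable def xc122 : XT := (XT.nd (nat_lit 2496) (nat_lit 532) (nat_lit 0) (XT.nd (nat_lit 1248) (nat_lit 684) (nat_lit 0) (XT.nd (nat_lit 624) (nat_lit 684) (nat_lit 0) (XT.nd (nat_lit 312) (nat_lit 532) (nat_lit 0) (XT.nd (nat_lit 156) (nat_lit 0) (nat_lit 0) (XT.nd (nat_lit 78) (nat_lit 228) (nat_lit 0) (XT.lf (nat_lit 0) (nat_lit 3087534152) (nat_lit 380) (nat_lit 4472960700) (nat_lit 76) (nat_lit 4959265545) (nat_lit 39) (nat_lit 5) (nat_lit 44) (nat_lit 5) (nat_lit 40) (nat_lit 5) (nat_lit 271) (nat_lit 250) (nat_lit 199)) (XT.lf (nat_lit 0) (nat_lit 723283548) (nat_lit 228) (nat_lit 4019536441) (nat_lit 304) (nat_lit 8157512015) (nat_lit 36) (nat_lit 5) (nat_lit 39) (nat_lit 5) (nat_lit 40) (nat_lit 5) (nat_lit 272) (nat_lit 250) (nat_lit 198))) (XT.nd (nat_lit 78) (nat_lit 0) (nat_lit 0) (XT.lf (nat_lit 0) (nat_lit 6299400176)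 (nat_lit 228) (nat_lit 225673652) (nat_lit 304) (nat_lit 6772812706) (nat_lit 36) (nat_lit 5) (nat_lit 39) (nat_lit 5) (nat_lit 40) (nat_lit 5) (nat_lit 273) (nat_lit 250) (nat_lit 197)) (XT.lf (nat_lit 0) (nat_lit 8425010917) (nat_lit 304) (nat_lit 1654824716) (nat_lit 76) (nat_lit 3634211326) (nat_lit 36) (nat_lit 5) (nat_lit 40) (nat_lit 5) (nat_lit 37) (nat_lit 5) (nat_lit 274) (nat_lit 250) (nat_lit 196)))) (XT.nd (nat_lit 156) (nat_lit 304) (nat_lit 0) (XT.nd (nat_lit 78) (nat_lit 0) (nat_lit 0) (XT.lf (nat_lit 0) (nat_lit 4048411576) (nat_lit 228) (nat_lit 6409772742) (nat_lit 304) (nat_lit 3691068346) (nat_lit 33) (nat_lit 5) (nat_lit 36) (nat_lit 5) (nat_lit 37) (nat_lit 5) (nat_lit 275) (nat_lit 250) (nat_lit 195)) (XT.lf (nat_lit 0) (nat_lit 10061318194) (nat_lit 228) (nat_lit 2531907058) (nat_lit 304) (nat_lit 2013125083) (nat_lit 33) (nat_lit 5) (nat_lit 36) (nat_lit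 5) (nat_lit 37) (nat_lit 5) (nat_lit 276) (nat_lit 250) (nat_lit 194))) (XT.nd (nat_lit 78) (nat_lit 76) (nat_lit 0) (XT.lf (nat_lit 0) (nat_lit 1272495393) (nat_lit 228) (nat_lit 13579863428) (nat_lit 304) (nat_lit 233212400) (nat_lit 30) (nat_lit 5) (nat_lit 33) (nat_lit 5) (nat_lit 34) (nat_lit 5) (nat_lit 277) (nat_lit 250) (nat_lit 193)) (XT.lf (nat_lit 0) (nat_lit 1676730336) (nat_lit 304) (nat_lit 8147742338) (nat_lit 76) (nat_lit 5758457016) (nat_lit 29) (nat_lit 5) (nat_lit 33) (nat_lit 5) (nat_lit 30) (nat_lit 5) (nat_lit 278) (nat_lit 250) (nat_lit 192))))) (XT.nd (nat_lit 312) (nat_lit 456) (nat_lit 0) (XT.nd (nat_lit 156) (nat_lit 0) (nat_lit 0) (XT.nd (nat_lit 78) (nat_lit 228) (nat_lit 0) (XT.lf (nat_lit 0) (nat_lit 3649233765) (nat_lit 304) (nat_lit 2234607277) (nat_lit 76) (nat_lit 10222495758) (nat_lit 29) (nat_lit 5) (nat_lit 33) (nat_lit 5) (nat_lit 30) (nat_lit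 5) (nat_lit 279) (nat_lit 250) (nat_lit 191)) (XT.lf (nat_lit 0) (nat_lit 4074457427) (nat_lit 228) (nat_lit 1685614847) (nat_lit 304) (nat_lit 10893967857) (nat_lit 26) (nat_lit 5) (nat_lit 29) (nat_lit 5) (nat_lit 30) (nat_lit 5) (nat_lit 280) (nat_lit 250) (nat_lit 190))) (XT.nd (nat_lit 78) (nat_lit 0) (nat_lit 0) (XT.lf (nat_lit 0) (nat_lit 8034094804) (nat_lit 304) (nat_lit 6524623510) (nat_lit 76) (nat_lit 2667634265) (nat_lit 26) (nat_lit 5) (nat_lit 30) (nat_lit 5) (nat_lit 27) (nat_lit 5) (nat_lit 281) (nat_lit 250) (nat_lit 189)) (XT.lf (nat_lit 0) (nat_lit 10427233714) (nat_lit 304) (nat_lit 223898313) (nat_lit 76) (nat_lit 7175978868) (nat_lit 26) (nat_lit 5) (nat_lit 30) (nat_lit 5) (nat_lit 27) (nat_lit 5) (nat_lit 282) (nat_lit 250) (nat_lit 188)))) (XT.nd (nat_lit 156) (nat_lit 304) (nat_lit 0) (XT.nd (nat_lit 78) (nat_lit 0) (nat_lit 0) (XT.lf (nat_lit 0) (nat_lit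 6574331449) (nat_lit 152) (nat_lit 6447182071) (nat_lit 228) (nat_lit 5432415605) (nat_lit 24) (nat_lit 5) (nat_lit 26) (nat_lit 5) (nat_lit 27) (nat_lit 5) (nat_lit 283) (nat_lit 250) (nat_lit 187)) (XT.lf (nat_lit 0) (nat_lit 13692745414) (nat_lit 152) (nat_lit 2035972190) (nat_lit 228) (nat_lit 3384301764) (nat_lit 24) (nat_lit 5) (nat_lit 26) (nat_lit 5) (nat_lit 27) (nat_lit 5) (nat_lit 284) (nat_lit 250) (nat_lit 186))) (XT.nd (nat_lit 78) (nat_lit 76) (nat_lit 0) (XT.lf (nat_lit 0) (nat_lit 1337129332) (nat_lit 228) (nat_lit 17275852234) (nat_lit 304) (nat_lit 1190084826) (nat_lit 21) (nat_lit 5) (nat_lit 24) (nat_lit 5) (nat_lit 25) (nat_lit 5) (nat_lit 285) (nat_lit 250) (nat_lit 185)) (XT.lf (nat_lit 0) (nat_lit 1185291323) (nat_lit 304) (nat_lit 11982159120) (nat_lit 76) (nat_lit 7354020040) (nat_lit 20) (nat_lit 5) (nat_lit 24) (nat_lit 5) (nat_lit 21) (nat_lit 5) (nat_lit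 286) (nat_lit 250) (nat_lit 184)))))) (XT.nd (nat_lit 624) (nat_lit 380) (nat_lit 0) (XT.nd (nat_lit 312) (nat_lit 152) (nat_lit 0) (XT.nd (nat_lit 156) (nat_lit 0) (nat_lit 0) (XT.nd (nat_lit 78) (nat_lit 152) (nat_lit 0) (XT.lf (nat_lit 0) (nat_lit 3620795821) (nat_lit 304) (nat_lit 5219838934) (nat_lit 76) (nat_lit 12435192207) (nat_lit 20) (nat_lit 5) (nat_lit 24) (nat_lit 5) (nat_lit 21) (nat_lit 5) (nat_lit 287) (nat_lit 250) (nat_lit 183)) (XT.lf (nat_lit 0) (nat_lit 1917062800) (nat_lit 152) (nat_lit 4273185557) (nat_lit 228) (nat_lit 15877116051) (nat_lit 18) (nat_lit 5) (nat_lit 20) (nat_lit 5) (nat_lit 21) (nat_lit 5) (nat_lit 288) (nat_lit 250) (nat_lit 182))) (XT.nd (nat_lit 78) (nat_lit 0) (nat_lit 0) (XT.lf (nat_lit 0) (nat_lit 8968776001) (nat_lit 228) (nat_lit 13336948757) (nat_lit 76) (nat_lit 588792210) (nat_lit 18) (nat_lit 5) (nat_lit 21) (nat_lit 5) (nat_lit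 19) (nat_lit 5) (nat_lit 289) (nat_lit 250) (nat_lit 181)) (XT.lf (nat_lit 0) (nat_lit 11939704134) (nat_lit 228) (nat_lit 6277086860) (nat_lit 76) (nat_lit 5543627566) (nat_lit 18) (nat_lit 5) (nat_lit 21) (nat_lit 5) (nat_lit 19) (nat_lit 5) (nat_lit 290) (nat_lit 250) (nat_lit 180)))) (XT.nd (nat_lit 156) (nat_lit 0) (nat_lit 0) (XT.nd (nat_lit 78) (nat_lit 0) (nat_lit 0) (XT.lf (nat_lit 0) (nat_lit 1149604189) (nat_lit 152) (nat_lit 13911734344) (nat_lit 228) (nat_lit 9608230714) (nat_lit 16) (nat_lit 5) (nat_lit 18) (nat_lit 5) (nat_lit 19) (nat_lit 5) (nat_lit 291) (nat_lit 250) (nat_lit 179)) (XT.lf (nat_lit 0) (nat_lit 9142967919) (nat_lit 152) (nat_lit 9287002735) (nat_lit 228) (nat_lit 7189720072) (nat_lit 16) (nat_lit 5) (nat_lit 18) (nat_lit 5) (nat_lit 19) (nat_lit 5) (nat_lit 292) (nat_lit 250) (nat_lit 178))) (XT.nd (nat_lit 78) (nat_lit 0) (nat_lit 0) (XT.lf (nat_lit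 0) (nat_lit 17514487305) (nat_lit 152) (nat_lit 4437890405) (nat_lit 228) (nat_lit 4665729646) (nat_lit 16) (nat_lit 5) (nat_lit 18) (nat_lit 5) (nat_lit 19) (nat_lit 5) (nat_lit 293) (nat_lit 250) (nat_lit 177)) (XT.lf (nat_lit 0) (nat_lit 25647050182) (nat_lit 228) (nat_lit 1393205579) (nat_lit 76) (nat_lit 626435369) (nat_lit 16) (nat_lit 5) (nat_lit 19) (nat_lit 5) (nat_lit 17) (nat_lit 4) (nat_lit 294) (nat_lit 250) (nat_lit 176))))) (XT.nd (nat_lit 312) (nat_lit 76) (nat_lit 0) (XT.nd (nat_lit 156) (nat_lit 152) (nat_lit 0) (XT.nd (nat_lit 78) (nat_lit 0) (nat_lit 0) (XT.lf (nat_lit 0) (nat_lit 903110442) (nat_lit 152) (nat_lit 21945625273) (nat_lit 76) (nat_lit 5909992497) (nat_lit 14) (nat_lit 5) (nat_lit 16) (nat_lit 5) (nat_lit 15) (nat_lit 5) (nat_lit 295) (nat_lit 250) (nat_lit 175)) (XT.lf (nat_lit 0) (nat_lit 3914783777) (nat_lit 152) (nat_lit 14479880497) (nat_lit 76)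 (nat_lit 11508560826) (nat_lit 14) (nat_lit 5) (nat_lit 16) (nat_lit 5) (nat_lit 15) (nat_lit 5) (nat_lit 296) (nat_lit 250) (nat_lit 174))) (XT.nd (nat_lit 78) (nat_lit 152) (nat_lit 0) (XT.lf (nat_lit 0) (nat_lit 7064351394) (nat_lit 152) (nat_lit 6660175389) (nat_lit 76) (nat_lit 17381098589) (nat_lit 14) (nat_lit 5) (nat_lit 16) (nat_lit 5) (nat_lit 15) (nat_lit 5) (nat_lit 297) (nat_lit 250) (nat_lit 173)) (XT.lf (nat_lit 0) (nat_lit 1582766821) (nat_lit 152) (nat_lit 8801256867) (nat_lit 228) (nat_lit 21983532622) (nat_lit 12) (nat_lit 5) (nat_lit 14) (nat_lit 5) (nat_lit 15) (nat_lit 5) (nat_lit 298) (nat_lit 250) (nat_lit 172)))) (XT.nd (nat_lit 156) (nat_lit 76) (nat_lit 0) (XT.nd (nat_lit 78) (nat_lit 0) (nat_lit 0) (XT.lf (nat_lit 0) (nat_lit 10450972696) (nat_lit 152) (nat_lit 3519707805) (nat_lit 228) (nat_lit 19716893222) (nat_lit 12) (nat_lit 5) (nat_lit 14) (nat_lit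 5) (nat_lit 15) (nat_lit 5) (nat_lit 299) (nat_lit 250) (nat_lit 171)) (XT.lf (nat_lit 0) (nat_lit 17756975643) (nat_lit 228) (nat_lit 15360386418) (nat_lit 76) (nat_lit 1955252740) (nat_lit 12) (nat_lit 5) (nat_lit 15) (nat_lit 5) (nat_lit 13) (nat_lit 4) (nat_lit 300) (nat_lit 250) (nat_lit 170))) (XT.nd (nat_lit 78) (nat_lit 76) (nat_lit 0) (XT.lf (nat_lit 0) (nat_lit 21779500163) (nat_lit 228) (nat_lit 7164968830) (nat_lit 76) (nat_lit 7580129464) (nat_lit 12) (nat_lit 5) (nat_lit 15) (nat_lit 5) (nat_lit 13) (nat_lit 4) (nat_lit 301) (nat_lit 250) (nat_lit 169)) (XT.lf (nat_lit 0) (nat_lit 1471204880) (nat_lit 76) (nat_lit 24544643750) (nat_lit 152) (nat_lit 12032732309) (nat_lit 11) (nat_lit 5) (nat_lit 12) (nat_lit 5) (nat_lit 13) (nat_lit 4) (nat_lit 302) (nat_lit 250) (nat_lit 168))))))) (XT.nd (nat_lit 1248) (nat_lit 228) (nat_lit 0) (XT.nd (nat_lit 624) (nat_lit 76) (nat_lit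 0) (XT.nd (nat_lit 312) (nat_lit 152) (nat_lit 0) (XT.nd (nat_lit 156) (nat_lit 76) (nat_lit 0) (XT.nd (nat_lit 78) (nat_lit 0) (nat_lit 0) (XT.lf (nat_lit 0) (nat_lit 10772096033) (nat_lit 76) (nat_lit 19803230579) (nat_lit 152) (nat_lit 9067903212) (nat_lit 11) (nat_lit 5) (nat_lit 12) (nat_lit 5) (nat_lit 13) (nat_lit 4) (nat_lit 303) (nat_lit 250) (nat_lit 167)) (XT.lf (nat_lit 0) (nat_lit 20522943379) (nat_lit 76) (nat_lit 14830282617) (nat_lit 152) (nat_lit 5964894102) (nat_lit 11) (nat_lit 5) (nat_lit 12) (nat_lit 5) (nat_lit 13) (nat_lit 4) (nat_lit 304) (nat_lit 250) (nat_lit 166))) (XT.nd (nat_lit 78) (nat_lit 76) (nat_lit 0) (XT.lf (nat_lit 0) (nat_lit 30746963222) (nat_lit 76) (nat_lit 9613959511) (nat_lit 152) (nat_lit 2716316861) (nat_lit 11) (nat_lit 5) (nat_lit 12) (nat_lit 5) (nat_lit 13) (nat_lit 4) (nat_lit 305) (nat_lit 250) (nat_lit 165)) (XT.lf (nat_lit 0) (nat_lit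 663620914) (nat_lit 152) (nat_lit 3466981789) (nat_lit 76) (nat_lit 40793638811) (nat_lit 10) (nat_lit 5) (nat_lit 12) (nat_lit 5) (nat_lit 11) (nat_lit 5) (nat_lit 306) (nat_lit 250) (nat_lit 164)))) (XT.nd (nat_lit 156) (nat_lit 0) (nat_lit 0) (XT.nd (nat_lit 78) (nat_lit 0) (nat_lit 0) (XT.lf (nat_lit 0) (nat_lit 4233690660) (nat_lit 228) (nat_lit 40911957491) (nat_lit 76) (nat_lit 1710123597) (nat_lit 8) (nat_lit 5) (nat_lit 11) (nat_lit 5) (nat_lit 9) (nat_lit 4) (nat_lit 307) (nat_lit 250) (nat_lit 163)) (XT.lf (nat_lit 0) (nat_lit 8101362144) (nat_lit 228) (nat_lit 33017585745) (nat_lit 76) (nat_lit 7759000234) (nat_lit 8) (nat_lit 5) (nat_lit 11) (nat_lit 5) (nat_lit 9) (nat_lit 4) (nat_lit 308) (nat_lit 250) (nat_lit 162))) (XT.nd (nat_lit 78) (nat_lit 0) (nat_lit 0) (XT.lf (nat_lit 0) (nat_lit 12154518054) (nat_lit 228) (nat_lit 24741334981) (nat_lit 76) (nat_lit 14105798607)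 (nat_lit 8) (nat_lit 5) (nat_lit 11) (nat_lit 5) (nat_lit 9) (nat_lit 4) (nat_lit 309) (nat_lit 250) (nat_lit 161)) (XT.lf (nat_lit 0) (nat_lit 16402808762) (nat_lit 228) (nat_lit 16063499840) (nat_lit 76) (nat_lit 20765630143) (nat_lit 8) (nat_lit 5) (nat_lit 11) (nat_lit 5) (nat_lit 9) (nat_lit 4) (nat_lit 310) (nat_lit 250) (nat_lit 160))))) (XT.nd (nat_lit 312) (nat_lit 0) (nat_lit 0) (XT.nd (nat_lit 156) (nat_lit 0) (nat_lit 0) (XT.nd (nat_lit 78) (nat_lit 76) (nat_lit 0) (XT.lf (nat_lit 0) (nat_lit 20856349247) (nat_lit 228) (nat_lit 6963418811) (nat_lit 76) (nat_lit 27754351583) (nat_lit 8) (nat_lit 5) (nat_lit 11) (nat_lit 5) (nat_lit 9) (nat_lit 4) (nat_lit 311) (nat_lit 250) (nat_lit 159)) (XT.lf (nat_lit 0) (nat_lit 2665900429) (nat_lit 76) (nat_lit 22901464922) (nat_lit 152) (nat_lit 32464324488) (nat_lit 7) (nat_lit 5) (nat_lit 8) (nat_lit 5) (nat_lit 9) (nat_lit 4) (nat_lit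 312) (nat_lit 250) (nat_lit 158))) (XT.nd (nat_lit 78) (nat_lit 0) (nat_lit 0) (XT.lf (nat_lit 0) (nat_lit 13007527399) (nat_lit 76) (nat_lit 17617664709) (nat_lit 152) (nat_lit 29981402674) (nat_lit 7) (nat_lit 5) (nat_lit 8) (nat_lit 5) (nat_lit 9) (nat_lit 4) (nat_lit 313) (nat_lit 250) (nat_lit 157)) (XT.lf (nat_lit 0) (nat_lit 23855842944) (nat_lit 76) (nat_lit 12073715809) (nat_lit 152) (nat_lit 27381022103) (nat_lit 7) (nat_lit 5) (nat_lit 8) (nat_lit 5) (nat_lit 9) (nat_lit 4) (nat_lit 314) (nat_lit 250) (nat_lit 156)))) (XT.nd (nat_lit 156) (nat_lit 0) (nat_lit 0) (XT.nd (nat_lit 78) (nat_lit 0) (nat_lit 0) (XT.lf (nat_lit 0) (nat_lit 35236676389) (nat_lit 76) (nat_lit 6256418343) (nat_lit 152) (nat_lit 24656991392) (nat_lit 7) (nat_lit 5) (nat_lit 8) (nat_lit 5) (nat_lit 9) (nat_lit 4) (nat_lit 315) (nat_lit 250) (nat_lit 155)) (XT.lf (nat_lit 0) (nat_lit 47177124955) (nat_lit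 76) (nat_lit 151921603) (nat_lit 152) (nat_lit 21802824752) (nat_lit 7) (nat_lit 5) (nat_lit 8) (nat_lit 5) (nat_lit 9) (nat_lit 4) (nat_lit 316) (nat_lit 250) (nat_lit 154))) (XT.nd (nat_lit 78) (nat_lit 0) (nat_lit 0) (XT.lf (nat_lit 0) (nat_lit 53548956645) (nat_lit 152) (nat_lit 12655064914) (nat_lit 0) (nat_lit 6054131982) (nat_lit 7) (nat_lit 5) (nat_lit 9) (nat_lit 4) (nat_lit 7) (nat_lit 4) (nat_lit 317) (nat_lit 250) (nat_lit 153)) (XT.lf (nat_lit 0) (nat_lit 60077075493) (nat_lit 152) (nat_lit 2901664501) (nat_lit 0) (nat_lit 12562164292) (nat_lit 7) (nat_lit 5) (nat_lit 9) (nat_lit 4) (nat_lit 7) (nat_lit 4) (nat_lit 318) (nat_lit 250) (nat_lit 152)))))) (XT.nd (nat_lit 624) (nat_lit 76) (nat_lit 0) (XT.nd (nat_lit 312) (nat_lit 76) (nat_lit 0) (XT.nd (nat_lit 156) (nat_lit 0) (nat_lit 0) (XT.nd (nat_lit 78) (nat_lit 0) (nat_lit 0) (XT.lf (nat_lit 0) (nat_lit 7573446781)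 (nat_lit 76) (nat_lit 59471370266) (nat_lit 76) (nat_lit 11937329030) (nat_lit 6) (nat_lit 4) (nat_lit 7) (nat_lit 5) (nat_lit 7) (nat_lit 4) (nat_lit 319) (nat_lit 250) (nat_lit 151)) (XT.lf (nat_lit 0) (nat_lit 18664830908) (nat_lit 76) (nat_lit 55740340863) (nat_lit 76) (nat_lit 8188080546) (nat_lit 6) (nat_lit 4) (nat_lit 7) (nat_lit 5) (nat_lit 7) (nat_lit 4) (nat_lit 320) (nat_lit 250) (nat_lit 150))) (XT.nd (nat_lit 78) (nat_lit 0) (nat_lit 0) (XT.lf (nat_lit 0) (nat_lit 30302953804) (nat_lit 76) (nat_lit 51825909475) (nat_lit 76) (nat_lit 4256297652) (nat_lit 6) (nat_lit 4) (nat_lit 7) (nat_lit 5) (nat_lit 7) (nat_lit 4) (nat_lit 321) (nat_lit 250) (nat_lit 149)) (XT.lf (nat_lit 0) (nat_lit 42515525286) (nat_lit 76) (nat_lit 47718756026) (nat_lit 76) (nat_lit 132618960) (nat_lit 6) (nat_lit 4) (nat_lit 7) (nat_lit 5) (nat_lit 7) (nat_lit 4) (nat_lit 322) (nat_lit 250) (nat_lit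 148)))) (XT.nd (nat_lit 156) (nat_lit 0) (nat_lit 0) (XT.nd (nat_lit 78) (nat_lit 0) (nat_lit 0) (XT.lf (nat_lit 0) (nat_lit 4058578866) (nat_lit 152) (nat_lit 39281788716) (nat_lit 76) (nat_lit 51204310042) (nat_lit 5) (nat_lit 5) (nat_lit 7) (nat_lit 5) (nat_lit 6) (nat_lit 4) (nat_lit 323) (nat_lit 250) (nat_lit 147)) (XT.lf (nat_lit 0) (nat_lit 8450758965) (nat_lit 152) (nat_lit 30292808398) (nat_lit 76) (nat_lit 60187884522) (nat_lit 5) (nat_lit 5) (nat_lit 7) (nat_lit 5) (nat_lit 6) (nat_lit 4) (nat_lit 324) (nat_lit 250) (nat_lit 146))) (XT.nd (nat_lit 78) (nat_lit 0) (nat_lit 0) (XT.lf (nat_lit 0) (nat_lit 13058623542) (nat_lit 152) (nat_lit 20860961142) (nat_lit 76) (nat_lit 69618186596) (nat_lit 5) (nat_lit 5) (nat_lit 7) (nat_lit 5) (nat_lit 6) (nat_lit 4) (nat_lit 325) (nat_lit 250) (nat_lit 145)) (XT.lf (nat_lit 0) (nat_lit 17893143703) (nat_lit 152) (nat_lit 10963790170)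 (nat_lit 76) (nat_lit 79517669365) (nat_lit 5) (nat_lit 5) (nat_lit 7) (nat_lit 5) (nat_lit 6) (nat_lit 4) (nat_lit 326) (nat_lit 250) (nat_lit 144))))) (XT.nd (nat_lit 312) (nat_lit 0) (nat_lit 0) (XT.nd (nat_lit 156) (nat_lit 0) (nat_lit 0) (XT.nd (nat_lit 78) (nat_lit 76) (nat_lit 0) (XT.lf (nat_lit 0) (nat_lit 22965830211) (nat_lit 152) (nat_lit 577730789) (nat_lit 76) (nat_lit 89909903026) (nat_lit 5) (nat_lit 5) (nat_lit 7) (nat_lit 5) (nat_lit 6) (nat_lit 4) (nat_lit 327) (nat_lit 250) (nat_lit 143)) (XT.lf (nat_lit 0) (nat_lit 10663235852) (nat_lit 76) (nat_lit 17792008033) (nat_lit 152) (nat_lit 90322878135) (nat_lit 4) (nat_lit 5) (nat_lit 5) (nat_lit 5) (nat_lit 6) (nat_lit 4) (nat_lit 328) (nat_lit 250) (nat_lit 142))) (XT.nd (nat_lit 78) (nat_lit 0) (nat_lit 0) (XT.lf (nat_lit 0) (nat_lit 22480714196) (nat_lit 76) (nat_lit 11744882142) (nat_lit 152) (nat_lit 90143101561)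 (nat_lit 4) (nat_lit 5) (nat_lit 5) (nat_lit 5) (nat_lit 6) (nat_lit 4) (nat_lit 329) (nat_lit 250) (nat_lit 141)) (XT.lf (nat_lit 0) (nat_lit 34883738704) (nat_lit 76) (nat_lit 5397569557) (nat_lit 152) (nat_lit 89957660205) (nat_lit 4) (nat_lit 5) (nat_lit 5) (nat_lit 5) (nat_lit 6) (nat_lit 4) (nat_lit 330) (nat_lit 250) (nat_lit 140)))) (XT.nd (nat_lit 156) (nat_lit 0) (nat_lit 0) (XT.nd (nat_lit 78) (nat_lit 0) (nat_lit 0) (XT.lf (nat_lit 0) (nat_lit 46656548875) (nat_lit 152) (nat_lit 88520821030) (nat_lit 0) (nat_lit 1224553111) (nat_lit 4) (nat_lit 5) (nat_lit 6) (nat_lit 4) (nat_lit 4) (nat_lit 4) (nat_lit 331) (nat_lit 250) (nat_lit 139)) (XT.lf (nat_lit 0) (nat_lit 53436141007) (nat_lit 152) (nat_lit 81438128784) (nat_lit 0) (nat_lit 7994483275) (nat_lit 4) (nat_lit 5) (nat_lit 6) (nat_lit 4) (nat_lit 4) (nat_lit 4) (nat_lit 332) (nat_lit 250) (nat_lit 138))) (XT.nd (nat_lit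 78) (nat_lit 0) (nat_lit 0) (XT.lf (nat_lit 0) (nat_lit 60551955355) (nat_lit 152) (nat_lit 74006018286) (nat_lit 0) (nat_lit 15101095749) (nat_lit 4) (nat_lit 5) (nat_lit 6) (nat_lit 4) (nat_lit 4) (nat_lit 4) (nat_lit 333) (nat_lit 250) (nat_lit 137)) (XT.lf (nat_lit 0) (nat_lit 68020934335) (nat_lit 152) (nat_lit 66206794034) (nat_lit 0) (nat_lit 22561311039) (nat_lit 4) (nat_lit 5) (nat_lit 6) (nat_lit 4) (nat_lit 4) (nat_lit 4) (nat_lit 334) (nat_lit 250) (nat_lit 136))))))))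
noncomputable def xc123 : XT := (XT.nd (nat_lit 1248) (nat_lit 0) (nat_lit 0) (XT.nd (nat_lit 624) (nat_lit 0) (nat_lit 0) (XT.nd (nat_lit 312) (nat_lit 76) (nat_lit 0) (XT.nd (nat_lit 156) (nat_lit 0) (nat_lit 0) (XT.nd (nat_lit 78) (nat_lit 0) (nat_lit 0) (XT.lf (nat_lit 0) (nat_lit 75860861228) (nat_lit 152) (nat_lit 58021886446) (nat_lit 0) (nat_lit 30392891562) (nat_lit 4) (nat_lit 5) (nat_lit 6) (nat_lit 4) (nat_lit 4) (nat_lit 4) (nat_lit 335) (nat_lit 250) (nat_lit 135)) (XT.lf (nat_lit 0) (nat_lit 84090402530) (nat_lit 152) (nat_lit 49431807648) (nat_lit 0) (nat_lit 38614483938) (nat_lit 4) (nat_lit 5) (nat_lit 6) (nat_lit 4) (nat_lit 4) (nat_lit 4) (nat_lit 336) (nat_lit 250) (nat_lit 134))) (XT.nd (nat_lit 78) (nat_lit 0) (nat_lit 0) (XT.lf (nat_lit 0) (nat_lit 92729152384) (nat_lit 152) (nat_lit 40416105070) (nat_lit 0) (nat_lit 47245663388) (nat_lit 4) (nat_lit 5) (nat_lit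 6) (nat_lit 4) (nat_lit 4) (nat_lit 4) (nat_lit 337) (nat_lit 250) (nat_lit 133)) (XT.lf (nat_lit 0) (nat_lit 101797679244) (nat_lit 152) (nat_lit 30953312755) (nat_lit 0) (nat_lit 56306980339) (nat_lit 4) (nat_lit 5) (nat_lit 6) (nat_lit 4) (nat_lit 4) (nat_lit 4) (nat_lit 338) (nat_lit 250) (nat_lit 132)))) (XT.nd (nat_lit 156) (nat_lit 76) (nat_lit 0) (XT.nd (nat_lit 78) (nat_lit 0) (nat_lit 0) (XT.lf (nat_lit 0) (nat_lit 111317574839) (nat_lit 152) (nat_lit 21020900244) (nat_lit 0) (nat_lit 65820009354) (nat_lit 4) (nat_lit 5) (nat_lit 6) (nat_lit 4) (nat_lit 4) (nat_lit 4) (nat_lit 339) (nat_lit 250) (nat_lit 131)) (XT.lf (nat_lit 0) (nat_lit 121311505589) (nat_lit 152) (nat_lit 10595218936) (nat_lit 0) (nat_lit 75807400503) (nat_lit 4) (nat_lit 5) (nat_lit 6) (nat_lit 4) (nat_lit 4) (nat_lit 4) (nat_lit 340) (nat_lit 250) (nat_lit 130))) (XT.nd (nat_lit 78) (nat_lit 0) (nat_lit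 0) (XT.lf (nat_lit 0) (nat_lit 360078995) (nat_lit 76) (nat_lit 131448809411) (nat_lit 76) (nat_lit 85938476136) (nat_lit 3) (nat_lit 4) (nat_lit 4) (nat_lit 5) (nat_lit 4) (nat_lit 4) (nat_lit 341) (nat_lit 250) (nat_lit 129)) (XT.lf (nat_lit 0) (nat_lit 12227843170) (nat_lit 76) (nat_lit 130780905881) (nat_lit 76) (nat_lit 85264640996) (nat_lit 3) (nat_lit 4) (nat_lit 4) (nat_lit 5) (nat_lit 4) (nat_lit 4) (nat_lit 342) (nat_lit 250) (nat_lit 128))))) (XT.nd (nat_lit 312) (nat_lit 0) (nat_lit 0) (XT.nd (nat_lit 156) (nat_lit 0) (nat_lit 0) (XT.nd (nat_lit 78) (nat_lit 0) (nat_lit 0) (XT.lf (nat_lit 0) (nat_lit 24686004382) (nat_lit 76) (nat_lit 130080858848) (nat_lit 76) (nat_lit 84558944810) (nat_lit 3) (nat_lit 4) (nat_lit 4) (nat_lit 5) (nat_lit 4) (nat_lit 4) (nat_lit 343) (nat_lit 250) (nat_lit 127)) (XT.lf (nat_lit 0) (nat_lit 37764224920) (nat_lit 76) (nat_lit 129347001532)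 (nat_lit 76) (nat_lit 83819707348) (nat_lit 3) (nat_lit 4) (nat_lit 4) (nat_lit 5) (nat_lit 4) (nat_lit 4) (nat_lit 344) (nat_lit 250) (nat_lit 126))) (XT.nd (nat_lit 78) (nat_lit 0) (nat_lit 0) (XT.lf (nat_lit 0) (nat_lit 51493643403) (nat_lit 76) (nat_lit 128577586654) (nat_lit 76) (nat_lit 83045168523) (nat_lit 3) (nat_lit 4) (nat_lit 4) (nat_lit 5) (nat_lit 4) (nat_lit 4) (nat_lit 345) (nat_lit 250) (nat_lit 125)) (XT.lf (nat_lit 0) (nat_lit 65906948924) (nat_lit 76) (nat_lit 127770782274) (nat_lit 76) (nat_lit 82233484193) (nat_lit 3) (nat_lit 4) (nat_lit 4) (nat_lit 5) (nat_lit 4) (nat_lit 4) (nat_lit 346) (nat_lit 250) (nat_lit 124)))) (XT.nd (nat_lit 156) (nat_lit 0) (nat_lit 0) (XT.nd (nat_lit 78) (nat_lit 0) (nat_lit 0) (XT.lf (nat_lit 0) (nat_lit 81038458877) (nat_lit 76) (nat_lit 126924667430) (nat_lit 76) (nat_lit 81382721776) (nat_lit 3) (nat_lit 4) (nat_lit 4) (nat_lit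 5) (nat_lit 4) (nat_lit 4) (nat_lit 347) (nat_lit 250) (nat_lit 123)) (XT.lf (nat_lit 0) (nat_lit 96924200666) (nat_lit 76) (nat_lit 126037227561) (nat_lit 76) (nat_lit 80490855649) (nat_lit 3) (nat_lit 4) (nat_lit 4) (nat_lit 5) (nat_lit 4) (nat_lit 4) (nat_lit 348) (nat_lit 250) (nat_lit 122))) (XT.nd (nat_lit 78) (nat_lit 0) (nat_lit 0) (XT.lf (nat_lit 0) (nat_lit 113601997485) (nat_lit 76) (nat_lit 125106349717) (nat_lit 76) (nat_lit 79555762321) (nat_lit 3) (nat_lit 4) (nat_lit 4) (nat_lit 5) (nat_lit 4) (nat_lit 4) (nat_lit 349) (nat_lit 250) (nat_lit 121)) (XT.lf (nat_lit 0) (nat_lit 131111558376) (nat_lit 76) (nat_lit 124129817521) (nat_lit 76) (nat_lit 78575215377) (nat_lit 3) (nat_lit 4) (nat_lit 4) (nat_lit 5) (nat_lit 4) (nat_lit 4) (nat_lit 350) (nat_lit 250) (nat_lit 120)))))) (XT.nd (nat_lit 30030) (nat_lit 0) (nat_lit 4484) (XT.nd (nat_lit 29718) (nat_lit 0) (nat_lit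 4864) (XT.nd (nat_lit 156) (nat_lit 0) (nat_lit 0) (XT.nd (nat_lit 78) (nat_lit 0) (nat_lit 0) (XT.lf (nat_lit 0) (nat_lit 149494572768) (nat_lit 76) (nat_lit 123105305896) (nat_lit 76) (nat_lit 77546880184) (nat_lit 3) (nat_lit 4) (nat_lit 4) (nat_lit 5) (nat_lit 4) (nat_lit 4) (nat_lit 351) (nat_lit 250) (nat_lit 119)) (XT.lf (nat_lit 0) (nat_lit 168794809745) (nat_lit 76) (nat_lit 122030375530) (nat_lit 76) (nat_lit 76468308324) (nat_lit 3) (nat_lit 4) (nat_lit 4) (nat_lit 5) (nat_lit 4) (nat_lit 4) (nat_lit 352) (nat_lit 250) (nat_lit 118))) (XT.nd (nat_lit 78) (nat_lit 0) (nat_lit 0) (XT.lf (nat_lit 0) (nat_lit 189058222249) (nat_lit 76) (nat_lit 120902467064) (nat_lit 76) (nat_lit 75336931768) (nat_lit 3) (nat_lit 4) (nat_lit 4) (nat_lit 5) (nat_lit 4) (nat_lit 4) (nat_lit 353) (nat_lit 250) (nat_lit 117)) (XT.lf (nat_lit 0) (nat_lit 210333056503) (nat_lit 76) (nat_lit 119718895002)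 (nat_lit 76) (nat_lit 74150056764) (nat_lit 3) (nat_lit 4) (nat_lit 4) (nat_lit 5) (nat_lit 4) (nat_lit 4) (nat_lit 354) (nat_lit 250) (nat_lit 116)))) (XT.nd (nat_lit 156) (nat_lit 532) (nat_lit 0) (XT.nd (nat_lit 78) (nat_lit 0) (nat_lit 0) (XT.lf (nat_lit 0) (nat_lit 3054191258) (nat_lit 532) (nat_lit 451306183) (nat_lit 532) (nat_lit 451306183) (nat_lit 74) (nat_lit 3) (nat_lit 81) (nat_lit 3) (nat_lit 81) (nat_lit 5) (nat_lit 251) (nat_lit 251) (nat_lit 218)) (XT.lf (nat_lit 76) (nat_lit 2313601372) (nat_lit 0) (nat_lit 5023744915) (nat_lit 532) (nat_lit 712769752) (nat_lit 75) (nat_lit 5) (nat_lit 74) (nat_lit 3) (nat_lit 81) (nat_lit 5) (nat_lit 252) (nat_lit 251) (nat_lit 217))) (XT.nd (nat_lit 78) (nat_lit 0) (nat_lit 0) (XT.lf (nat_lit 0) (nat_lit 367228349) (nat_lit 532) (nat_lit 2516844929) (nat_lit 608) (nat_lit 5312155272) (nat_lit 67) (nat_lit 5) (nat_lit 74) (nat_lit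 3) (nat_lit 75) (nat_lit 5) (nat_lit 253) (nat_lit 251) (nat_lit 216)) (XT.lf (nat_lit 76) (nat_lit 841839005) (nat_lit 0) (nat_lit 583133429) (nat_lit 608) (nat_lit 6927141570) (nat_lit 68) (nat_lit 5) (nat_lit 67) (nat_lit 5) (nat_lit 75) (nat_lit 5) (nat_lit 254) (nat_lit 251) (nat_lit 215))))) (XT.nd (nat_lit 312) (nat_lit 456) (nat_lit 0) (XT.nd (nat_lit 156) (nat_lit 0) (nat_lit 0) (XT.nd (nat_lit 78) (nat_lit 0) (nat_lit 0) (XT.lf (nat_lit 0) (nat_lit 2545053453) (nat_lit 532) (nat_lit 4127740013) (nat_lit 608) (nat_lit 1842943534) (nat_lit 68) (nat_lit 5) (nat_lit 75) (nat_lit 5) (nat_lit 76) (nat_lit 5) (nat_lit 255) (nat_lit 251) (nat_lit 214)) (XT.lf (nat_lit 0) (nat_lit 3671184761) (nat_lit 532) (nat_lit 624303613) (nat_lit 608) (nat_lit 4394946417) (nat_lit 68) (nat_lit 5) (nat_lit 75) (nat_lit 5) (nat_lit 76) (nat_lit 5) (nat_lit 256) (nat_lit 251) (nat_lit 213))) (XT.nd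 (nat_lit 78) (nat_lit 0) (nat_lit 76) (XT.lf (nat_lit 76) (nat_lit 3117251579) (nat_lit 0) (nat_lit 1728360732) (nat_lit 608) (nat_lit 4029032780) (nat_lit 69) (nat_lit 5) (nat_lit 68) (nat_lit 5) (nat_lit 76) (nat_lit 5) (nat_lit 257) (nat_lit 251) (nat_lit 212)) (XT.lf (nat_lit 0) (nat_lit 6050346909) (nat_lit 532) (nat_lit 2054854152) (nat_lit 608) (nat_lit 964644710) (nat_lit 69) (nat_lit 5) (nat_lit 76) (nat_lit 5) (nat_lit 77) (nat_lit 5) (nat_lit 258) (nat_lit 251) (nat_lit 211)))) (XT.nd (nat_lit 156) (nat_lit 532) (nat_lit 0) (XT.nd (nat_lit 78) (nat_lit 0) (nat_lit 0) (XT.lf (nat_lit 76) (nat_lit 1825178357) (nat_lit 0) (nat_lit 5495293575) (nat_lit 608) (nat_lit 1954418909) (nat_lit 70) (nat_lit 5) (nat_lit 69) (nat_lit 5) (nat_lit 77) (nat_lit 5) (nat_lit 259) (nat_lit 251) (nat_lit 210)) (XT.lf (nat_lit 76) (nat_lit 5933443586) (nat_lit 0) (nat_lit 2705664736) (nat_lit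 608) (nat_lit 852155342) (nat_lit 70) (nat_lit 5) (nat_lit 69) (nat_lit 5) (nat_lit 77) (nat_lit 5) (nat_lit 260) (nat_lit 251) (nat_lit 209))) (XT.nd (nat_lit 78) (nat_lit 0) (nat_lit 0) (XT.lf (nat_lit 0) (nat_lit 258671593) (nat_lit 608) (nat_lit 9221664230) (nat_lit 76) (nat_lit 240015550) (nat_lit 62) (nat_lit 5) (nat_lit 70) (nat_lit 5) (nat_lit 63) (nat_lit 5) (nat_lit 261) (nat_lit 251) (nat_lit 208)) (XT.lf (nat_lit 0) (nat_lit 1455392385) (nat_lit 608) (nat_lit 5175072125) (nat_lit 76) (nat_lit 3327062343) (nat_lit 62) (nat_lit 5) (nat_lit 70) (nat_lit 5) (nat_lit 63) (nat_lit 5) (nat_lit 262) (nat_lit 251) (nat_lit 207)))))))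
noncomputable def xc124 : XT := (XT.nd (nat_lit 1248) (nat_lit 988) (nat_lit 0) (XT.nd (nat_lit 624) (nat_lit 1064) (nat_lit 0) (XT.nd (nat_lit 312) (nat_lit 380) (nat_lit 0) (XT.nd (nat_lit 156) (nat_lit 456) (nat_lit 0) (XT.nd (nat_lit 78) (nat_lit 608) (nat_lit 0) (XT.lf (nat_lit 0) (nat_lit 2667562732) (nat_lit 608) (nat_lit 963691230) (nat_lit 76) (nat_lit 6577794470) (nat_lit 62) (nat_lit 5) (nat_lit 70) (nat_lit 5) (nat_lit 63) (nat_lit 5) (nat_lit 263) (nat_lit 251) (nat_lit 206)) (XT.lf (nat_lit 0) (nat_lit 3535669043) (nat_lit 608) (nat_lit 417601412) (nat_lit 684) (nat_lit 6519484429) (nat_lit 54) (nat_lit 5) (nat_lit 62) (nat_lit 5) (nat_lit 63) (nat_lit 5) (nat_lit 264) (nat_lit 251) (nat_lit 205))) (XT.nd (nat_lit 78) (nat_lit 456) (nat_lit 0) (XT.lf (nat_lit 0) (nat_lit 5325293480) (nat_lit 684) (nat_lit 2539354538) (nat_lit 76) (nat_lit 2884140230) (nat_lit 54) (nat_lit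 5) (nat_lit 63) (nat_lit 5) (nat_lit 55) (nat_lit 5) (nat_lit 265) (nat_lit 251) (nat_lit 204)) (XT.lf (nat_lit 0) (nat_lit 2102965463) (nat_lit 456) (nat_lit 4663849289) (nat_lit 532) (nat_lit 4271995182) (nat_lit 48) (nat_lit 5) (nat_lit 54) (nat_lit 5) (nat_lit 55) (nat_lit 5) (nat_lit 266) (nat_lit 251) (nat_lit 203)))) (XT.nd (nat_lit 156) (nat_lit 76) (nat_lit 0) (XT.nd (nat_lit 78) (nat_lit 304) (nat_lit 0) (XT.lf (nat_lit 0) (nat_lit 7030378922) (nat_lit 456) (nat_lit 1255553804) (nat_lit 532) (nat_lit 3057344429) (nat_lit 48) (nat_lit 5) (nat_lit 54) (nat_lit 5) (nat_lit 55) (nat_lit 5) (nat_lit 267) (nat_lit 251) (nat_lit 202)) (XT.lf (nat_lit 0) (nat_lit 484907406) (nat_lit 304) (nat_lit 9404275580) (nat_lit 380) (nat_lit 1773585919) (nat_lit 44) (nat_lit 5) (nat_lit 48) (nat_lit 5) (nat_lit 49) (nat_lit 5) (nat_lit 268) (nat_lit 251) (nat_lit 201))) (XT.nd (nat_lit 78)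 (nat_lit 76) (nat_lit 0) (XT.lf (nat_lit 0) (nat_lit 5616110192) (nat_lit 304) (nat_lit 6015264560) (nat_lit 380) (nat_lit 364121525) (nat_lit 44) (nat_lit 5) (nat_lit 48) (nat_lit 5) (nat_lit 49) (nat_lit 5) (nat_lit 269) (nat_lit 251) (nat_lit 200)) (XT.lf (nat_lit 0) (nat_lit 1046510372) (nat_lit 380) (nat_lit 1392998905) (nat_lit 76) (nat_lit 9906340715) (nat_lit 43) (nat_lit 5) (nat_lit 48) (nat_lit 5) (nat_lit 44) (nat_lit 5) (nat_lit 270) (nat_lit 251) (nat_lit 199))))) (XT.nd (nat_lit 312) (nat_lit 532) (nat_lit 0) (XT.nd (nat_lit 156) (nat_lit 228) (nat_lit 0) (XT.nd (nat_lit 78) (nat_lit 0) (nat_lit 0) (XT.lf (nat_lit 0) (nat_lit 2566415675) (nat_lit 380) (nat_lit 8804182637) (nat_lit 76) (nat_lit 1340448442) (nat_lit 39) (nat_lit 5) (nat_lit 44) (nat_lit 5) (nat_lit 40) (nat_lit 5) (nat_lit 271) (nat_lit 251) (nat_lit 198)) (XT.lf (nat_lit 0) (nat_lit 4195288059) (nat_lit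 380) (nat_lit 3647723744) (nat_lit 76) (nat_lit 5250007489) (nat_lit 39) (nat_lit 5) (nat_lit 44) (nat_lit 5) (nat_lit 40) (nat_lit 5) (nat_lit 272) (nat_lit 251) (nat_lit 197))) (XT.nd (nat_lit 78) (nat_lit 0) (nat_lit 0) (XT.lf (nat_lit 0) (nat_lit 1791415216) (nat_lit 228) (nat_lit 4112635962) (nat_lit 304) (nat_lit 7590273617) (nat_lit 36) (nat_lit 5) (nat_lit 39) (nat_lit 5) (nat_lit 40) (nat_lit 5) (nat_lit 273) (nat_lit 251) (nat_lit 196)) (XT.lf (nat_lit 0) (nat_lit 7597196367) (nat_lit 228) (nat_lit 134217049) (nat_lit 304) (nat_lit 6182773342) (nat_lit 36) (nat_lit 5) (nat_lit 39) (nat_lit 5) (nat_lit 40) (nat_lit 5) (nat_lit 274) (nat_lit 251) (nat_lit 195)))) (XT.nd (nat_lit 156) (nat_lit 304) (nat_lit 0) (XT.nd (nat_lit 78) (nat_lit 228) (nat_lit 0) (XT.lf (nat_lit 0) (nat_lit 9685966186) (nat_lit 304) (nat_lit 756788597) (nat_lit 76) (nat_lit 3910638041) (nat_lit 36)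 (nat_lit 5) (nat_lit 40) (nat_lit 5) (nat_lit 37) (nat_lit 5) (nat_lit 275) (nat_lit 251) (nat_lit 194)) (XT.lf (nat_lit 0) (nat_lit 5215790519) (nat_lit 228) (nat_lit 6580087503) (nat_lit 304) (nat_lit 3015934958) (nat_lit 33) (nat_lit 5) (nat_lit 36) (nat_lit 5) (nat_lit 37) (nat_lit 5) (nat_lit 276) (nat_lit 251) (nat_lit 193))) (XT.nd (nat_lit 78) (nat_lit 304) (nat_lit 0) (XT.lf (nat_lit 0) (nat_lit 11483392071) (nat_lit 228) (nat_lit 2515479672) (nat_lit 304) (nat_lit 1295031999) (nat_lit 33) (nat_lit 5) (nat_lit 36) (nat_lit 5) (nat_lit 37) (nat_lit 5) (nat_lit 277) (nat_lit 251) (nat_lit 192)) (XT.lf (nat_lit 0) (nat_lit 534911099) (nat_lit 304) (nat_lit 13526723534) (nat_lit 76) (nat_lit 1736212739) (nat_lit 29) (nat_lit 5) (nat_lit 33) (nat_lit 5) (nat_lit 30) (nat_lit 5) (nat_lit 278) (nat_lit 251) (nat_lit 191)))))) (XT.nd (nat_lit 624) (nat_lit 380) (nat_lit 0) (XT.nd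 (nat_lit 312) (nat_lit 380) (nat_lit 0) (XT.nd (nat_lit 156) (nat_lit 228) (nat_lit 0) (XT.nd (nat_lit 78) (nat_lit 0) (nat_lit 0) (XT.lf (nat_lit 0) (nat_lit 2495754143) (nat_lit 304) (nat_lit 7628288566) (nat_lit 76) (nat_lit 6197849114) (nat_lit 29) (nat_lit 5) (nat_lit 33) (nat_lit 5) (nat_lit 30) (nat_lit 5) (nat_lit 279) (nat_lit 251) (nat_lit 190)) (XT.lf (nat_lit 0) (nat_lit 4531873824) (nat_lit 304) (nat_lit 1463632033) (nat_lit 76) (nat_lit 10877876973) (nat_lit 29) (nat_lit 5) (nat_lit 33) (nat_lit 5) (nat_lit 30) (nat_lit 5) (nat_lit 280) (nat_lit 251) (nat_lit 189))) (XT.nd (nat_lit 78) (nat_lit 0) (nat_lit 0) (XT.lf (nat_lit 0) (nat_lit 5146648720) (nat_lit 228) (nat_lit 1581822938) (nat_lit 304) (nat_lit 10721144127) (nat_lit 26) (nat_lit 5) (nat_lit 29) (nat_lit 5) (nat_lit 30) (nat_lit 5) (nat_lit 281) (nat_lit 251) (nat_lit 188)) (XT.lf (nat_lit 0) (nat_lit 9086592031)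 (nat_lit 304) (nat_lit 5991179989) (nat_lit 76) (nat_lit 2974399932) (nat_lit 26) (nat_lit 5) (nat_lit 30) (nat_lit 5) (nat_lit 27) (nat_lit 5) (nat_lit 282) (nat_lit 251) (nat_lit 187)))) (XT.nd (nat_lit 156) (nat_lit 228) (nat_lit 0) (XT.nd (nat_lit 78) (nat_lit 0) (nat_lit 0) (XT.lf (nat_lit 0) (nat_lit 602942502) (nat_lit 152) (nat_lit 10974868887) (nat_lit 228) (nat_lit 7106376505) (nat_lit 24) (nat_lit 5) (nat_lit 26) (nat_lit 5) (nat_lit 27) (nat_lit 5) (nat_lit 283) (nat_lit 251) (nat_lit 186)) (XT.lf (nat_lit 0) (nat_lit 7708580379) (nat_lit 152) (nat_lit 6566873404) (nat_lit 228) (nat_lit 5068345002) (nat_lit 24) (nat_lit 5) (nat_lit 26) (nat_lit 5) (nat_lit 27) (nat_lit 5) (nat_lit 284) (nat_lit 251) (nat_lit 185))) (XT.nd (nat_lit 78) (nat_lit 228) (nat_lit 0) (XT.lf (nat_lit 0) (nat_lit 15144556359) (nat_lit 152) (nat_lit 1944753875) (nat_lit 228) (nat_lit 2948096487)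 (nat_lit 24) (nat_lit 5) (nat_lit 26) (nat_lit 5) (nat_lit 27) (nat_lit 5) (nat_lit 285) (nat_lit 251) (nat_lit 184)) (XT.lf (nat_lit 0) (nat_lit 2186580137) (nat_lit 228) (nat_lit 17918954984) (nat_lit 304) (nat_lit 657155293) (nat_lit 21) (nat_lit 5) (nat_lit 24) (nat_lit 5) (nat_lit 25) (nat_lit 5) (nat_lit 286) (nat_lit 251) (nat_lit 183))))) (XT.nd (nat_lit 312) (nat_lit 152) (nat_lit 0) (XT.nd (nat_lit 156) (nat_lit 152) (nat_lit 0) (XT.nd (nat_lit 78) (nat_lit 0) (nat_lit 0) (XT.lf (nat_lit 0) (nat_lit 1790719883) (nat_lit 304) (nat_lit 11815672710) (nat_lit 76) (nat_lit 7911635438) (nat_lit 20) (nat_lit 5) (nat_lit 24) (nat_lit 5) (nat_lit 21) (nat_lit 5) (nat_lit 287) (nat_lit 251) (nat_lit 182)) (XT.lf (nat_lit 0) (nat_lit 4321991797) (nat_lit 304) (nat_lit 4751693389) (nat_lit 76) (nat_lit 13237822671) (nat_lit 20) (nat_lit 5) (nat_lit 24) (nat_lit 5) (nat_lit 21) (nat_lit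 5) (nat_lit 288) (nat_lit 251) (nat_lit 181))) (XT.nd (nat_lit 78) (nat_lit 0) (nat_lit 0) (XT.lf (nat_lit 0) (nat_lit 2730293150) (nat_lit 152) (nat_lit 4276054737) (nat_lit 228) (nat_lit 16137052868) (nat_lit 18) (nat_lit 5) (nat_lit 20) (nat_lit 5) (nat_lit 21) (nat_lit 5) (nat_lit 289) (nat_lit 251) (nat_lit 180)) (XT.lf (nat_lit 0) (nat_lit 9902813026) (nat_lit 228) (nat_lit 13297683757) (nat_lit 76) (nat_lit 812558962) (nat_lit 18) (nat_lit 5) (nat_lit 21) (nat_lit 5) (nat_lit 19) (nat_lit 5) (nat_lit 290) (nat_lit 251) (nat_lit 179)))) (XT.nd (nat_lit 156) (nat_lit 0) (nat_lit 0) (XT.nd (nat_lit 78) (nat_lit 152) (nat_lit 0) (XT.lf (nat_lit 0) (nat_lit 12999163840) (nat_lit 228) (nat_lit 5918453168) (nat_lit 76) (nat_lit 6005882413) (nat_lit 18) (nat_lit 5) (nat_lit 21) (nat_lit 5) (nat_lit 19) (nat_lit 5) (nat_lit 291) (nat_lit 251) (nat_lit 178)) (XT.lf (nat_lit 0) (nat_lit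 1868725854) (nat_lit 152) (nat_lit 14396461588) (nat_lit 228) (nat_lit 9613591318) (nat_lit 16) (nat_lit 5) (nat_lit 18) (nat_lit 5) (nat_lit 19) (nat_lit 5) (nat_lit 292) (nat_lit 251) (nat_lit 177))) (XT.nd (nat_lit 78) (nat_lit 0) (nat_lit 0) (XT.lf (nat_lit 0) (nat_lit 10230251033) (nat_lit 152) (nat_lit 9550534326) (nat_lit 228) (nat_lit 7096776617) (nat_lit 16) (nat_lit 5) (nat_lit 18) (nat_lit 5) (nat_lit 19) (nat_lit 5) (nat_lit 293) (nat_lit 251) (nat_lit 176)) (XT.nd (nat_lit 78) (nat_lit 0) (nat_lit 0) (XT.lf (nat_lit 0) (nat_lit 18990339974) (nat_lit 152) (nat_lit 4468529167) (nat_lit 228) (nat_lit 4468130930) (nat_lit 16) (nat_lit 5) (nat_lit 18) (nat_lit 5) (nat_lit 19) (nat_lit 5) (nat_lit 294) (nat_lit 251) (nat_lit 175)) (XT.lf (nat_lit 0) (nat_lit 27321648961) (nat_lit 228) (nat_lit 873194508) (nat_lit 76) (nat_lit 834075594) (nat_lit 16) (nat_lit 5) (nat_lit 19)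 (nat_lit 5) (nat_lit 17) (nat_lit 4) (nat_lit 295) (nat_lit 251) (nat_lit 174))))))))
noncomputable def xc125 : XT := (XT.nd (nat_lit 1248) (nat_lit 228) (nat_lit 0) (XT.nd (nat_lit 624) (nat_lit 228) (nat_lit 0) (XT.nd (nat_lit 312) (nat_lit 76) (nat_lit 0) (XT.nd (nat_lit 156) (nat_lit 152) (nat_lit 0) (XT.nd (nat_lit 78) (nat_lit 0) (nat_lit 0) (XT.lf (nat_lit 0) (nat_lit 1338541929) (nat_lit 152) (nat_lit 22448486345) (nat_lit 76) (nat_lit 6388767167) (nat_lit 14) (nat_lit 5) (nat_lit 16) (nat_lit 5) (nat_lit 15) (nat_lit 5) (nat_lit 296) (nat_lit 251) (nat_lit 173)) (XT.lf (nat_lit 0) (nat_lit 4482214362) (nat_lit 152) (nat_lit 14637760054) (nat_lit 76) (nat_lit 12258536529) (nat_lit 14) (nat_lit 5) (nat_lit 16) (nat_lit 5) (nat_lit 15) (nat_lit 5) (nat_lit 297) (nat_lit 251) (nat_lit 172))) (XT.nd (nat_lit 78) (nat_lit 152) (nat_lit 0) (XT.lf (nat_lit 0) (nat_lit 7771560769)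 (nat_lit 152) (nat_lit 6454027522) (nat_lit 76) (nat_lit 18416389386) (nat_lit 14) (nat_lit 5) (nat_lit 16) (nat_lit 5) (nat_lit 15) (nat_lit 5) (nat_lit 298) (nat_lit 251) (nat_lit 171)) (XT.lf (nat_lit 0) (nat_lit 2192365724) (nat_lit 152) (nat_lit 9056276178) (nat_lit 228) (nat_lit 22718850543) (nat_lit 12) (nat_lit 5) (nat_lit 14) (nat_lit 5) (nat_lit 15) (nat_lit 5) (nat_lit 299) (nat_lit 251) (nat_lit 170)))) (XT.nd (nat_lit 156) (nat_lit 76) (nat_lit 0) (XT.nd (nat_lit 78) (nat_lit 0) (nat_lit 0) (XT.lf (nat_lit 0) (nat_lit 11478721866) (nat_lit 152) (nat_lit 3519461259) (nat_lit 228) (nat_lit 20356205778) (nat_lit 12) (nat_lit 5) (nat_lit 14) (nat_lit 5) (nat_lit 15) (nat_lit 5) (nat_lit 300) (nat_lit 251) (nat_lit 169)) (XT.lf (nat_lit 0) (nat_lit 18960748304) (nat_lit 228) (nat_lit 15633155674) (nat_lit 76) (nat_lit 2215483390) (nat_lit 12) (nat_lit 5) (nat_lit 15) (nat_lit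 5) (nat_lit 13) (nat_lit 4) (nat_lit 301) (nat_lit 251) (nat_lit 168))) (XT.nd (nat_lit 78) (nat_lit 76) (nat_lit 0) (XT.lf (nat_lit 0) (nat_lit 23169355056) (nat_lit 228) (nat_lit 7051550544) (nat_lit 76) (nat_lit 8113867378) (nat_lit 12) (nat_lit 5) (nat_lit 15) (nat_lit 5) (nat_lit 13) (nat_lit 4) (nat_lit 302) (nat_lit 251) (nat_lit 167)) (XT.lf (nat_lit 0) (nat_lit 2008824324) (nat_lit 76) (nat_lit 25601614273) (nat_lit 152) (nat_lit 12324918266) (nat_lit 11) (nat_lit 5) (nat_lit 12) (nat_lit 5) (nat_lit 13) (nat_lit 4) (nat_lit 303) (nat_lit 251) (nat_lit 166))))) (XT.nd (nat_lit 312) (nat_lit 152) (nat_lit 0) (XT.nd (nat_lit 156) (nat_lit 76) (nat_lit 0) (XT.nd (nat_lit 78) (nat_lit 0) (nat_lit 0) (XT.lf (nat_lit 0) (nat_lit 11752661977) (nat_lit 76) (nat_lit 20631238142) (nat_lit 152) (nat_lit 9226583460) (nat_lit 11) (nat_lit 5) (nat_lit 12) (nat_lit 5) (nat_lit 13) (nat_lit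 4) (nat_lit 304) (nat_lit 251) (nat_lit 165)) (XT.lf (nat_lit 0) (nat_lit 21970005922) (nat_lit 76) (nat_lit 15417364400) (nat_lit 152) (nat_lit 5982457938) (nat_lit 11) (nat_lit 5) (nat_lit 12) (nat_lit 5) (nat_lit 13) (nat_lit 4) (nat_lit 305) (nat_lit 251) (nat_lit 164))) (XT.nd (nat_lit 78) (nat_lit 76) (nat_lit 0) (XT.lf (nat_lit 0) (nat_lit 32685183168) (nat_lit 76) (nat_lit 9947579060) (nat_lit 152) (nat_lit 2584817590) (nat_lit 11) (nat_lit 5) (nat_lit 12) (nat_lit 5) (nat_lit 13) (nat_lit 4) (nat_lit 306) (nat_lit 251) (nat_lit 163)) (XT.lf (nat_lit 0) (nat_lit 943239446) (nat_lit 152) (nat_lit 3249645161) (nat_lit 76) (nat_lit 42964492379) (nat_lit 10) (nat_lit 5) (nat_lit 12) (nat_lit 5) (nat_lit 11) (nat_lit 5) (nat_lit 307) (nat_lit 251) (nat_lit 162)))) (XT.nd (nat_lit 156) (nat_lit 0) (nat_lit 0) (XT.nd (nat_lit 78) (nat_lit 0) (nat_lit 0) (XT.lf (nat_lit 0) (nat_lit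 4688322136) (nat_lit 228) (nat_lit 42562660315) (nat_lit 76) (nat_lit 1934711749) (nat_lit 8) (nat_lit 5) (nat_lit 11) (nat_lit 5) (nat_lit 9) (nat_lit 4) (nat_lit 308) (nat_lit 251) (nat_lit 161)) (XT.lf (nat_lit 0) (nat_lit 8737808291) (nat_lit 228) (nat_lit 34292374509) (nat_lit 76) (nat_lit 8279409266) (nat_lit 8) (nat_lit 5) (nat_lit 11) (nat_lit 5) (nat_lit 9) (nat_lit 4) (nat_lit 309) (nat_lit 251) (nat_lit 160))) (XT.nd (nat_lit 78) (nat_lit 0) (nat_lit 0) (XT.lf (nat_lit 0) (nat_lit 12982603995) (nat_lit 228) (nat_lit 25620220279) (nat_lit 76) (nat_lit 14937239986) (nat_lit 8) (nat_lit 5) (nat_lit 11) (nat_lit 5) (nat_lit 9) (nat_lit 4) (nat_lit 310) (nat_lit 251) (nat_lit 159)) (XT.lf (nat_lit 0) (nat_lit 17432815904) (nat_lit 228) (nat_lit 16525549641) (nat_lit 76) (nat_lit 21924055887) (nat_lit 8) (nat_lit 5) (nat_lit 11) (nat_lit 5) (nat_lit 9) (nat_lit 4) (nat_lit 311)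 (nat_lit 251) (nat_lit 158)))))) (XT.nd (nat_lit 624) (nat_lit 152) (nat_lit 0) (XT.nd (nat_lit 312) (nat_lit 0) (nat_lit 0) (XT.nd (nat_lit 156) (nat_lit 0) (nat_lit 0) (XT.nd (nat_lit 78) (nat_lit 76) (nat_lit 0) (XT.lf (nat_lit 0) (nat_lit 22099039760) (nat_lit 228) (nat_lit 6986708617) (nat_lit 76) (nat_lit 29256492245) (nat_lit 8) (nat_lit 5) (nat_lit 11) (nat_lit 5) (nat_lit 9) (nat_lit 4) (nat_lit 312) (nat_lit 251) (nat_lit 157)) (XT.lf (nat_lit 0) (nat_lit 3118836567) (nat_lit 76) (nat_lit 23922242832) (nat_lit 152) (nat_lit 33881864453) (nat_lit 7) (nat_lit 5) (nat_lit 8) (nat_lit 5) (nat_lit 9) (nat_lit 4) (nat_lit 313) (nat_lit 251) (nat_lit 156))) (XT.nd (nat_lit 78) (nat_lit 0) (nat_lit 0) (XT.lf (nat_lit 0) (nat_lit 13962323879) (nat_lit 76) (nat_lit 18380171434) (nat_lit 152) (nat_lit 31284590657) (nat_lit 7) (nat_lit 5) (nat_lit 8) (nat_lit 5) (nat_lit 9) (nat_lit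 4) (nat_lit 314) (nat_lit 251) (nat_lit 155)) (XT.lf (nat_lit 0) (nat_lit 25338559006) (nat_lit 76) (nat_lit 12564662065) (nat_lit 152) (nat_lit 28563518779) (nat_lit 7) (nat_lit 5) (nat_lit 8) (nat_lit 5) (nat_lit 9) (nat_lit 4) (nat_lit 315) (nat_lit 251) (nat_lit 154)))) (XT.nd (nat_lit 156) (nat_lit 0) (nat_lit 0) (XT.nd (nat_lit 78) (nat_lit 0) (nat_lit 0) (XT.lf (nat_lit 0) (nat_lit 37274628223) (nat_lit 76) (nat_lit 6461868275) (nat_lit 152) (nat_lit 25712170076) (nat_lit 7) (nat_lit 5) (nat_lit 8) (nat_lit 5) (nat_lit 9) (nat_lit 4) (nat_lit 316) (nat_lit 251) (nat_lit 153)) (XT.lf (nat_lit 0) (nat_lit 49798950740) (nat_lit 76) (nat_lit 57259602) (nat_lit 152) (nat_lit 22723755623) (nat_lit 7) (nat_lit 5) (nat_lit 8) (nat_lit 5) (nat_lit 9) (nat_lit 4) (nat_lit 317) (nat_lit 251) (nat_lit 152))) (XT.nd (nat_lit 78) (nat_lit 0) (nat_lit 0) (XT.lf (nat_lit 0) (nat_lit 56380983517)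 (nat_lit 152) (nat_lit 13030797291) (nat_lit 0) (nat_lit 6451110184) (nat_lit 7) (nat_lit 5) (nat_lit 9) (nat_lit 4) (nat_lit 7) (nat_lit 4) (nat_lit 318) (nat_lit 251) (nat_lit 151)) (XT.lf (nat_lit 0) (nat_lit 63228147400) (nat_lit 152) (nat_lit 2801965946) (nat_lit 0) (nat_lit 13280054986) (nat_lit 7) (nat_lit 5) (nat_lit 9) (nat_lit 4) (nat_lit 7) (nat_lit 4) (nat_lit 319) (nat_lit 251) (nat_lit 150))))) (XT.nd (nat_lit 312) (nat_lit 76) (nat_lit 0) (XT.nd (nat_lit 156) (nat_lit 0) (nat_lit 0) (XT.nd (nat_lit 78) (nat_lit 0) (nat_lit 0) (XT.lf (nat_lit 0) (nat_lit 8192952807) (nat_lit 76) (nat_lit 62348072927) (nat_lit 76) (nat_lit 12382629007) (nat_lit 6) (nat_lit 4) (nat_lit 7) (nat_lit 5) (nat_lit 7) (nat_lit 4) (nat_lit 320) (nat_lit 251) (nat_lit 149)) (XT.lf (nat_lit 0) (nat_lit 19827437869) (nat_lit 76) (nat_lit 58435104714) (nat_lit 76) (nat_lit 8453135550) (nat_lit 6)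 (nat_lit 4) (nat_lit 7) (nat_lit 5) (nat_lit 7) (nat_lit 4) (nat_lit 321) (nat_lit 251) (nat_lit 148))) (XT.nd (nat_lit 78) (nat_lit 0) (nat_lit 0) (XT.lf (nat_lit 0) (nat_lit 32036544748) (nat_lit 76) (nat_lit 54329344765) (nat_lit 76) (nat_lit 4331637274) (nat_lit 6) (nat_lit 4) (nat_lit 7) (nat_lit 5) (nat_lit 7) (nat_lit 4) (nat_lit 322) (nat_lit 251) (nat_lit 147)) (XT.lf (nat_lit 0) (nat_lit 44849342744) (nat_lit 76) (nat_lit 50021017462) (nat_lit 76) (nat_lit 8321088) (nat_lit 6) (nat_lit 4) (nat_lit 7) (nat_lit 5) (nat_lit 7) (nat_lit 4) (nat_lit 323) (nat_lit 251) (nat_lit 146)))) (XT.nd (nat_lit 156) (nat_lit 0) (nat_lit 0) (XT.nd (nat_lit 78) (nat_lit 0) (nat_lit 0) (XT.lf (nat_lit 0) (nat_lit 4382210933) (nat_lit 152) (nat_lit 41043439087) (nat_lit 76) (nat_lit 53839912725) (nat_lit 5) (nat_lit 5) (nat_lit 7) (nat_lit 5) (nat_lit 6) (nat_lit 4) (nat_lit 324) (nat_lit 251)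 (nat_lit 145)) (XT.lf (nat_lit 0) (nat_lit 8988252269) (nat_lit 152) (nat_lit 31614649707) (nat_lit 76) (nat_lit 63269076063) (nat_lit 5) (nat_lit 5) (nat_lit 7) (nat_lit 5) (nat_lit 6) (nat_lit 4) (nat_lit 325) (nat_lit 251) (nat_lit 144))) (XT.nd (nat_lit 78) (nat_lit 0) (nat_lit 0) (XT.lf (nat_lit 0) (nat_lit 13821036010) (nat_lit 152) (nat_lit 21720390999) (nat_lit 76) (nat_lit 73167474321) (nat_lit 5) (nat_lit 5) (nat_lit 7) (nat_lit 5) (nat_lit 6) (nat_lit 4) (nat_lit 326) (nat_lit 251) (nat_lit 143)) (XT.lf (nat_lit 0) (nat_lit 18892068785) (nat_lit 152) (nat_lit 11337105202) (nat_lit 76) (nat_lit 83558675115) (nat_lit 5) (nat_lit 5) (nat_lit 7) (nat_lit 5) (nat_lit 6) (nat_lit 4) (nat_lit 327) (nat_lit 251) (nat_lit 142)))))))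
noncomputable def xc126 : XT := (XT.nd (nat_lit 1248) (nat_lit 0) (nat_lit 0) (XT.nd (nat_lit 624) (nat_lit 76) (nat_lit 0) (XT.nd (nat_lit 312) (nat_lit 0) (nat_lit 0) (XT.nd (nat_lit 156) (nat_lit 0) (nat_lit 0) (XT.nd (nat_lit 78) (nat_lit 76) (nat_lit 0) (XT.lf (nat_lit 0) (nat_lit 24213424480) (nat_lit 152) (nat_lit 440070208) (nat_lit 76) (nat_lit 94467419398) (nat_lit 5) (nat_lit 5) (nat_lit 7) (nat_lit 5) (nat_lit 6) (nat_lit 4) (nat_lit 328) (nat_lit 251) (nat_lit 141)) (XT.lf (nat_lit 0) (nat_lit 11360258522) (nat_lit 76) (nat_lit 18614879942) (nat_lit 152) (nat_lit 94736787321) (nat_lit 4) (nat_lit 5) (nat_lit 5) (nat_lit 5) (nat_lit 6) (nat_lit 4) (nat_lit 329) (nat_lit 251) (nat_lit 140))) (XT.nd (nat_lit 78) (nat_lit 0) (nat_lit 0) (XT.lf (nat_lit 0) (nat_lit 23760807883) (nat_lit 76) (nat_lit 12268575303) (nat_lit 152) (nat_lit 94552890238) (nat_lit 4) (nat_lit 5) (nat_lit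 5) (nat_lit 5) (nat_lit 6) (nat_lit 4) (nat_lit 330) (nat_lit 251) (nat_lit 139)) (XT.lf (nat_lit 0) (nat_lit 36776552284) (nat_lit 76) (nat_lit 5606923325) (nat_lit 152) (nat_lit 94362813310) (nat_lit 4) (nat_lit 5) (nat_lit 5) (nat_lit 5) (nat_lit 6) (nat_lit 4) (nat_lit 331) (nat_lit 251) (nat_lit 138)))) (XT.nd (nat_lit 156) (nat_lit 0) (nat_lit 0) (XT.nd (nat_lit 78) (nat_lit 0) (nat_lit 0) (XT.lf (nat_lit 0) (nat_lit 49074182886) (nat_lit 152) (nat_lit 92801805267) (nat_lit 0) (nat_lit 1341578426) (nat_lit 4) (nat_lit 5) (nat_lit 6) (nat_lit 4) (nat_lit 4) (nat_lit 4) (nat_lit 332) (nat_lit 251) (nat_lit 137)) (XT.lf (nat_lit 0) (nat_lit 56188716217) (nat_lit 152) (nat_lit 85371885876) (nat_lit 0) (nat_lit 8447348067) (nat_lit 4) (nat_lit 5) (nat_lit 6) (nat_lit 4) (nat_lit 4) (nat_lit 4) (nat_lit 333) (nat_lit 251) (nat_lit 136))) (XT.nd (nat_lit 78) (nat_lit 0) (nat_lit 0)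 (XT.lf (nat_lit 0) (nat_lit 63656475179) (nat_lit 152) (nat_lit 77574748393) (nat_lit 0) (nat_lit 15906760658) (nat_lit 4) (nat_lit 5) (nat_lit 6) (nat_lit 4) (nat_lit 4) (nat_lit 4) (nat_lit 334) (nat_lit 251) (nat_lit 135)) (XT.lf (nat_lit 0) (nat_lit 71495240152) (nat_lit 152) (nat_lit 69391828205) (nat_lit 0) (nat_lit 23737576707) (nat_lit 4) (nat_lit 5) (nat_lit 6) (nat_lit 4) (nat_lit 4) (nat_lit 4) (nat_lit 335) (nat_lit 251) (nat_lit 134))))) (XT.nd (nat_lit 312) (nat_lit 76) (nat_lit 0) (XT.nd (nat_lit 156) (nat_lit 0) (nat_lit 0) (XT.nd (nat_lit 78) (nat_lit 0) (nat_lit 0) (XT.lf (nat_lit 0) (nat_lit 79723674862) (nat_lit 152) (nat_lit 60803642168) (nat_lit 0) (nat_lit 31958441012) (nat_lit 4) (nat_lit 5) (nat_lit 6) (nat_lit 4) (nat_lit 4) (nat_lit 4) (nat_lit 336) (nat_lit 251) (nat_lit 133)) (XT.lf (nat_lit 0) (nat_lit 88361370820) (nat_lit 152) (nat_lit 51789742220)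 (nat_lit 0) (nat_lit 40588927061) (nat_lit 4) (nat_lit 5) (nat_lit 6) (nat_lit 4) (nat_lit 4) (nat_lit 4) (nat_lit 337) (nat_lit 251) (nat_lit 132))) (XT.nd (nat_lit 78) (nat_lit 0) (nat_lit 0) (XT.lf (nat_lit 0) (nat_lit 97428893969) (nat_lit 152) (nat_lit 42328666695) (nat_lit 0) (nat_lit 49649583630) (nat_lit 4) (nat_lit 5) (nat_lit 6) (nat_lit 4) (nat_lit 4) (nat_lit 4) (nat_lit 338) (nat_lit 251) (nat_lit 131)) (XT.lf (nat_lit 0) (nat_lit 106947833650) (nat_lit 152) (nat_lit 32397889223) (nat_lit 0) (nat_lit 59161983710) (nat_lit 4) (nat_lit 5) (nat_lit 6) (nat_lit 4) (nat_lit 4) (nat_lit 4) (nat_lit 339) (nat_lit 251) (nat_lit 130)))) (XT.nd (nat_lit 156) (nat_lit 76) (nat_lit 0) (XT.nd (nat_lit 78) (nat_lit 0) (nat_lit 0) (XT.lf (nat_lit 0) (nat_lit 116940854004) (nat_lit 152) (nat_lit 21973765094) (nat_lit 0) (nat_lit 69148775874) (nat_lit 4) (nat_lit 5) (nat_lit 6) (nat_lit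 4) (nat_lit 4) (nat_lit 4) (nat_lit 340) (nat_lit 251) (nat_lit 129)) (XT.lf (nat_lit 0) (nat_lit 127431747937) (nat_lit 152) (nat_lit 11031474967) (nat_lit 0) (nat_lit 79633738197) (nat_lit 4) (nat_lit 5) (nat_lit 6) (nat_lit 4) (nat_lit 4) (nat_lit 4) (nat_lit 341) (nat_lit 251) (nat_lit 128))) (XT.nd (nat_lit 78) (nat_lit 0) (nat_lit 0) (XT.lf (nat_lit 0) (nat_lit 470079717) (nat_lit 76) (nat_lit 137982753313) (nat_lit 76) (nat_lit 90179094420) (nat_lit 3) (nat_lit 4) (nat_lit 4) (nat_lit 5) (nat_lit 4) (nat_lit 4) (nat_lit 342) (nat_lit 251) (nat_lit 127)) (XT.lf (nat_lit 0) (nat_lit 12926851302) (nat_lit 76) (nat_lit 137283287776) (nat_lit 76) (nat_lit 89474248739) (nat_lit 3) (nat_lit 4) (nat_lit 4) (nat_lit 5) (nat_lit 4) (nat_lit 4) (nat_lit 343) (nat_lit 251) (nat_lit 126)))))) (XT.nd (nat_lit 624) (nat_lit 0) (nat_lit 0) (XT.nd (nat_lit 312) (nat_lit 0) (nat_lit 0) (XT.nd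 (nat_lit 156) (nat_lit 0) (nat_lit 0) (XT.nd (nat_lit 78) (nat_lit 0) (nat_lit 0) (XT.lf (nat_lit 0) (nat_lit 26003748386) (nat_lit 76) (nat_lit 136549984267) (nat_lit 76) (nat_lit 88735821282) (nat_lit 3) (nat_lit 4) (nat_lit 4) (nat_lit 5) (nat_lit 4) (nat_lit 4) (nat_lit 344) (nat_lit 251) (nat_lit 125)) (XT.lf (nat_lit 0) (nat_lit 39731906437) (nat_lit 76) (nat_lit 135781096824) (nat_lit 76) (nat_lit 87962053888) (nat_lit 3) (nat_lit 4) (nat_lit 4) (nat_lit 5) (nat_lit 4) (nat_lit 4) (nat_lit 345) (nat_lit 251) (nat_lit 124))) (XT.nd (nat_lit 78) (nat_lit 0) (nat_lit 0) (XT.lf (nat_lit 0) (nat_lit 54144011546) (nat_lit 76) (nat_lit 134974794764) (nat_lit 76) (nat_lit 87151104256) (nat_lit 3) (nat_lit 4) (nat_lit 4) (nat_lit 5) (nat_lit 4) (nat_lit 4) (nat_lit 346) (nat_lit 251) (nat_lit 123)) (XT.lf (nat_lit 0) (nat_lit 69274378249) (nat_lit 76) (nat_lit 134129158318) (nat_lit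 76) (nat_lit 86301041552) (nat_lit 3) (nat_lit 4) (nat_lit 4) (nat_lit 5) (nat_lit 4) (nat_lit 4) (nat_lit 347) (nat_lit 251) (nat_lit 122)))) (XT.nd (nat_lit 156) (nat_lit 0) (nat_lit 0) (XT.nd (nat_lit 78) (nat_lit 0) (nat_lit 0) (XT.lf (nat_lit 0) (nat_lit 85159031228) (nat_lit 76) (nat_lit 133242174068) (nat_lit 76) (nat_lit 85409841818) (nat_lit 3) (nat_lit 4) (nat_lit 4) (nat_lit 5) (nat_lit 4) (nat_lit 4) (nat_lit 348) (nat_lit 251) (nat_lit 121)) (XT.lf (nat_lit 0) (nat_lit 101835791087) (nat_lit 76) (nat_lit 132311730146) (nat_lit 76) (nat_lit 84475383148) (nat_lit 3) (nat_lit 4) (nat_lit 4) (nat_lit 5) (nat_lit 4) (nat_lit 4) (nat_lit 349) (nat_lit 251) (nat_lit 120))) (XT.nd (nat_lit 78) (nat_lit 0) (nat_lit 0) (XT.lf (nat_lit 0) (nat_lit 119344364396) (nat_lit 76) (nat_lit 131335611209) (nat_lit 76) (nat_lit 83495440643) (nat_lit 3) (nat_lit 4) (nat_lit 4) (nat_lit 5)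 (nat_lit 4) (nat_lit 4) (nat_lit 350) (nat_lit 251) (nat_lit 119)) (XT.lf (nat_lit 0) (nat_lit 137726438234) (nat_lit 76) (nat_lit 130311493165) (nat_lit 76) (nat_lit 82467681104) (nat_lit 3) (nat_lit 4) (nat_lit 4) (nat_lit 5) (nat_lit 4) (nat_lit 4) (nat_lit 351) (nat_lit 251) (nat_lit 118))))) (XT.nd (nat_lit 29796) (nat_lit 0) (nat_lit 4864) (XT.nd (nat_lit 156) (nat_lit 0) (nat_lit 0) (XT.nd (nat_lit 78) (nat_lit 0) (nat_lit 0) (XT.lf (nat_lit 0) (nat_lit 157025779445) (nat_lit 76) (nat_lit 129236937637) (nat_lit 76) (nat_lit 81389657487) (nat_lit 3) (nat_lit 4) (nat_lit 4) (nat_lit 5) (nat_lit 4) (nat_lit 4) (nat_lit 352) (nat_lit 251) (nat_lit 117)) (XT.lf (nat_lit 0) (nat_lit 177288338839) (nat_lit 76) (nat_lit 128109386160) (nat_lit 76) (nat_lit 80258803067) (nat_lit 3) (nat_lit 4) (nat_lit 4) (nat_lit 5) (nat_lit 4) (nat_lit 4) (nat_lit 353) (nat_lit 251) (nat_lit 116)))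 (XT.nd (nat_lit 29562) (nat_lit 0) (nat_lit 4864) (XT.lf (nat_lit 0) (nat_lit 198562360607) (nat_lit 76) (nat_lit 126926154087) (nat_lit 76) (nat_lit 79072425335) (nat_lit 3) (nat_lit 4) (nat_lit 4) (nat_lit 5) (nat_lit 4) (nat_lit 4) (nat_lit 354) (nat_lit 251) (nat_lit 115)) (XT.lf (nat_lit 0) (nat_lit 66286331) (nat_lit 0) (nat_lit 66286331) (nat_lit 532) (nat_lit 3963263039) (nat_lit 67) (nat_lit 5) (nat_lit 67) (nat_lit 3) (nat_lit 74) (nat_lit 3) (nat_lit 252) (nat_lit 252) (nat_lit 216)))) (XT.nd (nat_lit 156) (nat_lit 0) (nat_lit 0) (XT.nd (nat_lit 78) (nat_lit 0) (nat_lit 0) (XT.lf (nat_lit 0) (nat_lit 1288336781) (nat_lit 532) (nat_lit 4866647821) (nat_lit 608) (nat_lit 2184155523) (nat_lit 67) (nat_lit 5) (nat_lit 74) (nat_lit 3) (nat_lit 75) (nat_lit 5) (nat_lit 253) (nat_lit 252) (nat_lit 215)) (XT.lf (nat_lit 0) (nat_lit 2302533847) (nat_lit 532) (nat_lit 1552203528)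 (nat_lit 608) (nat_lit 4642668363) (nat_lit 67) (nat_lit 5) (nat_lit 74) (nat_lit 3) (nat_lit 75) (nat_lit 5) (nat_lit 254) (nat_lit 252) (nat_lit 214))) (XT.nd (nat_lit 78) (nat_lit 0) (nat_lit 76) (XT.lf (nat_lit 76) (nat_lit 1956826157) (nat_lit 0) (nat_lit 1381806828) (nat_lit 608) (nat_lit 5326787992) (nat_lit 68) (nat_lit 5) (nat_lit 67) (nat_lit 5) (nat_lit 75) (nat_lit 5) (nat_lit 255) (nat_lit 252) (nat_lit 213)) (XT.nd (nat_lit 78) (nat_lit 0) (nat_lit 0) (XT.lf (nat_lit 0) (nat_lit 4415541951) (nat_lit 532) (nat_lit 3201547737) (nat_lit 608) (nat_lit 1225674152) (nat_lit 68) (nat_lit 5) (nat_lit 75) (nat_lit 5) (nat_lit 76) (nat_lit 5) (nat_lit 256) (nat_lit 252) (nat_lit 212)) (XT.lf (nat_lit 76) (nat_lit 437118662) (nat_lit 0) (nat_lit 5084674580) (nat_lit 608) (nat_lit 3508764904) (nat_lit 69) (nat_lit 5) (nat_lit 68) (nat_lit 5) (nat_lit 76) (nat_lit 5) (nat_lit 257)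 (nat_lit 252) (nat_lit 211))))))))
noncomputable def xc127 : XT := (XT.nd (nat_lit 1248) (nat_lit 1444) (nat_lit 0) (XT.nd (nat_lit 624) (nat_lit 1140) (nat_lit 0) (XT.nd (nat_lit 312) (nat_lit 532) (nat_lit 0) (XT.nd (nat_lit 156) (nat_lit 532) (nat_lit 0) (XT.nd (nat_lit 78) (nat_lit 0) (nat_lit 76) (XT.lf (nat_lit 76) (nat_lit 4334363557) (nat_lit 0) (nat_lit 2351264729) (nat_lit 608) (nat_lit 2542342366) (nat_lit 69) (nat_lit 5) (nat_lit 68) (nat_lit 5) (nat_lit 76) (nat_lit 5) (nat_lit 258) (nat_lit 252) (nat_lit 210)) (XT.lf (nat_lit 0) (nat_lit 7866539787) (nat_lit 532) (nat_lit 1052804342) (nat_lit 608) (nat_lit 518291175) (nat_lit 69) (nat_lit 5) (nat_lit 76) (nat_lit 5) (nat_lit 77) (nat_lit 5) (nat_lit 259) (nat_lit 252) (nat_lit 209))) (XT.nd (nat_lit 78) (nat_lit 608) (nat_lit 0) (XT.lf (nat_lit 76) (nat_lit 3003410558) (nat_lit 0) (nat_lit 6141651416) (nat_lit 608) (nat_lit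 511103204) (nat_lit 70) (nat_lit 5) (nat_lit 69) (nat_lit 5) (nat_lit 77) (nat_lit 5) (nat_lit 260) (nat_lit 252) (nat_lit 208)) (XT.lf (nat_lit 0) (nat_lit 554554758) (nat_lit 608) (nat_lit 2630899811) (nat_lit 684) (nat_lit 6701382005) (nat_lit 61) (nat_lit 5) (nat_lit 69) (nat_lit 5) (nat_lit 70) (nat_lit 5) (nat_lit 261) (nat_lit 252) (nat_lit 207)))) (XT.nd (nat_lit 156) (nat_lit 532) (nat_lit 0) (XT.nd (nat_lit 78) (nat_lit 0) (nat_lit 76) (XT.lf (nat_lit 76) (nat_lit 1601136813) (nat_lit 0) (nat_lit 36188417) (nat_lit 684) (nat_lit 8492515072) (nat_lit 62) (nat_lit 5) (nat_lit 61) (nat_lit 5) (nat_lit 70) (nat_lit 5) (nat_lit 262) (nat_lit 252) (nat_lit 206)) (XT.lf (nat_lit 0) (nat_lit 2828309675) (nat_lit 608) (nat_lit 4334198155) (nat_lit 76) (nat_lit 3220037851) (nat_lit 62) (nat_lit 5) (nat_lit 70) (nat_lit 5) (nat_lit 63) (nat_lit 5) (nat_lit 263) (nat_lit 252) (nat_lit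 205))) (XT.nd (nat_lit 78) (nat_lit 0) (nat_lit 0) (XT.lf (nat_lit 0) (nat_lit 36558672) (nat_lit 608) (nat_lit 4003188856) (nat_lit 684) (nat_lit 6610336677) (nat_lit 54) (nat_lit 5) (nat_lit 62) (nat_lit 5) (nat_lit 63) (nat_lit 5) (nat_lit 264) (nat_lit 252) (nat_lit 204)) (XT.lf (nat_lit 0) (nat_lit 4742825493) (nat_lit 608) (nat_lit 603467759) (nat_lit 684) (nat_lit 5583211113) (nat_lit 54) (nat_lit 5) (nat_lit 62) (nat_lit 5) (nat_lit 63) (nat_lit 5) (nat_lit 265) (nat_lit 252) (nat_lit 203))))) (XT.nd (nat_lit 312) (nat_lit 380) (nat_lit 0) (XT.nd (nat_lit 156) (nat_lit 304) (nat_lit 0) (XT.nd (nat_lit 78) (nat_lit 456) (nat_lit 0) (XT.lf (nat_lit 0) (nat_lit 6727542322) (nat_lit 684) (nat_lit 1618858303) (nat_lit 76) (nat_lit 2876246589) (nat_lit 54) (nat_lit 5) (nat_lit 63) (nat_lit 5) (nat_lit 55) (nat_lit 5) (nat_lit 266) (nat_lit 252) (nat_lit 202)) (XT.lf (nat_lit 0)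 (nat_lit 3238683118) (nat_lit 456) (nat_lit 4964452131) (nat_lit 532) (nat_lit 3326257871) (nat_lit 48) (nat_lit 5) (nat_lit 54) (nat_lit 5) (nat_lit 55) (nat_lit 5) (nat_lit 267) (nat_lit 252) (nat_lit 201))) (XT.nd (nat_lit 78) (nat_lit 304) (nat_lit 0) (XT.lf (nat_lit 0) (nat_lit 8363392518) (nat_lit 456) (nat_lit 1382531854) (nat_lit 532) (nat_lit 2106081108) (nat_lit 48) (nat_lit 5) (nat_lit 54) (nat_lit 5) (nat_lit 55) (nat_lit 5) (nat_lit 268) (nat_lit 252) (nat_lit 200)) (XT.lf (nat_lit 0) (nat_lit 1533296073) (nat_lit 304) (nat_lit 9861281201) (nat_lit 380) (nat_lit 794925430) (nat_lit 44) (nat_lit 5) (nat_lit 48) (nat_lit 5) (nat_lit 49) (nat_lit 5) (nat_lit 269) (nat_lit 252) (nat_lit 199)))) (XT.nd (nat_lit 156) (nat_lit 304) (nat_lit 0) (XT.nd (nat_lit 78) (nat_lit 0) (nat_lit 0) (XT.lf (nat_lit 0) (nat_lit 613888550) (nat_lit 380) (nat_lit 5679163540) (nat_lit 76) (nat_lit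 6248005219) (nat_lit 43) (nat_lit 5) (nat_lit 48) (nat_lit 5) (nat_lit 44) (nat_lit 5) (nat_lit 270) (nat_lit 252) (nat_lit 198)) (XT.lf (nat_lit 0) (nat_lit 2035959017) (nat_lit 380) (nat_lit 497674903) (nat_lit 76) (nat_lit 10377592152) (nat_lit 43) (nat_lit 5) (nat_lit 48) (nat_lit 5) (nat_lit 44) (nat_lit 5) (nat_lit 271) (nat_lit 252) (nat_lit 197))) (XT.nd (nat_lit 78) (nat_lit 0) (nat_lit 0) (XT.lf (nat_lit 0) (nat_lit 3602714745) (nat_lit 380) (nat_lit 8245453682) (nat_lit 76) (nat_lit 1448212451) (nat_lit 39) (nat_lit 5) (nat_lit 44) (nat_lit 5) (nat_lit 40) (nat_lit 5) (nat_lit 272) (nat_lit 252) (nat_lit 196)) (XT.lf (nat_lit 0) (nat_lit 5269793687) (nat_lit 380) (nat_lit 2878740325) (nat_lit 76) (nat_lit 5551309375) (nat_lit 39) (nat_lit 5) (nat_lit 44) (nat_lit 5) (nat_lit 40) (nat_lit 5) (nat_lit 273) (nat_lit 252) (nat_lit 195)))))) (XT.nd (nat_lit 624) (nat_lit 684)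 (nat_lit 0) (XT.nd (nat_lit 312) (nat_lit 304) (nat_lit 0) (XT.nd (nat_lit 156) (nat_lit 228) (nat_lit 0) (XT.nd (nat_lit 78) (nat_lit 0) (nat_lit 0) (XT.lf (nat_lit 0) (nat_lit 2817010912) (nat_lit 228) (nat_lit 4220419868) (nat_lit 304) (nat_lit 7085330155) (nat_lit 36) (nat_lit 5) (nat_lit 39) (nat_lit 5) (nat_lit 40) (nat_lit 5) (nat_lit 274) (nat_lit 252) (nat_lit 194)) (XT.lf (nat_lit 0) (nat_lit 8868508505) (nat_lit 228) (nat_lit 47739433) (nat_lit 304) (nat_lit 5649571874) (nat_lit 36) (nat_lit 5) (nat_lit 39) (nat_lit 5) (nat_lit 40) (nat_lit 5) (nat_lit 275) (nat_lit 252) (nat_lit 193))) (XT.nd (nat_lit 78) (nat_lit 0) (nat_lit 0) (XT.lf (nat_lit 0) (nat_lit 98105947) (nat_lit 228) (nat_lit 10835327194) (nat_lit 304) (nat_lit 4095506042) (nat_lit 33) (nat_lit 5) (nat_lit 36) (nat_lit 5) (nat_lit 37) (nat_lit 5) (nat_lit 276) (nat_lit 252) (nat_lit 192)) (XT.lf (nat_lit 0)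 (nat_lit 6351825727) (nat_lit 228) (nat_lit 6772879745) (nat_lit 304) (nat_lit 2386970432) (nat_lit 33) (nat_lit 5) (nat_lit 36) (nat_lit 5) (nat_lit 37) (nat_lit 5) (nat_lit 277) (nat_lit 252) (nat_lit 191)))) (XT.nd (nat_lit 156) (nat_lit 0) (nat_lit 0) (XT.nd (nat_lit 78) (nat_lit 304) (nat_lit 0) (XT.lf (nat_lit 0) (nat_lit 12891128991) (nat_lit 228) (nat_lit 2511527815) (nat_lit 304) (nat_lit 617153814) (nat_lit 33) (nat_lit 5) (nat_lit 36) (nat_lit 5) (nat_lit 37) (nat_lit 5) (nat_lit 278) (nat_lit 252) (nat_lit 190)) (XT.lf (nat_lit 0) (nat_lit 1261835025) (nat_lit 304) (nat_lit 13320354103) (nat_lit 76) (nat_lit 1967279802) (nat_lit 29) (nat_lit 5) (nat_lit 33) (nat_lit 5) (nat_lit 30) (nat_lit 5) (nat_lit 279) (nat_lit 252) (nat_lit 189))) (XT.nd (nat_lit 78) (nat_lit 0) (nat_lit 0) (XT.lf (nat_lit 0) (nat_lit 3287378394) (nat_lit 304) (nat_lit 7169030987) (nat_lit 76) (nat_lit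 6645128643) (nat_lit 29) (nat_lit 5) (nat_lit 33) (nat_lit 5) (nat_lit 30) (nat_lit 5) (nat_lit 280) (nat_lit 252) (nat_lit 188)) (XT.lf (nat_lit 0) (nat_lit 5393549939) (nat_lit 304) (nat_lit 736173627) (nat_lit 76) (nat_lit 11552615653) (nat_lit 29) (nat_lit 5) (nat_lit 33) (nat_lit 5) (nat_lit 30) (nat_lit 5) (nat_lit 281) (nat_lit 252) (nat_lit 187))))) (XT.nd (nat_lit 312) (nat_lit 304) (nat_lit 0) (XT.nd (nat_lit 156) (nat_lit 152) (nat_lit 0) (XT.nd (nat_lit 78) (nat_lit 0) (nat_lit 0) (XT.lf (nat_lit 0) (nat_lit 6191707614) (nat_lit 228) (nat_lit 1490326647) (nat_lit 304) (nat_lit 10606387618) (nat_lit 26) (nat_lit 5) (nat_lit 29) (nat_lit 5) (nat_lit 30) (nat_lit 5) (nat_lit 282) (nat_lit 252) (nat_lit 186)) (XT.lf (nat_lit 0) (nat_lit 10131209603) (nat_lit 304) (nat_lit 5510988697) (nat_lit 76) (nat_lit 3280384286) (nat_lit 26) (nat_lit 5) (nat_lit 30) (nat_lit 5) (nat_lit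 27) (nat_lit 5) (nat_lit 283) (nat_lit 252) (nat_lit 185))) (XT.nd (nat_lit 78) (nat_lit 0) (nat_lit 0) (XT.lf (nat_lit 0) (nat_lit 1400263302) (nat_lit 152) (nat_lit 11330595408) (nat_lit 228) (nat_lit 6856274966) (nat_lit 24) (nat_lit 5) (nat_lit 26) (nat_lit 5) (nat_lit 27) (nat_lit 5) (nat_lit 284) (nat_lit 252) (nat_lit 184)) (XT.lf (nat_lit 0) (nat_lit 8824650993) (nat_lit 152) (nat_lit 6711391432) (nat_lit 228) (nat_lit 4745171428) (nat_lit 24) (nat_lit 5) (nat_lit 26) (nat_lit 5) (nat_lit 27) (nat_lit 5) (nat_lit 285) (nat_lit 252) (nat_lit 183)))) (XT.nd (nat_lit 156) (nat_lit 76) (nat_lit 0) (XT.nd (nat_lit 78) (nat_lit 228) (nat_lit 0) (XT.lf (nat_lit 0) (nat_lit 16597633314) (nat_lit 152) (nat_lit 1866919529) (nat_lit 228) (nat_lit 2546367193) (nat_lit 24) (nat_lit 5) (nat_lit 26) (nat_lit 5) (nat_lit 27) (nat_lit 5) (nat_lit 286) (nat_lit 252) (nat_lit 182)) (XT.lf (nat_lit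 0) (nat_lit 3005745279) (nat_lit 228) (nat_lit 18614730523) (nat_lit 304) (nat_lit 152658160) (nat_lit 21) (nat_lit 5) (nat_lit 24) (nat_lit 5) (nat_lit 25) (nat_lit 5) (nat_lit 287) (nat_lit 252) (nat_lit 181))) (XT.nd (nat_lit 78) (nat_lit 0) (nat_lit 0) (XT.lf (nat_lit 0) (nat_lit 2375642720) (nat_lit 304) (nat_lit 11712039686) (nat_lit 76) (nat_lit 8479475165) (nat_lit 20) (nat_lit 5) (nat_lit 24) (nat_lit 5) (nat_lit 21) (nat_lit 5) (nat_lit 288) (nat_lit 252) (nat_lit 180)) (XT.lf (nat_lit 0) (nat_lit 5009888380) (nat_lit 304) (nat_lit 4327928860) (nat_lit 76) (nat_lit 14063769000) (nat_lit 20) (nat_lit 5) (nat_lit 24) (nat_lit 5) (nat_lit 21) (nat_lit 5) (nat_lit 289) (nat_lit 252) (nat_lit 179)))))))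
noncomputable def xc128 : XT := (XT.nd (nat_lit 1248) (nat_lit 380) (nat_lit 0) (XT.nd (nat_lit 624) (nat_lit 228) (nat_lit 0) (XT.nd (nat_lit 312) (nat_lit 152) (nat_lit 0) (XT.nd (nat_lit 156) (nat_lit 152) (nat_lit 0) (XT.nd (nat_lit 78) (nat_lit 0) (nat_lit 0) (XT.lf (nat_lit 0) (nat_lit 3517490084) (nat_lit 152) (nat_lit 4298664641) (nat_lit 228) (nat_lit 16459625253) (nat_lit 18) (nat_lit 5) (nat_lit 20) (nat_lit 5) (nat_lit 21) (nat_lit 5) (nat_lit 290) (nat_lit 252) (nat_lit 178)) (XT.lf (nat_lit 0) (nat_lit 10838405581) (nat_lit 228) (nat_lit 13322103149) (nat_lit 76) (nat_lit 1029447356) (nat_lit 18) (nat_lit 5) (nat_lit 21) (nat_lit 5) (nat_lit 19) (nat_lit 5) (nat_lit 291) (nat_lit 252) (nat_lit 177))) (XT.nd (nat_lit 78) (nat_lit 152) (nat_lit 0) (XT.lf (nat_lit 0) (nat_lit 14068600036) (nat_lit 228) (nat_lit 5604409354) (nat_lit 76) (nat_lit 6474043625) (nat_lit 18)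 (nat_lit 5) (nat_lit 21) (nat_lit 5) (nat_lit 19) (nat_lit 5) (nat_lit 292) (nat_lit 252) (nat_lit 176)) (XT.lf (nat_lit 0) (nat_lit 2562290450) (nat_lit 152) (nat_lit 14925028910) (nat_lit 228) (nat_lit 9663385686) (nat_lit 16) (nat_lit 5) (nat_lit 18) (nat_lit 5) (nat_lit 19) (nat_lit 5) (nat_lit 293) (nat_lit 252) (nat_lit 175)))) (XT.nd (nat_lit 156) (nat_lit 152) (nat_lit 0) (XT.nd (nat_lit 78) (nat_lit 0) (nat_lit 0) (XT.lf (nat_lit 0) (nat_lit 11313314350) (nat_lit 152) (nat_lit 9845912702) (nat_lit 228) (nat_lit 7041248592) (nat_lit 16) (nat_lit 5) (nat_lit 18) (nat_lit 5) (nat_lit 19) (nat_lit 5) (nat_lit 294) (nat_lit 252) (nat_lit 174)) (XT.lf (nat_lit 0) (nat_lit 20484191035) (nat_lit 152) (nat_lit 4518481015) (nat_lit 228) (nat_lit 4300711899) (nat_lit 16) (nat_lit 5) (nat_lit 18) (nat_lit 5) (nat_lit 19) (nat_lit 5) (nat_lit 295) (nat_lit 252) (nat_lit 173))) (XT.nd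 (nat_lit 78) (nat_lit 152) (nat_lit 0) (XT.lf (nat_lit 0) (nat_lit 29043510339) (nat_lit 228) (nat_lit 382004935) (nat_lit 76) (nat_lit 1035705411) (nat_lit 16) (nat_lit 5) (nat_lit 19) (nat_lit 5) (nat_lit 17) (nat_lit 4) (nat_lit 296) (nat_lit 252) (nat_lit 172)) (XT.lf (nat_lit 0) (nat_lit 1759460831) (nat_lit 152) (nat_lit 23031754026) (nat_lit 76) (nat_lit 6874441394) (nat_lit 14) (nat_lit 5) (nat_lit 16) (nat_lit 5) (nat_lit 15) (nat_lit 5) (nat_lit 297) (nat_lit 252) (nat_lit 171))))) (XT.nd (nat_lit 312) (nat_lit 76) (nat_lit 0) (XT.nd (nat_lit 156) (nat_lit 152) (nat_lit 0) (XT.nd (nat_lit 78) (nat_lit 0) (nat_lit 0) (XT.lf (nat_lit 0) (nat_lit 5043460132) (nat_lit 152) (nat_lit 14856165546) (nat_lit 76) (nat_lit 13029783230) (nat_lit 14) (nat_lit 5) (nat_lit 16) (nat_lit 5) (nat_lit 15) (nat_lit 5) (nat_lit 298) (nat_lit 252) (nat_lit 170)) (XT.lf (nat_lit 0) (nat_lit 8481219810)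 (nat_lit 152) (nat_lit 6287697935) (nat_lit 76) (nat_lit 19487989689) (nat_lit 14) (nat_lit 5) (nat_lit 16) (nat_lit 5) (nat_lit 15) (nat_lit 5) (nat_lit 299) (nat_lit 252) (nat_lit 169))) (XT.nd (nat_lit 78) (nat_lit 0) (nat_lit 0) (XT.lf (nat_lit 0) (nat_lit 2783127376) (nat_lit 152) (nat_lit 9341250047) (nat_lit 228) (nat_lit 23524762493) (nat_lit 12) (nat_lit 5) (nat_lit 14) (nat_lit 5) (nat_lit 15) (nat_lit 5) (nat_lit 300) (nat_lit 252) (nat_lit 168)) (XT.lf (nat_lit 0) (nat_lit 12510889737) (nat_lit 152) (nat_lit 3535586761) (nat_lit 228) (nat_lit 21059701232) (nat_lit 12) (nat_lit 5) (nat_lit 14) (nat_lit 5) (nat_lit 15) (nat_lit 5) (nat_lit 301) (nat_lit 252) (nat_lit 167)))) (XT.nd (nat_lit 156) (nat_lit 76) (nat_lit 0) (XT.nd (nat_lit 78) (nat_lit 0) (nat_lit 0) (XT.lf (nat_lit 0) (nat_lit 20195337991) (nat_lit 228) (nat_lit 15965607051) (nat_lit 76) (nat_lit 2473620837)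 (nat_lit 12) (nat_lit 5) (nat_lit 15) (nat_lit 5) (nat_lit 13) (nat_lit 4) (nat_lit 302) (nat_lit 252) (nat_lit 166)) (XT.lf (nat_lit 0) (nat_lit 24600729734) (nat_lit 228) (nat_lit 6976312445) (nat_lit 76) (nat_lit 8659906725) (nat_lit 12) (nat_lit 5) (nat_lit 15) (nat_lit 5) (nat_lit 13) (nat_lit 4) (nat_lit 303) (nat_lit 252) (nat_lit 165))) (XT.nd (nat_lit 78) (nat_lit 0) (nat_lit 0) (XT.lf (nat_lit 0) (nat_lit 2530180914) (nat_lit 76) (nat_lit 26727262638) (nat_lit 152) (nat_lit 12660483310) (nat_lit 11) (nat_lit 5) (nat_lit 12) (nat_lit 5) (nat_lit 13) (nat_lit 4) (nat_lit 304) (nat_lit 252) (nat_lit 164)) (XT.lf (nat_lit 0) (nat_lit 12741166861) (nat_lit 76) (nat_lit 21515721622) (nat_lit 152) (nat_lit 9420597520) (nat_lit 11) (nat_lit 5) (nat_lit 12) (nat_lit 5) (nat_lit 13) (nat_lit 4) (nat_lit 305) (nat_lit 252) (nat_lit 163)))))) (XT.nd (nat_lit 624) (nat_lit 152) (nat_lit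 0) (XT.nd (nat_lit 312) (nat_lit 0) (nat_lit 0) (XT.nd (nat_lit 156) (nat_lit 228) (nat_lit 0) (XT.nd (nat_lit 78) (nat_lit 0) (nat_lit 0) (XT.lf (nat_lit 0) (nat_lit 23450288871) (nat_lit 76) (nat_lit 16048157927) (nat_lit 152) (nat_lit 6026995012) (nat_lit 11) (nat_lit 5) (nat_lit 12) (nat_lit 5) (nat_lit 13) (nat_lit 4) (nat_lit 306) (nat_lit 252) (nat_lit 162)) (XT.lf (nat_lit 0) (nat_lit 34683044853) (nat_lit 76) (nat_lit 10311553544) (nat_lit 152) (nat_lit 2471595782) (nat_lit 11) (nat_lit 5) (nat_lit 12) (nat_lit 5) (nat_lit 13) (nat_lit 4) (nat_lit 307) (nat_lit 252) (nat_lit 161))) (XT.nd (nat_lit 78) (nat_lit 152) (nat_lit 0) (XT.lf (nat_lit 0) (nat_lit 1213927483) (nat_lit 152) (nat_lit 3057763958) (nat_lit 76) (nat_lit 45231693532) (nat_lit 10) (nat_lit 5) (nat_lit 12) (nat_lit 5) (nat_lit 11) (nat_lit 5) (nat_lit 308) (nat_lit 252) (nat_lit 160)) (XT.lf (nat_lit 0) (nat_lit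 5143098281) (nat_lit 228) (nat_lit 44332611880) (nat_lit 76) (nat_lit 2157598785) (nat_lit 8) (nat_lit 5) (nat_lit 11) (nat_lit 5) (nat_lit 9) (nat_lit 4) (nat_lit 309) (nat_lit 252) (nat_lit 159)))) (XT.nd (nat_lit 156) (nat_lit 0) (nat_lit 0) (XT.nd (nat_lit 78) (nat_lit 0) (nat_lit 0) (XT.lf (nat_lit 0) (nat_lit 9384565409) (nat_lit 228) (nat_lit 35665868043) (nat_lit 76) (nat_lit 8813523966) (nat_lit 8) (nat_lit 5) (nat_lit 11) (nat_lit 5) (nat_lit 9) (nat_lit 4) (nat_lit 310) (nat_lit 252) (nat_lit 158)) (XT.lf (nat_lit 0) (nat_lit 13831607245) (nat_lit 228) (nat_lit 26576350159) (nat_lit 76) (nat_lit 15798525067) (nat_lit 8) (nat_lit 5) (nat_lit 11) (nat_lit 5) (nat_lit 9) (nat_lit 4) (nat_lit 311) (nat_lit 252) (nat_lit 157))) (XT.nd (nat_lit 78) (nat_lit 0) (nat_lit 0) (XT.lf (nat_lit 0) (nat_lit 18494811985) (nat_lit 228) (nat_lit 17042416519) (nat_lit 76) (nat_lit 23129233045)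 (nat_lit 8) (nat_lit 5) (nat_lit 11) (nat_lit 5) (nat_lit 9) (nat_lit 4) (nat_lit 312) (nat_lit 252) (nat_lit 156)) (XT.lf (nat_lit 0) (nat_lit 23385282496) (nat_lit 228) (nat_lit 7041367282) (nat_lit 76) (nat_lit 30823101966) (nat_lit 8) (nat_lit 5) (nat_lit 11) (nat_lit 5) (nat_lit 9) (nat_lit 4) (nat_lit 313) (nat_lit 252) (nat_lit 155))))) (XT.nd (nat_lit 312) (nat_lit 76) (nat_lit 0) (XT.nd (nat_lit 156) (nat_lit 0) (nat_lit 0) (XT.nd (nat_lit 78) (nat_lit 0) (nat_lit 0) (XT.lf (nat_lit 0) (nat_lit 3564702310) (nat_lit 76) (nat_lit 25005615440) (nat_lit 152) (nat_lit 35389403246) (nat_lit 7) (nat_lit 5) (nat_lit 8) (nat_lit 5) (nat_lit 9) (nat_lit 4) (nat_lit 314) (nat_lit 252) (nat_lit 154)) (XT.lf (nat_lit 0) (nat_lit 14936558087) (nat_lit 76) (nat_lit 19191809021) (nat_lit 152) (nat_lit 32671149304) (nat_lit 7) (nat_lit 5) (nat_lit 8) (nat_lit 5) (nat_lit 9) (nat_lit 4) (nat_lit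 315) (nat_lit 252) (nat_lit 153))) (XT.nd (nat_lit 78) (nat_lit 0) (nat_lit 0) (XT.lf (nat_lit 0) (nat_lit 26868456494) (nat_lit 76) (nat_lit 13090637087) (nat_lit 152) (nat_lit 29822484351) (nat_lit 7) (nat_lit 5) (nat_lit 8) (nat_lit 5) (nat_lit 9) (nat_lit 4) (nat_lit 316) (nat_lit 252) (nat_lit 152)) (XT.lf (nat_lit 0) (nat_lit 39388806812) (nat_lit 76) (nat_lit 6687573040) (nat_lit 152) (nat_lit 26836625849) (nat_lit 7) (nat_lit 5) (nat_lit 8) (nat_lit 5) (nat_lit 9) (nat_lit 4) (nat_lit 317) (nat_lit 252) (nat_lit 151)))) (XT.nd (nat_lit 156) (nat_lit 76) (nat_lit 0) (XT.nd (nat_lit 78) (nat_lit 0) (nat_lit 0) (XT.lf (nat_lit 0) (nat_lit 52495300311) (nat_lit 152) (nat_lit 23674345525) (nat_lit 0) (nat_lit 31584195) (nat_lit 7) (nat_lit 5) (nat_lit 9) (nat_lit 4) (nat_lit 7) (nat_lit 4) (nat_lit 318) (nat_lit 252) (nat_lit 150)) (XT.lf (nat_lit 0) (nat_lit 59340240439) (nat_lit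 152) (nat_lit 13449211650) (nat_lit 0) (nat_lit 6859172817) (nat_lit 7) (nat_lit 5) (nat_lit 9) (nat_lit 4) (nat_lit 7) (nat_lit 4) (nat_lit 319) (nat_lit 252) (nat_lit 149))) (XT.nd (nat_lit 78) (nat_lit 76) (nat_lit 0) (XT.lf (nat_lit 0) (nat_lit 66523085957) (nat_lit 152) (nat_lit 2720039953) (nat_lit 0) (nat_lit 14025493091) (nat_lit 7) (nat_lit 5) (nat_lit 9) (nat_lit 4) (nat_lit 7) (nat_lit 4) (nat_lit 320) (nat_lit 252) (nat_lit 148)) (XT.nd (nat_lit 78) (nat_lit 0) (nat_lit 0) (XT.lf (nat_lit 0) (nat_lit 8821043700) (nat_lit 76) (nat_lit 65377616390) (nat_lit 76) (nat_lit 12864285197) (nat_lit 6) (nat_lit 4) (nat_lit 7) (nat_lit 5) (nat_lit 7) (nat_lit 4) (nat_lit 321) (nat_lit 252) (nat_lit 147)) (XT.lf (nat_lit 0) (nat_lit 21026850957) (nat_lit 76) (nat_lit 61273183584) (nat_lit 76) (nat_lit 8744863508) (nat_lit 6) (nat_lit 4) (nat_lit 7) (nat_lit 5) (nat_lit 7) (nat_lit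 4) (nat_lit 322) (nat_lit 252) (nat_lit 146))))))))
noncomputable def xc129 : XT := (XT.nd (nat_lit 32058) (nat_lit 0) (nat_lit 1748) (XT.nd (nat_lit 1248) (nat_lit 76) (nat_lit 0) (XT.nd (nat_lit 624) (nat_lit 0) (nat_lit 0) (XT.nd (nat_lit 312) (nat_lit 76) (nat_lit 0) (XT.nd (nat_lit 156) (nat_lit 0) (nat_lit 0) (XT.nd (nat_lit 78) (nat_lit 76) (nat_lit 0) (XT.lf (nat_lit 0) (nat_lit 33836506456) (nat_lit 76) (nat_lit 56966120227) (nat_lit 76) (nat_lit 4423525024) (nat_lit 6) (nat_lit 4) (nat_lit 7) (nat_lit 5) (nat_lit 7) (nat_lit 4) (nat_lit 323) (nat_lit 252) (nat_lit 145)) (XT.lf (nat_lit 0) (nat_lit 106497855) (nat_lit 152) (nat_lit 52337869957) (nat_lit 76) (nat_lit 47172207928) (nat_lit 5) (nat_lit 5) (nat_lit 7) (nat_lit 5) (nat_lit 6) (nat_lit 4) (nat_lit 324) (nat_lit 252) (nat_lit 144))) (XT.nd (nat_lit 78) (nat_lit 0) (nat_lit 0) (XT.lf (nat_lit 0) (nat_lit 4710802771)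 (nat_lit 152) (nat_lit 42911992841) (nat_lit 76) (nat_lit 56600286756) (nat_lit 5) (nat_lit 5) (nat_lit 7) (nat_lit 5) (nat_lit 6) (nat_lit 4) (nat_lit 325) (nat_lit 252) (nat_lit 143)) (XT.lf (nat_lit 0) (nat_lit 9541932779) (nat_lit 152) (nat_lit 33020507716) (nat_lit 76) (nat_lit 66497652147) (nat_lit 5) (nat_lit 5) (nat_lit 7) (nat_lit 5) (nat_lit 6) (nat_lit 4) (nat_lit 326) (nat_lit 252) (nat_lit 142)))) (XT.nd (nat_lit 156) (nat_lit 76) (nat_lit 0) (XT.nd (nat_lit 78) (nat_lit 0) (nat_lit 0) (XT.lf (nat_lit 0) (nat_lit 14611390569) (nat_lit 152) (nat_lit 22639863428) (nat_lit 76) (nat_lit 76887869258) (nat_lit 5) (nat_lit 5) (nat_lit 7) (nat_lit 5) (nat_lit 6) (nat_lit 4) (nat_lit 327) (nat_lit 252) (nat_lit 141)) (XT.lf (nat_lit 0) (nat_lit 19931246280) (nat_lit 152) (nat_lit 11745344157) (nat_lit 76) (nat_lit 87795676700) (nat_lit 5) (nat_lit 5) (nat_lit 7) (nat_lit 5) (nat_lit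 6) (nat_lit 4) (nat_lit 328) (nat_lit 252) (nat_lit 140))) (XT.nd (nat_lit 78) (nat_lit 76) (nat_lit 0) (XT.lf (nat_lit 0) (nat_lit 25514166233) (nat_lit 152) (nat_lit 311010571) (nat_lit 76) (nat_lit 99247045443) (nat_lit 5) (nat_lit 5) (nat_lit 7) (nat_lit 5) (nat_lit 6) (nat_lit 4) (nat_lit 329) (nat_lit 252) (nat_lit 139)) (XT.lf (nat_lit 0) (nat_lit 12076898093) (nat_lit 76) (nat_lit 19485099228) (nat_lit 152) (nat_lit 99380896782) (nat_lit 4) (nat_lit 5) (nat_lit 5) (nat_lit 5) (nat_lit 6) (nat_lit 4) (nat_lit 330) (nat_lit 252) (nat_lit 138))))) (XT.nd (nat_lit 312) (nat_lit 0) (nat_lit 0) (XT.nd (nat_lit 156) (nat_lit 0) (nat_lit 0) (XT.nd (nat_lit 78) (nat_lit 0) (nat_lit 0) (XT.lf (nat_lit 0) (nat_lit 25090397463) (nat_lit 76) (nat_lit 12824361486) (nat_lit 152) (nat_lit 99192220555) (nat_lit 4) (nat_lit 5) (nat_lit 5) (nat_lit 5) (nat_lit 6) (nat_lit 4) (nat_lit 331) (nat_lit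 252) (nat_lit 137)) (XT.lf (nat_lit 0) (nat_lit 38750188647) (nat_lit 76) (nat_lit 5832371794) (nat_lit 152) (nat_lit 98996845219) (nat_lit 4) (nat_lit 5) (nat_lit 5) (nat_lit 5) (nat_lit 6) (nat_lit 4) (nat_lit 332) (nat_lit 252) (nat_lit 136))) (XT.nd (nat_lit 78) (nat_lit 0) (nat_lit 0) (XT.lf (nat_lit 0) (nat_lit 51604814087) (nat_lit 152) (nat_lit 97310324723) (nat_lit 0) (nat_lit 1459267469) (nat_lit 4) (nat_lit 5) (nat_lit 6) (nat_lit 4) (nat_lit 4) (nat_lit 4) (nat_lit 333) (nat_lit 252) (nat_lit 135)) (XT.lf (nat_lit 0) (nat_lit 59071411128) (nat_lit 152) (nat_lit 89515174640) (nat_lit 0) (nat_lit 8917915586) (nat_lit 4) (nat_lit 5) (nat_lit 6) (nat_lit 4) (nat_lit 4) (nat_lit 4) (nat_lit 334) (nat_lit 252) (nat_lit 134)))) (XT.nd (nat_lit 156) (nat_lit 0) (nat_lit 0) (XT.nd (nat_lit 78) (nat_lit 0) (nat_lit 0) (XT.lf (nat_lit 0) (nat_lit 66909069510) (nat_lit 152) (nat_lit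 81334147213) (nat_lit 0) (nat_lit 16748003563) (nat_lit 4) (nat_lit 5) (nat_lit 6) (nat_lit 4) (nat_lit 4) (nat_lit 4) (nat_lit 335) (nat_lit 252) (nat_lit 133)) (XT.lf (nat_lit 0) (nat_lit 75136450324) (nat_lit 152) (nat_lit 72747763806) (nat_lit 0) (nat_lit 24968174468) (nat_lit 4) (nat_lit 5) (nat_lit 6) (nat_lit 4) (nat_lit 4) (nat_lit 4) (nat_lit 336) (nat_lit 252) (nat_lit 132))) (XT.nd (nat_lit 78) (nat_lit 0) (nat_lit 0) (XT.lf (nat_lit 0) (nat_lit 83773142571) (nat_lit 152) (nat_lit 63735580648) (nat_lit 0) (nat_lit 33598000135) (nat_lit 4) (nat_lit 5) (nat_lit 6) (nat_lit 4) (nat_lit 4) (nat_lit 4) (nat_lit 337) (nat_lit 252) (nat_lit 131)) (XT.lf (nat_lit 0) (nat_lit 92839709805) (nat_lit 152) (nat_lit 54276140162) (nat_lit 0) (nat_lit 42658027769) (nat_lit 4) (nat_lit 5) (nat_lit 6) (nat_lit 4) (nat_lit 4) (nat_lit 4) (nat_lit 338) (nat_lit 252) (nat_lit 130)))))) (XT.nd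 (nat_lit 624) (nat_lit 0) (nat_lit 0) (XT.nd (nat_lit 312) (nat_lit 76) (nat_lit 0) (XT.nd (nat_lit 156) (nat_lit 0) (nat_lit 0) (XT.nd (nat_lit 78) (nat_lit 0) (nat_lit 0) (XT.lf (nat_lit 0) (nat_lit 102357739090) (nat_lit 152) (nat_lit 44346919868) (nat_lit 0) (nat_lit 52169828863) (nat_lit 4) (nat_lit 5) (nat_lit 6) (nat_lit 4) (nat_lit 4) (nat_lit 4) (nat_lit 339) (nat_lit 252) (nat_lit 129)) (XT.lf (nat_lit 0) (nat_lit 112349892401) (nat_lit 152) (nat_lit 33924278768) (nat_lit 0) (nat_lit 62156050564) (nat_lit 4) (nat_lit 5) (nat_lit 6) (nat_lit 4) (nat_lit 4) (nat_lit 4) (nat_lit 340) (nat_lit 252) (nat_lit 128))) (XT.nd (nat_lit 78) (nat_lit 0) (nat_lit 0) (XT.lf (nat_lit 0) (nat_lit 122839960579) (nat_lit 152) (nat_lit 22983401048) (nat_lit 0) (nat_lit 72640469590) (nat_lit 4) (nat_lit 5) (nat_lit 6) (nat_lit 4) (nat_lit 4) (nat_lit 4) (nat_lit 341) (nat_lit 252) (nat_lit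 127)) (XT.lf (nat_lit 0) (nat_lit 133852919977) (nat_lit 152) (nat_lit 11498237000) (nat_lit 0) (nat_lit 83648048842) (nat_lit 4) (nat_lit 5) (nat_lit 6) (nat_lit 4) (nat_lit 4) (nat_lit 4) (nat_lit 342) (nat_lit 252) (nat_lit 126)))) (XT.nd (nat_lit 156) (nat_lit 0) (nat_lit 0) (XT.nd (nat_lit 78) (nat_lit 0) (nat_lit 0) (XT.lf (nat_lit 0) (nat_lit 577027487) (nat_lit 76) (nat_lit 144846973455) (nat_lit 76) (nat_lit 94636978373) (nat_lit 3) (nat_lit 4) (nat_lit 4) (nat_lit 5) (nat_lit 4) (nat_lit 4) (nat_lit 343) (nat_lit 252) (nat_lit 125)) (XT.lf (nat_lit 0) (nat_lit 13652664138) (nat_lit 76) (nat_lit 144114197381) (nat_lit 76) (nat_lit 93899322348) (nat_lit 3) (nat_lit 4) (nat_lit 4) (nat_lit 5) (nat_lit 4) (nat_lit 4) (nat_lit 344) (nat_lit 252) (nat_lit 124))) (XT.nd (nat_lit 78) (nat_lit 0) (nat_lit 0) (XT.lf (nat_lit 0) (nat_lit 27379621777) (nat_lit 76) (nat_lit 143345812258)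 (nat_lit 76) (nat_lit 93126289653) (nat_lit 3) (nat_lit 4) (nat_lit 4) (nat_lit 5) (nat_lit 4) (nat_lit 4) (nat_lit 345) (nat_lit 252) (nat_lit 123)) (XT.lf (nat_lit 0) (nat_lit 41790583637) (nat_lit 76) (nat_lit 142539988596) (nat_lit 76) (nat_lit 92316039733) (nat_lit 3) (nat_lit 4) (nat_lit 4) (nat_lit 5) (nat_lit 4) (nat_lit 4) (nat_lit 346) (nat_lit 252) (nat_lit 122))))) (XT.nd (nat_lit 312) (nat_lit 0) (nat_lit 0) (XT.nd (nat_lit 156) (nat_lit 0) (nat_lit 0) (XT.nd (nat_lit 78) (nat_lit 0) (nat_lit 0) (XT.lf (nat_lit 0) (nat_lit 56919861531) (nat_lit 76) (nat_lit 141694807769) (nat_lit 76) (nat_lit 91466643421) (nat_lit 3) (nat_lit 4) (nat_lit 4) (nat_lit 5) (nat_lit 4) (nat_lit 4) (nat_lit 347) (nat_lit 252) (nat_lit 121)) (XT.lf (nat_lit 0) (nat_lit 72803477550) (nat_lit 76) (nat_lit 140808257441) (nat_lit 76) (nat_lit 90576078346) (nat_lit 3) (nat_lit 4) (nat_lit 4) (nat_lit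 5) (nat_lit 4) (nat_lit 4) (nat_lit 348) (nat_lit 252) (nat_lit 120))) (XT.nd (nat_lit 78) (nat_lit 0) (nat_lit 0) (XT.lf (nat_lit 0) (nat_lit 89479249826) (nat_lit 76) (nat_lit 139878226778) (nat_lit 76) (nat_lit 89642224115) (nat_lit 3) (nat_lit 4) (nat_lit 4) (nat_lit 5) (nat_lit 4) (nat_lit 4) (nat_lit 349) (nat_lit 252) (nat_lit 119)) (XT.lf (nat_lit 0) (nat_lit 106986882581) (nat_lit 76) (nat_lit 138902501422) (nat_lit 76) (nat_lit 88662857264) (nat_lit 3) (nat_lit 4) (nat_lit 4) (nat_lit 5) (nat_lit 4) (nat_lit 4) (nat_lit 350) (nat_lit 252) (nat_lit 118)))) (XT.nd (nat_lit 156) (nat_lit 0) (nat_lit 0) (XT.nd (nat_lit 78) (nat_lit 0) (nat_lit 0) (XT.lf (nat_lit 0) (nat_lit 125368060654) (nat_lit 76) (nat_lit 137878758216) (nat_lit 76) (nat_lit 87635645968) (nat_lit 3) (nat_lit 4) (nat_lit 4) (nat_lit 5) (nat_lit 4) (nat_lit 4) (nat_lit 351) (nat_lit 252) (nat_lit 117)) (XT.lf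 (nat_lit 0) (nat_lit 144666548753) (nat_lit 76) (nat_lit 136804559677) (nat_lit 76) (nat_lit 86558144487) (nat_lit 3) (nat_lit 4) (nat_lit 4) (nat_lit 5) (nat_lit 4) (nat_lit 4) (nat_lit 352) (nat_lit 252) (nat_lit 116))) (XT.nd (nat_lit 78) (nat_lit 0) (nat_lit 0) (XT.lf (nat_lit 0) (nat_lit 164928295662) (nat_lit 76) (nat_lit 135677348189) (nat_lit 76) (nat_lit 85427787340) (nat_lit 3) (nat_lit 4) (nat_lit 4) (nat_lit 5) (nat_lit 4) (nat_lit 4) (nat_lit 353) (nat_lit 252) (nat_lit 115)) (XT.lf (nat_lit 0) (nat_lit 186201543634) (nat_lit 76) (nat_lit 134494439915) (nat_lit 76) (nat_lit 84241883200) (nat_lit 3) (nat_lit 4) (nat_lit 4) (nat_lit 5) (nat_lit 4) (nat_lit 4) (nat_lit 354) (nat_lit 252) (nat_lit 114))))))) (XT.nd (nat_lit 1248) (nat_lit 1672) (nat_lit 0) (XT.nd (nat_lit 624) (nat_lit 1444) (nat_lit 0) (XT.nd (nat_lit 312) (nat_lit 0) (nat_lit 76) (XT.nd (nat_lit 156) (nat_lit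 0) (nat_lit 0) (XT.nd (nat_lit 78) (nat_lit 0) (nat_lit 0) (XT.lf (nat_lit 0) (nat_lit 552607211) (nat_lit 0) (nat_lit 552607211) (nat_lit 532) (nat_lit 3140718891) (nat_lit 67) (nat_lit 5) (nat_lit 67) (nat_lit 3) (nat_lit 74) (nat_lit 3) (nat_lit 253) (nat_lit 253) (nat_lit 214)) (XT.lf (nat_lit 0) (nat_lit 3178414649) (nat_lit 532) (nat_lit 4071424357) (nat_lit 608) (nat_lit 1402796944) (nat_lit 67) (nat_lit 5) (nat_lit 74) (nat_lit 3) (nat_lit 75) (nat_lit 5) (nat_lit 254) (nat_lit 253) (nat_lit 213))) (XT.nd (nat_lit 78) (nat_lit 0) (nat_lit 0) (XT.lf (nat_lit 0) (nat_lit 4156385328) (nat_lit 532) (nat_lit 640712891) (nat_lit 608) (nat_lit 4026643347) (nat_lit 67) (nat_lit 5) (nat_lit 74) (nat_lit 3) (nat_lit 75) (nat_lit 5) (nat_lit 255) (nat_lit 253) (nat_lit 212)) (XT.lf (nat_lit 76) (nat_lit 3027815040) (nat_lit 0) (nat_lit 2148871526) (nat_lit 608) (nat_lit 3827403441) (nat_lit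 68) (nat_lit 5) (nat_lit 67) (nat_lit 5) (nat_lit 75) (nat_lit 5) (nat_lit 256) (nat_lit 253) (nat_lit 211)))) (XT.nd (nat_lit 156) (nat_lit 0) (nat_lit 0) (XT.nd (nat_lit 78) (nat_lit 0) (nat_lit 0) (XT.lf (nat_lit 0) (nat_lit 6217485330) (nat_lit 532) (nat_lit 2334342333) (nat_lit 608) (nat_lit 643496128) (nat_lit 68) (nat_lit 5) (nat_lit 75) (nat_lit 5) (nat_lit 76) (nat_lit 5) (nat_lit 257) (nat_lit 253) (nat_lit 210)) (XT.lf (nat_lit 76) (nat_lit 1469688309) (nat_lit 0) (nat_lit 5849847318) (nat_lit 608) (nat_lit 2076448813) (nat_lit 69) (nat_lit 5) (nat_lit 68) (nat_lit 5) (nat_lit 76) (nat_lit 5) (nat_lit 258) (nat_lit 253) (nat_lit 209))) (XT.nd (nat_lit 78) (nat_lit 0) (nat_lit 76) (XT.lf (nat_lit 76) (nat_lit 5513666224) (nat_lit 0) (nat_lit 2955436546) (nat_lit 608) (nat_lit 1138264878) (nat_lit 69) (nat_lit 5) (nat_lit 68) (nat_lit 5) (nat_lit 76) (nat_lit 5) (nat_lit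 259) (nat_lit 253) (nat_lit 208)) (XT.lf (nat_lit 0) (nat_lit 9632815106) (nat_lit 532) (nat_lit 103365179) (nat_lit 608) (nat_lit 95601860) (nat_lit 69) (nat_lit 5) (nat_lit 76) (nat_lit 5) (nat_lit 77) (nat_lit 5) (nat_lit 260) (nat_lit 253) (nat_lit 207))))) (XT.nd (nat_lit 312) (nat_lit 988) (nat_lit 0) (XT.nd (nat_lit 156) (nat_lit 0) (nat_lit 0) (XT.nd (nat_lit 78) (nat_lit 0) (nat_lit 0) (XT.lf (nat_lit 0) (nat_lit 833546493) (nat_lit 608) (nat_lit 5938116932) (nat_lit 684) (nat_lit 3291834889) (nat_lit 61) (nat_lit 5) (nat_lit 69) (nat_lit 5) (nat_lit 70) (nat_lit 5) (nat_lit 261) (nat_lit 253) (nat_lit 206)) (XT.lf (nat_lit 0) (nat_lit 1870881009) (nat_lit 608) (nat_lit 1773019394) (nat_lit 684) (nat_lit 6664997943) (nat_lit 61) (nat_lit 5) (nat_lit 69) (nat_lit 5) (nat_lit 70) (nat_lit 5) (nat_lit 262) (nat_lit 253) (nat_lit 205))) (XT.nd (nat_lit 78) (nat_lit 0) (nat_lit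 76) (XT.lf (nat_lit 76) (nat_lit 2654660587) (nat_lit 0) (nat_lit 306966130) (nat_lit 684) (nat_lit 7605107523) (nat_lit 62) (nat_lit 5) (nat_lit 61) (nat_lit 5) (nat_lit 70) (nat_lit 5) (nat_lit 263) (nat_lit 253) (nat_lit 204)) (XT.lf (nat_lit 0) (nat_lit 4148997423) (nat_lit 608) (nat_lit 3553513435) (nat_lit 76) (nat_lit 3133078193) (nat_lit 62) (nat_lit 5) (nat_lit 70) (nat_lit 5) (nat_lit 63) (nat_lit 5) (nat_lit 264) (nat_lit 253) (nat_lit 203)))) (XT.nd (nat_lit 156) (nat_lit 456) (nat_lit 0) (XT.nd (nat_lit 78) (nat_lit 0) (nat_lit 0) (XT.lf (nat_lit 0) (nat_lit 1019694223) (nat_lit 608) (nat_lit 4360478086) (nat_lit 684) (nat_lit 5738712998) (nat_lit 54) (nat_lit 5) (nat_lit 62) (nat_lit 5) (nat_lit 63) (nat_lit 5) (nat_lit 265) (nat_lit 253) (nat_lit 202)) (XT.lf (nat_lit 0) (nat_lit 5914545451) (nat_lit 608) (nat_lit 783288563) (nat_lit 684) (nat_lit 4717475942) (nat_lit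 54) (nat_lit 5) (nat_lit 62) (nat_lit 5) (nat_lit 63) (nat_lit 5) (nat_lit 266) (nat_lit 253) (nat_lit 201))) (XT.nd (nat_lit 78) (nat_lit 456) (nat_lit 0) (XT.lf (nat_lit 0) (nat_lit 8094290565) (nat_lit 684) (nat_lit 749720527) (nat_lit 76) (nat_lit 2882099143) (nat_lit 54) (nat_lit 5) (nat_lit 63) (nat_lit 5) (nat_lit 55) (nat_lit 5) (nat_lit 267) (nat_lit 253) (nat_lit 200)) (XT.lf (nat_lit 0) (nat_lit 4335374083) (nat_lit 456) (nat_lit 5273817937) (nat_lit 532) (nat_lit 2441017867) (nat_lit 48) (nat_lit 5) (nat_lit 54) (nat_lit 5) (nat_lit 55) (nat_lit 5) (nat_lit 268) (nat_lit 253) (nat_lit 199)))))) (XT.nd (nat_lit 624) (nat_lit 760) (nat_lit 0) (XT.nd (nat_lit 312) (nat_lit 228) (nat_lit 0) (XT.nd (nat_lit 156) (nat_lit 304) (nat_lit 0) (XT.nd (nat_lit 78) (nat_lit 380) (nat_lit 0) (XT.lf (nat_lit 0) (nat_lit 9671806724) (nat_lit 456) (nat_lit 1509890065) (nat_lit 532) (nat_lit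 1209906213) (nat_lit 48) (nat_lit 5) (nat_lit 54) (nat_lit 5) (nat_lit 55) (nat_lit 5) (nat_lit 269) (nat_lit 253) (nat_lit 198)) (XT.lf (nat_lit 0) (nat_lit 129166130) (nat_lit 380) (nat_lit 10211011452) (nat_lit 76) (nat_lit 2407535415) (nat_lit 43) (nat_lit 5) (nat_lit 48) (nat_lit 5) (nat_lit 44) (nat_lit 5) (nat_lit 270) (nat_lit 253) (nat_lit 197))) (XT.nd (nat_lit 78) (nat_lit 304) (nat_lit 0) (XT.lf (nat_lit 0) (nat_lit 1537081193) (nat_lit 380) (nat_lit 5044098910) (nat_lit 76) (nat_lit 6537485862) (nat_lit 43) (nat_lit 5) (nat_lit 48) (nat_lit 5) (nat_lit 44) (nat_lit 5) (nat_lit 271) (nat_lit 253) (nat_lit 196)) (XT.lf (nat_lit 0) (nat_lit 364363061) (nat_lit 304) (nat_lit 2629080935) (nat_lit 380) (nat_lit 10515969219) (nat_lit 39) (nat_lit 5) (nat_lit 43) (nat_lit 5) (nat_lit 44) (nat_lit 5) (nat_lit 272) (nat_lit 253) (nat_lit 195)))) (XT.nd (nat_lit 156) (nat_lit 228)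 (nat_lit 0) (XT.nd (nat_lit 78) (nat_lit 0) (nat_lit 0) (XT.lf (nat_lit 0) (nat_lit 4606413553) (nat_lit 380) (nat_lit 7751660075) (nat_lit 76) (nat_lit 1557576894) (nat_lit 39) (nat_lit 5) (nat_lit 44) (nat_lit 5) (nat_lit 40) (nat_lit 5) (nat_lit 273) (nat_lit 253) (nat_lit 194)) (XT.lf (nat_lit 0) (nat_lit 6317629153) (nat_lit 380) (nat_lit 2159757063) (nat_lit 76) (nat_lit 5864068958) (nat_lit 39) (nat_lit 5) (nat_lit 44) (nat_lit 5) (nat_lit 40) (nat_lit 5) (nat_lit 274) (nat_lit 253) (nat_lit 193))) (XT.nd (nat_lit 78) (nat_lit 0) (nat_lit 0) (XT.lf (nat_lit 0) (nat_lit 3806863667) (nat_lit 228) (nat_lit 4342689940) (nat_lit 304) (nat_lit 6637367963) (nat_lit 36) (nat_lit 5) (nat_lit 39) (nat_lit 5) (nat_lit 40) (nat_lit 5) (nat_lit 275) (nat_lit 253) (nat_lit 192)) (XT.lf (nat_lit 0) (nat_lit 10086646233) (nat_lit 304) (nat_lit 5134161904) (nat_lit 76) (nat_lit 33297323) (nat_lit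 36) (nat_lit 5) (nat_lit 40) (nat_lit 5) (nat_lit 37) (nat_lit 5) (nat_lit 276) (nat_lit 253) (nat_lit 191))))) (XT.nd (nat_lit 312) (nat_lit 228) (nat_lit 0) (XT.nd (nat_lit 156) (nat_lit 304) (nat_lit 0) (XT.nd (nat_lit 78) (nat_lit 0) (nat_lit 0) (XT.lf (nat_lit 0) (nat_lit 936578561) (nat_lit 228) (nat_lit 11247367713) (nat_lit 304) (nat_lit 3557651559) (nat_lit 33) (nat_lit 5) (nat_lit 36) (nat_lit 5) (nat_lit 37) (nat_lit 5) (nat_lit 277) (nat_lit 253) (nat_lit 190)) (XT.lf (nat_lit 0) (nat_lit 7463290648) (nat_lit 228) (nat_lit 6987975313) (nat_lit 304) (nat_lit 1799052491) (nat_lit 33) (nat_lit 5) (nat_lit 36) (nat_lit 5) (nat_lit 37) (nat_lit 5) (nat_lit 278) (nat_lit 253) (nat_lit 189))) (XT.nd (nat_lit 78) (nat_lit 228) (nat_lit 0) (XT.lf (nat_lit 0) (nat_lit 24757022) (nat_lit 304) (nat_lit 2494262750) (nat_lit 76) (nat_lit 14266579274) (nat_lit 32) (nat_lit 5) (nat_lit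 36) (nat_lit 5) (nat_lit 33) (nat_lit 5) (nat_lit 279) (nat_lit 253) (nat_lit 188)) (XT.lf (nat_lit 0) (nat_lit 1960009200) (nat_lit 304) (nat_lit 13185731801) (nat_lit 76) (nat_lit 2196488624) (nat_lit 29) (nat_lit 5) (nat_lit 33) (nat_lit 5) (nat_lit 30) (nat_lit 5) (nat_lit 280) (nat_lit 253) (nat_lit 187)))) (XT.nd (nat_lit 156) (nat_lit 228) (nat_lit 0) (XT.nd (nat_lit 78) (nat_lit 0) (nat_lit 0) (XT.lf (nat_lit 0) (nat_lit 4056587717) (nat_lit 304) (nat_lit 6764968244) (nat_lit 76) (nat_lit 7101999200) (nat_lit 29) (nat_lit 5) (nat_lit 33) (nat_lit 5) (nat_lit 30) (nat_lit 5) (nat_lit 281) (nat_lit 253) (nat_lit 186)) (XT.lf (nat_lit 0) (nat_lit 6239265915) (nat_lit 304) (nat_lit 46778221) (nat_lit 76) (nat_lit 12248926554) (nat_lit 29) (nat_lit 5) (nat_lit 33) (nat_lit 5) (nat_lit 30) (nat_lit 5) (nat_lit 282) (nat_lit 253) (nat_lit 185))) (XT.nd (nat_lit 78) (nat_lit 0) (nat_lit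 0) (XT.lf (nat_lit 0) (nat_lit 7215784114) (nat_lit 228) (nat_lit 1410115144) (nat_lit 304) (nat_lit 10546399773) (nat_lit 26) (nat_lit 5) (nat_lit 29) (nat_lit 5) (nat_lit 30) (nat_lit 5) (nat_lit 283) (nat_lit 253) (nat_lit 184)) (XT.lf (nat_lit 0) (nat_lit 11173178673) (nat_lit 304) (nat_lit 5079281631) (nat_lit 76) (nat_lit 3587046908) (nat_lit 26) (nat_lit 5) (nat_lit 30) (nat_lit 5) (nat_lit 27) (nat_lit 5) (nat_lit 284) (nat_lit 253) (nat_lit 183))))))))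
noncomputable def xc130 : XT := (XT.nd (nat_lit 1248) (nat_lit 532) (nat_lit 0) (XT.nd (nat_lit 624) (nat_lit 304) (nat_lit 0) (XT.nd (nat_lit 312) (nat_lit 152) (nat_lit 0) (XT.nd (nat_lit 156) (nat_lit 304) (nat_lit 0) (XT.nd (nat_lit 78) (nat_lit 0) (nat_lit 0) (XT.lf (nat_lit 0) (nat_lit 2166125604) (nat_lit 152) (nat_lit 11722053138) (nat_lit 228) (nat_lit 6649954596) (nat_lit 24) (nat_lit 5) (nat_lit 26) (nat_lit 5) (nat_lit 27) (nat_lit 5) (nat_lit 285) (nat_lit 253) (nat_lit 182)) (XT.lf (nat_lit 0) (nat_lit 9928597007) (nat_lit 152) (nat_lit 6880225728) (nat_lit 228) (nat_lit 4459445125) (nat_lit 24) (nat_lit 5) (nat_lit 26) (nat_lit 5) (nat_lit 27) (nat_lit 5) (nat_lit 286) (nat_lit 253) (nat_lit 181))) (XT.nd (nat_lit 78) (nat_lit 304) (nat_lit 0) (XT.lf (nat_lit 0) (nat_lit 18058670660) (nat_lit 152) (nat_lit 1801470004) (nat_lit 228) (nat_lit 2175604720) (nat_lit 24)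 (nat_lit 5) (nat_lit 26) (nat_lit 5) (nat_lit 27) (nat_lit 5) (nat_lit 287) (nat_lit 253) (nat_lit 180)) (XT.lf (nat_lit 0) (nat_lit 316636239) (nat_lit 304) (nat_lit 19041906326) (nat_lit 76) (nat_lit 3477876214) (nat_lit 20) (nat_lit 5) (nat_lit 24) (nat_lit 5) (nat_lit 21) (nat_lit 5) (nat_lit 288) (nat_lit 253) (nat_lit 179)))) (XT.nd (nat_lit 156) (nat_lit 152) (nat_lit 0) (XT.nd (nat_lit 78) (nat_lit 0) (nat_lit 0) (XT.lf (nat_lit 0) (nat_lit 2943755326) (nat_lit 304) (nat_lit 11667785291) (nat_lit 76) (nat_lit 9059691967) (nat_lit 20) (nat_lit 5) (nat_lit 24) (nat_lit 5) (nat_lit 21) (nat_lit 5) (nat_lit 289) (nat_lit 253) (nat_lit 178)) (XT.lf (nat_lit 0) (nat_lit 5688316580) (nat_lit 304) (nat_lit 3944462084) (nat_lit 76) (nat_lit 14915760349) (nat_lit 20) (nat_lit 5) (nat_lit 24) (nat_lit 5) (nat_lit 21) (nat_lit 5) (nat_lit 290) (nat_lit 253) (nat_lit 177))) (XT.nd (nat_lit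 78) (nat_lit 0) (nat_lit 0) (XT.lf (nat_lit 0) (nat_lit 4283552594) (nat_lit 152) (nat_lit 4340180337) (nat_lit 228) (nat_lit 16843350045) (nat_lit 18) (nat_lit 5) (nat_lit 20) (nat_lit 5) (nat_lit 21) (nat_lit 5) (nat_lit 291) (nat_lit 253) (nat_lit 176)) (XT.lf (nat_lit 0) (nat_lit 11779828721) (nat_lit 228) (nat_lit 13407287856) (nat_lit 76) (nat_lit 1240793145) (nat_lit 18) (nat_lit 5) (nat_lit 21) (nat_lit 5) (nat_lit 19) (nat_lit 5) (nat_lit 292) (nat_lit 253) (nat_lit 175))))) (XT.nd (nat_lit 312) (nat_lit 152) (nat_lit 0) (XT.nd (nat_lit 156) (nat_lit 0) (nat_lit 0) (XT.nd (nat_lit 78) (nat_lit 152) (nat_lit 0) (XT.lf (nat_lit 0) (nat_lit 15152508952) (nat_lit 228) (nat_lit 5331372250) (nat_lit 76) (nat_lit 6950006206) (nat_lit 18) (nat_lit 5) (nat_lit 21) (nat_lit 5) (nat_lit 19) (nat_lit 5) (nat_lit 293) (nat_lit 253) (nat_lit 174)) (XT.lf (nat_lit 0) (nat_lit 3234739034)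 (nat_lit 152) (nat_lit 15497805745) (nat_lit 228) (nat_lit 9755729393) (nat_lit 16) (nat_lit 5) (nat_lit 18) (nat_lit 5) (nat_lit 19) (nat_lit 5) (nat_lit 294) (nat_lit 253) (nat_lit 173))) (XT.nd (nat_lit 78) (nat_lit 0) (nat_lit 0) (XT.lf (nat_lit 0) (nat_lit 12397393460) (nat_lit 152) (nat_lit 10172994422) (nat_lit 228) (nat_lit 7021096187) (nat_lit 16) (nat_lit 5) (nat_lit 18) (nat_lit 5) (nat_lit 19) (nat_lit 5) (nat_lit 295) (nat_lit 253) (nat_lit 172)) (XT.lf (nat_lit 0) (nat_lit 22002127627) (nat_lit 152) (nat_lit 4587058480) (nat_lit 228) (nat_lit 4161257175) (nat_lit 16) (nat_lit 5) (nat_lit 18) (nat_lit 5) (nat_lit 19) (nat_lit 5) (nat_lit 296) (nat_lit 253) (nat_lit 171)))) (XT.nd (nat_lit 156) (nat_lit 0) (nat_lit 0) (XT.nd (nat_lit 78) (nat_lit 76) (nat_lit 0) (XT.lf (nat_lit 0) (nat_lit 86796940) (nat_lit 76) (nat_lit 30732946036) (nat_lit 152) (nat_lit 1147106515)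 (nat_lit 15) (nat_lit 5) (nat_lit 16) (nat_lit 5) (nat_lit 17) (nat_lit 4) (nat_lit 297) (nat_lit 253) (nat_lit 170)) (XT.lf (nat_lit 0) (nat_lit 2168514875) (nat_lit 152) (nat_lit 23694310765) (nat_lit 76) (nat_lit 7368944296) (nat_lit 14) (nat_lit 5) (nat_lit 16) (nat_lit 5) (nat_lit 15) (nat_lit 5) (nat_lit 298) (nat_lit 253) (nat_lit 169))) (XT.nd (nat_lit 78) (nat_lit 0) (nat_lit 0) (XT.lf (nat_lit 0) (nat_lit 5601424570) (nat_lit 152) (nat_lit 15133230050) (nat_lit 76) (nat_lit 13824873185) (nat_lit 14) (nat_lit 5) (nat_lit 16) (nat_lit 5) (nat_lit 15) (nat_lit 5) (nat_lit 299) (nat_lit 253) (nat_lit 168)) (XT.lf (nat_lit 0) (nat_lit 9196510735) (nat_lit 152) (nat_lit 6158517333) (nat_lit 76) (nat_lit 20599151833) (nat_lit 14) (nat_lit 5) (nat_lit 16) (nat_lit 5) (nat_lit 15) (nat_lit 5) (nat_lit 300) (nat_lit 253) (nat_lit 167)))))) (XT.nd (nat_lit 624) (nat_lit 304) (nat_lit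 0) (XT.nd (nat_lit 312) (nat_lit 76) (nat_lit 0) (XT.nd (nat_lit 156) (nat_lit 0) (nat_lit 0) (XT.nd (nat_lit 78) (nat_lit 0) (nat_lit 0) (XT.lf (nat_lit 0) (nat_lit 3358694962) (nat_lit 152) (nat_lit 9656076777) (nat_lit 228) (nat_lit 24401653155) (nat_lit 12) (nat_lit 5) (nat_lit 14) (nat_lit 5) (nat_lit 15) (nat_lit 5) (nat_lit 301) (nat_lit 253) (nat_lit 166)) (XT.lf (nat_lit 0) (nat_lit 13552063954) (nat_lit 152) (nat_lit 3567379649) (nat_lit 228) (nat_lit 21827593472) (nat_lit 12) (nat_lit 5) (nat_lit 14) (nat_lit 5) (nat_lit 15) (nat_lit 5) (nat_lit 302) (nat_lit 253) (nat_lit 165))) (XT.nd (nat_lit 78) (nat_lit 0) (nat_lit 0) (XT.lf (nat_lit 0) (nat_lit 21465016247) (nat_lit 228) (nat_lit 16356443950) (nat_lit 76) (nat_lit 2730964715) (nat_lit 12) (nat_lit 5) (nat_lit 15) (nat_lit 5) (nat_lit 13) (nat_lit 4) (nat_lit 303) (nat_lit 253) (nat_lit 164)) (XT.lf (nat_lit 0) (nat_lit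 26078300847) (nat_lit 228) (nat_lit 6937086683) (nat_lit 76) (nat_lit 9220200001) (nat_lit 12) (nat_lit 5) (nat_lit 15) (nat_lit 5) (nat_lit 13) (nat_lit 4) (nat_lit 304) (nat_lit 253) (nat_lit 163)))) (XT.nd (nat_lit 156) (nat_lit 0) (nat_lit 0) (XT.nd (nat_lit 78) (nat_lit 0) (nat_lit 0) (XT.lf (nat_lit 0) (nat_lit 3038472612) (nat_lit 76) (nat_lit 27923551078) (nat_lit 152) (nat_lit 13038921653) (nat_lit 11) (nat_lit 5) (nat_lit 12) (nat_lit 5) (nat_lit 13) (nat_lit 4) (nat_lit 305) (nat_lit 253) (nat_lit 162)) (XT.lf (nat_lit 0) (nat_lit 13741827730) (nat_lit 76) (nat_lit 22458103235) (nat_lit 152) (nat_lit 9649164708) (nat_lit 11) (nat_lit 5) (nat_lit 12) (nat_lit 5) (nat_lit 13) (nat_lit 4) (nat_lit 306) (nat_lit 253) (nat_lit 161))) (XT.nd (nat_lit 78) (nat_lit 0) (nat_lit 0) (XT.lf (nat_lit 0) (nat_lit 24969091434) (nat_lit 76) (nat_lit 16723513948) (nat_lit 152) (nat_lit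 6097427917) (nat_lit 11) (nat_lit 5) (nat_lit 12) (nat_lit 5) (nat_lit 13) (nat_lit 4) (nat_lit 307) (nat_lit 253) (nat_lit 160)) (XT.lf (nat_lit 0) (nat_lit 36746995305) (nat_lit 76) (nat_lit 10706129435) (nat_lit 152) (nat_lit 2375254765) (nat_lit 11) (nat_lit 5) (nat_lit 12) (nat_lit 5) (nat_lit 13) (nat_lit 4) (nat_lit 308) (nat_lit 253) (nat_lit 159))))) (XT.nd (nat_lit 312) (nat_lit 76) (nat_lit 0) (XT.nd (nat_lit 156) (nat_lit 0) (nat_lit 0) (XT.nd (nat_lit 78) (nat_lit 152) (nat_lit 0) (XT.lf (nat_lit 0) (nat_lit 1477368587) (nat_lit 152) (nat_lit 2889234049) (nat_lit 76) (nat_lit 47601193432) (nat_lit 10) (nat_lit 5) (nat_lit 12) (nat_lit 5) (nat_lit 11) (nat_lit 5) (nat_lit 309) (nat_lit 253) (nat_lit 158)) (XT.lf (nat_lit 0) (nat_lit 5600126245) (nat_lit 228) (nat_lit 46224361340) (nat_lit 76) (nat_lit 2379901806) (nat_lit 8) (nat_lit 5) (nat_lit 11) (nat_lit 5) (nat_lit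 9) (nat_lit 4) (nat_lit 310) (nat_lit 253) (nat_lit 157))) (XT.nd (nat_lit 78) (nat_lit 0) (nat_lit 0) (XT.lf (nat_lit 0) (nat_lit 10044148965) (nat_lit 228) (nat_lit 37139750841) (nat_lit 76) (nat_lit 9363174528) (nat_lit 8) (nat_lit 5) (nat_lit 11) (nat_lit 5) (nat_lit 9) (nat_lit 4) (nat_lit 311) (nat_lit 253) (nat_lit 156)) (XT.lf (nat_lit 0) (nat_lit 14704478356) (nat_lit 228) (nat_lit 27610490901) (nat_lit 76) (nat_lit 16692236430) (nat_lit 8) (nat_lit 5) (nat_lit 11) (nat_lit 5) (nat_lit 9) (nat_lit 4) (nat_lit 312) (nat_lit 253) (nat_lit 155)))) (XT.nd (nat_lit 156) (nat_lit 76) (nat_lit 0) (XT.nd (nat_lit 78) (nat_lit 0) (nat_lit 0) (XT.lf (nat_lit 0) (nat_lit 19592210440) (nat_lit 228) (nat_lit 17613892806) (nat_lit 76) (nat_lit 24384537658) (nat_lit 8) (nat_lit 5) (nat_lit 11) (nat_lit 5) (nat_lit 9) (nat_lit 4) (nat_lit 313) (nat_lit 253) (nat_lit 154)) (XT.lf (nat_lit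 0) (nat_lit 24718982675) (nat_lit 228) (nat_lit 7126155132) (nat_lit 76) (nat_lit 32458393217) (nat_lit 8) (nat_lit 5) (nat_lit 11) (nat_lit 5) (nat_lit 9) (nat_lit 4) (nat_lit 314) (nat_lit 253) (nat_lit 153))) (XT.nd (nat_lit 78) (nat_lit 0) (nat_lit 0) (XT.lf (nat_lit 0) (nat_lit 4005906963) (nat_lit 76) (nat_lit 26153638131) (nat_lit 152) (nat_lit 36989663042) (nat_lit 7) (nat_lit 5) (nat_lit 8) (nat_lit 5) (nat_lit 9) (nat_lit 4) (nat_lit 315) (nat_lit 253) (nat_lit 152)) (XT.lf (nat_lit 0) (nat_lit 15933833170) (nat_lit 76) (nat_lit 20054010823) (nat_lit 152) (nat_lit 34143554039) (nat_lit 7) (nat_lit 5) (nat_lit 8) (nat_lit 5) (nat_lit 9) (nat_lit 4) (nat_lit 316) (nat_lit 253) (nat_lit 151)))))))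
noncomputable def xc131 : XT := (XT.nd (nat_lit 1248) (nat_lit 76) (nat_lit 0) (XT.nd (nat_lit 624) (nat_lit 152) (nat_lit 0) (XT.nd (nat_lit 312) (nat_lit 76) (nat_lit 0) (XT.nd (nat_lit 156) (nat_lit 0) (nat_lit 0) (XT.nd (nat_lit 78) (nat_lit 0) (nat_lit 0) (XT.lf (nat_lit 0) (nat_lit 28450400441) (nat_lit 76) (nat_lit 13652417848) (nat_lit 152) (nat_lit 31160129777) (nat_lit 7) (nat_lit 5) (nat_lit 8) (nat_lit 5) (nat_lit 9) (nat_lit 4) (nat_lit 317) (nat_lit 253) (nat_lit 150)) (XT.lf (nat_lit 0) (nat_lit 41585410126) (nat_lit 76) (nat_lit 6933617317) (nat_lit 152) (nat_lit 28032286865) (nat_lit 7) (nat_lit 5) (nat_lit 8) (nat_lit 5) (nat_lit 9) (nat_lit 4) (nat_lit 318) (nat_lit 253) (nat_lit 149))) (XT.nd (nat_lit 78) (nat_lit 0) (nat_lit 0) (XT.lf (nat_lit 0) (nat_lit 55253596513) (nat_lit 152) (nat_lit 24636038510) (nat_lit 0) (nat_lit 114598760) (nat_lit 7) (nat_lit 5) (nat_lit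 9) (nat_lit 4) (nat_lit 7) (nat_lit 4) (nat_lit 319) (nat_lit 253) (nat_lit 148)) (XT.lf (nat_lit 0) (nat_lit 62434425019) (nat_lit 152) (nat_lit 13910220528) (nat_lit 0) (nat_lit 7279688939) (nat_lit 7) (nat_lit 5) (nat_lit 9) (nat_lit 4) (nat_lit 7) (nat_lit 4) (nat_lit 320) (nat_lit 253) (nat_lit 147)))) (XT.nd (nat_lit 156) (nat_lit 0) (nat_lit 0) (XT.nd (nat_lit 78) (nat_lit 76) (nat_lit 0) (XT.lf (nat_lit 0) (nat_lit 69970356977) (nat_lit 152) (nat_lit 2654659374) (nat_lit 0) (nat_lit 14800632014) (nat_lit 7) (nat_lit 5) (nat_lit 9) (nat_lit 4) (nat_lit 7) (nat_lit 4) (nat_lit 321) (nat_lit 253) (nat_lit 146)) (XT.lf (nat_lit 0) (nat_lit 9460230356) (nat_lit 76) (nat_lit 68566805433) (nat_lit 76) (nat_lit 13382805343) (nat_lit 6) (nat_lit 4) (nat_lit 7) (nat_lit 5) (nat_lit 7) (nat_lit 4) (nat_lit 322) (nat_lit 253) (nat_lit 145))) (XT.nd (nat_lit 78) (nat_lit 0) (nat_lit 0)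 (XT.lf (nat_lit 0) (nat_lit 22266893000) (nat_lit 76) (nat_lit 64260945833) (nat_lit 76) (nat_lit 9063350385) (nat_lit 6) (nat_lit 4) (nat_lit 7) (nat_lit 5) (nat_lit 7) (nat_lit 4) (nat_lit 323) (nat_lit 253) (nat_lit 144)) (XT.lf (nat_lit 0) (nat_lit 35708045584) (nat_lit 76) (nat_lit 59742143448) (nat_lit 76) (nat_lit 4531600038) (nat_lit 6) (nat_lit 4) (nat_lit 7) (nat_lit 5) (nat_lit 7) (nat_lit 4) (nat_lit 324) (nat_lit 253) (nat_lit 143))))) (XT.nd (nat_lit 312) (nat_lit 76) (nat_lit 0) (XT.nd (nat_lit 156) (nat_lit 0) (nat_lit 0) (XT.nd (nat_lit 78) (nat_lit 0) (nat_lit 0) (XT.lf (nat_lit 0) (nat_lit 216090645) (nat_lit 152) (nat_lit 54779888978) (nat_lit 76) (nat_lit 49595940606) (nat_lit 5) (nat_lit 5) (nat_lit 7) (nat_lit 5) (nat_lit 6) (nat_lit 4) (nat_lit 325) (nat_lit 253) (nat_lit 142)) (XT.lf (nat_lit 0) (nat_lit 5045645668) (nat_lit 152) (nat_lit 44891045362) (nat_lit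 76) (nat_lit 59492322314) (nat_lit 5) (nat_lit 5) (nat_lit 7) (nat_lit 5) (nat_lit 6) (nat_lit 4) (nat_lit 326) (nat_lit 253) (nat_lit 141))) (XT.nd (nat_lit 78) (nat_lit 0) (nat_lit 0) (XT.lf (nat_lit 0) (nat_lit 10113603473) (nat_lit 152) (nat_lit 34512916797) (nat_lit 76) (nat_lit 69881602584) (nat_lit 5) (nat_lit 5) (nat_lit 7) (nat_lit 5) (nat_lit 6) (nat_lit 4) (nat_lit 327) (nat_lit 253) (nat_lit 140)) (XT.lf (nat_lit 0) (nat_lit 15432030627) (nat_lit 152) (nat_lit 23620793452) (nat_lit 76) (nat_lit 80788517796) (nat_lit 5) (nat_lit 5) (nat_lit 7) (nat_lit 5) (nat_lit 6) (nat_lit 4) (nat_lit 328) (nat_lit 253) (nat_lit 139)))) (XT.nd (nat_lit 156) (nat_lit 76) (nat_lit 0) (XT.nd (nat_lit 78) (nat_lit 0) (nat_lit 0) (XT.lf (nat_lit 0) (nat_lit 21013590050) (nat_lit 152) (nat_lit 12188741701) (nat_lit 76) (nat_lit 92239036797) (nat_lit 5) (nat_lit 5) (nat_lit 7) (nat_lit 5) (nat_lit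 6) (nat_lit 4) (nat_lit 329) (nat_lit 253) (nat_lit 138)) (XT.lf (nat_lit 0) (nat_lit 26871571170) (nat_lit 152) (nat_lit 189542372) (nat_lit 76) (nat_lit 104260422726) (nat_lit 5) (nat_lit 5) (nat_lit 7) (nat_lit 5) (nat_lit 6) (nat_lit 4) (nat_lit 330) (nat_lit 253) (nat_lit 137))) (XT.nd (nat_lit 78) (nat_lit 0) (nat_lit 0) (XT.lf (nat_lit 0) (nat_lit 12815551746) (nat_lit 76) (nat_lit 20404456493) (nat_lit 152) (nat_lit 104265832864) (nat_lit 4) (nat_lit 5) (nat_lit 5) (nat_lit 5) (nat_lit 6) (nat_lit 4) (nat_lit 331) (nat_lit 253) (nat_lit 136)) (XT.lf (nat_lit 0) (nat_lit 26473306621) (nat_lit 76) (nat_lit 13413296040) (nat_lit 152) (nat_lit 104071728005) (nat_lit 4) (nat_lit 5) (nat_lit 5) (nat_lit 5) (nat_lit 6) (nat_lit 4) (nat_lit 332) (nat_lit 253) (nat_lit 135)))))) (XT.nd (nat_lit 624) (nat_lit 76) (nat_lit 0) (XT.nd (nat_lit 312) (nat_lit 0) (nat_lit 0) (XT.nd (nat_lit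 156) (nat_lit 0) (nat_lit 0) (XT.nd (nat_lit 78) (nat_lit 0) (nat_lit 0) (XT.lf (nat_lit 0) (nat_lit 40809973588) (nat_lit 76) (nat_lit 6074196555) (nat_lit 152) (nat_lit 103870398357) (nat_lit 4) (nat_lit 5) (nat_lit 5) (nat_lit 5) (nat_lit 6) (nat_lit 4) (nat_lit 333) (nat_lit 253) (nat_lit 134)) (XT.lf (nat_lit 0) (nat_lit 54254825363) (nat_lit 152) (nat_lit 102056502359) (nat_lit 0) (nat_lit 1578135714) (nat_lit 4) (nat_lit 5) (nat_lit 6) (nat_lit 4) (nat_lit 4) (nat_lit 4) (nat_lit 334) (nat_lit 253) (nat_lit 133))) (XT.nd (nat_lit 78) (nat_lit 0) (nat_lit 0) (XT.lf (nat_lit 0) (nat_lit 62091429849) (nat_lit 152) (nat_lit 93877277562) (nat_lit 0) (nat_lit 9407530291) (nat_lit 4) (nat_lit 5) (nat_lit 6) (nat_lit 4) (nat_lit 4) (nat_lit 4) (nat_lit 335) (nat_lit 253) (nat_lit 132)) (XT.lf (nat_lit 0) (nat_lit 70317806952) (nat_lit 152) (nat_lit 85292610945) (nat_lit 0) (nat_lit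 17627040814) (nat_lit 4) (nat_lit 5) (nat_lit 6) (nat_lit 4) (nat_lit 4) (nat_lit 4) (nat_lit 336) (nat_lit 253) (nat_lit 131)))) (XT.nd (nat_lit 156) (nat_lit 0) (nat_lit 0) (XT.nd (nat_lit 78) (nat_lit 0) (nat_lit 0) (XT.lf (nat_lit 0) (nat_lit 78953543284) (nat_lit 152) (nat_lit 76282062826) (nat_lit 0) (nat_lit 26256237546) (nat_lit 4) (nat_lit 5) (nat_lit 6) (nat_lit 4) (nat_lit 4) (nat_lit 4) (nat_lit 337) (nat_lit 253) (nat_lit 130)) (XT.lf (nat_lit 0) (nat_lit 88019200123) (nat_lit 152) (nat_lit 66824179519) (nat_lit 0) (nat_lit 35315666194) (nat_lit 4) (nat_lit 5) (nat_lit 6) (nat_lit 4) (nat_lit 4) (nat_lit 4) (nat_lit 338) (nat_lit 253) (nat_lit 129))) (XT.nd (nat_lit 78) (nat_lit 0) (nat_lit 0) (XT.lf (nat_lit 0) (nat_lit 97536362365) (nat_lit 152) (nat_lit 56896442254) (nat_lit 0) (nat_lit 44826896826) (nat_lit 4) (nat_lit 5) (nat_lit 6) (nat_lit 4) (nat_lit 4) (nat_lit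 4) (nat_lit 339) (nat_lit 253) (nat_lit 128)) (XT.lf (nat_lit 0) (nat_lit 107527689920) (nat_lit 152) (nat_lit 46475213561) (nat_lit 0) (nat_lit 54812575229) (nat_lit 4) (nat_lit 5) (nat_lit 6) (nat_lit 4) (nat_lit 4) (nat_lit 4) (nat_lit 340) (nat_lit 253) (nat_lit 127))))) (XT.nd (nat_lit 312) (nat_lit 0) (nat_lit 0) (XT.nd (nat_lit 156) (nat_lit 76) (nat_lit 0) (XT.nd (nat_lit 78) (nat_lit 0) (nat_lit 0) (XT.lf (nat_lit 0) (nat_lit 118016971665) (nat_lit 152) (nat_lit 35535680991) (nat_lit 0) (nat_lit 65296476828) (nat_lit 4) (nat_lit 5) (nat_lit 6) (nat_lit 4) (nat_lit 4) (nat_lit 4) (nat_lit 341) (nat_lit 253) (nat_lit 126)) (XT.lf (nat_lit 0) (nat_lit 129029182078) (nat_lit 152) (nat_lit 24051798038) (nat_lit 0) (nat_lit 76303563294) (nat_lit 4) (nat_lit 5) (nat_lit 6) (nat_lit 4) (nat_lit 4) (nat_lit 4) (nat_lit 342) (nat_lit 253) (nat_lit 125))) (XT.nd (nat_lit 78) (nat_lit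 76) (nat_lit 0) (XT.lf (nat_lit 0) (nat_lit 140590540709) (nat_lit 152) (nat_lit 11996222124) (nat_lit 0) (nat_lit 87860041974) (nat_lit 4) (nat_lit 5) (nat_lit 6) (nat_lit 4) (nat_lit 4) (nat_lit 4) (nat_lit 343) (nat_lit 253) (nat_lit 124)) (XT.lf (nat_lit 0) (nat_lit 681564834) (nat_lit 76) (nat_lit 152057650905) (nat_lit 76) (nat_lit 99322504599) (nat_lit 3) (nat_lit 4) (nat_lit 4) (nat_lit 5) (nat_lit 4) (nat_lit 4) (nat_lit 344) (nat_lit 253) (nat_lit 123)))) (XT.nd (nat_lit 156) (nat_lit 0) (nat_lit 0) (XT.nd (nat_lit 78) (nat_lit 0) (nat_lit 0) (XT.lf (nat_lit 0) (nat_lit 14407379223) (nat_lit 76) (nat_lit 151289744181) (nat_lit 76) (nat_lit 98550171616) (nat_lit 3) (nat_lit 4) (nat_lit 4) (nat_lit 5) (nat_lit 4) (nat_lit 4) (nat_lit 345) (nat_lit 253) (nat_lit 122)) (XT.lf (nat_lit 0) (nat_lit 28817252274) (nat_lit 76) (nat_lit 150484376138) (nat_lit 76) (nat_lit 97740588088)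 (nat_lit 3) (nat_lit 4) (nat_lit 4) (nat_lit 5) (nat_lit 4) (nat_lit 4) (nat_lit 346) (nat_lit 253) (nat_lit 121))) (XT.nd (nat_lit 78) (nat_lit 0) (nat_lit 0) (XT.lf (nat_lit 0) (nat_lit 43945493207) (nat_lit 76) (nat_lit 149639629233) (nat_lit 76) (nat_lit 96891826436) (nat_lit 3) (nat_lit 4) (nat_lit 4) (nat_lit 5) (nat_lit 4) (nat_lit 4) (nat_lit 347) (nat_lit 253) (nat_lit 120)) (XT.nd (nat_lit 78) (nat_lit 0) (nat_lit 0) (XT.lf (nat_lit 0) (nat_lit 59828121644) (nat_lit 76) (nat_lit 148753492164) (nat_lit 76) (nat_lit 96001865799) (nat_lit 3) (nat_lit 4) (nat_lit 4) (nat_lit 5) (nat_lit 4) (nat_lit 4) (nat_lit 348) (nat_lit 253) (nat_lit 119)) (XT.lf (nat_lit 0) (nat_lit 76502953367) (nat_lit 76) (nat_lit 147823855081) (nat_lit 76) (nat_lit 95068587222) (nat_lit 3) (nat_lit 4) (nat_lit 4) (nat_lit 5) (nat_lit 4) (nat_lit 4) (nat_lit 349) (nat_lit 253) (nat_lit 118))))))))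
noncomputable def xc132 : XT := (XT.nd (nat_lit 30966) (nat_lit 0) (nat_lit 1976) (XT.nd (nat_lit 30342) (nat_lit 0) (nat_lit 4332) (XT.nd (nat_lit 30030) (nat_lit 0) (nat_lit 4864) (XT.nd (nat_lit 156) (nat_lit 0) (nat_lit 0) (XT.nd (nat_lit 78) (nat_lit 0) (nat_lit 0) (XT.lf (nat_lit 0) (nat_lit 94009690355) (nat_lit 76) (nat_lit 146848504563) (nat_lit 76) (nat_lit 94089768614) (nat_lit 3) (nat_lit 4) (nat_lit 4) (nat_lit 5) (nat_lit 4) (nat_lit 4) (nat_lit 350) (nat_lit 253) (nat_lit 117)) (XT.lf (nat_lit 0) (nat_lit 112390015318) (nat_lit 76) (nat_lit 145825118346) (nat_lit 76) (nat_lit 93063079454) (nat_lit 3) (nat_lit 4) (nat_lit 4) (nat_lit 5) (nat_lit 4) (nat_lit 4) (nat_lit 351) (nat_lit 253) (nat_lit 116))) (XT.nd (nat_lit 78) (nat_lit 0) (nat_lit 0) (XT.lf (nat_lit 0) (nat_lit 131687690931) (nat_lit 76) (nat_lit 144751259796) (nat_lit 76) (nat_lit 91986075245) (nat_lit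 3) (nat_lit 4) (nat_lit 4) (nat_lit 5) (nat_lit 4) (nat_lit 4) (nat_lit 352) (nat_lit 253) (nat_lit 115)) (XT.lf (nat_lit 0) (nat_lit 151948664044) (nat_lit 76) (nat_lit 143624372108) (nat_lit 76) (nat_lit 90856191691) (nat_lit 3) (nat_lit 4) (nat_lit 4) (nat_lit 5) (nat_lit 4) (nat_lit 4) (nat_lit 353) (nat_lit 253) (nat_lit 114)))) (XT.nd (nat_lit 156) (nat_lit 0) (nat_lit 0) (XT.nd (nat_lit 78) (nat_lit 0) (nat_lit 0) (XT.lf (nat_lit 0) (nat_lit 1018338762) (nat_lit 0) (nat_lit 1018338762) (nat_lit 532) (nat_lit 2371943225) (nat_lit 67) (nat_lit 5) (nat_lit 67) (nat_lit 3) (nat_lit 74) (nat_lit 3) (nat_lit 254) (nat_lit 254) (nat_lit 212)) (XT.lf (nat_lit 0) (nat_lit 4993263752) (nat_lit 532) (nat_lit 3332994800) (nat_lit 608) (nat_lit 665166854) (nat_lit 67) (nat_lit 5) (nat_lit 74) (nat_lit 3) (nat_lit 75) (nat_lit 5) (nat_lit 255) (nat_lit 254) (nat_lit 211))) (XT.nd (nat_lit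 78) (nat_lit 0) (nat_lit 0) (XT.lf (nat_lit 76) (nat_lit 231814573) (nat_lit 0) (nat_lit 5713083935) (nat_lit 608) (nat_lit 3230475514) (nat_lit 68) (nat_lit 5) (nat_lit 67) (nat_lit 5) (nat_lit 75) (nat_lit 5) (nat_lit 256) (nat_lit 254) (nat_lit 210)) (XT.lf (nat_lit 76) (nat_lit 4061879329) (nat_lit 0) (nat_lit 2889398420) (nat_lit 608) (nat_lit 2417209939) (nat_lit 68) (nat_lit 5) (nat_lit 67) (nat_lit 5) (nat_lit 75) (nat_lit 5) (nat_lit 257) (nat_lit 254) (nat_lit 209))))) (XT.nd (nat_lit 312) (nat_lit 0) (nat_lit 76) (XT.nd (nat_lit 156) (nat_lit 608) (nat_lit 0) (XT.nd (nat_lit 78) (nat_lit 0) (nat_lit 0) (XT.lf (nat_lit 0) (nat_lit 7962524024) (nat_lit 532) (nat_lit 1519283676) (nat_lit 608) (nat_lit 92032175) (nat_lit 68) (nat_lit 5) (nat_lit 75) (nat_lit 5) (nat_lit 76) (nat_lit 5) (nat_lit 258) (nat_lit 254) (nat_lit 208)) (XT.lf (nat_lit 76) (nat_lit 2459919856) (nat_lit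 0) (nat_lit 6605776428) (nat_lit 608) (nat_lit 721990676) (nat_lit 69) (nat_lit 5) (nat_lit 68) (nat_lit 5) (nat_lit 76) (nat_lit 5) (nat_lit 259) (nat_lit 254) (nat_lit 207))) (XT.nd (nat_lit 78) (nat_lit 0) (nat_lit 0) (XT.lf (nat_lit 0) (nat_lit 187462176) (nat_lit 608) (nat_lit 3353939762) (nat_lit 684) (nat_lit 6471805103) (nat_lit 60) (nat_lit 5) (nat_lit 68) (nat_lit 5) (nat_lit 69) (nat_lit 5) (nat_lit 260) (nat_lit 254) (nat_lit 206)) (XT.lf (nat_lit 76) (nat_lit 803802187) (nat_lit 0) (nat_lit 285241716) (nat_lit 684) (nat_lit 9162076671) (nat_lit 61) (nat_lit 5) (nat_lit 60) (nat_lit 5) (nat_lit 69) (nat_lit 5) (nat_lit 261) (nat_lit 254) (nat_lit 205)))) (XT.nd (nat_lit 156) (nat_lit 0) (nat_lit 0) (XT.nd (nat_lit 78) (nat_lit 0) (nat_lit 0) (XT.lf (nat_lit 0) (nat_lit 2102460497) (nat_lit 608) (nat_lit 5292712866) (nat_lit 684) (nat_lit 3102661717) (nat_lit 61) (nat_lit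 5) (nat_lit 69) (nat_lit 5) (nat_lit 70) (nat_lit 5) (nat_lit 262) (nat_lit 254) (nat_lit 204)) (XT.lf (nat_lit 0) (nat_lit 3133221896) (nat_lit 608) (nat_lit 964232353) (nat_lit 684) (nat_lit 6661328872) (nat_lit 61) (nat_lit 5) (nat_lit 69) (nat_lit 5) (nat_lit 70) (nat_lit 5) (nat_lit 263) (nat_lit 254) (nat_lit 203))) (XT.nd (nat_lit 78) (nat_lit 0) (nat_lit 76) (XT.lf (nat_lit 76) (nat_lit 3670356821) (nat_lit 0) (nat_lit 566276607) (nat_lit 684) (nat_lit 6795310017) (nat_lit 62) (nat_lit 5) (nat_lit 61) (nat_lit 5) (nat_lit 70) (nat_lit 5) (nat_lit 264) (nat_lit 254) (nat_lit 202)) (XT.lf (nat_lit 0) (nat_lit 5426082001) (nat_lit 608) (nat_lit 2826522779) (nat_lit 76) (nat_lit 3064823667) (nat_lit 62) (nat_lit 5) (nat_lit 70) (nat_lit 5) (nat_lit 63) (nat_lit 5) (nat_lit 265) (nat_lit 254) (nat_lit 201)))))) (XT.nd (nat_lit 624) (nat_lit 760) (nat_lit 0) (XT.nd (nat_lit 312)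 (nat_lit 684) (nat_lit 0) (XT.nd (nat_lit 156) (nat_lit 456) (nat_lit 0) (XT.nd (nat_lit 78) (nat_lit 0) (nat_lit 0) (XT.lf (nat_lit 0) (nat_lit 1960753871) (nat_lit 608) (nat_lit 4721023339) (nat_lit 684) (nat_lit 4935271766) (nat_lit 54) (nat_lit 5) (nat_lit 62) (nat_lit 5) (nat_lit 63) (nat_lit 5) (nat_lit 266) (nat_lit 254) (nat_lit 200)) (XT.lf (nat_lit 0) (nat_lit 7057963139) (nat_lit 608) (nat_lit 958187609) (nat_lit 684) (nat_lit 3914895566) (nat_lit 54) (nat_lit 5) (nat_lit 62) (nat_lit 5) (nat_lit 63) (nat_lit 5) (nat_lit 267) (nat_lit 254) (nat_lit 199))) (XT.nd (nat_lit 78) (nat_lit 0) (nat_lit 0) (XT.lf (nat_lit 0) (nat_lit 77009422) (nat_lit 456) (nat_lit 9357774989) (nat_lit 532) (nat_lit 2825263427) (nat_lit 48) (nat_lit 5) (nat_lit 54) (nat_lit 5) (nat_lit 55) (nat_lit 5) (nat_lit 268) (nat_lit 254) (nat_lit 198)) (XT.lf (nat_lit 0) (nat_lit 5399994768) (nat_lit 456)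 (nat_lit 5592967519) (nat_lit 532) (nat_lit 1609279283) (nat_lit 48) (nat_lit 5) (nat_lit 54) (nat_lit 5) (nat_lit 55) (nat_lit 5) (nat_lit 269) (nat_lit 254) (nat_lit 197)))) (XT.nd (nat_lit 156) (nat_lit 304) (nat_lit 0) (XT.nd (nat_lit 78) (nat_lit 380) (nat_lit 0) (XT.lf (nat_lit 0) (nat_lit 10962875138) (nat_lit 456) (nat_lit 1638202363) (nat_lit 532) (nat_lit 362030594) (nat_lit 48) (nat_lit 5) (nat_lit 54) (nat_lit 5) (nat_lit 55) (nat_lit 5) (nat_lit 270) (nat_lit 254) (nat_lit 196)) (XT.lf (nat_lit 0) (nat_lit 985622737) (nat_lit 380) (nat_lit 9846302209) (nat_lit 76) (nat_lit 2506083978) (nat_lit 43) (nat_lit 5) (nat_lit 48) (nat_lit 5) (nat_lit 44) (nat_lit 5) (nat_lit 271) (nat_lit 254) (nat_lit 195))) (XT.nd (nat_lit 78) (nat_lit 304) (nat_lit 0) (XT.lf (nat_lit 0) (nat_lit 2423457443) (nat_lit 380) (nat_lit 4462723078) (nat_lit 76) (nat_lit 6843571386) (nat_lit 43) (nat_lit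 5) (nat_lit 48) (nat_lit 5) (nat_lit 44) (nat_lit 5) (nat_lit 272) (nat_lit 254) (nat_lit 194)) (XT.lf (nat_lit 0) (nat_lit 1202717140) (nat_lit 304) (nat_lit 2724177191) (nat_lit 380) (nat_lit 10214637546) (nat_lit 39) (nat_lit 5) (nat_lit 43) (nat_lit 5) (nat_lit 44) (nat_lit 5) (nat_lit 273) (nat_lit 254) (nat_lit 193))))) (XT.nd (nat_lit 312) (nat_lit 532) (nat_lit 0) (XT.nd (nat_lit 156) (nat_lit 228) (nat_lit 0) (XT.nd (nat_lit 78) (nat_lit 0) (nat_lit 0) (XT.lf (nat_lit 0) (nat_lit 5583730214) (nat_lit 380) (nat_lit 7317414243) (nat_lit 76) (nat_lit 1668973943) (nat_lit 39) (nat_lit 5) (nat_lit 44) (nat_lit 5) (nat_lit 40) (nat_lit 5) (nat_lit 274) (nat_lit 254) (nat_lit 192)) (XT.lf (nat_lit 0) (nat_lit 7344935356) (nat_lit 380) (nat_lit 1485050787) (nat_lit 76) (nat_lit 6189194506) (nat_lit 39) (nat_lit 5) (nat_lit 44) (nat_lit 5) (nat_lit 40) (nat_lit 5) (nat_lit 275) (nat_lit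 254) (nat_lit 191))) (XT.nd (nat_lit 78) (nat_lit 0) (nat_lit 0) (XT.lf (nat_lit 0) (nat_lit 4767276881) (nat_lit 228) (nat_lit 4479324734) (nat_lit 304) (nat_lit 6241591281) (nat_lit 36) (nat_lit 5) (nat_lit 39) (nat_lit 5) (nat_lit 40) (nat_lit 5) (nat_lit 276) (nat_lit 254) (nat_lit 190)) (XT.lf (nat_lit 0) (nat_lit 11248909167) (nat_lit 304) (nat_lit 4622405279) (nat_lit 76) (nat_lit 109174769) (nat_lit 36) (nat_lit 5) (nat_lit 40) (nat_lit 5) (nat_lit 37) (nat_lit 5) (nat_lit 277) (nat_lit 254) (nat_lit 189)))) (XT.nd (nat_lit 156) (nat_lit 304) (nat_lit 0) (XT.nd (nat_lit 78) (nat_lit 0) (nat_lit 0) (XT.lf (nat_lit 0) (nat_lit 1739477617) (nat_lit 228) (nat_lit 11692070937) (nat_lit 304) (nat_lit 3061947031) (nat_lit 33) (nat_lit 5) (nat_lit 36) (nat_lit 5) (nat_lit 37) (nat_lit 5) (nat_lit 278) (nat_lit 254) (nat_lit 188)) (XT.lf (nat_lit 0) (nat_lit 8556521970) (nat_lit 228)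 (nat_lit 7225312020) (nat_lit 304) (nat_lit 1247493586) (nat_lit 33) (nat_lit 5) (nat_lit 36) (nat_lit 5) (nat_lit 37) (nat_lit 5) (nat_lit 279) (nat_lit 254) (nat_lit 187))) (XT.nd (nat_lit 78) (nat_lit 228) (nat_lit 0) (XT.lf (nat_lit 0) (nat_lit 617403592) (nat_lit 304) (nat_lit 1910825605) (nat_lit 76) (nat_lit 15064261620) (nat_lit 32) (nat_lit 5) (nat_lit 36) (nat_lit 5) (nat_lit 33) (nat_lit 5) (nat_lit 280) (nat_lit 254) (nat_lit 186)) (XT.lf (nat_lit 0) (nat_lit 2634048139) (nat_lit 304) (nat_lit 13118814302) (nat_lit 76) (nat_lit 2424993174) (nat_lit 29) (nat_lit 5) (nat_lit 33) (nat_lit 5) (nat_lit 30) (nat_lit 5) (nat_lit 281) (nat_lit 254) (nat_lit 185)))))))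
noncomputable def xc133 : XT := (XT.nd (nat_lit 1248) (nat_lit 608) (nat_lit 0) (XT.nd (nat_lit 624) (nat_lit 304) (nat_lit 0) (XT.nd (nat_lit 312) (nat_lit 456) (nat_lit 0) (XT.nd (nat_lit 156) (nat_lit 0) (nat_lit 0) (XT.nd (nat_lit 78) (nat_lit 228) (nat_lit 0) (XT.lf (nat_lit 0) (nat_lit 4808025178) (nat_lit 304) (nat_lit 6411593715) (nat_lit 76) (nat_lit 7570127845) (nat_lit 29) (nat_lit 5) (nat_lit 33) (nat_lit 5) (nat_lit 30) (nat_lit 5) (nat_lit 282) (nat_lit 254) (nat_lit 184)) (XT.lf (nat_lit 0) (nat_lit 629726565) (nat_lit 228) (nat_lit 6453818322) (nat_lit 304) (nat_lit 12349124479) (nat_lit 26) (nat_lit 5) (nat_lit 29) (nat_lit 5) (nat_lit 30) (nat_lit 5) (nat_lit 283) (nat_lit 254) (nat_lit 183))) (XT.nd (nat_lit 78) (nat_lit 0) (nat_lit 0) (XT.lf (nat_lit 0) (nat_lit 8224637827) (nat_lit 228) (nat_lit 1340278194) (nat_lit 304) (nat_lit 10538293707) (nat_lit 26) (nat_lit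 5) (nat_lit 29) (nat_lit 5) (nat_lit 30) (nat_lit 5) (nat_lit 284) (nat_lit 254) (nat_lit 182)) (XT.lf (nat_lit 0) (nat_lit 12217468980) (nat_lit 304) (nat_lit 4691743218) (nat_lit 76) (nat_lit 3895781029) (nat_lit 26) (nat_lit 5) (nat_lit 30) (nat_lit 5) (nat_lit 27) (nat_lit 5) (nat_lit 285) (nat_lit 254) (nat_lit 181)))) (XT.nd (nat_lit 156) (nat_lit 304) (nat_lit 0) (XT.nd (nat_lit 78) (nat_lit 0) (nat_lit 0) (XT.lf (nat_lit 0) (nat_lit 2905587565) (nat_lit 152) (nat_lit 12149360294) (nat_lit 228) (nat_lit 6484371493) (nat_lit 24) (nat_lit 5) (nat_lit 26) (nat_lit 5) (nat_lit 27) (nat_lit 5) (nat_lit 286) (nat_lit 254) (nat_lit 180)) (XT.lf (nat_lit 0) (nat_lit 11026127505) (nat_lit 152) (nat_lit 7073003204) (nat_lit 228) (nat_lit 4208054684) (nat_lit 24) (nat_lit 5) (nat_lit 26) (nat_lit 5) (nat_lit 27) (nat_lit 5) (nat_lit 287) (nat_lit 254) (nat_lit 179))) (XT.nd (nat_lit 78)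 (nat_lit 304) (nat_lit 0) (XT.lf (nat_lit 0) (nat_lit 19534081001) (nat_lit 152) (nat_lit 1747511304) (nat_lit 228) (nat_lit 1832610959) (nat_lit 24) (nat_lit 5) (nat_lit 26) (nat_lit 5) (nat_lit 27) (nat_lit 5) (nat_lit 288) (nat_lit 254) (nat_lit 178)) (XT.lf (nat_lit 0) (nat_lit 760401832) (nat_lit 304) (nat_lit 19394138423) (nat_lit 76) (nat_lit 3800572924) (nat_lit 20) (nat_lit 5) (nat_lit 24) (nat_lit 5) (nat_lit 21) (nat_lit 5) (nat_lit 289) (nat_lit 254) (nat_lit 177))))) (XT.nd (nat_lit 312) (nat_lit 152) (nat_lit 0) (XT.nd (nat_lit 156) (nat_lit 152) (nat_lit 0) (XT.nd (nat_lit 78) (nat_lit 0) (nat_lit 0) (XT.lf (nat_lit 0) (nat_lit 3498499073) (nat_lit 304) (nat_lit 11679876252) (nat_lit 76) (nat_lit 9654393612) (nat_lit 20) (nat_lit 5) (nat_lit 24) (nat_lit 5) (nat_lit 21) (nat_lit 5) (nat_lit 290) (nat_lit 254) (nat_lit 176)) (XT.lf (nat_lit 0) (nat_lit 6360880962) (nat_lit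 304) (nat_lit 3597591565) (nat_lit 76) (nat_lit 15796516982) (nat_lit 20) (nat_lit 5) (nat_lit 24) (nat_lit 5) (nat_lit 21) (nat_lit 5) (nat_lit 291) (nat_lit 254) (nat_lit 175))) (XT.nd (nat_lit 78) (nat_lit 0) (nat_lit 0) (XT.lf (nat_lit 0) (nat_lit 5033048143) (nat_lit 152) (nat_lit 4399894537) (nat_lit 228) (nat_lit 17287098979) (nat_lit 18) (nat_lit 5) (nat_lit 20) (nat_lit 5) (nat_lit 21) (nat_lit 5) (nat_lit 292) (nat_lit 254) (nat_lit 174)) (XT.lf (nat_lit 0) (nat_lit 12731181029) (nat_lit 228) (nat_lit 13550740276) (nat_lit 76) (nat_lit 1447842707) (nat_lit 18) (nat_lit 5) (nat_lit 21) (nat_lit 5) (nat_lit 19) (nat_lit 5) (nat_lit 293) (nat_lit 254) (nat_lit 173)))) (XT.nd (nat_lit 156) (nat_lit 0) (nat_lit 0) (XT.nd (nat_lit 78) (nat_lit 152) (nat_lit 0) (XT.lf (nat_lit 0) (nat_lit 16255239992) (nat_lit 228) (nat_lit 5096119936) (nat_lit 76) (nat_lit 7435611188) (nat_lit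 18) (nat_lit 5) (nat_lit 21) (nat_lit 5) (nat_lit 19) (nat_lit 5) (nat_lit 294) (nat_lit 254) (nat_lit 172)) (XT.lf (nat_lit 0) (nat_lit 3890203027) (nat_lit 152) (nat_lit 16115349447) (nat_lit 228) (nat_lit 9889025544) (nat_lit 16) (nat_lit 5) (nat_lit 18) (nat_lit 5) (nat_lit 19) (nat_lit 5) (nat_lit 295) (nat_lit 254) (nat_lit 171))) (XT.nd (nat_lit 78) (nat_lit 0) (nat_lit 0) (XT.lf (nat_lit 0) (nat_lit 13487479362) (nat_lit 152) (nat_lit 10531790252) (nat_lit 228) (nat_lit 7034541168) (nat_lit 16) (nat_lit 5) (nat_lit 18) (nat_lit 5) (nat_lit 19) (nat_lit 5) (nat_lit 296) (nat_lit 254) (nat_lit 170)) (XT.lf (nat_lit 0) (nat_lit 23550058988) (nat_lit 152) (nat_lit 4673693413) (nat_lit 228) (nat_lit 4047786865) (nat_lit 16) (nat_lit 5) (nat_lit 18) (nat_lit 5) (nat_lit 19) (nat_lit 5) (nat_lit 297) (nat_lit 254) (nat_lit 169)))))) (XT.nd (nat_lit 624) (nat_lit 304) (nat_lit 0)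 (XT.nd (nat_lit 312) (nat_lit 152) (nat_lit 0) (XT.nd (nat_lit 156) (nat_lit 0) (nat_lit 0) (XT.nd (nat_lit 78) (nat_lit 76) (nat_lit 0) (XT.lf (nat_lit 0) (nat_lit 545707737) (nat_lit 76) (nat_lit 32114819721) (nat_lit 152) (nat_lit 888559564) (nat_lit 15) (nat_lit 5) (nat_lit 16) (nat_lit 5) (nat_lit 17) (nat_lit 4) (nat_lit 298) (nat_lit 254) (nat_lit 168)) (XT.lf (nat_lit 0) (nat_lit 2568170553) (nat_lit 152) (nat_lit 24435460804) (nat_lit 76) (nat_lit 7874154171) (nat_lit 14) (nat_lit 5) (nat_lit 16) (nat_lit 5) (nat_lit 15) (nat_lit 5) (nat_lit 299) (nat_lit 254) (nat_lit 167))) (XT.nd (nat_lit 78) (nat_lit 0) (nat_lit 0) (XT.lf (nat_lit 0) (nat_lit 6158857640) (nat_lit 152) (nat_lit 15467448220) (nat_lit 76) (nat_lit 14646366997) (nat_lit 14) (nat_lit 5) (nat_lit 16) (nat_lit 5) (nat_lit 15) (nat_lit 5) (nat_lit 300) (nat_lit 254) (nat_lit 166)) (XT.lf (nat_lit 0) (nat_lit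 9920490407) (nat_lit 152) (nat_lit 6064116216) (nat_lit 76) (nat_lit 21753157189) (nat_lit 14) (nat_lit 5) (nat_lit 16) (nat_lit 5) (nat_lit 15) (nat_lit 5) (nat_lit 301) (nat_lit 254) (nat_lit 165)))) (XT.nd (nat_lit 156) (nat_lit 0) (nat_lit 0) (XT.nd (nat_lit 78) (nat_lit 0) (nat_lit 0) (XT.lf (nat_lit 0) (nat_lit 3922467549) (nat_lit 152) (nat_lit 10000798283) (nat_lit 228) (nat_lit 25350218841) (nat_lit 12) (nat_lit 5) (nat_lit 14) (nat_lit 5) (nat_lit 15) (nat_lit 5) (nat_lit 302) (nat_lit 254) (nat_lit 164)) (XT.lf (nat_lit 0) (nat_lit 14606655569) (nat_lit 152) (nat_lit 3614241647) (nat_lit 228) (nat_lit 22660385553) (nat_lit 12) (nat_lit 5) (nat_lit 14) (nat_lit 5) (nat_lit 15) (nat_lit 5) (nat_lit 303) (nat_lit 254) (nat_lit 163))) (XT.nd (nat_lit 78) (nat_lit 0) (nat_lit 0) (XT.lf (nat_lit 0) (nat_lit 22774014323) (nat_lit 228) (nat_lit 16804702924) (nat_lit 76) (nat_lit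 2988749084) (nat_lit 12) (nat_lit 5) (nat_lit 15) (nat_lit 5) (nat_lit 13) (nat_lit 4) (nat_lit 304) (nat_lit 254) (nat_lit 162)) (XT.lf (nat_lit 0) (nat_lit 27606737091) (nat_lit 228) (nat_lit 6931976042) (nat_lit 76) (nat_lit 9796672984) (nat_lit 12) (nat_lit 5) (nat_lit 15) (nat_lit 5) (nat_lit 13) (nat_lit 4) (nat_lit 305) (nat_lit 254) (nat_lit 161))))) (XT.nd (nat_lit 312) (nat_lit 228) (nat_lit 0) (XT.nd (nat_lit 156) (nat_lit 0) (nat_lit 0) (XT.nd (nat_lit 78) (nat_lit 0) (nat_lit 0) (XT.lf (nat_lit 0) (nat_lit 3536684363) (nat_lit 76) (nat_lit 29192676757) (nat_lit 152) (nat_lit 13459950890) (nat_lit 11) (nat_lit 5) (nat_lit 12) (nat_lit 5) (nat_lit 13) (nat_lit 4) (nat_lit 306) (nat_lit 254) (nat_lit 160)) (XT.lf (nat_lit 0) (nat_lit 14758717326) (nat_lit 76) (nat_lit 23460006610) (nat_lit 152) (nat_lit 9911702138) (nat_lit 11) (nat_lit 5) (nat_lit 12) (nat_lit 5) (nat_lit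 13) (nat_lit 4) (nat_lit 307) (nat_lit 254) (nat_lit 159))) (XT.nd (nat_lit 78) (nat_lit 0) (nat_lit 0) (XT.lf (nat_lit 0) (nat_lit 26531639539) (nat_lit 76) (nat_lit 17444449849) (nat_lit 152) (nat_lit 6192850927) (nat_lit 11) (nat_lit 5) (nat_lit 12) (nat_lit 5) (nat_lit 13) (nat_lit 4) (nat_lit 308) (nat_lit 254) (nat_lit 158)) (XT.lf (nat_lit 0) (nat_lit 38883481768) (nat_lit 76) (nat_lit 11131683720) (nat_lit 152) (nat_lit 2294542850) (nat_lit 11) (nat_lit 5) (nat_lit 12) (nat_lit 5) (nat_lit 13) (nat_lit 4) (nat_lit 309) (nat_lit 254) (nat_lit 157)))) (XT.nd (nat_lit 156) (nat_lit 0) (nat_lit 0) (XT.nd (nat_lit 78) (nat_lit 152) (nat_lit 0) (XT.lf (nat_lit 0) (nat_lit 1735132462) (nat_lit 152) (nat_lit 2742160055) (nat_lit 76) (nat_lit 50079135392) (nat_lit 10) (nat_lit 5) (nat_lit 12) (nat_lit 5) (nat_lit 11) (nat_lit 5) (nat_lit 310) (nat_lit 254) (nat_lit 156)) (XT.lf (nat_lit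 0) (nat_lit 6061423306) (nat_lit 228) (nat_lit 48240902641) (nat_lit 76) (nat_lit 2602682005) (nat_lit 8) (nat_lit 5) (nat_lit 11) (nat_lit 5) (nat_lit 9) (nat_lit 4) (nat_lit 311) (nat_lit 254) (nat_lit 155))) (XT.nd (nat_lit 78) (nat_lit 0) (nat_lit 0) (XT.lf (nat_lit 0) (nat_lit 10719014270) (nat_lit 228) (nat_lit 38716093843) (nat_lit 76) (nat_lit 9930176215) (nat_lit 8) (nat_lit 5) (nat_lit 11) (nat_lit 5) (nat_lit 9) (nat_lit 4) (nat_lit 312) (nat_lit 254) (nat_lit 154)) (XT.nd (nat_lit 78) (nat_lit 0) (nat_lit 0) (XT.lf (nat_lit 0) (nat_lit 15604138327) (nat_lit 228) (nat_lit 28723734932) (nat_lit 76) (nat_lit 17620984404) (nat_lit 8) (nat_lit 5) (nat_lit 11) (nat_lit 5) (nat_lit 9) (nat_lit 4) (nat_lit 313) (nat_lit 254) (nat_lit 153)) (XT.lf (nat_lit 0) (nat_lit 20728426727) (nat_lit 228) (nat_lit 18240034576) (nat_lit 76) (nat_lit 25693418020) (nat_lit 8) (nat_lit 5) (nat_lit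 11) (nat_lit 5) (nat_lit 9) (nat_lit 4) (nat_lit 314) (nat_lit 254) (nat_lit 152))))))))
noncomputable def xc134 : XT := (XT.nd (nat_lit 1248) (nat_lit 152) (nat_lit 0) (XT.nd (nat_lit 624) (nat_lit 152) (nat_lit 0) (XT.nd (nat_lit 312) (nat_lit 0) (nat_lit 0) (XT.nd (nat_lit 156) (nat_lit 0) (nat_lit 0) (XT.nd (nat_lit 78) (nat_lit 76) (nat_lit 0) (XT.lf (nat_lit 0) (nat_lit 26104080156) (nat_lit 228) (nat_lit 7240031584) (nat_lit 76) (nat_lit 34166697143) (nat_lit 8) (nat_lit 5) (nat_lit 11) (nat_lit 5) (nat_lit 9) (nat_lit 4) (nat_lit 315) (nat_lit 254) (nat_lit 151)) (XT.lf (nat_lit 0) (nat_lit 4444723434) (nat_lit 76) (nat_lit 27368568943) (nat_lit 152) (nat_lit 38685667403) (nat_lit 7) (nat_lit 5) (nat_lit 8) (nat_lit 5) (nat_lit 9) (nat_lit 4) (nat_lit 316) (nat_lit 254) (nat_lit 150))) (XT.nd (nat_lit 78) (nat_lit 0) (nat_lit 0) (XT.lf (nat_lit 0) (nat_lit 16957687803) (nat_lit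 76) (nat_lit 20968376989) (nat_lit 152) (nat_lit 35704561464) (nat_lit 7) (nat_lit 5) (nat_lit 8) (nat_lit 5) (nat_lit 9) (nat_lit 4) (nat_lit 317) (nat_lit 254) (nat_lit 149)) (XT.lf (nat_lit 0) (nat_lit 30089266153) (nat_lit 76) (nat_lit 14250910764) (nat_lit 152) (nat_lit 32578926479) (nat_lit 7) (nat_lit 5) (nat_lit 8) (nat_lit 5) (nat_lit 9) (nat_lit 4) (nat_lit 318) (nat_lit 254) (nat_lit 148)))) (XT.nd (nat_lit 156) (nat_lit 0) (nat_lit 0) (XT.nd (nat_lit 78) (nat_lit 0) (nat_lit 0) (XT.lf (nat_lit 0) (nat_lit 43870724146) (nat_lit 76) (nat_lit 7200176301) (nat_lit 152) (nat_lit 29301320458) (nat_lit 7) (nat_lit 5) (nat_lit 8) (nat_lit 5) (nat_lit 9) (nat_lit 4) (nat_lit 319) (nat_lit 254) (nat_lit 147)) (XT.lf (nat_lit 0) (nat_lit 58137393061) (nat_lit 152) (nat_lit 25666457860) (nat_lit 0) (nat_lit 194192966) (nat_lit 7) (nat_lit 5) (nat_lit 9) (nat_lit 4) (nat_lit 7) (nat_lit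 4) (nat_lit 320) (nat_lit 254) (nat_lit 146))) (XT.nd (nat_lit 78) (nat_lit 0) (nat_lit 0) (XT.lf (nat_lit 0) (nat_lit 65671495530) (nat_lit 152) (nat_lit 14413938624) (nat_lit 0) (nat_lit 7714020308) (nat_lit 7) (nat_lit 5) (nat_lit 9) (nat_lit 4) (nat_lit 7) (nat_lit 4) (nat_lit 321) (nat_lit 254) (nat_lit 145)) (XT.lf (nat_lit 0) (nat_lit 73578731263) (nat_lit 152) (nat_lit 2604732410) (nat_lit 0) (nat_lit 15607660683) (nat_lit 7) (nat_lit 5) (nat_lit 9) (nat_lit 4) (nat_lit 7) (nat_lit 4) (nat_lit 322) (nat_lit 254) (nat_lit 144))))) (XT.nd (nat_lit 312) (nat_lit 0) (nat_lit 0) (XT.nd (nat_lit 156) (nat_lit 76) (nat_lit 0) (XT.nd (nat_lit 78) (nat_lit 0) (nat_lit 0) (XT.lf (nat_lit 0) (nat_lit 10112955679) (nat_lit 76) (nat_lit 71922862914) (nat_lit 76) (nat_lit 13938844373) (nat_lit 6) (nat_lit 4) (nat_lit 7) (nat_lit 5) (nat_lit 7) (nat_lit 4) (nat_lit 323) (nat_lit 254) (nat_lit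 143)) (XT.lf (nat_lit 0) (nat_lit 23551393655) (nat_lit 76) (nat_lit 67405152372) (nat_lit 76) (nat_lit 9408802440) (nat_lit 6) (nat_lit 4) (nat_lit 7) (nat_lit 5) (nat_lit 7) (nat_lit 4) (nat_lit 324) (nat_lit 254) (nat_lit 142))) (XT.nd (nat_lit 78) (nat_lit 76) (nat_lit 0) (XT.lf (nat_lit 0) (nat_lit 37656453582) (nat_lit 76) (nat_lit 62663687999) (nat_lit 76) (nat_lit 4655593884) (nat_lit 6) (nat_lit 4) (nat_lit 7) (nat_lit 5) (nat_lit 7) (nat_lit 4) (nat_lit 325) (nat_lit 254) (nat_lit 141)) (XT.lf (nat_lit 0) (nat_lit 321469233) (nat_lit 152) (nat_lit 57360267122) (nat_lit 76) (nat_lit 52134805465) (nat_lit 5) (nat_lit 5) (nat_lit 7) (nat_lit 5) (nat_lit 6) (nat_lit 4) (nat_lit 326) (nat_lit 254) (nat_lit 140)))) (XT.nd (nat_lit 156) (nat_lit 0) (nat_lit 0) (XT.nd (nat_lit 78) (nat_lit 0) (nat_lit 0) (XT.lf (nat_lit 0) (nat_lit 5387998481) (nat_lit 152) (nat_lit 46984534483)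 (nat_lit 76) (nat_lit 62523193505) (nat_lit 5) (nat_lit 5) (nat_lit 7) (nat_lit 5) (nat_lit 6) (nat_lit 4) (nat_lit 327) (nat_lit 254) (nat_lit 139)) (XT.lf (nat_lit 0) (nat_lit 10705065103) (nat_lit 152) (nat_lit 36094692972) (nat_lit 76) (nat_lit 73429258975) (nat_lit 5) (nat_lit 5) (nat_lit 7) (nat_lit 5) (nat_lit 6) (nat_lit 4) (nat_lit 328) (nat_lit 254) (nat_lit 138))) (XT.nd (nat_lit 78) (nat_lit 0) (nat_lit 0) (XT.lf (nat_lit 0) (nat_lit 16285328783) (nat_lit 152) (nat_lit 24664814397) (nat_lit 76) (nat_lit 84878968697) (nat_lit 5) (nat_lit 5) (nat_lit 7) (nat_lit 5) (nat_lit 6) (nat_lit 4) (nat_lit 329) (nat_lit 254) (nat_lit 137)) (XT.lf (nat_lit 0) (nat_lit 22142075862) (nat_lit 152) (nat_lit 12667684759) (nat_lit 76) (nat_lit 96899583886) (nat_lit 5) (nat_lit 5) (nat_lit 7) (nat_lit 5) (nat_lit 6) (nat_lit 4) (nat_lit 330) (nat_lit 254) (nat_lit 136)))))) (XT.nd (nat_lit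 624) (nat_lit 76) (nat_lit 0) (XT.nd (nat_lit 312) (nat_lit 0) (nat_lit 0) (XT.nd (nat_lit 156) (nat_lit 0) (nat_lit 0) (XT.nd (nat_lit 78) (nat_lit 76) (nat_lit 0) (XT.lf (nat_lit 0) (nat_lit 28289250976) (nat_lit 152) (nat_lit 74739465) (nat_lit 76) (nat_lit 109519725052) (nat_lit 5) (nat_lit 5) (nat_lit 7) (nat_lit 5) (nat_lit 6) (nat_lit 4) (nat_lit 331) (nat_lit 254) (nat_lit 135)) (XT.lf (nat_lit 0) (nat_lit 13578604843) (nat_lit 76) (nat_lit 21374885489) (nat_lit 152) (nat_lit 109402835385) (nat_lit 4) (nat_lit 5) (nat_lit 5) (nat_lit 5) (nat_lit 6) (nat_lit 4) (nat_lit 332) (nat_lit 254) (nat_lit 134))) (XT.nd (nat_lit 78) (nat_lit 0) (nat_lit 0) (XT.lf (nat_lit 0) (nat_lit 27913424818) (nat_lit 76) (nat_lit 14036538148) (nat_lit 152) (nat_lit 109202658098) (nat_lit 4) (nat_lit 5) (nat_lit 5) (nat_lit 5) (nat_lit 6) (nat_lit 4) (nat_lit 333) (nat_lit 254) (nat_lit 133)) (XT.lf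 (nat_lit 0) (nat_lit 42961379759) (nat_lit 76) (nat_lit 6332741912) (nat_lit 152) (nat_lit 108994721793) (nat_lit 4) (nat_lit 5) (nat_lit 5) (nat_lit 5) (nat_lit 6) (nat_lit 4) (nat_lit 334) (nat_lit 254) (nat_lit 132)))) (XT.nd (nat_lit 156) (nat_lit 0) (nat_lit 0) (XT.nd (nat_lit 78) (nat_lit 0) (nat_lit 0) (XT.lf (nat_lit 0) (nat_lit 57030850597) (nat_lit 152) (nat_lit 107051083849) (nat_lit 0) (nat_lit 1698679572) (nat_lit 4) (nat_lit 5) (nat_lit 6) (nat_lit 4) (nat_lit 4) (nat_lit 4) (nat_lit 335) (nat_lit 254) (nat_lit 131)) (XT.lf (nat_lit 0) (nat_lit 65256271785) (nat_lit 152) (nat_lit 98468052271) (nat_lit 0) (nat_lit 9917561160) (nat_lit 4) (nat_lit 5) (nat_lit 6) (nat_lit 4) (nat_lit 4) (nat_lit 4) (nat_lit 336) (nat_lit 254) (nat_lit 130))) (XT.nd (nat_lit 78) (nat_lit 0) (nat_lit 0) (XT.lf (nat_lit 0) (nat_lit 73891097722) (nat_lit 152) (nat_lit 89459061331) (nat_lit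 0) (nat_lit 18546158906) (nat_lit 4) (nat_lit 5) (nat_lit 6) (nat_lit 4) (nat_lit 4) (nat_lit 4) (nat_lit 337) (nat_lit 254) (nat_lit 129)) (XT.lf (nat_lit 0) (nat_lit 82955887518) (nat_lit 152) (nat_lit 80002661052) (nat_lit 0) (nat_lit 27605017091) (nat_lit 4) (nat_lit 5) (nat_lit 6) (nat_lit 4) (nat_lit 4) (nat_lit 4) (nat_lit 338) (nat_lit 254) (nat_lit 128))))) (XT.nd (nat_lit 312) (nat_lit 76) (nat_lit 0) (XT.nd (nat_lit 156) (nat_lit 0) (nat_lit 0) (XT.nd (nat_lit 78) (nat_lit 0) (nat_lit 0) (XT.lf (nat_lit 0) (nat_lit 92472224004) (nat_lit 152) (nat_lit 70076336194) (nat_lit 0) (nat_lit 37115704426) (nat_lit 4) (nat_lit 5) (nat_lit 6) (nat_lit 4) (nat_lit 4) (nat_lit 4) (nat_lit 339) (nat_lit 254) (nat_lit 127)) (XT.lf (nat_lit 0) (nat_lit 102462765126) (nat_lit 152) (nat_lit 59656452651) (nat_lit 0) (nat_lit 47100865402) (nat_lit 4) (nat_lit 5) (nat_lit 6) (nat_lit 4) (nat_lit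 4) (nat_lit 4) (nat_lit 340) (nat_lit 254) (nat_lit 126))) (XT.nd (nat_lit 78) (nat_lit 0) (nat_lit 0) (XT.lf (nat_lit 0) (nat_lit 112951297886) (nat_lit 152) (nat_lit 48718201177) (nat_lit 0) (nat_lit 57584274215) (nat_lit 4) (nat_lit 5) (nat_lit 6) (nat_lit 4) (nat_lit 4) (nat_lit 4) (nat_lit 341) (nat_lit 254) (nat_lit 125)) (XT.lf (nat_lit 0) (nat_lit 123962794981) (nat_lit 152) (nat_lit 37235538315) (nat_lit 0) (nat_lit 68590891359) (nat_lit 4) (nat_lit 5) (nat_lit 6) (nat_lit 4) (nat_lit 4) (nat_lit 4) (nat_lit 342) (nat_lit 254) (nat_lit 124)))) (XT.nd (nat_lit 156) (nat_lit 76) (nat_lit 0) (XT.nd (nat_lit 78) (nat_lit 0) (nat_lit 0) (XT.lf (nat_lit 0) (nat_lit 135523474261) (nat_lit 152) (nat_lit 25181124392) (nat_lit 0) (nat_lit 80146923068) (nat_lit 4) (nat_lit 5) (nat_lit 6) (nat_lit 4) (nat_lit 4) (nat_lit 4) (nat_lit 343) (nat_lit 254) (nat_lit 123)) (XT.lf (nat_lit 0)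 (nat_lit 147660861153) (nat_lit 152) (nat_lit 12526258423) (nat_lit 0) (nat_lit 92279883701) (nat_lit 4) (nat_lit 5) (nat_lit 6) (nat_lit 4) (nat_lit 4) (nat_lit 4) (nat_lit 344) (nat_lit 254) (nat_lit 122))) (XT.nd (nat_lit 78) (nat_lit 0) (nat_lit 0) (XT.lf (nat_lit 0) (nat_lit 784292483) (nat_lit 76) (nat_lit 159631806718) (nat_lit 76) (nat_lit 104246613781) (nat_lit 3) (nat_lit 4) (nat_lit 4) (nat_lit 5) (nat_lit 4) (nat_lit 4) (nat_lit 345) (nat_lit 254) (nat_lit 121)) (XT.lf (nat_lit 0) (nat_lit 15193128573) (nat_lit 76) (nat_lit 158826872597) (nat_lit 76) (nat_lit 103437664913) (nat_lit 3) (nat_lit 4) (nat_lit 4) (nat_lit 5) (nat_lit 4) (nat_lit 4) (nat_lit 346) (nat_lit 254) (nat_lit 120)))))))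
noncomputable def xc135 : XT := (XT.nd (nat_lit 31044) (nat_lit 0) (nat_lit 2280) (XT.nd (nat_lit 30420) (nat_lit 0) (nat_lit 4332) (XT.nd (nat_lit 312) (nat_lit 0) (nat_lit 0) (XT.nd (nat_lit 156) (nat_lit 0) (nat_lit 0) (XT.nd (nat_lit 78) (nat_lit 0) (nat_lit 0) (XT.lf (nat_lit 0) (nat_lit 30320381924) (nat_lit 76) (nat_lit 157982538951) (nat_lit 76) (nat_lit 102589507699) (nat_lit 3) (nat_lit 4) (nat_lit 4) (nat_lit 5) (nat_lit 4) (nat_lit 4) (nat_lit 347) (nat_lit 254) (nat_lit 119)) (XT.lf (nat_lit 0) (nat_lit 46202069807) (nat_lit 76) (nat_lit 157096795463) (nat_lit 76) (nat_lit 101700122716) (nat_lit 3) (nat_lit 4) (nat_lit 4) (nat_lit 5) (nat_lit 4) (nat_lit 4) (nat_lit 348) (nat_lit 254) (nat_lit 118))) (XT.nd (nat_lit 78) (nat_lit 0) (nat_lit 0) (XT.lf (nat_lit 0) (nat_lit 62876005764) (nat_lit 76) (nat_lit 156167533218) (nat_lit 76) (nat_lit 100767392382) (nat_lit 3) (nat_lit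 4) (nat_lit 4) (nat_lit 5) (nat_lit 4) (nat_lit 4) (nat_lit 349) (nat_lit 254) (nat_lit 117)) (XT.lf (nat_lit 0) (nat_lit 80381889642) (nat_lit 76) (nat_lit 155192539689) (nat_lit 76) (nat_lit 99789095910) (nat_lit 3) (nat_lit 4) (nat_lit 4) (nat_lit 5) (nat_lit 4) (nat_lit 4) (nat_lit 350) (nat_lit 254) (nat_lit 116)))) (XT.nd (nat_lit 156) (nat_lit 0) (nat_lit 0) (XT.nd (nat_lit 78) (nat_lit 0) (nat_lit 0) (XT.lf (nat_lit 0) (nat_lit 98761402118) (nat_lit 76) (nat_lit 154169493461) (nat_lit 76) (nat_lit 98762904023) (nat_lit 3) (nat_lit 4) (nat_lit 4) (nat_lit 5) (nat_lit 4) (nat_lit 4) (nat_lit 351) (nat_lit 254) (nat_lit 115)) (XT.lf (nat_lit 0) (nat_lit 118058303936) (nat_lit 76) (nat_lit 153095958711) (nat_lit 76) (nat_lit 97686373407) (nat_lit 3) (nat_lit 4) (nat_lit 4) (nat_lit 5) (nat_lit 4) (nat_lit 4) (nat_lit 352) (nat_lit 254) (nat_lit 114))) (XT.nd (nat_lit 29874) (nat_lit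 0) (nat_lit 4864) (XT.lf (nat_lit 0) (nat_lit 138318540099) (nat_lit 76) (nat_lit 151969379403) (nat_lit 76) (nat_lit 96556940893) (nat_lit 3) (nat_lit 4) (nat_lit 4) (nat_lit 5) (nat_lit 4) (nat_lit 4) (nat_lit 353) (nat_lit 254) (nat_lit 113)) (XT.lf (nat_lit 0) (nat_lit 1466626395) (nat_lit 0) (nat_lit 1466626395) (nat_lit 532) (nat_lit 1650801964) (nat_lit 67) (nat_lit 5) (nat_lit 67) (nat_lit 3) (nat_lit 74) (nat_lit 3) (nat_lit 255) (nat_lit 255) (nat_lit 210))))) (XT.nd (nat_lit 312) (nat_lit 532) (nat_lit 0) (XT.nd (nat_lit 156) (nat_lit 0) (nat_lit 0) (XT.nd (nat_lit 78) (nat_lit 0) (nat_lit 0) (XT.lf (nat_lit 0) (nat_lit 6710076867) (nat_lit 0) (nat_lit 35378272) (nat_lit 532) (nat_lit 2610396150) (nat_lit 67) (nat_lit 5) (nat_lit 67) (nat_lit 3) (nat_lit 74) (nat_lit 3) (nat_lit 256) (nat_lit 255) (nat_lit 209)) (XT.lf (nat_lit 76) (nat_lit 1084046765) (nat_lit 0) (nat_lit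 6601674624) (nat_lit 608) (nat_lit 1866700553) (nat_lit 68) (nat_lit 5) (nat_lit 67) (nat_lit 5) (nat_lit 75) (nat_lit 5) (nat_lit 257) (nat_lit 255) (nat_lit 208))) (XT.nd (nat_lit 78) (nat_lit 0) (nat_lit 0) (XT.lf (nat_lit 76) (nat_lit 5065584214) (nat_lit 0) (nat_lit 3608093571) (nat_lit 608) (nat_lit 1085404971) (nat_lit 68) (nat_lit 5) (nat_lit 67) (nat_lit 5) (nat_lit 75) (nat_lit 5) (nat_lit 258) (nat_lit 255) (nat_lit 207)) (XT.lf (nat_lit 76) (nat_lit 9221407139) (nat_lit 0) (nat_lit 447052238) (nat_lit 608) (nat_lit 310027266) (nat_lit 68) (nat_lit 5) (nat_lit 67) (nat_lit 5) (nat_lit 75) (nat_lit 5) (nat_lit 259) (nat_lit 255) (nat_lit 206)))) (XT.nd (nat_lit 156) (nat_lit 0) (nat_lit 0) (XT.nd (nat_lit 78) (nat_lit 0) (nat_lit 0) (XT.lf (nat_lit 0) (nat_lit 546542110) (nat_lit 608) (nat_lit 6800617971) (nat_lit 684) (nat_lit 2858634456) (nat_lit 60) (nat_lit 5) (nat_lit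 68) (nat_lit 5) (nat_lit 69) (nat_lit 5) (nat_lit 260) (nat_lit 255) (nat_lit 205)) (XT.lf (nat_lit 0) (nat_lit 1416234047) (nat_lit 608) (nat_lit 2681920963) (nat_lit 684) (nat_lit 6347266129) (nat_lit 60) (nat_lit 5) (nat_lit 68) (nat_lit 5) (nat_lit 69) (nat_lit 5) (nat_lit 261) (nat_lit 255) (nat_lit 204))) (XT.nd (nat_lit 78) (nat_lit 0) (nat_lit 76) (XT.lf (nat_lit 76) (nat_lit 1670164280) (nat_lit 0) (nat_lit 647562832) (nat_lit 684) (nat_lit 8380117640) (nat_lit 61) (nat_lit 5) (nat_lit 60) (nat_lit 5) (nat_lit 69) (nat_lit 5) (nat_lit 262) (nat_lit 255) (nat_lit 203)) (XT.lf (nat_lit 0) (nat_lit 3320723367) (nat_lit 608) (nat_lit 4702645642) (nat_lit 684) (nat_lit 2936919595) (nat_lit 61) (nat_lit 5) (nat_lit 69) (nat_lit 5) (nat_lit 70) (nat_lit 5) (nat_lit 263) (nat_lit 255) (nat_lit 202)))))) (XT.nd (nat_lit 624) (nat_lit 1064) (nat_lit 0) (XT.nd (nat_lit 312) (nat_lit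 532) (nat_lit 0) (XT.nd (nat_lit 156) (nat_lit 532) (nat_lit 0) (XT.nd (nat_lit 78) (nat_lit 0) (nat_lit 0) (XT.lf (nat_lit 0) (nat_lit 4350016177) (nat_lit 608) (nat_lit 198441239) (nat_lit 684) (nat_lit 6688799879) (nat_lit 61) (nat_lit 5) (nat_lit 69) (nat_lit 5) (nat_lit 70) (nat_lit 5) (nat_lit 264) (nat_lit 255) (nat_lit 201)) (XT.lf (nat_lit 76) (nat_lit 4654748317) (nat_lit 0) (nat_lit 815871318) (nat_lit 684) (nat_lit 6055662472) (nat_lit 62) (nat_lit 5) (nat_lit 61) (nat_lit 5) (nat_lit 70) (nat_lit 5) (nat_lit 265) (nat_lit 255) (nat_lit 200))) (XT.nd (nat_lit 78) (nat_lit 608) (nat_lit 0) (XT.lf (nat_lit 0) (nat_lit 6667576311) (nat_lit 608) (nat_lit 2147289889) (nat_lit 76) (nat_lit 3014066270) (nat_lit 62) (nat_lit 5) (nat_lit 70) (nat_lit 5) (nat_lit 63) (nat_lit 5) (nat_lit 266) (nat_lit 255) (nat_lit 199)) (XT.lf (nat_lit 0) (nat_lit 2866115769) (nat_lit 608) (nat_lit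 5086345570) (nat_lit 684) (nat_lit 4193031379) (nat_lit 54) (nat_lit 5) (nat_lit 62) (nat_lit 5) (nat_lit 63) (nat_lit 5) (nat_lit 267) (nat_lit 255) (nat_lit 198)))) (XT.nd (nat_lit 156) (nat_lit 76) (nat_lit 0) (XT.nd (nat_lit 78) (nat_lit 456) (nat_lit 0) (XT.lf (nat_lit 0) (nat_lit 8179741492) (nat_lit 608) (nat_lit 1129212289) (nat_lit 684) (nat_lit 3168731797) (nat_lit 54) (nat_lit 5) (nat_lit 62) (nat_lit 5) (nat_lit 63) (nat_lit 5) (nat_lit 268) (nat_lit 255) (nat_lit 197)) (XT.lf (nat_lit 0) (nat_lit 888337971) (nat_lit 456) (nat_lit 9878481534) (nat_lit 532) (nat_lit 2058155669) (nat_lit 48) (nat_lit 5) (nat_lit 54) (nat_lit 5) (nat_lit 55) (nat_lit 5) (nat_lit 269) (nat_lit 255) (nat_lit 196))) (XT.nd (nat_lit 78) (nat_lit 76) (nat_lit 0) (XT.lf (nat_lit 0) (nat_lit 6439021247) (nat_lit 456) (nat_lit 5922918556) (nat_lit 532) (nat_lit 824628076) (nat_lit 48) (nat_lit 5)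 (nat_lit 54) (nat_lit 5) (nat_lit 55) (nat_lit 5) (nat_lit 270) (nat_lit 255) (nat_lit 195)) (XT.lf (nat_lit 0) (nat_lit 429583128) (nat_lit 532) (nat_lit 1331161451) (nat_lit 76) (nat_lit 11806566987) (nat_lit 47) (nat_lit 5) (nat_lit 54) (nat_lit 5) (nat_lit 48) (nat_lit 5) (nat_lit 271) (nat_lit 255) (nat_lit 194))))) (XT.nd (nat_lit 312) (nat_lit 456) (nat_lit 0) (XT.nd (nat_lit 156) (nat_lit 304) (nat_lit 0) (XT.nd (nat_lit 78) (nat_lit 0) (nat_lit 0) (XT.lf (nat_lit 0) (nat_lit 1805877388) (nat_lit 380) (nat_lit 9544730865) (nat_lit 76) (nat_lit 2611589349) (nat_lit 43) (nat_lit 5) (nat_lit 48) (nat_lit 5) (nat_lit 44) (nat_lit 5) (nat_lit 272) (nat_lit 255) (nat_lit 193)) (XT.lf (nat_lit 0) (nat_lit 3278890805) (nat_lit 380) (nat_lit 3929776895) (nat_lit 76) (nat_lit 7166893929) (nat_lit 43) (nat_lit 5) (nat_lit 48) (nat_lit 5) (nat_lit 44) (nat_lit 5) (nat_lit 273) (nat_lit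 255) (nat_lit 192))) (XT.nd (nat_lit 78) (nat_lit 0) (nat_lit 0) (XT.lf (nat_lit 0) (nat_lit 2006740458) (nat_lit 304) (nat_lit 2827408462) (nat_lit 380) (nat_lit 9975138010) (nat_lit 39) (nat_lit 5) (nat_lit 43) (nat_lit 5) (nat_lit 44) (nat_lit 5) (nat_lit 274) (nat_lit 255) (nat_lit 191)) (XT.lf (nat_lit 0) (nat_lit 6540464101) (nat_lit 380) (nat_lit 6937861974) (nat_lit 76) (nat_lit 1782824640) (nat_lit 39) (nat_lit 5) (nat_lit 44) (nat_lit 5) (nat_lit 40) (nat_lit 5) (nat_lit 275) (nat_lit 255) (nat_lit 190)))) (XT.nd (nat_lit 156) (nat_lit 228) (nat_lit 0) (XT.nd (nat_lit 78) (nat_lit 228) (nat_lit 0) (XT.lf (nat_lit 0) (nat_lit 8357465340) (nat_lit 380) (nat_lit 849376678) (nat_lit 76) (nat_lit 6527608516) (nat_lit 39) (nat_lit 5) (nat_lit 44) (nat_lit 5) (nat_lit 40) (nat_lit 5) (nat_lit 276) (nat_lit 255) (nat_lit 189)) (XT.lf (nat_lit 0) (nat_lit 5704116943) (nat_lit 228)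 (nat_lit 4630275367) (nat_lit 304) (nat_lit 5893675308) (nat_lit 36) (nat_lit 5) (nat_lit 39) (nat_lit 5) (nat_lit 40) (nat_lit 5) (nat_lit 277) (nat_lit 255) (nat_lit 188))) (XT.nd (nat_lit 78) (nat_lit 228) (nat_lit 0) (XT.lf (nat_lit 0) (nat_lit 12408117095) (nat_lit 304) (nat_lit 4156505388) (nat_lit 76) (nat_lit 181946506) (nat_lit 36) (nat_lit 5) (nat_lit 40) (nat_lit 5) (nat_lit 37) (nat_lit 5) (nat_lit 278) (nat_lit 255) (nat_lit 187)) (XT.nd (nat_lit 78) (nat_lit 0) (nat_lit 0) (XT.lf (nat_lit 0) (nat_lit 2512229393) (nat_lit 228) (nat_lit 12169948713) (nat_lit 304) (nat_lit 2604081020) (nat_lit 33) (nat_lit 5) (nat_lit 36) (nat_lit 5) (nat_lit 37) (nat_lit 5) (nat_lit 279) (nat_lit 255) (nat_lit 186)) (XT.lf (nat_lit 0) (nat_lit 9637469872) (nat_lit 228) (nat_lit 7484934030) (nat_lit 304) (nat_lit 727998396) (nat_lit 33) (nat_lit 5) (nat_lit 36) (nat_lit 5) (nat_lit 37)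 (nat_lit 5) (nat_lit 280) (nat_lit 255) (nat_lit 185))))))))
noncomputable def xc136 : XT := (XT.nd (nat_lit 2496) (nat_lit 304) (nat_lit 0) (XT.nd (nat_lit 1248) (nat_lit 608) (nat_lit 0) (XT.nd (nat_lit 624) (nat_lit 608) (nat_lit 0) (XT.nd (nat_lit 312) (nat_lit 152) (nat_lit 0) (XT.nd (nat_lit 156) (nat_lit 228) (nat_lit 0) (XT.nd (nat_lit 78) (nat_lit 228) (nat_lit 0) (XT.lf (nat_lit 0) (nat_lit 1184698913) (nat_lit 304) (nat_lit 1364053705) (nat_lit 76) (nat_lit 15893985706) (nat_lit 32) (nat_lit 5) (nat_lit 36) (nat_lit 5) (nat_lit 33) (nat_lit 5) (nat_lit 281) (nat_lit 255) (nat_lit 184)) (XT.lf (nat_lit 0) (nat_lit 3288234427) (nat_lit 304) (nat_lit 13116066502) (nat_lit 76) (nat_lit 2653889199) (nat_lit 29) (nat_lit 5) (nat_lit 33) (nat_lit 5) (nat_lit 30) (nat_lit 5) (nat_lit 282) (nat_lit 255) (nat_lit 183))) (XT.nd (nat_lit 78) (nat_lit 228) (nat_lit 0) (XT.lf (nat_lit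 0) (nat_lit 5546030133) (nat_lit 304) (nat_lit 6104851005) (nat_lit 76) (nat_lit 8051154586) (nat_lit 29) (nat_lit 5) (nat_lit 33) (nat_lit 5) (nat_lit 30) (nat_lit 5) (nat_lit 283) (nat_lit 255) (nat_lit 182)) (XT.lf (nat_lit 0) (nat_lit 1278417186) (nat_lit 228) (nat_lit 6642849517) (nat_lit 304) (nat_lit 12456651127) (nat_lit 26) (nat_lit 5) (nat_lit 29) (nat_lit 5) (nat_lit 30) (nat_lit 5) (nat_lit 284) (nat_lit 255) (nat_lit 181)))) (XT.nd (nat_lit 156) (nat_lit 152) (nat_lit 0) (XT.nd (nat_lit 78) (nat_lit 0) (nat_lit 0) (XT.lf (nat_lit 0) (nat_lit 9223683330) (nat_lit 228) (nat_lit 1279997131) (nat_lit 304) (nat_lit 10579561177) (nat_lit 26) (nat_lit 5) (nat_lit 29) (nat_lit 5) (nat_lit 30) (nat_lit 5) (nat_lit 285) (nat_lit 255) (nat_lit 180)) (XT.lf (nat_lit 0) (nat_lit 13268824401) (nat_lit 304) (nat_lit 4344468705) (nat_lit 76) (nat_lit 4207923165) (nat_lit 26) (nat_lit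 5) (nat_lit 30) (nat_lit 5) (nat_lit 27) (nat_lit 5) (nat_lit 286) (nat_lit 255) (nat_lit 179))) (XT.nd (nat_lit 78) (nat_lit 0) (nat_lit 0) (XT.lf (nat_lit 0) (nat_lit 3623343751) (nat_lit 152) (nat_lit 12612796108) (nat_lit 228) (nat_lit 6356816070) (nat_lit 24) (nat_lit 5) (nat_lit 26) (nat_lit 5) (nat_lit 27) (nat_lit 5) (nat_lit 287) (nat_lit 255) (nat_lit 178)) (XT.lf (nat_lit 0) (nat_lit 12122649887) (nat_lit 152) (nat_lit 7289479839) (nat_lit 228) (nat_lit 3988196468) (nat_lit 24) (nat_lit 5) (nat_lit 26) (nat_lit 5) (nat_lit 27) (nat_lit 5) (nat_lit 288) (nat_lit 255) (nat_lit 177))))) (XT.nd (nat_lit 312) (nat_lit 304) (nat_lit 0) (XT.nd (nat_lit 156) (nat_lit 0) (nat_lit 0) (XT.nd (nat_lit 78) (nat_lit 304) (nat_lit 0) (XT.lf (nat_lit 0) (nat_lit 21030038391) (nat_lit 152) (nat_lit 1704245417) (nat_lit 228) (nat_lit 1514469173) (nat_lit 24) (nat_lit 5) (nat_lit 26) (nat_lit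 5) (nat_lit 27) (nat_lit 5) (nat_lit 289) (nat_lit 255) (nat_lit 176)) (XT.lf (nat_lit 0) (nat_lit 1186570477) (nat_lit 304) (nat_lit 19819751722) (nat_lit 76) (nat_lit 4125570185) (nat_lit 20) (nat_lit 5) (nat_lit 24) (nat_lit 5) (nat_lit 21) (nat_lit 5) (nat_lit 290) (nat_lit 255) (nat_lit 175))) (XT.nd (nat_lit 78) (nat_lit 0) (nat_lit 0) (XT.lf (nat_lit 0) (nat_lit 4043089316) (nat_lit 304) (nat_lit 11745685662) (nat_lit 76) (nat_lit 10265654831) (nat_lit 20) (nat_lit 5) (nat_lit 24) (nat_lit 5) (nat_lit 21) (nat_lit 5) (nat_lit 291) (nat_lit 255) (nat_lit 174)) (XT.lf (nat_lit 0) (nat_lit 7030987191) (nat_lit 304) (nat_lit 3283962189) (nat_lit 76) (nat_lit 16708763344) (nat_lit 20) (nat_lit 5) (nat_lit 24) (nat_lit 5) (nat_lit 21) (nat_lit 5) (nat_lit 292) (nat_lit 255) (nat_lit 173)))) (XT.nd (nat_lit 156) (nat_lit 152) (nat_lit 0) (XT.nd (nat_lit 78) (nat_lit 0) (nat_lit 0)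 (XT.lf (nat_lit 0) (nat_lit 5770249683) (nat_lit 152) (nat_lit 4477218229) (nat_lit 228) (nat_lit 17790076543) (nat_lit 18) (nat_lit 5) (nat_lit 20) (nat_lit 5) (nat_lit 21) (nat_lit 5) (nat_lit 293) (nat_lit 255) (nat_lit 172)) (XT.lf (nat_lit 0) (nat_lit 13696412073) (nat_lit 228) (nat_lit 13750352598) (nat_lit 76) (nat_lit 1651763101) (nat_lit 18) (nat_lit 5) (nat_lit 21) (nat_lit 5) (nat_lit 19) (nat_lit 5) (nat_lit 294) (nat_lit 255) (nat_lit 171))) (XT.nd (nat_lit 78) (nat_lit 152) (nat_lit 0) (XT.lf (nat_lit 0) (nat_lit 17381022937) (nat_lit 228) (nat_lit 4895759560) (nat_lit 76) (nat_lit 7932656756) (nat_lit 18) (nat_lit 5) (nat_lit 21) (nat_lit 5) (nat_lit 19) (nat_lit 5) (nat_lit 295) (nat_lit 255) (nat_lit 170)) (XT.lf (nat_lit 0) (nat_lit 4532538158) (nat_lit 152) (nat_lit 16778398928) (nat_lit 228) (nat_lit 10061943651) (nat_lit 16) (nat_lit 5) (nat_lit 18) (nat_lit 5)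 (nat_lit 19) (nat_lit 5) (nat_lit 296) (nat_lit 255) (nat_lit 169)))))) (XT.nd (nat_lit 624) (nat_lit 304) (nat_lit 0) (XT.nd (nat_lit 312) (nat_lit 152) (nat_lit 0) (XT.nd (nat_lit 156) (nat_lit 152) (nat_lit 0) (XT.nd (nat_lit 78) (nat_lit 0) (nat_lit 0) (XT.lf (nat_lit 0) (nat_lit 14588353312) (nat_lit 152) (nat_lit 10922457868) (nat_lit 228) (nat_lit 7080046161) (nat_lit 16) (nat_lit 5) (nat_lit 18) (nat_lit 5) (nat_lit 19) (nat_lit 5) (nat_lit 297) (nat_lit 255) (nat_lit 168)) (XT.lf (nat_lit 0) (nat_lit 25133752396) (nat_lit 152) (nat_lit 4777928659) (nat_lit 228) (nat_lit 3958536145) (nat_lit 16) (nat_lit 5) (nat_lit 18) (nat_lit 5) (nat_lit 19) (nat_lit 5) (nat_lit 298) (nat_lit 255) (nat_lit 167))) (XT.nd (nat_lit 78) (nat_lit 76) (nat_lit 0) (XT.lf (nat_lit 0) (nat_lit 985302376) (nat_lit 76) (nat_lit 33580176474) (nat_lit 152) (nat_lit 646454865) (nat_lit 15) (nat_lit 5)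 (nat_lit 16) (nat_lit 5) (nat_lit 17) (nat_lit 4) (nat_lit 299) (nat_lit 255) (nat_lit 166)) (XT.lf (nat_lit 0) (nat_lit 2960733216) (nat_lit 152) (nat_lit 25254906861) (nat_lit 76) (nat_lit 8391909644) (nat_lit 14) (nat_lit 5) (nat_lit 16) (nat_lit 5) (nat_lit 15) (nat_lit 5) (nat_lit 300) (nat_lit 255) (nat_lit 165)))) (XT.nd (nat_lit 156) (nat_lit 152) (nat_lit 0) (XT.nd (nat_lit 78) (nat_lit 0) (nat_lit 0) (XT.lf (nat_lit 0) (nat_lit 6718375889) (nat_lit 152) (nat_lit 15857652075) (nat_lit 76) (nat_lit 15496826075) (nat_lit 14) (nat_lit 5) (nat_lit 16) (nat_lit 5) (nat_lit 15) (nat_lit 5) (nat_lit 301) (nat_lit 255) (nat_lit 164)) (XT.lf (nat_lit 0) (nat_lit 10656110515) (nat_lit 152) (nat_lit 6002399593) (nat_lit 76) (nat_lit 22953330028) (nat_lit 14) (nat_lit 5) (nat_lit 16) (nat_lit 5) (nat_lit 15) (nat_lit 5) (nat_lit 302) (nat_lit 255) (nat_lit 163))) (XT.nd (nat_lit 78)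 (nat_lit 0) (nat_lit 0) (XT.lf (nat_lit 0) (nat_lit 4477627514) (nat_lit 152) (nat_lit 10375593450) (nat_lit 228) (nat_lit 26371455885) (nat_lit 12) (nat_lit 5) (nat_lit 14) (nat_lit 5) (nat_lit 15) (nat_lit 5) (nat_lit 303) (nat_lit 255) (nat_lit 162)) (XT.lf (nat_lit 0) (nat_lit 15678927955) (nat_lit 152) (nat_lit 3675673018) (nat_lit 228) (nat_lit 23558858261) (nat_lit 12) (nat_lit 5) (nat_lit 14) (nat_lit 5) (nat_lit 15) (nat_lit 5) (nat_lit 304) (nat_lit 255) (nat_lit 161))))) (XT.nd (nat_lit 312) (nat_lit 228) (nat_lit 0) (XT.nd (nat_lit 156) (nat_lit 76) (nat_lit 0) (XT.nd (nat_lit 78) (nat_lit 0) (nat_lit 0) (XT.lf (nat_lit 0) (nat_lit 24126544755) (nat_lit 228) (nat_lit 17309733332) (nat_lit 76) (nat_lit 3248151285) (nat_lit 12) (nat_lit 5) (nat_lit 15) (nat_lit 5) (nat_lit 13) (nat_lit 4) (nat_lit 305) (nat_lit 255) (nat_lit 160)) (XT.lf (nat_lit 0) (nat_lit 29190721295)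 (nat_lit 228) (nat_lit 6959332237) (nat_lit 76) (nat_lit 10391234963) (nat_lit 12) (nat_lit 5) (nat_lit 15) (nat_lit 5) (nat_lit 13) (nat_lit 4) (nat_lit 306) (nat_lit 255) (nat_lit 159))) (XT.nd (nat_lit 78) (nat_lit 0) (nat_lit 0) (XT.lf (nat_lit 0) (nat_lit 4027612114) (nat_lit 76) (nat_lit 30537070798) (nat_lit 152) (nat_lit 13923500049) (nat_lit 11) (nat_lit 5) (nat_lit 12) (nat_lit 5) (nat_lit 13) (nat_lit 4) (nat_lit 307) (nat_lit 255) (nat_lit 158)) (XT.lf (nat_lit 0) (nat_lit 15795789891) (nat_lit 76) (nat_lit 24523254754) (nat_lit 152) (nat_lit 10207812591) (nat_lit 11) (nat_lit 5) (nat_lit 12) (nat_lit 5) (nat_lit 13) (nat_lit 4) (nat_lit 308) (nat_lit 255) (nat_lit 157)))) (XT.nd (nat_lit 156) (nat_lit 228) (nat_lit 0) (XT.nd (nat_lit 78) (nat_lit 0) (nat_lit 0) (XT.lf (nat_lit 0) (nat_lit 28143113609) (nat_lit 76) (nat_lit 18212146450) (nat_lit 152) (nat_lit 6312517613)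 (nat_lit 11) (nat_lit 5) (nat_lit 12) (nat_lit 5) (nat_lit 13) (nat_lit 4) (nat_lit 309) (nat_lit 255) (nat_lit 156)) (XT.lf (nat_lit 0) (nat_lit 41098981660) (nat_lit 76) (nat_lit 11588719437) (nat_lit 152) (nat_lit 2228340602) (nat_lit 11) (nat_lit 5) (nat_lit 12) (nat_lit 5) (nat_lit 13) (nat_lit 4) (nat_lit 310) (nat_lit 255) (nat_lit 155))) (XT.nd (nat_lit 78) (nat_lit 152) (nat_lit 0) (XT.lf (nat_lit 0) (nat_lit 1988687676) (nat_lit 152) (nat_lit 2614836586) (nat_lit 76) (nat_lit 52671874282) (nat_lit 10) (nat_lit 5) (nat_lit 12) (nat_lit 5) (nat_lit 11) (nat_lit 5) (nat_lit 311) (nat_lit 255) (nat_lit 154)) (XT.lf (nat_lit 0) (nat_lit 6528930525) (nat_lit 228) (nat_lit 50385667260) (nat_lit 76) (nat_lit 2826952258) (nat_lit 8) (nat_lit 5) (nat_lit 11) (nat_lit 5) (nat_lit 9) (nat_lit 4) (nat_lit 312) (nat_lit 255) (nat_lit 153))))))) (XT.nd (nat_lit 1248) (nat_lit 76) (nat_lit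 0) (XT.nd (nat_lit 624) (nat_lit 152) (nat_lit 0) (XT.nd (nat_lit 312) (nat_lit 76) (nat_lit 0) (XT.nd (nat_lit 156) (nat_lit 0) (nat_lit 0) (XT.nd (nat_lit 78) (nat_lit 0) (nat_lit 0) (XT.lf (nat_lit 0) (nat_lit 11411570748) (nat_lit 228) (nat_lit 40397345666) (nat_lit 76) (nat_lit 10516338505) (nat_lit 8) (nat_lit 5) (nat_lit 11) (nat_lit 5) (nat_lit 9) (nat_lit 4) (nat_lit 313) (nat_lit 255) (nat_lit 152)) (XT.lf (nat_lit 0) (nat_lit 16533493591) (nat_lit 228) (nat_lit 29917490374) (nat_lit 76) (nat_lit 18587417890) (nat_lit 8) (nat_lit 5) (nat_lit 11) (nat_lit 5) (nat_lit 9) (nat_lit 4) (nat_lit 314) (nat_lit 255) (nat_lit 151))) (XT.nd (nat_lit 78) (nat_lit 0) (nat_lit 0) (XT.lf (nat_lit 0) (nat_lit 21906894109) (nat_lit 228) (nat_lit 18921149348) (nat_lit 76) (nat_lit 27059407269) (nat_lit 8) (nat_lit 5) (nat_lit 11) (nat_lit 5) (nat_lit 9) (nat_lit 4) (nat_lit 315) (nat_lit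 255) (nat_lit 150)) (XT.lf (nat_lit 0) (nat_lit 27544566112) (nat_lit 228) (nat_lit 7382140824) (nat_lit 76) (nat_lit 35952478047) (nat_lit 8) (nat_lit 5) (nat_lit 11) (nat_lit 5) (nat_lit 9) (nat_lit 4) (nat_lit 316) (nat_lit 255) (nat_lit 149)))) (XT.nd (nat_lit 156) (nat_lit 0) (nat_lit 0) (XT.nd (nat_lit 78) (nat_lit 0) (nat_lit 0) (XT.lf (nat_lit 0) (nat_lit 4883305295) (nat_lit 76) (nat_lit 28652869414) (nat_lit 152) (nat_lit 40480740986) (nat_lit 7) (nat_lit 5) (nat_lit 8) (nat_lit 5) (nat_lit 9) (nat_lit 4) (nat_lit 317) (nat_lit 255) (nat_lit 148)) (XT.lf (nat_lit 0) (nat_lit 18011615706) (nat_lit 76) (nat_lit 21936673957) (nat_lit 152) (nat_lit 37357208787) (nat_lit 7) (nat_lit 5) (nat_lit 8) (nat_lit 5) (nat_lit 9) (nat_lit 4) (nat_lit 318) (nat_lit 255) (nat_lit 147))) (XT.nd (nat_lit 78) (nat_lit 0) (nat_lit 0) (XT.lf (nat_lit 0) (nat_lit 31789961378) (nat_lit 76) (nat_lit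 14887149748) (nat_lit 152) (nat_lit 34081605421) (nat_lit 7) (nat_lit 5) (nat_lit 8) (nat_lit 5) (nat_lit 9) (nat_lit 4) (nat_lit 319) (nat_lit 255) (nat_lit 146)) (XT.lf (nat_lit 0) (nat_lit 46251147894) (nat_lit 76) (nat_lit 7487512207) (nat_lit 152) (nat_lit 30646131832) (nat_lit 7) (nat_lit 5) (nat_lit 8) (nat_lit 5) (nat_lit 9) (nat_lit 4) (nat_lit 320) (nat_lit 255) (nat_lit 145))))) (XT.nd (nat_lit 312) (nat_lit 76) (nat_lit 0) (XT.nd (nat_lit 156) (nat_lit 76) (nat_lit 0) (XT.nd (nat_lit 78) (nat_lit 0) (nat_lit 0) (XT.lf (nat_lit 0) (nat_lit 61154119151) (nat_lit 152) (nat_lit 26767120819) (nat_lit 0) (nat_lit 270899683) (nat_lit 7) (nat_lit 5) (nat_lit 9) (nat_lit 4) (nat_lit 7) (nat_lit 4) (nat_lit 321) (nat_lit 255) (nat_lit 144)) (XT.lf (nat_lit 0) (nat_lit 69059695485) (nat_lit 152) (nat_lit 14960673714) (nat_lit 0) (nat_lit 8163528056) (nat_lit 7) (nat_lit 5) (nat_lit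 9) (nat_lit 4) (nat_lit 7) (nat_lit 4) (nat_lit 322) (nat_lit 255) (nat_lit 143))) (XT.nd (nat_lit 78) (nat_lit 76) (nat_lit 0) (XT.lf (nat_lit 0) (nat_lit 77357310854) (nat_lit 152) (nat_lit 2569291086) (nat_lit 0) (nat_lit 16448812034) (nat_lit 7) (nat_lit 5) (nat_lit 9) (nat_lit 4) (nat_lit 7) (nat_lit 4) (nat_lit 323) (nat_lit 255) (nat_lit 142)) (XT.lf (nat_lit 0) (nat_lit 10781609182) (nat_lit 76) (nat_lit 75453443438) (nat_lit 76) (nat_lit 14533200436) (nat_lit 6) (nat_lit 4) (nat_lit 7) (nat_lit 5) (nat_lit 7) (nat_lit 4) (nat_lit 324) (nat_lit 255) (nat_lit 141)))) (XT.nd (nat_lit 156) (nat_lit 76) (nat_lit 0) (XT.nd (nat_lit 78) (nat_lit 0) (nat_lit 0) (XT.lf (nat_lit 0) (nat_lit 24884206880) (nat_lit 76) (nat_lit 70712969399) (nat_lit 76) (nat_lit 9781541461) (nat_lit 6) (nat_lit 4) (nat_lit 7) (nat_lit 5) (nat_lit 7) (nat_lit 4) (nat_lit 325) (nat_lit 255) (nat_lit 140))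 (XT.lf (nat_lit 0) (nat_lit 39687127253) (nat_lit 76) (nat_lit 65737405168) (nat_lit 76) (nat_lit 4795324910) (nat_lit 6) (nat_lit 4) (nat_lit 7) (nat_lit 5) (nat_lit 7) (nat_lit 4) (nat_lit 326) (nat_lit 255) (nat_lit 139))) (XT.nd (nat_lit 78) (nat_lit 0) (nat_lit 0) (XT.lf (nat_lit 0) (nat_lit 423324151) (nat_lit 152) (nat_lit 60084410814) (nat_lit 76) (nat_lit 54795122001) (nat_lit 5) (nat_lit 5) (nat_lit 7) (nat_lit 5) (nat_lit 6) (nat_lit 4) (nat_lit 327) (nat_lit 255) (nat_lit 138)) (XT.lf (nat_lit 0) (nat_lit 5739095030) (nat_lit 152) (nat_lit 49196742479) (nat_lit 76) (nat_lit 65700378192) (nat_lit 5) (nat_lit 5) (nat_lit 7) (nat_lit 5) (nat_lit 6) (nat_lit 4) (nat_lit 328) (nat_lit 255) (nat_lit 137)))))) (XT.nd (nat_lit 624) (nat_lit 0) (nat_lit 0) (XT.nd (nat_lit 312) (nat_lit 0) (nat_lit 0) (XT.nd (nat_lit 156) (nat_lit 76) (nat_lit 0) (XT.nd (nat_lit 78) (nat_lit 0)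 (nat_lit 0) (XT.lf (nat_lit 0) (nat_lit 11318124668) (nat_lit 152) (nat_lit 37768933594) (nat_lit 76) (nat_lit 77149317173) (nat_lit 5) (nat_lit 5) (nat_lit 7) (nat_lit 5) (nat_lit 6) (nat_lit 4) (nat_lit 329) (nat_lit 255) (nat_lit 136)) (XT.lf (nat_lit 0) (nat_lit 17173696470) (nat_lit 152) (nat_lit 25773775091) (nat_lit 76) (nat_lit 89169198322) (nat_lit 5) (nat_lit 5) (nat_lit 7) (nat_lit 5) (nat_lit 6) (nat_lit 4) (nat_lit 330) (nat_lit 255) (nat_lit 135))) (XT.nd (nat_lit 78) (nat_lit 76) (nat_lit 0) (XT.lf (nat_lit 0) (nat_lit 23319752272) (nat_lit 152) (nat_lit 13182707068) (nat_lit 76) (nat_lit 101788640403) (nat_lit 5) (nat_lit 5) (nat_lit 7) (nat_lit 5) (nat_lit 6) (nat_lit 4) (nat_lit 331) (nat_lit 255) (nat_lit 134)) (XT.lf (nat_lit 0) (nat_lit 35381641) (nat_lit 76) (nat_lit 29736096305) (nat_lit 152) (nat_lit 115002860473) (nat_lit 4) (nat_lit 5) (nat_lit 5) (nat_lit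 5) (nat_lit 6) (nat_lit 4) (nat_lit 332) (nat_lit 255) (nat_lit 133)))) (XT.nd (nat_lit 156) (nat_lit 0) (nat_lit 0) (XT.nd (nat_lit 78) (nat_lit 0) (nat_lit 0) (XT.lf (nat_lit 0) (nat_lit 14368442576) (nat_lit 76) (nat_lit 22398465292) (nat_lit 152) (nat_lit 114803780672) (nat_lit 4) (nat_lit 5) (nat_lit 5) (nat_lit 5) (nat_lit 6) (nat_lit 4) (nat_lit 333) (nat_lit 255) (nat_lit 132)) (XT.lf (nat_lit 0) (nat_lit 29414722241) (nat_lit 76) (nat_lit 14695351273) (nat_lit 152) (nat_lit 114596889591) (nat_lit 4) (nat_lit 5) (nat_lit 5) (nat_lit 5) (nat_lit 6) (nat_lit 4) (nat_lit 334) (nat_lit 255) (nat_lit 131))) (XT.nd (nat_lit 78) (nat_lit 0) (nat_lit 0) (XT.lf (nat_lit 0) (nat_lit 45210045111) (nat_lit 76) (nat_lit 6608413501) (nat_lit 152) (nat_lit 114381694633) (nat_lit 4) (nat_lit 5) (nat_lit 5) (nat_lit 5) (nat_lit 6) (nat_lit 4) (nat_lit 335) (nat_lit 255) (nat_lit 130)) (XT.lf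 (nat_lit 0) (nat_lit 59939793550) (nat_lit 152) (nat_lit 112305457880) (nat_lit 0) (nat_lit 1821379603) (nat_lit 4) (nat_lit 5) (nat_lit 6) (nat_lit 4) (nat_lit 4) (nat_lit 4) (nat_lit 336) (nat_lit 255) (nat_lit 129))))) (XT.nd (nat_lit 312) (nat_lit 0) (nat_lit 0) (XT.nd (nat_lit 156) (nat_lit 0) (nat_lit 0) (XT.nd (nat_lit 78) (nat_lit 0) (nat_lit 0) (XT.lf (nat_lit 0) (nat_lit 68573752444) (nat_lit 152) (nat_lit 103297949968) (nat_lit 0) (nat_lit 10449406886) (nat_lit 4) (nat_lit 5) (nat_lit 6) (nat_lit 4) (nat_lit 4) (nat_lit 4) (nat_lit 337) (nat_lit 255) (nat_lit 128)) (XT.lf (nat_lit 0) (nat_lit 77637716484) (nat_lit 152) (nat_lit 93842962097) (nat_lit 0) (nat_lit 19507721774) (nat_lit 4) (nat_lit 5) (nat_lit 6) (nat_lit 4) (nat_lit 4) (nat_lit 4) (nat_lit 338) (nat_lit 255) (nat_lit 127))) (XT.nd (nat_lit 78) (nat_lit 0) (nat_lit 0) (XT.lf (nat_lit 0) (nat_lit 87153266537)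 (nat_lit 152) (nat_lit 83917982389) (nat_lit 0) (nat_lit 29017891682) (nat_lit 4) (nat_lit 5) (nat_lit 6) (nat_lit 4) (nat_lit 4) (nat_lit 4) (nat_lit 339) (nat_lit 255) (nat_lit 126)) (XT.lf (nat_lit 0) (nat_lit 97143058674) (nat_lit 152) (nat_lit 73499379942) (nat_lit 0) (nat_lit 39002559871) (nat_lit 4) (nat_lit 5) (nat_lit 6) (nat_lit 4) (nat_lit 4) (nat_lit 4) (nat_lit 340) (nat_lit 255) (nat_lit 125)))) (XT.nd (nat_lit 156) (nat_lit 0) (nat_lit 0) (XT.nd (nat_lit 78) (nat_lit 0) (nat_lit 0) (XT.lf (nat_lit 0) (nat_lit 107630878115) (nat_lit 152) (nat_lit 62562348558) (nat_lit 0) (nat_lit 49485499362) (nat_lit 4) (nat_lit 5) (nat_lit 6) (nat_lit 4) (nat_lit 4) (nat_lit 4) (nat_lit 341) (nat_lit 255) (nat_lit 124)) (XT.lf (nat_lit 0) (nat_lit 118641695859) (nat_lit 152) (nat_lit 51080847688) (nat_lit 0) (nat_lit 60491669535) (nat_lit 4) (nat_lit 5) (nat_lit 6) (nat_lit 4) (nat_lit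 4) (nat_lit 4) (nat_lit 342) (nat_lit 255) (nat_lit 123))) (XT.nd (nat_lit 78) (nat_lit 0) (nat_lit 0) (XT.lf (nat_lit 0) (nat_lit 130201728139) (nat_lit 152) (nat_lit 39027540423) (nat_lit 0) (nat_lit 72047275555) (nat_lit 4) (nat_lit 5) (nat_lit 6) (nat_lit 4) (nat_lit 4) (nat_lit 4) (nat_lit 343) (nat_lit 255) (nat_lit 122)) (XT.lf (nat_lit 0) (nat_lit 142338498840) (nat_lit 152) (nat_lit 26373728414) (nat_lit 0) (nat_lit 84179830771) (nat_lit 4) (nat_lit 5) (nat_lit 6) (nat_lit 4) (nat_lit 4) (nat_lit 4) (nat_lit 344) (nat_lit 255) (nat_lit 121))))))))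
noncomputable def xc137 : XT := (XT.nd (nat_lit 31122) (nat_lit 0) (nat_lit 2508) (XT.nd (nat_lit 624) (nat_lit 0) (nat_lit 0) (XT.nd (nat_lit 312) (nat_lit 0) (nat_lit 0) (XT.nd (nat_lit 156) (nat_lit 0) (nat_lit 0) (XT.nd (nat_lit 78) (nat_lit 76) (nat_lit 0) (XT.lf (nat_lit 0) (nat_lit 155080905035) (nat_lit 152) (nat_lit 13089283536) (nat_lit 0) (nat_lit 96918222220) (nat_lit 4) (nat_lit 5) (nat_lit 6) (nat_lit 4) (nat_lit 4) (nat_lit 4) (nat_lit 345) (nat_lit 255) (nat_lit 120)) (XT.lf (nat_lit 0) (nat_lit 885774144) (nat_lit 76) (nat_lit 167587341060) (nat_lit 76) (nat_lit 109420834676) (nat_lit 3) (nat_lit 4) (nat_lit 4) (nat_lit 5) (nat_lit 4) (nat_lit 4) (nat_lit 346) (nat_lit 255) (nat_lit 119))) (XT.nd (nat_lit 78) (nat_lit 0) (nat_lit 0) (XT.lf (nat_lit 0) (nat_lit 16012086941) (nat_lit 76) (nat_lit 166743400995) (nat_lit 76) (nat_lit 108573253117) (nat_lit 3) (nat_lit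 4) (nat_lit 4) (nat_lit 5) (nat_lit 4) (nat_lit 4) (nat_lit 347) (nat_lit 255) (nat_lit 118)) (XT.lf (nat_lit 0) (nat_lit 31892879058) (nat_lit 76) (nat_lit 165858032345) (nat_lit 76) (nat_lit 107684416377) (nat_lit 3) (nat_lit 4) (nat_lit 4) (nat_lit 5) (nat_lit 4) (nat_lit 4) (nat_lit 348) (nat_lit 255) (nat_lit 117)))) (XT.nd (nat_lit 156) (nat_lit 0) (nat_lit 0) (XT.nd (nat_lit 78) (nat_lit 0) (nat_lit 0) (XT.lf (nat_lit 0) (nat_lit 48565961904) (nat_lit 76) (nat_lit 164929127089) (nat_lit 76) (nat_lit 106752208179) (nat_lit 3) (nat_lit 4) (nat_lit 4) (nat_lit 5) (nat_lit 4) (nat_lit 4) (nat_lit 349) (nat_lit 255) (nat_lit 116)) (XT.lf (nat_lit 0) (nat_lit 66071033297) (nat_lit 76) (nat_lit 163954473549) (nat_lit 76) (nat_lit 105774408980) (nat_lit 3) (nat_lit 4) (nat_lit 4) (nat_lit 5) (nat_lit 4) (nat_lit 4) (nat_lit 350) (nat_lit 255) (nat_lit 115))) (XT.nd (nat_lit 78) (nat_lit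 0) (nat_lit 0) (XT.lf (nat_lit 0) (nat_lit 84449771977) (nat_lit 76) (nat_lit 162931751121) (nat_lit 76) (nat_lit 104748690685) (nat_lit 3) (nat_lit 4) (nat_lit 4) (nat_lit 5) (nat_lit 4) (nat_lit 4) (nat_lit 351) (nat_lit 255) (nat_lit 114)) (XT.lf (nat_lit 0) (nat_lit 103745936846) (nat_lit 76) (nat_lit 161858524751) (nat_lit 76) (nat_lit 103672611109) (nat_lit 3) (nat_lit 4) (nat_lit 4) (nat_lit 5) (nat_lit 4) (nat_lit 4) (nat_lit 352) (nat_lit 255) (nat_lit 113))))) (XT.nd (nat_lit 30186) (nat_lit 0) (nat_lit 4256) (XT.nd (nat_lit 30030) (nat_lit 0) (nat_lit 4864) (XT.nd (nat_lit 29952) (nat_lit 0) (nat_lit 4864) (XT.lf (nat_lit 0) (nat_lit 124005471153) (nat_lit 76) (nat_lit 160732239138) (nat_lit 76) (nat_lit 102543608158) (nat_lit 3) (nat_lit 4) (nat_lit 4) (nat_lit 5) (nat_lit 4) (nat_lit 4) (nat_lit 353) (nat_lit 255) (nat_lit 112)) (XT.lf (nat_lit 0) (nat_lit 1900384649)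 (nat_lit 0) (nat_lit 1900384649) (nat_lit 532) (nat_lit 971674559) (nat_lit 67) (nat_lit 5) (nat_lit 67) (nat_lit 3) (nat_lit 74) (nat_lit 3) (nat_lit 256) (nat_lit 256) (nat_lit 208))) (XT.nd (nat_lit 78) (nat_lit 0) (nat_lit 0) (XT.lf (nat_lit 0) (nat_lit 7732108204) (nat_lit 0) (nat_lit 723674679) (nat_lit 532) (nat_lit 1290120713) (nat_lit 67) (nat_lit 5) (nat_lit 67) (nat_lit 3) (nat_lit 74) (nat_lit 3) (nat_lit 257) (nat_lit 256) (nat_lit 207)) (XT.lf (nat_lit 76) (nat_lit 1900735693) (nat_lit 0) (nat_lit 7478639527) (nat_lit 608) (nat_lit 576544662) (nat_lit 68) (nat_lit 5) (nat_lit 67) (nat_lit 5) (nat_lit 75) (nat_lit 5) (nat_lit 258) (nat_lit 256) (nat_lit 206)))) (XT.nd (nat_lit 156) (nat_lit 0) (nat_lit 76) (XT.nd (nat_lit 78) (nat_lit 0) (nat_lit 0) (XT.lf (nat_lit 0) (nat_lit 172240140) (nat_lit 608) (nat_lit 4134180350) (nat_lit 684) (nat_lit 5869884017) (nat_lit 59)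 (nat_lit 5) (nat_lit 67) (nat_lit 5) (nat_lit 68) (nat_lit 5) (nat_lit 259) (nat_lit 256) (nat_lit 205)) (XT.lf (nat_lit 0) (nat_lit 899593783) (nat_lit 608) (nat_lit 50613355) (nat_lit 684) (nat_lit 9459246469) (nat_lit 59) (nat_lit 5) (nat_lit 67) (nat_lit 5) (nat_lit 68) (nat_lit 5) (nat_lit 260) (nat_lit 256) (nat_lit 204))) (XT.nd (nat_lit 78) (nat_lit 0) (nat_lit 0) (XT.lf (nat_lit 0) (nat_lit 1735201370) (nat_lit 608) (nat_lit 6340919549) (nat_lit 684) (nat_lit 2574776437) (nat_lit 60) (nat_lit 5) (nat_lit 68) (nat_lit 5) (nat_lit 69) (nat_lit 5) (nat_lit 261) (nat_lit 256) (nat_lit 203)) (XT.lf (nat_lit 0) (nat_lit 2593076372) (nat_lit 608) (nat_lit 2054370039) (nat_lit 684) (nat_lit 6258163015) (nat_lit 60) (nat_lit 5) (nat_lit 68) (nat_lit 5) (nat_lit 69) (nat_lit 5) (nat_lit 262) (nat_lit 256) (nat_lit 202)))))) (XT.nd (nat_lit 624) (nat_lit 912) (nat_lit 0) (XT.nd (nat_lit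 312) (nat_lit 912) (nat_lit 0) (XT.nd (nat_lit 156) (nat_lit 0) (nat_lit 76) (XT.nd (nat_lit 78) (nat_lit 0) (nat_lit 76) (XT.lf (nat_lit 76) (nat_lit 2503034837) (nat_lit 0) (nat_lit 995640775) (nat_lit 684) (nat_lit 7674349948) (nat_lit 61) (nat_lit 5) (nat_lit 60) (nat_lit 5) (nat_lit 69) (nat_lit 5) (nat_lit 263) (nat_lit 256) (nat_lit 201)) (XT.lf (nat_lit 0) (nat_lit 4496410188) (nat_lit 608) (nat_lit 4162537227) (nat_lit 684) (nat_lit 2792722302) (nat_lit 61) (nat_lit 5) (nat_lit 69) (nat_lit 5) (nat_lit 70) (nat_lit 5) (nat_lit 264) (nat_lit 256) (nat_lit 200))) (XT.nd (nat_lit 78) (nat_lit 0) (nat_lit 0) (XT.lf (nat_lit 76) (nat_lit 547484081) (nat_lit 0) (nat_lit 4990152716) (nat_lit 684) (nat_lit 6207119484) (nat_lit 62) (nat_lit 5) (nat_lit 61) (nat_lit 5) (nat_lit 70) (nat_lit 5) (nat_lit 265) (nat_lit 256) (nat_lit 199)) (XT.lf (nat_lit 76) (nat_lit 5613901747) (nat_lit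 0) (nat_lit 1057373165) (nat_lit 684) (nat_lit 5379386145) (nat_lit 62) (nat_lit 5) (nat_lit 61) (nat_lit 5) (nat_lit 70) (nat_lit 5) (nat_lit 266) (nat_lit 256) (nat_lit 198)))) (XT.nd (nat_lit 156) (nat_lit 456) (nat_lit 0) (XT.nd (nat_lit 78) (nat_lit 608) (nat_lit 0) (XT.lf (nat_lit 0) (nat_lit 7880946247) (nat_lit 608) (nat_lit 1510383156) (nat_lit 76) (nat_lit 2979736857) (nat_lit 62) (nat_lit 5) (nat_lit 70) (nat_lit 5) (nat_lit 63) (nat_lit 5) (nat_lit 267) (nat_lit 256) (nat_lit 197)) (XT.lf (nat_lit 0) (nat_lit 3741688411) (nat_lit 608) (nat_lit 5457915515) (nat_lit 684) (nat_lit 3505627189) (nat_lit 54) (nat_lit 5) (nat_lit 62) (nat_lit 5) (nat_lit 63) (nat_lit 5) (nat_lit 268) (nat_lit 256) (nat_lit 196))) (XT.nd (nat_lit 78) (nat_lit 456) (nat_lit 0) (XT.lf (nat_lit 0) (nat_lit 9286125569) (nat_lit 608) (nat_lit 1297342109) (nat_lit 684) (nat_lit 2472829568) (nat_lit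 54) (nat_lit 5) (nat_lit 62) (nat_lit 5) (nat_lit 63) (nat_lit 5) (nat_lit 269) (nat_lit 256) (nat_lit 195)) (XT.lf (nat_lit 0) (nat_lit 1665161289) (nat_lit 456) (nat_lit 10420312907) (nat_lit 532) (nat_lit 1337144241) (nat_lit 48) (nat_lit 5) (nat_lit 54) (nat_lit 5) (nat_lit 55) (nat_lit 5) (nat_lit 270) (nat_lit 256) (nat_lit 194))))) (XT.nd (nat_lit 312) (nat_lit 532) (nat_lit 0) (XT.nd (nat_lit 156) (nat_lit 304) (nat_lit 0) (XT.nd (nat_lit 78) (nat_lit 76) (nat_lit 0) (XT.lf (nat_lit 0) (nat_lit 7458502232) (nat_lit 456) (nat_lit 6264690481) (nat_lit 532) (nat_lit 81174517) (nat_lit 48) (nat_lit 5) (nat_lit 54) (nat_lit 5) (nat_lit 55) (nat_lit 5) (nat_lit 271) (nat_lit 256) (nat_lit 193)) (XT.lf (nat_lit 0) (nat_lit 1174462421) (nat_lit 532) (nat_lit 705521586) (nat_lit 76) (nat_lit 12325558281) (nat_lit 47) (nat_lit 5) (nat_lit 54) (nat_lit 5) (nat_lit 48) (nat_lit 5) (nat_lit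 272) (nat_lit 256) (nat_lit 192))) (XT.nd (nat_lit 78) (nat_lit 0) (nat_lit 0) (XT.lf (nat_lit 0) (nat_lit 2595466962) (nat_lit 380) (nat_lit 9301888991) (nat_lit 76) (nat_lit 2724210695) (nat_lit 43) (nat_lit 5) (nat_lit 48) (nat_lit 5) (nat_lit 44) (nat_lit 5) (nat_lit 273) (nat_lit 256) (nat_lit 191)) (XT.lf (nat_lit 0) (nat_lit 4108831255) (nat_lit 380) (nat_lit 3440476771) (nat_lit 76) (nat_lit 7508135653) (nat_lit 43) (nat_lit 5) (nat_lit 48) (nat_lit 5) (nat_lit 44) (nat_lit 5) (nat_lit 274) (nat_lit 256) (nat_lit 190)))) (XT.nd (nat_lit 156) (nat_lit 228) (nat_lit 0) (XT.nd (nat_lit 78) (nat_lit 0) (nat_lit 0) (XT.lf (nat_lit 0) (nat_lit 2781805337) (nat_lit 304) (nat_lit 2938867240) (nat_lit 380) (nat_lit 9793412902) (nat_lit 39) (nat_lit 5) (nat_lit 43) (nat_lit 5) (nat_lit 44) (nat_lit 5) (nat_lit 275) (nat_lit 256) (nat_lit 189)) (XT.lf (nat_lit 0) (nat_lit 7482042750)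 (nat_lit 380) (nat_lit 6608634456) (nat_lit 76) (nat_lit 1899541381) (nat_lit 39) (nat_lit 5) (nat_lit 44) (nat_lit 5) (nat_lit 40) (nat_lit 5) (nat_lit 276) (nat_lit 256) (nat_lit 188))) (XT.nd (nat_lit 78) (nat_lit 228) (nat_lit 0) (XT.lf (nat_lit 0) (nat_lit 9360629505) (nat_lit 380) (nat_lit 247921115) (nat_lit 76) (nat_lit 6880251332) (nat_lit 39) (nat_lit 5) (nat_lit 44) (nat_lit 5) (nat_lit 40) (nat_lit 5) (nat_lit 277) (nat_lit 256) (nat_lit 187)) (XT.lf (nat_lit 0) (nat_lit 6622861310) (nat_lit 228) (nat_lit 4795561831) (nat_lit 304) (nat_lit 5589723665) (nat_lit 36) (nat_lit 5) (nat_lit 39) (nat_lit 5) (nat_lit 40) (nat_lit 5) (nat_lit 278) (nat_lit 256) (nat_lit 186)))))))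
noncomputable def xc138 : XT := (XT.nd (nat_lit 1248) (nat_lit 532) (nat_lit 0) (XT.nd (nat_lit 624) (nat_lit 608) (nat_lit 0) (XT.nd (nat_lit 312) (nat_lit 456) (nat_lit 0) (XT.nd (nat_lit 156) (nat_lit 76) (nat_lit 0) (XT.nd (nat_lit 78) (nat_lit 228) (nat_lit 0) (XT.lf (nat_lit 0) (nat_lit 13569804101) (nat_lit 304) (nat_lit 3732112830) (nat_lit 76) (nat_lit 252098705) (nat_lit 36) (nat_lit 5) (nat_lit 40) (nat_lit 5) (nat_lit 37) (nat_lit 5) (nat_lit 279) (nat_lit 256) (nat_lit 185)) (XT.lf (nat_lit 0) (nat_lit 3259861628) (nat_lit 228) (nat_lit 12681642729) (nat_lit 304) (nat_lit 2180123292) (nat_lit 33) (nat_lit 5) (nat_lit 36) (nat_lit 5) (nat_lit 37) (nat_lit 5) (nat_lit 280) (nat_lit 256) (nat_lit 184))) (XT.nd (nat_lit 78) (nat_lit 76) (nat_lit 0) (XT.lf (nat_lit 0) (nat_lit 10711744095) (nat_lit 228) (nat_lit 7766986999) (nat_lit 304) (nat_lit 236625193) (nat_lit 33) (nat_lit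 5) (nat_lit 36) (nat_lit 5) (nat_lit 37) (nat_lit 5) (nat_lit 281) (nat_lit 256) (nat_lit 183)) (XT.lf (nat_lit 0) (nat_lit 1730487275) (nat_lit 304) (nat_lit 849659400) (nat_lit 76) (nat_lit 16758082728) (nat_lit 32) (nat_lit 5) (nat_lit 36) (nat_lit 5) (nat_lit 33) (nat_lit 5) (nat_lit 282) (nat_lit 256) (nat_lit 182)))) (XT.nd (nat_lit 156) (nat_lit 228) (nat_lit 0) (XT.nd (nat_lit 78) (nat_lit 0) (nat_lit 0) (XT.lf (nat_lit 0) (nat_lit 3926554430) (nat_lit 304) (nat_lit 13174419927) (nat_lit 76) (nat_lit 2884222087) (nat_lit 29) (nat_lit 5) (nat_lit 33) (nat_lit 5) (nat_lit 30) (nat_lit 5) (nat_lit 283) (nat_lit 256) (nat_lit 181)) (XT.lf (nat_lit 0) (nat_lit 6274672861) (nat_lit 304) (nat_lit 5841093650) (nat_lit 76) (nat_lit 8546701294) (nat_lit 29) (nat_lit 5) (nat_lit 33) (nat_lit 5) (nat_lit 30) (nat_lit 5) (nat_lit 284) (nat_lit 256) (nat_lit 180))) (XT.nd (nat_lit 78) (nat_lit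 0) (nat_lit 0) (XT.lf (nat_lit 0) (nat_lit 1902160533) (nat_lit 228) (nat_lit 6853758685) (nat_lit 304) (nat_lit 12616962526) (nat_lit 26) (nat_lit 5) (nat_lit 29) (nat_lit 5) (nat_lit 30) (nat_lit 5) (nat_lit 285) (nat_lit 256) (nat_lit 179)) (XT.lf (nat_lit 0) (nat_lit 10218031770) (nat_lit 228) (nat_lit 1228536695) (nat_lit 304) (nat_lit 10668042895) (nat_lit 26) (nat_lit 5) (nat_lit 29) (nat_lit 5) (nat_lit 30) (nat_lit 5) (nat_lit 286) (nat_lit 256) (nat_lit 178))))) (XT.nd (nat_lit 312) (nat_lit 456) (nat_lit 0) (XT.nd (nat_lit 156) (nat_lit 0) (nat_lit 0) (XT.nd (nat_lit 78) (nat_lit 152) (nat_lit 0) (XT.lf (nat_lit 0) (nat_lit 14331795754) (nat_lit 304) (nat_lit 4033926451) (nat_lit 76) (nat_lit 4524762030) (nat_lit 26) (nat_lit 5) (nat_lit 30) (nat_lit 5) (nat_lit 27) (nat_lit 5) (nat_lit 287) (nat_lit 256) (nat_lit 177)) (XT.lf (nat_lit 0) (nat_lit 4323764278) (nat_lit 152)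 (nat_lit 13112794462) (nat_lit 228) (nat_lit 6264884540) (nat_lit 24) (nat_lit 5) (nat_lit 26) (nat_lit 5) (nat_lit 27) (nat_lit 5) (nat_lit 288) (nat_lit 256) (nat_lit 176))) (XT.nd (nat_lit 78) (nat_lit 0) (nat_lit 0) (XT.lf (nat_lit 0) (nat_lit 13223309372) (nat_lit 152) (nat_lit 7529533401) (nat_lit 228) (nat_lit 3797346926) (nat_lit 24) (nat_lit 5) (nat_lit 26) (nat_lit 5) (nat_lit 27) (nat_lit 5) (nat_lit 289) (nat_lit 256) (nat_lit 175)) (XT.lf (nat_lit 0) (nat_lit 22552518397) (nat_lit 152) (nat_lit 1670962040) (nat_lit 228) (nat_lit 1218517046) (nat_lit 24) (nat_lit 5) (nat_lit 26) (nat_lit 5) (nat_lit 27) (nat_lit 5) (nat_lit 290) (nat_lit 256) (nat_lit 174)))) (XT.nd (nat_lit 156) (nat_lit 152) (nat_lit 0) (XT.nd (nat_lit 78) (nat_lit 0) (nat_lit 0) (XT.lf (nat_lit 0) (nat_lit 1597961181) (nat_lit 304) (nat_lit 20317230353) (nat_lit 76) (nat_lit 4454269208) (nat_lit 20)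 (nat_lit 5) (nat_lit 24) (nat_lit 5) (nat_lit 21) (nat_lit 5) (nat_lit 291) (nat_lit 256) (nat_lit 173)) (XT.lf (nat_lit 0) (nat_lit 4580541097) (nat_lit 304) (nat_lit 11862961417) (nat_lit 76) (nat_lit 10895528538) (nat_lit 20) (nat_lit 5) (nat_lit 24) (nat_lit 5) (nat_lit 21) (nat_lit 5) (nat_lit 292) (nat_lit 256) (nat_lit 172))) (XT.nd (nat_lit 78) (nat_lit 152) (nat_lit 0) (XT.lf (nat_lit 0) (nat_lit 7701867326) (nat_lit 304) (nat_lit 3000533128) (nat_lit 76) (nat_lit 17655240525) (nat_lit 20) (nat_lit 5) (nat_lit 24) (nat_lit 5) (nat_lit 21) (nat_lit 5) (nat_lit 293) (nat_lit 256) (nat_lit 171)) (XT.lf (nat_lit 0) (nat_lit 6499169544) (nat_lit 152) (nat_lit 4571672305) (nat_lit 228) (nat_lit 18351800429) (nat_lit 18) (nat_lit 5) (nat_lit 20) (nat_lit 5) (nat_lit 21) (nat_lit 5) (nat_lit 294) (nat_lit 256) (nat_lit 170)))))) (XT.nd (nat_lit 624) (nat_lit 228) (nat_lit 0) (XT.nd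 (nat_lit 312) (nat_lit 152) (nat_lit 0) (XT.nd (nat_lit 156) (nat_lit 152) (nat_lit 0) (XT.nd (nat_lit 78) (nat_lit 0) (nat_lit 0) (XT.lf (nat_lit 0) (nat_lit 14679347862) (nat_lit 228) (nat_lit 14004378444) (nat_lit 76) (nat_lit 1853651264) (nat_lit 18) (nat_lit 5) (nat_lit 21) (nat_lit 5) (nat_lit 19) (nat_lit 5) (nat_lit 295) (nat_lit 256) (nat_lit 169)) (XT.lf (nat_lit 0) (nat_lit 18533993308) (nat_lit 228) (nat_lit 4727698220) (nat_lit 76) (nat_lit 8442908648) (nat_lit 18) (nat_lit 5) (nat_lit 21) (nat_lit 5) (nat_lit 19) (nat_lit 5) (nat_lit 296) (nat_lit 256) (nat_lit 168))) (XT.nd (nat_lit 78) (nat_lit 0) (nat_lit 0) (XT.lf (nat_lit 0) (nat_lit 5165355524) (nat_lit 152) (nat_lit 17487869449) (nat_lit 228) (nat_lit 10273400771) (nat_lit 16) (nat_lit 5) (nat_lit 18) (nat_lit 5) (nat_lit 19) (nat_lit 5) (nat_lit 297) (nat_lit 256) (nat_lit 167)) (XT.lf (nat_lit 0) (nat_lit 15704619033)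 (nat_lit 152) (nat_lit 11345295595) (nat_lit 228) (nat_lit 7156296028) (nat_lit 16) (nat_lit 5) (nat_lit 18) (nat_lit 5) (nat_lit 19) (nat_lit 5) (nat_lit 298) (nat_lit 256) (nat_lit 166)))) (XT.nd (nat_lit 156) (nat_lit 76) (nat_lit 0) (XT.nd (nat_lit 78) (nat_lit 76) (nat_lit 0) (XT.lf (nat_lit 0) (nat_lit 26758866735) (nat_lit 152) (nat_lit 4899410647) (nat_lit 228) (nat_lit 3891936818) (nat_lit 16) (nat_lit 5) (nat_lit 18) (nat_lit 5) (nat_lit 19) (nat_lit 5) (nat_lit 299) (nat_lit 256) (nat_lit 165)) (XT.lf (nat_lit 0) (nat_lit 1408544140) (nat_lit 76) (nat_lit 35131852659) (nat_lit 152) (nat_lit 418884024) (nat_lit 15) (nat_lit 5) (nat_lit 16) (nat_lit 5) (nat_lit 17) (nat_lit 4) (nat_lit 300) (nat_lit 256) (nat_lit 164))) (XT.nd (nat_lit 78) (nat_lit 0) (nat_lit 0) (XT.lf (nat_lit 0) (nat_lit 3348365465) (nat_lit 152) (nat_lit 26152729770) (nat_lit 76) (nat_lit 8924020106)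 (nat_lit 14) (nat_lit 5) (nat_lit 16) (nat_lit 5) (nat_lit 15) (nat_lit 5) (nat_lit 301) (nat_lit 256) (nat_lit 163)) (XT.lf (nat_lit 0) (nat_lit 7282480958) (nat_lit 152) (nat_lit 16302989504) (nat_lit 76) (nat_lit 16378824501) (nat_lit 14) (nat_lit 5) (nat_lit 16) (nat_lit 5) (nat_lit 15) (nat_lit 5) (nat_lit 302) (nat_lit 256) (nat_lit 162))))) (XT.nd (nat_lit 312) (nat_lit 76) (nat_lit 0) (XT.nd (nat_lit 156) (nat_lit 0) (nat_lit 0) (XT.nd (nat_lit 78) (nat_lit 152) (nat_lit 0) (XT.lf (nat_lit 0) (nat_lit 11406236301) (nat_lit 152) (nat_lit 5971524168) (nat_lit 76) (nat_lit 24203050932) (nat_lit 14) (nat_lit 5) (nat_lit 16) (nat_lit 5) (nat_lit 15) (nat_lit 5) (nat_lit 303) (nat_lit 256) (nat_lit 161)) (XT.lf (nat_lit 0) (nat_lit 5027165659) (nat_lit 152) (nat_lit 10780772445) (nat_lit 228) (nat_lit 27466650994) (nat_lit 12) (nat_lit 5) (nat_lit 14) (nat_lit 5) (nat_lit 15) (nat_lit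 5) (nat_lit 304) (nat_lit 256) (nat_lit 160))) (XT.nd (nat_lit 78) (nat_lit 0) (nat_lit 0) (XT.lf (nat_lit 0) (nat_lit 16773023657) (nat_lit 152) (nat_lit 3751265548) (nat_lit 228) (nat_lit 24524060522) (nat_lit 12) (nat_lit 5) (nat_lit 14) (nat_lit 5) (nat_lit 15) (nat_lit 5) (nat_lit 305) (nat_lit 256) (nat_lit 159)) (XT.lf (nat_lit 0) (nat_lit 25526821850) (nat_lit 228) (nat_lit 17871179421) (nat_lit 76) (nat_lit 3510300115) (nat_lit 12) (nat_lit 5) (nat_lit 15) (nat_lit 5) (nat_lit 13) (nat_lit 4) (nat_lit 306) (nat_lit 256) (nat_lit 158)))) (XT.nd (nat_lit 156) (nat_lit 0) (nat_lit 0) (XT.nd (nat_lit 78) (nat_lit 76) (nat_lit 0) (XT.lf (nat_lit 0) (nat_lit 30834971509) (nat_lit 228) (nat_lit 7017736394) (nat_lit 76) (nat_lit 11005788394) (nat_lit 12) (nat_lit 5) (nat_lit 15) (nat_lit 5) (nat_lit 13) (nat_lit 4) (nat_lit 307) (nat_lit 256) (nat_lit 157)) (XT.lf (nat_lit 0) (nat_lit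 4513884813) (nat_lit 76) (nat_lit 31959398446) (nat_lit 152) (nat_lit 14429699191) (nat_lit 11) (nat_lit 5) (nat_lit 12) (nat_lit 5) (nat_lit 13) (nat_lit 4) (nat_lit 308) (nat_lit 256) (nat_lit 156))) (XT.nd (nat_lit 78) (nat_lit 0) (nat_lit 0) (XT.lf (nat_lit 0) (nat_lit 16856905188) (nat_lit 76) (nat_lit 25649869023) (nat_lit 152) (nat_lit 10537273830) (nat_lit 11) (nat_lit 5) (nat_lit 12) (nat_lit 5) (nat_lit 13) (nat_lit 4) (nat_lit 309) (nat_lit 256) (nat_lit 155)) (XT.nd (nat_lit 78) (nat_lit 0) (nat_lit 0) (XT.lf (nat_lit 0) (nat_lit 29808674817) (nat_lit 76) (nat_lit 19027945707) (nat_lit 152) (nat_lit 6455829788) (nat_lit 11) (nat_lit 5) (nat_lit 12) (nat_lit 5) (nat_lit 13) (nat_lit 4) (nat_lit 310) (nat_lit 256) (nat_lit 154)) (XT.lf (nat_lit 0) (nat_lit 43400031245) (nat_lit 76) (nat_lit 12077862013) (nat_lit 152) (nat_lit 2175649341) (nat_lit 11) (nat_lit 5) (nat_lit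 12) (nat_lit 5) (nat_lit 13) (nat_lit 4) (nat_lit 311) (nat_lit 256) (nat_lit 153))))))))
noncomputable def xc139 : XT := (XT.nd (nat_lit 2496) (nat_lit 76) (nat_lit 0) (XT.nd (nat_lit 1248) (nat_lit 152) (nat_lit 0) (XT.nd (nat_lit 624) (nat_lit 76) (nat_lit 0) (XT.nd (nat_lit 312) (nat_lit 76) (nat_lit 0) (XT.nd (nat_lit 156) (nat_lit 0) (nat_lit 0) (XT.nd (nat_lit 78) (nat_lit 152) (nat_lit 0) (XT.lf (nat_lit 0) (nat_lit 2239413299) (nat_lit 152) (nat_lit 2505731276) (nat_lit 76) (nat_lit 55385995997) (nat_lit 10) (nat_lit 5) (nat_lit 12) (nat_lit 5) (nat_lit 11) (nat_lit 5) (nat_lit 312) (nat_lit 256) (nat_lit 152)) (XT.lf (nat_lit 0) (nat_lit 7004525399) (nat_lit 228) (nat_lit 52662519318) (nat_lit 76) (nat_lit 3053684137) (nat_lit 8) (nat_lit 5) (nat_lit 11) (nat_lit 5) (nat_lit 9) (nat_lit 4) (nat_lit 313) (nat_lit 256) (nat_lit 151))) (XT.nd (nat_lit 78) (nat_lit 0) (nat_lit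 0) (XT.lf (nat_lit 0) (nat_lit 12124195331) (nat_lit 228) (nat_lit 42186325992) (nat_lit 76) (nat_lit 11123473778) (nat_lit 8) (nat_lit 5) (nat_lit 11) (nat_lit 5) (nat_lit 9) (nat_lit 4) (nat_lit 314) (nat_lit 256) (nat_lit 150)) (XT.lf (nat_lit 0) (nat_lit 17495450219) (nat_lit 228) (nat_lit 31193472553) (nat_lit 76) (nat_lit 19594234830) (nat_lit 8) (nat_lit 5) (nat_lit 11) (nat_lit 5) (nat_lit 9) (nat_lit 4) (nat_lit 315) (nat_lit 256) (nat_lit 149)))) (XT.nd (nat_lit 156) (nat_lit 76) (nat_lit 0) (XT.nd (nat_lit 78) (nat_lit 0) (nat_lit 0) (XT.lf (nat_lit 0) (nat_lit 23131078765) (nat_lit 228) (nat_lit 19657785540) (nat_lit 76) (nat_lit 28486135772) (nat_lit 8) (nat_lit 5) (nat_lit 11) (nat_lit 5) (nat_lit 9) (nat_lit 4) (nat_lit 316) (nat_lit 256) (nat_lit 148)) (XT.lf (nat_lit 0) (nat_lit 29044499132) (nat_lit 228) (nat_lit 7551799031) (nat_lit 76) (nat_lit 37820347796) (nat_lit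 8) (nat_lit 5) (nat_lit 11) (nat_lit 5) (nat_lit 9) (nat_lit 4) (nat_lit 317) (nat_lit 256) (nat_lit 147))) (XT.nd (nat_lit 78) (nat_lit 0) (nat_lit 0) (XT.lf (nat_lit 0) (nat_lit 5323702477) (nat_lit 76) (nat_lit 30009206331) (nat_lit 152) (nat_lit 42378510654) (nat_lit 7) (nat_lit 5) (nat_lit 8) (nat_lit 5) (nat_lit 9) (nat_lit 4) (nat_lit 318) (nat_lit 256) (nat_lit 146)) (XT.lf (nat_lit 0) (nat_lit 19099084032) (nat_lit 76) (nat_lit 22960834746) (nat_lit 152) (nat_lit 39104814578) (nat_lit 7) (nat_lit 5) (nat_lit 8) (nat_lit 5) (nat_lit 9) (nat_lit 4) (nat_lit 319) (nat_lit 256) (nat_lit 145))))) (XT.nd (nat_lit 312) (nat_lit 76) (nat_lit 0) (XT.nd (nat_lit 156) (nat_lit 0) (nat_lit 0) (XT.nd (nat_lit 78) (nat_lit 0) (nat_lit 0) (XT.lf (nat_lit 0) (nat_lit 33557447581) (nat_lit 76) (nat_lit 15562294941) (nat_lit 152) (nat_lit 35671157456) (nat_lit 7) (nat_lit 5) (nat_lit 8) (nat_lit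 5) (nat_lit 9) (nat_lit 4) (nat_lit 320) (nat_lit 256) (nat_lit 144)) (XT.lf (nat_lit 0) (nat_lit 48733217798) (nat_lit 76) (nat_lit 7795971347) (nat_lit 152) (nat_lit 32069363912) (nat_lit 7) (nat_lit 5) (nat_lit 8) (nat_lit 5) (nat_lit 9) (nat_lit 4) (nat_lit 321) (nat_lit 256) (nat_lit 143))) (XT.nd (nat_lit 78) (nat_lit 0) (nat_lit 0) (XT.lf (nat_lit 0) (nat_lit 64311468136) (nat_lit 152) (nat_lit 27939798917) (nat_lit 0) (nat_lit 345212983) (nat_lit 7) (nat_lit 5) (nat_lit 9) (nat_lit 4) (nat_lit 7) (nat_lit 4) (nat_lit 322) (nat_lit 256) (nat_lit 142)) (XT.lf (nat_lit 0) (nat_lit 72607578380) (nat_lit 152) (nat_lit 15550918882) (nat_lit 0) (nat_lit 8629579045) (nat_lit 7) (nat_lit 5) (nat_lit 9) (nat_lit 4) (nat_lit 7) (nat_lit 4) (nat_lit 323) (nat_lit 256) (nat_lit 141)))) (XT.nd (nat_lit 156) (nat_lit 0) (nat_lit 0) (XT.nd (nat_lit 78) (nat_lit 76) (nat_lit 0) (XT.lf (nat_lit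 0) (nat_lit 81315555560) (nat_lit 152) (nat_lit 2547480862) (nat_lit 0) (nat_lit 17326371289) (nat_lit 7) (nat_lit 5) (nat_lit 9) (nat_lit 4) (nat_lit 7) (nat_lit 4) (nat_lit 324) (nat_lit 256) (nat_lit 140)) (XT.lf (nat_lit 0) (nat_lit 11468540633) (nat_lit 76) (nat_lit 79166648379) (nat_lit 76) (nat_lit 15166811790) (nat_lit 6) (nat_lit 4) (nat_lit 7) (nat_lit 5) (nat_lit 7) (nat_lit 4) (nat_lit 325) (nat_lit 256) (nat_lit 139))) (XT.nd (nat_lit 78) (nat_lit 0) (nat_lit 0) (XT.lf (nat_lit 0) (nat_lit 26269227692) (nat_lit 76) (nat_lit 74191982411) (nat_lit 76) (nat_lit 10182000755) (nat_lit 6) (nat_lit 4) (nat_lit 7) (nat_lit 5) (nat_lit 7) (nat_lit 4) (nat_lit 326) (nat_lit 256) (nat_lit 138)) (XT.lf (nat_lit 0) (nat_lit 41805588824) (nat_lit 76) (nat_lit 68970336895) (nat_lit 76) (nat_lit 4950693272) (nat_lit 6) (nat_lit 4) (nat_lit 7) (nat_lit 5) (nat_lit 7) (nat_lit 4) (nat_lit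 327) (nat_lit 256) (nat_lit 137)))))) (XT.nd (nat_lit 624) (nat_lit 0) (nat_lit 0) (XT.nd (nat_lit 312) (nat_lit 76) (nat_lit 0) (XT.nd (nat_lit 156) (nat_lit 0) (nat_lit 0) (XT.nd (nat_lit 78) (nat_lit 0) (nat_lit 0) (XT.lf (nat_lit 0) (nat_lit 522296668) (nat_lit 152) (nat_lit 62958137327) (nat_lit 76) (nat_lit 57583473350) (nat_lit 5) (nat_lit 5) (nat_lit 7) (nat_lit 5) (nat_lit 6) (nat_lit 4) (nat_lit 328) (nat_lit 256) (nat_lit 136)) (XT.lf (nat_lit 0) (nat_lit 6100151029) (nat_lit 152) (nat_lit 51532299577) (nat_lit 76) (nat_lit 69031678291) (nat_lit 5) (nat_lit 5) (nat_lit 7) (nat_lit 5) (nat_lit 6) (nat_lit 4) (nat_lit 329) (nat_lit 256) (nat_lit 135))) (XT.nd (nat_lit 78) (nat_lit 0) (nat_lit 0) (XT.lf (nat_lit 0) (nat_lit 11954603518) (nat_lit 152) (nat_lit 39539018345) (nat_lit 76) (nat_lit 81050860355) (nat_lit 5) (nat_lit 5) (nat_lit 7) (nat_lit 5) (nat_lit 6) (nat_lit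 4) (nat_lit 330) (nat_lit 256) (nat_lit 134)) (XT.lf (nat_lit 0) (nat_lit 18099593309) (nat_lit 152) (nat_lit 26949738199) (nat_lit 76) (nat_lit 93669636641) (nat_lit 5) (nat_lit 5) (nat_lit 7) (nat_lit 5) (nat_lit 6) (nat_lit 4) (nat_lit 331) (nat_lit 256) (nat_lit 133)))) (XT.nd (nat_lit 156) (nat_lit 0) (nat_lit 0) (XT.nd (nat_lit 78) (nat_lit 76) (nat_lit 0) (XT.lf (nat_lit 0) (nat_lit 24549751329) (nat_lit 152) (nat_lit 13734484662) (nat_lit 76) (nat_lit 106918051855) (nat_lit 5) (nat_lit 5) (nat_lit 7) (nat_lit 5) (nat_lit 6) (nat_lit 4) (nat_lit 332) (nat_lit 256) (nat_lit 132)) (XT.lf (nat_lit 0) (nat_lit 142776905) (nat_lit 76) (nat_lit 31179887339) (nat_lit 152) (nat_lit 120687102085) (nat_lit 4) (nat_lit 5) (nat_lit 5) (nat_lit 5) (nat_lit 6) (nat_lit 4) (nat_lit 333) (nat_lit 256) (nat_lit 131))) (XT.nd (nat_lit 78) (nat_lit 0) (nat_lit 0) (XT.lf (nat_lit 0) (nat_lit 15187461069)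 (nat_lit 76) (nat_lit 23477423050) (nat_lit 152) (nat_lit 120481206456) (nat_lit 4) (nat_lit 5) (nat_lit 5) (nat_lit 5) (nat_lit 6) (nat_lit 4) (nat_lit 334) (nat_lit 256) (nat_lit 130)) (XT.lf (nat_lit 0) (nat_lit 30981264414) (nat_lit 76) (nat_lit 15391104069) (nat_lit 152) (nat_lit 120266959547) (nat_lit 4) (nat_lit 5) (nat_lit 5) (nat_lit 5) (nat_lit 6) (nat_lit 4) (nat_lit 335) (nat_lit 256) (nat_lit 129))))) (XT.nd (nat_lit 312) (nat_lit 0) (nat_lit 0) (XT.nd (nat_lit 156) (nat_lit 0) (nat_lit 0) (XT.nd (nat_lit 78) (nat_lit 0) (nat_lit 0) (XT.lf (nat_lit 0) (nat_lit 47561791234) (nat_lit 76) (nat_lit 6901677254) (nat_lit 152) (nat_lit 120043851247) (nat_lit 4) (nat_lit 5) (nat_lit 5) (nat_lit 5) (nat_lit 6) (nat_lit 4) (nat_lit 336) (nat_lit 256) (nat_lit 128)) (XT.lf (nat_lit 0) (nat_lit 62988847103) (nat_lit 152) (nat_lit 117831678473) (nat_lit 0) (nat_lit 1946703505) (nat_lit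 4) (nat_lit 5) (nat_lit 6) (nat_lit 4) (nat_lit 4) (nat_lit 4) (nat_lit 337) (nat_lit 256) (nat_lit 127))) (XT.nd (nat_lit 78) (nat_lit 0) (nat_lit 0) (XT.lf (nat_lit 0) (nat_lit 72052024709) (nat_lit 152) (nat_lit 108378035752) (nat_lit 0) (nat_lit 11004500966) (nat_lit 4) (nat_lit 5) (nat_lit 6) (nat_lit 4) (nat_lit 4) (nat_lit 4) (nat_lit 338) (nat_lit 256) (nat_lit 126)) (XT.lf (nat_lit 0) (nat_lit 81566825778) (nat_lit 152) (nat_lit 98454337139) (nat_lit 0) (nat_lit 20514178087) (nat_lit 4) (nat_lit 5) (nat_lit 6) (nat_lit 4) (nat_lit 4) (nat_lit 4) (nat_lit 339) (nat_lit 256) (nat_lit 125)))) (XT.nd (nat_lit 156) (nat_lit 0) (nat_lit 0) (XT.nd (nat_lit 78) (nat_lit 0) (nat_lit 0) (XT.lf (nat_lit 0) (nat_lit 91555904597) (nat_lit 152) (nat_lit 88036954783) (nat_lit 0) (nat_lit 30498376956) (nat_lit 4) (nat_lit 5) (nat_lit 6) (nat_lit 4) (nat_lit 4) (nat_lit 4) (nat_lit 340) (nat_lit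 256) (nat_lit 124)) (XT.lf (nat_lit 0) (nat_lit 102043044687) (nat_lit 152) (nat_lit 77101085391) (nat_lit 0) (nat_lit 40980869474) (nat_lit 4) (nat_lit 5) (nat_lit 6) (nat_lit 4) (nat_lit 4) (nat_lit 4) (nat_lit 341) (nat_lit 256) (nat_lit 123))) (XT.nd (nat_lit 78) (nat_lit 0) (nat_lit 0) (XT.lf (nat_lit 0) (nat_lit 113053215430) (nat_lit 152) (nat_lit 65620691178) (nat_lit 0) (nat_lit 51986613958) (nat_lit 4) (nat_lit 5) (nat_lit 6) (nat_lit 4) (nat_lit 4) (nat_lit 4) (nat_lit 342) (nat_lit 256) (nat_lit 122)) (XT.lf (nat_lit 0) (nat_lit 124612631518) (nat_lit 152) (nat_lit 53568437874) (nat_lit 0) (nat_lit 63541814562) (nat_lit 4) (nat_lit 5) (nat_lit 6) (nat_lit 4) (nat_lit 4) (nat_lit 4) (nat_lit 343) (nat_lit 256) (nat_lit 121))))))) (XT.nd (nat_lit 31278) (nat_lit 0) (nat_lit 2508) (XT.nd (nat_lit 702) (nat_lit 0) (nat_lit 0) (XT.nd (nat_lit 312) (nat_lit 0) (nat_lit 0) (XT.nd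 (nat_lit 156) (nat_lit 76) (nat_lit 0) (XT.nd (nat_lit 78) (nat_lit 0) (nat_lit 0) (XT.lf (nat_lit 0) (nat_lit 136748815370) (nat_lit 152) (nat_lit 40915629636) (nat_lit 0) (nat_lit 75673983667) (nat_lit 4) (nat_lit 5) (nat_lit 6) (nat_lit 4) (nat_lit 4) (nat_lit 4) (nat_lit 344) (nat_lit 256) (nat_lit 120)) (XT.lf (nat_lit 0) (nat_lit 149490662662) (nat_lit 152) (nat_lit 27632140732) (nat_lit 0) (nat_lit 88412007390) (nat_lit 4) (nat_lit 5) (nat_lit 6) (nat_lit 4) (nat_lit 4) (nat_lit 4) (nat_lit 345) (nat_lit 256) (nat_lit 119))) (XT.nd (nat_lit 78) (nat_lit 76) (nat_lit 0) (XT.lf (nat_lit 0) (nat_lit 162868511125) (nat_lit 152) (nat_lit 13686343806) (nat_lit 0) (nat_lit 101786214359) (nat_lit 4) (nat_lit 5) (nat_lit 6) (nat_lit 4) (nat_lit 4) (nat_lit 4) (nat_lit 346) (nat_lit 256) (nat_lit 118)) (XT.lf (nat_lit 0) (nat_lit 986540889) (nat_lit 76) (nat_lit 175943074559) (nat_lit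 76) (nat_lit 114857309704) (nat_lit 3) (nat_lit 4) (nat_lit 4) (nat_lit 5) (nat_lit 4) (nat_lit 4) (nat_lit 347) (nat_lit 256) (nat_lit 117)))) (XT.nd (nat_lit 156) (nat_lit 0) (nat_lit 0) (XT.nd (nat_lit 78) (nat_lit 0) (nat_lit 0) (XT.lf (nat_lit 0) (nat_lit 16866479895) (nat_lit 76) (nat_lit 175058062898) (nat_lit 76) (nat_lit 113968995100) (nat_lit 3) (nat_lit 4) (nat_lit 4) (nat_lit 5) (nat_lit 4) (nat_lit 4) (nat_lit 348) (nat_lit 256) (nat_lit 116)) (XT.lf (nat_lit 0) (nat_lit 33538750256) (nat_lit 76) (nat_lit 174129497632) (nat_lit 76) (nat_lit 113037284174) (nat_lit 3) (nat_lit 4) (nat_lit 4) (nat_lit 5) (nat_lit 4) (nat_lit 4) (nat_lit 349) (nat_lit 256) (nat_lit 115))) (XT.nd (nat_lit 156) (nat_lit 0) (nat_lit 0) (XT.lf (nat_lit 0) (nat_lit 51043047852) (nat_lit 76) (nat_lit 173155167891) (nat_lit 76) (nat_lit 112059958567) (nat_lit 3) (nat_lit 4) (nat_lit 4) (nat_lit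 5) (nat_lit 4) (nat_lit 4) (nat_lit 350) (nat_lit 256) (nat_lit 114)) (XT.lf (nat_lit 0) (nat_lit 88716512596) (nat_lit 76) (nat_lit 171059821169) (nat_lit 76) (nat_lit 109959041300) (nat_lit 3) (nat_lit 4) (nat_lit 4) (nat_lit 5) (nat_lit 4) (nat_lit 4) (nat_lit 352) (nat_lit 256) (nat_lit 112))))) (XT.nd (nat_lit 30264) (nat_lit 0) (nat_lit 4256) (XT.nd (nat_lit 30108) (nat_lit 0) (nat_lit 4256) (XT.nd (nat_lit 30030) (nat_lit 0) (nat_lit 4864) (XT.lf (nat_lit 0) (nat_lit 108975378469) (nat_lit 76) (nat_lit 169933815266) (nat_lit 76) (nat_lit 108830447456) (nat_lit 3) (nat_lit 4) (nat_lit 4) (nat_lit 5) (nat_lit 4) (nat_lit 4) (nat_lit 353) (nat_lit 256) (nat_lit 111)) (XT.lf (nat_lit 0) (nat_lit 2322321735) (nat_lit 0) (nat_lit 2322321735) (nat_lit 532) (nat_lit 329403408) (nat_lit 67) (nat_lit 5) (nat_lit 67) (nat_lit 3) (nat_lit 74) (nat_lit 3) (nat_lit 257) (nat_lit 257) (nat_lit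 206))) (XT.nd (nat_lit 78) (nat_lit 608) (nat_lit 0) (XT.lf (nat_lit 0) (nat_lit 8741414289) (nat_lit 0) (nat_lit 1382559087) (nat_lit 532) (nat_lit 38712695) (nat_lit 67) (nat_lit 5) (nat_lit 67) (nat_lit 3) (nat_lit 74) (nat_lit 3) (nat_lit 258) (nat_lit 257) (nat_lit 205)) (XT.lf (nat_lit 0) (nat_lit 628707249) (nat_lit 608) (nat_lit 7709254137) (nat_lit 684) (nat_lit 2048015579) (nat_lit 59) (nat_lit 5) (nat_lit 67) (nat_lit 5) (nat_lit 68) (nat_lit 5) (nat_lit 259) (nat_lit 257) (nat_lit 204)))) (XT.nd (nat_lit 156) (nat_lit 0) (nat_lit 76) (XT.nd (nat_lit 78) (nat_lit 0) (nat_lit 0) (XT.lf (nat_lit 0) (nat_lit 1337712589) (nat_lit 608) (nat_lit 3636853453) (nat_lit 684) (nat_lit 5645590369) (nat_lit 59) (nat_lit 5) (nat_lit 67) (nat_lit 5) (nat_lit 68) (nat_lit 5) (nat_lit 260) (nat_lit 257) (nat_lit 203)) (XT.lf (nat_lit 76) (nat_lit 637779292) (nat_lit 0) (nat_lit 1418523551)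 (nat_lit 684) (nat_lit 8811255737) (nat_lit 60) (nat_lit 5) (nat_lit 59) (nat_lit 5) (nat_lit 68) (nat_lit 5) (nat_lit 261) (nat_lit 257) (nat_lit 202))) (XT.nd (nat_lit 78) (nat_lit 0) (nat_lit 0) (XT.lf (nat_lit 0) (nat_lit 2875323937) (nat_lit 608) (nat_lit 5932587458) (nat_lit 684) (nat_lit 2316404382) (nat_lit 60) (nat_lit 5) (nat_lit 68) (nat_lit 5) (nat_lit 69) (nat_lit 5) (nat_lit 262) (nat_lit 257) (nat_lit 201)) (XT.lf (nat_lit 0) (nat_lit 3725932570) (nat_lit 608) (nat_lit 1466252286) (nat_lit 684) (nat_lit 6202394140) (nat_lit 60) (nat_lit 5) (nat_lit 68) (nat_lit 5) (nat_lit 69) (nat_lit 5) (nat_lit 263) (nat_lit 257) (nat_lit 200)))))) (XT.nd (nat_lit 624) (nat_lit 912) (nat_lit 0) (XT.nd (nat_lit 312) (nat_lit 912) (nat_lit 0) (XT.nd (nat_lit 156) (nat_lit 0) (nat_lit 76) (XT.nd (nat_lit 78) (nat_lit 0) (nat_lit 76) (XT.lf (nat_lit 76) (nat_lit 3307880315) (nat_lit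 0) (nat_lit 1331771840) (nat_lit 684) (nat_lit 7037864657) (nat_lit 61) (nat_lit 5) (nat_lit 60) (nat_lit 5) (nat_lit 69) (nat_lit 5) (nat_lit 264) (nat_lit 257) (nat_lit 199)) (XT.lf (nat_lit 0) (nat_lit 5637013603) (nat_lit 608) (nat_lit 3667497924) (nat_lit 684) (nat_lit 2668373590) (nat_lit 61) (nat_lit 5) (nat_lit 69) (nat_lit 5) (nat_lit 70) (nat_lit 5) (nat_lit 265) (nat_lit 257) (nat_lit 198))) (XT.nd (nat_lit 78) (nat_lit 0) (nat_lit 0) (XT.lf (nat_lit 76) (nat_lit 1266683060) (nat_lit 0) (nat_lit 5430811096) (nat_lit 684) (nat_lit 5585037886) (nat_lit 62) (nat_lit 5) (nat_lit 61) (nat_lit 5) (nat_lit 70) (nat_lit 5) (nat_lit 266) (nat_lit 257) (nat_lit 197)) (XT.lf (nat_lit 76) (nat_lit 6553477572) (nat_lit 0) (nat_lit 1292290151) (nat_lit 684) (nat_lit 4760319668) (nat_lit 62) (nat_lit 5) (nat_lit 61) (nat_lit 5) (nat_lit 70) (nat_lit 5) (nat_lit 267) (nat_lit 257) (nat_lit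 196)))) (XT.nd (nat_lit 156) (nat_lit 456) (nat_lit 0) (XT.nd (nat_lit 78) (nat_lit 608) (nat_lit 0) (XT.lf (nat_lit 0) (nat_lit 9073171446) (nat_lit 608) (nat_lit 910826371) (nat_lit 76) (nat_lit 2960893562) (nat_lit 62) (nat_lit 5) (nat_lit 70) (nat_lit 5) (nat_lit 63) (nat_lit 5) (nat_lit 268) (nat_lit 257) (nat_lit 195)) (XT.lf (nat_lit 0) (nat_lit 4592960453) (nat_lit 608) (nat_lit 5837162915) (nat_lit 684) (nat_lit 2867252531) (nat_lit 54) (nat_lit 5) (nat_lit 62) (nat_lit 5) (nat_lit 63) (nat_lit 5) (nat_lit 269) (nat_lit 257) (nat_lit 194))) (XT.nd (nat_lit 78) (nat_lit 456) (nat_lit 0) (XT.lf (nat_lit 0) (nat_lit 10382991487) (nat_lit 608) (nat_lit 1463496476) (nat_lit 684) (nat_lit 1821560553) (nat_lit 54) (nat_lit 5) (nat_lit 62) (nat_lit 5) (nat_lit 63) (nat_lit 5) (nat_lit 270) (nat_lit 257) (nat_lit 193)) (XT.lf (nat_lit 0) (nat_lit 2412733566) (nat_lit 456) (nat_lit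 10984781883) (nat_lit 532) (nat_lit 656682441) (nat_lit 48) (nat_lit 5) (nat_lit 54) (nat_lit 5) (nat_lit 55) (nat_lit 5) (nat_lit 271) (nat_lit 257) (nat_lit 192))))) (XT.nd (nat_lit 312) (nat_lit 532) (nat_lit 0) (XT.nd (nat_lit 156) (nat_lit 304) (nat_lit 0) (XT.nd (nat_lit 78) (nat_lit 0) (nat_lit 0) (XT.lf (nat_lit 0) (nat_lit 606447263) (nat_lit 532) (nat_lit 6002591388) (nat_lit 76) (nat_lit 7847389805) (nat_lit 47) (nat_lit 5) (nat_lit 54) (nat_lit 5) (nat_lit 48) (nat_lit 5) (nat_lit 272) (nat_lit 257) (nat_lit 191)) (XT.lf (nat_lit 0) (nat_lit 1889330791) (nat_lit 532) (nat_lit 112953731) (nat_lit 76) (nat_lit 12877131382) (nat_lit 47) (nat_lit 5) (nat_lit 54) (nat_lit 5) (nat_lit 48) (nat_lit 5) (nat_lit 273) (nat_lit 257) (nat_lit 190))) (XT.nd (nat_lit 78) (nat_lit 0) (nat_lit 0) (XT.lf (nat_lit 0) (nat_lit 3359522129) (nat_lit 380) (nat_lit 9113851090) (nat_lit 76) (nat_lit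 2844132685) (nat_lit 43) (nat_lit 5) (nat_lit 48) (nat_lit 5) (nat_lit 44) (nat_lit 5) (nat_lit 274) (nat_lit 257) (nat_lit 189)) (XT.lf (nat_lit 0) (nat_lit 4918350740) (nat_lit 380) (nat_lit 2990469800) (nat_lit 76) (nat_lit 7868029536) (nat_lit 43) (nat_lit 5) (nat_lit 48) (nat_lit 5) (nat_lit 44) (nat_lit 5) (nat_lit 275) (nat_lit 257) (nat_lit 188)))) (XT.nd (nat_lit 156) (nat_lit 228) (nat_lit 0) (XT.nd (nat_lit 78) (nat_lit 0) (nat_lit 0) (XT.lf (nat_lit 0) (nat_lit 3532893659) (nat_lit 304) (nat_lit 3058679859) (nat_lit 380) (nat_lit 9665866307) (nat_lit 39) (nat_lit 5) (nat_lit 43) (nat_lit 5) (nat_lit 44) (nat_lit 5) (nat_lit 276) (nat_lit 257) (nat_lit 187)) (XT.lf (nat_lit 0) (nat_lit 8413564791) (nat_lit 380) (nat_lit 6325804848) (nat_lit 76) (nat_lit 2019530251) (nat_lit 39) (nat_lit 5) (nat_lit 44) (nat_lit 5) (nat_lit 40) (nat_lit 5) (nat_lit 277) (nat_lit 257) (nat_lit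 186))) (XT.nd (nat_lit 78) (nat_lit 0) (nat_lit 0) (XT.lf (nat_lit 0) (nat_lit 334445586) (nat_lit 228) (nat_lit 10030313126) (nat_lit 304) (nat_lit 6918860708) (nat_lit 36) (nat_lit 5) (nat_lit 39) (nat_lit 5) (nat_lit 40) (nat_lit 5) (nat_lit 278) (nat_lit 257) (nat_lit 185)) (XT.lf (nat_lit 0) (nat_lit 7528642489) (nat_lit 228) (nat_lit 4975269805) (nat_lit 304) (nat_lit 5326229887) (nat_lit 36) (nat_lit 5) (nat_lit 39) (nat_lit 5) (nat_lit 40) (nat_lit 5) (nat_lit 279) (nat_lit 257) (nat_lit 184))))))))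
noncomputable def xc140 : XT := (XT.nd (nat_lit 1248) (nat_lit 532) (nat_lit 0) (XT.nd (nat_lit 624) (nat_lit 608) (nat_lit 0) (XT.nd (nat_lit 312) (nat_lit 456) (nat_lit 0) (XT.nd (nat_lit 156) (nat_lit 76) (nat_lit 0) (XT.nd (nat_lit 78) (nat_lit 228) (nat_lit 0) (XT.lf (nat_lit 0) (nat_lit 14739252267) (nat_lit 304) (nat_lit 3345278266) (nat_lit 76) (nat_lit 320082210) (nat_lit 36) (nat_lit 5) (nat_lit 40) (nat_lit 5) (nat_lit 37) (nat_lit 5) (nat_lit 280) (nat_lit 257) (nat_lit 183)) (XT.lf (nat_lit 0) (nat_lit 3987045880) (nat_lit 228) (nat_lit 13227921311) (nat_lit 304) (nat_lit 1786488386) (nat_lit 33) (nat_lit 5) (nat_lit 36) (nat_lit 5) (nat_lit 37) (nat_lit 5) (nat_lit 281) (nat_lit 257) (nat_lit 182))) (XT.nd (nat_lit 78) (nat_lit 0) (nat_lit 0) (XT.lf (nat_lit 0) (nat_lit 222879911) (nat_lit 304) (nat_lit 7845059424) (nat_lit 76) (nat_lit 11558001734) (nat_lit 32) (nat_lit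 5) (nat_lit 36) (nat_lit 5) (nat_lit 33) (nat_lit 5) (nat_lit 282) (nat_lit 257) (nat_lit 181)) (XT.lf (nat_lit 0) (nat_lit 2258329931) (nat_lit 304) (nat_lit 363709727) (nat_lit 76) (nat_lit 17658932657) (nat_lit 32) (nat_lit 5) (nat_lit 36) (nat_lit 5) (nat_lit 33) (nat_lit 5) (nat_lit 283) (nat_lit 257) (nat_lit 180)))) (XT.nd (nat_lit 156) (nat_lit 228) (nat_lit 0) (XT.nd (nat_lit 78) (nat_lit 0) (nat_lit 0) (XT.lf (nat_lit 0) (nat_lit 4552730934) (nat_lit 304) (nat_lit 13291236251) (nat_lit 76) (nat_lit 3116994123) (nat_lit 29) (nat_lit 5) (nat_lit 33) (nat_lit 5) (nat_lit 30) (nat_lit 5) (nat_lit 284) (nat_lit 257) (nat_lit 179)) (XT.lf (nat_lit 0) (nat_lit 6997786296) (nat_lit 304) (nat_lit 5617048646) (nat_lit 76) (nat_lit 9058380104) (nat_lit 29) (nat_lit 5) (nat_lit 33) (nat_lit 5) (nat_lit 30) (nat_lit 5) (nat_lit 285) (nat_lit 257) (nat_lit 178))) (XT.nd (nat_lit 78) (nat_lit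 0) (nat_lit 0) (XT.lf (nat_lit 0) (nat_lit 2505044058) (nat_lit 228) (nat_lit 7086484436) (nat_lit 304) (nat_lit 12828290328) (nat_lit 26) (nat_lit 5) (nat_lit 29) (nat_lit 5) (nat_lit 30) (nat_lit 5) (nat_lit 286) (nat_lit 257) (nat_lit 177)) (XT.lf (nat_lit 0) (nat_lit 11212529072) (nat_lit 228) (nat_lit 1185237640) (nat_lit 304) (nat_lit 10801901874) (nat_lit 26) (nat_lit 5) (nat_lit 29) (nat_lit 5) (nat_lit 30) (nat_lit 5) (nat_lit 287) (nat_lit 257) (nat_lit 176))))) (XT.nd (nat_lit 312) (nat_lit 456) (nat_lit 0) (XT.nd (nat_lit 156) (nat_lit 0) (nat_lit 0) (XT.nd (nat_lit 78) (nat_lit 152) (nat_lit 0) (XT.lf (nat_lit 0) (nat_lit 15410771150) (nat_lit 304) (nat_lit 3756923735) (nat_lit 76) (nat_lit 4847546805) (nat_lit 26) (nat_lit 5) (nat_lit 30) (nat_lit 5) (nat_lit 27) (nat_lit 5) (nat_lit 288) (nat_lit 257) (nat_lit 175)) (XT.lf (nat_lit 0) (nat_lit 5010930579) (nat_lit 152)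 (nat_lit 13649938537) (nat_lit 228) (nat_lit 6206453181) (nat_lit 24) (nat_lit 5) (nat_lit 26) (nat_lit 5) (nat_lit 27) (nat_lit 5) (nat_lit 289) (nat_lit 257) (nat_lit 174))) (XT.nd (nat_lit 78) (nat_lit 0) (nat_lit 0) (XT.lf (nat_lit 0) (nat_lit 14333025399) (nat_lit 152) (nat_lit 7793157073) (nat_lit 228) (nat_lit 3633237524) (nat_lit 24) (nat_lit 5) (nat_lit 26) (nat_lit 5) (nat_lit 27) (nat_lit 5) (nat_lit 290) (nat_lit 257) (nat_lit 173)) (XT.lf (nat_lit 0) (nat_lit 24107335325) (nat_lit 152) (nat_lit 1647031097) (nat_lit 228) (nat_lit 942322185) (nat_lit 24) (nat_lit 5) (nat_lit 26) (nat_lit 5) (nat_lit 27) (nat_lit 5) (nat_lit 291) (nat_lit 257) (nat_lit 172)))) (XT.nd (nat_lit 156) (nat_lit 152) (nat_lit 0) (XT.nd (nat_lit 78) (nat_lit 0) (nat_lit 0) (XT.lf (nat_lit 0) (nat_lit 1997190016) (nat_lit 304) (nat_lit 20885464701) (nat_lit 76) (nat_lit 4788021682) (nat_lit 20)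 (nat_lit 5) (nat_lit 24) (nat_lit 5) (nat_lit 21) (nat_lit 5) (nat_lit 292) (nat_lit 257) (nat_lit 171)) (XT.lf (nat_lit 0) (nat_lit 5113692700) (nat_lit 304) (nat_lit 12029797897) (nat_lit 76) (nat_lit 11546056406) (nat_lit 20) (nat_lit 5) (nat_lit 24) (nat_lit 5) (nat_lit 21) (nat_lit 5) (nat_lit 293) (nat_lit 257) (nat_lit 170))) (XT.nd (nat_lit 78) (nat_lit 152) (nat_lit 0) (XT.lf (nat_lit 0) (nat_lit 8376603119) (nat_lit 304) (nat_lit 2744548746) (nat_lit 76) (nat_lit 18638718210) (nat_lit 20) (nat_lit 5) (nat_lit 24) (nat_lit 5) (nat_lit 21) (nat_lit 5) (nat_lit 294) (nat_lit 257) (nat_lit 169)) (XT.lf (nat_lit 0) (nat_lit 7223590494) (nat_lit 152) (nat_lit 4682880106) (nat_lit 228) (nat_lit 18972084381) (nat_lit 18) (nat_lit 5) (nat_lit 20) (nat_lit 5) (nat_lit 21) (nat_lit 5) (nat_lit 295) (nat_lit 257) (nat_lit 168)))))) (XT.nd (nat_lit 624) (nat_lit 228) (nat_lit 0) (XT.nd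 (nat_lit 312) (nat_lit 152) (nat_lit 0) (XT.nd (nat_lit 156) (nat_lit 152) (nat_lit 0) (XT.nd (nat_lit 78) (nat_lit 0) (nat_lit 0) (XT.lf (nat_lit 0) (nat_lit 15683714517) (nat_lit 228) (nat_lit 14311407540) (nat_lit 76) (nat_lit 2054542451) (nat_lit 18) (nat_lit 5) (nat_lit 21) (nat_lit 5) (nat_lit 19) (nat_lit 5) (nat_lit 296) (nat_lit 257) (nat_lit 167)) (XT.lf (nat_lit 0) (nat_lit 19718216080) (nat_lit 228) (nat_lit 4589616629) (nat_lit 76) (nat_lit 8968109913) (nat_lit 18) (nat_lit 5) (nat_lit 21) (nat_lit 5) (nat_lit 19) (nat_lit 5) (nat_lit 297) (nat_lit 257) (nat_lit 166))) (XT.nd (nat_lit 78) (nat_lit 0) (nat_lit 0) (XT.lf (nat_lit 0) (nat_lit 5792050020) (nat_lit 152) (nat_lit 18244848477) (nat_lit 228) (nat_lit 10522544676) (nat_lit 16) (nat_lit 5) (nat_lit 18) (nat_lit 5) (nat_lit 19) (nat_lit 5) (nat_lit 298) (nat_lit 257) (nat_lit 165)) (XT.lf (nat_lit 0) (nat_lit 16840732574)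 (nat_lit 152) (nat_lit 11800737094) (nat_lit 228) (nat_lit 7262181178) (nat_lit 16) (nat_lit 5) (nat_lit 18) (nat_lit 5) (nat_lit 19) (nat_lit 5) (nat_lit 299) (nat_lit 257) (nat_lit 164)))) (XT.nd (nat_lit 156) (nat_lit 76) (nat_lit 0) (XT.nd (nat_lit 78) (nat_lit 76) (nat_lit 0) (XT.lf (nat_lit 0) (nat_lit 28430983967) (nat_lit 152) (nat_lit 5037882817) (nat_lit 228) (nat_lit 3846600658) (nat_lit 16) (nat_lit 5) (nat_lit 18) (nat_lit 5) (nat_lit 19) (nat_lit 5) (nat_lit 300) (nat_lit 257) (nat_lit 163)) (XT.lf (nat_lit 0) (nat_lit 1818179189) (nat_lit 76) (nat_lit 36772950836) (nat_lit 152) (nat_lit 204097082) (nat_lit 15) (nat_lit 5) (nat_lit 16) (nat_lit 5) (nat_lit 17) (nat_lit 4) (nat_lit 301) (nat_lit 257) (nat_lit 162))) (XT.nd (nat_lit 78) (nat_lit 0) (nat_lit 0) (XT.lf (nat_lit 0) (nat_lit 3733103999) (nat_lit 152) (nat_lit 27129370854) (nat_lit 76) (nat_lit 9472275514)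 (nat_lit 14) (nat_lit 5) (nat_lit 16) (nat_lit 5) (nat_lit 15) (nat_lit 5) (nat_lit 302) (nat_lit 257) (nat_lit 161)) (XT.lf (nat_lit 0) (nat_lit 7853576683) (nat_lit 152) (nat_lit 16802905260) (nat_lit 76) (nat_lit 17294960395) (nat_lit 14) (nat_lit 5) (nat_lit 16) (nat_lit 5) (nat_lit 15) (nat_lit 5) (nat_lit 303) (nat_lit 257) (nat_lit 160))))) (XT.nd (nat_lit 312) (nat_lit 76) (nat_lit 0) (XT.nd (nat_lit 156) (nat_lit 0) (nat_lit 0) (XT.nd (nat_lit 78) (nat_lit 152) (nat_lit 0) (XT.lf (nat_lit 0) (nat_lit 12173663999) (nat_lit 152) (nat_lit 5969877787) (nat_lit 76) (nat_lit 25505769830) (nat_lit 14) (nat_lit 5) (nat_lit 16) (nat_lit 5) (nat_lit 15) (nat_lit 5) (nat_lit 304) (nat_lit 257) (nat_lit 159)) (XT.lf (nat_lit 0) (nat_lit 5573904232) (nat_lit 152) (nat_lit 11216771904) (nat_lit 228) (nat_lit 28637373399) (nat_lit 12) (nat_lit 5) (nat_lit 14) (nat_lit 5) (nat_lit 15) (nat_lit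 5) (nat_lit 305) (nat_lit 257) (nat_lit 158))) (XT.nd (nat_lit 78) (nat_lit 0) (nat_lit 0) (XT.lf (nat_lit 0) (nat_lit 17892989401) (nat_lit 152) (nat_lit 3840696289) (nat_lit 228) (nat_lit 25557301505) (nat_lit 12) (nat_lit 5) (nat_lit 14) (nat_lit 5) (nat_lit 15) (nat_lit 5) (nat_lit 306) (nat_lit 257) (nat_lit 157)) (XT.lf (nat_lit 0) (nat_lit 26979081179) (nat_lit 228) (nat_lit 18488964625) (nat_lit 76) (nat_lit 3776283390) (nat_lit 12) (nat_lit 5) (nat_lit 15) (nat_lit 5) (nat_lit 13) (nat_lit 4) (nat_lit 307) (nat_lit 257) (nat_lit 156)))) (XT.nd (nat_lit 156) (nat_lit 0) (nat_lit 0) (XT.nd (nat_lit 78) (nat_lit 76) (nat_lit 0) (XT.lf (nat_lit 0) (nat_lit 32544261263) (nat_lit 228) (nat_lit 7105981530) (nat_lit 76) (nat_lit 11642238070) (nat_lit 12) (nat_lit 5) (nat_lit 15) (nat_lit 5) (nat_lit 13) (nat_lit 4) (nat_lit 308) (nat_lit 257) (nat_lit 155)) (XT.lf (nat_lit 0) (nat_lit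 4997984581) (nat_lit 76) (nat_lit 33462560303) (nat_lit 152) (nat_lit 14978870444) (nat_lit 11) (nat_lit 5) (nat_lit 12) (nat_lit 5) (nat_lit 13) (nat_lit 4) (nat_lit 309) (nat_lit 257) (nat_lit 154))) (XT.nd (nat_lit 78) (nat_lit 0) (nat_lit 0) (XT.lf (nat_lit 0) (nat_lit 17945850950) (nat_lit 76) (nat_lit 26842069078) (nat_lit 152) (nat_lit 10900029230) (nat_lit 11) (nat_lit 5) (nat_lit 12) (nat_lit 5) (nat_lit 13) (nat_lit 4) (nat_lit 310) (nat_lit 257) (nat_lit 153)) (XT.lf (nat_lit 0) (nat_lit 31533489988) (nat_lit 76) (nat_lit 19893349282) (nat_lit 152) (nat_lit 6622327667) (nat_lit 11) (nat_lit 5) (nat_lit 12) (nat_lit 5) (nat_lit 13) (nat_lit 4) (nat_lit 311) (nat_lit 257) (nat_lit 152)))))))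
noncomputable def xc141 : XT := (XT.nd (nat_lit 1248) (nat_lit 152) (nat_lit 0) (XT.nd (nat_lit 624) (nat_lit 76) (nat_lit 0) (XT.nd (nat_lit 312) (nat_lit 76) (nat_lit 0) (XT.nd (nat_lit 156) (nat_lit 152) (nat_lit 0) (XT.nd (nat_lit 78) (nat_lit 76) (nat_lit 0) (XT.lf (nat_lit 0) (nat_lit 45793253217) (nat_lit 76) (nat_lit 12599856342) (nat_lit 152) (nat_lit 2135580750) (nat_lit 11) (nat_lit 5) (nat_lit 12) (nat_lit 5) (nat_lit 13) (nat_lit 4) (nat_lit 312) (nat_lit 257) (nat_lit 151)) (XT.lf (nat_lit 0) (nat_lit 2488609578) (nat_lit 152) (nat_lit 2413469414) (nat_lit 76) (nat_lit 58228337068) (nat_lit 10) (nat_lit 5) (nat_lit 12) (nat_lit 5) (nat_lit 11) (nat_lit 5) (nat_lit 313) (nat_lit 257) (nat_lit 150))) (XT.nd (nat_lit 78) (nat_lit 0) (nat_lit 0) (XT.lf (nat_lit 0) (nat_lit 7490033617) (nat_lit 228) (nat_lit 55075752944) (nat_lit 76) (nat_lit 3283814390) (nat_lit 8) (nat_lit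 5) (nat_lit 11) (nat_lit 5) (nat_lit 9) (nat_lit 4) (nat_lit 314) (nat_lit 257) (nat_lit 149)) (XT.lf (nat_lit 0) (nat_lit 12859245048) (nat_lit 228) (nat_lit 44086221016) (nat_lit 76) (nat_lit 11753405606) (nat_lit 8) (nat_lit 5) (nat_lit 11) (nat_lit 5) (nat_lit 9) (nat_lit 4) (nat_lit 315) (nat_lit 257) (nat_lit 148)))) (XT.nd (nat_lit 156) (nat_lit 76) (nat_lit 0) (XT.nd (nat_lit 78) (nat_lit 0) (nat_lit 0) (XT.lf (nat_lit 0) (nat_lit 18492927445) (nat_lit 228) (nat_lit 32553697346) (nat_lit 76) (nat_lit 20644192419) (nat_lit 8) (nat_lit 5) (nat_lit 11) (nat_lit 5) (nat_lit 9) (nat_lit 4) (nat_lit 316) (nat_lit 257) (nat_lit 147)) (XT.lf (nat_lit 0) (nat_lit 24404494336) (nat_lit 228) (nat_lit 20450723546) (nat_lit 76) (nat_lit 29977343367) (nat_lit 8) (nat_lit 5) (nat_lit 11) (nat_lit 5) (nat_lit 9) (nat_lit 4) (nat_lit 317) (nat_lit 257) (nat_lit 146))) (XT.nd (nat_lit 78) (nat_lit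 76) (nat_lit 0) (XT.lf (nat_lit 0) (nat_lit 30608020882) (nat_lit 228) (nat_lit 7748483010) (nat_lit 76) (nat_lit 39775080239) (nat_lit 8) (nat_lit 5) (nat_lit 11) (nat_lit 5) (nat_lit 9) (nat_lit 4) (nat_lit 318) (nat_lit 257) (nat_lit 145)) (XT.lf (nat_lit 0) (nat_lit 5767875735) (nat_lit 76) (nat_lit 31440454353) (nat_lit 152) (nat_lit 44382907950) (nat_lit 7) (nat_lit 5) (nat_lit 8) (nat_lit 5) (nat_lit 9) (nat_lit 4) (nat_lit 319) (nat_lit 257) (nat_lit 144))))) (XT.nd (nat_lit 312) (nat_lit 76) (nat_lit 0) (XT.nd (nat_lit 156) (nat_lit 0) (nat_lit 0) (XT.nd (nat_lit 78) (nat_lit 0) (nat_lit 0) (XT.lf (nat_lit 0) (nat_lit 20223550742) (nat_lit 76) (nat_lit 24042960012) (nat_lit 152) (nat_lit 40950980796) (nat_lit 7) (nat_lit 5) (nat_lit 8) (nat_lit 5) (nat_lit 9) (nat_lit 4) (nat_lit 320) (nat_lit 257) (nat_lit 143)) (XT.lf (nat_lit 0) (nat_lit 35396760444) (nat_lit 76) (nat_lit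 16277632097) (nat_lit 152) (nat_lit 37350834842) (nat_lit 7) (nat_lit 5) (nat_lit 8) (nat_lit 5) (nat_lit 9) (nat_lit 4) (nat_lit 321) (nat_lit 257) (nat_lit 142))) (XT.nd (nat_lit 78) (nat_lit 0) (nat_lit 0) (XT.lf (nat_lit 0) (nat_lit 51323631530) (nat_lit 76) (nat_lit 8125981732) (nat_lit 152) (nat_lit 33573898311) (nat_lit 7) (nat_lit 5) (nat_lit 8) (nat_lit 5) (nat_lit 9) (nat_lit 4) (nat_lit 322) (nat_lit 257) (nat_lit 141)) (XT.lf (nat_lit 0) (nat_lit 67617420706) (nat_lit 152) (nat_lit 29186514083) (nat_lit 0) (nat_lit 417592287) (nat_lit 7) (nat_lit 5) (nat_lit 9) (nat_lit 4) (nat_lit 7) (nat_lit 4) (nat_lit 323) (nat_lit 257) (nat_lit 140)))) (XT.nd (nat_lit 156) (nat_lit 76) (nat_lit 0) (XT.nd (nat_lit 78) (nat_lit 0) (nat_lit 0) (XT.lf (nat_lit 0) (nat_lit 76324032693) (nat_lit 152) (nat_lit 16185345989) (nat_lit 0) (nat_lit 9113551954) (nat_lit 7) (nat_lit 5) (nat_lit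 9) (nat_lit 4) (nat_lit 7) (nat_lit 4) (nat_lit 324) (nat_lit 257) (nat_lit 139)) (XT.lf (nat_lit 0) (nat_lit 85463309903) (nat_lit 152) (nat_lit 2538551250) (nat_lit 0) (nat_lit 18242684098) (nat_lit 7) (nat_lit 5) (nat_lit 9) (nat_lit 4) (nat_lit 7) (nat_lit 4) (nat_lit 325) (nat_lit 257) (nat_lit 138))) (XT.nd (nat_lit 78) (nat_lit 0) (nat_lit 0) (XT.lf (nat_lit 0) (nat_lit 12176072873) (nat_lit 76) (nat_lit 83071042267) (nat_lit 76) (nat_lit 15840754495) (nat_lit 6) (nat_lit 4) (nat_lit 7) (nat_lit 5) (nat_lit 7) (nat_lit 4) (nat_lit 326) (nat_lit 257) (nat_lit 137)) (XT.lf (nat_lit 0) (nat_lit 27710408323) (nat_lit 76) (nat_lit 77850211502) (nat_lit 76) (nat_lit 10610721855) (nat_lit 6) (nat_lit 4) (nat_lit 7) (nat_lit 5) (nat_lit 7) (nat_lit 4) (nat_lit 327) (nat_lit 257) (nat_lit 136)))))) (XT.nd (nat_lit 624) (nat_lit 0) (nat_lit 0) (XT.nd (nat_lit 312) (nat_lit 76) (nat_lit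 0) (XT.nd (nat_lit 156) (nat_lit 0) (nat_lit 0) (XT.nd (nat_lit 78) (nat_lit 76) (nat_lit 0) (XT.lf (nat_lit 0) (nat_lit 44017505643) (nat_lit 76) (nat_lit 72369929902) (nat_lit 76) (nat_lit 5121676566) (nat_lit 6) (nat_lit 4) (nat_lit 7) (nat_lit 5) (nat_lit 7) (nat_lit 4) (nat_lit 328) (nat_lit 257) (nat_lit 135)) (XT.lf (nat_lit 0) (nat_lit 618984118) (nat_lit 152) (nat_lit 65987682265) (nat_lit 76) (nat_lit 60506724341) (nat_lit 5) (nat_lit 5) (nat_lit 7) (nat_lit 5) (nat_lit 6) (nat_lit 4) (nat_lit 329) (nat_lit 257) (nat_lit 134))) (XT.nd (nat_lit 78) (nat_lit 0) (nat_lit 0) (XT.lf (nat_lit 0) (nat_lit 6472370596) (nat_lit 152) (nat_lit 53996188909) (nat_lit 76) (nat_lit 72525240609) (nat_lit 5) (nat_lit 5) (nat_lit 7) (nat_lit 5) (nat_lit 6) (nat_lit 4) (nat_lit 330) (nat_lit 257) (nat_lit 133)) (XT.lf (nat_lit 0) (nat_lit 12616345137) (nat_lit 152) (nat_lit 41408611503) (nat_lit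 76) (nat_lit 85143382804) (nat_lit 5) (nat_lit 5) (nat_lit 7) (nat_lit 5) (nat_lit 6) (nat_lit 4) (nat_lit 331) (nat_lit 257) (nat_lit 132)))) (XT.nd (nat_lit 156) (nat_lit 76) (nat_lit 0) (XT.nd (nat_lit 78) (nat_lit 0) (nat_lit 0) (XT.lf (nat_lit 0) (nat_lit 19065536254) (nat_lit 152) (nat_lit 28194979624) (nat_lit 76) (nat_lit 98391194122) (nat_lit 5) (nat_lit 5) (nat_lit 7) (nat_lit 5) (nat_lit 6) (nat_lit 4) (nat_lit 332) (nat_lit 257) (nat_lit 131)) (XT.lf (nat_lit 0) (nat_lit 25835299161) (nat_lit 152) (nat_lit 14323832244) (nat_lit 76) (nat_lit 112300216971) (nat_lit 5) (nat_lit 5) (nat_lit 7) (nat_lit 5) (nat_lit 6) (nat_lit 4) (nat_lit 333) (nat_lit 257) (nat_lit 130))) (XT.nd (nat_lit 78) (nat_lit 0) (nat_lit 0) (XT.lf (nat_lit 0) (nat_lit 245721811) (nat_lit 76) (nat_lit 32699866938) (nat_lit 152) (nat_lit 126661682665) (nat_lit 4) (nat_lit 5) (nat_lit 5) (nat_lit 5) (nat_lit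 6) (nat_lit 4) (nat_lit 334) (nat_lit 257) (nat_lit 129)) (XT.lf (nat_lit 0) (nat_lit 16038077990) (nat_lit 76) (nat_lit 24614137281) (nat_lit 152) (nat_lit 126448338661) (nat_lit 4) (nat_lit 5) (nat_lit 5) (nat_lit 5) (nat_lit 6) (nat_lit 4) (nat_lit 335) (nat_lit 257) (nat_lit 128))))) (XT.nd (nat_lit 312) (nat_lit 0) (nat_lit 0) (XT.nd (nat_lit 156) (nat_lit 0) (nat_lit 0) (XT.nd (nat_lit 78) (nat_lit 0) (nat_lit 0) (XT.lf (nat_lit 0) (nat_lit 32617226556) (nat_lit 76) (nat_lit 16125271728) (nat_lit 152) (nat_lit 126226090269) (nat_lit 4) (nat_lit 5) (nat_lit 5) (nat_lit 5) (nat_lit 6) (nat_lit 4) (nat_lit 336) (nat_lit 257) (nat_lit 127)) (XT.lf (nat_lit 0) (nat_lit 50022641673) (nat_lit 76) (nat_lit 7213058693) (nat_lit 152) (nat_lit 125994408328) (nat_lit 4) (nat_lit 5) (nat_lit 5) (nat_lit 5) (nat_lit 6) (nat_lit 4) (nat_lit 337) (nat_lit 257) (nat_lit 126))) (XT.nd (nat_lit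 78) (nat_lit 0) (nat_lit 0) (XT.lf (nat_lit 0) (nat_lit 66185512928) (nat_lit 152) (nat_lit 123642489335) (nat_lit 0) (nat_lit 2075108905) (nat_lit 4) (nat_lit 5) (nat_lit 6) (nat_lit 4) (nat_lit 4) (nat_lit 4) (nat_lit 338) (nat_lit 257) (nat_lit 125)) (XT.lf (nat_lit 0) (nat_lit 75699600678) (nat_lit 152) (nat_lit 113720010813) (nat_lit 0) (nat_lit 11584316704) (nat_lit 4) (nat_lit 5) (nat_lit 6) (nat_lit 4) (nat_lit 4) (nat_lit 4) (nat_lit 339) (nat_lit 257) (nat_lit 124)))) (XT.nd (nat_lit 156) (nat_lit 0) (nat_lit 0) (XT.nd (nat_lit 78) (nat_lit 0) (nat_lit 0) (XT.lf (nat_lit 0) (nat_lit 85688000146) (nat_lit 152) (nat_lit 103303790448) (nat_lit 0) (nat_lit 21568068601) (nat_lit 4) (nat_lit 5) (nat_lit 6) (nat_lit 4) (nat_lit 4) (nat_lit 4) (nat_lit 340) (nat_lit 257) (nat_lit 123)) (XT.lf (nat_lit 0) (nat_lit 96174493235) (nat_lit 152) (nat_lit 92369027714) (nat_lit 0) (nat_lit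 32050135431) (nat_lit 4) (nat_lit 5) (nat_lit 6) (nat_lit 4) (nat_lit 4) (nat_lit 4) (nat_lit 341) (nat_lit 257) (nat_lit 122))) (XT.nd (nat_lit 78) (nat_lit 0) (nat_lit 0) (XT.lf (nat_lit 0) (nat_lit 107184047787) (nat_lit 152) (nat_lit 80889687462) (nat_lit 0) (nat_lit 43055474498) (nat_lit 4) (nat_lit 5) (nat_lit 6) (nat_lit 4) (nat_lit 4) (nat_lit 4) (nat_lit 342) (nat_lit 257) (nat_lit 121)) (XT.nd (nat_lit 78) (nat_lit 0) (nat_lit 0) (XT.lf (nat_lit 0) (nat_lit 118742877026) (nat_lit 152) (nat_lit 68838437930) (nat_lit 0) (nat_lit 54610288990) (nat_lit 4) (nat_lit 5) (nat_lit 6) (nat_lit 4) (nat_lit 4) (nat_lit 4) (nat_lit 343) (nat_lit 257) (nat_lit 120)) (XT.lf (nat_lit 0) (nat_lit 130878501974) (nat_lit 152) (nat_lit 56186585665) (nat_lit 0) (nat_lit 66742090370) (nat_lit 4) (nat_lit 5) (nat_lit 6) (nat_lit 4) (nat_lit 4) (nat_lit 4) (nat_lit 344) (nat_lit 257) (nat_lit 119))))))))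
noncomputable def xc142 : XT := (XT.nd (nat_lit 32682) (nat_lit 0) (nat_lit 532) (XT.nd (nat_lit 31434) (nat_lit 0) (nat_lit 2280) (XT.nd (nat_lit 30810) (nat_lit 0) (nat_lit 4180) (XT.nd (nat_lit 312) (nat_lit 0) (nat_lit 0) (XT.nd (nat_lit 156) (nat_lit 76) (nat_lit 0) (XT.nd (nat_lit 78) (nat_lit 0) (nat_lit 0) (XT.lf (nat_lit 0) (nat_lit 143619816977) (nat_lit 152) (nat_lit 42904007211) (nat_lit 0) (nat_lit 79479763878) (nat_lit 4) (nat_lit 5) (nat_lit 6) (nat_lit 4) (nat_lit 4) (nat_lit 4) (nat_lit 345) (nat_lit 257) (nat_lit 118)) (XT.lf (nat_lit 0) (nat_lit 156997158498) (nat_lit 152) (nat_lit 28959077381) (nat_lit 0) (nat_lit 92853637310) (nat_lit 4) (nat_lit 5) (nat_lit 6) (nat_lit 4) (nat_lit 4) (nat_lit 4) (nat_lit 346) (nat_lit 257) (nat_lit 117))) (XT.nd (nat_lit 78) (nat_lit 76) (nat_lit 0) (XT.lf (nat_lit 0) (nat_lit 171042377351) (nat_lit 152) (nat_lit 14318593960)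 (nat_lit 0) (nat_lit 106895553221) (nat_lit 4) (nat_lit 5) (nat_lit 6) (nat_lit 4) (nat_lit 4) (nat_lit 4) (nat_lit 347) (nat_lit 257) (nat_lit 116)) (XT.lf (nat_lit 0) (nat_lit 1087095178) (nat_lit 76) (nat_lit 184718791957) (nat_lit 76) (nat_lit 120568822167) (nat_lit 3) (nat_lit 4) (nat_lit 4) (nat_lit 5) (nat_lit 4) (nat_lit 4) (nat_lit 348) (nat_lit 257) (nat_lit 115)))) (XT.nd (nat_lit 234) (nat_lit 0) (nat_lit 0) (XT.nd (nat_lit 78) (nat_lit 0) (nat_lit 0) (XT.lf (nat_lit 0) (nat_lit 17758591743) (nat_lit 76) (nat_lit 183790550490) (nat_lit 76) (nat_lit 119637584834) (nat_lit 3) (nat_lit 4) (nat_lit 4) (nat_lit 5) (nat_lit 4) (nat_lit 4) (nat_lit 349) (nat_lit 257) (nat_lit 114)) (XT.lf (nat_lit 0) (nat_lit 35262152390) (nat_lit 76) (nat_lit 182816529130) (nat_lit 76) (nat_lit 118660710268) (nat_lit 3) (nat_lit 4) (nat_lit 4) (nat_lit 5) (nat_lit 4) (nat_lit 4) (nat_lit 350)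 (nat_lit 257) (nat_lit 113))) (XT.nd (nat_lit 30186) (nat_lit 0) (nat_lit 4180) (XT.lf (nat_lit 0) (nat_lit 72934246844) (nat_lit 76) (nat_lit 180721755813) (nat_lit 76) (nat_lit 116560631671) (nat_lit 3) (nat_lit 4) (nat_lit 4) (nat_lit 5) (nat_lit 4) (nat_lit 4) (nat_lit 352) (nat_lit 257) (nat_lit 111)) (XT.lf (nat_lit 0) (nat_lit 271766338) (nat_lit 684) (nat_lit 2458593120) (nat_lit 684) (nat_lit 2458593120) (nat_lit 58) (nat_lit 3) (nat_lit 67) (nat_lit 3) (nat_lit 67) (nat_lit 5) (nat_lit 258) (nat_lit 258) (nat_lit 204))))) (XT.nd (nat_lit 312) (nat_lit 0) (nat_lit 152) (XT.nd (nat_lit 156) (nat_lit 0) (nat_lit 76) (XT.nd (nat_lit 78) (nat_lit 0) (nat_lit 76) (XT.lf (nat_lit 0) (nat_lit 1116023722) (nat_lit 684) (nat_lit 881570785) (nat_lit 684) (nat_lit 8608368746) (nat_lit 58) (nat_lit 3) (nat_lit 67) (nat_lit 3) (nat_lit 67) (nat_lit 5) (nat_lit 259) (nat_lit 258) (nat_lit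 203)) (XT.lf (nat_lit 0) (nat_lit 1761914461) (nat_lit 608) (nat_lit 7424206449) (nat_lit 684) (nat_lit 1657285073) (nat_lit 59) (nat_lit 5) (nat_lit 67) (nat_lit 5) (nat_lit 68) (nat_lit 5) (nat_lit 260) (nat_lit 258) (nat_lit 202))) (XT.nd (nat_lit 78) (nat_lit 0) (nat_lit 0) (XT.lf (nat_lit 0) (nat_lit 2453904742) (nat_lit 608) (nat_lit 3180114797) (nat_lit 684) (nat_lit 5458221044) (nat_lit 59) (nat_lit 5) (nat_lit 67) (nat_lit 5) (nat_lit 68) (nat_lit 5) (nat_lit 261) (nat_lit 258) (nat_lit 201)) (XT.lf (nat_lit 76) (nat_lit 1297949886) (nat_lit 0) (nat_lit 1870316881) (nat_lit 684) (nat_lit 8186061519) (nat_lit 60) (nat_lit 5) (nat_lit 59) (nat_lit 5) (nat_lit 68) (nat_lit 5) (nat_lit 262) (nat_lit 258) (nat_lit 200)))) (XT.nd (nat_lit 156) (nat_lit 0) (nat_lit 0) (XT.nd (nat_lit 78) (nat_lit 0) (nat_lit 0) (XT.lf (nat_lit 0) (nat_lit 3974520971) (nat_lit 608) (nat_lit 5571277540)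 (nat_lit 684) (nat_lit 2081103625) (nat_lit 60) (nat_lit 5) (nat_lit 68) (nat_lit 5) (nat_lit 69) (nat_lit 5) (nat_lit 263) (nat_lit 258) (nat_lit 199)) (XT.lf (nat_lit 0) (nat_lit 4822163329) (nat_lit 608) (nat_lit 912956051) (nat_lit 684) (nat_lit 6178112917) (nat_lit 60) (nat_lit 5) (nat_lit 68) (nat_lit 5) (nat_lit 69) (nat_lit 5) (nat_lit 264) (nat_lit 258) (nat_lit 198))) (XT.nd (nat_lit 78) (nat_lit 0) (nat_lit 76) (XT.lf (nat_lit 76) (nat_lit 4089776585) (nat_lit 0) (nat_lit 1658087439) (nat_lit 684) (nat_lit 6464403887) (nat_lit 61) (nat_lit 5) (nat_lit 60) (nat_lit 5) (nat_lit 69) (nat_lit 5) (nat_lit 265) (nat_lit 258) (nat_lit 197)) (XT.lf (nat_lit 0) (nat_lit 6749506374) (nat_lit 608) (nat_lit 3213080380) (nat_lit 684) (nat_lit 2562350249) (nat_lit 61) (nat_lit 5) (nat_lit 69) (nat_lit 5) (nat_lit 70) (nat_lit 5) (nat_lit 266) (nat_lit 258) (nat_lit 196)))))) (XT.nd (nat_lit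 624) (nat_lit 760) (nat_lit 0) (XT.nd (nat_lit 312) (nat_lit 836) (nat_lit 0) (XT.nd (nat_lit 156) (nat_lit 532) (nat_lit 0) (XT.nd (nat_lit 78) (nat_lit 0) (nat_lit 0) (XT.lf (nat_lit 76) (nat_lit 1957522678) (nat_lit 0) (nat_lit 5875731011) (nat_lit 684) (nat_lit 5018541415) (nat_lit 62) (nat_lit 5) (nat_lit 61) (nat_lit 5) (nat_lit 70) (nat_lit 5) (nat_lit 267) (nat_lit 258) (nat_lit 195)) (XT.lf (nat_lit 76) (nat_lit 7478775703) (nat_lit 0) (nat_lit 1522027859) (nat_lit 684) (nat_lit 4192861018) (nat_lit 62) (nat_lit 5) (nat_lit 61) (nat_lit 5) (nat_lit 70) (nat_lit 5) (nat_lit 268) (nat_lit 258) (nat_lit 194))) (XT.nd (nat_lit 78) (nat_lit 608) (nat_lit 0) (XT.lf (nat_lit 0) (nat_lit 10250800891) (nat_lit 608) (nat_lit 344053909) (nat_lit 76) (nat_lit 2956711358) (nat_lit 62) (nat_lit 5) (nat_lit 70) (nat_lit 5) (nat_lit 63) (nat_lit 5) (nat_lit 269) (nat_lit 258) (nat_lit 193))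 (XT.lf (nat_lit 0) (nat_lit 5425046228) (nat_lit 608) (nat_lit 6225485119) (nat_lit 684) (nat_lit 2272605164) (nat_lit 54) (nat_lit 5) (nat_lit 62) (nat_lit 5) (nat_lit 63) (nat_lit 5) (nat_lit 270) (nat_lit 258) (nat_lit 192)))) (XT.nd (nat_lit 156) (nat_lit 380) (nat_lit 0) (XT.nd (nat_lit 78) (nat_lit 456) (nat_lit 0) (XT.lf (nat_lit 0) (nat_lit 11475891301) (nat_lit 608) (nat_lit 1628541832) (nat_lit 684) (nat_lit 1209771921) (nat_lit 54) (nat_lit 5) (nat_lit 62) (nat_lit 5) (nat_lit 63) (nat_lit 5) (nat_lit 271) (nat_lit 258) (nat_lit 191)) (XT.lf (nat_lit 0) (nat_lit 3135922818) (nat_lit 456) (nat_lit 11573434429) (nat_lit 532) (nat_lit 11676189) (nat_lit 48) (nat_lit 5) (nat_lit 54) (nat_lit 5) (nat_lit 55) (nat_lit 5) (nat_lit 272) (nat_lit 258) (nat_lit 190))) (XT.nd (nat_lit 78) (nat_lit 304) (nat_lit 0) (XT.lf (nat_lit 0) (nat_lit 1261669863) (nat_lit 532) (nat_lit 5704774353)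 (nat_lit 76) (nat_lit 8178135664) (nat_lit 47) (nat_lit 5) (nat_lit 54) (nat_lit 5) (nat_lit 48) (nat_lit 5) (nat_lit 273) (nat_lit 258) (nat_lit 189)) (XT.lf (nat_lit 0) (nat_lit 465779387) (nat_lit 304) (nat_lit 2120433148) (nat_lit 380) (nat_lit 13003791514) (nat_lit 43) (nat_lit 5) (nat_lit 47) (nat_lit 5) (nat_lit 48) (nat_lit 5) (nat_lit 274) (nat_lit 258) (nat_lit 188))))) (XT.nd (nat_lit 312) (nat_lit 456) (nat_lit 0) (XT.nd (nat_lit 156) (nat_lit 304) (nat_lit 0) (XT.nd (nat_lit 78) (nat_lit 0) (nat_lit 0) (XT.lf (nat_lit 0) (nat_lit 4102810542) (nat_lit 380) (nat_lit 8977133349) (nat_lit 76) (nat_lit 2971565129) (nat_lit 43) (nat_lit 5) (nat_lit 48) (nat_lit 5) (nat_lit 44) (nat_lit 5) (nat_lit 275) (nat_lit 258) (nat_lit 187)) (XT.lf (nat_lit 0) (nat_lit 5712184760) (nat_lit 380) (nat_lit 2575793008) (nat_lit 76) (nat_lit 8247360355) (nat_lit 43) (nat_lit 5) (nat_lit 48)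 (nat_lit 5) (nat_lit 44) (nat_lit 5) (nat_lit 276) (nat_lit 258) (nat_lit 186))) (XT.nd (nat_lit 78) (nat_lit 0) (nat_lit 0) (XT.lf (nat_lit 0) (nat_lit 4264638619) (nat_lit 304) (nat_lit 3187005468) (nat_lit 380) (nat_lit 9589325390) (nat_lit 39) (nat_lit 5) (nat_lit 43) (nat_lit 5) (nat_lit 44) (nat_lit 5) (nat_lit 277) (nat_lit 258) (nat_lit 185)) (XT.lf (nat_lit 0) (nat_lit 9339839315) (nat_lit 380) (nat_lit 6085848985) (nat_lit 76) (nat_lit 2143193203) (nat_lit 39) (nat_lit 5) (nat_lit 44) (nat_lit 5) (nat_lit 40) (nat_lit 5) (nat_lit 278) (nat_lit 258) (nat_lit 184)))) (XT.nd (nat_lit 156) (nat_lit 228) (nat_lit 0) (XT.nd (nat_lit 78) (nat_lit 0) (nat_lit 0) (XT.lf (nat_lit 0) (nat_lit 898442259) (nat_lit 228) (nat_lit 10474619146) (nat_lit 304) (nat_lit 6747679970) (nat_lit 36) (nat_lit 5) (nat_lit 39) (nat_lit 5) (nat_lit 40) (nat_lit 5) (nat_lit 279) (nat_lit 258) (nat_lit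 183)) (XT.lf (nat_lit 0) (nat_lit 8426288322) (nat_lit 228) (nat_lit 5169547928) (nat_lit 304) (nat_lit 5100042549) (nat_lit 36) (nat_lit 5) (nat_lit 39) (nat_lit 5) (nat_lit 40) (nat_lit 5) (nat_lit 280) (nat_lit 258) (nat_lit 182))) (XT.nd (nat_lit 78) (nat_lit 228) (nat_lit 0) (XT.lf (nat_lit 0) (nat_lit 15921528223) (nat_lit 304) (nat_lit 2992415008) (nat_lit 76) (nat_lit 386316317) (nat_lit 36) (nat_lit 5) (nat_lit 40) (nat_lit 5) (nat_lit 37) (nat_lit 5) (nat_lit 281) (nat_lit 258) (nat_lit 181)) (XT.lf (nat_lit 0) (nat_lit 4698136197) (nat_lit 228) (nat_lit 13809676963) (nat_lit 304) (nat_lit 1419902538) (nat_lit 33) (nat_lit 5) (nat_lit 36) (nat_lit 5) (nat_lit 37) (nat_lit 5) (nat_lit 282) (nat_lit 258) (nat_lit 180))))))) (XT.nd (nat_lit 1248) (nat_lit 608) (nat_lit 0) (XT.nd (nat_lit 624) (nat_lit 456) (nat_lit 0) (XT.nd (nat_lit 312) (nat_lit 380) (nat_lit 0) (XT.nd (nat_lit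 156) (nat_lit 0) (nat_lit 0) (XT.nd (nat_lit 78) (nat_lit 228) (nat_lit 0) (XT.lf (nat_lit 0) (nat_lit 654327042) (nat_lit 304) (nat_lit 7734043211) (nat_lit 76) (nat_lit 12195850194) (nat_lit 32) (nat_lit 5) (nat_lit 36) (nat_lit 5) (nat_lit 33) (nat_lit 5) (nat_lit 283) (nat_lit 258) (nat_lit 179)) (XT.lf (nat_lit 0) (nat_lit 100629545) (nat_lit 228) (nat_lit 2672476692) (nat_lit 304) (nat_lit 18499914544) (nat_lit 29) (nat_lit 5) (nat_lit 32) (nat_lit 5) (nat_lit 33) (nat_lit 5) (nat_lit 284) (nat_lit 258) (nat_lit 178))) (XT.nd (nat_lit 78) (nat_lit 0) (nat_lit 0) (XT.lf (nat_lit 0) (nat_lit 5170252997) (nat_lit 304) (nat_lit 13464274552) (nat_lit 76) (nat_lit 3353171205) (nat_lit 29) (nat_lit 5) (nat_lit 33) (nat_lit 5) (nat_lit 30) (nat_lit 5) (nat_lit 285) (nat_lit 258) (nat_lit 177)) (XT.lf (nat_lit 0) (nat_lit 7718995151) (nat_lit 304) (nat_lit 5429783448) (nat_lit 76) (nat_lit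 9587801372) (nat_lit 29) (nat_lit 5) (nat_lit 33) (nat_lit 5) (nat_lit 30) (nat_lit 5) (nat_lit 286) (nat_lit 258) (nat_lit 176)))) (XT.nd (nat_lit 156) (nat_lit 152) (nat_lit 0) (XT.nd (nat_lit 78) (nat_lit 0) (nat_lit 0) (XT.lf (nat_lit 0) (nat_lit 3090863607) (nat_lit 228) (nat_lit 7341069716) (nat_lit 304) (nat_lit 13089187543) (nat_lit 26) (nat_lit 5) (nat_lit 29) (nat_lit 5) (nat_lit 30) (nat_lit 5) (nat_lit 287) (nat_lit 258) (nat_lit 175)) (XT.lf (nat_lit 0) (nat_lit 12211791093) (nat_lit 228) (nat_lit 1149510054) (nat_lit 304) (nat_lit 10979599538) (nat_lit 26) (nat_lit 5) (nat_lit 29) (nat_lit 5) (nat_lit 30) (nat_lit 5) (nat_lit 288) (nat_lit 258) (nat_lit 174))) (XT.nd (nat_lit 78) (nat_lit 152) (nat_lit 0) (XT.lf (nat_lit 0) (nat_lit 16510004136) (nat_lit 304) (nat_lit 3510575782) (nat_lit 76) (nat_lit 5177494823) (nat_lit 26) (nat_lit 5) (nat_lit 30) (nat_lit 5) (nat_lit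 27) (nat_lit 5) (nat_lit 289) (nat_lit 258) (nat_lit 173)) (XT.lf (nat_lit 0) (nat_lit 5688668116) (nat_lit 152) (nat_lit 14224956418) (nat_lit 228) (nat_lit 6179655127) (nat_lit 24) (nat_lit 5) (nat_lit 26) (nat_lit 5) (nat_lit 27) (nat_lit 5) (nat_lit 290) (nat_lit 258) (nat_lit 172))))) (XT.nd (nat_lit 312) (nat_lit 152) (nat_lit 0) (XT.nd (nat_lit 156) (nat_lit 304) (nat_lit 0) (XT.nd (nat_lit 78) (nat_lit 0) (nat_lit 0) (XT.lf (nat_lit 0) (nat_lit 15456525248) (nat_lit 152) (nat_lit 8080453931) (nat_lit 228) (nat_lit 3493832054) (nat_lit 24) (nat_lit 5) (nat_lit 26) (nat_lit 5) (nat_lit 27) (nat_lit 5) (nat_lit 291) (nat_lit 258) (nat_lit 171)) (XT.lf (nat_lit 0) (nat_lit 25700176928) (nat_lit 152) (nat_lit 1631895989) (nat_lit 228) (nat_lit 683659870) (nat_lit 24) (nat_lit 5) (nat_lit 26) (nat_lit 5) (nat_lit 27) (nat_lit 5) (nat_lit 292) (nat_lit 258) (nat_lit 170))) (XT.nd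 (nat_lit 78) (nat_lit 0) (nat_lit 0) (XT.lf (nat_lit 0) (nat_lit 2386691944) (nat_lit 304) (nat_lit 21523726898) (nat_lit 76) (nat_lit 5128138425) (nat_lit 20) (nat_lit 5) (nat_lit 24) (nat_lit 5) (nat_lit 21) (nat_lit 5) (nat_lit 293) (nat_lit 258) (nat_lit 169)) (XT.lf (nat_lit 0) (nat_lit 5645227265) (nat_lit 304) (nat_lit 12244610613) (nat_lit 76) (nat_lit 12219278902) (nat_lit 20) (nat_lit 5) (nat_lit 24) (nat_lit 5) (nat_lit 21) (nat_lit 5) (nat_lit 294) (nat_lit 258) (nat_lit 168)))) (XT.nd (nat_lit 156) (nat_lit 0) (nat_lit 0) (XT.nd (nat_lit 78) (nat_lit 152) (nat_lit 0) (XT.lf (nat_lit 0) (nat_lit 9058147495) (nat_lit 304) (nat_lit 2513512203) (nat_lit 76) (nat_lit 19662006192) (nat_lit 20) (nat_lit 5) (nat_lit 24) (nat_lit 5) (nat_lit 21) (nat_lit 5) (nat_lit 295) (nat_lit 258) (nat_lit 167)) (XT.lf (nat_lit 0) (nat_lit 7947094258) (nat_lit 152) (nat_lit 4810560788) (nat_lit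 228) (nat_lit 19651023231) (nat_lit 18) (nat_lit 5) (nat_lit 20) (nat_lit 5) (nat_lit 21) (nat_lit 5) (nat_lit 296) (nat_lit 258) (nat_lit 166))) (XT.nd (nat_lit 78) (nat_lit 0) (nat_lit 0) (XT.lf (nat_lit 0) (nat_lit 16713160344) (nat_lit 228) (nat_lit 14670343153) (nat_lit 76) (nat_lit 2255417985) (nat_lit 18) (nat_lit 5) (nat_lit 21) (nat_lit 5) (nat_lit 19) (nat_lit 5) (nat_lit 297) (nat_lit 258) (nat_lit 165)) (XT.lf (nat_lit 0) (nat_lit 20937707933) (nat_lit 228) (nat_lit 4479445305) (nat_lit 76) (nat_lit 9509990086) (nat_lit 18) (nat_lit 5) (nat_lit 21) (nat_lit 5) (nat_lit 19) (nat_lit 5) (nat_lit 298) (nat_lit 258) (nat_lit 164)))))) (XT.nd (nat_lit 624) (nat_lit 152) (nat_lit 0) (XT.nd (nat_lit 312) (nat_lit 228) (nat_lit 0) (XT.nd (nat_lit 156) (nat_lit 76) (nat_lit 0) (XT.nd (nat_lit 78) (nat_lit 0) (nat_lit 0) (XT.lf (nat_lit 0) (nat_lit 6415826416) (nat_lit 152) (nat_lit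 19050592538) (nat_lit 228) (nat_lit 10808738908) (nat_lit 16) (nat_lit 5) (nat_lit 18) (nat_lit 5) (nat_lit 19) (nat_lit 5) (nat_lit 299) (nat_lit 258) (nat_lit 163)) (XT.lf (nat_lit 0) (nat_lit 18001030055) (nat_lit 152) (nat_lit 12289346937) (nat_lit 228) (nat_lit 7396782617) (nat_lit 16) (nat_lit 5) (nat_lit 18) (nat_lit 5) (nat_lit 19) (nat_lit 5) (nat_lit 300) (nat_lit 258) (nat_lit 162))) (XT.nd (nat_lit 78) (nat_lit 76) (nat_lit 0) (XT.lf (nat_lit 0) (nat_lit 30155638739) (nat_lit 152) (nat_lit 5193179804) (nat_lit 228) (nat_lit 3821304386) (nat_lit 16) (nat_lit 5) (nat_lit 18) (nat_lit 5) (nat_lit 19) (nat_lit 5) (nat_lit 301) (nat_lit 258) (nat_lit 161)) (XT.lf (nat_lit 0) (nat_lit 2216759660) (nat_lit 76) (nat_lit 38506841502) (nat_lit 152) (nat_lit 486841) (nat_lit 15) (nat_lit 5) (nat_lit 16) (nat_lit 5) (nat_lit 17) (nat_lit 4) (nat_lit 302) (nat_lit 258) (nat_lit 160))))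 (XT.nd (nat_lit 156) (nat_lit 152) (nat_lit 0) (XT.nd (nat_lit 78) (nat_lit 0) (nat_lit 0) (XT.lf (nat_lit 0) (nat_lit 4116875081) (nat_lit 152) (nat_lit 28185616808) (nat_lit 76) (nat_lit 10038455641) (nat_lit 14) (nat_lit 5) (nat_lit 16) (nat_lit 5) (nat_lit 15) (nat_lit 5) (nat_lit 303) (nat_lit 258) (nat_lit 159)) (XT.lf (nat_lit 0) (nat_lit 8433984929) (nat_lit 152) (nat_lit 17357124248) (nat_lit 76) (nat_lit 18247866845) (nat_lit 14) (nat_lit 5) (nat_lit 16) (nat_lit 5) (nat_lit 15) (nat_lit 5) (nat_lit 304) (nat_lit 258) (nat_lit 158))) (XT.nd (nat_lit 78) (nat_lit 152) (nat_lit 0) (XT.lf (nat_lit 0) (nat_lit 12961137116) (nat_lit 152) (nat_lit 5996060938) (nat_lit 76) (nat_lit 26865018732) (nat_lit 14) (nat_lit 5) (nat_lit 16) (nat_lit 5) (nat_lit 15) (nat_lit 5) (nat_lit 305) (nat_lit 258) (nat_lit 157)) (XT.lf (nat_lit 0) (nat_lit 6120518073) (nat_lit 152) (nat_lit 11684150941)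 (nat_lit 228) (nat_lit 29885468694) (nat_lit 12) (nat_lit 5) (nat_lit 14) (nat_lit 5) (nat_lit 15) (nat_lit 5) (nat_lit 306) (nat_lit 258) (nat_lit 156))))) (XT.nd (nat_lit 312) (nat_lit 76) (nat_lit 0) (XT.nd (nat_lit 156) (nat_lit 76) (nat_lit 0) (XT.nd (nat_lit 78) (nat_lit 0) (nat_lit 0) (XT.lf (nat_lit 0) (nat_lit 19042799472) (nat_lit 152) (nat_lit 3943722000) (nat_lit 228) (nat_lit 26660144319) (nat_lit 12) (nat_lit 5) (nat_lit 14) (nat_lit 5) (nat_lit 15) (nat_lit 5) (nat_lit 307) (nat_lit 258) (nat_lit 155)) (XT.lf (nat_lit 0) (nat_lit 28487598265) (nat_lit 228) (nat_lit 19163277920) (nat_lit 76) (nat_lit 4047154946) (nat_lit 12) (nat_lit 5) (nat_lit 15) (nat_lit 5) (nat_lit 13) (nat_lit 4) (nat_lit 308) (nat_lit 258) (nat_lit 154))) (XT.nd (nat_lit 78) (nat_lit 76) (nat_lit 0) (XT.lf (nat_lit 0) (nat_lit 34323439114) (nat_lit 228) (nat_lit 7223056858) (nat_lit 76) (nat_lit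 12302499865) (nat_lit 12) (nat_lit 5) (nat_lit 15) (nat_lit 5) (nat_lit 13) (nat_lit 4) (nat_lit 309) (nat_lit 258) (nat_lit 153)) (XT.lf (nat_lit 0) (nat_lit 5482265240) (nat_lit 76) (nat_lit 35049694608) (nat_lit 152) (nat_lit 15571520356) (nat_lit 11) (nat_lit 5) (nat_lit 12) (nat_lit 5) (nat_lit 13) (nat_lit 4) (nat_lit 310) (nat_lit 258) (nat_lit 152)))) (XT.nd (nat_lit 156) (nat_lit 76) (nat_lit 0) (XT.nd (nat_lit 78) (nat_lit 0) (nat_lit 0) (XT.lf (nat_lit 0) (nat_lit 19066363907) (nat_lit 76) (nat_lit 28102273761) (nat_lit 152) (nat_lit 11296179634) (nat_lit 11) (nat_lit 5) (nat_lit 12) (nat_lit 5) (nat_lit 13) (nat_lit 4) (nat_lit 311) (nat_lit 258) (nat_lit 151)) (XT.lf (nat_lit 0) (nat_lit 33322755354) (nat_lit 76) (nat_lit 20810017916) (nat_lit 152) (nat_lit 6811681138) (nat_lit 11) (nat_lit 5) (nat_lit 12) (nat_lit 5) (nat_lit 13) (nat_lit 4) (nat_lit 312) (nat_lit 258)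 (nat_lit 150))) (XT.nd (nat_lit 78) (nat_lit 76) (nat_lit 0) (XT.lf (nat_lit 0) (nat_lit 48285383370) (nat_lit 76) (nat_lit 13155564559) (nat_lit 152) (nat_lit 2107347490) (nat_lit 11) (nat_lit 5) (nat_lit 12) (nat_lit 5) (nat_lit 13) (nat_lit 4) (nat_lit 313) (nat_lit 258) (nat_lit 149)) (XT.lf (nat_lit 0) (nat_lit 2737507733) (nat_lit 152) (nat_lit 2336820050) (nat_lit 76) (nat_lit 61206004507) (nat_lit 10) (nat_lit 5) (nat_lit 12) (nat_lit 5) (nat_lit 11) (nat_lit 5) (nat_lit 314) (nat_lit 258) (nat_lit 148))))))))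
noncomputable def xc143 : XT := (XT.nd (nat_lit 1248) (nat_lit 76) (nat_lit 0) (XT.nd (nat_lit 624) (nat_lit 152) (nat_lit 0) (XT.nd (nat_lit 312) (nat_lit 76) (nat_lit 0) (XT.nd (nat_lit 156) (nat_lit 0) (nat_lit 0) (XT.nd (nat_lit 78) (nat_lit 0) (nat_lit 0) (XT.lf (nat_lit 0) (nat_lit 7987240012) (nat_lit 228) (nat_lit 57630091757) (nat_lit 76) (nat_lit 3518250956) (nat_lit 8) (nat_lit 5) (nat_lit 11) (nat_lit 5) (nat_lit 9) (nat_lit 4) (nat_lit 315) (nat_lit 258) (nat_lit 147)) (XT.lf (nat_lit 0) (nat_lit 13619068934) (nat_lit 228) (nat_lit 46100580796) (nat_lit 76) (nat_lit 12407976693) (nat_lit 8) (nat_lit 5) (nat_lit 11) (nat_lit 5) (nat_lit 9) (nat_lit 4) (nat_lit 316) (nat_lit 258) (nat_lit 146))) (XT.nd (nat_lit 78) (nat_lit 0) (nat_lit 0) (XT.lf (nat_lit 0) (nat_lit 19528870610) (nat_lit 228) (nat_lit 34000476241) (nat_lit 76) (nat_lit 21740117093) (nat_lit 8) (nat_lit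 5) (nat_lit 11) (nat_lit 5) (nat_lit 9) (nat_lit 4) (nat_lit 317) (nat_lit 258) (nat_lit 145)) (XT.lf (nat_lit 0) (nat_lit 25730715999) (nat_lit 228) (nat_lit 21300968321) (nat_lit 76) (nat_lit 31536891539) (nat_lit 8) (nat_lit 5) (nat_lit 11) (nat_lit 5) (nat_lit 9) (nat_lit 4) (nat_lit 318) (nat_lit 258) (nat_lit 144)))) (XT.nd (nat_lit 156) (nat_lit 0) (nat_lit 0) (XT.nd (nat_lit 78) (nat_lit 76) (nat_lit 0) (XT.lf (nat_lit 0) (nat_lit 32239371399) (nat_lit 228) (nat_lit 7971820111) (nat_lit 76) (nat_lit 41821625683) (nat_lit 8) (nat_lit 5) (nat_lit 11) (nat_lit 5) (nat_lit 9) (nat_lit 4) (nat_lit 319) (nat_lit 258) (nat_lit 143)) (XT.lf (nat_lit 0) (nat_lit 6217710006) (nat_lit 76) (nat_lit 32949699480) (nat_lit 152) (nat_lit 46498172860) (nat_lit 7) (nat_lit 5) (nat_lit 8) (nat_lit 5) (nat_lit 9) (nat_lit 4) (nat_lit 320) (nat_lit 258) (nat_lit 142))) (XT.nd (nat_lit 78) (nat_lit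 0) (nat_lit 0) (XT.lf (nat_lit 0) (nat_lit 21388481122) (nat_lit 76) (nat_lit 25185319831) (nat_lit 152) (nat_lit 42899596039) (nat_lit 7) (nat_lit 5) (nat_lit 8) (nat_lit 5) (nat_lit 9) (nat_lit 4) (nat_lit 321) (nat_lit 258) (nat_lit 141)) (XT.lf (nat_lit 0) (nat_lit 37313029744) (nat_lit 76) (nat_lit 17034572576) (nat_lit 152) (nat_lit 39124153920) (nat_lit 7) (nat_lit 5) (nat_lit 8) (nat_lit 5) (nat_lit 9) (nat_lit 4) (nat_lit 322) (nat_lit 258) (nat_lit 140))))) (XT.nd (nat_lit 312) (nat_lit 152) (nat_lit 0) (XT.nd (nat_lit 156) (nat_lit 0) (nat_lit 0) (XT.nd (nat_lit 78) (nat_lit 0) (nat_lit 0) (XT.lf (nat_lit 0) (nat_lit 54029271466) (nat_lit 76) (nat_lit 8478051175) (nat_lit 152) (nat_lit 35162857356) (nat_lit 7) (nat_lit 5) (nat_lit 8) (nat_lit 5) (nat_lit 9) (nat_lit 4) (nat_lit 323) (nat_lit 258) (nat_lit 139)) (XT.lf (nat_lit 0) (nat_lit 71080268307) (nat_lit 152) (nat_lit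 30509536133) (nat_lit 0) (nat_lit 488466145) (nat_lit 7) (nat_lit 5) (nat_lit 9) (nat_lit 4) (nat_lit 7) (nat_lit 4) (nat_lit 324) (nat_lit 258) (nat_lit 138))) (XT.nd (nat_lit 78) (nat_lit 0) (nat_lit 0) (XT.lf (nat_lit 0) (nat_lit 80218307247) (nat_lit 152) (nat_lit 16864800284) (nat_lit 0) (nat_lit 9616843118) (nat_lit 7) (nat_lit 5) (nat_lit 9) (nat_lit 4) (nat_lit 7) (nat_lit 4) (nat_lit 325) (nat_lit 258) (nat_lit 137)) (XT.lf (nat_lit 0) (nat_lit 89810830559) (nat_lit 152) (nat_lit 2541847380) (nat_lit 0) (nat_lit 19200164556) (nat_lit 7) (nat_lit 5) (nat_lit 9) (nat_lit 4) (nat_lit 7) (nat_lit 4) (nat_lit 326) (nat_lit 258) (nat_lit 136)))) (XT.nd (nat_lit 156) (nat_lit 76) (nat_lit 0) (XT.nd (nat_lit 78) (nat_lit 0) (nat_lit 0) (XT.lf (nat_lit 0) (nat_lit 12906513894) (nat_lit 76) (nat_lit 87175670543) (nat_lit 76) (nat_lit 16556240850) (nat_lit 6) (nat_lit 4) (nat_lit 7)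 (nat_lit 5) (nat_lit 7) (nat_lit 4) (nat_lit 327) (nat_lit 258) (nat_lit 135)) (XT.lf (nat_lit 0) (nat_lit 29211773861) (nat_lit 76) (nat_lit 81696127946) (nat_lit 76) (nat_lit 11068351882) (nat_lit 6) (nat_lit 4) (nat_lit 7) (nat_lit 5) (nat_lit 7) (nat_lit 4) (nat_lit 328) (nat_lit 258) (nat_lit 134))) (XT.nd (nat_lit 78) (nat_lit 76) (nat_lit 0) (XT.lf (nat_lit 0) (nat_lit 46328709612) (nat_lit 76) (nat_lit 75944051034) (nat_lit 76) (nat_lit 5308326046) (nat_lit 6) (nat_lit 4) (nat_lit 7) (nat_lit 5) (nat_lit 7) (nat_lit 4) (nat_lit 329) (nat_lit 258) (nat_lit 133)) (XT.lf (nat_lit 0) (nat_lit 713944767) (nat_lit 152) (nat_lit 69179708619) (nat_lit 76) (nat_lit 63572039989) (nat_lit 5) (nat_lit 5) (nat_lit 7) (nat_lit 5) (nat_lit 6) (nat_lit 4) (nat_lit 330) (nat_lit 258) (nat_lit 132)))))) (XT.nd (nat_lit 624) (nat_lit 0) (nat_lit 0) (XT.nd (nat_lit 312) (nat_lit 76) (nat_lit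 0) (XT.nd (nat_lit 156) (nat_lit 0) (nat_lit 0) (XT.nd (nat_lit 78) (nat_lit 0) (nat_lit 0) (XT.lf (nat_lit 0) (nat_lit 6856952405) (nat_lit 152) (nat_lit 56593752870) (nat_lit 76) (nat_lit 76189578289) (nat_lit 5) (nat_lit 5) (nat_lit 7) (nat_lit 5) (nat_lit 6) (nat_lit 4) (nat_lit 331) (nat_lit 258) (nat_lit 131)) (XT.lf (nat_lit 0) (nat_lit 13305222661) (nat_lit 152) (nat_lit 43381665427) (nat_lit 76) (nat_lit 89436814467) (nat_lit 5) (nat_lit 5) (nat_lit 7) (nat_lit 5) (nat_lit 6) (nat_lit 4) (nat_lit 332) (nat_lit 258) (nat_lit 130))) (XT.nd (nat_lit 78) (nat_lit 0) (nat_lit 0) (XT.lf (nat_lit 0) (nat_lit 20074108558) (nat_lit 152) (nat_lit 29511988937) (nat_lit 76) (nat_lit 103345289564) (nat_lit 5) (nat_lit 5) (nat_lit 7) (nat_lit 5) (nat_lit 6) (nat_lit 4) (nat_lit 333) (nat_lit 258) (nat_lit 129)) (XT.lf (nat_lit 0) (nat_lit 27179726492) (nat_lit 152) (nat_lit 14951700362)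 (nat_lit 76) (nat_lit 117948118997) (nat_lit 5) (nat_lit 5) (nat_lit 7) (nat_lit 5) (nat_lit 6) (nat_lit 4) (nat_lit 334) (nat_lit 258) (nat_lit 128)))) (XT.nd (nat_lit 156) (nat_lit 0) (nat_lit 0) (XT.nd (nat_lit 78) (nat_lit 0) (nat_lit 0) (XT.lf (nat_lit 0) (nat_lit 344906823) (nat_lit 76) (nat_lit 34299472740) (nat_lit 152) (nat_lit 132940549544) (nat_lit 4) (nat_lit 5) (nat_lit 5) (nat_lit 5) (nat_lit 6) (nat_lit 4) (nat_lit 335) (nat_lit 258) (nat_lit 127)) (XT.lf (nat_lit 0) (nat_lit 16922742766) (nat_lit 76) (nat_lit 25811141721) (nat_lit 152) (nat_lit 132719120113) (nat_lit 4) (nat_lit 5) (nat_lit 5) (nat_lit 5) (nat_lit 6) (nat_lit 4) (nat_lit 336) (nat_lit 258) (nat_lit 126))) (XT.nd (nat_lit 78) (nat_lit 0) (nat_lit 0) (XT.lf (nat_lit 0) (nat_lit 34326907767) (nat_lit 76) (nat_lit 16899437768) (nat_lit 152) (nat_lit 132488218135) (nat_lit 4) (nat_lit 5) (nat_lit 5) (nat_lit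 5) (nat_lit 6) (nat_lit 4) (nat_lit 337) (nat_lit 258) (nat_lit 125)) (XT.lf (nat_lit 0) (nat_lit 52598840312) (nat_lit 76) (nat_lit 7543142536) (nat_lit 152) (nat_lit 132247293841) (nat_lit 4) (nat_lit 5) (nat_lit 5) (nat_lit 5) (nat_lit 6) (nat_lit 4) (nat_lit 338) (nat_lit 258) (nat_lit 124))))) (XT.nd (nat_lit 312) (nat_lit 0) (nat_lit 0) (XT.nd (nat_lit 156) (nat_lit 0) (nat_lit 0) (XT.nd (nat_lit 78) (nat_lit 0) (nat_lit 0) (XT.lf (nat_lit 0) (nat_lit 69537621653) (nat_lit 152) (nat_lit 129751350253) (nat_lit 0) (nat_lit 2207045959) (nat_lit 4) (nat_lit 5) (nat_lit 6) (nat_lit 4) (nat_lit 4) (nat_lit 4) (nat_lit 339) (nat_lit 258) (nat_lit 123)) (XT.lf (nat_lit 0) (nat_lit 79525374120) (nat_lit 152) (nat_lit 119336236546) (nat_lit 0) (nat_lit 12190372167) (nat_lit 4) (nat_lit 5) (nat_lit 6) (nat_lit 4) (nat_lit 4) (nat_lit 4) (nat_lit 340) (nat_lit 258) (nat_lit 122))) (XT.nd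 (nat_lit 78) (nat_lit 0) (nat_lit 0) (XT.lf (nat_lit 0) (nat_lit 90011251018) (nat_lit 152) (nat_lit 108402527773) (nat_lit 0) (nat_lit 22672033581) (nat_lit 4) (nat_lit 5) (nat_lit 6) (nat_lit 4) (nat_lit 4) (nat_lit 4) (nat_lit 341) (nat_lit 258) (nat_lit 121)) (XT.lf (nat_lit 0) (nat_lit 101020218721) (nat_lit 152) (nat_lit 96924191292) (nat_lit 0) (nat_lit 33676986537) (nat_lit 4) (nat_lit 5) (nat_lit 6) (nat_lit 4) (nat_lit 4) (nat_lit 4) (nat_lit 342) (nat_lit 258) (nat_lit 120)))) (XT.nd (nat_lit 156) (nat_lit 0) (nat_lit 0) (XT.nd (nat_lit 78) (nat_lit 0) (nat_lit 0) (XT.lf (nat_lit 0) (nat_lit 112578489056) (nat_lit 152) (nat_lit 84873897733) (nat_lit 0) (nat_lit 45231433303) (nat_lit 4) (nat_lit 5) (nat_lit 6) (nat_lit 4) (nat_lit 4) (nat_lit 4) (nat_lit 343) (nat_lit 258) (nat_lit 119)) (XT.lf (nat_lit 0) (nat_lit 124713581715) (nat_lit 152) (nat_lit 72222955919) (nat_lit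 0) (nat_lit 57362884468) (nat_lit 4) (nat_lit 5) (nat_lit 6) (nat_lit 4) (nat_lit 4) (nat_lit 4) (nat_lit 344) (nat_lit 258) (nat_lit 118))) (XT.nd (nat_lit 78) (nat_lit 0) (nat_lit 0) (XT.lf (nat_lit 0) (nat_lit 137454389776) (nat_lit 152) (nat_lit 58941244561) (nat_lit 0) (nat_lit 70100224439) (nat_lit 4) (nat_lit 5) (nat_lit 6) (nat_lit 4) (nat_lit 4) (nat_lit 4) (nat_lit 345) (nat_lit 258) (nat_lit 117)) (XT.lf (nat_lit 0) (nat_lit 150831248495) (nat_lit 152) (nat_lit 44997140536) (nat_lit 0) (nat_lit 83473780216) (nat_lit 4) (nat_lit 5) (nat_lit 6) (nat_lit 4) (nat_lit 4) (nat_lit 4) (nat_lit 346) (nat_lit 258) (nat_lit 116)))))))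
noncomputable def xc144 : XT := (XT.nd (nat_lit 31434) (nat_lit 0) (nat_lit 1976) (XT.nd (nat_lit 30810) (nat_lit 0) (nat_lit 4256) (XT.nd (nat_lit 312) (nat_lit 0) (nat_lit 0) (XT.nd (nat_lit 156) (nat_lit 76) (nat_lit 0) (XT.nd (nat_lit 78) (nat_lit 0) (nat_lit 0) (XT.lf (nat_lit 0) (nat_lit 164876007537) (nat_lit 152) (nat_lit 30357443597) (nat_lit 0) (nat_lit 97515393598) (nat_lit 4) (nat_lit 5) (nat_lit 6) (nat_lit 4) (nat_lit 4) (nat_lit 4) (nat_lit 347) (nat_lit 258) (nat_lit 115)) (XT.lf (nat_lit 0) (nat_lit 179622106803) (nat_lit 152) (nat_lit 14987297322) (nat_lit 0) (nat_lit 112258496999) (nat_lit 4) (nat_lit 5) (nat_lit 6) (nat_lit 4) (nat_lit 4) (nat_lit 4) (nat_lit 348) (nat_lit 258) (nat_lit 114))) (XT.nd (nat_lit 78) (nat_lit 0) (nat_lit 0) (XT.lf (nat_lit 0) (nat_lit 1187914559) (nat_lit 76) (nat_lit 193935288171) (nat_lit 76) (nat_lit 126568825161) (nat_lit 3) (nat_lit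 4) (nat_lit 4) (nat_lit 5) (nat_lit 4) (nat_lit 4) (nat_lit 349) (nat_lit 258) (nat_lit 113)) (XT.lf (nat_lit 0) (nat_lit 18690773350) (nat_lit 76) (nat_lit 192961560507) (nat_lit 76) (nat_lit 125592380157) (nat_lit 3) (nat_lit 4) (nat_lit 4) (nat_lit 5) (nat_lit 4) (nat_lit 4) (nat_lit 350) (nat_lit 258) (nat_lit 112)))) (XT.nd (nat_lit 30342) (nat_lit 0) (nat_lit 4180) (XT.nd (nat_lit 78) (nat_lit 0) (nat_lit 0) (XT.lf (nat_lit 0) (nat_lit 37067404791) (nat_lit 76) (nat_lit 191939719864) (nat_lit 76) (nat_lit 124567951573) (nat_lit 3) (nat_lit 4) (nat_lit 4) (nat_lit 5) (nat_lit 4) (nat_lit 4) (nat_lit 351) (nat_lit 258) (nat_lit 111)) (XT.lf (nat_lit 0) (nat_lit 56361562765) (nat_lit 76) (nat_lit 190867333291) (nat_lit 76) (nat_lit 123493100293) (nat_lit 3) (nat_lit 4) (nat_lit 4) (nat_lit 5) (nat_lit 4) (nat_lit 4) (nat_lit 352) (nat_lit 258) (nat_lit 110))) (XT.nd (nat_lit 78)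 (nat_lit 0) (nat_lit 0) (XT.lf (nat_lit 0) (nat_lit 835531346) (nat_lit 684) (nat_lit 2290984703) (nat_lit 684) (nat_lit 2290984703) (nat_lit 58) (nat_lit 3) (nat_lit 67) (nat_lit 3) (nat_lit 67) (nat_lit 5) (nat_lit 259) (nat_lit 259) (nat_lit 202)) (XT.lf (nat_lit 0) (nat_lit 2219780512) (nat_lit 684) (nat_lit 372243471) (nat_lit 684) (nat_lit 8485381331) (nat_lit 58) (nat_lit 3) (nat_lit 67) (nat_lit 3) (nat_lit 67) (nat_lit 5) (nat_lit 260) (nat_lit 259) (nat_lit 201))))) (XT.nd (nat_lit 312) (nat_lit 0) (nat_lit 76) (XT.nd (nat_lit 156) (nat_lit 0) (nat_lit 0) (XT.nd (nat_lit 78) (nat_lit 0) (nat_lit 0) (XT.lf (nat_lit 0) (nat_lit 2849349729) (nat_lit 608) (nat_lit 7187244077) (nat_lit 684) (nat_lit 1292864715) (nat_lit 59) (nat_lit 5) (nat_lit 67) (nat_lit 5) (nat_lit 68) (nat_lit 5) (nat_lit 261) (nat_lit 259) (nat_lit 200)) (XT.lf (nat_lit 0) (nat_lit 3528351927) (nat_lit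 608) (nat_lit 2759908447) (nat_lit 684) (nat_lit 5305146751) (nat_lit 59) (nat_lit 5) (nat_lit 67) (nat_lit 5) (nat_lit 68) (nat_lit 5) (nat_lit 262) (nat_lit 259) (nat_lit 199))) (XT.nd (nat_lit 78) (nat_lit 0) (nat_lit 76) (XT.lf (nat_lit 76) (nat_lit 1932717340) (nat_lit 0) (nat_lit 2309290461) (nat_lit 684) (nat_lit 7628691575) (nat_lit 60) (nat_lit 5) (nat_lit 59) (nat_lit 5) (nat_lit 68) (nat_lit 5) (nat_lit 263) (nat_lit 259) (nat_lit 198)) (XT.lf (nat_lit 0) (nat_lit 5039850954) (nat_lit 608) (nat_lit 5253071085) (nat_lit 684) (nat_lit 1866681730) (nat_lit 60) (nat_lit 5) (nat_lit 68) (nat_lit 5) (nat_lit 69) (nat_lit 5) (nat_lit 264) (nat_lit 259) (nat_lit 197)))) (XT.nd (nat_lit 156) (nat_lit 0) (nat_lit 76) (XT.nd (nat_lit 78) (nat_lit 0) (nat_lit 0) (XT.lf (nat_lit 0) (nat_lit 5888608576) (nat_lit 608) (nat_lit 390251157) (nat_lit 684) (nat_lit 6183707061) (nat_lit 60)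 (nat_lit 5) (nat_lit 68) (nat_lit 5) (nat_lit 69) (nat_lit 5) (nat_lit 265) (nat_lit 259) (nat_lit 196)) (XT.lf (nat_lit 76) (nat_lit 4853451132) (nat_lit 0) (nat_lit 1976571864) (nat_lit 684) (nat_lit 5948300723) (nat_lit 61) (nat_lit 5) (nat_lit 60) (nat_lit 5) (nat_lit 69) (nat_lit 5) (nat_lit 266) (nat_lit 259) (nat_lit 195))) (XT.nd (nat_lit 78) (nat_lit 0) (nat_lit 0) (XT.lf (nat_lit 0) (nat_lit 7840398556) (nat_lit 608) (nat_lit 2795237856) (nat_lit 684) (nat_lit 2473286791) (nat_lit 61) (nat_lit 5) (nat_lit 69) (nat_lit 5) (nat_lit 70) (nat_lit 5) (nat_lit 267) (nat_lit 259) (nat_lit 194)) (XT.lf (nat_lit 76) (nat_lit 2624564766) (nat_lit 0) (nat_lit 6326777751) (nat_lit 684) (nat_lit 4502349787) (nat_lit 62) (nat_lit 5) (nat_lit 61) (nat_lit 5) (nat_lit 70) (nat_lit 5) (nat_lit 268) (nat_lit 259) (nat_lit 193)))))) (XT.nd (nat_lit 624) (nat_lit 1064) (nat_lit 0) (XT.nd (nat_lit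 312) (nat_lit 836) (nat_lit 0) (XT.nd (nat_lit 156) (nat_lit 0) (nat_lit 0) (XT.nd (nat_lit 78) (nat_lit 532) (nat_lit 0) (XT.lf (nat_lit 76) (nat_lit 8394777302) (nat_lit 0) (nat_lit 1747900861) (nat_lit 684) (nat_lit 3671914832) (nat_lit 62) (nat_lit 5) (nat_lit 61) (nat_lit 5) (nat_lit 70) (nat_lit 5) (nat_lit 269) (nat_lit 259) (nat_lit 192)) (XT.lf (nat_lit 0) (nat_lit 200548860) (nat_lit 608) (nat_lit 11222586128) (nat_lit 684) (nat_lit 2769054926) (nat_lit 54) (nat_lit 5) (nat_lit 62) (nat_lit 5) (nat_lit 63) (nat_lit 5) (nat_lit 270) (nat_lit 259) (nat_lit 191))) (XT.nd (nat_lit 78) (nat_lit 0) (nat_lit 0) (XT.lf (nat_lit 0) (nat_lit 6242727339) (nat_lit 608) (nat_lit 6624255120) (nat_lit 684) (nat_lit 1716838603) (nat_lit 54) (nat_lit 5) (nat_lit 62) (nat_lit 5) (nat_lit 63) (nat_lit 5) (nat_lit 271) (nat_lit 259) (nat_lit 190)) (XT.lf (nat_lit 0) (nat_lit 12570094247) (nat_lit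 608) (nat_lit 1793298204) (nat_lit 684) (nat_lit 632739737) (nat_lit 54) (nat_lit 5) (nat_lit 62) (nat_lit 5) (nat_lit 63) (nat_lit 5) (nat_lit 272) (nat_lit 259) (nat_lit 189)))) (XT.nd (nat_lit 156) (nat_lit 304) (nat_lit 0) (XT.nd (nat_lit 78) (nat_lit 0) (nat_lit 0) (XT.lf (nat_lit 0) (nat_lit 583275480) (nat_lit 532) (nat_lit 11594701780) (nat_lit 76) (nat_lit 3246098373) (nat_lit 47) (nat_lit 5) (nat_lit 54) (nat_lit 5) (nat_lit 48) (nat_lit 5) (nat_lit 273) (nat_lit 259) (nat_lit 188)) (XT.lf (nat_lit 0) (nat_lit 1891556292) (nat_lit 532) (nat_lit 5447657874) (nat_lit 76) (nat_lit 8531147998) (nat_lit 47) (nat_lit 5) (nat_lit 54) (nat_lit 5) (nat_lit 48) (nat_lit 5) (nat_lit 274) (nat_lit 259) (nat_lit 187))) (XT.nd (nat_lit 78) (nat_lit 0) (nat_lit 0) (XT.lf (nat_lit 0) (nat_lit 1022675888) (nat_lit 304) (nat_lit 2240990702) (nat_lit 380) (nat_lit 13075471857) (nat_lit 43)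 (nat_lit 5) (nat_lit 47) (nat_lit 5) (nat_lit 48) (nat_lit 5) (nat_lit 275) (nat_lit 259) (nat_lit 186)) (XT.lf (nat_lit 0) (nat_lit 4829776291) (nat_lit 380) (nat_lit 8888656415) (nat_lit 76) (nat_lit 3106742760) (nat_lit 43) (nat_lit 5) (nat_lit 48) (nat_lit 5) (nat_lit 44) (nat_lit 5) (nat_lit 276) (nat_lit 259) (nat_lit 185))))) (XT.nd (nat_lit 312) (nat_lit 532) (nat_lit 0) (XT.nd (nat_lit 156) (nat_lit 228) (nat_lit 0) (XT.nd (nat_lit 78) (nat_lit 304) (nat_lit 0) (XT.lf (nat_lit 0) (nat_lit 6494770399) (nat_lit 380) (nat_lit 2192836372) (nat_lit 76) (nat_lit 8646965872) (nat_lit 43) (nat_lit 5) (nat_lit 48) (nat_lit 5) (nat_lit 44) (nat_lit 5) (nat_lit 277) (nat_lit 259) (nat_lit 184)) (XT.lf (nat_lit 0) (nat_lit 4981362864) (nat_lit 304) (nat_lit 3324035211) (nat_lit 380) (nat_lit 9561005508) (nat_lit 39) (nat_lit 5) (nat_lit 43) (nat_lit 5) (nat_lit 44) (nat_lit 5) (nat_lit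 278) (nat_lit 259) (nat_lit 183))) (XT.nd (nat_lit 78) (nat_lit 228) (nat_lit 0) (XT.lf (nat_lit 0) (nat_lit 10265422015) (nat_lit 380) (nat_lit 5885609820) (nat_lit 76) (nat_lit 2270930133) (nat_lit 39) (nat_lit 5) (nat_lit 44) (nat_lit 5) (nat_lit 40) (nat_lit 5) (nat_lit 279) (nat_lit 259) (nat_lit 182)) (XT.lf (nat_lit 0) (nat_lit 1439758380) (nat_lit 228) (nat_lit 10946459278) (nat_lit 304) (nat_lit 6616017462) (nat_lit 36) (nat_lit 5) (nat_lit 39) (nat_lit 5) (nat_lit 40) (nat_lit 5) (nat_lit 280) (nat_lit 259) (nat_lit 181)))) (XT.nd (nat_lit 156) (nat_lit 532) (nat_lit 0) (XT.nd (nat_lit 78) (nat_lit 0) (nat_lit 0) (XT.lf (nat_lit 0) (nat_lit 9320358936) (nat_lit 228) (nat_lit 5378605490) (nat_lit 304) (nat_lit 4908333718) (nat_lit 36) (nat_lit 5) (nat_lit 39) (nat_lit 5) (nat_lit 40) (nat_lit 5) (nat_lit 281) (nat_lit 259) (nat_lit 180)) (XT.lf (nat_lit 0) (nat_lit 17121516964)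 (nat_lit 304) (nat_lit 2670265081) (nat_lit 76) (nat_lit 451192219) (nat_lit 36) (nat_lit 5) (nat_lit 40) (nat_lit 5) (nat_lit 37) (nat_lit 5) (nat_lit 282) (nat_lit 259) (nat_lit 179))) (XT.nd (nat_lit 78) (nat_lit 304) (nat_lit 0) (XT.lf (nat_lit 0) (nat_lit 5397204480) (nat_lit 228) (nat_lit 14427924609) (nat_lit 304) (nat_lit 1077373613) (nat_lit 33) (nat_lit 5) (nat_lit 36) (nat_lit 5) (nat_lit 37) (nat_lit 5) (nat_lit 283) (nat_lit 259) (nat_lit 178)) (XT.nd (nat_lit 78) (nat_lit 228) (nat_lit 0) (XT.lf (nat_lit 0) (nat_lit 1068270727) (nat_lit 304) (nat_lit 7664265386) (nat_lit 76) (nat_lit 12860017647) (nat_lit 32) (nat_lit 5) (nat_lit 36) (nat_lit 5) (nat_lit 33) (nat_lit 5) (nat_lit 284) (nat_lit 259) (nat_lit 177)) (XT.lf (nat_lit 0) (nat_lit 554778427) (nat_lit 228) (nat_lit 2727068753) (nat_lit 304) (nat_lit 19034590506) (nat_lit 29) (nat_lit 5) (nat_lit 32) (nat_lit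 5) (nat_lit 33) (nat_lit 5) (nat_lit 285) (nat_lit 259) (nat_lit 176))))))))
noncomputable def xc145 : XT := (XT.nd (nat_lit 1248) (nat_lit 608) (nat_lit 0) (XT.nd (nat_lit 624) (nat_lit 608) (nat_lit 0) (XT.nd (nat_lit 312) (nat_lit 152) (nat_lit 0) (XT.nd (nat_lit 156) (nat_lit 228) (nat_lit 0) (XT.nd (nat_lit 78) (nat_lit 0) (nat_lit 0) (XT.lf (nat_lit 0) (nat_lit 5782403304) (nat_lit 304) (nat_lit 13691661965) (nat_lit 76) (nat_lit 3593689064) (nat_lit 29) (nat_lit 5) (nat_lit 33) (nat_lit 5) (nat_lit 30) (nat_lit 5) (nat_lit 286) (nat_lit 259) (nat_lit 175)) (XT.lf (nat_lit 0) (nat_lit 8441742676) (nat_lit 304) (nat_lit 5276676130) (nat_lit 76) (nat_lit 10136581248) (nat_lit 29) (nat_lit 5) (nat_lit 33) (nat_lit 5) (nat_lit 30) (nat_lit 5) (nat_lit 287) (nat_lit 259) (nat_lit 174))) (XT.nd (nat_lit 78) (nat_lit 0) (nat_lit 0) (XT.lf (nat_lit 0) (nat_lit 3663154947) (nat_lit 228)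 (nat_lit 7617657041) (nat_lit 304) (nat_lit 13398506512) (nat_lit 26) (nat_lit 5) (nat_lit 29) (nat_lit 5) (nat_lit 30) (nat_lit 5) (nat_lit 288) (nat_lit 259) (nat_lit 173)) (XT.lf (nat_lit 0) (nat_lit 13220236038) (nat_lit 228) (nat_lit 1120827308) (nat_lit 304) (nat_lit 11199874364) (nat_lit 26) (nat_lit 5) (nat_lit 29) (nat_lit 5) (nat_lit 30) (nat_lit 5) (nat_lit 289) (nat_lit 259) (nat_lit 172)))) (XT.nd (nat_lit 156) (nat_lit 0) (nat_lit 0) (XT.nd (nat_lit 78) (nat_lit 152) (nat_lit 0) (XT.lf (nat_lit 0) (nat_lit 17633639880) (nat_lit 304) (nat_lit 3292277688) (nat_lit 76) (nat_lit 5515798751) (nat_lit 26) (nat_lit 5) (nat_lit 30) (nat_lit 5) (nat_lit 27) (nat_lit 5) (nat_lit 290) (nat_lit 259) (nat_lit 171)) (XT.lf (nat_lit 0) (nat_lit 6360576359) (nat_lit 152) (nat_lit 14838717577) (nat_lit 228) (nat_lit 6182859459) (nat_lit 24) (nat_lit 5) (nat_lit 26) (nat_lit 5) (nat_lit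 27) (nat_lit 5) (nat_lit 291) (nat_lit 259) (nat_lit 170))) (XT.nd (nat_lit 78) (nat_lit 0) (nat_lit 0) (XT.lf (nat_lit 0) (nat_lit 16598375165) (nat_lit 152) (nat_lit 8391632187) (nat_lit 228) (nat_lit 3377306110) (nat_lit 24) (nat_lit 5) (nat_lit 26) (nat_lit 5) (nat_lit 27) (nat_lit 5) (nat_lit 292) (nat_lit 259) (nat_lit 169)) (XT.lf (nat_lit 0) (nat_lit 27336636874) (nat_lit 152) (nat_lit 1625067512) (nat_lit 228) (nat_lit 440492818) (nat_lit 24) (nat_lit 5) (nat_lit 26) (nat_lit 5) (nat_lit 27) (nat_lit 5) (nat_lit 293) (nat_lit 259) (nat_lit 168))))) (XT.nd (nat_lit 312) (nat_lit 152) (nat_lit 0) (XT.nd (nat_lit 156) (nat_lit 152) (nat_lit 0) (XT.nd (nat_lit 78) (nat_lit 0) (nat_lit 0) (XT.lf (nat_lit 0) (nat_lit 2768740760) (nat_lit 304) (nat_lit 22231649262) (nat_lit 76) (nat_lit 5475897418) (nat_lit 20) (nat_lit 5) (nat_lit 24) (nat_lit 5) (nat_lit 21) (nat_lit 5) (nat_lit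 294) (nat_lit 259) (nat_lit 167)) (XT.lf (nat_lit 0) (nat_lit 6177692647) (nat_lit 304) (nat_lit 12506113543) (nat_lit 76) (nat_lit 12917244820) (nat_lit 20) (nat_lit 5) (nat_lit 24) (nat_lit 5) (nat_lit 21) (nat_lit 5) (nat_lit 295) (nat_lit 259) (nat_lit 166))) (XT.nd (nat_lit 78) (nat_lit 152) (nat_lit 0) (XT.lf (nat_lit 0) (nat_lit 9749344411) (nat_lit 304) (nat_lit 2305161528) (nat_lit 76) (nat_lit 20727965524) (nat_lit 20) (nat_lit 5) (nat_lit 24) (nat_lit 5) (nat_lit 21) (nat_lit 5) (nat_lit 296) (nat_lit 259) (nat_lit 165)) (XT.lf (nat_lit 0) (nat_lit 8673087736) (nat_lit 152) (nat_lit 4954523455) (nat_lit 228) (nat_lit 20388979953) (nat_lit 18) (nat_lit 5) (nat_lit 20) (nat_lit 5) (nat_lit 21) (nat_lit 5) (nat_lit 297) (nat_lit 259) (nat_lit 164)))) (XT.nd (nat_lit 156) (nat_lit 152) (nat_lit 0) (XT.nd (nat_lit 78) (nat_lit 0) (nat_lit 0) (XT.lf (nat_lit 0) (nat_lit 17771276503)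 (nat_lit 228) (nat_lit 15080382067) (nat_lit 76) (nat_lit 2457212387) (nat_lit 18) (nat_lit 5) (nat_lit 21) (nat_lit 5) (nat_lit 19) (nat_lit 5) (nat_lit 298) (nat_lit 259) (nat_lit 163)) (XT.lf (nat_lit 0) (nat_lit 22196458226) (nat_lit 228) (nat_lit 4395343052) (nat_lit 76) (nat_lit 10070273879) (nat_lit 18) (nat_lit 5) (nat_lit 21) (nat_lit 5) (nat_lit 19) (nat_lit 5) (nat_lit 299) (nat_lit 259) (nat_lit 162))) (XT.nd (nat_lit 78) (nat_lit 0) (nat_lit 0) (XT.lf (nat_lit 0) (nat_lit 7039723310) (nat_lit 152) (nat_lit 19906525011) (nat_lit 228) (nat_lit 11131549548) (nat_lit 16) (nat_lit 5) (nat_lit 18) (nat_lit 5) (nat_lit 19) (nat_lit 5) (nat_lit 300) (nat_lit 259) (nat_lit 161)) (XT.lf (nat_lit 0) (nat_lit 19189753533) (nat_lit 152) (nat_lit 12811816994) (nat_lit 228) (nat_lit 7559358600) (nat_lit 16) (nat_lit 5) (nat_lit 18) (nat_lit 5) (nat_lit 19) (nat_lit 5) (nat_lit 301)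 (nat_lit 259) (nat_lit 160)))))) (XT.nd (nat_lit 624) (nat_lit 304) (nat_lit 0) (XT.nd (nat_lit 312) (nat_lit 152) (nat_lit 0) (XT.nd (nat_lit 156) (nat_lit 0) (nat_lit 0) (XT.nd (nat_lit 78) (nat_lit 152) (nat_lit 0) (XT.lf (nat_lit 0) (nat_lit 31938346366) (nat_lit 152) (nat_lit 5365222328) (nat_lit 228) (nat_lit 3814976131) (nat_lit 16) (nat_lit 5) (nat_lit 18) (nat_lit 5) (nat_lit 19) (nat_lit 5) (nat_lit 302) (nat_lit 259) (nat_lit 159)) (XT.lf (nat_lit 0) (nat_lit 187234589) (nat_lit 152) (nat_lit 40146760504) (nat_lit 76) (nat_lit 2416259276) (nat_lit 14) (nat_lit 5) (nat_lit 16) (nat_lit 5) (nat_lit 15) (nat_lit 5) (nat_lit 303) (nat_lit 259) (nat_lit 158))) (XT.nd (nat_lit 78) (nat_lit 0) (nat_lit 0) (XT.lf (nat_lit 0) (nat_lit 4501508752) (nat_lit 152) (nat_lit 29322586909) (nat_lit 76) (nat_lit 10624338833) (nat_lit 14) (nat_lit 5) (nat_lit 16) (nat_lit 5) (nat_lit 15)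 (nat_lit 5) (nat_lit 304) (nat_lit 259) (nat_lit 157)) (XT.lf (nat_lit 0) (nat_lit 9025960286) (nat_lit 152) (nat_lit 17965636899) (nat_lit 76) (nat_lit 19240222483) (nat_lit 14) (nat_lit 5) (nat_lit 16) (nat_lit 5) (nat_lit 15) (nat_lit 5) (nat_lit 305) (nat_lit 259) (nat_lit 156)))) (XT.nd (nat_lit 156) (nat_lit 0) (nat_lit 0) (XT.nd (nat_lit 78) (nat_lit 152) (nat_lit 0) (XT.lf (nat_lit 0) (nat_lit 13771361696) (nat_lit 152) (nat_lit 6048870118) (nat_lit 76) (nat_lit 28284424235) (nat_lit 14) (nat_lit 5) (nat_lit 16) (nat_lit 5) (nat_lit 15) (nat_lit 5) (nat_lit 306) (nat_lit 259) (nat_lit 155)) (XT.lf (nat_lit 0) (nat_lit 6669554072) (nat_lit 152) (nat_lit 12183587913) (nat_lit 228) (nat_lit 31213054261) (nat_lit 12) (nat_lit 5) (nat_lit 14) (nat_lit 5) (nat_lit 15) (nat_lit 5) (nat_lit 307) (nat_lit 259) (nat_lit 154))) (XT.nd (nat_lit 78) (nat_lit 0) (nat_lit 0) (XT.lf (nat_lit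 0) (nat_lit 20226377631) (nat_lit 152) (nat_lit 4060174220) (nat_lit 228) (nat_lit 27834401184) (nat_lit 12) (nat_lit 5) (nat_lit 14) (nat_lit 5) (nat_lit 15) (nat_lit 5) (nat_lit 308) (nat_lit 259) (nat_lit 153)) (XT.lf (nat_lit 0) (nat_lit 30056706548) (nat_lit 228) (nat_lit 19894562055) (nat_lit 76) (nat_lit 4323941162) (nat_lit 12) (nat_lit 5) (nat_lit 15) (nat_lit 5) (nat_lit 13) (nat_lit 4) (nat_lit 309) (nat_lit 259) (nat_lit 152))))) (XT.nd (nat_lit 312) (nat_lit 228) (nat_lit 0) (XT.nd (nat_lit 156) (nat_lit 0) (nat_lit 0) (XT.nd (nat_lit 78) (nat_lit 76) (nat_lit 0) (XT.lf (nat_lit 0) (nat_lit 36177447611) (nat_lit 228) (nat_lit 7368133738) (nat_lit 76) (nat_lit 12988509115) (nat_lit 12) (nat_lit 5) (nat_lit 15) (nat_lit 5) (nat_lit 13) (nat_lit 4) (nat_lit 310) (nat_lit 259) (nat_lit 151)) (XT.lf (nat_lit 0) (nat_lit 5968969369) (nat_lit 76) (nat_lit 36724180508) (nat_lit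 152) (nat_lit 16208333462) (nat_lit 11) (nat_lit 5) (nat_lit 12) (nat_lit 5) (nat_lit 13) (nat_lit 4) (nat_lit 311) (nat_lit 259) (nat_lit 150))) (XT.nd (nat_lit 78) (nat_lit 0) (nat_lit 0) (XT.lf (nat_lit 0) (nat_lit 20222149594) (nat_lit 76) (nat_lit 29433102849) (nat_lit 152) (nat_lit 11725976319) (nat_lit 11) (nat_lit 5) (nat_lit 12) (nat_lit 5) (nat_lit 13) (nat_lit 4) (nat_lit 312) (nat_lit 259) (nat_lit 149)) (XT.lf (nat_lit 0) (nat_lit 35181719304) (nat_lit 76) (nat_lit 21779771574) (nat_lit 152) (nat_lit 7023682055) (nat_lit 11) (nat_lit 5) (nat_lit 12) (nat_lit 5) (nat_lit 13) (nat_lit 4) (nat_lit 313) (nat_lit 259) (nat_lit 148)))) (XT.nd (nat_lit 156) (nat_lit 152) (nat_lit 0) (XT.nd (nat_lit 78) (nat_lit 76) (nat_lit 0) (XT.lf (nat_lit 0) (nat_lit 50883296522) (nat_lit 76) (nat_lit 13745964465) (nat_lit 152) (nat_lit 2090254731) (nat_lit 11) (nat_lit 5) (nat_lit 12) (nat_lit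 5) (nat_lit 13) (nat_lit 4) (nat_lit 314) (nat_lit 259) (nat_lit 147)) (XT.lf (nat_lit 0) (nat_lit 2987278972) (nat_lit 152) (nat_lit 2274683424) (nat_lit 76) (nat_lit 64326395967) (nat_lit 10) (nat_lit 5) (nat_lit 12) (nat_lit 5) (nat_lit 11) (nat_lit 5) (nat_lit 315) (nat_lit 259) (nat_lit 146))) (XT.nd (nat_lit 78) (nat_lit 0) (nat_lit 0) (XT.lf (nat_lit 0) (nat_lit 8497898806) (nat_lit 228) (nat_lit 60330690372) (nat_lit 76) (nat_lit 3757878558) (nat_lit 8) (nat_lit 5) (nat_lit 11) (nat_lit 5) (nat_lit 9) (nat_lit 4) (nat_lit 316) (nat_lit 259) (nat_lit 145)) (XT.lf (nat_lit 0) (nat_lit 14406019326) (nat_lit 228) (nat_lit 48233318434) (nat_lit 76) (nat_lit 13089056531) (nat_lit 8) (nat_lit 5) (nat_lit 11) (nat_lit 5) (nat_lit 9) (nat_lit 4) (nat_lit 317) (nat_lit 259) (nat_lit 144)))))))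
noncomputable def xc146 : XT := (XT.nd (nat_lit 1248) (nat_lit 152) (nat_lit 0) (XT.nd (nat_lit 624) (nat_lit 152) (nat_lit 0) (XT.nd (nat_lit 312) (nat_lit 0) (nat_lit 0) (XT.nd (nat_lit 156) (nat_lit 76) (nat_lit 0) (XT.nd (nat_lit 78) (nat_lit 0) (nat_lit 0) (XT.lf (nat_lit 0) (nat_lit 20606263613) (nat_lit 228) (nat_lit 35536413004) (nat_lit 76) (nat_lit 22884914380) (nat_lit 8) (nat_lit 5) (nat_lit 11) (nat_lit 5) (nat_lit 9) (nat_lit 4) (nat_lit 318) (nat_lit 259) (nat_lit 143)) (XT.lf (nat_lit 0) (nat_lit 27113394154) (nat_lit 228) (nat_lit 22209743356) (nat_lit 76) (nat_lit 33168775575) (nat_lit 8) (nat_lit 5) (nat_lit 11) (nat_lit 5) (nat_lit 9) (nat_lit 4) (nat_lit 319) (nat_lit 259) (nat_lit 142))) (XT.nd (nat_lit 78) (nat_lit 76) (nat_lit 0) (XT.lf (nat_lit 0) (nat_lit 33942904116) (nat_lit 228) (nat_lit 8221579325) (nat_lit 76) (nat_lit 43965125500) (nat_lit 8) (nat_lit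 5) (nat_lit 11) (nat_lit 5) (nat_lit 9) (nat_lit 4) (nat_lit 320) (nat_lit 259) (nat_lit 141)) (XT.lf (nat_lit 0) (nat_lit 6675026784) (nat_lit 76) (nat_lit 34540243328) (nat_lit 152) (nat_lit 48728858840) (nat_lit 7) (nat_lit 5) (nat_lit 8) (nat_lit 5) (nat_lit 9) (nat_lit 4) (nat_lit 321) (nat_lit 259) (nat_lit 140)))) (XT.nd (nat_lit 156) (nat_lit 0) (nat_lit 0) (XT.nd (nat_lit 78) (nat_lit 0) (nat_lit 0) (XT.lf (nat_lit 0) (nat_lit 22597363538) (nat_lit 76) (nat_lit 26390356179) (nat_lit 152) (nat_lit 44954839970) (nat_lit 7) (nat_lit 5) (nat_lit 8) (nat_lit 5) (nat_lit 9) (nat_lit 4) (nat_lit 322) (nat_lit 259) (nat_lit 139)) (XT.lf (nat_lit 0) (nat_lit 39311498718) (nat_lit 76) (nat_lit 17834653925) (nat_lit 152) (nat_lit 40994898882) (nat_lit 7) (nat_lit 5) (nat_lit 8) (nat_lit 5) (nat_lit 9) (nat_lit 4) (nat_lit 323) (nat_lit 259) (nat_lit 138))) (XT.nd (nat_lit 78) (nat_lit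 0) (nat_lit 0) (XT.lf (nat_lit 0) (nat_lit 56857227884) (nat_lit 76) (nat_lit 8852765848) (nat_lit 152) (nat_lit 36839607144) (nat_lit 7) (nat_lit 5) (nat_lit 8) (nat_lit 5) (nat_lit 9) (nat_lit 4) (nat_lit 324) (nat_lit 259) (nat_lit 137)) (XT.lf (nat_lit 0) (nat_lit 74708636883) (nat_lit 152) (nat_lit 31911381507) (nat_lit 0) (nat_lit 558235706) (nat_lit 7) (nat_lit 5) (nat_lit 9) (nat_lit 4) (nat_lit 7) (nat_lit 4) (nat_lit 325) (nat_lit 259) (nat_lit 136))))) (XT.nd (nat_lit 312) (nat_lit 76) (nat_lit 0) (XT.nd (nat_lit 156) (nat_lit 76) (nat_lit 0) (XT.nd (nat_lit 78) (nat_lit 0) (nat_lit 0) (XT.lf (nat_lit 0) (nat_lit 84300037048) (nat_lit 152) (nat_lit 17590296077) (nat_lit 0) (nat_lit 10140872181) (nat_lit 7) (nat_lit 5) (nat_lit 9) (nat_lit 4) (nat_lit 7) (nat_lit 4) (nat_lit 326) (nat_lit 259) (nat_lit 135)) (XT.lf (nat_lit 0) (nat_lit 94368814410) (nat_lit 152) (nat_lit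 2556802395) (nat_lit 0) (nat_lit 20201303172) (nat_lit 7) (nat_lit 5) (nat_lit 9) (nat_lit 4) (nat_lit 7) (nat_lit 4) (nat_lit 327) (nat_lit 259) (nat_lit 134))) (XT.nd (nat_lit 78) (nat_lit 0) (nat_lit 0) (XT.lf (nat_lit 0) (nat_lit 13662168276) (nat_lit 76) (nat_lit 91490078707) (nat_lit 76) (nat_lit 17314618544) (nat_lit 6) (nat_lit 4) (nat_lit 7) (nat_lit 5) (nat_lit 7) (nat_lit 4) (nat_lit 328) (nat_lit 259) (nat_lit 133)) (XT.lf (nat_lit 0) (nat_lit 30777437494) (nat_lit 76) (nat_lit 85738672093) (nat_lit 76) (nat_lit 11555641526) (nat_lit 6) (nat_lit 4) (nat_lit 7) (nat_lit 5) (nat_lit 7) (nat_lit 4) (nat_lit 329) (nat_lit 259) (nat_lit 132)))) (XT.nd (nat_lit 156) (nat_lit 0) (nat_lit 0) (XT.nd (nat_lit 78) (nat_lit 76) (nat_lit 0) (XT.lf (nat_lit 0) (nat_lit 48745216464) (nat_lit 76) (nat_lit 79701003824) (nat_lit 76) (nat_lit 5510763347) (nat_lit 6) (nat_lit 4) (nat_lit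 7) (nat_lit 5) (nat_lit 7) (nat_lit 4) (nat_lit 330) (nat_lit 259) (nat_lit 131)) (XT.lf (nat_lit 0) (nat_lit 807702272) (nat_lit 152) (nat_lit 72541317398) (nat_lit 76) (nat_lit 66786904512) (nat_lit 5) (nat_lit 5) (nat_lit 7) (nat_lit 5) (nat_lit 6) (nat_lit 4) (nat_lit 331) (nat_lit 259) (nat_lit 130))) (XT.nd (nat_lit 78) (nat_lit 0) (nat_lit 0) (XT.lf (nat_lit 0) (nat_lit 7255095517) (nat_lit 152) (nat_lit 59330700845) (nat_lit 76) (nat_lit 80033592939) (nat_lit 5) (nat_lit 5) (nat_lit 7) (nat_lit 5) (nat_lit 6) (nat_lit 4) (nat_lit 332) (nat_lit 259) (nat_lit 129)) (XT.lf (nat_lit 0) (nat_lit 14023146167) (nat_lit 152) (nat_lit 45462425204) (nat_lit 76) (nat_lit 93941546368) (nat_lit 5) (nat_lit 5) (nat_lit 7) (nat_lit 5) (nat_lit 6) (nat_lit 4) (nat_lit 333) (nat_lit 259) (nat_lit 128)))))) (XT.nd (nat_lit 624) (nat_lit 76) (nat_lit 0) (XT.nd (nat_lit 312) (nat_lit 0) (nat_lit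 0) (XT.nd (nat_lit 156) (nat_lit 76) (nat_lit 0) (XT.nd (nat_lit 78) (nat_lit 0) (nat_lit 0) (XT.lf (nat_lit 0) (nat_lit 21127968627) (nat_lit 152) (nat_lit 30903470771) (nat_lit 76) (nat_lit 108543878974) (nat_lit 5) (nat_lit 5) (nat_lit 7) (nat_lit 5) (nat_lit 6) (nat_lit 4) (nat_lit 334) (nat_lit 259) (nat_lit 127)) (XT.lf (nat_lit 0) (nat_lit 28586479142) (nat_lit 152) (nat_lit 15619173367) (nat_lit 76) (nat_lit 123875358214) (nat_lit 5) (nat_lit 5) (nat_lit 7) (nat_lit 5) (nat_lit 6) (nat_lit 4) (nat_lit 335) (nat_lit 259) (nat_lit 126))) (XT.nd (nat_lit 78) (nat_lit 0) (nat_lit 0) (XT.lf (nat_lit 0) (nat_lit 440972048) (nat_lit 76) (nat_lit 35982348831) (nat_lit 152) (nat_lit 139538400373) (nat_lit 4) (nat_lit 5) (nat_lit 5) (nat_lit 5) (nat_lit 6) (nat_lit 4) (nat_lit 336) (nat_lit 259) (nat_lit 125)) (XT.lf (nat_lit 0) (nat_lit 17843946460) (nat_lit 76) (nat_lit 27071129716)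 (nat_lit 152) (nat_lit 139308241216) (nat_lit 4) (nat_lit 5) (nat_lit 5) (nat_lit 5) (nat_lit 6) (nat_lit 4) (nat_lit 337) (nat_lit 259) (nat_lit 124)))) (XT.nd (nat_lit 156) (nat_lit 0) (nat_lit 0) (XT.nd (nat_lit 78) (nat_lit 0) (nat_lit 0) (XT.lf (nat_lit 0) (nat_lit 36114745113) (nat_lit 76) (nat_lit 17715296236) (nat_lit 152) (nat_lit 139068024372) (nat_lit 4) (nat_lit 5) (nat_lit 5) (nat_lit 5) (nat_lit 6) (nat_lit 4) (nat_lit 338) (nat_lit 259) (nat_lit 123)) (XT.lf (nat_lit 0) (nat_lit 55296869907) (nat_lit 76) (nat_lit 7892572596) (nat_lit 152) (nat_lit 138817177896) (nat_lit 4) (nat_lit 5) (nat_lit 5) (nat_lit 5) (nat_lit 6) (nat_lit 4) (nat_lit 339) (nat_lit 259) (nat_lit 122))) (XT.nd (nat_lit 78) (nat_lit 0) (nat_lit 0) (XT.lf (nat_lit 0) (nat_lit 73053353601) (nat_lit 152) (nat_lit 136172465568) (nat_lit 0) (nat_lit 2342959808) (nat_lit 4) (nat_lit 5) (nat_lit 6) (nat_lit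 4) (nat_lit 4) (nat_lit 4) (nat_lit 340) (nat_lit 259) (nat_lit 121)) (XT.lf (nat_lit 0) (nat_lit 83538643650) (nat_lit 152) (nat_lit 125239760566) (nat_lit 0) (nat_lit 12824235110) (nat_lit 4) (nat_lit 5) (nat_lit 6) (nat_lit 4) (nat_lit 4) (nat_lit 4) (nat_lit 341) (nat_lit 259) (nat_lit 120))))) (XT.nd (nat_lit 312) (nat_lit 76) (nat_lit 0) (XT.nd (nat_lit 156) (nat_lit 0) (nat_lit 0) (XT.nd (nat_lit 78) (nat_lit 0) (nat_lit 0) (XT.lf (nat_lit 0) (nat_lit 94547052449) (nat_lit 152) (nat_lit 113762380059) (nat_lit 0) (nat_lit 23828820340) (nat_lit 4) (nat_lit 5) (nat_lit 6) (nat_lit 4) (nat_lit 4) (nat_lit 4) (nat_lit 342) (nat_lit 259) (nat_lit 119)) (XT.lf (nat_lit 0) (nat_lit 106104790495) (nat_lit 152) (nat_lit 101712996950) (nat_lit 0) (nat_lit 35382916892) (nat_lit 4) (nat_lit 5) (nat_lit 6) (nat_lit 4) (nat_lit 4) (nat_lit 4) (nat_lit 343) (nat_lit 259) (nat_lit 118))) (XT.nd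 (nat_lit 78) (nat_lit 0) (nat_lit 0) (XT.lf (nat_lit 0) (nat_lit 118239376212) (nat_lit 152) (nat_lit 89062922232) (nat_lit 0) (nat_lit 47514034519) (nat_lit 4) (nat_lit 5) (nat_lit 6) (nat_lit 4) (nat_lit 4) (nat_lit 4) (nat_lit 344) (nat_lit 259) (nat_lit 117)) (XT.lf (nat_lit 0) (nat_lit 130979701471) (nat_lit 152) (nat_lit 75782036679) (nat_lit 0) (nat_lit 60251056835) (nat_lit 4) (nat_lit 5) (nat_lit 6) (nat_lit 4) (nat_lit 4) (nat_lit 4) (nat_lit 345) (nat_lit 259) (nat_lit 116)))) (XT.nd (nat_lit 156) (nat_lit 76) (nat_lit 0) (XT.nd (nat_lit 78) (nat_lit 0) (nat_lit 0) (XT.lf (nat_lit 0) (nat_lit 144356100379) (nat_lit 152) (nat_lit 61838719136) (nat_lit 0) (nat_lit 73624310083) (nat_lit 4) (nat_lit 5) (nat_lit 6) (nat_lit 4) (nat_lit 4) (nat_lit 4) (nat_lit 346) (nat_lit 259) (nat_lit 115)) (XT.lf (nat_lit 0) (nat_lit 158400421505) (nat_lit 152) (nat_lit 47199771226) (nat_lit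 0) (nat_lit 87665635343) (nat_lit 4) (nat_lit 5) (nat_lit 6) (nat_lit 4) (nat_lit 4) (nat_lit 4) (nat_lit 347) (nat_lit 259) (nat_lit 114))) (XT.nd (nat_lit 78) (nat_lit 76) (nat_lit 0) (XT.lf (nat_lit 0) (nat_lit 173146103709) (nat_lit 152) (nat_lit 31830338313) (nat_lit 0) (nat_lit 102408464342) (nat_lit 4) (nat_lit 5) (nat_lit 6) (nat_lit 4) (nat_lit 4) (nat_lit 4) (nat_lit 348) (nat_lit 259) (nat_lit 113)) (XT.nd (nat_lit 78) (nat_lit 76) (nat_lit 0) (XT.lf (nat_lit 0) (nat_lit 188628255758) (nat_lit 152) (nat_lit 15693826508) (nat_lit 0) (nat_lit 117887899052) (nat_lit 4) (nat_lit 5) (nat_lit 6) (nat_lit 4) (nat_lit 4) (nat_lit 4) (nat_lit 349) (nat_lit 259) (nat_lit 112)) (XT.lf (nat_lit 0) (nat_lit 1289455068) (nat_lit 76) (nat_lit 203614416858) (nat_lit 76) (nat_lit 132871472210) (nat_lit 3) (nat_lit 4) (nat_lit 4) (nat_lit 5) (nat_lit 4) (nat_lit 4) (nat_lit 350) (nat_lit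 259) (nat_lit 111))))))))
noncomputable def xc147 : XT := (XT.nd (nat_lit 31512) (nat_lit 0) (nat_lit 1748) (XT.nd (nat_lit 30888) (nat_lit 0) (nat_lit 3876) (XT.nd (nat_lit 30576) (nat_lit 0) (nat_lit 4256) (XT.nd (nat_lit 30420) (nat_lit 0) (nat_lit 4180) (XT.nd (nat_lit 78) (nat_lit 0) (nat_lit 0) (XT.lf (nat_lit 0) (nat_lit 19665449905) (nat_lit 76) (nat_lit 202592842606) (nat_lit 76) (nat_lit 131847433252) (nat_lit 3) (nat_lit 4) (nat_lit 4) (nat_lit 5) (nat_lit 4) (nat_lit 4) (nat_lit 351) (nat_lit 259) (nat_lit 110)) (XT.lf (nat_lit 0) (nat_lit 38959001589) (nat_lit 76) (nat_lit 201520709738) (nat_lit 76) (nat_lit 130772953044) (nat_lit 3) (nat_lit 4) (nat_lit 4) (nat_lit 5) (nat_lit 4) (nat_lit 4) (nat_lit 352) (nat_lit 259) (nat_lit 109))) (XT.nd (nat_lit 78) (nat_lit 0) (nat_lit 0) (XT.lf (nat_lit 0) (nat_lit 1376334392) (nat_lit 684) (nat_lit 2142007342) (nat_lit 684) (nat_lit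 2142007342) (nat_lit 58) (nat_lit 3) (nat_lit 67) (nat_lit 3) (nat_lit 67) (nat_lit 5) (nat_lit 260) (nat_lit 260) (nat_lit 200)) (XT.lf (nat_lit 76) (nat_lit 114773237) (nat_lit 0) (nat_lit 3168314857) (nat_lit 684) (nat_lit 8294713670) (nat_lit 59) (nat_lit 5) (nat_lit 58) (nat_lit 3) (nat_lit 67) (nat_lit 5) (nat_lit 261) (nat_lit 260) (nat_lit 199)))) (XT.nd (nat_lit 156) (nat_lit 0) (nat_lit 0) (XT.nd (nat_lit 78) (nat_lit 0) (nat_lit 0) (XT.lf (nat_lit 0) (nat_lit 3898247643) (nat_lit 608) (nat_lit 6994975720) (nat_lit 684) (nat_lit 951807622) (nat_lit 59) (nat_lit 5) (nat_lit 67) (nat_lit 5) (nat_lit 68) (nat_lit 5) (nat_lit 262) (nat_lit 260) (nat_lit 198)) (XT.lf (nat_lit 0) (nat_lit 4568036597) (nat_lit 608) (nat_lit 2372541430) (nat_lit 684) (nat_lit 5184022824) (nat_lit 59) (nat_lit 5) (nat_lit 67) (nat_lit 5) (nat_lit 68) (nat_lit 5) (nat_lit 263) (nat_lit 260) (nat_lit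 197))) (XT.nd (nat_lit 78) (nat_lit 0) (nat_lit 76) (XT.lf (nat_lit 76) (nat_lit 2546242058) (nat_lit 0) (nat_lit 2738095333) (nat_lit 684) (nat_lit 7133325228) (nat_lit 60) (nat_lit 5) (nat_lit 59) (nat_lit 5) (nat_lit 68) (nat_lit 5) (nat_lit 264) (nat_lit 260) (nat_lit 196)) (XT.lf (nat_lit 0) (nat_lit 6077878816) (nat_lit 608) (nat_lit 4974436356) (nat_lit 684) (nat_lit 1671147720) (nat_lit 60) (nat_lit 5) (nat_lit 68) (nat_lit 5) (nat_lit 69) (nat_lit 5) (nat_lit 265) (nat_lit 260) (nat_lit 195))))) (XT.nd (nat_lit 312) (nat_lit 456) (nat_lit 0) (XT.nd (nat_lit 156) (nat_lit 0) (nat_lit 76) (XT.nd (nat_lit 78) (nat_lit 0) (nat_lit 0) (XT.lf (nat_lit 76) (nat_lit 109245472) (nat_lit 0) (nat_lit 6824104221) (nat_lit 684) (nat_lit 6110240097) (nat_lit 61) (nat_lit 5) (nat_lit 60) (nat_lit 5) (nat_lit 69) (nat_lit 5) (nat_lit 266) (nat_lit 260) (nat_lit 194)) (XT.lf (nat_lit 76)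 (nat_lit 5603321619) (nat_lit 0) (nat_lit 2289078509) (nat_lit 684) (nat_lit 5484424731) (nat_lit 61) (nat_lit 5) (nat_lit 60) (nat_lit 5) (nat_lit 69) (nat_lit 5) (nat_lit 267) (nat_lit 260) (nat_lit 193))) (XT.nd (nat_lit 78) (nat_lit 0) (nat_lit 0) (XT.lf (nat_lit 0) (nat_lit 8915789787) (nat_lit 608) (nat_lit 2410286330) (nat_lit 684) (nat_lit 2399961588) (nat_lit 61) (nat_lit 5) (nat_lit 69) (nat_lit 5) (nat_lit 70) (nat_lit 5) (nat_lit 268) (nat_lit 260) (nat_lit 192)) (XT.lf (nat_lit 76) (nat_lit 3272043303) (nat_lit 0) (nat_lit 6785756267) (nat_lit 684) (nat_lit 4031668003) (nat_lit 62) (nat_lit 5) (nat_lit 61) (nat_lit 5) (nat_lit 70) (nat_lit 5) (nat_lit 269) (nat_lit 260) (nat_lit 191)))) (XT.nd (nat_lit 156) (nat_lit 0) (nat_lit 0) (XT.nd (nat_lit 78) (nat_lit 532) (nat_lit 0) (XT.lf (nat_lit 76) (nat_lit 9306183118) (nat_lit 0) (nat_lit 1971143169) (nat_lit 684) (nat_lit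 3192844599) (nat_lit 62) (nat_lit 5) (nat_lit 61) (nat_lit 5) (nat_lit 70) (nat_lit 5) (nat_lit 270) (nat_lit 260) (nat_lit 190)) (XT.lf (nat_lit 0) (nat_lit 730984684) (nat_lit 608) (nat_lit 11867044715) (nat_lit 684) (nat_lit 2269986892) (nat_lit 54) (nat_lit 5) (nat_lit 62) (nat_lit 5) (nat_lit 63) (nat_lit 5) (nat_lit 271) (nat_lit 260) (nat_lit 189))) (XT.nd (nat_lit 78) (nat_lit 0) (nat_lit 0) (XT.lf (nat_lit 0) (nat_lit 7050490735) (nat_lit 608) (nat_lit 7034829096) (nat_lit 684) (nat_lit 1195517885) (nat_lit 54) (nat_lit 5) (nat_lit 62) (nat_lit 5) (nat_lit 63) (nat_lit 5) (nat_lit 272) (nat_lit 260) (nat_lit 188)) (XT.lf (nat_lit 0) (nat_lit 13670624702) (nat_lit 608) (nat_lit 1958545228) (nat_lit 684) (nat_lit 86126583) (nat_lit 54) (nat_lit 5) (nat_lit 62) (nat_lit 5) (nat_lit 63) (nat_lit 5) (nat_lit 273) (nat_lit 260) (nat_lit 187)))))) (XT.nd (nat_lit 624) (nat_lit 760)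 (nat_lit 0) (XT.nd (nat_lit 312) (nat_lit 532) (nat_lit 0) (XT.nd (nat_lit 156) (nat_lit 304) (nat_lit 0) (XT.nd (nat_lit 78) (nat_lit 0) (nat_lit 0) (XT.lf (nat_lit 0) (nat_lit 1152251573) (nat_lit 532) (nat_lit 11657908111) (nat_lit 76) (nat_lit 3355170482) (nat_lit 47) (nat_lit 5) (nat_lit 54) (nat_lit 5) (nat_lit 48) (nat_lit 5) (nat_lit 274) (nat_lit 260) (nat_lit 186)) (XT.lf (nat_lit 0) (nat_lit 2500241078) (nat_lit 532) (nat_lit 5228108617) (nat_lit 76) (nat_lit 8907007484) (nat_lit 47) (nat_lit 5) (nat_lit 54) (nat_lit 5) (nat_lit 48) (nat_lit 5) (nat_lit 275) (nat_lit 260) (nat_lit 185))) (XT.nd (nat_lit 78) (nat_lit 0) (nat_lit 0) (XT.lf (nat_lit 0) (nat_lit 1557807444) (nat_lit 304) (nat_lit 2366224724) (nat_lit 380) (nat_lit 13204520523) (nat_lit 43) (nat_lit 5) (nat_lit 47) (nat_lit 5) (nat_lit 48) (nat_lit 5) (nat_lit 276) (nat_lit 260) (nat_lit 184)) (XT.lf (nat_lit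 0) (nat_lit 5544575965) (nat_lit 380) (nat_lit 8845711820) (nat_lit 76) (nat_lit 3249925135) (nat_lit 43) (nat_lit 5) (nat_lit 48) (nat_lit 5) (nat_lit 44) (nat_lit 5) (nat_lit 277) (nat_lit 260) (nat_lit 183)))) (XT.nd (nat_lit 156) (nat_lit 228) (nat_lit 0) (XT.nd (nat_lit 78) (nat_lit 304) (nat_lit 0) (XT.lf (nat_lit 0) (nat_lit 7270281166) (nat_lit 380) (nat_lit 1838309222) (nat_lit 76) (nat_lit 9067738201) (nat_lit 43) (nat_lit 5) (nat_lit 48) (nat_lit 5) (nat_lit 44) (nat_lit 5) (nat_lit 278) (nat_lit 260) (nat_lit 182)) (XT.lf (nat_lit 0) (nat_lit 5687113379) (nat_lit 304) (nat_lit 3469991593) (nat_lit 380) (nat_lit 9578478775) (nat_lit 39) (nat_lit 5) (nat_lit 43) (nat_lit 5) (nat_lit 44) (nat_lit 5) (nat_lit 279) (nat_lit 260) (nat_lit 181))) (XT.nd (nat_lit 78) (nat_lit 228) (nat_lit 0) (XT.lf (nat_lit 0) (nat_lit 11194648430) (nat_lit 380) (nat_lit 5722265264) (nat_lit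 76) (nat_lit 2403140831) (nat_lit 39) (nat_lit 5) (nat_lit 44) (nat_lit 5) (nat_lit 40) (nat_lit 5) (nat_lit 280) (nat_lit 260) (nat_lit 180)) (XT.lf (nat_lit 0) (nat_lit 1961990297) (nat_lit 228) (nat_lit 11446715733) (nat_lit 304) (nat_lit 6521379327) (nat_lit 36) (nat_lit 5) (nat_lit 39) (nat_lit 5) (nat_lit 40) (nat_lit 5) (nat_lit 281) (nat_lit 260) (nat_lit 179))))) (XT.nd (nat_lit 312) (nat_lit 456) (nat_lit 0) (XT.nd (nat_lit 156) (nat_lit 304) (nat_lit 0) (XT.nd (nat_lit 78) (nat_lit 0) (nat_lit 0) (XT.lf (nat_lit 0) (nat_lit 10215180691) (nat_lit 228) (nat_lit 5602710518) (nat_lit 304) (nat_lit 4748570397) (nat_lit 36) (nat_lit 5) (nat_lit 39) (nat_lit 5) (nat_lit 40) (nat_lit 5) (nat_lit 282) (nat_lit 260) (nat_lit 178)) (XT.lf (nat_lit 0) (nat_lit 18343953201) (nat_lit 304) (nat_lit 2375868424) (nat_lit 76) (nat_lit 515076172) (nat_lit 36) (nat_lit 5) (nat_lit 40) (nat_lit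 5) (nat_lit 37) (nat_lit 5) (nat_lit 283) (nat_lit 260) (nat_lit 177))) (XT.nd (nat_lit 78) (nat_lit 76) (nat_lit 0) (XT.lf (nat_lit 0) (nat_lit 6088072842) (nat_lit 228) (nat_lit 15083800475) (nat_lit 304) (nat_lit 756163788) (nat_lit 33) (nat_lit 5) (nat_lit 36) (nat_lit 5) (nat_lit 37) (nat_lit 5) (nat_lit 284) (nat_lit 260) (nat_lit 176)) (XT.lf (nat_lit 0) (nat_lit 1467468693) (nat_lit 304) (nat_lit 7633437852) (nat_lit 76) (nat_lit 13552338205) (nat_lit 32) (nat_lit 5) (nat_lit 36) (nat_lit 5) (nat_lit 33) (nat_lit 5) (nat_lit 285) (nat_lit 260) (nat_lit 175)))) (XT.nd (nat_lit 156) (nat_lit 228) (nat_lit 0) (XT.nd (nat_lit 78) (nat_lit 0) (nat_lit 0) (XT.lf (nat_lit 0) (nat_lit 989880074) (nat_lit 228) (nat_lit 2791738043) (nat_lit 304) (nat_lit 19632288499) (nat_lit 29) (nat_lit 5) (nat_lit 32) (nat_lit 5) (nat_lit 33) (nat_lit 5) (nat_lit 286) (nat_lit 260) (nat_lit 174))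 (XT.lf (nat_lit 0) (nat_lit 6392283248) (nat_lit 304) (nat_lit 13971867454) (nat_lit 76) (nat_lit 3839459048) (nat_lit 29) (nat_lit 5) (nat_lit 33) (nat_lit 5) (nat_lit 30) (nat_lit 5) (nat_lit 287) (nat_lit 260) (nat_lit 173))) (XT.nd (nat_lit 78) (nat_lit 228) (nat_lit 0) (XT.lf (nat_lit 0) (nat_lit 9169315314) (nat_lit 304) (nat_lit 5155388404) (nat_lit 76) (nat_lit 10706348911) (nat_lit 29) (nat_lit 5) (nat_lit 33) (nat_lit 5) (nat_lit 30) (nat_lit 5) (nat_lit 288) (nat_lit 260) (nat_lit 172)) (XT.lf (nat_lit 0) (nat_lit 4225222590) (nat_lit 228) (nat_lit 7916484418) (nat_lit 304) (nat_lit 13755379312) (nat_lit 26) (nat_lit 5) (nat_lit 29) (nat_lit 5) (nat_lit 30) (nat_lit 5) (nat_lit 289) (nat_lit 260) (nat_lit 171)))))))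
noncomputable def xc148 : XT := (XT.nd (nat_lit 1248) (nat_lit 532) (nat_lit 0) (XT.nd (nat_lit 624) (nat_lit 456) (nat_lit 0) (XT.nd (nat_lit 312) (nat_lit 304) (nat_lit 0) (XT.nd (nat_lit 156) (nat_lit 152) (nat_lit 0) (XT.nd (nat_lit 78) (nat_lit 0) (nat_lit 0) (XT.lf (nat_lit 0) (nat_lit 14242114407) (nat_lit 228) (nat_lit 1098720603) (nat_lit 304) (nat_lit 11461722820) (nat_lit 26) (nat_lit 5) (nat_lit 29) (nat_lit 5) (nat_lit 30) (nat_lit 5) (nat_lit 290) (nat_lit 260) (nat_lit 170)) (XT.lf (nat_lit 0) (nat_lit 18785739594) (nat_lit 304) (nat_lit 3099678979) (nat_lit 76) (nat_lit 5863633303) (nat_lit 26) (nat_lit 5) (nat_lit 30) (nat_lit 5) (nat_lit 27) (nat_lit 5) (nat_lit 291) (nat_lit 260) (nat_lit 169))) (XT.nd (nat_lit 78) (nat_lit 0) (nat_lit 0) (XT.lf (nat_lit 0) (nat_lit 7030056276) (nat_lit 152) (nat_lit 15492230179) (nat_lit 228) (nat_lit 6214652387) (nat_lit 24) (nat_lit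 5) (nat_lit 26) (nat_lit 5) (nat_lit 27) (nat_lit 5) (nat_lit 292) (nat_lit 260) (nat_lit 168)) (XT.lf (nat_lit 0) (nat_lit 17763009256) (nat_lit 152) (nat_lit 8727001152) (nat_lit 228) (nat_lit 3282028515) (nat_lit 24) (nat_lit 5) (nat_lit 26) (nat_lit 5) (nat_lit 27) (nat_lit 5) (nat_lit 293) (nat_lit 260) (nat_lit 167)))) (XT.nd (nat_lit 156) (nat_lit 0) (nat_lit 0) (XT.nd (nat_lit 78) (nat_lit 304) (nat_lit 0) (XT.lf (nat_lit 0) (nat_lit 29022245225) (nat_lit 152) (nat_lit 1626118369) (nat_lit 228) (nat_lit 210952793) (nat_lit 24) (nat_lit 5) (nat_lit 26) (nat_lit 5) (nat_lit 27) (nat_lit 5) (nat_lit 294) (nat_lit 260) (nat_lit 166)) (XT.lf (nat_lit 0) (nat_lit 3145467340) (nat_lit 304) (nat_lit 23009205439) (nat_lit 76) (nat_lit 5832551311) (nat_lit 20) (nat_lit 5) (nat_lit 24) (nat_lit 5) (nat_lit 21) (nat_lit 5) (nat_lit 295) (nat_lit 260) (nat_lit 165))) (XT.nd (nat_lit 78)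 (nat_lit 0) (nat_lit 0) (XT.lf (nat_lit 0) (nat_lit 6713519700) (nat_lit 304) (nat_lit 12813298948) (nat_lit 76) (nat_lit 13642020415) (nat_lit 20) (nat_lit 5) (nat_lit 24) (nat_lit 5) (nat_lit 21) (nat_lit 5) (nat_lit 296) (nat_lit 260) (nat_lit 164)) (XT.lf (nat_lit 0) (nat_lit 10452947270) (nat_lit 304) (nat_lit 2117447916) (nat_lit 76) (nat_lit 21839519376) (nat_lit 20) (nat_lit 5) (nat_lit 24) (nat_lit 5) (nat_lit 21) (nat_lit 5) (nat_lit 297) (nat_lit 260) (nat_lit 163))))) (XT.nd (nat_lit 312) (nat_lit 152) (nat_lit 0) (XT.nd (nat_lit 156) (nat_lit 152) (nat_lit 0) (XT.nd (nat_lit 78) (nat_lit 0) (nat_lit 0) (XT.lf (nat_lit 0) (nat_lit 9404827171) (nat_lit 152) (nat_lit 5114661988) (nat_lit 228) (nat_lit 21186574585) (nat_lit 18) (nat_lit 5) (nat_lit 20) (nat_lit 5) (nat_lit 21) (nat_lit 5) (nat_lit 298) (nat_lit 260) (nat_lit 162)) (XT.lf (nat_lit 0) (nat_lit 18861616420)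 (nat_lit 228) (nat_lit 15540996868) (nat_lit 76) (nat_lit 2660819947) (nat_lit 18) (nat_lit 5) (nat_lit 21) (nat_lit 5) (nat_lit 19) (nat_lit 5) (nat_lit 299) (nat_lit 260) (nat_lit 161))) (XT.nd (nat_lit 78) (nat_lit 152) (nat_lit 0) (XT.lf (nat_lit 0) (nat_lit 23498448844) (nat_lit 228) (nat_lit 4335677536) (nat_lit 76) (nat_lit 10650689422) (nat_lit 18) (nat_lit 5) (nat_lit 21) (nat_lit 5) (nat_lit 19) (nat_lit 5) (nat_lit 300) (nat_lit 260) (nat_lit 160)) (XT.lf (nat_lit 0) (nat_lit 7666635167) (nat_lit 152) (nat_lit 20814234795) (nat_lit 228) (nat_lit 11490733552) (nat_lit 16) (nat_lit 5) (nat_lit 18) (nat_lit 5) (nat_lit 19) (nat_lit 5) (nat_lit 301) (nat_lit 260) (nat_lit 159)))) (XT.nd (nat_lit 156) (nat_lit 152) (nat_lit 0) (XT.nd (nat_lit 78) (nat_lit 0) (nat_lit 0) (XT.lf (nat_lit 0) (nat_lit 20411075201) (nat_lit 152) (nat_lit 13368963590) (nat_lit 228) (nat_lit 7749332745)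 (nat_lit 16) (nat_lit 5) (nat_lit 18) (nat_lit 5) (nat_lit 19) (nat_lit 5) (nat_lit 302) (nat_lit 260) (nat_lit 158)) (XT.lf (nat_lit 0) (nat_lit 33784629391) (nat_lit 152) (nat_lit 5554012726) (nat_lit 228) (nat_lit 3826683238) (nat_lit 16) (nat_lit 5) (nat_lit 18) (nat_lit 5) (nat_lit 19) (nat_lit 5) (nat_lit 303) (nat_lit 260) (nat_lit 157))) (XT.nd (nat_lit 78) (nat_lit 0) (nat_lit 0) (XT.lf (nat_lit 0) (nat_lit 366872429) (nat_lit 152) (nat_lit 41894754969) (nat_lit 76) (nat_lit 2617034535) (nat_lit 14) (nat_lit 5) (nat_lit 16) (nat_lit 5) (nat_lit 15) (nat_lit 5) (nat_lit 304) (nat_lit 260) (nat_lit 156)) (XT.lf (nat_lit 0) (nat_lit 4888751914) (nat_lit 152) (nat_lit 30541722387) (nat_lit 76) (nat_lit 11231710341) (nat_lit 14) (nat_lit 5) (nat_lit 16) (nat_lit 5) (nat_lit 15) (nat_lit 5) (nat_lit 305) (nat_lit 260) (nat_lit 155)))))) (XT.nd (nat_lit 624) (nat_lit 304) (nat_lit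 0) (XT.nd (nat_lit 312) (nat_lit 76) (nat_lit 0) (XT.nd (nat_lit 156) (nat_lit 152) (nat_lit 0) (XT.nd (nat_lit 78) (nat_lit 0) (nat_lit 0) (XT.lf (nat_lit 0) (nat_lit 9631703753) (nat_lit 152) (nat_lit 18628686490) (nat_lit 76) (nat_lit 20274761766) (nat_lit 14) (nat_lit 5) (nat_lit 16) (nat_lit 5) (nat_lit 15) (nat_lit 5) (nat_lit 306) (nat_lit 260) (nat_lit 154)) (XT.lf (nat_lit 0) (nat_lit 14607020688) (nat_lit 152) (nat_lit 6127282905) (nat_lit 76) (nat_lit 29767719884) (nat_lit 14) (nat_lit 5) (nat_lit 16) (nat_lit 5) (nat_lit 15) (nat_lit 5) (nat_lit 307) (nat_lit 260) (nat_lit 153))) (XT.nd (nat_lit 78) (nat_lit 0) (nat_lit 0) (XT.lf (nat_lit 0) (nat_lit 7223449096) (nat_lit 152) (nat_lit 12715877899) (nat_lit 228) (nat_lit 32622516164) (nat_lit 12) (nat_lit 5) (nat_lit 14) (nat_lit 5) (nat_lit 15) (nat_lit 5) (nat_lit 308) (nat_lit 260) (nat_lit 152)) (XT.lf (nat_lit 0) (nat_lit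 21447617770) (nat_lit 152) (nat_lit 4189954921) (nat_lit 228) (nat_lit 29082129996) (nat_lit 12) (nat_lit 5) (nat_lit 14) (nat_lit 5) (nat_lit 15) (nat_lit 5) (nat_lit 309) (nat_lit 260) (nat_lit 151)))) (XT.nd (nat_lit 156) (nat_lit 76) (nat_lit 0) (XT.nd (nat_lit 78) (nat_lit 0) (nat_lit 0) (XT.lf (nat_lit 0) (nat_lit 31690814772) (nat_lit 228) (nat_lit 20683503527) (nat_lit 76) (nat_lit 4607647036) (nat_lit 12) (nat_lit 5) (nat_lit 15) (nat_lit 5) (nat_lit 13) (nat_lit 4) (nat_lit 310) (nat_lit 260) (nat_lit 150)) (XT.lf (nat_lit 0) (nat_lit 38111341799) (nat_lit 228) (nat_lit 7540553158) (nat_lit 76) (nat_lit 13702228680) (nat_lit 12) (nat_lit 5) (nat_lit 15) (nat_lit 5) (nat_lit 13) (nat_lit 4) (nat_lit 311) (nat_lit 260) (nat_lit 149))) (XT.nd (nat_lit 78) (nat_lit 0) (nat_lit 0) (XT.lf (nat_lit 0) (nat_lit 6460244020) (nat_lit 76) (nat_lit 38489642295) (nat_lit 152) (nat_lit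 16890166995) (nat_lit 11) (nat_lit 5) (nat_lit 12) (nat_lit 5) (nat_lit 13) (nat_lit 4) (nat_lit 312) (nat_lit 260) (nat_lit 148)) (XT.lf (nat_lit 0) (nat_lit 21416901057) (nat_lit 76) (nat_lit 30837379669) (nat_lit 152) (nat_lit 12189815001) (nat_lit 11) (nat_lit 5) (nat_lit 12) (nat_lit 5) (nat_lit 13) (nat_lit 4) (nat_lit 313) (nat_lit 260) (nat_lit 147))))) (XT.nd (nat_lit 312) (nat_lit 76) (nat_lit 0) (XT.nd (nat_lit 156) (nat_lit 228) (nat_lit 0) (XT.nd (nat_lit 78) (nat_lit 0) (nat_lit 0) (XT.lf (nat_lit 0) (nat_lit 37115704301) (nat_lit 76) (nat_lit 22804590322) (nat_lit 152) (nat_lit 7258237459) (nat_lit 11) (nat_lit 5) (nat_lit 12) (nat_lit 5) (nat_lit 13) (nat_lit 4) (nat_lit 314) (nat_lit 260) (nat_lit 146)) (XT.lf (nat_lit 0) (nat_lit 53594031854) (nat_lit 76) (nat_lit 14372148564) (nat_lit 152) (nat_lit 2083692517) (nat_lit 11) (nat_lit 5) (nat_lit 12) (nat_lit 5) (nat_lit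 13) (nat_lit 4) (nat_lit 315) (nat_lit 260) (nat_lit 145))) (XT.nd (nat_lit 78) (nat_lit 152) (nat_lit 0) (XT.lf (nat_lit 0) (nat_lit 3239042786) (nat_lit 152) (nat_lit 2226079610) (nat_lit 76) (nat_lit 67597220286) (nat_lit 10) (nat_lit 5) (nat_lit 12) (nat_lit 5) (nat_lit 11) (nat_lit 5) (nat_lit 316) (nat_lit 260) (nat_lit 144)) (XT.lf (nat_lit 0) (nat_lit 9023743219) (nat_lit 228) (nat_lit 63183137842) (nat_lit 76) (nat_lit 4003563917) (nat_lit 8) (nat_lit 5) (nat_lit 11) (nat_lit 5) (nat_lit 9) (nat_lit 4) (nat_lit 317) (nat_lit 260) (nat_lit 143)))) (XT.nd (nat_lit 156) (nat_lit 76) (nat_lit 0) (XT.nd (nat_lit 78) (nat_lit 0) (nat_lit 0) (XT.lf (nat_lit 0) (nat_lit 15222462647) (nat_lit 228) (nat_lit 50488710975) (nat_lit 76) (nat_lit 13798548817) (nat_lit 8) (nat_lit 5) (nat_lit 11) (nat_lit 5) (nat_lit 9) (nat_lit 4) (nat_lit 318) (nat_lit 260) (nat_lit 142)) (XT.lf (nat_lit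 0) (nat_lit 21728140942) (nat_lit 228) (nat_lit 37164401863) (nat_lit 76) (nat_lit 24081578631) (nat_lit 8) (nat_lit 5) (nat_lit 11) (nat_lit 5) (nat_lit 9) (nat_lit 4) (nat_lit 319) (nat_lit 260) (nat_lit 141))) (XT.nd (nat_lit 78) (nat_lit 76) (nat_lit 0) (XT.lf (nat_lit 0) (nat_lit 28556267812) (nat_lit 228) (nat_lit 23178485961) (nat_lit 76) (nat_lit 34877136765) (nat_lit 8) (nat_lit 5) (nat_lit 11) (nat_lit 5) (nat_lit 9) (nat_lit 4) (nat_lit 320) (nat_lit 260) (nat_lit 140)) (XT.nd (nat_lit 78) (nat_lit 76) (nat_lit 0) (XT.lf (nat_lit 0) (nat_lit 35723100703) (nat_lit 228) (nat_lit 8497663470) (nat_lit 76) (nat_lit 46210926929) (nat_lit 8) (nat_lit 5) (nat_lit 11) (nat_lit 5) (nat_lit 9) (nat_lit 4) (nat_lit 321) (nat_lit 260) (nat_lit 139)) (XT.lf (nat_lit 0) (nat_lit 7141595610) (nat_lit 76) (nat_lit 36215608215) (nat_lit 152) (nat_lit 51079839048) (nat_lit 7) (nat_lit 5)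 (nat_lit 8) (nat_lit 5) (nat_lit 9) (nat_lit 4) (nat_lit 322) (nat_lit 260) (nat_lit 138))))))))
noncomputable def xc149 : XT := (XT.nd (nat_lit 32994) (nat_lit 0) (nat_lit 1292) (XT.nd (nat_lit 1248) (nat_lit 76) (nat_lit 0) (XT.nd (nat_lit 624) (nat_lit 152) (nat_lit 0) (XT.nd (nat_lit 312) (nat_lit 76) (nat_lit 0) (XT.nd (nat_lit 156) (nat_lit 0) (nat_lit 0) (XT.nd (nat_lit 78) (nat_lit 0) (nat_lit 0) (XT.lf (nat_lit 0) (nat_lit 23853724559) (nat_lit 76) (nat_lit 27660686102) (nat_lit 152) (nat_lit 47121188889) (nat_lit 7) (nat_lit 5) (nat_lit 8) (nat_lit 5) (nat_lit 9) (nat_lit 4) (nat_lit 323) (nat_lit 260) (nat_lit 137)) (XT.lf (nat_lit 0) (nat_lit 41397543029) (nat_lit 76) (nat_lit 18679541017) (nat_lit 152) (nat_lit 42967126608) (nat_lit 7) (nat_lit 5) (nat_lit 8) (nat_lit 5) (nat_lit 9) (nat_lit 4) (nat_lit 324) (nat_lit 260) (nat_lit 136))) (XT.nd (nat_lit 78) (nat_lit 0)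 (nat_lit 0) (XT.lf (nat_lit 0) (nat_lit 59814822016) (nat_lit 76) (nat_lit 9250789279) (nat_lit 152) (nat_lit 38607761579) (nat_lit 7) (nat_lit 5) (nat_lit 8) (nat_lit 5) (nat_lit 9) (nat_lit 4) (nat_lit 325) (nat_lit 260) (nat_lit 135)) (XT.lf (nat_lit 0) (nat_lit 78511511050) (nat_lit 152) (nat_lit 33394813229) (nat_lit 0) (nat_lit 627277879) (nat_lit 7) (nat_lit 5) (nat_lit 9) (nat_lit 4) (nat_lit 7) (nat_lit 4) (nat_lit 326) (nat_lit 260) (nat_lit 134)))) (XT.nd (nat_lit 156) (nat_lit 76) (nat_lit 0) (XT.nd (nat_lit 78) (nat_lit 0) (nat_lit 0) (XT.lf (nat_lit 0) (nat_lit 88579269684) (nat_lit 152) (nat_lit 18363013401) (nat_lit 0) (nat_lit 10687087589) (nat_lit 7) (nat_lit 5) (nat_lit 9) (nat_lit 4) (nat_lit 7) (nat_lit 4) (nat_lit 327) (nat_lit 260) (nat_lit 133)) (XT.lf (nat_lit 0) (nat_lit 99148427306) (nat_lit 152) (nat_lit 2582930630) (nat_lit 0) (nat_lit 21248674806) (nat_lit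 7) (nat_lit 5) (nat_lit 9) (nat_lit 4) (nat_lit 7) (nat_lit 4) (nat_lit 328) (nat_lit 260) (nat_lit 132))) (XT.nd (nat_lit 78) (nat_lit 0) (nat_lit 0) (XT.lf (nat_lit 0) (nat_lit 14445348061) (nat_lit 76) (nat_lit 96024332880) (nat_lit 76) (nat_lit 18117370471) (nat_lit 6) (nat_lit 4) (nat_lit 7) (nat_lit 5) (nat_lit 7) (nat_lit 4) (nat_lit 329) (nat_lit 260) (nat_lit 131)) (XT.lf (nat_lit 0) (nat_lit 32411615436) (nat_lit 76) (nat_lit 89987272590) (nat_lit 76) (nat_lit 12073443601) (nat_lit 6) (nat_lit 4) (nat_lit 7) (nat_lit 5) (nat_lit 7) (nat_lit 4) (nat_lit 330) (nat_lit 260) (nat_lit 130))))) (XT.nd (nat_lit 312) (nat_lit 76) (nat_lit 0) (XT.nd (nat_lit 156) (nat_lit 0) (nat_lit 0) (XT.nd (nat_lit 78) (nat_lit 76) (nat_lit 0) (XT.lf (nat_lit 0) (nat_lit 51273244971) (nat_lit 76) (nat_lit 83649546294) (nat_lit 76) (nat_lit 5729177704) (nat_lit 6) (nat_lit 4) (nat_lit 7) (nat_lit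 5) (nat_lit 7) (nat_lit 4) (nat_lit 331) (nat_lit 260) (nat_lit 129)) (XT.lf (nat_lit 0) (nat_lit 900749758) (nat_lit 152) (nat_lit 76080059774) (nat_lit 76) (nat_lit 70159140915) (nat_lit 5) (nat_lit 5) (nat_lit 7) (nat_lit 5) (nat_lit 6) (nat_lit 4) (nat_lit 332) (nat_lit 260) (nat_lit 128))) (XT.nd (nat_lit 78) (nat_lit 0) (nat_lit 0) (XT.lf (nat_lit 0) (nat_lit 7668004934) (nat_lit 152) (nat_lit 62213118274) (nat_lit 76) (nat_lit 84066597517) (nat_lit 5) (nat_lit 5) (nat_lit 7) (nat_lit 5) (nat_lit 6) (nat_lit 4) (nat_lit 333) (nat_lit 260) (nat_lit 127)) (XT.lf (nat_lit 0) (nat_lit 14772069800) (nat_lit 152) (nat_lit 47655434452) (nat_lit 76) (nat_lit 98668456954) (nat_lit 5) (nat_lit 5) (nat_lit 7) (nat_lit 5) (nat_lit 6) (nat_lit 4) (nat_lit 334) (nat_lit 260) (nat_lit 126)))) (XT.nd (nat_lit 156) (nat_lit 76) (nat_lit 0) (XT.nd (nat_lit 78) (nat_lit 0) (nat_lit 0) (XT.lf (nat_lit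 0) (nat_lit 22229858796) (nat_lit 152) (nat_lit 32372347154) (nat_lit 76) (nat_lit 113999485558) (nat_lit 5) (nat_lit 5) (nat_lit 7) (nat_lit 5) (nat_lit 6) (nat_lit 4) (nat_lit 335) (nat_lit 260) (nat_lit 125)) (XT.lf (nat_lit 0) (nat_lit 30059128563) (nat_lit 152) (nat_lit 16327468079) (nat_lit 76) (nat_lit 130096185778) (nat_lit 5) (nat_lit 5) (nat_lit 7) (nat_lit 5) (nat_lit 6) (nat_lit 4) (nat_lit 336) (nat_lit 260) (nat_lit 124))) (XT.nd (nat_lit 78) (nat_lit 0) (nat_lit 0) (XT.lf (nat_lit 0) (nat_lit 534512608) (nat_lit 76) (nat_lit 37752352852) (nat_lit 152) (nat_lit 146470715722) (nat_lit 4) (nat_lit 5) (nat_lit 5) (nat_lit 5) (nat_lit 6) (nat_lit 4) (nat_lit 337) (nat_lit 260) (nat_lit 123)) (XT.lf (nat_lit 0) (nat_lit 18804231362) (nat_lit 76) (nat_lit 28396959134) (nat_lit 152) (nat_lit 146231172639) (nat_lit 4) (nat_lit 5) (nat_lit 5) (nat_lit 5) (nat_lit 6) (nat_lit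 4) (nat_lit 338) (nat_lit 260) (nat_lit 122)))))) (XT.nd (nat_lit 624) (nat_lit 76) (nat_lit 0) (XT.nd (nat_lit 312) (nat_lit 0) (nat_lit 0) (XT.nd (nat_lit 156) (nat_lit 0) (nat_lit 0) (XT.nd (nat_lit 78) (nat_lit 0) (nat_lit 0) (XT.lf (nat_lit 0) (nat_lit 37985327681) (nat_lit 76) (nat_lit 18574654317) (nat_lit 152) (nat_lit 145980967840) (nat_lit 4) (nat_lit 5) (nat_lit 5) (nat_lit 5) (nat_lit 6) (nat_lit 4) (nat_lit 339) (nat_lit 260) (nat_lit 121)) (XT.lf (nat_lit 0) (nat_lit 58123470843) (nat_lit 76) (nat_lit 8262051958) (nat_lit 152) (nat_lit 145719505600) (nat_lit 4) (nat_lit 5) (nat_lit 5) (nat_lit 5) (nat_lit 6) (nat_lit 4) (nat_lit 340) (nat_lit 260) (nat_lit 120))) (XT.nd (nat_lit 78) (nat_lit 0) (nat_lit 0) (XT.lf (nat_lit 0) (nat_lit 76741260162) (nat_lit 152) (nat_lit 142920814744) (nat_lit 0) (nat_lit 2483292878) (nat_lit 4) (nat_lit 5) (nat_lit 6) (nat_lit 4) (nat_lit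 4) (nat_lit 4) (nat_lit 341) (nat_lit 260) (nat_lit 119)) (XT.lf (nat_lit 0) (nat_lit 87749136671) (nat_lit 152) (nat_lit 131444344687) (nat_lit 0) (nat_lit 13487527893) (nat_lit 4) (nat_lit 5) (nat_lit 6) (nat_lit 4) (nat_lit 4) (nat_lit 4) (nat_lit 342) (nat_lit 260) (nat_lit 118)))) (XT.nd (nat_lit 156) (nat_lit 0) (nat_lit 0) (XT.nd (nat_lit 78) (nat_lit 0) (nat_lit 0) (XT.lf (nat_lit 0) (nat_lit 99306367775) (nat_lit 152) (nat_lit 119395828674) (nat_lit 0) (nat_lit 25041290908) (nat_lit 4) (nat_lit 5) (nat_lit 6) (nat_lit 4) (nat_lit 4) (nat_lit 4) (nat_lit 343) (nat_lit 260) (nat_lit 117)) (XT.lf (nat_lit 0) (nat_lit 111440470690) (nat_lit 152) (nat_lit 106746579761) (nat_lit 0) (nat_lit 37172090880) (nat_lit 4) (nat_lit 5) (nat_lit 6) (nat_lit 4) (nat_lit 4) (nat_lit 4) (nat_lit 344) (nat_lit 260) (nat_lit 116))) (XT.nd (nat_lit 78) (nat_lit 0) (nat_lit 0) (XT.lf (nat_lit 0)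 (nat_lit 124180336137) (nat_lit 152) (nat_lit 93466480690) (nat_lit 0) (nat_lit 49908810668) (nat_lit 4) (nat_lit 5) (nat_lit 6) (nat_lit 4) (nat_lit 4) (nat_lit 4) (nat_lit 345) (nat_lit 260) (nat_lit 115)) (XT.lf (nat_lit 0) (nat_lit 137556297129) (nat_lit 152) (nat_lit 79523912176) (nat_lit 0) (nat_lit 63281775794) (nat_lit 4) (nat_lit 5) (nat_lit 6) (nat_lit 4) (nat_lit 4) (nat_lit 4) (nat_lit 346) (nat_lit 260) (nat_lit 114))))) (XT.nd (nat_lit 30810) (nat_lit 0) (nat_lit 4180) (XT.nd (nat_lit 156) (nat_lit 76) (nat_lit 0) (XT.nd (nat_lit 78) (nat_lit 0) (nat_lit 0) (XT.lf (nat_lit 0) (nat_lit 151600201192) (nat_lit 152) (nat_lit 64885677629) (nat_lit 0) (nat_lit 77322826651) (nat_lit 4) (nat_lit 5) (nat_lit 6) (nat_lit 4) (nat_lit 4) (nat_lit 4) (nat_lit 347) (nat_lit 260) (nat_lit 113)) (XT.lf (nat_lit 0) (nat_lit 166345486194) (nat_lit 152) (nat_lit 49516924108) (nat_lit 0)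 (nat_lit 92065394314) (nat_lit 4) (nat_lit 5) (nat_lit 6) (nat_lit 4) (nat_lit 4) (nat_lit 4) (nat_lit 348) (nat_lit 260) (nat_lit 112))) (XT.nd (nat_lit 156) (nat_lit 76) (nat_lit 0) (XT.lf (nat_lit 0) (nat_lit 181827259955) (nat_lit 152) (nat_lit 33381059344) (nat_lit 0) (nat_lit 107544580133) (nat_lit 4) (nat_lit 5) (nat_lit 6) (nat_lit 4) (nat_lit 4) (nat_lit 4) (nat_lit 349) (nat_lit 260) (nat_lit 111)) (XT.lf (nat_lit 0) (nat_lit 1392154380) (nat_lit 76) (nat_lit 213779141581) (nat_lit 76) (nat_lit 139491649713) (nat_lit 3) (nat_lit 4) (nat_lit 4) (nat_lit 5) (nat_lit 4) (nat_lit 4) (nat_lit 351) (nat_lit 260) (nat_lit 109)))) (XT.nd (nat_lit 156) (nat_lit 0) (nat_lit 76) (XT.nd (nat_lit 78) (nat_lit 0) (nat_lit 0) (XT.lf (nat_lit 0) (nat_lit 1897782837) (nat_lit 684) (nat_lit 2010081317) (nat_lit 684) (nat_lit 2010081317) (nat_lit 58) (nat_lit 3) (nat_lit 67) (nat_lit 3) (nat_lit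 67) (nat_lit 5) (nat_lit 261) (nat_lit 261) (nat_lit 198)) (XT.lf (nat_lit 76) (nat_lit 590854153) (nat_lit 0) (nat_lit 3725887375) (nat_lit 684) (nat_lit 7791162095) (nat_lit 59) (nat_lit 5) (nat_lit 58) (nat_lit 3) (nat_lit 67) (nat_lit 5) (nat_lit 262) (nat_lit 261) (nat_lit 197))) (XT.nd (nat_lit 78) (nat_lit 0) (nat_lit 0) (XT.lf (nat_lit 0) (nat_lit 4915319143) (nat_lit 608) (nat_lit 6844379326) (nat_lit 684) (nat_lit 631415845) (nat_lit 59) (nat_lit 5) (nat_lit 67) (nat_lit 5) (nat_lit 68) (nat_lit 5) (nat_lit 263) (nat_lit 261) (nat_lit 196)) (XT.lf (nat_lit 0) (nat_lit 5579447110) (nat_lit 608) (nat_lit 2014649282) (nat_lit 684) (nat_lit 5092764767) (nat_lit 59) (nat_lit 5) (nat_lit 67) (nat_lit 5) (nat_lit 68) (nat_lit 5) (nat_lit 264) (nat_lit 261) (nat_lit 195))))))) (XT.nd (nat_lit 1248) (nat_lit 1444) (nat_lit 0) (XT.nd (nat_lit 624) (nat_lit 1140) (nat_lit 0) (XT.nd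 (nat_lit 312) (nat_lit 380) (nat_lit 0) (XT.nd (nat_lit 156) (nat_lit 0) (nat_lit 76) (XT.nd (nat_lit 78) (nat_lit 0) (nat_lit 76) (XT.lf (nat_lit 76) (nat_lit 3142387587) (nat_lit 0) (nat_lit 3159209034) (nat_lit 684) (nat_lit 6694707203) (nat_lit 60) (nat_lit 5) (nat_lit 59) (nat_lit 5) (nat_lit 68) (nat_lit 5) (nat_lit 265) (nat_lit 261) (nat_lit 194)) (XT.lf (nat_lit 0) (nat_lit 7094729958) (nat_lit 608) (nat_lit 4732193745) (nat_lit 684) (nat_lit 1492693227) (nat_lit 60) (nat_lit 5) (nat_lit 68) (nat_lit 5) (nat_lit 69) (nat_lit 5) (nat_lit 266) (nat_lit 261) (nat_lit 193))) (XT.nd (nat_lit 78) (nat_lit 0) (nat_lit 0) (XT.lf (nat_lit 76) (nat_lit 597753394) (nat_lit 0) (nat_lit 7368812339) (nat_lit 684) (nat_lit 5690713027) (nat_lit 61) (nat_lit 5) (nat_lit 60) (nat_lit 5) (nat_lit 69) (nat_lit 5) (nat_lit 267) (nat_lit 261) (nat_lit 192)) (XT.lf (nat_lit 76) (nat_lit 6343531174)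 (nat_lit 0) (nat_lit 2597344726) (nat_lit 684) (nat_lit 5068132563) (nat_lit 61) (nat_lit 5) (nat_lit 60) (nat_lit 5) (nat_lit 69) (nat_lit 5) (nat_lit 268) (nat_lit 261) (nat_lit 191)))) (XT.nd (nat_lit 156) (nat_lit 532) (nat_lit 0) (XT.nd (nat_lit 78) (nat_lit 0) (nat_lit 0) (XT.lf (nat_lit 0) (nat_lit 9981417194) (nat_lit 608) (nat_lit 2054870108) (nat_lit 684) (nat_lit 2341284345) (nat_lit 61) (nat_lit 5) (nat_lit 69) (nat_lit 5) (nat_lit 70) (nat_lit 5) (nat_lit 269) (nat_lit 261) (nat_lit 190)) (XT.lf (nat_lit 76) (nat_lit 3903899708) (nat_lit 0) (nat_lit 7254422428) (nat_lit 684) (nat_lit 3602140951) (nat_lit 62) (nat_lit 5) (nat_lit 61) (nat_lit 5) (nat_lit 70) (nat_lit 5) (nat_lit 270) (nat_lit 261) (nat_lit 189))) (XT.nd (nat_lit 78) (nat_lit 532) (nat_lit 0) (XT.lf (nat_lit 76) (nat_lit 10217448693) (nat_lit 0) (nat_lit 2192917802) (nat_lit 684) (nat_lit 2751429256) (nat_lit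 62) (nat_lit 5) (nat_lit 61) (nat_lit 5) (nat_lit 70) (nat_lit 5) (nat_lit 271) (nat_lit 261) (nat_lit 188)) (XT.lf (nat_lit 0) (nat_lit 1239559661) (nat_lit 608) (nat_lit 12535979065) (nat_lit 684) (nat_lit 1805236096) (nat_lit 54) (nat_lit 5) (nat_lit 62) (nat_lit 5) (nat_lit 63) (nat_lit 5) (nat_lit 272) (nat_lit 261) (nat_lit 187))))) (XT.nd (nat_lit 312) (nat_lit 608) (nat_lit 0) (XT.nd (nat_lit 156) (nat_lit 456) (nat_lit 0) (XT.nd (nat_lit 78) (nat_lit 76) (nat_lit 0) (XT.lf (nat_lit 0) (nat_lit 7852563598) (nat_lit 608) (nat_lit 7458553517) (nat_lit 684) (nat_lit 704579360) (nat_lit 54) (nat_lit 5) (nat_lit 62) (nat_lit 5) (nat_lit 63) (nat_lit 5) (nat_lit 273) (nat_lit 261) (nat_lit 186)) (XT.lf (nat_lit 0) (nat_lit 420164476) (nat_lit 684) (nat_lit 1697747530) (nat_lit 76) (nat_lit 14355017035) (nat_lit 53) (nat_lit 5) (nat_lit 62) (nat_lit 5) (nat_lit 54) (nat_lit 5) (nat_lit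 274) (nat_lit 261) (nat_lit 185))) (XT.nd (nat_lit 78) (nat_lit 0) (nat_lit 0) (XT.lf (nat_lit 0) (nat_lit 1699489839) (nat_lit 532) (nat_lit 11772296706) (nat_lit 76) (nat_lit 3474645279) (nat_lit 47) (nat_lit 5) (nat_lit 54) (nat_lit 5) (nat_lit 48) (nat_lit 5) (nat_lit 275) (nat_lit 261) (nat_lit 184)) (XT.lf (nat_lit 0) (nat_lit 3091563311) (nat_lit 532) (nat_lit 5043317086) (nat_lit 76) (nat_lit 9306373356) (nat_lit 47) (nat_lit 5) (nat_lit 54) (nat_lit 5) (nat_lit 48) (nat_lit 5) (nat_lit 276) (nat_lit 261) (nat_lit 183)))) (XT.nd (nat_lit 156) (nat_lit 304) (nat_lit 0) (XT.nd (nat_lit 78) (nat_lit 0) (nat_lit 0) (XT.lf (nat_lit 0) (nat_lit 2074698053) (nat_lit 304) (nat_lit 2496494679) (nat_lit 380) (nat_lit 13388805572) (nat_lit 43) (nat_lit 5) (nat_lit 47) (nat_lit 5) (nat_lit 48) (nat_lit 5) (nat_lit 277) (nat_lit 261) (nat_lit 182)) (XT.lf (nat_lit 0) (nat_lit 6251111664)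 (nat_lit 380) (nat_lit 8845931727) (nat_lit 76) (nat_lit 3401396663) (nat_lit 43) (nat_lit 5) (nat_lit 48) (nat_lit 5) (nat_lit 44) (nat_lit 5) (nat_lit 278) (nat_lit 261) (nat_lit 181))) (XT.nd (nat_lit 78) (nat_lit 304) (nat_lit 0) (XT.lf (nat_lit 0) (nat_lit 8042658940) (nat_lit 380) (nat_lit 1509209747) (nat_lit 76) (nat_lit 9510625370) (nat_lit 43) (nat_lit 5) (nat_lit 48) (nat_lit 5) (nat_lit 44) (nat_lit 5) (nat_lit 279) (nat_lit 261) (nat_lit 180)) (XT.lf (nat_lit 0) (nat_lit 6385693421) (nat_lit 304) (nat_lit 3625128018) (nat_lit 380) (nat_lit 9639645790) (nat_lit 39) (nat_lit 5) (nat_lit 43) (nat_lit 5) (nat_lit 44) (nat_lit 5) (nat_lit 280) (nat_lit 261) (nat_lit 179)))))) (XT.nd (nat_lit 624) (nat_lit 684) (nat_lit 0) (XT.nd (nat_lit 312) (nat_lit 532) (nat_lit 0) (XT.nd (nat_lit 156) (nat_lit 0) (nat_lit 0) (XT.nd (nat_lit 78) (nat_lit 228) (nat_lit 0) (XT.lf (nat_lit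 0) (nat_lit 12131664583) (nat_lit 380) (nat_lit 5593299119) (nat_lit 76) (nat_lit 2540226843) (nat_lit 39) (nat_lit 5) (nat_lit 44) (nat_lit 5) (nat_lit 40) (nat_lit 5) (nat_lit 281) (nat_lit 261) (nat_lit 178)) (XT.lf (nat_lit 0) (nat_lit 2468474390) (nat_lit 228) (nat_lit 11976360808) (nat_lit 304) (nat_lit 6461562572) (nat_lit 36) (nat_lit 5) (nat_lit 39) (nat_lit 5) (nat_lit 40) (nat_lit 5) (nat_lit 282) (nat_lit 261) (nat_lit 177))) (XT.nd (nat_lit 78) (nat_lit 0) (nat_lit 0) (XT.lf (nat_lit 0) (nat_lit 11114877419) (nat_lit 228) (nat_lit 5842188224) (nat_lit 304) (nat_lit 4618488706) (nat_lit 36) (nat_lit 5) (nat_lit 39) (nat_lit 5) (nat_lit 40) (nat_lit 5) (nat_lit 283) (nat_lit 261) (nat_lit 176)) (XT.lf (nat_lit 0) (nat_lit 19593450534) (nat_lit 304) (nat_lit 2106534942) (nat_lit 76) (nat_lit 578312377) (nat_lit 36) (nat_lit 5) (nat_lit 40) (nat_lit 5) (nat_lit 37) (nat_lit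 5) (nat_lit 284) (nat_lit 261) (nat_lit 175)))) (XT.nd (nat_lit 156) (nat_lit 228) (nat_lit 0) (XT.nd (nat_lit 78) (nat_lit 76) (nat_lit 0) (XT.lf (nat_lit 0) (nat_lit 6774343276) (nat_lit 228) (nat_lit 15778561596) (nat_lit 304) (nat_lit 453764716) (nat_lit 33) (nat_lit 5) (nat_lit 36) (nat_lit 5) (nat_lit 37) (nat_lit 5) (nat_lit 285) (nat_lit 261) (nat_lit 174)) (XT.lf (nat_lit 0) (nat_lit 1854478798) (nat_lit 304) (nat_lit 7639562531) (nat_lit 76) (nat_lit 14274689515) (nat_lit 32) (nat_lit 5) (nat_lit 36) (nat_lit 5) (nat_lit 33) (nat_lit 5) (nat_lit 286) (nat_lit 261) (nat_lit 173))) (XT.nd (nat_lit 78) (nat_lit 0) (nat_lit 0) (XT.lf (nat_lit 0) (nat_lit 1408864079) (nat_lit 228) (nat_lit 2866305310) (nat_lit 304) (nat_lit 20292785888) (nat_lit 29) (nat_lit 5) (nat_lit 32) (nat_lit 5) (nat_lit 33) (nat_lit 5) (nat_lit 287) (nat_lit 261) (nat_lit 172)) (XT.lf (nat_lit 0) (nat_lit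 7002835986) (nat_lit 304) (nat_lit 14303678415) (nat_lit 76) (nat_lit 4091373525) (nat_lit 29) (nat_lit 5) (nat_lit 33) (nat_lit 5) (nat_lit 30) (nat_lit 5) (nat_lit 288) (nat_lit 261) (nat_lit 171))))) (XT.nd (nat_lit 312) (nat_lit 456) (nat_lit 0) (XT.nd (nat_lit 156) (nat_lit 0) (nat_lit 0) (XT.nd (nat_lit 78) (nat_lit 228) (nat_lit 0) (XT.lf (nat_lit 0) (nat_lit 9904865438) (nat_lit 304) (nat_lit 5063841241) (nat_lit 76) (nat_lit 11298753523) (nat_lit 29) (nat_lit 5) (nat_lit 33) (nat_lit 5) (nat_lit 30) (nat_lit 5) (nat_lit 289) (nat_lit 261) (nat_lit 170)) (XT.lf (nat_lit 0) (nat_lit 4780166164) (nat_lit 228) (nat_lit 8237881905) (nat_lit 304) (nat_lit 14159200409) (nat_lit 26) (nat_lit 5) (nat_lit 29) (nat_lit 5) (nat_lit 30) (nat_lit 5) (nat_lit 290) (nat_lit 261) (nat_lit 169))) (XT.nd (nat_lit 78) (nat_lit 0) (nat_lit 0) (XT.lf (nat_lit 0) (nat_lit 15281536741) (nat_lit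 228) (nat_lit 1082774029) (nat_lit 304) (nat_lit 11764382420) (nat_lit 26) (nat_lit 5) (nat_lit 29) (nat_lit 5) (nat_lit 30) (nat_lit 5) (nat_lit 291) (nat_lit 261) (nat_lit 168)) (XT.lf (nat_lit 0) (nat_lit 19970303418) (nat_lit 304) (nat_lit 2930660576) (nat_lit 76) (nat_lit 6222161557) (nat_lit 26) (nat_lit 5) (nat_lit 30) (nat_lit 5) (nat_lit 27) (nat_lit 5) (nat_lit 292) (nat_lit 261) (nat_lit 167)))) (XT.nd (nat_lit 156) (nat_lit 304) (nat_lit 0) (XT.nd (nat_lit 78) (nat_lit 0) (nat_lit 0) (XT.lf (nat_lit 0) (nat_lit 7700335597) (nat_lit 152) (nat_lit 16186639169) (nat_lit 228) (nat_lit 6273820340) (nat_lit 24) (nat_lit 5) (nat_lit 26) (nat_lit 5) (nat_lit 27) (nat_lit 5) (nat_lit 293) (nat_lit 261) (nat_lit 166)) (XT.lf (nat_lit 0) (nat_lit 18954756393) (nat_lit 152) (nat_lit 9086967858) (nat_lit 228) (nat_lit 3206544544) (nat_lit 24) (nat_lit 5) (nat_lit 26) (nat_lit 5) (nat_lit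 27) (nat_lit 5) (nat_lit 294) (nat_lit 261) (nat_lit 165))) (XT.nd (nat_lit 78) (nat_lit 228) (nat_lit 0) (XT.lf (nat_lit 0) (nat_lit 6462457) (nat_lit 228) (nat_lit 1628106336) (nat_lit 76) (nat_lit 30755925274) (nat_lit 23) (nat_lit 5) (nat_lit 26) (nat_lit 5) (nat_lit 24) (nat_lit 5) (nat_lit 295) (nat_lit 261) (nat_lit 164)) (XT.lf (nat_lit 0) (nat_lit 3518876345) (nat_lit 304) (nat_lit 23856694023) (nat_lit 76) (nat_lit 6199334452) (nat_lit 20) (nat_lit 5) (nat_lit 24) (nat_lit 5) (nat_lit 21) (nat_lit 5) (nat_lit 296) (nat_lit 261) (nat_lit 163))))))))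
noncomputable def xc150 : XT := (XT.nd (nat_lit 1248) (nat_lit 380) (nat_lit 0) (XT.nd (nat_lit 624) (nat_lit 304) (nat_lit 0) (XT.nd (nat_lit 312) (nat_lit 152) (nat_lit 0) (XT.nd (nat_lit 156) (nat_lit 152) (nat_lit 0) (XT.nd (nat_lit 78) (nat_lit 0) (nat_lit 0) (XT.lf (nat_lit 0) (nat_lit 7255039150) (nat_lit 304) (nat_lit 13165419430) (nat_lit 76) (nat_lit 14395698175) (nat_lit 20) (nat_lit 5) (nat_lit 24) (nat_lit 5) (nat_lit 21) (nat_lit 5) (nat_lit 297) (nat_lit 261) (nat_lit 162)) (XT.lf (nat_lit 0) (nat_lit 11171636029) (nat_lit 304) (nat_lit 1948516059) (nat_lit 76) (nat_lit 22999663667) (nat_lit 20) (nat_lit 5) (nat_lit 24) (nat_lit 5) (nat_lit 21) (nat_lit 5) (nat_lit 298) (nat_lit 261) (nat_lit 161))) (XT.nd (nat_lit 78) (nat_lit 0) (nat_lit 0) (XT.lf (nat_lit 0) (nat_lit 10145440455) (nat_lit 152) (nat_lit 5290950516) (nat_lit 228) (nat_lit 22044674864) (nat_lit 18)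 (nat_lit 5) (nat_lit 20) (nat_lit 5) (nat_lit 21) (nat_lit 5) (nat_lit 299) (nat_lit 261) (nat_lit 160)) (XT.lf (nat_lit 0) (nat_lit 19987714104) (nat_lit 228) (nat_lit 16051920360) (nat_lit 76) (nat_lit 2867100801) (nat_lit 18) (nat_lit 5) (nat_lit 21) (nat_lit 5) (nat_lit 19) (nat_lit 5) (nat_lit 300) (nat_lit 261) (nat_lit 159)))) (XT.nd (nat_lit 156) (nat_lit 0) (nat_lit 0) (XT.nd (nat_lit 78) (nat_lit 152) (nat_lit 0) (XT.lf (nat_lit 0) (nat_lit 24847673061) (nat_lit 228) (nat_lit 4299007745) (nat_lit 76) (nat_lit 11252976137) (nat_lit 18) (nat_lit 5) (nat_lit 21) (nat_lit 5) (nat_lit 19) (nat_lit 5) (nat_lit 301) (nat_lit 261) (nat_lit 158)) (XT.lf (nat_lit 0) (nat_lit 8299332631) (nat_lit 152) (nat_lit 21775475817) (nat_lit 228) (nat_lit 11886228529) (nat_lit 16) (nat_lit 5) (nat_lit 18) (nat_lit 5) (nat_lit 19) (nat_lit 5) (nat_lit 302) (nat_lit 261) (nat_lit 157))) (XT.nd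 (nat_lit 78) (nat_lit 0) (nat_lit 0) (XT.lf (nat_lit 0) (nat_lit 21669120109) (nat_lit 152) (nat_lit 13961725372) (nat_lit 228) (nat_lit 7966283477) (nat_lit 16) (nat_lit 5) (nat_lit 18) (nat_lit 5) (nat_lit 19) (nat_lit 5) (nat_lit 303) (nat_lit 261) (nat_lit 156)) (XT.lf (nat_lit 0) (nat_lit 35700042906) (nat_lit 152) (nat_lit 5759631079) (nat_lit 228) (nat_lit 3855621300) (nat_lit 16) (nat_lit 5) (nat_lit 18) (nat_lit 5) (nat_lit 19) (nat_lit 5) (nat_lit 304) (nat_lit 261) (nat_lit 155))))) (XT.nd (nat_lit 312) (nat_lit 152) (nat_lit 0) (XT.nd (nat_lit 156) (nat_lit 0) (nat_lit 0) (XT.nd (nat_lit 78) (nat_lit 0) (nat_lit 0) (XT.lf (nat_lit 0) (nat_lit 539661503) (nat_lit 152) (nat_lit 43754260463) (nat_lit 76) (nat_lit 2820414421) (nat_lit 14) (nat_lit 5) (nat_lit 16) (nat_lit 5) (nat_lit 15) (nat_lit 5) (nat_lit 305) (nat_lit 261) (nat_lit 154)) (XT.lf (nat_lit 0) (nat_lit 5280280417)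 (nat_lit 152) (nat_lit 31844777788) (nat_lit 76) (nat_lit 11862370295) (nat_lit 14) (nat_lit 5) (nat_lit 16) (nat_lit 5) (nat_lit 15) (nat_lit 5) (nat_lit 306) (nat_lit 261) (nat_lit 153))) (XT.nd (nat_lit 78) (nat_lit 0) (nat_lit 0) (XT.lf (nat_lit 0) (nat_lit 10253375518) (nat_lit 152) (nat_lit 19346758225) (nat_lit 76) (nat_lit 21354285032) (nat_lit 14) (nat_lit 5) (nat_lit 16) (nat_lit 5) (nat_lit 15) (nat_lit 5) (nat_lit 307) (nat_lit 261) (nat_lit 152)) (XT.lf (nat_lit 0) (nat_lit 15470787510) (nat_lit 152) (nat_lit 6230444584) (nat_lit 76) (nat_lit 31318758428) (nat_lit 14) (nat_lit 5) (nat_lit 16) (nat_lit 5) (nat_lit 15) (nat_lit 5) (nat_lit 308) (nat_lit 261) (nat_lit 151)))) (XT.nd (nat_lit 156) (nat_lit 0) (nat_lit 0) (XT.nd (nat_lit 78) (nat_lit 0) (nat_lit 0) (XT.lf (nat_lit 0) (nat_lit 7784546557) (nat_lit 152) (nat_lit 13281930833) (nat_lit 228) (nat_lit 34116507451)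 (nat_lit 12) (nat_lit 5) (nat_lit 14) (nat_lit 5) (nat_lit 15) (nat_lit 5) (nat_lit 309) (nat_lit 261) (nat_lit 150)) (XT.lf (nat_lit 0) (nat_lit 22710403427) (nat_lit 152) (nat_lit 4333032704) (nat_lit 228) (nat_lit 30405632190) (nat_lit 12) (nat_lit 5) (nat_lit 14) (nat_lit 5) (nat_lit 15) (nat_lit 5) (nat_lit 310) (nat_lit 261) (nat_lit 149))) (XT.nd (nat_lit 78) (nat_lit 0) (nat_lit 0) (XT.lf (nat_lit 0) (nat_lit 33394423898) (nat_lit 228) (nat_lit 21531024162) (nat_lit 76) (nat_lit 4899261873) (nat_lit 12) (nat_lit 5) (nat_lit 15) (nat_lit 5) (nat_lit 13) (nat_lit 4) (nat_lit 311) (nat_lit 261) (nat_lit 148)) (XT.lf (nat_lit 0) (nat_lit 40130307353) (nat_lit 228) (nat_lit 7739814586) (nat_lit 76) (nat_lit 14445656767) (nat_lit 12) (nat_lit 5) (nat_lit 15) (nat_lit 5) (nat_lit 13) (nat_lit 4) (nat_lit 312) (nat_lit 261) (nat_lit 147)))))) (XT.nd (nat_lit 624) (nat_lit 76) (nat_lit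 0) (XT.nd (nat_lit 312) (nat_lit 228) (nat_lit 0) (XT.nd (nat_lit 156) (nat_lit 0) (nat_lit 0) (XT.nd (nat_lit 78) (nat_lit 0) (nat_lit 0) (XT.lf (nat_lit 0) (nat_lit 6958155253) (nat_lit 76) (nat_lit 40349954580) (nat_lit 152) (nat_lit 17618046646) (nat_lit 11) (nat_lit 5) (nat_lit 12) (nat_lit 5) (nat_lit 13) (nat_lit 4) (nat_lit 313) (nat_lit 261) (nat_lit 146)) (XT.lf (nat_lit 0) (nat_lit 22654316617) (nat_lit 76) (nat_lit 32318134528) (nat_lit 152) (nat_lit 12688230800) (nat_lit 11) (nat_lit 5) (nat_lit 12) (nat_lit 5) (nat_lit 13) (nat_lit 4) (nat_lit 314) (nat_lit 261) (nat_lit 145))) (XT.nd (nat_lit 78) (nat_lit 0) (nat_lit 0) (XT.lf (nat_lit 0) (nat_lit 39130128094) (nat_lit 76) (nat_lit 23886615910) (nat_lit 152) (nat_lit 7515363664) (nat_lit 11) (nat_lit 5) (nat_lit 12) (nat_lit 5) (nat_lit 13) (nat_lit 4) (nat_lit 315) (nat_lit 261) (nat_lit 144)) (XT.lf (nat_lit 0) (nat_lit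 56424817807) (nat_lit 76) (nat_lit 15035323680) (nat_lit 152) (nat_lit 2087128888) (nat_lit 11) (nat_lit 5) (nat_lit 12) (nat_lit 5) (nat_lit 13) (nat_lit 4) (nat_lit 316) (nat_lit 261) (nat_lit 143)))) (XT.nd (nat_lit 156) (nat_lit 0) (nat_lit 0) (XT.nd (nat_lit 78) (nat_lit 152) (nat_lit 0) (XT.lf (nat_lit 0) (nat_lit 3493874622) (nat_lit 152) (nat_lit 2190138253) (nat_lit 76) (nat_lit 71026518507) (nat_lit 10) (nat_lit 5) (nat_lit 12) (nat_lit 5) (nat_lit 11) (nat_lit 5) (nat_lit 317) (nat_lit 261) (nat_lit 142)) (XT.lf (nat_lit 0) (nat_lit 9566494528) (nat_lit 228) (nat_lit 66193462943) (nat_lit 76) (nat_lit 4256160646) (nat_lit 8) (nat_lit 5) (nat_lit 11) (nat_lit 5) (nat_lit 9) (nat_lit 4) (nat_lit 318) (nat_lit 261) (nat_lit 141))) (XT.nd (nat_lit 78) (nat_lit 0) (nat_lit 0) (XT.lf (nat_lit 0) (nat_lit 16070789730) (nat_lit 228) (nat_lit 52871401961) (nat_lit 76) (nat_lit 14538398669)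 (nat_lit 8) (nat_lit 5) (nat_lit 11) (nat_lit 5) (nat_lit 9) (nat_lit 4) (nat_lit 319) (nat_lit 261) (nat_lit 140)) (XT.lf (nat_lit 0) (nat_lit 22897599369) (nat_lit 228) (nat_lit 38887627135) (nat_lit 76) (nat_lit 25333202717) (nat_lit 8) (nat_lit 5) (nat_lit 11) (nat_lit 5) (nat_lit 9) (nat_lit 4) (nat_lit 320) (nat_lit 261) (nat_lit 139))))) (XT.nd (nat_lit 312) (nat_lit 0) (nat_lit 0) (XT.nd (nat_lit 156) (nat_lit 76) (nat_lit 0) (XT.nd (nat_lit 78) (nat_lit 0) (nat_lit 0) (XT.lf (nat_lit 0) (nat_lit 30063177755) (nat_lit 228) (nat_lit 24208843763) (nat_lit 76) (nat_lit 36666274703) (nat_lit 8) (nat_lit 5) (nat_lit 11) (nat_lit 5) (nat_lit 9) (nat_lit 4) (nat_lit 321) (nat_lit 261) (nat_lit 138)) (XT.lf (nat_lit 0) (nat_lit 37584585789) (nat_lit 228) (nat_lit 8800102361) (nat_lit 76) (nat_lit 48564598132) (nat_lit 8) (nat_lit 5) (nat_lit 11) (nat_lit 5) (nat_lit 9) (nat_lit 4)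 (nat_lit 322) (nat_lit 261) (nat_lit 137))) (XT.nd (nat_lit 78) (nat_lit 0) (nat_lit 0) (XT.lf (nat_lit 0) (nat_lit 7619144765) (nat_lit 76) (nat_lit 37979543020) (nat_lit 152) (nat_lit 53556313782) (nat_lit 7) (nat_lit 5) (nat_lit 8) (nat_lit 5) (nat_lit 9) (nat_lit 4) (nat_lit 323) (nat_lit 261) (nat_lit 136)) (XT.lf (nat_lit 0) (nat_lit 25161143525) (nat_lit 76) (nat_lit 28999105546) (nat_lit 152) (nat_lit 49403422411) (nat_lit 7) (nat_lit 5) (nat_lit 8) (nat_lit 5) (nat_lit 9) (nat_lit 4) (nat_lit 324) (nat_lit 261) (nat_lit 135)))) (XT.nd (nat_lit 156) (nat_lit 0) (nat_lit 0) (XT.nd (nat_lit 78) (nat_lit 0) (nat_lit 0) (XT.lf (nat_lit 0) (nat_lit 43576689454) (nat_lit 76) (nat_lit 19571027723) (nat_lit 152) (nat_lit 45045172535) (nat_lit 7) (nat_lit 5) (nat_lit 8) (nat_lit 5) (nat_lit 9) (nat_lit 4) (nat_lit 325) (nat_lit 261) (nat_lit 134)) (XT.lf (nat_lit 0) (nat_lit 62909629092)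 (nat_lit 76) (nat_lit 9672861748) (nat_lit 152) (nat_lit 40471187370) (nat_lit 7) (nat_lit 5) (nat_lit 8) (nat_lit 5) (nat_lit 9) (nat_lit 4) (nat_lit 326) (nat_lit 261) (nat_lit 133))) (XT.nd (nat_lit 78) (nat_lit 0) (nat_lit 0) (XT.lf (nat_lit 0) (nat_lit 82498258778) (nat_lit 152) (nat_lit 34962842005) (nat_lit 0) (nat_lit 695948248) (nat_lit 7) (nat_lit 5) (nat_lit 9) (nat_lit 4) (nat_lit 7) (nat_lit 4) (nat_lit 327) (nat_lit 261) (nat_lit 132)) (XT.lf (nat_lit 0) (nat_lit 93066492383) (nat_lit 152) (nat_lit 19184295608) (nat_lit 0) (nat_lit 11256971944) (nat_lit 7) (nat_lit 5) (nat_lit 9) (nat_lit 4) (nat_lit 7) (nat_lit 4) (nat_lit 328) (nat_lit 261) (nat_lit 131)))))))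
noncomputable def xc151 : XT := (XT.nd (nat_lit 1248) (nat_lit 0) (nat_lit 0) (XT.nd (nat_lit 624) (nat_lit 76) (nat_lit 0) (XT.nd (nat_lit 312) (nat_lit 76) (nat_lit 0) (XT.nd (nat_lit 156) (nat_lit 0) (nat_lit 0) (XT.nd (nat_lit 78) (nat_lit 76) (nat_lit 0) (XT.lf (nat_lit 0) (nat_lit 104161333637) (nat_lit 152) (nat_lit 2619821483) (nat_lit 0) (nat_lit 22344946618) (nat_lit 7) (nat_lit 5) (nat_lit 9) (nat_lit 4) (nat_lit 7) (nat_lit 4) (nat_lit 329) (nat_lit 261) (nat_lit 130)) (XT.lf (nat_lit 0) (nat_lit 15258383148) (nat_lit 76) (nat_lit 100789041803) (nat_lit 76) (nat_lit 18966115184) (nat_lit 6) (nat_lit 4) (nat_lit 7) (nat_lit 5) (nat_lit 7) (nat_lit 4) (nat_lit 330) (nat_lit 261) (nat_lit 129))) (XT.nd (nat_lit 78) (nat_lit 0) (nat_lit 0) (XT.lf (nat_lit 0) (nat_lit 34118641621) (nat_lit 76) (nat_lit 94451866962) (nat_lit 76) (nat_lit 12622712152) (nat_lit 6) (nat_lit 4)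 (nat_lit 7) (nat_lit 5) (nat_lit 7) (nat_lit 4) (nat_lit 331) (nat_lit 261) (nat_lit 128)) (XT.lf (nat_lit 0) (nat_lit 53919236184) (nat_lit 76) (nat_lit 87798910030) (nat_lit 76) (nat_lit 5963823610) (nat_lit 6) (nat_lit 4) (nat_lit 7) (nat_lit 5) (nat_lit 7) (nat_lit 4) (nat_lit 332) (nat_lit 261) (nat_lit 127)))) (XT.nd (nat_lit 156) (nat_lit 0) (nat_lit 0) (XT.nd (nat_lit 78) (nat_lit 0) (nat_lit 0) (XT.lf (nat_lit 0) (nat_lit 993553571) (nat_lit 152) (nat_lit 79803950751) (nat_lit 76) (nat_lit 73696931228) (nat_lit 5) (nat_lit 5) (nat_lit 7) (nat_lit 5) (nat_lit 6) (nat_lit 4) (nat_lit 333) (nat_lit 261) (nat_lit 126)) (XT.lf (nat_lit 0) (nat_lit 8096896918) (nat_lit 152) (nat_lit 65247477033) (nat_lit 76) (nat_lit 88298340028) (nat_lit 5) (nat_lit 5) (nat_lit 7) (nat_lit 5) (nat_lit 6) (nat_lit 4) (nat_lit 334) (nat_lit 261) (nat_lit 125))) (XT.nd (nat_lit 78) (nat_lit 0) (nat_lit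 0) (XT.lf (nat_lit 0) (nat_lit 15553998754) (nat_lit 152) (nat_lit 49965542217) (nat_lit 76) (nat_lit 103628939455) (nat_lit 5) (nat_lit 5) (nat_lit 7) (nat_lit 5) (nat_lit 6) (nat_lit 4) (nat_lit 335) (nat_lit 261) (nat_lit 124)) (XT.lf (nat_lit 0) (nat_lit 23382614083) (nat_lit 152) (nat_lit 33921760743) (nat_lit 76) (nat_lit 119725230934) (nat_lit 5) (nat_lit 5) (nat_lit 7) (nat_lit 5) (nat_lit 6) (nat_lit 4) (nat_lit 336) (nat_lit 261) (nat_lit 123))))) (XT.nd (nat_lit 312) (nat_lit 0) (nat_lit 0) (XT.nd (nat_lit 156) (nat_lit 0) (nat_lit 0) (XT.nd (nat_lit 78) (nat_lit 76) (nat_lit 0) (XT.lf (nat_lit 0) (nat_lit 31601382465) (nat_lit 152) (nat_lit 17077933132) (nat_lit 76) (nat_lit 136625538970) (nat_lit 5) (nat_lit 5) (nat_lit 7) (nat_lit 5) (nat_lit 6) (nat_lit 4) (nat_lit 337) (nat_lit 261) (nat_lit 122)) (XT.lf (nat_lit 0) (nat_lit 626083551) (nat_lit 76) (nat_lit 39613563764)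 (nat_lit 152) (nat_lit 153753793757) (nat_lit 4) (nat_lit 5) (nat_lit 5) (nat_lit 5) (nat_lit 6) (nat_lit 4) (nat_lit 338) (nat_lit 261) (nat_lit 121))) (XT.nd (nat_lit 78) (nat_lit 0) (nat_lit 0) (XT.lf (nat_lit 0) (nat_lit 19806200371) (nat_lit 76) (nat_lit 29791657824) (nat_lit 152) (nat_lit 153504200080) (nat_lit 4) (nat_lit 5) (nat_lit 5) (nat_lit 5) (nat_lit 6) (nat_lit 4) (nat_lit 339) (nat_lit 261) (nat_lit 120)) (XT.lf (nat_lit 0) (nat_lit 39943410676) (nat_lit 76) (nat_lit 19479435349) (nat_lit 152) (nat_lit 153243319860) (nat_lit 4) (nat_lit 5) (nat_lit 5) (nat_lit 5) (nat_lit 6) (nat_lit 4) (nat_lit 340) (nat_lit 261) (nat_lit 119)))) (XT.nd (nat_lit 156) (nat_lit 0) (nat_lit 0) (XT.nd (nat_lit 78) (nat_lit 0) (nat_lit 0) (XT.lf (nat_lit 0) (nat_lit 61085660205) (nat_lit 76) (nat_lit 8652343429) (nat_lit 152) (nat_lit 152970531954) (nat_lit 4) (nat_lit 5) (nat_lit 5) (nat_lit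 5) (nat_lit 6) (nat_lit 4) (nat_lit 341) (nat_lit 261) (nat_lit 118)) (XT.lf (nat_lit 0) (nat_lit 80610285873) (nat_lit 152) (nat_lit 150012185093) (nat_lit 0) (nat_lit 2628487072) (nat_lit 4) (nat_lit 5) (nat_lit 6) (nat_lit 4) (nat_lit 4) (nat_lit 4) (nat_lit 342) (nat_lit 261) (nat_lit 117))) (XT.nd (nat_lit 78) (nat_lit 0) (nat_lit 0) (XT.lf (nat_lit 0) (nat_lit 92167034175) (nat_lit 152) (nat_lit 137964494886) (nat_lit 0) (nat_lit 14181932432) (nat_lit 4) (nat_lit 5) (nat_lit 6) (nat_lit 4) (nat_lit 4) (nat_lit 4) (nat_lit 343) (nat_lit 261) (nat_lit 116)) (XT.lf (nat_lit 0) (nat_lit 104300677278) (nat_lit 152) (nat_lit 125316032454) (nat_lit 0) (nat_lit 26312429876) (nat_lit 4) (nat_lit 5) (nat_lit 6) (nat_lit 4) (nat_lit 4) (nat_lit 4) (nat_lit 344) (nat_lit 261) (nat_lit 115)))))) (XT.nd (nat_lit 31200) (nat_lit 0) (nat_lit 4180) (XT.nd (nat_lit 312) (nat_lit 0) (nat_lit 0)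 (XT.nd (nat_lit 156) (nat_lit 0) (nat_lit 0) (XT.nd (nat_lit 78) (nat_lit 0) (nat_lit 0) (XT.lf (nat_lit 0) (nat_lit 117040104809) (nat_lit 152) (nat_lit 112036682413) (nat_lit 0) (nat_lit 39048861541) (nat_lit 4) (nat_lit 5) (nat_lit 6) (nat_lit 4) (nat_lit 4) (nat_lit 4) (nat_lit 345) (nat_lit 261) (nat_lit 114)) (XT.lf (nat_lit 0) (nat_lit 130415648739) (nat_lit 152) (nat_lit 98094827261) (nat_lit 0) (nat_lit 52421552264) (nat_lit 4) (nat_lit 5) (nat_lit 6) (nat_lit 4) (nat_lit 4) (nat_lit 4) (nat_lit 346) (nat_lit 261) (nat_lit 113))) (XT.nd (nat_lit 78) (nat_lit 0) (nat_lit 0) (XT.lf (nat_lit 0) (nat_lit 144459155600) (nat_lit 152) (nat_lit 83457272106) (nat_lit 0) (nat_lit 66462341787) (nat_lit 4) (nat_lit 5) (nat_lit 6) (nat_lit 4) (nat_lit 4) (nat_lit 4) (nat_lit 347) (nat_lit 261) (nat_lit 112)) (XT.lf (nat_lit 0) (nat_lit 159204062313) (nat_lit 152) (nat_lit 68089165625)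 (nat_lit 0) (nat_lit 81204660558) (nat_lit 4) (nat_lit 5) (nat_lit 6) (nat_lit 4) (nat_lit 4) (nat_lit 4) (nat_lit 348) (nat_lit 261) (nat_lit 111)))) (XT.nd (nat_lit 30732) (nat_lit 0) (nat_lit 4104) (XT.nd (nat_lit 156) (nat_lit 0) (nat_lit 0) (XT.lf (nat_lit 0) (nat_lit 174685475800) (nat_lit 152) (nat_lit 51953917090) (nat_lit 0) (nat_lit 96683609339) (nat_lit 4) (nat_lit 5) (nat_lit 6) (nat_lit 4) (nat_lit 4) (nat_lit 4) (nat_lit 349) (nat_lit 261) (nat_lit 110)) (XT.lf (nat_lit 0) (nat_lit 208007106478) (nat_lit 152) (nat_lit 17226406821) (nat_lit 0) (nat_lit 130000657115) (nat_lit 4) (nat_lit 5) (nat_lit 6) (nat_lit 4) (nat_lit 4) (nat_lit 4) (nat_lit 351) (nat_lit 261) (nat_lit 108))) (XT.nd (nat_lit 78) (nat_lit 0) (nat_lit 0) (XT.lf (nat_lit 0) (nat_lit 2403222297) (nat_lit 684) (nat_lit 1893781400) (nat_lit 684) (nat_lit 1893781400) (nat_lit 58) (nat_lit 3) (nat_lit 67)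 (nat_lit 3) (nat_lit 67) (nat_lit 5) (nat_lit 262) (nat_lit 262) (nat_lit 196)) (XT.lf (nat_lit 76) (nat_lit 1047011150) (nat_lit 0) (nat_lit 4274228705) (nat_lit 684) (nat_lit 7347806587) (nat_lit 59) (nat_lit 5) (nat_lit 58) (nat_lit 3) (nat_lit 67) (nat_lit 5) (nat_lit 263) (nat_lit 262) (nat_lit 195))))) (XT.nd (nat_lit 312) (nat_lit 0) (nat_lit 76) (XT.nd (nat_lit 156) (nat_lit 0) (nat_lit 0) (XT.nd (nat_lit 78) (nat_lit 0) (nat_lit 0) (XT.lf (nat_lit 0) (nat_lit 5906807655) (nat_lit 608) (nat_lit 6732770464) (nat_lit 684) (nat_lit 329215973) (nat_lit 59) (nat_lit 5) (nat_lit 67) (nat_lit 5) (nat_lit 68) (nat_lit 5) (nat_lit 264) (nat_lit 262) (nat_lit 194)) (XT.lf (nat_lit 0) (nat_lit 6568631423) (nat_lit 608) (nat_lit 1683164767) (nat_lit 684) (nat_lit 5029526182) (nat_lit 59) (nat_lit 5) (nat_lit 67) (nat_lit 5) (nat_lit 68) (nat_lit 5) (nat_lit 265) (nat_lit 262) (nat_lit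 193))) (XT.nd (nat_lit 78) (nat_lit 0) (nat_lit 76) (XT.lf (nat_lit 76) (nat_lit 3724752704) (nat_lit 0) (nat_lit 3574955366) (nat_lit 684) (nat_lit 6308096272) (nat_lit 60) (nat_lit 5) (nat_lit 59) (nat_lit 5) (nat_lit 68) (nat_lit 5) (nat_lit 266) (nat_lit 262) (nat_lit 192)) (XT.lf (nat_lit 0) (nat_lit 8096139654) (nat_lit 608) (nat_lit 4523484222) (nat_lit 684) (nat_lit 1329675390) (nat_lit 60) (nat_lit 5) (nat_lit 68) (nat_lit 5) (nat_lit 69) (nat_lit 5) (nat_lit 267) (nat_lit 262) (nat_lit 191)))) (XT.nd (nat_lit 156) (nat_lit 0) (nat_lit 76) (XT.nd (nat_lit 78) (nat_lit 0) (nat_lit 0) (XT.lf (nat_lit 76) (nat_lit 1065777706) (nat_lit 0) (nat_lit 7921836091) (nat_lit 684) (nat_lit 5317616865) (nat_lit 61) (nat_lit 5) (nat_lit 60) (nat_lit 5) (nat_lit 69) (nat_lit 5) (nat_lit 268) (nat_lit 262) (nat_lit 190)) (XT.lf (nat_lit 76) (nat_lit 7077980726) (nat_lit 0) (nat_lit 2903005425)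 (nat_lit 684) (nat_lit 4695223179) (nat_lit 61) (nat_lit 5) (nat_lit 60) (nat_lit 5) (nat_lit 69) (nat_lit 5) (nat_lit 269) (nat_lit 262) (nat_lit 189))) (XT.nd (nat_lit 78) (nat_lit 0) (nat_lit 0) (XT.lf (nat_lit 0) (nat_lit 11042699317) (nat_lit 608) (nat_lit 1725930586) (nat_lit 684) (nat_lit 2296284778) (nat_lit 61) (nat_lit 5) (nat_lit 69) (nat_lit 5) (nat_lit 70) (nat_lit 5) (nat_lit 270) (nat_lit 262) (nat_lit 188)) (XT.nd (nat_lit 78) (nat_lit 0) (nat_lit 0) (XT.lf (nat_lit 76) (nat_lit 4523815091) (nat_lit 0) (nat_lit 7734493525) (nat_lit 684) (nat_lit 3209812215) (nat_lit 62) (nat_lit 5) (nat_lit 61) (nat_lit 5) (nat_lit 70) (nat_lit 5) (nat_lit 271) (nat_lit 262) (nat_lit 187)) (XT.lf (nat_lit 76) (nat_lit 11132816745) (nat_lit 0) (nat_lit 2414325573) (nat_lit 684) (nat_lit 2343823782) (nat_lit 62) (nat_lit 5) (nat_lit 61) (nat_lit 5) (nat_lit 70) (nat_lit 5) (nat_lit 272)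 (nat_lit 262) (nat_lit 186))))))))
noncomputable def xc152 : XT := (XT.nd (nat_lit 1248) (nat_lit 988) (nat_lit 0) (XT.nd (nat_lit 624) (nat_lit 1064) (nat_lit 0) (XT.nd (nat_lit 312) (nat_lit 304) (nat_lit 0) (XT.nd (nat_lit 156) (nat_lit 532) (nat_lit 0) (XT.nd (nat_lit 78) (nat_lit 0) (nat_lit 0) (XT.lf (nat_lit 0) (nat_lit 1729678907) (nat_lit 608) (nat_lit 13231333224) (nat_lit 684) (nat_lit 1371007977) (nat_lit 54) (nat_lit 5) (nat_lit 62) (nat_lit 5) (nat_lit 63) (nat_lit 5) (nat_lit 273) (nat_lit 262) (nat_lit 185)) (XT.lf (nat_lit 0) (nat_lit 8652945362) (nat_lit 608) (nat_lit 7896771864) (nat_lit 684) (nat_lit 240294115) (nat_lit 54) (nat_lit 5) (nat_lit 62) (nat_lit 5) (nat_lit 63) (nat_lit 5) (nat_lit 274) (nat_lit 262) (nat_lit 184))) (XT.nd (nat_lit 78) (nat_lit 456) (nat_lit 0) (XT.lf (nat_lit 0) (nat_lit 901674260) (nat_lit 684) (nat_lit 1376516122) (nat_lit 76) (nat_lit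 14992804256) (nat_lit 53) (nat_lit 5) (nat_lit 62) (nat_lit 5) (nat_lit 54) (nat_lit 5) (nat_lit 275) (nat_lit 262) (nat_lit 183)) (XT.lf (nat_lit 0) (nat_lit 2228569263) (nat_lit 532) (nat_lit 11935962053) (nat_lit 76) (nat_lit 3604582779) (nat_lit 47) (nat_lit 5) (nat_lit 54) (nat_lit 5) (nat_lit 48) (nat_lit 5) (nat_lit 276) (nat_lit 262) (nat_lit 182)))) (XT.nd (nat_lit 156) (nat_lit 0) (nat_lit 0) (XT.nd (nat_lit 78) (nat_lit 304) (nat_lit 0) (XT.lf (nat_lit 0) (nat_lit 3669098554) (nat_lit 532) (nat_lit 4890769142) (nat_lit 76) (nat_lit 9729982725) (nat_lit 47) (nat_lit 5) (nat_lit 54) (nat_lit 5) (nat_lit 48) (nat_lit 5) (nat_lit 277) (nat_lit 262) (nat_lit 181)) (XT.lf (nat_lit 0) (nat_lit 2576619112) (nat_lit 304) (nat_lit 2632166323) (nat_lit 380) (nat_lit 13626553354) (nat_lit 43) (nat_lit 5) (nat_lit 47) (nat_lit 5) (nat_lit 48) (nat_lit 5) (nat_lit 278) (nat_lit 262)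 (nat_lit 180))) (XT.nd (nat_lit 78) (nat_lit 0) (nat_lit 0) (XT.lf (nat_lit 0) (nat_lit 6953061262) (nat_lit 380) (nat_lit 8887261707) (nat_lit 76) (nat_lit 3561466743) (nat_lit 43) (nat_lit 5) (nat_lit 48) (nat_lit 5) (nat_lit 44) (nat_lit 5) (nat_lit 279) (nat_lit 262) (nat_lit 179)) (XT.lf (nat_lit 0) (nat_lit 8815643329) (nat_lit 380) (nat_lit 1202797276) (nat_lit 76) (nat_lit 9976633063) (nat_lit 43) (nat_lit 5) (nat_lit 48) (nat_lit 5) (nat_lit 44) (nat_lit 5) (nat_lit 280) (nat_lit 262) (nat_lit 178))))) (XT.nd (nat_lit 312) (nat_lit 532) (nat_lit 0) (XT.nd (nat_lit 156) (nat_lit 228) (nat_lit 0) (XT.nd (nat_lit 78) (nat_lit 0) (nat_lit 0) (XT.lf (nat_lit 0) (nat_lit 7080691809) (nat_lit 304) (nat_lit 3789728496) (nat_lit 380) (nat_lit 9742710236) (nat_lit 39) (nat_lit 5) (nat_lit 43) (nat_lit 5) (nat_lit 44) (nat_lit 5) (nat_lit 281) (nat_lit 262) (nat_lit 177)) (XT.lf (nat_lit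 0) (nat_lit 13080455279) (nat_lit 380) (nat_lit 5496474816) (nat_lit 76) (nat_lit 2682593261) (nat_lit 39) (nat_lit 5) (nat_lit 44) (nat_lit 5) (nat_lit 40) (nat_lit 5) (nat_lit 282) (nat_lit 262) (nat_lit 176))) (XT.nd (nat_lit 78) (nat_lit 0) (nat_lit 0) (XT.lf (nat_lit 0) (nat_lit 2962314961) (nat_lit 228) (nat_lit 12536457115) (nat_lit 304) (nat_lit 6434630976) (nat_lit 36) (nat_lit 5) (nat_lit 39) (nat_lit 5) (nat_lit 40) (nat_lit 5) (nat_lit 283) (nat_lit 262) (nat_lit 175)) (XT.lf (nat_lit 0) (nat_lit 12023399244) (nat_lit 228) (nat_lit 6097419793) (nat_lit 304) (nat_lit 4516070546) (nat_lit 36) (nat_lit 5) (nat_lit 39) (nat_lit 5) (nat_lit 40) (nat_lit 5) (nat_lit 284) (nat_lit 262) (nat_lit 174)))) (XT.nd (nat_lit 156) (nat_lit 304) (nat_lit 0) (XT.nd (nat_lit 78) (nat_lit 228) (nat_lit 0) (XT.lf (nat_lit 0) (nat_lit 20874528660) (nat_lit 304) (nat_lit 1859819147) (nat_lit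 76) (nat_lit 641225634) (nat_lit 36) (nat_lit 5) (nat_lit 40) (nat_lit 5) (nat_lit 37) (nat_lit 5) (nat_lit 285) (nat_lit 262) (nat_lit 173)) (XT.lf (nat_lit 0) (nat_lit 7459424877) (nat_lit 228) (nat_lit 16513585910) (nat_lit 304) (nat_lit 167874938) (nat_lit 33) (nat_lit 5) (nat_lit 36) (nat_lit 5) (nat_lit 37) (nat_lit 5) (nat_lit 286) (nat_lit 262) (nat_lit 172))) (XT.nd (nat_lit 78) (nat_lit 228) (nat_lit 0) (XT.lf (nat_lit 0) (nat_lit 2231680444) (nat_lit 304) (nat_lit 7680908264) (nat_lit 76) (nat_lit 15028999409) (nat_lit 32) (nat_lit 5) (nat_lit 36) (nat_lit 5) (nat_lit 33) (nat_lit 5) (nat_lit 287) (nat_lit 262) (nat_lit 171)) (XT.lf (nat_lit 0) (nat_lit 1814445606) (nat_lit 228) (nat_lit 2950645849) (nat_lit 304) (nat_lit 21016162564) (nat_lit 29) (nat_lit 5) (nat_lit 32) (nat_lit 5) (nat_lit 33) (nat_lit 5) (nat_lit 288) (nat_lit 262) (nat_lit 170)))))) (XT.nd (nat_lit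 624) (nat_lit 532) (nat_lit 0) (XT.nd (nat_lit 312) (nat_lit 228) (nat_lit 0) (XT.nd (nat_lit 156) (nat_lit 228) (nat_lit 0) (XT.nd (nat_lit 78) (nat_lit 0) (nat_lit 0) (XT.lf (nat_lit 0) (nat_lit 7616867650) (nat_lit 304) (nat_lit 14686179875) (nat_lit 76) (nat_lit 4350310931) (nat_lit 29) (nat_lit 5) (nat_lit 33) (nat_lit 5) (nat_lit 30) (nat_lit 5) (nat_lit 289) (nat_lit 262) (nat_lit 169)) (XT.lf (nat_lit 0) (nat_lit 10651432390) (nat_lit 304) (nat_lit 5000192865) (nat_lit 76) (nat_lit 11915470942) (nat_lit 29) (nat_lit 5) (nat_lit 33) (nat_lit 5) (nat_lit 30) (nat_lit 5) (nat_lit 290) (nat_lit 262) (nat_lit 168))) (XT.nd (nat_lit 78) (nat_lit 0) (nat_lit 0) (XT.lf (nat_lit 0) (nat_lit 5330904581) (nat_lit 228) (nat_lit 8582268758) (nat_lit 304) (nat_lit 14609611342) (nat_lit 26) (nat_lit 5) (nat_lit 29) (nat_lit 5) (nat_lit 30) (nat_lit 5) (nat_lit 291) (nat_lit 262) (nat_lit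 167)) (XT.lf (nat_lit 0) (nat_lit 16342499396) (nat_lit 228) (nat_lit 1072620119) (nat_lit 304) (nat_lit 12107316696) (nat_lit 26) (nat_lit 5) (nat_lit 29) (nat_lit 5) (nat_lit 30) (nat_lit 5) (nat_lit 292) (nat_lit 262) (nat_lit 166)))) (XT.nd (nat_lit 156) (nat_lit 76) (nat_lit 0) (XT.nd (nat_lit 78) (nat_lit 152) (nat_lit 0) (XT.lf (nat_lit 0) (nat_lit 21191291917) (nat_lit 304) (nat_lit 2783313921) (nat_lit 76) (nat_lit 6592540917) (nat_lit 26) (nat_lit 5) (nat_lit 30) (nat_lit 5) (nat_lit 27) (nat_lit 5) (nat_lit 293) (nat_lit 262) (nat_lit 165)) (XT.lf (nat_lit 0) (nat_lit 8374492067) (nat_lit 152) (nat_lit 16923225079) (nat_lit 228) (nat_lit 6359334789) (nat_lit 24) (nat_lit 5) (nat_lit 26) (nat_lit 5) (nat_lit 27) (nat_lit 5) (nat_lit 294) (nat_lit 262) (nat_lit 164))) (XT.nd (nat_lit 78) (nat_lit 76) (nat_lit 0) (XT.lf (nat_lit 0) (nat_lit 20177865345) (nat_lit 152) (nat_lit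 9472034300) (nat_lit 228) (nat_lit 3149560754) (nat_lit 24) (nat_lit 5) (nat_lit 26) (nat_lit 5) (nat_lit 27) (nat_lit 5) (nat_lit 295) (nat_lit 262) (nat_lit 163)) (XT.lf (nat_lit 0) (nat_lit 207124349) (nat_lit 228) (nat_lit 1439797239) (nat_lit 76) (nat_lit 32352248156) (nat_lit 23) (nat_lit 5) (nat_lit 26) (nat_lit 5) (nat_lit 24) (nat_lit 5) (nat_lit 296) (nat_lit 262) (nat_lit 162))))) (XT.nd (nat_lit 312) (nat_lit 152) (nat_lit 0) (XT.nd (nat_lit 156) (nat_lit 152) (nat_lit 0) (XT.nd (nat_lit 78) (nat_lit 0) (nat_lit 0) (XT.lf (nat_lit 0) (nat_lit 3890861558) (nat_lit 304) (nat_lit 24774724472) (nat_lit 76) (nat_lit 6577469497) (nat_lit 20) (nat_lit 5) (nat_lit 24) (nat_lit 5) (nat_lit 21) (nat_lit 5) (nat_lit 297) (nat_lit 262) (nat_lit 161)) (XT.lf (nat_lit 0) (nat_lit 7804497199) (nat_lit 304) (nat_lit 13561972066) (nat_lit 76) (nat_lit 15180405295) (nat_lit 20) (nat_lit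 5) (nat_lit 24) (nat_lit 5) (nat_lit 21) (nat_lit 5) (nat_lit 298) (nat_lit 262) (nat_lit 160))) (XT.nd (nat_lit 78) (nat_lit 152) (nat_lit 0) (XT.lf (nat_lit 0) (nat_lit 11908033156) (nat_lit 304) (nat_lit 1796686305) (nat_lit 76) (nat_lit 24211477528) (nat_lit 20) (nat_lit 5) (nat_lit 24) (nat_lit 5) (nat_lit 21) (nat_lit 5) (nat_lit 299) (nat_lit 262) (nat_lit 159)) (XT.lf (nat_lit 0) (nat_lit 10897947784) (nat_lit 152) (nat_lit 5483439474) (nat_lit 228) (nat_lit 22964388470) (nat_lit 18) (nat_lit 5) (nat_lit 20) (nat_lit 5) (nat_lit 21) (nat_lit 5) (nat_lit 300) (nat_lit 262) (nat_lit 158)))) (XT.nd (nat_lit 156) (nat_lit 152) (nat_lit 0) (XT.nd (nat_lit 78) (nat_lit 0) (nat_lit 0) (XT.lf (nat_lit 0) (nat_lit 21153101500) (nat_lit 228) (nat_lit 16613131933) (nat_lit 76) (nat_lit 3076886549) (nat_lit 18) (nat_lit 5) (nat_lit 21) (nat_lit 5) (nat_lit 19) (nat_lit 5) (nat_lit 301)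 (nat_lit 262) (nat_lit 157)) (XT.lf (nat_lit 0) (nat_lit 26248153562) (nat_lit 228) (nat_lit 4284068184) (nat_lit 76) (nat_lit 11878892285) (nat_lit 18) (nat_lit 5) (nat_lit 21) (nat_lit 5) (nat_lit 19) (nat_lit 5) (nat_lit 302) (nat_lit 262) (nat_lit 156))) (XT.nd (nat_lit 78) (nat_lit 0) (nat_lit 0) (XT.lf (nat_lit 0) (nat_lit 8940481308) (nat_lit 152) (nat_lit 22792167325) (nat_lit 228) (nat_lit 12318143856) (nat_lit 16) (nat_lit 5) (nat_lit 18) (nat_lit 5) (nat_lit 19) (nat_lit 5) (nat_lit 303) (nat_lit 262) (nat_lit 155)) (XT.lf (nat_lit 0) (nat_lit 22967987587) (nat_lit 152) (nat_lit 14591161847) (nat_lit 228) (nat_lit 8209934699) (nat_lit 16) (nat_lit 5) (nat_lit 18) (nat_lit 5) (nat_lit 19) (nat_lit 5) (nat_lit 304) (nat_lit 262) (nat_lit 154)))))))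
noncomputable def xc153 : XT := (XT.nd (nat_lit 1248) (nat_lit 228) (nat_lit 0) (XT.nd (nat_lit 624) (nat_lit 304) (nat_lit 0) (XT.nd (nat_lit 312) (nat_lit 152) (nat_lit 0) (XT.nd (nat_lit 156) (nat_lit 0) (nat_lit 0) (XT.nd (nat_lit 78) (nat_lit 152) (nat_lit 0) (XT.lf (nat_lit 0) (nat_lit 37690198835) (nat_lit 152) (nat_lit 5982231877) (nat_lit 228) (nat_lit 3901104315) (nat_lit 16) (nat_lit 5) (nat_lit 18) (nat_lit 5) (nat_lit 19) (nat_lit 5) (nat_lit 305) (nat_lit 262) (nat_lit 153)) (XT.lf (nat_lit 0) (nat_lit 706731156) (nat_lit 152) (nat_lit 45728610897) (nat_lit 76) (nat_lit 3027220320) (nat_lit 14) (nat_lit 5) (nat_lit 16) (nat_lit 5) (nat_lit 15) (nat_lit 5) (nat_lit 306) (nat_lit 262) (nat_lit 152))) (XT.nd (nat_lit 78) (nat_lit 0) (nat_lit 0) (XT.lf (nat_lit 0) (nat_lit 5677710226) (nat_lit 152) (nat_lit 33233814212) (nat_lit 76) (nat_lit 12518141360) (nat_lit 14) (nat_lit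 5) (nat_lit 16) (nat_lit 5) (nat_lit 15) (nat_lit 5) (nat_lit 307) (nat_lit 262) (nat_lit 151)) (XT.lf (nat_lit 0) (nat_lit 10893106950) (nat_lit 152) (nat_lit 20120569979) (nat_lit 76) (nat_lit 22481668379) (nat_lit 14) (nat_lit 5) (nat_lit 16) (nat_lit 5) (nat_lit 15) (nat_lit 5) (nat_lit 308) (nat_lit 262) (nat_lit 150)))) (XT.nd (nat_lit 156) (nat_lit 0) (nat_lit 0) (XT.nd (nat_lit 78) (nat_lit 152) (nat_lit 0) (XT.lf (nat_lit 0) (nat_lit 16365338939) (nat_lit 152) (nat_lit 6357656187) (nat_lit 76) (nat_lit 32941524060) (nat_lit 14) (nat_lit 5) (nat_lit 16) (nat_lit 5) (nat_lit 15) (nat_lit 5) (nat_lit 309) (nat_lit 262) (nat_lit 149)) (XT.lf (nat_lit 0) (nat_lit 8355111760) (nat_lit 152) (nat_lit 13882770266) (nat_lit 228) (nat_lit 35697947770) (nat_lit 12) (nat_lit 5) (nat_lit 14) (nat_lit 5) (nat_lit 15) (nat_lit 5) (nat_lit 310) (nat_lit 262) (nat_lit 148))) (XT.nd (nat_lit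 78) (nat_lit 0) (nat_lit 0) (XT.lf (nat_lit 0) (nat_lit 24018626336) (nat_lit 152) (nat_lit 4489439475) (nat_lit 228) (nat_lit 31807451844) (nat_lit 12) (nat_lit 5) (nat_lit 14) (nat_lit 5) (nat_lit 15) (nat_lit 5) (nat_lit 311) (nat_lit 262) (nat_lit 147)) (XT.lf (nat_lit 0) (nat_lit 35172143630) (nat_lit 228) (nat_lit 22438274200) (nat_lit 76) (nat_lit 5199764636) (nat_lit 12) (nat_lit 5) (nat_lit 15) (nat_lit 5) (nat_lit 13) (nat_lit 4) (nat_lit 312) (nat_lit 262) (nat_lit 146))))) (XT.nd (nat_lit 312) (nat_lit 228) (nat_lit 0) (XT.nd (nat_lit 156) (nat_lit 0) (nat_lit 0) (XT.nd (nat_lit 78) (nat_lit 76) (nat_lit 0) (XT.lf (nat_lit 0) (nat_lit 42239678470) (nat_lit 228) (nat_lit 7965566105) (nat_lit 76) (nat_lit 15220834528) (nat_lit 12) (nat_lit 5) (nat_lit 15) (nat_lit 5) (nat_lit 13) (nat_lit 4) (nat_lit 313) (nat_lit 262) (nat_lit 145)) (XT.lf (nat_lit 0) (nat_lit 7464701593)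 (nat_lit 76) (nat_lit 42309248381) (nat_lit 152) (nat_lit 18393163311) (nat_lit 11) (nat_lit 5) (nat_lit 12) (nat_lit 5) (nat_lit 13) (nat_lit 4) (nat_lit 314) (nat_lit 262) (nat_lit 144))) (XT.nd (nat_lit 78) (nat_lit 0) (nat_lit 0) (XT.lf (nat_lit 0) (nat_lit 23938116808) (nat_lit 76) (nat_lit 33878608942) (nat_lit 152) (nat_lit 13221894085) (nat_lit 11) (nat_lit 5) (nat_lit 12) (nat_lit 5) (nat_lit 13) (nat_lit 4) (nat_lit 315) (nat_lit 262) (nat_lit 143)) (XT.lf (nat_lit 0) (nat_lit 41230524365) (nat_lit 76) (nat_lit 25028154027) (nat_lit 152) (nat_lit 7795181128) (nat_lit 11) (nat_lit 5) (nat_lit 12) (nat_lit 5) (nat_lit 13) (nat_lit 4) (nat_lit 316) (nat_lit 262) (nat_lit 142)))) (XT.nd (nat_lit 156) (nat_lit 152) (nat_lit 0) (XT.nd (nat_lit 78) (nat_lit 76) (nat_lit 0) (XT.lf (nat_lit 0) (nat_lit 59383096665) (nat_lit 76) (nat_lit 15736811123) (nat_lit 152) (nat_lit 2100103695)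 (nat_lit 11) (nat_lit 5) (nat_lit 12) (nat_lit 5) (nat_lit 13) (nat_lit 4) (nat_lit 317) (nat_lit 262) (nat_lit 141)) (XT.lf (nat_lit 0) (nat_lit 3752812976) (nat_lit 152) (nat_lit 2166089304) (nat_lit 76) (nat_lit 74622685437) (nat_lit 10) (nat_lit 5) (nat_lit 12) (nat_lit 5) (nat_lit 11) (nat_lit 5) (nat_lit 318) (nat_lit 262) (nat_lit 140))) (XT.nd (nat_lit 78) (nat_lit 0) (nat_lit 0) (XT.lf (nat_lit 0) (nat_lit 10127870635) (nat_lit 228) (nat_lit 69368141268) (nat_lit 76) (nat_lit 4516513832) (nat_lit 8) (nat_lit 5) (nat_lit 11) (nat_lit 5) (nat_lit 9) (nat_lit 4) (nat_lit 319) (nat_lit 262) (nat_lit 139)) (XT.lf (nat_lit 0) (nat_lit 16953425769) (nat_lit 228) (nat_lit 55386405562) (nat_lit 76) (nat_lit 15310599702) (nat_lit 8) (nat_lit 5) (nat_lit 11) (nat_lit 5) (nat_lit 9) (nat_lit 4) (nat_lit 320) (nat_lit 262) (nat_lit 138)))))) (XT.nd (nat_lit 624) (nat_lit 152) (nat_lit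 0) (XT.nd (nat_lit 312) (nat_lit 0) (nat_lit 0) (XT.nd (nat_lit 156) (nat_lit 76) (nat_lit 0) (XT.nd (nat_lit 78) (nat_lit 0) (nat_lit 0) (XT.lf (nat_lit 0) (nat_lit 24117809389) (nat_lit 228) (nat_lit 40709564209) (nat_lit 76) (nat_lit 26642987709) (nat_lit 8) (nat_lit 5) (nat_lit 11) (nat_lit 5) (nat_lit 9) (nat_lit 4) (nat_lit 321) (nat_lit 262) (nat_lit 137)) (XT.lf (nat_lit 0) (nat_lit 31638079549) (nat_lit 228) (nat_lit 25302672348) (nat_lit 76) (nat_lit 38540659730) (nat_lit 8) (nat_lit 5) (nat_lit 11) (nat_lit 5) (nat_lit 9) (nat_lit 4) (nat_lit 322) (nat_lit 262) (nat_lit 136))) (XT.nd (nat_lit 78) (nat_lit 76) (nat_lit 0) (XT.lf (nat_lit 0) (nat_lit 39532141655) (nat_lit 228) (nat_lit 9129046905) (nat_lit 76) (nat_lit 51031943554) (nat_lit 8) (nat_lit 5) (nat_lit 11) (nat_lit 5) (nat_lit 9) (nat_lit 4) (nat_lit 323) (nat_lit 262) (nat_lit 135)) (XT.lf (nat_lit 0) (nat_lit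 8109371278) (nat_lit 76) (nat_lit 39836029827) (nat_lit 152) (nat_lit 56163819068) (nat_lit 7) (nat_lit 5) (nat_lit 8) (nat_lit 5) (nat_lit 9) (nat_lit 4) (nat_lit 324) (nat_lit 262) (nat_lit 134)))) (XT.nd (nat_lit 156) (nat_lit 0) (nat_lit 0) (XT.nd (nat_lit 78) (nat_lit 0) (nat_lit 0) (XT.lf (nat_lit 0) (nat_lit 26523266677) (nat_lit 76) (nat_lit 30408593828) (nat_lit 152) (nat_lit 51806631243) (nat_lit 7) (nat_lit 5) (nat_lit 8) (nat_lit 5) (nat_lit 9) (nat_lit 4) (nat_lit 325) (nat_lit 262) (nat_lit 133)) (XT.lf (nat_lit 0) (nat_lit 45854634380) (nat_lit 76) (nat_lit 20511039114) (nat_lit 152) (nat_lit 47233657555) (nat_lit 7) (nat_lit 5) (nat_lit 8) (nat_lit 5) (nat_lit 9) (nat_lit 4) (nat_lit 326) (nat_lit 262) (nat_lit 132))) (XT.nd (nat_lit 78) (nat_lit 0) (nat_lit 0) (XT.lf (nat_lit 0) (nat_lit 66149501454) (nat_lit 76) (nat_lit 10119800078) (nat_lit 152) (nat_lit 42434009969)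 (nat_lit 7) (nat_lit 5) (nat_lit 8) (nat_lit 5) (nat_lit 9) (nat_lit 4) (nat_lit 327) (nat_lit 262) (nat_lit 131)) (XT.lf (nat_lit 0) (nat_lit 86678656683) (nat_lit 152) (nat_lit 36618728426) (nat_lit 0) (nat_lit 764583733) (nat_lit 7) (nat_lit 5) (nat_lit 9) (nat_lit 4) (nat_lit 7) (nat_lit 4) (nat_lit 328) (nat_lit 262) (nat_lit 130))))) (XT.nd (nat_lit 312) (nat_lit 76) (nat_lit 0) (XT.nd (nat_lit 156) (nat_lit 76) (nat_lit 0) (XT.nd (nat_lit 78) (nat_lit 0) (nat_lit 0) (XT.lf (nat_lit 0) (nat_lit 97772659827) (nat_lit 152) (nat_lit 20055647838) (nat_lit 0) (nat_lit 11852047277) (nat_lit 7) (nat_lit 5) (nat_lit 9) (nat_lit 4) (nat_lit 7) (nat_lit 4) (nat_lit 329) (nat_lit 262) (nat_lit 129)) (XT.lf (nat_lit 0) (nat_lit 109419726819) (nat_lit 152) (nat_lit 2667133937) (nat_lit 0) (nat_lit 23492886078) (nat_lit 7) (nat_lit 5) (nat_lit 9) (nat_lit 4) (nat_lit 7) (nat_lit 4) (nat_lit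 330) (nat_lit 262) (nat_lit 128))) (XT.nd (nat_lit 78) (nat_lit 0) (nat_lit 0) (XT.lf (nat_lit 0) (nat_lit 16103631270) (nat_lit 76) (nat_lit 105795380314) (nat_lit 76) (nat_lit 19862607963) (nat_lit 6) (nat_lit 4) (nat_lit 7) (nat_lit 5) (nat_lit 7) (nat_lit 4) (nat_lit 331) (nat_lit 262) (nat_lit 127)) (XT.lf (nat_lit 0) (nat_lit 35902982240) (nat_lit 76) (nat_lit 99142923568) (nat_lit 76) (nat_lit 13204502065) (nat_lit 6) (nat_lit 4) (nat_lit 7) (nat_lit 5) (nat_lit 7) (nat_lit 4) (nat_lit 332) (nat_lit 262) (nat_lit 126)))) (XT.nd (nat_lit 156) (nat_lit 0) (nat_lit 0) (XT.nd (nat_lit 78) (nat_lit 76) (nat_lit 0) (XT.lf (nat_lit 0) (nat_lit 56689872791) (nat_lit 76) (nat_lit 92158820539) (nat_lit 76) (nat_lit 6215018890) (nat_lit 6) (nat_lit 4) (nat_lit 7) (nat_lit 5) (nat_lit 7) (nat_lit 4) (nat_lit 333) (nat_lit 262) (nat_lit 125)) (XT.lf (nat_lit 0) (nat_lit 1086556714) (nat_lit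 152) (nat_lit 83721484331) (nat_lit 76) (nat_lit 77408837442) (nat_lit 5) (nat_lit 5) (nat_lit 7) (nat_lit 5) (nat_lit 6) (nat_lit 4) (nat_lit 334) (nat_lit 262) (nat_lit 124))) (XT.nd (nat_lit 78) (nat_lit 0) (nat_lit 0) (XT.lf (nat_lit 0) (nat_lit 8543004111) (nat_lit 152) (nat_lit 68440647117) (nat_lit 76) (nat_lit 92739028128) (nat_lit 5) (nat_lit 5) (nat_lit 7) (nat_lit 5) (nat_lit 6) (nat_lit 4) (nat_lit 335) (nat_lit 262) (nat_lit 123)) (XT.nd (nat_lit 78) (nat_lit 0) (nat_lit 0) (XT.lf (nat_lit 0) (nat_lit 16370996166) (nat_lit 152) (nat_lit 52397910977) (nat_lit 76) (nat_lit 108834930330) (nat_lit 5) (nat_lit 5) (nat_lit 7) (nat_lit 5) (nat_lit 6) (nat_lit 4) (nat_lit 336) (nat_lit 262) (nat_lit 122)) (XT.lf (nat_lit 0) (nat_lit 24589170953) (nat_lit 152) (nat_lit 35555078923) (nat_lit 76) (nat_lit 125734867626) (nat_lit 5) (nat_lit 5) (nat_lit 7) (nat_lit 5) (nat_lit 6)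 (nat_lit 4) (nat_lit 337) (nat_lit 262) (nat_lit 121))))))))
noncomputable def xc154 : XT := (XT.nd (nat_lit 31902) (nat_lit 0) (nat_lit 2964) (XT.nd (nat_lit 624) (nat_lit 0) (nat_lit 0) (XT.nd (nat_lit 312) (nat_lit 0) (nat_lit 0) (XT.nd (nat_lit 156) (nat_lit 0) (nat_lit 0) (XT.nd (nat_lit 78) (nat_lit 76) (nat_lit 0) (XT.lf (nat_lit 0) (nat_lit 33217095555) (nat_lit 152) (nat_lit 17872048971) (nat_lit 76) (nat_lit 143479077961) (nat_lit 5) (nat_lit 5) (nat_lit 7) (nat_lit 5) (nat_lit 6) (nat_lit 4) (nat_lit 338) (nat_lit 262) (nat_lit 120)) (XT.lf (nat_lit 0) (nat_lit 716204339) (nat_lit 76) (nat_lit 41570290269) (nat_lit 152) (nat_lit 161404787073) (nat_lit 4) (nat_lit 5) (nat_lit 5) (nat_lit 5) (nat_lit 6) (nat_lit 4) (nat_lit 339) (nat_lit 262) (nat_lit 119))) (XT.nd (nat_lit 78) (nat_lit 0) (nat_lit 0) (XT.lf (nat_lit 0) (nat_lit 20852526209) (nat_lit 76) (nat_lit 31258429588)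 (nat_lit 152) (nat_lit 161144461158) (nat_lit 4) (nat_lit 5) (nat_lit 5) (nat_lit 5) (nat_lit 6) (nat_lit 4) (nat_lit 340) (nat_lit 262) (nat_lit 118)) (XT.lf (nat_lit 0) (nat_lit 41993929609) (nat_lit 76) (nat_lit 20431682234) (nat_lit 152) (nat_lit 160872201161) (nat_lit 4) (nat_lit 5) (nat_lit 5) (nat_lit 5) (nat_lit 6) (nat_lit 4) (nat_lit 341) (nat_lit 262) (nat_lit 117)))) (XT.nd (nat_lit 156) (nat_lit 0) (nat_lit 0) (XT.nd (nat_lit 78) (nat_lit 0) (nat_lit 0) (XT.lf (nat_lit 0) (nat_lit 64190751214) (nat_lit 76) (nat_lit 9064270236) (nat_lit 152) (nat_lit 160587358845) (nat_lit 4) (nat_lit 5) (nat_lit 5) (nat_lit 5) (nat_lit 6) (nat_lit 4) (nat_lit 342) (nat_lit 262) (nat_lit 116)) (XT.lf (nat_lit 0) (nat_lit 84669791280) (nat_lit 152) (nat_lit 157463206695) (nat_lit 0) (nat_lit 2778985849) (nat_lit 4) (nat_lit 5) (nat_lit 6) (nat_lit 4) (nat_lit 4) (nat_lit 4) (nat_lit 343)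 (nat_lit 262) (nat_lit 115))) (XT.nd (nat_lit 78) (nat_lit 0) (nat_lit 0) (XT.lf (nat_lit 0) (nat_lit 96802996468) (nat_lit 152) (nat_lit 144815493293) (nat_lit 0) (nat_lit 14909195170) (nat_lit 4) (nat_lit 5) (nat_lit 6) (nat_lit 4) (nat_lit 4) (nat_lit 4) (nat_lit 344) (nat_lit 262) (nat_lit 114)) (XT.lf (nat_lit 0) (nat_lit 109542006937) (nat_lit 152) (nat_lit 131536856614) (nat_lit 0) (nat_lit 27645352433) (nat_lit 4) (nat_lit 5) (nat_lit 6) (nat_lit 4) (nat_lit 4) (nat_lit 4) (nat_lit 345) (nat_lit 262) (nat_lit 113))))) (XT.nd (nat_lit 390) (nat_lit 0) (nat_lit 0) (XT.nd (nat_lit 156) (nat_lit 0) (nat_lit 0) (XT.nd (nat_lit 78) (nat_lit 0) (nat_lit 0) (XT.lf (nat_lit 0) (nat_lit 122917153664) (nat_lit 152) (nat_lit 117595680854) (nat_lit 0) (nat_lit 41017781821) (nat_lit 4) (nat_lit 5) (nat_lit 6) (nat_lit 4) (nat_lit 4) (nat_lit 4) (nat_lit 346) (nat_lit 262) (nat_lit 112))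 (XT.lf (nat_lit 0) (nat_lit 136960282237) (nat_lit 152) (nat_lit 102958772739) (nat_lit 0) (nat_lit 55058322452) (nat_lit 4) (nat_lit 5) (nat_lit 6) (nat_lit 4) (nat_lit 4) (nat_lit 4) (nat_lit 347) (nat_lit 262) (nat_lit 111))) (XT.nd (nat_lit 78) (nat_lit 0) (nat_lit 0) (XT.lf (nat_lit 0) (nat_lit 151704828676) (nat_lit 152) (nat_lit 87591282487) (nat_lit 0) (nat_lit 69800404185) (nat_lit 4) (nat_lit 5) (nat_lit 6) (nat_lit 4) (nat_lit 4) (nat_lit 4) (nat_lit 348) (nat_lit 262) (nat_lit 110)) (XT.lf (nat_lit 0) (nat_lit 167185899045) (nat_lit 152) (nat_lit 71456620836) (nat_lit 0) (nat_lit 85279127214) (nat_lit 4) (nat_lit 5) (nat_lit 6) (nat_lit 4) (nat_lit 4) (nat_lit 4) (nat_lit 349) (nat_lit 262) (nat_lit 109)))) (XT.nd (nat_lit 30732) (nat_lit 0) (nat_lit 4104) (XT.nd (nat_lit 30654) (nat_lit 0) (nat_lit 4104) (XT.lf (nat_lit 0) (nat_lit 200506891724) (nat_lit 152) (nat_lit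 36730201827) (nat_lit 0) (nat_lit 118595755226) (nat_lit 4) (nat_lit 5) (nat_lit 6) (nat_lit 4) (nat_lit 4) (nat_lit 4) (nat_lit 351) (nat_lit 262) (nat_lit 107)) (XT.lf (nat_lit 0) (nat_lit 2895764653) (nat_lit 684) (nat_lit 1791822866) (nat_lit 684) (nat_lit 1791822866) (nat_lit 58) (nat_lit 3) (nat_lit 67) (nat_lit 3) (nat_lit 67) (nat_lit 5) (nat_lit 263) (nat_lit 263) (nat_lit 194))) (XT.nd (nat_lit 78) (nat_lit 0) (nat_lit 76) (XT.lf (nat_lit 76) (nat_lit 1486313444) (nat_lit 0) (nat_lit 4816327407) (nat_lit 684) (nat_lit 6959719716) (nat_lit 59) (nat_lit 5) (nat_lit 58) (nat_lit 3) (nat_lit 67) (nat_lit 5) (nat_lit 264) (nat_lit 263) (nat_lit 193)) (XT.lf (nat_lit 0) (nat_lit 6878540379) (nat_lit 608) (nat_lit 6657773769) (nat_lit 684) (nat_lit 42936940) (nat_lit 59) (nat_lit 5) (nat_lit 67) (nat_lit 5) (nat_lit 68) (nat_lit 5) (nat_lit 265) (nat_lit 263) (nat_lit 192))))))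 (XT.nd (nat_lit 624) (nat_lit 1216) (nat_lit 0) (XT.nd (nat_lit 312) (nat_lit 0) (nat_lit 76) (XT.nd (nat_lit 156) (nat_lit 0) (nat_lit 76) (XT.nd (nat_lit 78) (nat_lit 0) (nat_lit 0) (XT.lf (nat_lit 0) (nat_lit 7541246176) (nat_lit 608) (nat_lit 1375289465) (nat_lit 684) (nat_lit 4992678842) (nat_lit 59) (nat_lit 5) (nat_lit 67) (nat_lit 5) (nat_lit 68) (nat_lit 5) (nat_lit 266) (nat_lit 263) (nat_lit 191)) (XT.lf (nat_lit 76) (nat_lit 4296700758) (nat_lit 0) (nat_lit 3987522528) (nat_lit 684) (nat_lit 5969218735) (nat_lit 60) (nat_lit 5) (nat_lit 59) (nat_lit 5) (nat_lit 68) (nat_lit 5) (nat_lit 267) (nat_lit 263) (nat_lit 190))) (XT.nd (nat_lit 78) (nat_lit 0) (nat_lit 0) (XT.lf (nat_lit 0) (nat_lit 9087498290) (nat_lit 608) (nat_lit 4345740782) (nat_lit 684) (nat_lit 1180601338) (nat_lit 60) (nat_lit 5) (nat_lit 68) (nat_lit 5) (nat_lit 69) (nat_lit 5) (nat_lit 268) (nat_lit 263)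 (nat_lit 189)) (XT.lf (nat_lit 76) (nat_lit 1516469441) (nat_lit 0) (nat_lit 8485350240) (nat_lit 684) (nat_lit 4987006267) (nat_lit 61) (nat_lit 5) (nat_lit 60) (nat_lit 5) (nat_lit 69) (nat_lit 5) (nat_lit 269) (nat_lit 263) (nat_lit 188)))) (XT.nd (nat_lit 156) (nat_lit 0) (nat_lit 76) (XT.nd (nat_lit 78) (nat_lit 0) (nat_lit 76) (XT.lf (nat_lit 76) (nat_lit 7810358667) (nat_lit 0) (nat_lit 3207605549) (nat_lit 684) (nat_lit 4361897251) (nat_lit 61) (nat_lit 5) (nat_lit 60) (nat_lit 5) (nat_lit 69) (nat_lit 5) (nat_lit 270) (nat_lit 263) (nat_lit 187)) (XT.lf (nat_lit 0) (nat_lit 12104776471) (nat_lit 608) (nat_lit 1420677883) (nat_lit 684) (nat_lit 2264102387) (nat_lit 61) (nat_lit 5) (nat_lit 69) (nat_lit 5) (nat_lit 70) (nat_lit 5) (nat_lit 271) (nat_lit 263) (nat_lit 186))) (XT.nd (nat_lit 78) (nat_lit 0) (nat_lit 0) (XT.lf (nat_lit 76) (nat_lit 5135239768) (nat_lit 0) (nat_lit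 8227658088) (nat_lit 684) (nat_lit 2851086695) (nat_lit 62) (nat_lit 5) (nat_lit 61) (nat_lit 5) (nat_lit 70) (nat_lit 5) (nat_lit 272) (nat_lit 263) (nat_lit 185)) (XT.lf (nat_lit 76) (nat_lit 12056347031) (nat_lit 0) (nat_lit 2636413173) (nat_lit 684) (nat_lit 1966523418) (nat_lit 62) (nat_lit 5) (nat_lit 61) (nat_lit 5) (nat_lit 70) (nat_lit 5) (nat_lit 273) (nat_lit 263) (nat_lit 184))))) (XT.nd (nat_lit 312) (nat_lit 304) (nat_lit 0) (XT.nd (nat_lit 156) (nat_lit 456) (nat_lit 0) (XT.nd (nat_lit 78) (nat_lit 76) (nat_lit 0) (XT.lf (nat_lit 0) (nat_lit 2204499598) (nat_lit 608) (nat_lit 13955081477) (nat_lit 684) (nat_lit 963830554) (nat_lit 54) (nat_lit 5) (nat_lit 62) (nat_lit 5) (nat_lit 63) (nat_lit 5) (nat_lit 274) (nat_lit 263) (nat_lit 183)) (XT.lf (nat_lit 0) (nat_lit 194339551) (nat_lit 684) (nat_lit 8153200235) (nat_lit 76) (nat_lit 9257806364) (nat_lit 53) (nat_lit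 5) (nat_lit 62) (nat_lit 5) (nat_lit 54) (nat_lit 5) (nat_lit 275) (nat_lit 263) (nat_lit 182))) (XT.nd (nat_lit 78) (nat_lit 456) (nat_lit 0) (XT.lf (nat_lit 0) (nat_lit 1364446464) (nat_lit 684) (nat_lit 1076980218) (nat_lit 76) (nat_lit 15669915098) (nat_lit 53) (nat_lit 5) (nat_lit 62) (nat_lit 5) (nat_lit 54) (nat_lit 5) (nat_lit 276) (nat_lit 263) (nat_lit 181)) (XT.lf (nat_lit 0) (nat_lit 2742813990) (nat_lit 532) (nat_lit 12147318443) (nat_lit 76) (nat_lit 3745088776) (nat_lit 47) (nat_lit 5) (nat_lit 54) (nat_lit 5) (nat_lit 48) (nat_lit 5) (nat_lit 277) (nat_lit 263) (nat_lit 180)))) (XT.nd (nat_lit 156) (nat_lit 0) (nat_lit 0) (XT.nd (nat_lit 78) (nat_lit 304) (nat_lit 0) (XT.lf (nat_lit 0) (nat_lit 4236188019) (nat_lit 532) (nat_lit 4768220254) (nat_lit 76) (nat_lit 10178650298) (nat_lit 47) (nat_lit 5) (nat_lit 54) (nat_lit 5) (nat_lit 48) (nat_lit 5) (nat_lit 278) (nat_lit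 263) (nat_lit 179)) (XT.lf (nat_lit 0) (nat_lit 3066616649) (nat_lit 304) (nat_lit 2773613106) (nat_lit 380) (nat_lit 13916323203) (nat_lit 43) (nat_lit 5) (nat_lit 47) (nat_lit 5) (nat_lit 48) (nat_lit 5) (nat_lit 279) (nat_lit 263) (nat_lit 178))) (XT.nd (nat_lit 78) (nat_lit 0) (nat_lit 0) (XT.lf (nat_lit 0) (nat_lit 7653906176) (nat_lit 380) (nat_lit 8967936260) (nat_lit 76) (nat_lit 3730470009) (nat_lit 43) (nat_lit 5) (nat_lit 48) (nat_lit 5) (nat_lit 44) (nat_lit 5) (nat_lit 280) (nat_lit 263) (nat_lit 177)) (XT.lf (nat_lit 0) (nat_lit 9592798687) (nat_lit 380) (nat_lit 916567109) (nat_lit 76) (nat_lit 10466826553) (nat_lit 43) (nat_lit 5) (nat_lit 48) (nat_lit 5) (nat_lit 44) (nat_lit 5) (nat_lit 281) (nat_lit 263) (nat_lit 176)))))))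
noncomputable def xc155 : XT := (XT.nd (nat_lit 1248) (nat_lit 836) (nat_lit 0) (XT.nd (nat_lit 624) (nat_lit 456) (nat_lit 0) (XT.nd (nat_lit 312) (nat_lit 532) (nat_lit 0) (XT.nd (nat_lit 156) (nat_lit 228) (nat_lit 0) (XT.nd (nat_lit 78) (nat_lit 0) (nat_lit 0) (XT.lf (nat_lit 0) (nat_lit 7775509817) (nat_lit 304) (nat_lit 3964107508) (nat_lit 380) (nat_lit 9886156092) (nat_lit 39) (nat_lit 5) (nat_lit 43) (nat_lit 5) (nat_lit 44) (nat_lit 5) (nat_lit 282) (nat_lit 263) (nat_lit 175)) (XT.lf (nat_lit 0) (nat_lit 14044870303) (nat_lit 380) (nat_lit 5429811701) (nat_lit 76) (nat_lit 2830650430) (nat_lit 39) (nat_lit 5) (nat_lit 44) (nat_lit 5) (nat_lit 40) (nat_lit 5) (nat_lit 283) (nat_lit 263) (nat_lit 174))) (XT.nd (nat_lit 78) (nat_lit 0) (nat_lit 0) (XT.lf (nat_lit 0) (nat_lit 3446409713) (nat_lit 228) (nat_lit 13128158217) (nat_lit 304) (nat_lit 6438893387) (nat_lit 36) (nat_lit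 5) (nat_lit 39) (nat_lit 5) (nat_lit 40) (nat_lit 5) (nat_lit 284) (nat_lit 263) (nat_lit 173)) (XT.lf (nat_lit 0) (nat_lit 12944549210) (nat_lit 228) (nat_lit 6368841494) (nat_lit 304) (nat_lit 4439522513) (nat_lit 36) (nat_lit 5) (nat_lit 39) (nat_lit 5) (nat_lit 40) (nat_lit 5) (nat_lit 285) (nat_lit 263) (nat_lit 172)))) (XT.nd (nat_lit 156) (nat_lit 228) (nat_lit 0) (XT.nd (nat_lit 78) (nat_lit 304) (nat_lit 0) (XT.lf (nat_lit 0) (nat_lit 22191638856) (nat_lit 304) (nat_lit 1633497140) (nat_lit 76) (nat_lit 704123775) (nat_lit 36) (nat_lit 5) (nat_lit 40) (nat_lit 5) (nat_lit 37) (nat_lit 5) (nat_lit 286) (nat_lit 263) (nat_lit 171)) (XT.lf (nat_lit 0) (nat_lit 100304161) (nat_lit 304) (nat_lit 17188370039) (nat_lit 76) (nat_lit 8044556014) (nat_lit 32) (nat_lit 5) (nat_lit 36) (nat_lit 5) (nat_lit 33) (nat_lit 5) (nat_lit 287) (nat_lit 263) (nat_lit 170))) (XT.nd (nat_lit 78)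 (nat_lit 228) (nat_lit 0) (XT.lf (nat_lit 0) (nat_lit 2601294131) (nat_lit 304) (nat_lit 7755990055) (nat_lit 76) (nat_lit 15817252481) (nat_lit 32) (nat_lit 5) (nat_lit 36) (nat_lit 5) (nat_lit 33) (nat_lit 5) (nat_lit 288) (nat_lit 263) (nat_lit 169)) (XT.lf (nat_lit 0) (nat_lit 2209148224) (nat_lit 228) (nat_lit 3044686327) (nat_lit 304) (nat_lit 21802786912) (nat_lit 29) (nat_lit 5) (nat_lit 32) (nat_lit 5) (nat_lit 33) (nat_lit 5) (nat_lit 289) (nat_lit 263) (nat_lit 168))))) (XT.nd (nat_lit 312) (nat_lit 228) (nat_lit 0) (XT.nd (nat_lit 156) (nat_lit 228) (nat_lit 0) (XT.nd (nat_lit 78) (nat_lit 0) (nat_lit 0) (XT.lf (nat_lit 0) (nat_lit 8237066918) (nat_lit 304) (nat_lit 15118736071) (nat_lit 76) (nat_lit 4617140519) (nat_lit 29) (nat_lit 5) (nat_lit 33) (nat_lit 5) (nat_lit 30) (nat_lit 5) (nat_lit 290) (nat_lit 263) (nat_lit 167)) (XT.lf (nat_lit 0) (nat_lit 11411961996)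 (nat_lit 304) (nat_lit 4962818891) (nat_lit 76) (nat_lit 12558210242) (nat_lit 29) (nat_lit 5) (nat_lit 33) (nat_lit 5) (nat_lit 30) (nat_lit 5) (nat_lit 291) (nat_lit 263) (nat_lit 166))) (XT.nd (nat_lit 78) (nat_lit 0) (nat_lit 0) (XT.lf (nat_lit 0) (nat_lit 5880198207) (nat_lit 228) (nat_lit 8950151138) (nat_lit 304) (nat_lit 15106487295) (nat_lit 26) (nat_lit 5) (nat_lit 29) (nat_lit 5) (nat_lit 30) (nat_lit 5) (nat_lit 292) (nat_lit 263) (nat_lit 165)) (XT.lf (nat_lit 0) (nat_lit 17428908554) (nat_lit 228) (nat_lit 1067935831) (nat_lit 304) (nat_lit 12490201945) (nat_lit 26) (nat_lit 5) (nat_lit 29) (nat_lit 5) (nat_lit 30) (nat_lit 5) (nat_lit 293) (nat_lit 263) (nat_lit 164)))) (XT.nd (nat_lit 156) (nat_lit 76) (nat_lit 0) (XT.nd (nat_lit 78) (nat_lit 152) (nat_lit 0) (XT.lf (nat_lit 0) (nat_lit 22452646379) (nat_lit 304) (nat_lit 2655922080) (nat_lit 76) (nat_lit 6975928763)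 (nat_lit 26) (nat_lit 5) (nat_lit 30) (nat_lit 5) (nat_lit 27) (nat_lit 5) (nat_lit 294) (nat_lit 263) (nat_lit 163)) (XT.lf (nat_lit 0) (nat_lit 9055474892) (nat_lit 152) (nat_lit 17703403522) (nat_lit 228) (nat_lit 6470338654) (nat_lit 24) (nat_lit 5) (nat_lit 26) (nat_lit 5) (nat_lit 27) (nat_lit 5) (nat_lit 295) (nat_lit 263) (nat_lit 162))) (XT.nd (nat_lit 78) (nat_lit 76) (nat_lit 0) (XT.lf (nat_lit 0) (nat_lit 21436528348) (nat_lit 152) (nat_lit 9882795243) (nat_lit 228) (nat_lit 3109931293) (nat_lit 24) (nat_lit 5) (nat_lit 26) (nat_lit 5) (nat_lit 27) (nat_lit 5) (nat_lit 296) (nat_lit 263) (nat_lit 161)) (XT.lf (nat_lit 0) (nat_lit 399193736) (nat_lit 228) (nat_lit 1267148177) (nat_lit 76) (nat_lit 34022945932) (nat_lit 23) (nat_lit 5) (nat_lit 26) (nat_lit 5) (nat_lit 24) (nat_lit 5) (nat_lit 297) (nat_lit 263) (nat_lit 160)))))) (XT.nd (nat_lit 624) (nat_lit 304) (nat_lit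 0) (XT.nd (nat_lit 312) (nat_lit 152) (nat_lit 0) (XT.nd (nat_lit 156) (nat_lit 152) (nat_lit 0) (XT.nd (nat_lit 78) (nat_lit 0) (nat_lit 0) (XT.lf (nat_lit 0) (nat_lit 4263219961) (nat_lit 304) (nat_lit 25764205138) (nat_lit 76) (nat_lit 6968173650) (nat_lit 20) (nat_lit 5) (nat_lit 24) (nat_lit 5) (nat_lit 21) (nat_lit 5) (nat_lit 298) (nat_lit 263) (nat_lit 159)) (XT.lf (nat_lit 0) (nat_lit 8364069987) (nat_lit 304) (nat_lit 14002684424) (nat_lit 76) (nat_lit 15998311920) (nat_lit 20) (nat_lit 5) (nat_lit 24) (nat_lit 5) (nat_lit 21) (nat_lit 5) (nat_lit 299) (nat_lit 263) (nat_lit 158))) (XT.nd (nat_lit 78) (nat_lit 152) (nat_lit 0) (XT.lf (nat_lit 0) (nat_lit 12664718555) (nat_lit 304) (nat_lit 1660438482) (nat_lit 76) (nat_lit 25478133652) (nat_lit 20) (nat_lit 5) (nat_lit 24) (nat_lit 5) (nat_lit 21) (nat_lit 5) (nat_lit 300) (nat_lit 263) (nat_lit 157)) (XT.lf (nat_lit 0)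 (nat_lit 11665280826) (nat_lit 152) (nat_lit 5692252202) (nat_lit 228) (nat_lit 23947056750) (nat_lit 18) (nat_lit 5) (nat_lit 20) (nat_lit 5) (nat_lit 21) (nat_lit 5) (nat_lit 301) (nat_lit 263) (nat_lit 156)))) (XT.nd (nat_lit 156) (nat_lit 152) (nat_lit 0) (XT.nd (nat_lit 78) (nat_lit 0) (nat_lit 0) (XT.lf (nat_lit 0) (nat_lit 22361325002) (nat_lit 228) (nat_lit 17224845721) (nat_lit 76) (nat_lit 3290985487) (nat_lit 18) (nat_lit 5) (nat_lit 21) (nat_lit 5) (nat_lit 19) (nat_lit 5) (nat_lit 302) (nat_lit 263) (nat_lit 155)) (XT.lf (nat_lit 0) (nat_lit 27703959742) (nat_lit 228) (nat_lit 4289754633) (nat_lit 76) (nat_lit 12530222243) (nat_lit 18) (nat_lit 5) (nat_lit 21) (nat_lit 5) (nat_lit 19) (nat_lit 5) (nat_lit 303) (nat_lit 263) (nat_lit 154))) (XT.nd (nat_lit 78) (nat_lit 0) (nat_lit 0) (XT.lf (nat_lit 0) (nat_lit 9592659157) (nat_lit 152) (nat_lit 23866394935) (nat_lit 228)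 (nat_lit 12786753000) (nat_lit 16) (nat_lit 5) (nat_lit 18) (nat_lit 5) (nat_lit 19) (nat_lit 5) (nat_lit 304) (nat_lit 263) (nat_lit 153)) (XT.lf (nat_lit 0) (nat_lit 24311771522) (nat_lit 152) (nat_lit 15258452552) (nat_lit 228) (nat_lit 8480147578) (nat_lit 16) (nat_lit 5) (nat_lit 18) (nat_lit 5) (nat_lit 19) (nat_lit 5) (nat_lit 305) (nat_lit 263) (nat_lit 152))))) (XT.nd (nat_lit 312) (nat_lit 152) (nat_lit 0) (XT.nd (nat_lit 156) (nat_lit 0) (nat_lit 0) (XT.nd (nat_lit 78) (nat_lit 152) (nat_lit 0) (XT.lf (nat_lit 0) (nat_lit 39760789305) (nat_lit 152) (nat_lit 6222041197) (nat_lit 228) (nat_lit 3962555858) (nat_lit 16) (nat_lit 5) (nat_lit 18) (nat_lit 5) (nat_lit 19) (nat_lit 5) (nat_lit 306) (nat_lit 263) (nat_lit 151)) (XT.lf (nat_lit 0) (nat_lit 869130369) (nat_lit 152) (nat_lit 47821515284) (nat_lit 76) (nat_lit 3238250431) (nat_lit 14) (nat_lit 5) (nat_lit 16) (nat_lit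 5) (nat_lit 15) (nat_lit 5) (nat_lit 307) (nat_lit 263) (nat_lit 150))) (XT.nd (nat_lit 78) (nat_lit 0) (nat_lit 0) (XT.lf (nat_lit 0) (nat_lit 6082607790) (nat_lit 152) (nat_lit 34711194296) (nat_lit 76) (nat_lit 13200876138) (nat_lit 14) (nat_lit 5) (nat_lit 16) (nat_lit 5) (nat_lit 15) (nat_lit 5) (nat_lit 308) (nat_lit 263) (nat_lit 149)) (XT.lf (nat_lit 0) (nat_lit 11553011872) (nat_lit 152) (nat_lit 20951064547) (nat_lit 76) (nat_lit 23659873427) (nat_lit 14) (nat_lit 5) (nat_lit 16) (nat_lit 5) (nat_lit 15) (nat_lit 5) (nat_lit 309) (nat_lit 263) (nat_lit 148)))) (XT.nd (nat_lit 156) (nat_lit 0) (nat_lit 0) (XT.nd (nat_lit 78) (nat_lit 152) (nat_lit 0) (XT.lf (nat_lit 0) (nat_lit 17293367385) (nat_lit 152) (nat_lit 6508363825) (nat_lit 76) (nat_lit 34640144671) (nat_lit 14) (nat_lit 5) (nat_lit 16) (nat_lit 5) (nat_lit 15) (nat_lit 5) (nat_lit 310) (nat_lit 263) (nat_lit 147))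 (XT.lf (nat_lit 0) (nat_lit 8937346145) (nat_lit 152) (nat_lit 14519532718) (nat_lit 228) (nat_lit 37370024248) (nat_lit 12) (nat_lit 5) (nat_lit 14) (nat_lit 5) (nat_lit 15) (nat_lit 5) (nat_lit 311) (nat_lit 263) (nat_lit 146))) (XT.nd (nat_lit 78) (nat_lit 0) (nat_lit 0) (XT.lf (nat_lit 0) (nat_lit 25376204127) (nat_lit 152) (nat_lit 4659267580) (nat_lit 228) (nat_lit 33290375950) (nat_lit 12) (nat_lit 5) (nat_lit 14) (nat_lit 5) (nat_lit 15) (nat_lit 5) (nat_lit 312) (nat_lit 263) (nat_lit 145)) (XT.nd (nat_lit 78) (nat_lit 0) (nat_lit 0) (XT.lf (nat_lit 0) (nat_lit 37028708669) (nat_lit 228) (nat_lit 23406626757) (nat_lit 76) (nat_lit 5510128985) (nat_lit 12) (nat_lit 5) (nat_lit 15) (nat_lit 5) (nat_lit 13) (nat_lit 4) (nat_lit 313) (nat_lit 263) (nat_lit 144)) (XT.lf (nat_lit 0) (nat_lit 44444955591) (nat_lit 228) (nat_lit 8217595694) (nat_lit 76) (nat_lit 16029853509) (nat_lit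 12) (nat_lit 5) (nat_lit 15) (nat_lit 5) (nat_lit 13) (nat_lit 4) (nat_lit 314) (nat_lit 263) (nat_lit 143))))))))
noncomputable def xc156 : XT := (XT.nd (nat_lit 2496) (nat_lit 0) (nat_lit 0) (XT.nd (nat_lit 1248) (nat_lit 228) (nat_lit 0) (XT.nd (nat_lit 624) (nat_lit 76) (nat_lit 0) (XT.nd (nat_lit 312) (nat_lit 228) (nat_lit 0) (XT.nd (nat_lit 156) (nat_lit 0) (nat_lit 0) (XT.nd (nat_lit 78) (nat_lit 0) (nat_lit 0) (XT.lf (nat_lit 0) (nat_lit 7981826539) (nat_lit 76) (nat_lit 44371918121) (nat_lit 152) (nat_lit 19216870757) (nat_lit 11) (nat_lit 5) (nat_lit 12) (nat_lit 5) (nat_lit 13) (nat_lit 4) (nat_lit 315) (nat_lit 263) (nat_lit 142)) (XT.lf (nat_lit 0) (nat_lit 25272060616) (nat_lit 76) (nat_lit 35522260648) (nat_lit 152) (nat_lit 13791607152) (nat_lit 11) (nat_lit 5) (nat_lit 12) (nat_lit 5) (nat_lit 13) (nat_lit 4) (nat_lit 316) (nat_lit 263) (nat_lit 141))) (XT.nd (nat_lit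 78) (nat_lit 0) (nat_lit 0) (XT.lf (nat_lit 0) (nat_lit 43422562934) (nat_lit 76) (nat_lit 26231677213) (nat_lit 152) (nat_lit 8097910054) (nat_lit 11) (nat_lit 5) (nat_lit 12) (nat_lit 5) (nat_lit 13) (nat_lit 4) (nat_lit 317) (nat_lit 263) (nat_lit 140)) (XT.lf (nat_lit 0) (nat_lit 62476548975) (nat_lit 76) (nat_lit 16478047378) (nat_lit 152) (nat_lit 2122223041) (nat_lit 11) (nat_lit 5) (nat_lit 12) (nat_lit 5) (nat_lit 13) (nat_lit 4) (nat_lit 318) (nat_lit 263) (nat_lit 139)))) (XT.nd (nat_lit 156) (nat_lit 0) (nat_lit 0) (XT.nd (nat_lit 78) (nat_lit 152) (nat_lit 0) (XT.lf (nat_lit 0) (nat_lit 4016865982) (nat_lit 152) (nat_lit 2153254665) (nat_lit 76) (nat_lit 78394491821) (nat_lit 10) (nat_lit 5) (nat_lit 12) (nat_lit 5) (nat_lit 11) (nat_lit 5) (nat_lit 319) (nat_lit 263) (nat_lit 138)) (XT.lf (nat_lit 0) (nat_lit 10709594217) (nat_lit 228) (nat_lit 72714104049) (nat_lit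 76) (nat_lit 4785464380) (nat_lit 8) (nat_lit 5) (nat_lit 11) (nat_lit 5) (nat_lit 9) (nat_lit 4) (nat_lit 320) (nat_lit 263) (nat_lit 137))) (XT.nd (nat_lit 78) (nat_lit 0) (nat_lit 0) (XT.lf (nat_lit 0) (nat_lit 17872839963) (nat_lit 228) (nat_lit 58039112237) (nat_lit 76) (nat_lit 16117200979) (nat_lit 8) (nat_lit 5) (nat_lit 11) (nat_lit 5) (nat_lit 9) (nat_lit 4) (nat_lit 321) (nat_lit 263) (nat_lit 136)) (XT.lf (nat_lit 0) (nat_lit 25392026435) (nat_lit 228) (nat_lit 42633981845) (nat_lit 76) (nat_lit 28014252611) (nat_lit 8) (nat_lit 5) (nat_lit 11) (nat_lit 5) (nat_lit 9) (nat_lit 4) (nat_lit 322) (nat_lit 263) (nat_lit 135))))) (XT.nd (nat_lit 312) (nat_lit 0) (nat_lit 0) (XT.nd (nat_lit 156) (nat_lit 76) (nat_lit 0) (XT.nd (nat_lit 78) (nat_lit 0) (nat_lit 0) (XT.lf (nat_lit 0) (nat_lit 33285056456) (nat_lit 228) (nat_lit 26462033990) (nat_lit 76) (nat_lit 40504945589) (nat_lit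 8) (nat_lit 5) (nat_lit 11) (nat_lit 5) (nat_lit 9) (nat_lit 4) (nat_lit 323) (nat_lit 263) (nat_lit 134)) (XT.lf (nat_lit 0) (nat_lit 41570722957) (nat_lit 228) (nat_lit 9484764035) (nat_lit 76) (nat_lit 53619019658) (nat_lit 8) (nat_lit 5) (nat_lit 11) (nat_lit 5) (nat_lit 9) (nat_lit 4) (nat_lit 324) (nat_lit 263) (nat_lit 133))) (XT.nd (nat_lit 78) (nat_lit 0) (nat_lit 0) (XT.lf (nat_lit 0) (nat_lit 8613950295) (nat_lit 76) (nat_lit 41789291323) (nat_lit 152) (nat_lit 58908236414) (nat_lit 7) (nat_lit 5) (nat_lit 8) (nat_lit 5) (nat_lit 9) (nat_lit 4) (nat_lit 325) (nat_lit 263) (nat_lit 132)) (XT.lf (nat_lit 0) (nat_lit 27943820918) (nat_lit 76) (nat_lit 31892318762) (nat_lit 152) (nat_lit 54336226036) (nat_lit 7) (nat_lit 5) (nat_lit 8) (nat_lit 5) (nat_lit 9) (nat_lit 4) (nat_lit 326) (nat_lit 263) (nat_lit 131)))) (XT.nd (nat_lit 156) (nat_lit 0) (nat_lit 0) (XT.nd (nat_lit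 78) (nat_lit 0) (nat_lit 0) (XT.lf (nat_lit 0) (nat_lit 48237262202) (nat_lit 76) (nat_lit 21501634158) (nat_lit 152) (nat_lit 49537495890) (nat_lit 7) (nat_lit 5) (nat_lit 8) (nat_lit 5) (nat_lit 9) (nat_lit 4) (nat_lit 327) (nat_lit 263) (nat_lit 130)) (XT.lf (nat_lit 0) (nat_lit 69542591863) (nat_lit 76) (nat_lit 10592497785) (nat_lit 152) (nat_lit 44500620428) (nat_lit 7) (nat_lit 5) (nat_lit 8) (nat_lit 5) (nat_lit 9) (nat_lit 4) (nat_lit 328) (nat_lit 263) (nat_lit 129))) (XT.nd (nat_lit 78) (nat_lit 0) (nat_lit 0) (XT.lf (nat_lit 0) (nat_lit 91062916017) (nat_lit 152) (nat_lit 38365986228) (nat_lit 0) (nat_lit 833505049) (nat_lit 7) (nat_lit 5) (nat_lit 9) (nat_lit 4) (nat_lit 7) (nat_lit 4) (nat_lit 329) (nat_lit 263) (nat_lit 128)) (XT.lf (nat_lit 0) (nat_lit 102709222818) (nat_lit 152) (nat_lit 20978736306) (nat_lit 0) (nat_lit 12473880240) (nat_lit 7) (nat_lit 5) (nat_lit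 9) (nat_lit 4) (nat_lit 7) (nat_lit 4) (nat_lit 330) (nat_lit 263) (nat_lit 127)))))) (XT.nd (nat_lit 624) (nat_lit 76) (nat_lit 0) (XT.nd (nat_lit 312) (nat_lit 76) (nat_lit 0) (XT.nd (nat_lit 156) (nat_lit 0) (nat_lit 0) (XT.nd (nat_lit 78) (nat_lit 76) (nat_lit 0) (XT.lf (nat_lit 0) (nat_lit 114936360779) (nat_lit 152) (nat_lit 2724591658) (nat_lit 0) (nat_lit 24695369048) (nat_lit 7) (nat_lit 5) (nat_lit 9) (nat_lit 4) (nat_lit 7) (nat_lit 4) (nat_lit 331) (nat_lit 263) (nat_lit 126)) (XT.lf (nat_lit 0) (nat_lit 16983487631) (nat_lit 76) (nat_lit 111055114337) (nat_lit 76) (nat_lit 20808742461) (nat_lit 6) (nat_lit 4) (nat_lit 7) (nat_lit 5) (nat_lit 7) (nat_lit 4) (nat_lit 332) (nat_lit 263) (nat_lit 125))) (XT.nd (nat_lit 78) (nat_lit 0) (nat_lit 0) (XT.lf (nat_lit 0) (nat_lit 37769250207) (nat_lit 76) (nat_lit 104071464992) (nat_lit 76) (nat_lit 13819969168) (nat_lit 6) (nat_lit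 4) (nat_lit 7) (nat_lit 5) (nat_lit 7) (nat_lit 4) (nat_lit 333) (nat_lit 263) (nat_lit 124)) (XT.lf (nat_lit 0) (nat_lit 59592098674) (nat_lit 76) (nat_lit 96739518942) (nat_lit 76) (nat_lit 6483143168) (nat_lit 6) (nat_lit 4) (nat_lit 7) (nat_lit 5) (nat_lit 7) (nat_lit 4) (nat_lit 334) (nat_lit 263) (nat_lit 123)))) (XT.nd (nat_lit 156) (nat_lit 0) (nat_lit 0) (XT.nd (nat_lit 78) (nat_lit 0) (nat_lit 0) (XT.lf (nat_lit 0) (nat_lit 1180182023) (nat_lit 152) (nat_lit 87841650197) (nat_lit 76) (nat_lit 81303823218) (nat_lit 5) (nat_lit 5) (nat_lit 7) (nat_lit 5) (nat_lit 6) (nat_lit 4) (nat_lit 335) (nat_lit 263) (nat_lit 122)) (XT.lf (nat_lit 0) (nat_lit 9007580482) (nat_lit 152) (nat_lit 71799909614) (nat_lit 76) (nat_lit 97399354680) (nat_lit 5) (nat_lit 5) (nat_lit 7) (nat_lit 5) (nat_lit 6) (nat_lit 4) (nat_lit 336) (nat_lit 263) (nat_lit 121))) (XT.nd (nat_lit 78) (nat_lit 0)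 (nat_lit 0) (XT.lf (nat_lit 0) (nat_lit 17225189941) (nat_lit 152) (nat_lit 54958025709) (nat_lit 76) (nat_lit 114298938890) (nat_lit 5) (nat_lit 5) (nat_lit 7) (nat_lit 5) (nat_lit 6) (nat_lit 4) (nat_lit 337) (nat_lit 263) (nat_lit 120)) (XT.lf (nat_lit 0) (nat_lit 25852576135) (nat_lit 152) (nat_lit 37275898757) (nat_lit 76) (nat_lit 132042812954) (nat_lit 5) (nat_lit 5) (nat_lit 7) (nat_lit 5) (nat_lit 6) (nat_lit 4) (nat_lit 338) (nat_lit 263) (nat_lit 119))))) (XT.nd (nat_lit 312) (nat_lit 0) (nat_lit 0) (XT.nd (nat_lit 156) (nat_lit 0) (nat_lit 0) (XT.nd (nat_lit 78) (nat_lit 76) (nat_lit 0) (XT.lf (nat_lit 0) (nat_lit 34910280462) (nat_lit 152) (nat_lit 18711428456) (nat_lit 76) (nat_lit 150673224189) (nat_lit 5) (nat_lit 5) (nat_lit 7) (nat_lit 5) (nat_lit 6) (nat_lit 4) (nat_lit 339) (nat_lit 263) (nat_lit 118)) (XT.lf (nat_lit 0) (nat_lit 805362956) (nat_lit 76) (nat_lit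 43627079899) (nat_lit 152) (nat_lit 169441741735) (nat_lit 4) (nat_lit 5) (nat_lit 5) (nat_lit 5) (nat_lit 6) (nat_lit 4) (nat_lit 340) (nat_lit 263) (nat_lit 117))) (XT.nd (nat_lit 78) (nat_lit 0) (nat_lit 0) (XT.lf (nat_lit 0) (nat_lit 21945960519) (nat_lit 76) (nat_lit 32800660703) (nat_lit 152) (nat_lit 169169984510) (nat_lit 4) (nat_lit 5) (nat_lit 5) (nat_lit 5) (nat_lit 6) (nat_lit 4) (nat_lit 341) (nat_lit 263) (nat_lit 116)) (XT.lf (nat_lit 0) (nat_lit 44142014661) (nat_lit 76) (nat_lit 21433561237) (nat_lit 152) (nat_lit 168885621023) (nat_lit 4) (nat_lit 5) (nat_lit 5) (nat_lit 5) (nat_lit 6) (nat_lit 4) (nat_lit 342) (nat_lit 263) (nat_lit 115)))) (XT.nd (nat_lit 156) (nat_lit 0) (nat_lit 0) (XT.nd (nat_lit 78) (nat_lit 0) (nat_lit 0) (XT.lf (nat_lit 0) (nat_lit 67446373128) (nat_lit 76) (nat_lit 9498716978) (nat_lit 152) (nat_lit 168587974220) (nat_lit 4) (nat_lit 5)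 (nat_lit 5) (nat_lit 5) (nat_lit 6) (nat_lit 4) (nat_lit 343) (nat_lit 263) (nat_lit 114)) (XT.lf (nat_lit 0) (nat_lit 88929576639) (nat_lit 152) (nat_lit 165291389566) (nat_lit 0) (nat_lit 2935236205) (nat_lit 4) (nat_lit 5) (nat_lit 6) (nat_lit 4) (nat_lit 4) (nat_lit 4) (nat_lit 344) (nat_lit 263) (nat_lit 113))) (XT.nd (nat_lit 78) (nat_lit 0) (nat_lit 0) (XT.lf (nat_lit 0) (nat_lit 101668189906) (nat_lit 152) (nat_lit 152013432279) (nat_lit 0) (nat_lit 15671132132) (nat_lit 4) (nat_lit 5) (nat_lit 6) (nat_lit 4) (nat_lit 4) (nat_lit 4) (nat_lit 345) (nat_lit 263) (nat_lit 112)) (XT.lf (nat_lit 0) (nat_lit 115042958345) (nat_lit 152) (nat_lit 138072903560) (nat_lit 0) (nat_lit 29043312629) (nat_lit 4) (nat_lit 5) (nat_lit 6) (nat_lit 4) (nat_lit 4) (nat_lit 4) (nat_lit 346) (nat_lit 263) (nat_lit 111))))))) (XT.nd (nat_lit 32058) (nat_lit 0) (nat_lit 1900) (XT.nd (nat_lit 31434)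 (nat_lit 0) (nat_lit 3724) (XT.nd (nat_lit 31122) (nat_lit 0) (nat_lit 4104) (XT.nd (nat_lit 312) (nat_lit 0) (nat_lit 0) (XT.nd (nat_lit 78) (nat_lit 0) (nat_lit 0) (XT.lf (nat_lit 0) (nat_lit 129085726643) (nat_lit 152) (nat_lit 123436611673) (nat_lit 0) (nat_lit 43083616221) (nat_lit 4) (nat_lit 5) (nat_lit 6) (nat_lit 4) (nat_lit 4) (nat_lit 4) (nat_lit 347) (nat_lit 263) (nat_lit 110)) (XT.lf (nat_lit 0) (nat_lit 143829929964) (nat_lit 152) (nat_lit 108069708306) (nat_lit 0) (nat_lit 57825472203) (nat_lit 4) (nat_lit 5) (nat_lit 6) (nat_lit 4) (nat_lit 4) (nat_lit 4) (nat_lit 348) (nat_lit 263) (nat_lit 109))) (XT.nd (nat_lit 30732) (nat_lit 0) (nat_lit 4104) (XT.lf (nat_lit 0) (nat_lit 192631058616) (nat_lit 152) (nat_lit 57210225878) (nat_lit 0) (nat_lit 106620208467) (nat_lit 4) (nat_lit 5) (nat_lit 6) (nat_lit 4) (nat_lit 4) (nat_lit 4) (nat_lit 351) (nat_lit 263) (nat_lit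 106)) (XT.lf (nat_lit 0) (nat_lit 3378313649) (nat_lit 684) (nat_lit 1703048836) (nat_lit 684) (nat_lit 1703048836) (nat_lit 58) (nat_lit 3) (nat_lit 67) (nat_lit 3) (nat_lit 67) (nat_lit 5) (nat_lit 264) (nat_lit 264) (nat_lit 192)))) (XT.nd (nat_lit 156) (nat_lit 0) (nat_lit 76) (XT.nd (nat_lit 78) (nat_lit 0) (nat_lit 0) (XT.lf (nat_lit 76) (nat_lit 1911605748) (nat_lit 0) (nat_lit 5355000708) (nat_lit 684) (nat_lit 6622465611) (nat_lit 59) (nat_lit 5) (nat_lit 58) (nat_lit 3) (nat_lit 67) (nat_lit 5) (nat_lit 265) (nat_lit 264) (nat_lit 191)) (XT.lf (nat_lit 76) (nat_lit 7602578160) (nat_lit 0) (nat_lit 237098806) (nat_lit 684) (nat_lit 6383900151) (nat_lit 59) (nat_lit 5) (nat_lit 58) (nat_lit 3) (nat_lit 67) (nat_lit 5) (nat_lit 266) (nat_lit 264) (nat_lit 190))) (XT.nd (nat_lit 78) (nat_lit 0) (nat_lit 0) (XT.lf (nat_lit 0) (nat_lit 8502601620) (nat_lit 608) (nat_lit 1088467960)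 (nat_lit 684) (nat_lit 4980794735) (nat_lit 59) (nat_lit 5) (nat_lit 67) (nat_lit 5) (nat_lit 68) (nat_lit 5) (nat_lit 267) (nat_lit 264) (nat_lit 189)) (XT.lf (nat_lit 76) (nat_lit 4861386517) (nat_lit 0) (nat_lit 4398979736) (nat_lit 684) (nat_lit 5674226293) (nat_lit 60) (nat_lit 5) (nat_lit 59) (nat_lit 5) (nat_lit 68) (nat_lit 5) (nat_lit 268) (nat_lit 264) (nat_lit 188))))) (XT.nd (nat_lit 312) (nat_lit 532) (nat_lit 0) (XT.nd (nat_lit 156) (nat_lit 0) (nat_lit 0) (XT.nd (nat_lit 78) (nat_lit 0) (nat_lit 0) (XT.lf (nat_lit 0) (nat_lit 10073892846) (nat_lit 608) (nat_lit 4196662605) (nat_lit 684) (nat_lit 1044114107) (nat_lit 60) (nat_lit 5) (nat_lit 68) (nat_lit 5) (nat_lit 69) (nat_lit 5) (nat_lit 269) (nat_lit 264) (nat_lit 187)) (XT.lf (nat_lit 76) (nat_lit 1952749013) (nat_lit 0) (nat_lit 9061474754) (nat_lit 684) (nat_lit 4695321260) (nat_lit 61) (nat_lit 5) (nat_lit 60)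 (nat_lit 5) (nat_lit 69) (nat_lit 5) (nat_lit 270) (nat_lit 264) (nat_lit 186))) (XT.nd (nat_lit 78) (nat_lit 0) (nat_lit 76) (XT.lf (nat_lit 76) (nat_lit 8544168124) (nat_lit 0) (nat_lit 3512611542) (nat_lit 684) (nat_lit 4064720380) (nat_lit 61) (nat_lit 5) (nat_lit 60) (nat_lit 5) (nat_lit 69) (nat_lit 5) (nat_lit 271) (nat_lit 264) (nat_lit 185)) (XT.lf (nat_lit 0) (nat_lit 13172547892) (nat_lit 608) (nat_lit 1136565082) (nat_lit 684) (nat_lit 2243977230) (nat_lit 61) (nat_lit 5) (nat_lit 69) (nat_lit 5) (nat_lit 70) (nat_lit 5) (nat_lit 272) (nat_lit 264) (nat_lit 184)))) (XT.nd (nat_lit 156) (nat_lit 608) (nat_lit 0) (XT.nd (nat_lit 78) (nat_lit 0) (nat_lit 0) (XT.lf (nat_lit 76) (nat_lit 5741420279) (nat_lit 0) (nat_lit 8735585108) (nat_lit 684) (nat_lit 2522696694) (nat_lit 62) (nat_lit 5) (nat_lit 61) (nat_lit 5) (nat_lit 70) (nat_lit 5) (nat_lit 273) (nat_lit 264) (nat_lit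 183)) (XT.lf (nat_lit 76) (nat_lit 12991943929) (nat_lit 0) (nat_lit 2860180608) (nat_lit 684) (nat_lit 1616331173) (nat_lit 62) (nat_lit 5) (nat_lit 61) (nat_lit 5) (nat_lit 70) (nat_lit 5) (nat_lit 274) (nat_lit 264) (nat_lit 182))) (XT.nd (nat_lit 78) (nat_lit 76) (nat_lit 0) (XT.lf (nat_lit 0) (nat_lit 2666957455) (nat_lit 608) (nat_lit 14709236088) (nat_lit 684) (nat_lit 580522923) (nat_lit 54) (nat_lit 5) (nat_lit 62) (nat_lit 5) (nat_lit 63) (nat_lit 5) (nat_lit 275) (nat_lit 264) (nat_lit 181)) (XT.lf (nat_lit 0) (nat_lit 601855091) (nat_lit 684) (nat_lit 8210039571) (nat_lit 76) (nat_lit 9651621091) (nat_lit 53) (nat_lit 5) (nat_lit 62) (nat_lit 5) (nat_lit 54) (nat_lit 5) (nat_lit 276) (nat_lit 264) (nat_lit 180)))))) (XT.nd (nat_lit 624) (nat_lit 760) (nat_lit 0) (XT.nd (nat_lit 312) (nat_lit 304) (nat_lit 0) (XT.nd (nat_lit 156) (nat_lit 304) (nat_lit 0) (XT.nd (nat_lit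 78) (nat_lit 456) (nat_lit 0) (XT.lf (nat_lit 0) (nat_lit 1811524561) (nat_lit 684) (nat_lit 796714299) (nat_lit 76) (nat_lit 16387624576) (nat_lit 53) (nat_lit 5) (nat_lit 62) (nat_lit 5) (nat_lit 54) (nat_lit 5) (nat_lit 277) (nat_lit 264) (nat_lit 179)) (XT.lf (nat_lit 0) (nat_lit 3245320916) (nat_lit 532) (nat_lit 12405077370) (nat_lit 76) (nat_lit 3896313155) (nat_lit 47) (nat_lit 5) (nat_lit 54) (nat_lit 5) (nat_lit 48) (nat_lit 5) (nat_lit 278) (nat_lit 264) (nat_lit 178))) (XT.nd (nat_lit 78) (nat_lit 304) (nat_lit 0) (XT.lf (nat_lit 0) (nat_lit 4795965255) (nat_lit 532) (nat_lit 4673672223) (nat_lit 76) (nat_lit 10653268469) (nat_lit 47) (nat_lit 5) (nat_lit 54) (nat_lit 5) (nat_lit 48) (nat_lit 5) (nat_lit 279) (nat_lit 264) (nat_lit 177)) (XT.lf (nat_lit 0) (nat_lit 3547536218) (nat_lit 304) (nat_lit 2921217542) (nat_lit 380) (nat_lit 14256984878) (nat_lit 43) (nat_lit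 5) (nat_lit 47) (nat_lit 5) (nat_lit 48) (nat_lit 5) (nat_lit 280) (nat_lit 264) (nat_lit 176)))) (XT.nd (nat_lit 156) (nat_lit 304) (nat_lit 0) (XT.nd (nat_lit 78) (nat_lit 0) (nat_lit 0) (XT.lf (nat_lit 0) (nat_lit 8356956904) (nat_lit 380) (nat_lit 9086456854) (nat_lit 76) (nat_lit 3908766687) (nat_lit 43) (nat_lit 5) (nat_lit 48) (nat_lit 5) (nat_lit 44) (nat_lit 5) (nat_lit 281) (nat_lit 264) (nat_lit 175)) (XT.lf (nat_lit 0) (nat_lit 10377539021) (nat_lit 380) (nat_lit 648227636) (nat_lit 76) (nat_lit 10982332813) (nat_lit 43) (nat_lit 5) (nat_lit 48) (nat_lit 5) (nat_lit 44) (nat_lit 5) (nat_lit 282) (nat_lit 264) (nat_lit 174))) (XT.nd (nat_lit 78) (nat_lit 0) (nat_lit 0) (XT.lf (nat_lit 0) (nat_lit 8473385913) (nat_lit 304) (nat_lit 4148610014) (nat_lit 380) (nat_lit 10068727249) (nat_lit 39) (nat_lit 5) (nat_lit 43) (nat_lit 5) (nat_lit 44) (nat_lit 5) (nat_lit 283) (nat_lit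 264) (nat_lit 173)) (XT.lf (nat_lit 0) (nat_lit 15028648748) (nat_lit 380) (nat_lit 5391563641) (nat_lit 76) (nat_lit 2984815611) (nat_lit 39) (nat_lit 5) (nat_lit 44) (nat_lit 5) (nat_lit 40) (nat_lit 5) (nat_lit 284) (nat_lit 264) (nat_lit 172))))) (XT.nd (nat_lit 312) (nat_lit 228) (nat_lit 0) (XT.nd (nat_lit 156) (nat_lit 304) (nat_lit 0) (XT.nd (nat_lit 78) (nat_lit 0) (nat_lit 0) (XT.lf (nat_lit 0) (nat_lit 3923473059) (nat_lit 228) (nat_lit 13752709662) (nat_lit 304) (nat_lit 6472884189) (nat_lit 36) (nat_lit 5) (nat_lit 39) (nat_lit 5) (nat_lit 40) (nat_lit 5) (nat_lit 285) (nat_lit 264) (nat_lit 171)) (XT.lf (nat_lit 0) (nat_lit 13882007966) (nat_lit 228) (nat_lit 6656944077) (nat_lit 304) (nat_lit 4387256861) (nat_lit 36) (nat_lit 5) (nat_lit 39) (nat_lit 5) (nat_lit 40) (nat_lit 5) (nat_lit 286) (nat_lit 264) (nat_lit 170))) (XT.nd (nat_lit 78) (nat_lit 304) (nat_lit 0)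 (XT.lf (nat_lit 0) (nat_lit 23549187931) (nat_lit 304) (nat_lit 1425545726) (nat_lit 76) (nat_lit 767299905) (nat_lit 36) (nat_lit 5) (nat_lit 40) (nat_lit 5) (nat_lit 37) (nat_lit 5) (nat_lit 287) (nat_lit 264) (nat_lit 169)) (XT.lf (nat_lit 0) (nat_lit 351061908) (nat_lit 304) (nat_lit 17753537472) (nat_lit 76) (nat_lit 8481834388) (nat_lit 32) (nat_lit 5) (nat_lit 36) (nat_lit 5) (nat_lit 33) (nat_lit 5) (nat_lit 288) (nat_lit 264) (nat_lit 168)))) (XT.nd (nat_lit 156) (nat_lit 0) (nat_lit 0) (XT.nd (nat_lit 78) (nat_lit 228) (nat_lit 0) (XT.lf (nat_lit 0) (nat_lit 2965399350) (nat_lit 304) (nat_lit 7863550444) (nat_lit 76) (nat_lit 16641496603) (nat_lit 32) (nat_lit 5) (nat_lit 36) (nat_lit 5) (nat_lit 33) (nat_lit 5) (nat_lit 289) (nat_lit 264) (nat_lit 167)) (XT.lf (nat_lit 0) (nat_lit 2595324763) (nat_lit 228) (nat_lit 3148401990) (nat_lit 304) (nat_lit 22653303781) (nat_lit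 29) (nat_lit 5) (nat_lit 32) (nat_lit 5) (nat_lit 33) (nat_lit 5) (nat_lit 290) (nat_lit 264) (nat_lit 166))) (XT.nd (nat_lit 78) (nat_lit 0) (nat_lit 0) (XT.lf (nat_lit 0) (nat_lit 8866023109) (nat_lit 304) (nat_lit 15600974191) (nat_lit 76) (nat_lit 4892726833) (nat_lit 29) (nat_lit 5) (nat_lit 33) (nat_lit 5) (nat_lit 30) (nat_lit 5) (nat_lit 291) (nat_lit 264) (nat_lit 165)) (XT.lf (nat_lit 0) (nat_lit 12189324710) (nat_lit 304) (nat_lit 4950294423) (nat_lit 76) (nat_lit 13228720077) (nat_lit 29) (nat_lit 5) (nat_lit 33) (nat_lit 5) (nat_lit 30) (nat_lit 5) (nat_lit 292) (nat_lit 264) (nat_lit 164))))))))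
noncomputable def xc157 : XT := (XT.nd (nat_lit 1248) (nat_lit 456) (nat_lit 0) (XT.nd (nat_lit 624) (nat_lit 456) (nat_lit 0) (XT.nd (nat_lit 312) (nat_lit 304) (nat_lit 0) (XT.nd (nat_lit 156) (nat_lit 152) (nat_lit 0) (XT.nd (nat_lit 78) (nat_lit 0) (nat_lit 0) (XT.lf (nat_lit 0) (nat_lit 6430669250) (nat_lit 228) (nat_lit 9342120320) (nat_lit 304) (nat_lit 15649925389) (nat_lit 26) (nat_lit 5) (nat_lit 29) (nat_lit 5) (nat_lit 30) (nat_lit 5) (nat_lit 293) (nat_lit 264) (nat_lit 163)) (XT.lf (nat_lit 0) (nat_lit 18544602678) (nat_lit 228) (nat_lit 1068438932) (nat_lit 304) (nat_lit 12912915594) (nat_lit 26) (nat_lit 5) (nat_lit 29) (nat_lit 5) (nat_lit 30) (nat_lit 5) (nat_lit 294) (nat_lit 264) (nat_lit 162))) (XT.nd (nat_lit 78) (nat_lit 152) (nat_lit 0) (XT.lf (nat_lit 0) (nat_lit 23758308055) (nat_lit 304) (nat_lit 2546942641) (nat_lit 76) (nat_lit 7373487832) (nat_lit 26)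 (nat_lit 5) (nat_lit 30) (nat_lit 5) (nat_lit 27) (nat_lit 5) (nat_lit 295) (nat_lit 264) (nat_lit 161)) (XT.lf (nat_lit 0) (nat_lit 9746124574) (nat_lit 152) (nat_lit 18528725344) (nat_lit 228) (nat_lit 6606134160) (nat_lit 24) (nat_lit 5) (nat_lit 26) (nat_lit 5) (nat_lit 27) (nat_lit 5) (nat_lit 296) (nat_lit 264) (nat_lit 160)))) (XT.nd (nat_lit 156) (nat_lit 228) (nat_lit 0) (XT.nd (nat_lit 78) (nat_lit 76) (nat_lit 0) (XT.lf (nat_lit 0) (nat_lit 22734903277) (nat_lit 152) (nat_lit 10319936573) (nat_lit 228) (nat_lit 3086645546) (nat_lit 24) (nat_lit 5) (nat_lit 26) (nat_lit 5) (nat_lit 27) (nat_lit 5) (nat_lit 297) (nat_lit 264) (nat_lit 159)) (XT.lf (nat_lit 0) (nat_lit 583972624) (nat_lit 228) (nat_lit 1108610870) (nat_lit 76) (nat_lit 35772243222) (nat_lit 23) (nat_lit 5) (nat_lit 26) (nat_lit 5) (nat_lit 24) (nat_lit 5) (nat_lit 298) (nat_lit 264) (nat_lit 158))) (XT.nd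 (nat_lit 78) (nat_lit 0) (nat_lit 0) (XT.lf (nat_lit 0) (nat_lit 4637664700) (nat_lit 304) (nat_lit 26826333257) (nat_lit 76) (nat_lit 7372664580) (nat_lit 20) (nat_lit 5) (nat_lit 24) (nat_lit 5) (nat_lit 21) (nat_lit 5) (nat_lit 299) (nat_lit 264) (nat_lit 157)) (XT.lf (nat_lit 0) (nat_lit 8935877049) (nat_lit 304) (nat_lit 14487502323) (nat_lit 76) (nat_lit 16851639180) (nat_lit 20) (nat_lit 5) (nat_lit 24) (nat_lit 5) (nat_lit 21) (nat_lit 5) (nat_lit 300) (nat_lit 264) (nat_lit 156))))) (XT.nd (nat_lit 312) (nat_lit 304) (nat_lit 0) (XT.nd (nat_lit 156) (nat_lit 0) (nat_lit 0) (XT.nd (nat_lit 78) (nat_lit 152) (nat_lit 0) (XT.lf (nat_lit 0) (nat_lit 13444243590) (nat_lit 304) (nat_lit 1538397242) (nat_lit 76) (nat_lit 26802908586) (nat_lit 20) (nat_lit 5) (nat_lit 24) (nat_lit 5) (nat_lit 21) (nat_lit 5) (nat_lit 301) (nat_lit 264) (nat_lit 155)) (XT.lf (nat_lit 0) (nat_lit 12450300561)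 (nat_lit 152) (nat_lit 5917582050) (nat_lit 228) (nat_lit 24994249820) (nat_lit 18) (nat_lit 5) (nat_lit 20) (nat_lit 5) (nat_lit 21) (nat_lit 5) (nat_lit 302) (nat_lit 264) (nat_lit 154))) (XT.nd (nat_lit 78) (nat_lit 0) (nat_lit 0) (XT.lf (nat_lit 0) (nat_lit 23615961253) (nat_lit 228) (nat_lit 17887500426) (nat_lit 76) (nat_lit 3510187470) (nat_lit 18) (nat_lit 5) (nat_lit 21) (nat_lit 5) (nat_lit 19) (nat_lit 5) (nat_lit 303) (nat_lit 264) (nat_lit 153)) (XT.lf (nat_lit 0) (nat_lit 29219224397) (nat_lit 228) (nat_lit 4315111335) (nat_lit 76) (nat_lit 13208783553) (nat_lit 18) (nat_lit 5) (nat_lit 21) (nat_lit 5) (nat_lit 19) (nat_lit 5) (nat_lit 304) (nat_lit 264) (nat_lit 152)))) (XT.nd (nat_lit 156) (nat_lit 152) (nat_lit 0) (XT.nd (nat_lit 78) (nat_lit 0) (nat_lit 0) (XT.lf (nat_lit 0) (nat_lit 10258372644) (nat_lit 152) (nat_lit 25000412408) (nat_lit 228) (nat_lit 13292486977)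 (nat_lit 16) (nat_lit 5) (nat_lit 18) (nat_lit 5) (nat_lit 19) (nat_lit 5) (nat_lit 305) (nat_lit 264) (nat_lit 151)) (XT.lf (nat_lit 0) (nat_lit 25704579649) (nat_lit 152) (nat_lit 15964896824) (nat_lit 228) (nat_lit 8776913363) (nat_lit 16) (nat_lit 5) (nat_lit 18) (nat_lit 5) (nat_lit 19) (nat_lit 5) (nat_lit 306) (nat_lit 264) (nat_lit 150))) (XT.nd (nat_lit 78) (nat_lit 152) (nat_lit 0) (XT.lf (nat_lit 0) (nat_lit 41917609296) (nat_lit 152) (nat_lit 6479354347) (nat_lit 228) (nat_lit 4039501181) (nat_lit 16) (nat_lit 5) (nat_lit 18) (nat_lit 5) (nat_lit 19) (nat_lit 5) (nat_lit 307) (nat_lit 264) (nat_lit 149)) (XT.lf (nat_lit 0) (nat_lit 1027836462) (nat_lit 152) (nat_lit 50037057118) (nat_lit 76) (nat_lit 3454284581) (nat_lit 14) (nat_lit 5) (nat_lit 16) (nat_lit 5) (nat_lit 15) (nat_lit 5) (nat_lit 308) (nat_lit 264) (nat_lit 148)))))) (XT.nd (nat_lit 624) (nat_lit 228) (nat_lit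 0) (XT.nd (nat_lit 312) (nat_lit 76) (nat_lit 0) (XT.nd (nat_lit 156) (nat_lit 152) (nat_lit 0) (XT.nd (nat_lit 78) (nat_lit 0) (nat_lit 0) (XT.lf (nat_lit 0) (nat_lit 6496499679) (nat_lit 152) (nat_lit 36279578839) (nat_lit 76) (nat_lit 13912464354) (nat_lit 14) (nat_lit 5) (nat_lit 16) (nat_lit 5) (nat_lit 15) (nat_lit 5) (nat_lit 309) (nat_lit 264) (nat_lit 147)) (XT.lf (nat_lit 0) (nat_lit 12235197226) (nat_lit 152) (nat_lit 21839403326) (nat_lit 76) (nat_lit 24891957011) (nat_lit 14) (nat_lit 5) (nat_lit 16) (nat_lit 5) (nat_lit 15) (nat_lit 5) (nat_lit 310) (nat_lit 264) (nat_lit 146))) (XT.nd (nat_lit 78) (nat_lit 152) (nat_lit 0) (XT.lf (nat_lit 0) (nat_lit 18257592670) (nat_lit 152) (nat_lit 6682149207) (nat_lit 76) (nat_lit 36418904202) (nat_lit 14) (nat_lit 5) (nat_lit 16) (nat_lit 5) (nat_lit 15) (nat_lit 5) (nat_lit 311) (nat_lit 264) (nat_lit 145)) (XT.lf (nat_lit 0)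 (nat_lit 9533400571) (nat_lit 152) (nat_lit 15193467575) (nat_lit 228) (nat_lit 39136193570) (nat_lit 12) (nat_lit 5) (nat_lit 14) (nat_lit 5) (nat_lit 15) (nat_lit 5) (nat_lit 312) (nat_lit 264) (nat_lit 144)))) (XT.nd (nat_lit 156) (nat_lit 76) (nat_lit 0) (XT.nd (nat_lit 78) (nat_lit 0) (nat_lit 0) (XT.lf (nat_lit 0) (nat_lit 26787097303) (nat_lit 152) (nat_lit 4842667360) (nat_lit 228) (nat_lit 34857435803) (nat_lit 12) (nat_lit 5) (nat_lit 14) (nat_lit 5) (nat_lit 15) (nat_lit 5) (nat_lit 313) (nat_lit 264) (nat_lit 143)) (XT.lf (nat_lit 0) (nat_lit 38968994766) (nat_lit 228) (nat_lit 24437673603) (nat_lit 76) (nat_lit 5831328058) (nat_lit 12) (nat_lit 5) (nat_lit 15) (nat_lit 5) (nat_lit 13) (nat_lit 4) (nat_lit 314) (nat_lit 264) (nat_lit 142))) (XT.nd (nat_lit 78) (nat_lit 76) (nat_lit 0) (XT.lf (nat_lit 0) (nat_lit 46751823051) (nat_lit 228) (nat_lit 8495823582) (nat_lit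 76) (nat_lit 16874862969) (nat_lit 12) (nat_lit 5) (nat_lit 15) (nat_lit 5) (nat_lit 13) (nat_lit 4) (nat_lit 315) (nat_lit 264) (nat_lit 141)) (XT.lf (nat_lit 0) (nat_lit 8511430217) (nat_lit 76) (nat_lit 46542629512) (nat_lit 152) (nat_lit 20090684165) (nat_lit 11) (nat_lit 5) (nat_lit 12) (nat_lit 5) (nat_lit 13) (nat_lit 4) (nat_lit 316) (nat_lit 264) (nat_lit 140))))) (XT.nd (nat_lit 312) (nat_lit 152) (nat_lit 0) (XT.nd (nat_lit 156) (nat_lit 76) (nat_lit 0) (XT.nd (nat_lit 78) (nat_lit 0) (nat_lit 0) (XT.lf (nat_lit 0) (nat_lit 26659961123) (nat_lit 76) (nat_lit 37252769380) (nat_lit 152) (nat_lit 14398301671) (nat_lit 11) (nat_lit 5) (nat_lit 12) (nat_lit 5) (nat_lit 13) (nat_lit 4) (nat_lit 317) (nat_lit 264) (nat_lit 139)) (XT.lf (nat_lit 0) (nat_lit 45712069630) (nat_lit 76) (nat_lit 27499828406) (nat_lit 152) (nat_lit 8423866663) (nat_lit 11) (nat_lit 5) (nat_lit 12) (nat_lit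 5) (nat_lit 13) (nat_lit 4) (nat_lit 318) (nat_lit 264) (nat_lit 138))) (XT.nd (nat_lit 78) (nat_lit 76) (nat_lit 0) (XT.lf (nat_lit 0) (nat_lit 65713117899) (nat_lit 76) (nat_lit 17260585302) (nat_lit 152) (nat_lit 2153154295) (nat_lit 11) (nat_lit 5) (nat_lit 12) (nat_lit 5) (nat_lit 13) (nat_lit 4) (nat_lit 319) (nat_lit 264) (nat_lit 137)) (XT.lf (nat_lit 0) (nat_lit 4287017540) (nat_lit 152) (nat_lit 2151040660) (nat_lit 76) (nat_lit 82351107218) (nat_lit 10) (nat_lit 5) (nat_lit 12) (nat_lit 5) (nat_lit 11) (nat_lit 5) (nat_lit 320) (nat_lit 264) (nat_lit 136)))) (XT.nd (nat_lit 156) (nat_lit 0) (nat_lit 0) (XT.nd (nat_lit 78) (nat_lit 0) (nat_lit 0) (XT.lf (nat_lit 0) (nat_lit 11313400505) (nat_lit 228) (nat_lit 76238748677) (nat_lit 76) (nat_lit 5063853115) (nat_lit 8) (nat_lit 5) (nat_lit 11) (nat_lit 5) (nat_lit 9) (nat_lit 4) (nat_lit 321) (nat_lit 264) (nat_lit 135)) (XT.lf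 (nat_lit 0) (nat_lit 18831554892) (nat_lit 228) (nat_lit 60835295874) (nat_lit 76) (nat_lit 16960313900) (nat_lit 8) (nat_lit 5) (nat_lit 11) (nat_lit 5) (nat_lit 9) (nat_lit 4) (nat_lit 322) (nat_lit 264) (nat_lit 134))) (XT.nd (nat_lit 78) (nat_lit 0) (nat_lit 0) (XT.lf (nat_lit 0) (nat_lit 26723601975) (nat_lit 228) (nat_lit 44664945723) (nat_lit 76) (nat_lit 29450444167) (nat_lit 8) (nat_lit 5) (nat_lit 11) (nat_lit 5) (nat_lit 9) (nat_lit 4) (nat_lit 323) (nat_lit 264) (nat_lit 133)) (XT.lf (nat_lit 0) (nat_lit 35008332345) (nat_lit 228) (nat_lit 27689197390) (nat_lit 76) (nat_lit 42563982321) (nat_lit 8) (nat_lit 5) (nat_lit 11) (nat_lit 5) (nat_lit 9) (nat_lit 4) (nat_lit 324) (nat_lit 264) (nat_lit 132)))))))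
noncomputable def xc158 : XT := (XT.nd (nat_lit 1248) (nat_lit 76) (nat_lit 0) (XT.nd (nat_lit 624) (nat_lit 152) (nat_lit 0) (XT.nd (nat_lit 312) (nat_lit 0) (nat_lit 0) (XT.nd (nat_lit 156) (nat_lit 0) (nat_lit 0) (XT.nd (nat_lit 78) (nat_lit 76) (nat_lit 0) (XT.lf (nat_lit 0) (nat_lit 43705471548) (nat_lit 228) (nat_lit 9867632428) (nat_lit 76) (nat_lit 56332151073) (nat_lit 8) (nat_lit 5) (nat_lit 11) (nat_lit 5) (nat_lit 9) (nat_lit 4) (nat_lit 325) (nat_lit 264) (nat_lit 131)) (XT.lf (nat_lit 0) (nat_lit 9134543912) (nat_lit 76) (nat_lit 43843798977) (nat_lit 152) (nat_lit 61795803693) (nat_lit 7) (nat_lit 5) (nat_lit 8) (nat_lit 5) (nat_lit 9) (nat_lit 4) (nat_lit 326) (nat_lit 264) (nat_lit 130))) (XT.nd (nat_lit 78) (nat_lit 0) (nat_lit 0) (XT.lf (nat_lit 0) (nat_lit 29426627300) (nat_lit 76) (nat_lit 33453642403) (nat_lit 152) (nat_lit 56997947298) (nat_lit 7) (nat_lit 5)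 (nat_lit 8) (nat_lit 5) (nat_lit 9) (nat_lit 4) (nat_lit 327) (nat_lit 264) (nat_lit 129)) (XT.lf (nat_lit 0) (nat_lit 50730663727) (nat_lit 76) (nat_lit 22545008916) (nat_lit 152) (nat_lit 51961903980) (nat_lit 7) (nat_lit 5) (nat_lit 8) (nat_lit 5) (nat_lit 9) (nat_lit 4) (nat_lit 328) (nat_lit 264) (nat_lit 128)))) (XT.nd (nat_lit 156) (nat_lit 0) (nat_lit 0) (XT.nd (nat_lit 78) (nat_lit 0) (nat_lit 0) (XT.lf (nat_lit 0) (nat_lit 73097377089) (nat_lit 76) (nat_lit 11091925579) (nat_lit 152) (nat_lit 46675683159) (nat_lit 7) (nat_lit 5) (nat_lit 8) (nat_lit 5) (nat_lit 9) (nat_lit 4) (nat_lit 329) (nat_lit 264) (nat_lit 127)) (XT.lf (nat_lit 0) (nat_lit 95661709437) (nat_lit 152) (nat_lit 40208386564) (nat_lit 0) (nat_lit 903018967) (nat_lit 7) (nat_lit 5) (nat_lit 9) (nat_lit 4) (nat_lit 7) (nat_lit 4) (nat_lit 330) (nat_lit 264) (nat_lit 126))) (XT.nd (nat_lit 78) (nat_lit 0)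 (nat_lit 0) (XT.lf (nat_lit 0) (nat_lit 107888157882) (nat_lit 152) (nat_lit 21955388383) (nat_lit 0) (nat_lit 13124087267) (nat_lit 7) (nat_lit 5) (nat_lit 9) (nat_lit 4) (nat_lit 7) (nat_lit 4) (nat_lit 331) (nat_lit 264) (nat_lit 125)) (XT.lf (nat_lit 0) (nat_lit 120724582554) (nat_lit 152) (nat_lit 2791978634) (nat_lit 0) (nat_lit 25955387991) (nat_lit 7) (nat_lit 5) (nat_lit 9) (nat_lit 4) (nat_lit 7) (nat_lit 4) (nat_lit 332) (nat_lit 264) (nat_lit 124))))) (XT.nd (nat_lit 312) (nat_lit 0) (nat_lit 0) (XT.nd (nat_lit 156) (nat_lit 76) (nat_lit 0) (XT.nd (nat_lit 78) (nat_lit 0) (nat_lit 0) (XT.lf (nat_lit 0) (nat_lit 17900394256) (nat_lit 76) (nat_lit 116580627431) (nat_lit 76) (nat_lit 21806552918) (nat_lit 6) (nat_lit 4) (nat_lit 7) (nat_lit 5) (nat_lit 7) (nat_lit 4) (nat_lit 333) (nat_lit 264) (nat_lit 123)) (XT.lf (nat_lit 0) (nat_lit 39722219616) (nat_lit 76) (nat_lit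 109249092886) (nat_lit 76) (nat_lit 14470370801) (nat_lit 6) (nat_lit 4) (nat_lit 7) (nat_lit 5) (nat_lit 7) (nat_lit 4) (nat_lit 334) (nat_lit 264) (nat_lit 122))) (XT.nd (nat_lit 78) (nat_lit 76) (nat_lit 0) (XT.lf (nat_lit 0) (nat_lit 62633138749) (nat_lit 76) (nat_lit 101551785027) (nat_lit 76) (nat_lit 6768636683) (nat_lit 6) (nat_lit 4) (nat_lit 7) (nat_lit 5) (nat_lit 7) (nat_lit 4) (nat_lit 335) (nat_lit 264) (nat_lit 121)) (XT.lf (nat_lit 0) (nat_lit 1274835091) (nat_lit 152) (nat_lit 92173951889) (nat_lit 76) (nat_lit 85391276422) (nat_lit 5) (nat_lit 5) (nat_lit 7) (nat_lit 5) (nat_lit 6) (nat_lit 4) (nat_lit 336) (nat_lit 264) (nat_lit 120)))) (XT.nd (nat_lit 156) (nat_lit 0) (nat_lit 0) (XT.nd (nat_lit 78) (nat_lit 0) (nat_lit 0) (XT.lf (nat_lit 0) (nat_lit 9491906142) (nat_lit 152) (nat_lit 75332970983) (nat_lit 76) (nat_lit 102290524360) (nat_lit 5) (nat_lit 5) (nat_lit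 7) (nat_lit 5) (nat_lit 6) (nat_lit 4) (nat_lit 337) (nat_lit 264) (nat_lit 119)) (XT.lf (nat_lit 0) (nat_lit 18118779567) (nat_lit 152) (nat_lit 57651704031) (nat_lit 76) (nat_lit 120034078165) (nat_lit 5) (nat_lit 5) (nat_lit 7) (nat_lit 5) (nat_lit 6) (nat_lit 4) (nat_lit 338) (nat_lit 264) (nat_lit 118))) (XT.nd (nat_lit 78) (nat_lit 0) (nat_lit 0) (XT.lf (nat_lit 0) (nat_lit 27175995541) (nat_lit 152) (nat_lit 39088052777) (nat_lit 76) (nat_lit 138664184392) (nat_lit 5) (nat_lit 5) (nat_lit 7) (nat_lit 5) (nat_lit 6) (nat_lit 4) (nat_lit 339) (nat_lit 264) (nat_lit 117)) (XT.lf (nat_lit 0) (nat_lit 36685118865) (nat_lit 152) (nat_lit 19597818053) (nat_lit 76) (nat_lit 158225200437) (nat_lit 5) (nat_lit 5) (nat_lit 7) (nat_lit 5) (nat_lit 6) (nat_lit 4) (nat_lit 340) (nat_lit 264) (nat_lit 116)))))) (XT.nd (nat_lit 31590) (nat_lit 0) (nat_lit 4104) (XT.nd (nat_lit 312) (nat_lit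 0) (nat_lit 0) (XT.nd (nat_lit 156) (nat_lit 0) (nat_lit 0) (XT.nd (nat_lit 78) (nat_lit 0) (nat_lit 0) (XT.lf (nat_lit 0) (nat_lit 894019675) (nat_lit 76) (nat_lit 45788728785) (nat_lit 152) (nat_lit 177883638626) (nat_lit 4) (nat_lit 5) (nat_lit 5) (nat_lit 5) (nat_lit 6) (nat_lit 4) (nat_lit 341) (nat_lit 264) (nat_lit 115)) (XT.lf (nat_lit 0) (nat_lit 23089342899) (nat_lit 76) (nat_lit 34421926968) (nat_lit 152) (nat_lit 177599731167) (nat_lit 4) (nat_lit 5) (nat_lit 5) (nat_lit 5) (nat_lit 6) (nat_lit 4) (nat_lit 342) (nat_lit 264) (nat_lit 114))) (XT.nd (nat_lit 78) (nat_lit 0) (nat_lit 0) (XT.lf (nat_lit 0) (nat_lit 46393005254) (nat_lit 76) (nat_lit 22487366184) (nat_lit 152) (nat_lit 177302518676) (nat_lit 4) (nat_lit 5) (nat_lit 5) (nat_lit 5) (nat_lit 6) (nat_lit 4) (nat_lit 343) (nat_lit 264) (nat_lit 113)) (XT.lf (nat_lit 0) (nat_lit 70860491652) (nat_lit 76) (nat_lit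 9956630812) (nat_lit 152) (nat_lit 176991293504) (nat_lit 4) (nat_lit 5) (nat_lit 5) (nat_lit 5) (nat_lit 6) (nat_lit 4) (nat_lit 344) (nat_lit 264) (nat_lit 112)))) (XT.nd (nat_lit 156) (nat_lit 0) (nat_lit 0) (XT.nd (nat_lit 78) (nat_lit 0) (nat_lit 0) (XT.lf (nat_lit 0) (nat_lit 93399906533) (nat_lit 152) (nat_lit 173515163159) (nat_lit 0) (nat_lit 3097690589) (nat_lit 4) (nat_lit 5) (nat_lit 6) (nat_lit 4) (nat_lit 4) (nat_lit 4) (nat_lit 345) (nat_lit 264) (nat_lit 111)) (XT.lf (nat_lit 0) (nat_lit 106774314697) (nat_lit 152) (nat_lit 159575250669) (nat_lit 0) (nat_lit 16469634048) (nat_lit 4) (nat_lit 5) (nat_lit 6) (nat_lit 4) (nat_lit 4) (nat_lit 4) (nat_lit 346) (nat_lit 264) (nat_lit 110))) (XT.nd (nat_lit 78) (nat_lit 0) (nat_lit 0) (XT.lf (nat_lit 0) (nat_lit 120816739878) (nat_lit 152) (nat_lit 144939545667) (nat_lit 0) (nat_lit 30509711888) (nat_lit 4) (nat_lit 5) (nat_lit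 6) (nat_lit 4) (nat_lit 4) (nat_lit 4) (nat_lit 347) (nat_lit 264) (nat_lit 109)) (XT.lf (nat_lit 0) (nat_lit 135560616419) (nat_lit 152) (nat_lit 129573201238) (nat_lit 0) (nat_lit 45251352868) (nat_lit 4) (nat_lit 5) (nat_lit 6) (nat_lit 4) (nat_lit 4) (nat_lit 4) (nat_lit 348) (nat_lit 264) (nat_lit 108))))) (XT.nd (nat_lit 312) (nat_lit 0) (nat_lit 76) (XT.nd (nat_lit 156) (nat_lit 0) (nat_lit 0) (XT.nd (nat_lit 78) (nat_lit 0) (nat_lit 0) (XT.lf (nat_lit 0) (nat_lit 3853588300) (nat_lit 684) (nat_lit 1626418807) (nat_lit 684) (nat_lit 1626418807) (nat_lit 58) (nat_lit 3) (nat_lit 67) (nat_lit 3) (nat_lit 67) (nat_lit 5) (nat_lit 265) (nat_lit 265) (nat_lit 190)) (XT.lf (nat_lit 76) (nat_lit 2325532187) (nat_lit 0) (nat_lit 5892915760) (nat_lit 684) (nat_lit 6332055929) (nat_lit 59) (nat_lit 5) (nat_lit 58) (nat_lit 3) (nat_lit 67) (nat_lit 5) (nat_lit 266) (nat_lit 265) (nat_lit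 189))) (XT.nd (nat_lit 78) (nat_lit 0) (nat_lit 76) (XT.lf (nat_lit 76) (nat_lit 8285893879) (nat_lit 0) (nat_lit 506253762) (nat_lit 684) (nat_lit 6111159004) (nat_lit 59) (nat_lit 5) (nat_lit 58) (nat_lit 3) (nat_lit 67) (nat_lit 5) (nat_lit 267) (nat_lit 265) (nat_lit 188)) (XT.lf (nat_lit 0) (nat_lit 9457702799) (nat_lit 608) (nat_lit 820364393) (nat_lit 684) (nat_lit 4992629892) (nat_lit 59) (nat_lit 5) (nat_lit 67) (nat_lit 5) (nat_lit 68) (nat_lit 5) (nat_lit 268) (nat_lit 265) (nat_lit 187)))) (XT.nd (nat_lit 156) (nat_lit 0) (nat_lit 76) (XT.nd (nat_lit 78) (nat_lit 0) (nat_lit 76) (XT.lf (nat_lit 76) (nat_lit 5421780759) (nat_lit 0) (nat_lit 4811292516) (nat_lit 684) (nat_lit 5419657899) (nat_lit 60) (nat_lit 5) (nat_lit 59) (nat_lit 5) (nat_lit 68) (nat_lit 5) (nat_lit 269) (nat_lit 265) (nat_lit 186)) (XT.lf (nat_lit 0) (nat_lit 11060144985) (nat_lit 608) (nat_lit 4074191685)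 (nat_lit 684) (nat_lit 918979860) (nat_lit 60) (nat_lit 5) (nat_lit 68) (nat_lit 5) (nat_lit 69) (nat_lit 5) (nat_lit 270) (nat_lit 265) (nat_lit 185))) (XT.nd (nat_lit 78) (nat_lit 0) (nat_lit 0) (XT.lf (nat_lit 76) (nat_lit 2377330772) (nat_lit 0) (nat_lit 9652287270) (nat_lit 684) (nat_lit 4439352339) (nat_lit 61) (nat_lit 5) (nat_lit 60) (nat_lit 5) (nat_lit 69) (nat_lit 5) (nat_lit 271) (nat_lit 265) (nat_lit 184)) (XT.nd (nat_lit 78) (nat_lit 0) (nat_lit 76) (XT.lf (nat_lit 76) (nat_lit 9282752061) (nat_lit 0) (nat_lit 3819421908) (nat_lit 684) (nat_lit 3800589747) (nat_lit 61) (nat_lit 5) (nat_lit 60) (nat_lit 5) (nat_lit 69) (nat_lit 5) (nat_lit 272) (nat_lit 265) (nat_lit 183)) (XT.lf (nat_lit 0) (nat_lit 14250705987) (nat_lit 608) (nat_lit 871264814) (nat_lit 684) (nat_lit 2235241600) (nat_lit 61) (nat_lit 5) (nat_lit 69) (nat_lit 5) (nat_lit 70) (nat_lit 5) (nat_lit 273)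 (nat_lit 265) (nat_lit 182))))))))
noncomputable def xc159 : XT := (XT.nd (nat_lit 1248) (nat_lit 1064) (nat_lit 0) (XT.nd (nat_lit 624) (nat_lit 836) (nat_lit 0) (XT.nd (nat_lit 312) (nat_lit 760) (nat_lit 0) (XT.nd (nat_lit 156) (nat_lit 608) (nat_lit 0) (XT.nd (nat_lit 78) (nat_lit 0) (nat_lit 0) (XT.lf (nat_lit 76) (nat_lit 6345424193) (nat_lit 0) (nat_lit 9259932721) (nat_lit 684) (nat_lit 2221671133) (nat_lit 62) (nat_lit 5) (nat_lit 61) (nat_lit 5) (nat_lit 70) (nat_lit 5) (nat_lit 274) (nat_lit 265) (nat_lit 181)) (XT.lf (nat_lit 76) (nat_lit 13943381983) (nat_lit 0) (nat_lit 3086588075) (nat_lit 684) (nat_lit 1290328307) (nat_lit 62) (nat_lit 5) (nat_lit 61) (nat_lit 5) (nat_lit 70) (nat_lit 5) (nat_lit 275) (nat_lit 265) (nat_lit 180))) (XT.nd (nat_lit 78) (nat_lit 76) (nat_lit 0) (XT.lf (nat_lit 0) (nat_lit 3119790930) (nat_lit 608) (nat_lit 15495854843) (nat_lit 684) (nat_lit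 218166613) (nat_lit 54) (nat_lit 5) (nat_lit 62) (nat_lit 5) (nat_lit 63) (nat_lit 5) (nat_lit 276) (nat_lit 265) (nat_lit 179)) (XT.lf (nat_lit 0) (nat_lit 992762868) (nat_lit 684) (nat_lit 8302336855) (nat_lit 76) (nat_lit 10071548549) (nat_lit 53) (nat_lit 5) (nat_lit 62) (nat_lit 5) (nat_lit 54) (nat_lit 5) (nat_lit 277) (nat_lit 265) (nat_lit 178)))) (XT.nd (nat_lit 156) (nat_lit 304) (nat_lit 0) (XT.nd (nat_lit 78) (nat_lit 456) (nat_lit 0) (XT.lf (nat_lit 0) (nat_lit 2245734143) (nat_lit 684) (nat_lit 533497924) (nat_lit 76) (nat_lit 17147335712) (nat_lit 53) (nat_lit 5) (nat_lit 62) (nat_lit 5) (nat_lit 54) (nat_lit 5) (nat_lit 278) (nat_lit 265) (nat_lit 177)) (XT.lf (nat_lit 0) (nat_lit 3738984900) (nat_lit 532) (nat_lit 12708227388) (nat_lit 76) (nat_lit 4058448485) (nat_lit 47) (nat_lit 5) (nat_lit 54) (nat_lit 5) (nat_lit 48) (nat_lit 5) (nat_lit 279) (nat_lit 265) (nat_lit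 176))) (XT.nd (nat_lit 78) (nat_lit 304) (nat_lit 0) (XT.lf (nat_lit 0) (nat_lit 5351380601) (nat_lit 532) (nat_lit 4605352167) (nat_lit 76) (nat_lit 11154807772) (nat_lit 47) (nat_lit 5) (nat_lit 54) (nat_lit 5) (nat_lit 48) (nat_lit 5) (nat_lit 280) (nat_lit 265) (nat_lit 175)) (XT.lf (nat_lit 0) (nat_lit 4022045669) (nat_lit 304) (nat_lit 3075372550) (nat_lit 380) (nat_lit 14647698534) (nat_lit 43) (nat_lit 5) (nat_lit 47) (nat_lit 5) (nat_lit 48) (nat_lit 5) (nat_lit 281) (nat_lit 265) (nat_lit 174))))) (XT.nd (nat_lit 312) (nat_lit 532) (nat_lit 0) (XT.nd (nat_lit 156) (nat_lit 304) (nat_lit 0) (XT.nd (nat_lit 78) (nat_lit 0) (nat_lit 0) (XT.lf (nat_lit 0) (nat_lit 9065376559) (nat_lit 380) (nat_lit 9241572241) (nat_lit 76) (nat_lit 4096743052) (nat_lit 43) (nat_lit 5) (nat_lit 48) (nat_lit 5) (nat_lit 44) (nat_lit 5) (nat_lit 282) (nat_lit 265) (nat_lit 173)) (XT.lf (nat_lit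 0) (nat_lit 11173151028) (nat_lit 380) (nat_lit 395679537) (nat_lit 76) (nat_lit 11524342815) (nat_lit 43) (nat_lit 5) (nat_lit 48) (nat_lit 5) (nat_lit 44) (nat_lit 5) (nat_lit 283) (nat_lit 265) (nat_lit 172))) (XT.nd (nat_lit 78) (nat_lit 0) (nat_lit 0) (XT.lf (nat_lit 0) (nat_lit 9177418569) (nat_lit 304) (nat_lit 4343611608) (nat_lit 380) (nat_lit 10289409282) (nat_lit 39) (nat_lit 5) (nat_lit 43) (nat_lit 5) (nat_lit 44) (nat_lit 5) (nat_lit 284) (nat_lit 265) (nat_lit 171)) (XT.lf (nat_lit 0) (nat_lit 16035441666) (nat_lit 380) (nat_lit 5380199741) (nat_lit 76) (nat_lit 3145514585) (nat_lit 39) (nat_lit 5) (nat_lit 44) (nat_lit 5) (nat_lit 40) (nat_lit 5) (nat_lit 285) (nat_lit 265) (nat_lit 170)))) (XT.nd (nat_lit 156) (nat_lit 304) (nat_lit 0) (XT.nd (nat_lit 78) (nat_lit 0) (nat_lit 0) (XT.lf (nat_lit 0) (nat_lit 4396057470) (nat_lit 228) (nat_lit 14411450392) (nat_lit 304)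 (nat_lit 6535345753) (nat_lit 36) (nat_lit 5) (nat_lit 39) (nat_lit 5) (nat_lit 40) (nat_lit 5) (nat_lit 286) (nat_lit 265) (nat_lit 169)) (XT.lf (nat_lit 0) (nat_lit 14839356705) (nat_lit 228) (nat_lit 6962272468) (nat_lit 304) (nat_lit 4357874327) (nat_lit 36) (nat_lit 5) (nat_lit 39) (nat_lit 5) (nat_lit 40) (nat_lit 5) (nat_lit 287) (nat_lit 265) (nat_lit 168))) (XT.nd (nat_lit 78) (nat_lit 304) (nat_lit 0) (XT.lf (nat_lit 0) (nat_lit 24951560826) (nat_lit 304) (nat_lit 1234123447) (nat_lit 76) (nat_lit 831034462) (nat_lit 36) (nat_lit 5) (nat_lit 40) (nat_lit 5) (nat_lit 37) (nat_lit 5) (nat_lit 288) (nat_lit 265) (nat_lit 167)) (XT.lf (nat_lit 0) (nat_lit 591510729) (nat_lit 304) (nat_lit 18374319952) (nat_lit 76) (nat_lit 8937718010) (nat_lit 32) (nat_lit 5) (nat_lit 36) (nat_lit 5) (nat_lit 33) (nat_lit 5) (nat_lit 289) (nat_lit 265) (nat_lit 166)))))) (XT.nd (nat_lit 624)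 (nat_lit 456) (nat_lit 0) (XT.nd (nat_lit 312) (nat_lit 380) (nat_lit 0) (XT.nd (nat_lit 156) (nat_lit 0) (nat_lit 0) (XT.nd (nat_lit 78) (nat_lit 228) (nat_lit 0) (XT.lf (nat_lit 0) (nat_lit 3325950962) (nat_lit 304) (nat_lit 8002542830) (nat_lit 76) (nat_lit 17503849436) (nat_lit 32) (nat_lit 5) (nat_lit 36) (nat_lit 5) (nat_lit 33) (nat_lit 5) (nat_lit 290) (nat_lit 265) (nat_lit 165)) (XT.lf (nat_lit 0) (nat_lit 2975176377) (nat_lit 228) (nat_lit 3261814241) (nat_lit 304) (nat_lit 23568624320) (nat_lit 29) (nat_lit 5) (nat_lit 32) (nat_lit 5) (nat_lit 33) (nat_lit 5) (nat_lit 291) (nat_lit 265) (nat_lit 164))) (XT.nd (nat_lit 78) (nat_lit 0) (nat_lit 0) (XT.lf (nat_lit 0) (nat_lit 9506242944) (nat_lit 304) (nat_lit 16132770127) (nat_lit 76) (nat_lit 5177933958) (nat_lit 29) (nat_lit 5) (nat_lit 33) (nat_lit 5) (nat_lit 30) (nat_lit 5) (nat_lit 292) (nat_lit 265) (nat_lit 163))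 (XT.lf (nat_lit 0) (nat_lit 12986332545) (nat_lit 304) (nat_lit 4961377930) (nat_lit 76) (nat_lit 13928794922) (nat_lit 29) (nat_lit 5) (nat_lit 33) (nat_lit 5) (nat_lit 30) (nat_lit 5) (nat_lit 293) (nat_lit 265) (nat_lit 162)))) (XT.nd (nat_lit 156) (nat_lit 152) (nat_lit 0) (XT.nd (nat_lit 78) (nat_lit 0) (nat_lit 0) (XT.lf (nat_lit 0) (nat_lit 6984820519) (nat_lit 228) (nat_lit 9758851392) (nat_lit 304) (nat_lit 16240234564) (nat_lit 26) (nat_lit 5) (nat_lit 29) (nat_lit 5) (nat_lit 30) (nat_lit 5) (nat_lit 294) (nat_lit 265) (nat_lit 161)) (XT.lf (nat_lit 0) (nat_lit 19693373580) (nat_lit 228) (nat_lit 1073884742) (nat_lit 304) (nat_lit 13375526046) (nat_lit 26) (nat_lit 5) (nat_lit 29) (nat_lit 5) (nat_lit 30) (nat_lit 5) (nat_lit 295) (nat_lit 265) (nat_lit 160))) (XT.nd (nat_lit 78) (nat_lit 152) (nat_lit 0) (XT.lf (nat_lit 0) (nat_lit 25112236481) (nat_lit 304) (nat_lit 2454992227)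 (nat_lit 76) (nat_lit 7786391366) (nat_lit 26) (nat_lit 5) (nat_lit 30) (nat_lit 5) (nat_lit 27) (nat_lit 5) (nat_lit 296) (nat_lit 265) (nat_lit 159)) (XT.lf (nat_lit 0) (nat_lit 10449191291) (nat_lit 152) (nat_lit 19400877390) (nat_lit 228) (nat_lit 6766171999) (nat_lit 24) (nat_lit 5) (nat_lit 26) (nat_lit 5) (nat_lit 27) (nat_lit 5) (nat_lit 297) (nat_lit 265) (nat_lit 158))))) (XT.nd (nat_lit 312) (nat_lit 152) (nat_lit 0) (XT.nd (nat_lit 156) (nat_lit 228) (nat_lit 0) (XT.nd (nat_lit 78) (nat_lit 76) (nat_lit 0) (XT.lf (nat_lit 0) (nat_lit 24077134620) (nat_lit 152) (nat_lit 10784234143) (nat_lit 228) (nat_lit 3078816996) (nat_lit 24) (nat_lit 5) (nat_lit 26) (nat_lit 5) (nat_lit 27) (nat_lit 5) (nat_lit 298) (nat_lit 265) (nat_lit 157)) (XT.lf (nat_lit 0) (nat_lit 762667129) (nat_lit 228) (nat_lit 962776365) (nat_lit 76) (nat_lit 37604528847) (nat_lit 23) (nat_lit 5) (nat_lit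 26) (nat_lit 5) (nat_lit 24) (nat_lit 5) (nat_lit 299) (nat_lit 265) (nat_lit 156))) (XT.nd (nat_lit 78) (nat_lit 0) (nat_lit 0) (XT.lf (nat_lit 0) (nat_lit 5015837043) (nat_lit 304) (nat_lit 27962586755) (nat_lit 76) (nat_lit 7792166060) (nat_lit 20) (nat_lit 5) (nat_lit 24) (nat_lit 5) (nat_lit 21) (nat_lit 5) (nat_lit 300) (nat_lit 265) (nat_lit 155)) (XT.lf (nat_lit 0) (nat_lit 9521993862) (nat_lit 304) (nat_lit 15016579188) (nat_lit 76) (nat_lit 17742667093) (nat_lit 20) (nat_lit 5) (nat_lit 24) (nat_lit 5) (nat_lit 21) (nat_lit 5) (nat_lit 301) (nat_lit 265) (nat_lit 154)))) (XT.nd (nat_lit 156) (nat_lit 0) (nat_lit 0) (XT.nd (nat_lit 78) (nat_lit 152) (nat_lit 0) (XT.lf (nat_lit 0) (nat_lit 14249144303) (nat_lit 304) (nat_lit 1429318769) (nat_lit 76) (nat_lit 28189193019) (nat_lit 20) (nat_lit 5) (nat_lit 24) (nat_lit 5) (nat_lit 21) (nat_lit 5) (nat_lit 302) (nat_lit 265)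 (nat_lit 153)) (XT.lf (nat_lit 0) (nat_lit 13255813950) (nat_lit 152) (nat_lit 6159689940) (nat_lit 228) (nat_lit 26107762975) (nat_lit 18) (nat_lit 5) (nat_lit 20) (nat_lit 5) (nat_lit 21) (nat_lit 5) (nat_lit 303) (nat_lit 265) (nat_lit 152))) (XT.nd (nat_lit 78) (nat_lit 0) (nat_lit 0) (XT.lf (nat_lit 0) (nat_lit 24920632333) (nat_lit 228) (nat_lit 18601750658) (nat_lit 76) (nat_lit 3735268461) (nat_lit 18) (nat_lit 5) (nat_lit 21) (nat_lit 5) (nat_lit 19) (nat_lit 5) (nat_lit 304) (nat_lit 265) (nat_lit 151)) (XT.lf (nat_lit 0) (nat_lit 30798159919) (nat_lit 228) (nat_lit 4359319483) (nat_lit 76) (nat_lit 13916433795) (nat_lit 18) (nat_lit 5) (nat_lit 21) (nat_lit 5) (nat_lit 19) (nat_lit 5) (nat_lit 305) (nat_lit 265) (nat_lit 150)))))))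
noncomputable def xc160 : XT := (XT.nd (nat_lit 1248) (nat_lit 380) (nat_lit 0) (XT.nd (nat_lit 624) (nat_lit 152) (nat_lit 0) (XT.nd (nat_lit 312) (nat_lit 152) (nat_lit 0) (XT.nd (nat_lit 156) (nat_lit 152) (nat_lit 0) (XT.nd (nat_lit 78) (nat_lit 0) (nat_lit 0) (XT.lf (nat_lit 0) (nat_lit 10940071801) (nat_lit 152) (nat_lit 26196644119) (nat_lit 228) (nat_lit 13835928855) (nat_lit 16) (nat_lit 5) (nat_lit 18) (nat_lit 5) (nat_lit 19) (nat_lit 5) (nat_lit 306) (nat_lit 265) (nat_lit 149)) (XT.lf (nat_lit 0) (nat_lit 27150551989) (nat_lit 152) (nat_lit 16711914132) (nat_lit 228) (nat_lit 9100347155) (nat_lit 16) (nat_lit 5) (nat_lit 18) (nat_lit 5) (nat_lit 19) (nat_lit 5) (nat_lit 307) (nat_lit 265) (nat_lit 148))) (XT.nd (nat_lit 78) (nat_lit 152) (nat_lit 0) (XT.lf (nat_lit 0) (nat_lit 44166578672) (nat_lit 152) (nat_lit 6754533938) (nat_lit 228) (nat_lit 4131560168) (nat_lit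 16) (nat_lit 5) (nat_lit 18) (nat_lit 5) (nat_lit 19) (nat_lit 5) (nat_lit 308) (nat_lit 265) (nat_lit 147)) (XT.lf (nat_lit 0) (nat_lit 1183763046) (nat_lit 152) (nat_lit 52379695524) (nat_lit 76) (nat_lit 3676088723) (nat_lit 14) (nat_lit 5) (nat_lit 16) (nat_lit 5) (nat_lit 15) (nat_lit 5) (nat_lit 309) (nat_lit 265) (nat_lit 146)))) (XT.nd (nat_lit 156) (nat_lit 152) (nat_lit 0) (XT.nd (nat_lit 78) (nat_lit 0) (nat_lit 0) (XT.lf (nat_lit 0) (nat_lit 6920881578) (nat_lit 152) (nat_lit 37941924972) (nat_lit 76) (nat_lit 14654839869) (nat_lit 14) (nat_lit 5) (nat_lit 16) (nat_lit 5) (nat_lit 15) (nat_lit 5) (nat_lit 310) (nat_lit 265) (nat_lit 145)) (XT.lf (nat_lit 0) (nat_lit 12941773198) (nat_lit 152) (nat_lit 22786961293) (nat_lit 76) (nat_lit 26181080859) (nat_lit 14) (nat_lit 5) (nat_lit 16) (nat_lit 5) (nat_lit 15) (nat_lit 5) (nat_lit 311) (nat_lit 265) (nat_lit 144))) (XT.nd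 (nat_lit 78) (nat_lit 152) (nat_lit 0) (XT.lf (nat_lit 0) (nat_lit 19260773360) (nat_lit 152) (nat_lit 6878721240) (nat_lit 76) (nat_lit 38282255125) (nat_lit 14) (nat_lit 5) (nat_lit 16) (nat_lit 5) (nat_lit 15) (nat_lit 5) (nat_lit 312) (nat_lit 265) (nat_lit 143)) (XT.lf (nat_lit 0) (nat_lit 10145387713) (nat_lit 152) (nat_lit 15905937526) (nat_lit 228) (nat_lit 41000185206) (nat_lit 12) (nat_lit 5) (nat_lit 14) (nat_lit 5) (nat_lit 15) (nat_lit 5) (nat_lit 313) (nat_lit 265) (nat_lit 142))))) (XT.nd (nat_lit 312) (nat_lit 76) (nat_lit 0) (XT.nd (nat_lit 156) (nat_lit 76) (nat_lit 0) (XT.nd (nat_lit 78) (nat_lit 0) (nat_lit 0) (XT.lf (nat_lit 0) (nat_lit 28255325610) (nat_lit 152) (nat_lit 5039845082) (nat_lit 228) (nat_lit 36511909458) (nat_lit 12) (nat_lit 5) (nat_lit 14) (nat_lit 5) (nat_lit 15) (nat_lit 5) (nat_lit 314) (nat_lit 265) (nat_lit 141)) (XT.lf (nat_lit 0) (nat_lit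 40998034676) (nat_lit 228) (nat_lit 25533222143) (nat_lit 76) (nat_lit 6164339017) (nat_lit 12) (nat_lit 5) (nat_lit 15) (nat_lit 5) (nat_lit 13) (nat_lit 4) (nat_lit 315) (nat_lit 265) (nat_lit 140))) (XT.nd (nat_lit 78) (nat_lit 76) (nat_lit 0) (XT.lf (nat_lit 0) (nat_lit 49166166747) (nat_lit 228) (nat_lit 8800295580) (nat_lit 76) (nat_lit 17758077124) (nat_lit 12) (nat_lit 5) (nat_lit 15) (nat_lit 5) (nat_lit 13) (nat_lit 4) (nat_lit 316) (nat_lit 265) (nat_lit 139)) (XT.lf (nat_lit 0) (nat_lit 9055380277) (nat_lit 76) (nat_lit 48826328320) (nat_lit 152) (nat_lit 21016279479) (nat_lit 11) (nat_lit 5) (nat_lit 12) (nat_lit 5) (nat_lit 13) (nat_lit 4) (nat_lit 317) (nat_lit 265) (nat_lit 138)))) (XT.nd (nat_lit 156) (nat_lit 76) (nat_lit 0) (XT.nd (nat_lit 78) (nat_lit 0) (nat_lit 0) (XT.lf (nat_lit 0) (nat_lit 28105700655) (nat_lit 76) (nat_lit 39074043404) (nat_lit 152) (nat_lit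 15043036856) (nat_lit 11) (nat_lit 5) (nat_lit 12) (nat_lit 5) (nat_lit 13) (nat_lit 4) (nat_lit 318) (nat_lit 265) (nat_lit 137)) (XT.lf (nat_lit 0) (nat_lit 48105045945) (nat_lit 76) (nat_lit 28835425117) (nat_lit 152) (nat_lit 8773460093) (nat_lit 11) (nat_lit 5) (nat_lit 12) (nat_lit 5) (nat_lit 13) (nat_lit 4) (nat_lit 319) (nat_lit 265) (nat_lit 136))) (XT.nd (nat_lit 78) (nat_lit 76) (nat_lit 0) (XT.lf (nat_lit 0) (nat_lit 69101033636) (nat_lit 76) (nat_lit 18086095796) (nat_lit 152) (nat_lit 2192621625) (nat_lit 11) (nat_lit 5) (nat_lit 12) (nat_lit 5) (nat_lit 13) (nat_lit 4) (nat_lit 320) (nat_lit 265) (nat_lit 135)) (XT.lf (nat_lit 0) (nat_lit 4564233052) (nat_lit 152) (nat_lit 2158931253) (nat_lit 76) (nat_lit 86502123626) (nat_lit 10) (nat_lit 5) (nat_lit 12) (nat_lit 5) (nat_lit 11) (nat_lit 5) (nat_lit 321) (nat_lit 265) (nat_lit 134)))))) (XT.nd (nat_lit 624) (nat_lit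 152) (nat_lit 0) (XT.nd (nat_lit 312) (nat_lit 76) (nat_lit 0) (XT.nd (nat_lit 156) (nat_lit 0) (nat_lit 0) (XT.nd (nat_lit 78) (nat_lit 0) (nat_lit 0) (XT.lf (nat_lit 0) (nat_lit 11941044749) (nat_lit 228) (nat_lit 79949950896) (nat_lit 76) (nat_lit 5352524697) (nat_lit 8) (nat_lit 5) (nat_lit 11) (nat_lit 5) (nat_lit 9) (nat_lit 4) (nat_lit 322) (nat_lit 265) (nat_lit 133)) (XT.lf (nat_lit 0) (nat_lit 19832155702) (nat_lit 228) (nat_lit 63781122368) (nat_lit 76) (nat_lit 17842119049) (nat_lit 8) (nat_lit 5) (nat_lit 11) (nat_lit 5) (nat_lit 9) (nat_lit 4) (nat_lit 323) (nat_lit 265) (nat_lit 132))) (XT.nd (nat_lit 78) (nat_lit 0) (nat_lit 0) (XT.lf (nat_lit 0) (nat_lit 28115994518) (nat_lit 228) (nat_lit 46806823200) (nat_lit 76) (nat_lit 30955146807) (nat_lit 8) (nat_lit 5) (nat_lit 11) (nat_lit 5) (nat_lit 9) (nat_lit 4) (nat_lit 324) (nat_lit 265) (nat_lit 131)) (XT.lf (nat_lit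 0) (nat_lit 36812284623) (nat_lit 228) (nat_lit 28986638394) (nat_lit 76) (nat_lit 44722829468) (nat_lit 8) (nat_lit 5) (nat_lit 11) (nat_lit 5) (nat_lit 9) (nat_lit 4) (nat_lit 325) (nat_lit 265) (nat_lit 130)))) (XT.nd (nat_lit 156) (nat_lit 0) (nat_lit 0) (XT.nd (nat_lit 78) (nat_lit 76) (nat_lit 0) (XT.lf (nat_lit 0) (nat_lit 45941731469) (nat_lit 228) (nat_lit 10278138939) (nat_lit 76) (nat_lit 59177947226) (nat_lit 8) (nat_lit 5) (nat_lit 11) (nat_lit 5) (nat_lit 9) (nat_lit 4) (nat_lit 326) (nat_lit 265) (nat_lit 129)) (XT.lf (nat_lit 0) (nat_lit 9672809522) (nat_lit 76) (nat_lit 46004281977) (nat_lit 152) (nat_lit 64833127172) (nat_lit 7) (nat_lit 5) (nat_lit 8) (nat_lit 5) (nat_lit 9) (nat_lit 4) (nat_lit 327) (nat_lit 265) (nat_lit 128))) (XT.nd (nat_lit 78) (nat_lit 0) (nat_lit 0) (XT.lf (nat_lit 0) (nat_lit 30975614298) (nat_lit 76) (nat_lit 35096127429) (nat_lit 152)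 (nat_lit 59797876373) (nat_lit 7) (nat_lit 5) (nat_lit 8) (nat_lit 5) (nat_lit 9) (nat_lit 4) (nat_lit 328) (nat_lit 265) (nat_lit 127)) (XT.lf (nat_lit 0) (nat_lit 53341154659) (nat_lit 76) (nat_lit 23643500224) (nat_lit 152) (nat_lit 54512410331) (nat_lit 7) (nat_lit 5) (nat_lit 8) (nat_lit 5) (nat_lit 9) (nat_lit 4) (nat_lit 329) (nat_lit 265) (nat_lit 126))))) (XT.nd (nat_lit 312) (nat_lit 152) (nat_lit 0) (XT.nd (nat_lit 156) (nat_lit 0) (nat_lit 0) (XT.nd (nat_lit 78) (nat_lit 0) (nat_lit 0) (XT.lf (nat_lit 0) (nat_lit 76822681892) (nat_lit 76) (nat_lit 11619132203) (nat_lit 152) (nat_lit 48964144604) (nat_lit 7) (nat_lit 5) (nat_lit 8) (nat_lit 5) (nat_lit 9) (nat_lit 4) (nat_lit 330) (nat_lit 265) (nat_lit 125)) (XT.lf (nat_lit 0) (nat_lit 100486198644) (nat_lit 152) (nat_lit 42149963284) (nat_lit 0) (nat_lit 973420406) (nat_lit 7) (nat_lit 5) (nat_lit 9) (nat_lit 4) (nat_lit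 7) (nat_lit 4) (nat_lit 331) (nat_lit 265) (nat_lit 124))) (XT.nd (nat_lit 78) (nat_lit 0) (nat_lit 0) (XT.lf (nat_lit 0) (nat_lit 113321997906) (nat_lit 152) (nat_lit 22987593414) (nat_lit 0) (nat_lit 13804339717) (nat_lit 7) (nat_lit 5) (nat_lit 9) (nat_lit 4) (nat_lit 7) (nat_lit 4) (nat_lit 332) (nat_lit 265) (nat_lit 123)) (XT.lf (nat_lit 0) (nat_lit 126798366090) (nat_lit 152) (nat_lit 2869135291) (nat_lit 0) (nat_lit 27276060330) (nat_lit 7) (nat_lit 5) (nat_lit 9) (nat_lit 4) (nat_lit 7) (nat_lit 4) (nat_lit 333) (nat_lit 265) (nat_lit 122)))) (XT.nd (nat_lit 156) (nat_lit 76) (nat_lit 0) (XT.nd (nat_lit 78) (nat_lit 0) (nat_lit 0) (XT.lf (nat_lit 0) (nat_lit 18856849110) (nat_lit 76) (nat_lit 122384948940) (nat_lit 76) (nat_lit 22858216920) (nat_lit 6) (nat_lit 4) (nat_lit 7) (nat_lit 5) (nat_lit 7) (nat_lit 4) (nat_lit 334) (nat_lit 265) (nat_lit 121)) (XT.lf (nat_lit 0)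 (nat_lit 41766840255) (nat_lit 76) (nat_lit 114688014327) (nat_lit 76) (nat_lit 15157066824) (nat_lit 6) (nat_lit 4) (nat_lit 7) (nat_lit 5) (nat_lit 7) (nat_lit 4) (nat_lit 335) (nat_lit 265) (nat_lit 120))) (XT.nd (nat_lit 78) (nat_lit 76) (nat_lit 0) (XT.lf (nat_lit 0) (nat_lit 65820519170) (nat_lit 76) (nat_lit 106606961704) (nat_lit 76) (nat_lit 7071999453) (nat_lit 6) (nat_lit 4) (nat_lit 7) (nat_lit 5) (nat_lit 7) (nat_lit 4) (nat_lit 336) (nat_lit 265) (nat_lit 119)) (XT.nd (nat_lit 78) (nat_lit 0) (nat_lit 0) (XT.lf (nat_lit 0) (nat_lit 1370906975) (nat_lit 152) (nat_lit 96728426520) (nat_lit 76) (nat_lit 89681032573) (nat_lit 5) (nat_lit 5) (nat_lit 7) (nat_lit 5) (nat_lit 6) (nat_lit 4) (nat_lit 337) (nat_lit 265) (nat_lit 118)) (XT.lf (nat_lit 0) (nat_lit 9997292047) (nat_lit 152) (nat_lit 79047978615) (nat_lit 76) (nat_lit 107424281368) (nat_lit 5) (nat_lit 5) (nat_lit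 7) (nat_lit 5) (nat_lit 6) (nat_lit 4) (nat_lit 338) (nat_lit 265) (nat_lit 117))))))))
noncomputable def xc161 : XT := (XT.nd (nat_lit 32292) (nat_lit 0) (nat_lit 2432) (XT.nd (nat_lit 624) (nat_lit 0) (nat_lit 0) (XT.nd (nat_lit 312) (nat_lit 0) (nat_lit 0) (XT.nd (nat_lit 156) (nat_lit 76) (nat_lit 0) (XT.nd (nat_lit 78) (nat_lit 0) (nat_lit 0) (XT.lf (nat_lit 0) (nat_lit 19054042925) (nat_lit 152) (nat_lit 60485107406) (nat_lit 76) (nat_lit 126054097111) (nat_lit 5) (nat_lit 5) (nat_lit 7) (nat_lit 5) (nat_lit 6) (nat_lit 4) (nat_lit 339) (nat_lit 265) (nat_lit 116)) (XT.lf (nat_lit 0) (nat_lit 28562723299) (nat_lit 152) (nat_lit 40995615582) (nat_lit 76) (nat_lit 145614836505) (nat_lit 5) (nat_lit 5) (nat_lit 7) (nat_lit 5) (nat_lit 6) (nat_lit 4) (nat_lit 340) (nat_lit 265) (nat_lit 115))) (XT.nd (nat_lit 78) (nat_lit 76) (nat_lit 0) (XT.lf (nat_lit 0) (nat_lit 38545972885)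 (nat_lit 152) (nat_lit 20533099589) (nat_lit 76) (nat_lit 166153072739) (nat_lit 5) (nat_lit 5) (nat_lit 7) (nat_lit 5) (nat_lit 6) (nat_lit 4) (nat_lit 341) (nat_lit 265) (nat_lit 114)) (XT.lf (nat_lit 0) (nat_lit 982610519) (nat_lit 76) (nat_lit 48060292110) (nat_lit 152) (nat_lit 186750437159) (nat_lit 4) (nat_lit 5) (nat_lit 5) (nat_lit 5) (nat_lit 6) (nat_lit 4) (nat_lit 342) (nat_lit 265) (nat_lit 113)))) (XT.nd (nat_lit 156) (nat_lit 0) (nat_lit 0) (XT.nd (nat_lit 78) (nat_lit 0) (nat_lit 0) (XT.lf (nat_lit 0) (nat_lit 24285609911) (nat_lit 76) (nat_lit 36126001302) (nat_lit 152) (nat_lit 186453638299) (nat_lit 4) (nat_lit 5) (nat_lit 5) (nat_lit 5) (nat_lit 6) (nat_lit 4) (nat_lit 343) (nat_lit 265) (nat_lit 112)) (XT.lf (nat_lit 0) (nat_lit 48752464914) (nat_lit 76) (nat_lit 23595523051) (nat_lit 152) (nat_lit 186142807061) (nat_lit 4) (nat_lit 5) (nat_lit 5) (nat_lit 5)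 (nat_lit 6) (nat_lit 4) (nat_lit 344) (nat_lit 265) (nat_lit 111))) (XT.nd (nat_lit 78) (nat_lit 0) (nat_lit 0) (XT.lf (nat_lit 0) (nat_lit 74441429946) (nat_lit 76) (nat_lit 10439022884) (nat_lit 152) (nat_lit 185817203371) (nat_lit 4) (nat_lit 5) (nat_lit 5) (nat_lit 5) (nat_lit 6) (nat_lit 4) (nat_lit 345) (nat_lit 265) (nat_lit 110)) (XT.lf (nat_lit 0) (nat_lit 98091535475) (nat_lit 152) (nat_lit 182153918247) (nat_lit 0) (nat_lit 3266808747) (nat_lit 4) (nat_lit 5) (nat_lit 6) (nat_lit 4) (nat_lit 4) (nat_lit 4) (nat_lit 346) (nat_lit 265) (nat_lit 109))))) (XT.nd (nat_lit 31356) (nat_lit 0) (nat_lit 4104) (XT.nd (nat_lit 31200) (nat_lit 0) (nat_lit 4104) (XT.nd (nat_lit 78) (nat_lit 0) (nat_lit 0) (XT.lf (nat_lit 0) (nat_lit 112133633876) (nat_lit 152) (nat_lit 167518772183) (nat_lit 0) (nat_lit 17306671586) (nat_lit 4) (nat_lit 5) (nat_lit 6) (nat_lit 4) (nat_lit 4) (nat_lit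 4) (nat_lit 347) (nat_lit 265) (nat_lit 108)) (XT.lf (nat_lit 0) (nat_lit 126877199199) (nat_lit 152) (nat_lit 152152960075) (nat_lit 0) (nat_lit 32048107803) (nat_lit 4) (nat_lit 5) (nat_lit 6) (nat_lit 4) (nat_lit 4) (nat_lit 4) (nat_lit 348) (nat_lit 265) (nat_lit 107))) (XT.nd (nat_lit 78) (nat_lit 0) (nat_lit 0) (XT.lf (nat_lit 0) (nat_lit 4324144331) (nat_lit 684) (nat_lit 1560998278) (nat_lit 684) (nat_lit 1560998278) (nat_lit 58) (nat_lit 3) (nat_lit 67) (nat_lit 3) (nat_lit 67) (nat_lit 5) (nat_lit 266) (nat_lit 266) (nat_lit 188)) (XT.lf (nat_lit 76) (nat_lit 2730558140) (nat_lit 0) (nat_lit 6432609183) (nat_lit 684) (nat_lit 6084910007) (nat_lit 59) (nat_lit 5) (nat_lit 58) (nat_lit 3) (nat_lit 67) (nat_lit 5) (nat_lit 267) (nat_lit 266) (nat_lit 187)))) (XT.nd (nat_lit 156) (nat_lit 0) (nat_lit 76) (XT.nd (nat_lit 78) (nat_lit 0) (nat_lit 76) (XT.lf (nat_lit 76) (nat_lit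 8975187948) (nat_lit 0) (nat_lit 764945150) (nat_lit 684) (nat_lit 5879813413) (nat_lit 59) (nat_lit 5) (nat_lit 58) (nat_lit 3) (nat_lit 67) (nat_lit 5) (nat_lit 268) (nat_lit 266) (nat_lit 186)) (XT.lf (nat_lit 0) (nat_lit 10411287347) (nat_lit 608) (nat_lit 568841149) (nat_lit 684) (nat_lit 5027109841) (nat_lit 59) (nat_lit 5) (nat_lit 67) (nat_lit 5) (nat_lit 68) (nat_lit 5) (nat_lit 269) (nat_lit 266) (nat_lit 185))) (XT.nd (nat_lit 78) (nat_lit 0) (nat_lit 76) (XT.lf (nat_lit 76) (nat_lit 5980692851) (nat_lit 0) (nat_lit 5226336773) (nat_lit 684) (nat_lit 5202405230) (nat_lit 60) (nat_lit 5) (nat_lit 59) (nat_lit 5) (nat_lit 68) (nat_lit 5) (nat_lit 270) (nat_lit 266) (nat_lit 184)) (XT.lf (nat_lit 0) (nat_lit 12050846110) (nat_lit 608) (nat_lit 3976491699) (nat_lit 684) (nat_lit 804076288) (nat_lit 60) (nat_lit 5) (nat_lit 68) (nat_lit 5) (nat_lit 69) (nat_lit 5) (nat_lit 271)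 (nat_lit 266) (nat_lit 183)))))) (XT.nd (nat_lit 624) (nat_lit 1292) (nat_lit 0) (XT.nd (nat_lit 312) (nat_lit 532) (nat_lit 0) (XT.nd (nat_lit 156) (nat_lit 0) (nat_lit 76) (XT.nd (nat_lit 78) (nat_lit 0) (nat_lit 0) (XT.lf (nat_lit 76) (nat_lit 2792745436) (nat_lit 0) (nat_lit 10259834765) (nat_lit 684) (nat_lit 4216208859) (nat_lit 61) (nat_lit 5) (nat_lit 60) (nat_lit 5) (nat_lit 69) (nat_lit 5) (nat_lit 272) (nat_lit 266) (nat_lit 182)) (XT.lf (nat_lit 76) (nat_lit 10029316451) (nat_lit 0) (nat_lit 4129376938) (nat_lit 684) (nat_lit 3566703903) (nat_lit 61) (nat_lit 5) (nat_lit 60) (nat_lit 5) (nat_lit 69) (nat_lit 5) (nat_lit 273) (nat_lit 266) (nat_lit 181))) (XT.nd (nat_lit 78) (nat_lit 0) (nat_lit 0) (XT.lf (nat_lit 0) (nat_lit 15343767999) (nat_lit 608) (nat_lit 622647990) (nat_lit 684) (nat_lit 2237312532) (nat_lit 61) (nat_lit 5) (nat_lit 69) (nat_lit 5) (nat_lit 70) (nat_lit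 5) (nat_lit 274) (nat_lit 266) (nat_lit 180)) (XT.lf (nat_lit 76) (nat_lit 6950162887) (nat_lit 0) (nat_lit 9802356440) (nat_lit 684) (nat_lit 1945307618) (nat_lit 62) (nat_lit 5) (nat_lit 61) (nat_lit 5) (nat_lit 70) (nat_lit 5) (nat_lit 275) (nat_lit 266) (nat_lit 179)))) (XT.nd (nat_lit 156) (nat_lit 0) (nat_lit 0) (XT.nd (nat_lit 78) (nat_lit 608) (nat_lit 0) (XT.lf (nat_lit 76) (nat_lit 14914329638) (nat_lit 0) (nat_lit 3316562319) (nat_lit 684) (nat_lit 985847513) (nat_lit 62) (nat_lit 5) (nat_lit 61) (nat_lit 5) (nat_lit 70) (nat_lit 5) (nat_lit 276) (nat_lit 266) (nat_lit 178)) (XT.lf (nat_lit 0) (nat_lit 121890239) (nat_lit 684) (nat_lit 16193093937) (nat_lit 76) (nat_lit 3441608826) (nat_lit 53) (nat_lit 5) (nat_lit 62) (nat_lit 5) (nat_lit 54) (nat_lit 5) (nat_lit 277) (nat_lit 266) (nat_lit 177))) (XT.nd (nat_lit 78) (nat_lit 0) (nat_lit 0) (XT.lf (nat_lit 0) (nat_lit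 1369670874) (nat_lit 684) (nat_lit 8428832659) (nat_lit 76) (nat_lit 10518297317) (nat_lit 53) (nat_lit 5) (nat_lit 62) (nat_lit 5) (nat_lit 54) (nat_lit 5) (nat_lit 278) (nat_lit 266) (nat_lit 176)) (XT.lf (nat_lit 0) (nat_lit 2669706433) (nat_lit 684) (nat_lit 285295641) (nat_lit 76) (nat_lit 17950579965) (nat_lit 53) (nat_lit 5) (nat_lit 62) (nat_lit 5) (nat_lit 54) (nat_lit 5) (nat_lit 279) (nat_lit 266) (nat_lit 175))))) (XT.nd (nat_lit 312) (nat_lit 532) (nat_lit 0) (XT.nd (nat_lit 156) (nat_lit 304) (nat_lit 0) (XT.nd (nat_lit 78) (nat_lit 0) (nat_lit 0) (XT.lf (nat_lit 0) (nat_lit 4226521843) (nat_lit 532) (nat_lit 13056016217) (nat_lit 76) (nat_lit 4231728889) (nat_lit 47) (nat_lit 5) (nat_lit 54) (nat_lit 5) (nat_lit 48) (nat_lit 5) (nat_lit 280) (nat_lit 266) (nat_lit 174)) (XT.lf (nat_lit 0) (nat_lit 5905223629) (nat_lit 532) (nat_lit 4561693546) (nat_lit 76) (nat_lit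 11684317665) (nat_lit 47) (nat_lit 5) (nat_lit 54) (nat_lit 5) (nat_lit 48) (nat_lit 5) (nat_lit 281) (nat_lit 266) (nat_lit 173))) (XT.nd (nat_lit 78) (nat_lit 0) (nat_lit 0) (XT.lf (nat_lit 0) (nat_lit 4492656017) (nat_lit 304) (nat_lit 3236482793) (nat_lit 380) (nat_lit 15087896987) (nat_lit 43) (nat_lit 5) (nat_lit 47) (nat_lit 5) (nat_lit 48) (nat_lit 5) (nat_lit 282) (nat_lit 266) (nat_lit 172)) (XT.lf (nat_lit 0) (nat_lit 9782202583) (nat_lit 380) (nat_lit 9432260871) (nat_lit 76) (nat_lit 4294811978) (nat_lit 43) (nat_lit 5) (nat_lit 48) (nat_lit 5) (nat_lit 44) (nat_lit 5) (nat_lit 283) (nat_lit 266) (nat_lit 171)))) (XT.nd (nat_lit 156) (nat_lit 228) (nat_lit 0) (XT.nd (nat_lit 78) (nat_lit 304) (nat_lit 0) (XT.lf (nat_lit 0) (nat_lit 11982815434) (nat_lit 380) (nat_lit 156996864) (nat_lit 76) (nat_lit 12094114026) (nat_lit 43) (nat_lit 5) (nat_lit 48) (nat_lit 5) (nat_lit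 44) (nat_lit 5) (nat_lit 284) (nat_lit 266) (nat_lit 170)) (XT.lf (nat_lit 0) (nat_lit 9890587330) (nat_lit 304) (nat_lit 4549518805) (nat_lit 380) (nat_lit 10547413234) (nat_lit 39) (nat_lit 5) (nat_lit 43) (nat_lit 5) (nat_lit 44) (nat_lit 5) (nat_lit 285) (nat_lit 266) (nat_lit 169))) (XT.nd (nat_lit 78) (nat_lit 228) (nat_lit 0) (XT.lf (nat_lit 0) (nat_lit 17068833232) (nat_lit 380) (nat_lit 5394386979) (nat_lit 76) (nat_lit 3313183234) (nat_lit 39) (nat_lit 5) (nat_lit 44) (nat_lit 5) (nat_lit 40) (nat_lit 5) (nat_lit 286) (nat_lit 266) (nat_lit 168)) (XT.lf (nat_lit 0) (nat_lit 4866573049) (nat_lit 228) (nat_lit 15105814518) (nat_lit 304) (nat_lit 6625212682) (nat_lit 36) (nat_lit 5) (nat_lit 39) (nat_lit 5) (nat_lit 40) (nat_lit 5) (nat_lit 287) (nat_lit 266) (nat_lit 167)))))))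
noncomputable def xc162 : XT := (XT.nd (nat_lit 1248) (nat_lit 684) (nat_lit 0) (XT.nd (nat_lit 624) (nat_lit 456) (nat_lit 0) (XT.nd (nat_lit 312) (nat_lit 456) (nat_lit 0) (XT.nd (nat_lit 156) (nat_lit 304) (nat_lit 0) (XT.nd (nat_lit 78) (nat_lit 0) (nat_lit 0) (XT.lf (nat_lit 0) (nat_lit 15820098545) (nat_lit 228) (nat_lit 7285425717) (nat_lit 304) (nat_lit 4350148654) (nat_lit 36) (nat_lit 5) (nat_lit 39) (nat_lit 5) (nat_lit 40) (nat_lit 5) (nat_lit 288) (nat_lit 266) (nat_lit 166)) (XT.lf (nat_lit 0) (nat_lit 26403142041) (nat_lit 304) (nat_lit 1057553369) (nat_lit 76) (nat_lit 895597124) (nat_lit 36) (nat_lit 5) (nat_lit 40) (nat_lit 5) (nat_lit 37) (nat_lit 5) (nat_lit 289) (nat_lit 266) (nat_lit 165))) (XT.nd (nat_lit 78) (nat_lit 0) (nat_lit 0) (XT.lf (nat_lit 0) (nat_lit 823259260) (nat_lit 304) (nat_lit 19050954867) (nat_lit 76) (nat_lit 9413440103) (nat_lit 32) (nat_lit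 5) (nat_lit 36) (nat_lit 5) (nat_lit 33) (nat_lit 5) (nat_lit 290) (nat_lit 266) (nat_lit 164)) (XT.lf (nat_lit 0) (nat_lit 3684794219) (nat_lit 304) (nat_lit 8172116559) (nat_lit 76) (nat_lit 18406504949) (nat_lit 32) (nat_lit 5) (nat_lit 36) (nat_lit 5) (nat_lit 33) (nat_lit 5) (nat_lit 291) (nat_lit 266) (nat_lit 163)))) (XT.nd (nat_lit 156) (nat_lit 228) (nat_lit 0) (XT.nd (nat_lit 78) (nat_lit 0) (nat_lit 0) (XT.lf (nat_lit 0) (nat_lit 3350770005) (nat_lit 228) (nat_lit 3384988537) (nat_lit 304) (nat_lit 24549917532) (nat_lit 29) (nat_lit 5) (nat_lit 32) (nat_lit 5) (nat_lit 33) (nat_lit 5) (nat_lit 292) (nat_lit 266) (nat_lit 162)) (XT.lf (nat_lit 0) (nat_lit 10160166138) (nat_lit 304) (nat_lit 16714236049) (nat_lit 76) (nat_lit 5473629553) (nat_lit 29) (nat_lit 5) (nat_lit 33) (nat_lit 5) (nat_lit 30) (nat_lit 5) (nat_lit 293) (nat_lit 266) (nat_lit 161))) (XT.nd (nat_lit 78)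 (nat_lit 228) (nat_lit 0) (XT.lf (nat_lit 0) (nat_lit 13805754932) (nat_lit 304) (nat_lit 4994996747) (nat_lit 76) (nat_lit 14660281237) (nat_lit 29) (nat_lit 5) (nat_lit 33) (nat_lit 5) (nat_lit 30) (nat_lit 5) (nat_lit 294) (nat_lit 266) (nat_lit 160)) (XT.lf (nat_lit 0) (nat_lit 7545052752) (nat_lit 228) (nat_lit 10201102404) (nat_lit 304) (nat_lit 16877926932) (nat_lit 26) (nat_lit 5) (nat_lit 29) (nat_lit 5) (nat_lit 30) (nat_lit 5) (nat_lit 295) (nat_lit 266) (nat_lit 159))))) (XT.nd (nat_lit 312) (nat_lit 304) (nat_lit 0) (XT.nd (nat_lit 156) (nat_lit 152) (nat_lit 0) (XT.nd (nat_lit 78) (nat_lit 0) (nat_lit 0) (XT.lf (nat_lit 0) (nat_lit 20878986267) (nat_lit 228) (nat_lit 1084063209) (nat_lit 304) (nat_lit 13878283910) (nat_lit 26) (nat_lit 5) (nat_lit 29) (nat_lit 5) (nat_lit 30) (nat_lit 5) (nat_lit 296) (nat_lit 266) (nat_lit 158)) (XT.lf (nat_lit 0) (nat_lit 26518427010)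 (nat_lit 304) (nat_lit 2378832501) (nat_lit 76) (nat_lit 8215828072) (nat_lit 26) (nat_lit 5) (nat_lit 30) (nat_lit 5) (nat_lit 27) (nat_lit 5) (nat_lit 297) (nat_lit 266) (nat_lit 157))) (XT.nd (nat_lit 78) (nat_lit 0) (nat_lit 0) (XT.lf (nat_lit 0) (nat_lit 11167351978) (nat_lit 152) (nat_lit 20321683870) (nat_lit 228) (nat_lit 6950041716) (nat_lit 24) (nat_lit 5) (nat_lit 26) (nat_lit 5) (nat_lit 27) (nat_lit 5) (nat_lit 298) (nat_lit 266) (nat_lit 156)) (XT.lf (nat_lit 0) (nat_lit 25467373373) (nat_lit 152) (nat_lit 11276553098) (nat_lit 228) (nat_lit 3085673196) (nat_lit 24) (nat_lit 5) (nat_lit 26) (nat_lit 5) (nat_lit 27) (nat_lit 5) (nat_lit 299) (nat_lit 266) (nat_lit 155)))) (XT.nd (nat_lit 156) (nat_lit 0) (nat_lit 0) (XT.nd (nat_lit 78) (nat_lit 228) (nat_lit 0) (XT.lf (nat_lit 0) (nat_lit 936397650) (nat_lit 228) (nat_lit 828361852) (nat_lit 76) (nat_lit 39524368409)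 (nat_lit 23) (nat_lit 5) (nat_lit 26) (nat_lit 5) (nat_lit 24) (nat_lit 5) (nat_lit 300) (nat_lit 266) (nat_lit 154)) (XT.lf (nat_lit 0) (nat_lit 5399317428) (nat_lit 304) (nat_lit 29174717758) (nat_lit 76) (nat_lit 8227913367) (nat_lit 20) (nat_lit 5) (nat_lit 24) (nat_lit 5) (nat_lit 21) (nat_lit 5) (nat_lit 301) (nat_lit 266) (nat_lit 153))) (XT.nd (nat_lit 78) (nat_lit 0) (nat_lit 0) (XT.lf (nat_lit 0) (nat_lit 10124463586) (nat_lit 304) (nat_lit 15590266876) (nat_lit 76) (nat_lit 18673742356) (nat_lit 20) (nat_lit 5) (nat_lit 24) (nat_lit 5) (nat_lit 21) (nat_lit 5) (nat_lit 302) (nat_lit 266) (nat_lit 152)) (XT.lf (nat_lit 0) (nat_lit 15081953929) (nat_lit 304) (nat_lit 1332078735) (nat_lit 76) (nat_lit 29640502107) (nat_lit 20) (nat_lit 5) (nat_lit 24) (nat_lit 5) (nat_lit 21) (nat_lit 5) (nat_lit 303) (nat_lit 266) (nat_lit 151)))))) (XT.nd (nat_lit 624) (nat_lit 228) (nat_lit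 0) (XT.nd (nat_lit 312) (nat_lit 152) (nat_lit 0) (XT.nd (nat_lit 156) (nat_lit 152) (nat_lit 0) (XT.nd (nat_lit 78) (nat_lit 0) (nat_lit 0) (XT.lf (nat_lit 0) (nat_lit 14084589556) (nat_lit 152) (nat_lit 6418902362) (nat_lit 228) (nat_lit 27289614311) (nat_lit 18) (nat_lit 5) (nat_lit 20) (nat_lit 5) (nat_lit 21) (nat_lit 5) (nat_lit 304) (nat_lit 266) (nat_lit 150)) (XT.lf (nat_lit 0) (nat_lit 26279020428) (nat_lit 228) (nat_lit 19368459696) (nat_lit 76) (nat_lit 3966994802) (nat_lit 18) (nat_lit 5) (nat_lit 21) (nat_lit 5) (nat_lit 19) (nat_lit 5) (nat_lit 305) (nat_lit 266) (nat_lit 149))) (XT.nd (nat_lit 78) (nat_lit 152) (nat_lit 0) (XT.lf (nat_lit 0) (nat_lit 32445074085) (nat_lit 228) (nat_lit 4421686891) (nat_lit 76) (nat_lit 14655077311) (nat_lit 18) (nat_lit 5) (nat_lit 21) (nat_lit 5) (nat_lit 19) (nat_lit 5) (nat_lit 306) (nat_lit 266) (nat_lit 148)) (XT.lf (nat_lit 0)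 (nat_lit 11640164303) (nat_lit 152) (nat_lit 27457688198) (nat_lit 228) (nat_lit 14417809226) (nat_lit 16) (nat_lit 5) (nat_lit 18) (nat_lit 5) (nat_lit 19) (nat_lit 5) (nat_lit 307) (nat_lit 266) (nat_lit 147)))) (XT.nd (nat_lit 156) (nat_lit 152) (nat_lit 0) (XT.nd (nat_lit 78) (nat_lit 0) (nat_lit 0) (XT.lf (nat_lit 0) (nat_lit 28653878552) (nat_lit 152) (nat_lit 17501044956) (nat_lit 228) (nat_lit 9450682539) (nat_lit 16) (nat_lit 5) (nat_lit 18) (nat_lit 5) (nat_lit 19) (nat_lit 5) (nat_lit 308) (nat_lit 266) (nat_lit 146)) (XT.lf (nat_lit 0) (nat_lit 46513763762) (nat_lit 152) (nat_lit 7048008365) (nat_lit 228) (nat_lit 4238441058) (nat_lit 16) (nat_lit 5) (nat_lit 18) (nat_lit 5) (nat_lit 19) (nat_lit 5) (nat_lit 309) (nat_lit 266) (nat_lit 145))) (XT.nd (nat_lit 78) (nat_lit 0) (nat_lit 0) (XT.lf (nat_lit 0) (nat_lit 1337767309) (nat_lit 152) (nat_lit 54854268102) (nat_lit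 76) (nat_lit 3904419157) (nat_lit 14) (nat_lit 5) (nat_lit 16) (nat_lit 5) (nat_lit 15) (nat_lit 5) (nat_lit 310) (nat_lit 266) (nat_lit 144)) (XT.lf (nat_lit 0) (nat_lit 7357226715) (nat_lit 152) (nat_lit 39701485794) (nat_lit 76) (nat_lit 15429987575) (nat_lit 14) (nat_lit 5) (nat_lit 16) (nat_lit 5) (nat_lit 15) (nat_lit 5) (nat_lit 311) (nat_lit 266) (nat_lit 143))))) (XT.nd (nat_lit 312) (nat_lit 76) (nat_lit 0) (XT.nd (nat_lit 156) (nat_lit 152) (nat_lit 0) (XT.nd (nat_lit 78) (nat_lit 0) (nat_lit 0) (XT.lf (nat_lit 0) (nat_lit 13674862864) (nat_lit 152) (nat_lit 23795323237) (nat_lit 76) (nat_lit 27530521295) (nat_lit 14) (nat_lit 5) (nat_lit 16) (nat_lit 5) (nat_lit 15) (nat_lit 5) (nat_lit 312) (nat_lit 266) (nat_lit 142)) (XT.lf (nat_lit 0) (nat_lit 20305717749) (nat_lit 152) (nat_lit 7097908615) (nat_lit 76) (nat_lit 40234831112) (nat_lit 14) (nat_lit 5) (nat_lit 16) (nat_lit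 5) (nat_lit 15) (nat_lit 5) (nat_lit 313) (nat_lit 266) (nat_lit 141))) (XT.nd (nat_lit 78) (nat_lit 0) (nat_lit 0) (XT.lf (nat_lit 0) (nat_lit 10775393711) (nat_lit 152) (nat_lit 16658419501) (nat_lit 228) (nat_lit 42966005766) (nat_lit 12) (nat_lit 5) (nat_lit 14) (nat_lit 5) (nat_lit 15) (nat_lit 5) (nat_lit 314) (nat_lit 266) (nat_lit 140)) (XT.lf (nat_lit 0) (nat_lit 29784983901) (nat_lit 152) (nat_lit 5251061241) (nat_lit 228) (nat_lit 38257325217) (nat_lit 12) (nat_lit 5) (nat_lit 14) (nat_lit 5) (nat_lit 15) (nat_lit 5) (nat_lit 315) (nat_lit 266) (nat_lit 139)))) (XT.nd (nat_lit 156) (nat_lit 76) (nat_lit 0) (XT.nd (nat_lit 78) (nat_lit 0) (nat_lit 0) (XT.lf (nat_lit 0) (nat_lit 43121034071) (nat_lit 228) (nat_lit 26695293554) (nat_lit 76) (nat_lit 6510147402) (nat_lit 12) (nat_lit 5) (nat_lit 15) (nat_lit 5) (nat_lit 13) (nat_lit 4) (nat_lit 316) (nat_lit 266) (nat_lit 138))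 (XT.lf (nat_lit 0) (nat_lit 51694091905) (nat_lit 228) (nat_lit 9131177314) (nat_lit 76) (nat_lit 18681782346) (nat_lit 12) (nat_lit 5) (nat_lit 15) (nat_lit 5) (nat_lit 13) (nat_lit 4) (nat_lit 317) (nat_lit 266) (nat_lit 137))) (XT.nd (nat_lit 78) (nat_lit 0) (nat_lit 0) (XT.lf (nat_lit 0) (nat_lit 9615522124) (nat_lit 76) (nat_lit 51228250027) (nat_lit 152) (nat_lit 21995493549) (nat_lit 11) (nat_lit 5) (nat_lit 12) (nat_lit 5) (nat_lit 13) (nat_lit 4) (nat_lit 318) (nat_lit 266) (nat_lit 136)) (XT.nd (nat_lit 78) (nat_lit 0) (nat_lit 0) (XT.lf (nat_lit 0) (nat_lit 29613245530) (nat_lit 76) (nat_lit 40990226803) (nat_lit 152) (nat_lit 15726998314) (nat_lit 11) (nat_lit 5) (nat_lit 12) (nat_lit 5) (nat_lit 13) (nat_lit 4) (nat_lit 319) (nat_lit 266) (nat_lit 135)) (XT.lf (nat_lit 0) (nat_lit 50607688568) (nat_lit 76) (nat_lit 30241464210) (nat_lit 152) (nat_lit 9147189874) (nat_lit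 11) (nat_lit 5) (nat_lit 12) (nat_lit 5) (nat_lit 13) (nat_lit 4) (nat_lit 320) (nat_lit 266) (nat_lit 134))))))))
noncomputable def xc163 : XT := (XT.nd (nat_lit 33696) (nat_lit 0) (nat_lit 1216) (XT.nd (nat_lit 1248) (nat_lit 152) (nat_lit 0) (XT.nd (nat_lit 624) (nat_lit 76) (nat_lit 0) (XT.nd (nat_lit 312) (nat_lit 76) (nat_lit 0) (XT.nd (nat_lit 156) (nat_lit 152) (nat_lit 0) (XT.nd (nat_lit 78) (nat_lit 76) (nat_lit 0) (XT.lf (nat_lit 0) (nat_lit 72648838009) (nat_lit 76) (nat_lit 18956369955) (nat_lit 152) (nat_lit 2240402017) (nat_lit 11) (nat_lit 5) (nat_lit 12) (nat_lit 5) (nat_lit 13) (nat_lit 4) (nat_lit 321) (nat_lit 266) (nat_lit 133)) (XT.lf (nat_lit 0) (nat_lit 4849464782) (nat_lit 152) (nat_lit 2176481951) (nat_lit 76) (nat_lit 90857579964) (nat_lit 10) (nat_lit 5) (nat_lit 12) (nat_lit 5) (nat_lit 11) (nat_lit 5) (nat_lit 322) (nat_lit 266) (nat_lit 132))) (XT.nd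 (nat_lit 78) (nat_lit 0) (nat_lit 0) (XT.lf (nat_lit 0) (nat_lit 12594309430) (nat_lit 228) (nat_lit 83856078632) (nat_lit 76) (nat_lit 5652331363) (nat_lit 8) (nat_lit 5) (nat_lit 11) (nat_lit 5) (nat_lit 9) (nat_lit 4) (nat_lit 323) (nat_lit 266) (nat_lit 131)) (XT.lf (nat_lit 0) (nat_lit 20877299148) (nat_lit 228) (nat_lit 66883159621) (nat_lit 76) (nat_lit 18764873031) (nat_lit 8) (nat_lit 5) (nat_lit 11) (nat_lit 5) (nat_lit 9) (nat_lit 4) (nat_lit 324) (nat_lit 266) (nat_lit 130)))) (XT.nd (nat_lit 156) (nat_lit 76) (nat_lit 0) (XT.nd (nat_lit 78) (nat_lit 0) (nat_lit 0) (XT.lf (nat_lit 0) (nat_lit 29572780587) (nat_lit 228) (nat_lit 49064289250) (nat_lit 76) (nat_lit 32532092748) (nat_lit 8) (nat_lit 5) (nat_lit 11) (nat_lit 5) (nat_lit 9) (nat_lit 4) (nat_lit 325) (nat_lit 266) (nat_lit 129)) (XT.lf (nat_lit 0) (nat_lit 38701457276) (nat_lit 228) (nat_lit 30357041637) (nat_lit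 76) (nat_lit 46986769608) (nat_lit 8) (nat_lit 5) (nat_lit 11) (nat_lit 5) (nat_lit 9) (nat_lit 4) (nat_lit 326) (nat_lit 266) (nat_lit 128))) (XT.nd (nat_lit 78) (nat_lit 76) (nat_lit 0) (XT.lf (nat_lit 0) (nat_lit 48285064159) (nat_lit 228) (nat_lit 10716875718) (nat_lit 76) (nat_lit 62163319509) (nat_lit 8) (nat_lit 5) (nat_lit 11) (nat_lit 5) (nat_lit 9) (nat_lit 4) (nat_lit 327) (nat_lit 266) (nat_lit 127)) (XT.lf (nat_lit 0) (nat_lit 10230407745) (nat_lit 76) (nat_lit 48275736938) (nat_lit 152) (nat_lit 68027194683) (nat_lit 7) (nat_lit 5) (nat_lit 8) (nat_lit 5) (nat_lit 9) (nat_lit 4) (nat_lit 328) (nat_lit 266) (nat_lit 126))))) (XT.nd (nat_lit 312) (nat_lit 76) (nat_lit 0) (XT.nd (nat_lit 156) (nat_lit 0) (nat_lit 0) (XT.nd (nat_lit 78) (nat_lit 0) (nat_lit 0) (XT.lf (nat_lit 0) (nat_lit 32594830961) (nat_lit 76) (nat_lit 36823544145) (nat_lit 152) (nat_lit 62742447479)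 (nat_lit 7) (nat_lit 5) (nat_lit 8) (nat_lit 5) (nat_lit 9) (nat_lit 4) (nat_lit 329) (nat_lit 266) (nat_lit 125)) (XT.lf (nat_lit 0) (nat_lit 56075294248) (nat_lit 76) (nat_lit 24799589850) (nat_lit 152) (nat_lit 57194866360) (nat_lit 7) (nat_lit 5) (nat_lit 8) (nat_lit 5) (nat_lit 9) (nat_lit 4) (nat_lit 330) (nat_lit 266) (nat_lit 124))) (XT.nd (nat_lit 78) (nat_lit 0) (nat_lit 0) (XT.lf (nat_lit 0) (nat_lit 80727703469) (nat_lit 76) (nat_lit 12175245589) (nat_lit 152) (nat_lit 51371242798) (nat_lit 7) (nat_lit 5) (nat_lit 8) (nat_lit 5) (nat_lit 9) (nat_lit 4) (nat_lit 331) (nat_lit 266) (nat_lit 123)) (XT.lf (nat_lit 0) (nat_lit 105548062986) (nat_lit 152) (nat_lit 44195019174) (nat_lit 0) (nat_lit 1044994365) (nat_lit 7) (nat_lit 5) (nat_lit 9) (nat_lit 4) (nat_lit 7) (nat_lit 4) (nat_lit 332) (nat_lit 266) (nat_lit 122)))) (XT.nd (nat_lit 156) (nat_lit 76) (nat_lit 0) (XT.nd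 (nat_lit 78) (nat_lit 0) (nat_lit 0) (XT.lf (nat_lit 0) (nat_lit 119023863905) (nat_lit 152) (nat_lit 24077504252) (nat_lit 0) (nat_lit 14516369026) (nat_lit 7) (nat_lit 5) (nat_lit 9) (nat_lit 4) (nat_lit 7) (nat_lit 4) (nat_lit 333) (nat_lit 266) (nat_lit 121)) (XT.lf (nat_lit 0) (nat_lit 133172347351) (nat_lit 152) (nat_lit 2955955072) (nat_lit 0) (nat_lit 28660636987) (nat_lit 7) (nat_lit 5) (nat_lit 9) (nat_lit 4) (nat_lit 7) (nat_lit 4) (nat_lit 334) (nat_lit 266) (nat_lit 120))) (XT.nd (nat_lit 78) (nat_lit 0) (nat_lit 0) (XT.lf (nat_lit 0) (nat_lit 19855415050) (nat_lit 76) (nat_lit 128481783813) (nat_lit 76) (nat_lit 23966058702) (nat_lit 6) (nat_lit 4) (nat_lit 7) (nat_lit 5) (nat_lit 7) (nat_lit 4) (nat_lit 335) (nat_lit 266) (nat_lit 119)) (XT.lf (nat_lit 0) (nat_lit 43908252253) (nat_lit 76) (nat_lit 120401069736) (nat_lit 76) (nat_lit 15881521056) (nat_lit 6) (nat_lit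 4) (nat_lit 7) (nat_lit 5) (nat_lit 7) (nat_lit 4) (nat_lit 336) (nat_lit 266) (nat_lit 118)))))) (XT.nd (nat_lit 624) (nat_lit 0) (nat_lit 0) (XT.nd (nat_lit 312) (nat_lit 76) (nat_lit 0) (XT.nd (nat_lit 156) (nat_lit 0) (nat_lit 0) (XT.nd (nat_lit 78) (nat_lit 76) (nat_lit 0) (XT.lf (nat_lit 0) (nat_lit 69162087972) (nat_lit 76) (nat_lit 111916980924) (nat_lit 76) (nat_lit 7393790751) (nat_lit 6) (nat_lit 4) (nat_lit 7) (nat_lit 5) (nat_lit 7) (nat_lit 4) (nat_lit 337) (nat_lit 266) (nat_lit 117)) (XT.lf (nat_lit 0) (nat_lit 1468776703) (nat_lit 152) (nat_lit 101515666020) (nat_lit 76) (nat_lit 94183399240) (nat_lit 5) (nat_lit 5) (nat_lit 7) (nat_lit 5) (nat_lit 6) (nat_lit 4) (nat_lit 338) (nat_lit 266) (nat_lit 116))) (XT.nd (nat_lit 78) (nat_lit 0) (nat_lit 0) (XT.lf (nat_lit 0) (nat_lit 10525084631) (nat_lit 152) (nat_lit 82953537711) (nat_lit 76) (nat_lit 112812938331) (nat_lit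 5) (nat_lit 5) (nat_lit 7) (nat_lit 5) (nat_lit 6) (nat_lit 4) (nat_lit 339) (nat_lit 266) (nat_lit 115)) (XT.lf (nat_lit 0) (nat_lit 20033343148) (nat_lit 152) (nat_lit 63464753410) (nat_lit 76) (nat_lit 132373414246) (nat_lit 5) (nat_lit 5) (nat_lit 7) (nat_lit 5) (nat_lit 6) (nat_lit 4) (nat_lit 340) (nat_lit 266) (nat_lit 114)))) (XT.nd (nat_lit 156) (nat_lit 76) (nat_lit 0) (XT.nd (nat_lit 78) (nat_lit 0) (nat_lit 0) (XT.lf (nat_lit 0) (nat_lit 30016190966) (nat_lit 152) (nat_lit 43002911250) (nat_lit 76) (nat_lit 152911399549) (nat_lit 5) (nat_lit 5) (nat_lit 7) (nat_lit 5) (nat_lit 6) (nat_lit 4) (nat_lit 341) (nat_lit 266) (nat_lit 113)) (XT.lf (nat_lit 0) (nat_lit 40497396769) (nat_lit 152) (nat_lit 21519292559) (nat_lit 76) (nat_lit 174475794203) (nat_lit 5) (nat_lit 5) (nat_lit 7) (nat_lit 5) (nat_lit 6) (nat_lit 4) (nat_lit 342) (nat_lit 266) (nat_lit 112))) (XT.nd (nat_lit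 78) (nat_lit 0) (nat_lit 0) (XT.lf (nat_lit 0) (nat_lit 1071550442) (nat_lit 76) (nat_lit 50447095273) (nat_lit 152) (nat_lit 196063121468) (nat_lit 4) (nat_lit 5) (nat_lit 5) (nat_lit 5) (nat_lit 6) (nat_lit 4) (nat_lit 343) (nat_lit 266) (nat_lit 111)) (XT.lf (nat_lit 0) (nat_lit 25537804118) (nat_lit 76) (nat_lit 37916861899) (nat_lit 152) (nat_lit 195752665405) (nat_lit 4) (nat_lit 5) (nat_lit 5) (nat_lit 5) (nat_lit 6) (nat_lit 4) (nat_lit 344) (nat_lit 266) (nat_lit 110))))) (XT.nd (nat_lit 31512) (nat_lit 0) (nat_lit 4104) (XT.nd (nat_lit 156) (nat_lit 0) (nat_lit 0) (XT.nd (nat_lit 78) (nat_lit 0) (nat_lit 0) (XT.lf (nat_lit 0) (nat_lit 51226196457) (nat_lit 76) (nat_lit 24760594948) (nat_lit 152) (nat_lit 195427419025) (nat_lit 4) (nat_lit 5) (nat_lit 5) (nat_lit 5) (nat_lit 6) (nat_lit 4) (nat_lit 345) (nat_lit 266) (nat_lit 109)) (XT.lf (nat_lit 0) (nat_lit 78197890297)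 (nat_lit 76) (nat_lit 10946969976) (nat_lit 152) (nat_lit 195086607930) (nat_lit 4) (nat_lit 5) (nat_lit 5) (nat_lit 5) (nat_lit 6) (nat_lit 4) (nat_lit 346) (nat_lit 266) (nat_lit 108))) (XT.nd (nat_lit 31278) (nat_lit 0) (nat_lit 4104) (XT.lf (nat_lit 0) (nat_lit 103015734576) (nat_lit 152) (nat_lit 191228051284) (nat_lit 0) (nat_lit 3443059504) (nat_lit 4) (nat_lit 5) (nat_lit 6) (nat_lit 4) (nat_lit 4) (nat_lit 4) (nat_lit 347) (nat_lit 266) (nat_lit 107)) (XT.lf (nat_lit 0) (nat_lit 4792393829) (nat_lit 684) (nat_lit 1505949353) (nat_lit 684) (nat_lit 1505949353) (nat_lit 58) (nat_lit 3) (nat_lit 67) (nat_lit 3) (nat_lit 67) (nat_lit 5) (nat_lit 267) (nat_lit 267) (nat_lit 186)))) (XT.nd (nat_lit 156) (nat_lit 0) (nat_lit 76) (XT.nd (nat_lit 78) (nat_lit 0) (nat_lit 0) (XT.lf (nat_lit 76) (nat_lit 3128990214) (nat_lit 0) (nat_lit 6976505070) (nat_lit 684) (nat_lit 5877818801)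 (nat_lit 59) (nat_lit 5) (nat_lit 58) (nat_lit 3) (nat_lit 67) (nat_lit 5) (nat_lit 268) (nat_lit 267) (nat_lit 185)) (XT.lf (nat_lit 76) (nat_lit 9673379885) (nat_lit 0) (nat_lit 1014873767) (nat_lit 684) (nat_lit 5686816744) (nat_lit 59) (nat_lit 5) (nat_lit 58) (nat_lit 3) (nat_lit 67) (nat_lit 5) (nat_lit 269) (nat_lit 267) (nat_lit 184))) (XT.nd (nat_lit 78) (nat_lit 0) (nat_lit 0) (XT.lf (nat_lit 0) (nat_lit 11367860248) (nat_lit 608) (nat_lit 331939474) (nat_lit 684) (nat_lit 5083316538) (nat_lit 59) (nat_lit 5) (nat_lit 67) (nat_lit 5) (nat_lit 68) (nat_lit 5) (nat_lit 270) (nat_lit 267) (nat_lit 183)) (XT.lf (nat_lit 76) (nat_lit 6540791488) (nat_lit 0) (nat_lit 5645911781) (nat_lit 684) (nat_lit 5019681443) (nat_lit 60) (nat_lit 5) (nat_lit 59) (nat_lit 5) (nat_lit 68) (nat_lit 5) (nat_lit 271) (nat_lit 267) (nat_lit 182))))))) (XT.nd (nat_lit 1248) (nat_lit 1444) (nat_lit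 0) (XT.nd (nat_lit 624) (nat_lit 1064) (nat_lit 0) (XT.nd (nat_lit 312) (nat_lit 532) (nat_lit 0) (XT.nd (nat_lit 156) (nat_lit 0) (nat_lit 0) (XT.nd (nat_lit 78) (nat_lit 0) (nat_lit 0) (XT.lf (nat_lit 0) (nat_lit 13050389662) (nat_lit 608) (nat_lit 3901928919) (nat_lit 684) (nat_lit 698382084) (nat_lit 60) (nat_lit 5) (nat_lit 68) (nat_lit 5) (nat_lit 69) (nat_lit 5) (nat_lit 272) (nat_lit 267) (nat_lit 181)) (XT.lf (nat_lit 76) (nat_lit 3201360599) (nat_lit 0) (nat_lit 10886144536) (nat_lit 684) (nat_lit 4023290415) (nat_lit 61) (nat_lit 5) (nat_lit 60) (nat_lit 5) (nat_lit 69) (nat_lit 5) (nat_lit 273) (nat_lit 267) (nat_lit 180))) (XT.nd (nat_lit 78) (nat_lit 0) (nat_lit 76) (XT.lf (nat_lit 76) (nat_lit 10786951694) (nat_lit 0) (nat_lit 4443767721) (nat_lit 684) (nat_lit 3360535397) (nat_lit 61) (nat_lit 5) (nat_lit 60) (nat_lit 5) (nat_lit 69) (nat_lit 5) (nat_lit 274) (nat_lit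 267) (nat_lit 179)) (XT.lf (nat_lit 0) (nat_lit 16456105345) (nat_lit 608) (nat_lit 388764457) (nat_lit 684) (nat_lit 2249685053) (nat_lit 61) (nat_lit 5) (nat_lit 69) (nat_lit 5) (nat_lit 70) (nat_lit 5) (nat_lit 275) (nat_lit 267) (nat_lit 178)))) (XT.nd (nat_lit 156) (nat_lit 608) (nat_lit 0) (XT.nd (nat_lit 78) (nat_lit 0) (nat_lit 0) (XT.lf (nat_lit 76) (nat_lit 7558412513) (nat_lit 0) (nat_lit 10364516967) (nat_lit 684) (nat_lit 1691147085) (nat_lit 62) (nat_lit 5) (nat_lit 61) (nat_lit 5) (nat_lit 70) (nat_lit 5) (nat_lit 276) (nat_lit 267) (nat_lit 177)) (XT.lf (nat_lit 76) (nat_lit 15908371340) (nat_lit 0) (nat_lit 3551002535) (nat_lit 684) (nat_lit 700448541) (nat_lit 62) (nat_lit 5) (nat_lit 61) (nat_lit 5) (nat_lit 70) (nat_lit 5) (nat_lit 277) (nat_lit 267) (nat_lit 176))) (XT.nd (nat_lit 78) (nat_lit 0) (nat_lit 0) (XT.lf (nat_lit 0) (nat_lit 439670333) (nat_lit 684)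 (nat_lit 16727871454) (nat_lit 76) (nat_lit 3559566735) (nat_lit 53) (nat_lit 5) (nat_lit 62) (nat_lit 5) (nat_lit 54) (nat_lit 5) (nat_lit 278) (nat_lit 267) (nat_lit 175)) (XT.lf (nat_lit 0) (nat_lit 1734997829) (nat_lit 684) (nat_lit 8588486502) (nat_lit 76) (nat_lit 10992666913) (nat_lit 53) (nat_lit 5) (nat_lit 62) (nat_lit 5) (nat_lit 54) (nat_lit 5) (nat_lit 279) (nat_lit 267) (nat_lit 174))))) (XT.nd (nat_lit 312) (nat_lit 304) (nat_lit 0) (XT.nd (nat_lit 156) (nat_lit 304) (nat_lit 0) (XT.nd (nat_lit 78) (nat_lit 456) (nat_lit 0) (XT.lf (nat_lit 0) (nat_lit 3085899766) (nat_lit 684) (nat_lit 50238718) (nat_lit 76) (nat_lit 18799018230) (nat_lit 53) (nat_lit 5) (nat_lit 62) (nat_lit 5) (nat_lit 54) (nat_lit 5) (nat_lit 280) (nat_lit 267) (nat_lit 173)) (XT.lf (nat_lit 0) (nat_lit 4710489839) (nat_lit 532) (nat_lit 13447934905) (nat_lit 76) (nat_lit 4416429148) (nat_lit 47)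 (nat_lit 5) (nat_lit 54) (nat_lit 5) (nat_lit 48) (nat_lit 5) (nat_lit 281) (nat_lit 267) (nat_lit 172))) (XT.nd (nat_lit 78) (nat_lit 304) (nat_lit 0) (XT.lf (nat_lit 0) (nat_lit 6460143767) (nat_lit 532) (nat_lit 4541319059) (nat_lit 76) (nat_lit 12242927657) (nat_lit 47) (nat_lit 5) (nat_lit 54) (nat_lit 5) (nat_lit 48) (nat_lit 5) (nat_lit 282) (nat_lit 267) (nat_lit 171)) (XT.lf (nat_lit 0) (nat_lit 4961740576) (nat_lit 304) (nat_lit 3404965995) (nat_lit 380) (nat_lit 15577270092) (nat_lit 43) (nat_lit 5) (nat_lit 47) (nat_lit 5) (nat_lit 48) (nat_lit 5) (nat_lit 283) (nat_lit 267) (nat_lit 170)))) (XT.nd (nat_lit 156) (nat_lit 0) (nat_lit 0) (XT.nd (nat_lit 78) (nat_lit 304) (nat_lit 0) (XT.lf (nat_lit 0) (nat_lit 10510366859) (nat_lit 380) (nat_lit 9657715201) (nat_lit 76) (nat_lit 4503413595) (nat_lit 43) (nat_lit 5) (nat_lit 48) (nat_lit 5) (nat_lit 44) (nat_lit 5) (nat_lit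 284) (nat_lit 267) (nat_lit 169)) (XT.lf (nat_lit 0) (nat_lit 71891127) (nat_lit 304) (nat_lit 12738858116) (nat_lit 380) (nat_lit 12622204373) (nat_lit 39) (nat_lit 5) (nat_lit 43) (nat_lit 5) (nat_lit 44) (nat_lit 5) (nat_lit 285) (nat_lit 267) (nat_lit 168))) (XT.nd (nat_lit 78) (nat_lit 0) (nat_lit 0) (XT.lf (nat_lit 0) (nat_lit 10615772327) (nat_lit 304) (nat_lit 4766769453) (nat_lit 380) (nat_lit 10842161209) (nat_lit 39) (nat_lit 5) (nat_lit 43) (nat_lit 5) (nat_lit 44) (nat_lit 5) (nat_lit 286) (nat_lit 267) (nat_lit 167)) (XT.lf (nat_lit 0) (nat_lit 18132360593) (nat_lit 380) (nat_lit 5432974582) (nat_lit 76) (nat_lit 3488269080) (nat_lit 39) (nat_lit 5) (nat_lit 44) (nat_lit 5) (nat_lit 40) (nat_lit 5) (nat_lit 287) (nat_lit 267) (nat_lit 166)))))) (XT.nd (nat_lit 624) (nat_lit 684) (nat_lit 0) (XT.nd (nat_lit 312) (nat_lit 228) (nat_lit 0) (XT.nd (nat_lit 156) (nat_lit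 304) (nat_lit 0) (XT.nd (nat_lit 78) (nat_lit 0) (nat_lit 0) (XT.lf (nat_lit 0) (nat_lit 5337305516) (nat_lit 228) (nat_lit 15837333459) (nat_lit 304) (nat_lit 6741597707) (nat_lit 36) (nat_lit 5) (nat_lit 39) (nat_lit 5) (nat_lit 40) (nat_lit 5) (nat_lit 288) (nat_lit 267) (nat_lit 165)) (XT.lf (nat_lit 0) (nat_lit 16827678534) (nat_lit 228) (nat_lit 7627057207) (nat_lit 304) (nat_lit 4363012650) (nat_lit 36) (nat_lit 5) (nat_lit 39) (nat_lit 5) (nat_lit 40) (nat_lit 5) (nat_lit 289) (nat_lit 267) (nat_lit 164))) (XT.nd (nat_lit 78) (nat_lit 304) (nat_lit 0) (XT.lf (nat_lit 0) (nat_lit 27908336035) (nat_lit 304) (nat_lit 894307455) (nat_lit 76) (nat_lit 961248581) (nat_lit 36) (nat_lit 5) (nat_lit 40) (nat_lit 5) (nat_lit 37) (nat_lit 5) (nat_lit 290) (nat_lit 267) (nat_lit 163)) (XT.lf (nat_lit 0) (nat_lit 1047799089) (nat_lit 304) (nat_lit 19783927932) (nat_lit 76) (nat_lit 9910267385)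 (nat_lit 32) (nat_lit 5) (nat_lit 36) (nat_lit 5) (nat_lit 33) (nat_lit 5) (nat_lit 291) (nat_lit 267) (nat_lit 162)))) (XT.nd (nat_lit 156) (nat_lit 0) (nat_lit 0) (XT.nd (nat_lit 78) (nat_lit 228) (nat_lit 0) (XT.lf (nat_lit 0) (nat_lit 4043678564) (nat_lit 304) (nat_lit 8371603646) (nat_lit 76) (nat_lit 19351739984) (nat_lit 32) (nat_lit 5) (nat_lit 36) (nat_lit 5) (nat_lit 33) (nat_lit 5) (nat_lit 292) (nat_lit 267) (nat_lit 161)) (XT.lf (nat_lit 0) (nat_lit 3724054363) (nat_lit 228) (nat_lit 3518032598) (nat_lit 304) (nat_lit 25598603427) (nat_lit 29) (nat_lit 5) (nat_lit 32) (nat_lit 5) (nat_lit 33) (nat_lit 5) (nat_lit 293) (nat_lit 267) (nat_lit 160))) (XT.nd (nat_lit 78) (nat_lit 0) (nat_lit 0) (XT.lf (nat_lit 0) (nat_lit 10830179931) (nat_lit 304) (nat_lit 17345709680) (nat_lit 76) (nat_lit 5780688714) (nat_lit 29) (nat_lit 5) (nat_lit 33) (nat_lit 5) (nat_lit 30) (nat_lit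 5) (nat_lit 294) (nat_lit 267) (nat_lit 159)) (XT.lf (nat_lit 0) (nat_lit 14650333617) (nat_lit 304) (nat_lit 5050234040) (nat_lit 76) (nat_lit 15425083569) (nat_lit 29) (nat_lit 5) (nat_lit 33) (nat_lit 5) (nat_lit 30) (nat_lit 5) (nat_lit 295) (nat_lit 267) (nat_lit 158))))) (XT.nd (nat_lit 312) (nat_lit 304) (nat_lit 0) (XT.nd (nat_lit 156) (nat_lit 152) (nat_lit 0) (XT.nd (nat_lit 78) (nat_lit 0) (nat_lit 0) (XT.lf (nat_lit 0) (nat_lit 8113680635) (nat_lit 228) (nat_lit 10669713933) (nat_lit 304) (nat_lit 17563710481) (nat_lit 26) (nat_lit 5) (nat_lit 29) (nat_lit 5) (nat_lit 30) (nat_lit 5) (nat_lit 296) (nat_lit 267) (nat_lit 157)) (XT.lf (nat_lit 0) (nat_lit 22105197719) (nat_lit 228) (nat_lit 1098796284) (nat_lit 304) (nat_lit 14421614488) (nat_lit 26) (nat_lit 5) (nat_lit 29) (nat_lit 5) (nat_lit 30) (nat_lit 5) (nat_lit 297) (nat_lit 267) (nat_lit 156))) (XT.nd (nat_lit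 78) (nat_lit 152) (nat_lit 0) (XT.lf (nat_lit 0) (nat_lit 27980927685) (nat_lit 304) (nat_lit 2317357493) (nat_lit 76) (nat_lit 8663006901) (nat_lit 26) (nat_lit 5) (nat_lit 30) (nat_lit 5) (nat_lit 27) (nat_lit 5) (nat_lit 298) (nat_lit 267) (nat_lit 155)) (XT.lf (nat_lit 0) (nat_lit 11903226265) (nat_lit 152) (nat_lit 21293108300) (nat_lit 228) (nat_lit 7157463183) (nat_lit 24) (nat_lit 5) (nat_lit 26) (nat_lit 5) (nat_lit 27) (nat_lit 5) (nat_lit 299) (nat_lit 267) (nat_lit 154)))) (XT.nd (nat_lit 156) (nat_lit 228) (nat_lit 0) (XT.nd (nat_lit 78) (nat_lit 76) (nat_lit 0) (XT.lf (nat_lit 0) (nat_lit 26909796030) (nat_lit 152) (nat_lit 11797847645) (nat_lit 228) (nat_lit 3106546742) (nat_lit 24) (nat_lit 5) (nat_lit 26) (nat_lit 5) (nat_lit 27) (nat_lit 5) (nat_lit 300) (nat_lit 267) (nat_lit 153)) (XT.lf (nat_lit 0) (nat_lit 1106208159) (nat_lit 228) (nat_lit 704198691) (nat_lit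 76) (nat_lit 41536517096) (nat_lit 23) (nat_lit 5) (nat_lit 26) (nat_lit 5) (nat_lit 24) (nat_lit 5) (nat_lit 301) (nat_lit 267) (nat_lit 152))) (XT.nd (nat_lit 78) (nat_lit 0) (nat_lit 0) (XT.lf (nat_lit 0) (nat_lit 5789635711) (nat_lit 304) (nat_lit 30464747674) (nat_lit 76) (nat_lit 8681158472) (nat_lit 20) (nat_lit 5) (nat_lit 24) (nat_lit 5) (nat_lit 21) (nat_lit 5) (nat_lit 302) (nat_lit 267) (nat_lit 151)) (XT.lf (nat_lit 0) (nat_lit 10745308109) (nat_lit 304) (nat_lit 16209107865) (nat_lit 76) (nat_lit 19647286080) (nat_lit 20) (nat_lit 5) (nat_lit 24) (nat_lit 5) (nat_lit 21) (nat_lit 5) (nat_lit 303) (nat_lit 267) (nat_lit 150))))))))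
noncomputable def xc164 : XT := (XT.nd (nat_lit 1248) (nat_lit 304) (nat_lit 0) (XT.nd (nat_lit 624) (nat_lit 228) (nat_lit 0) (XT.nd (nat_lit 312) (nat_lit 304) (nat_lit 0) (XT.nd (nat_lit 156) (nat_lit 0) (nat_lit 0) (XT.nd (nat_lit 78) (nat_lit 152) (nat_lit 0) (XT.lf (nat_lit 0) (nat_lit 15945214810) (nat_lit 304) (nat_lit 1245661382) (nat_lit 76) (nat_lit 31160485885) (nat_lit 20) (nat_lit 5) (nat_lit 24) (nat_lit 5) (nat_lit 21) (nat_lit 5) (nat_lit 304) (nat_lit 267) (nat_lit 149)) (XT.lf (nat_lit 0) (nat_lit 14939372239) (nat_lit 152) (nat_lit 6695609770) (nat_lit 228) (nat_lit 28542043496) (nat_lit 18) (nat_lit 5) (nat_lit 20) (nat_lit 5) (nat_lit 21) (nat_lit 5) (nat_lit 305) (nat_lit 267) (nat_lit 148))) (XT.nd (nat_lit 78) (nat_lit 0) (nat_lit 0) (XT.lf (nat_lit 0) (nat_lit 27694882088) (nat_lit 228) (nat_lit 20188693571) (nat_lit 76) (nat_lit 4206127235) (nat_lit 18)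 (nat_lit 5) (nat_lit 21) (nat_lit 5) (nat_lit 19) (nat_lit 5) (nat_lit 306) (nat_lit 267) (nat_lit 147)) (XT.lf (nat_lit 0) (nat_lit 34164385540) (nat_lit 228) (nat_lit 4501638750) (nat_lit 76) (nat_lit 15426671836) (nat_lit 18) (nat_lit 5) (nat_lit 21) (nat_lit 5) (nat_lit 19) (nat_lit 5) (nat_lit 307) (nat_lit 267) (nat_lit 146)))) (XT.nd (nat_lit 156) (nat_lit 152) (nat_lit 0) (XT.nd (nat_lit 78) (nat_lit 0) (nat_lit 0) (XT.lf (nat_lit 0) (nat_lit 12361028674) (nat_lit 152) (nat_lit 28786320338) (nat_lit 228) (nat_lit 15039002569) (nat_lit 16) (nat_lit 5) (nat_lit 18) (nat_lit 5) (nat_lit 19) (nat_lit 5) (nat_lit 308) (nat_lit 267) (nat_lit 145)) (XT.lf (nat_lit 0) (nat_lit 30218816437) (nat_lit 152) (nat_lit 18333952186) (nat_lit 228) (nat_lit 9828267030) (nat_lit 16) (nat_lit 5) (nat_lit 18) (nat_lit 5) (nat_lit 19) (nat_lit 5) (nat_lit 309) (nat_lit 267) (nat_lit 144))) (XT.nd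 (nat_lit 78) (nat_lit 152) (nat_lit 0) (XT.lf (nat_lit 0) (nat_lit 48965398576) (nat_lit 152) (nat_lit 7360270671) (nat_lit 228) (nat_lit 4359934886) (nat_lit 16) (nat_lit 5) (nat_lit 18) (nat_lit 5) (nat_lit 19) (nat_lit 5) (nat_lit 310) (nat_lit 267) (nat_lit 143)) (XT.lf (nat_lit 0) (nat_lit 1490656681) (nat_lit 152) (nat_lit 57465995386) (nat_lit 76) (nat_lit 4140026508) (nat_lit 14) (nat_lit 5) (nat_lit 16) (nat_lit 5) (nat_lit 15) (nat_lit 5) (nat_lit 311) (nat_lit 267) (nat_lit 142))))) (XT.nd (nat_lit 312) (nat_lit 76) (nat_lit 0) (XT.nd (nat_lit 156) (nat_lit 152) (nat_lit 0) (XT.nd (nat_lit 78) (nat_lit 0) (nat_lit 0) (XT.lf (nat_lit 0) (nat_lit 7806993771) (nat_lit 152) (nat_lit 41561811396) (nat_lit 76) (nat_lit 16239950185) (nat_lit 14) (nat_lit 5) (nat_lit 16) (nat_lit 5) (nat_lit 15) (nat_lit 5) (nat_lit 312) (nat_lit 267) (nat_lit 141)) (XT.lf (nat_lit 0) (nat_lit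 14436611456) (nat_lit 152) (nat_lit 24866281125) (nat_lit 76) (nat_lit 28943679008) (nat_lit 14) (nat_lit 5) (nat_lit 16) (nat_lit 5) (nat_lit 15) (nat_lit 5) (nat_lit 313) (nat_lit 267) (nat_lit 140))) (XT.nd (nat_lit 78) (nat_lit 152) (nat_lit 0) (XT.lf (nat_lit 0) (nat_lit 21395294540) (nat_lit 152) (nat_lit 7339653310) (nat_lit 76) (nat_lit 42281459952) (nat_lit 14) (nat_lit 5) (nat_lit 16) (nat_lit 5) (nat_lit 15) (nat_lit 5) (nat_lit 314) (nat_lit 267) (nat_lit 139)) (XT.lf (nat_lit 0) (nat_lit 11425489121) (nat_lit 152) (nat_lit 17452506100) (nat_lit 228) (nat_lit 45037944422) (nat_lit 12) (nat_lit 5) (nat_lit 14) (nat_lit 5) (nat_lit 15) (nat_lit 5) (nat_lit 315) (nat_lit 267) (nat_lit 138)))) (XT.nd (nat_lit 156) (nat_lit 76) (nat_lit 0) (XT.nd (nat_lit 78) (nat_lit 0) (nat_lit 0) (XT.lf (nat_lit 0) (nat_lit 31380257596) (nat_lit 152) (nat_lit 5476629182) (nat_lit 228) (nat_lit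 40097466113) (nat_lit 12) (nat_lit 5) (nat_lit 14) (nat_lit 5) (nat_lit 15) (nat_lit 5) (nat_lit 316) (nat_lit 267) (nat_lit 137)) (XT.lf (nat_lit 0) (nat_lit 45343387508) (nat_lit 228) (nat_lit 27926121999) (nat_lit 76) (nat_lit 6869751311) (nat_lit 12) (nat_lit 5) (nat_lit 15) (nat_lit 5) (nat_lit 13) (nat_lit 4) (nat_lit 317) (nat_lit 267) (nat_lit 136))) (XT.nd (nat_lit 78) (nat_lit 76) (nat_lit 0) (XT.lf (nat_lit 0) (nat_lit 54341941008) (nat_lit 228) (nat_lit 9488749292) (nat_lit 76) (nat_lit 19648344357) (nat_lit 12) (nat_lit 5) (nat_lit 15) (nat_lit 5) (nat_lit 13) (nat_lit 4) (nat_lit 318) (nat_lit 267) (nat_lit 135)) (XT.lf (nat_lit 0) (nat_lit 10193688556) (nat_lit 76) (nat_lit 53753930365) (nat_lit 152) (nat_lit 23030325003) (nat_lit 11) (nat_lit 5) (nat_lit 12) (nat_lit 5) (nat_lit 13) (nat_lit 4) (nat_lit 319) (nat_lit 267) (nat_lit 134)))))) (XT.nd (nat_lit 624) (nat_lit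 76) (nat_lit 0) (XT.nd (nat_lit 312) (nat_lit 152) (nat_lit 0) (XT.nd (nat_lit 156) (nat_lit 76) (nat_lit 0) (XT.nd (nat_lit 78) (nat_lit 0) (nat_lit 0) (XT.lf (nat_lit 0) (nat_lit 31186660497) (nat_lit 76) (nat_lit 43005707512) (nat_lit 152) (nat_lit 16451497541) (nat_lit 11) (nat_lit 5) (nat_lit 12) (nat_lit 5) (nat_lit 13) (nat_lit 4) (nat_lit 320) (nat_lit 267) (nat_lit 133)) (XT.lf (nat_lit 0) (nat_lit 53226408892) (nat_lit 76) (nat_lit 31721127296) (nat_lit 152) (nat_lit 9545643949) (nat_lit 11) (nat_lit 5) (nat_lit 12) (nat_lit 5) (nat_lit 13) (nat_lit 4) (nat_lit 321) (nat_lit 267) (nat_lit 132))) (XT.nd (nat_lit 78) (nat_lit 76) (nat_lit 0) (XT.lf (nat_lit 0) (nat_lit 76365409334) (nat_lit 76) (nat_lit 19873321667) (nat_lit 152) (nat_lit 2296321720) (nat_lit 11) (nat_lit 5) (nat_lit 12) (nat_lit 5) (nat_lit 13) (nat_lit 4) (nat_lit 322) (nat_lit 267) (nat_lit 131)) (XT.lf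 (nat_lit 0) (nat_lit 5143656911) (nat_lit 152) (nat_lit 2203314335) (nat_lit 76) (nat_lit 95427987449) (nat_lit 10) (nat_lit 5) (nat_lit 12) (nat_lit 5) (nat_lit 11) (nat_lit 5) (nat_lit 323) (nat_lit 267) (nat_lit 130)))) (XT.nd (nat_lit 156) (nat_lit 0) (nat_lit 0) (XT.nd (nat_lit 78) (nat_lit 0) (nat_lit 0) (XT.lf (nat_lit 0) (nat_lit 13275011245) (nat_lit 228) (nat_lit 87966007454) (nat_lit 76) (nat_lit 5964136532) (nat_lit 8) (nat_lit 5) (nat_lit 11) (nat_lit 5) (nat_lit 9) (nat_lit 4) (nat_lit 324) (nat_lit 267) (nat_lit 129)) (XT.lf (nat_lit 0) (nat_lit 21969722527) (nat_lit 228) (nat_lit 70148388925) (nat_lit 76) (nat_lit 19730915350) (nat_lit 8) (nat_lit 5) (nat_lit 11) (nat_lit 5) (nat_lit 9) (nat_lit 4) (nat_lit 325) (nat_lit 267) (nat_lit 128))) (XT.nd (nat_lit 78) (nat_lit 0) (nat_lit 0) (XT.lf (nat_lit 0) (nat_lit 31097665733) (nat_lit 228) (nat_lit 51442333544) (nat_lit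 76) (nat_lit 34185172306) (nat_lit 8) (nat_lit 5) (nat_lit 11) (nat_lit 5) (nat_lit 9) (nat_lit 4) (nat_lit 326) (nat_lit 267) (nat_lit 127)) (XT.lf (nat_lit 0) (nat_lit 40680574060) (nat_lit 228) (nat_lit 31803303083) (nat_lit 76) (nat_lit 49361322299) (nat_lit 8) (nat_lit 5) (nat_lit 11) (nat_lit 5) (nat_lit 9) (nat_lit 4) (nat_lit 327) (nat_lit 267) (nat_lit 126))))) (XT.nd (nat_lit 312) (nat_lit 0) (nat_lit 0) (XT.nd (nat_lit 156) (nat_lit 0) (nat_lit 0) (XT.nd (nat_lit 78) (nat_lit 76) (nat_lit 0) (XT.lf (nat_lit 0) (nat_lit 50741263958) (nat_lit 228) (nat_lit 11184537946) (nat_lit 76) (nat_lit 65295499018) (nat_lit 8) (nat_lit 5) (nat_lit 11) (nat_lit 5) (nat_lit 9) (nat_lit 4) (nat_lit 328) (nat_lit 267) (nat_lit 125)) (XT.lf (nat_lit 0) (nat_lit 10809009988) (nat_lit 76) (nat_lit 50663438399) (nat_lit 152) (nat_lit 71385389929) (nat_lit 7) (nat_lit 5) (nat_lit 8) (nat_lit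 5) (nat_lit 9) (nat_lit 4) (nat_lit 329) (nat_lit 267) (nat_lit 124))) (XT.nd (nat_lit 78) (nat_lit 0) (nat_lit 0) (XT.lf (nat_lit 0) (nat_lit 34288459991) (nat_lit 76) (nat_lit 38639878128) (nat_lit 152) (nat_lit 65838460817) (nat_lit 7) (nat_lit 5) (nat_lit 8) (nat_lit 5) (nat_lit 9) (nat_lit 4) (nat_lit 330) (nat_lit 267) (nat_lit 123)) (XT.lf (nat_lit 0) (nat_lit 58939904181) (nat_lit 76) (nat_lit 26015909128) (nat_lit 152) (nat_lit 60015458215) (nat_lit 7) (nat_lit 5) (nat_lit 8) (nat_lit 5) (nat_lit 9) (nat_lit 4) (nat_lit 331) (nat_lit 267) (nat_lit 122)))) (XT.nd (nat_lit 156) (nat_lit 0) (nat_lit 0) (XT.nd (nat_lit 78) (nat_lit 0) (nat_lit 0) (XT.lf (nat_lit 0) (nat_lit 84822036471) (nat_lit 76) (nat_lit 12761474331) (nat_lit 152) (nat_lit 53902517831) (nat_lit 7) (nat_lit 5) (nat_lit 8) (nat_lit 5) (nat_lit 9) (nat_lit 4) (nat_lit 332) (nat_lit 267) (nat_lit 121)) (XT.lf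 (nat_lit 0) (nat_lit 110859529091) (nat_lit 152) (nat_lit 46348133149) (nat_lit 0) (nat_lit 1118017725) (nat_lit 7) (nat_lit 5) (nat_lit 9) (nat_lit 4) (nat_lit 7) (nat_lit 4) (nat_lit 333) (nat_lit 267) (nat_lit 120))) (XT.nd (nat_lit 78) (nat_lit 0) (nat_lit 0) (XT.lf (nat_lit 0) (nat_lit 125007498010) (nat_lit 152) (nat_lit 25227439480) (nat_lit 0) (nat_lit 15261971897) (nat_lit 7) (nat_lit 5) (nat_lit 9) (nat_lit 4) (nat_lit 7) (nat_lit 4) (nat_lit 334) (nat_lit 267) (nat_lit 119)) (XT.lf (nat_lit 0) (nat_lit 139861860824) (nat_lit 152) (nat_lit 3052381411) (nat_lit 0) (nat_lit 30112511141) (nat_lit 7) (nat_lit 5) (nat_lit 9) (nat_lit 4) (nat_lit 7) (nat_lit 4) (nat_lit 335) (nat_lit 267) (nat_lit 118)))))))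
noncomputable def xc165 : XT := (XT.nd (nat_lit 32526) (nat_lit 0) (nat_lit 2660) (XT.nd (nat_lit 624) (nat_lit 76) (nat_lit 0) (XT.nd (nat_lit 312) (nat_lit 0) (nat_lit 0) (XT.nd (nat_lit 156) (nat_lit 76) (nat_lit 0) (XT.nd (nat_lit 78) (nat_lit 0) (nat_lit 0) (XT.lf (nat_lit 0) (nat_lit 20898728645) (nat_lit 76) (nat_lit 134885544139) (nat_lit 76) (nat_lit 25132552962) (nat_lit 6) (nat_lit 4) (nat_lit 7) (nat_lit 5) (nat_lit 7) (nat_lit 4) (nat_lit 336) (nat_lit 267) (nat_lit 117)) (XT.lf (nat_lit 0) (nat_lit 46151800906) (nat_lit 76) (nat_lit 126401762398) (nat_lit 76) (nat_lit 16645303133) (nat_lit 6) (nat_lit 4) (nat_lit 7) (nat_lit 5) (nat_lit 7) (nat_lit 4) (nat_lit 337) (nat_lit 267) (nat_lit 116))) (XT.nd (nat_lit 78) (nat_lit 76) (nat_lit 0) (XT.lf (nat_lit 0) (nat_lit 72666036218) (nat_lit 76) (nat_lit 117494391091) (nat_lit 76) (nat_lit 7734628882) (nat_lit 6) (nat_lit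 4) (nat_lit 7) (nat_lit 5) (nat_lit 7) (nat_lit 4) (nat_lit 338) (nat_lit 267) (nat_lit 115)) (XT.lf (nat_lit 0) (nat_lit 1568813615) (nat_lit 152) (nat_lit 106546839955) (nat_lit 76) (nat_lit 98909181481) (nat_lit 5) (nat_lit 5) (nat_lit 7) (nat_lit 5) (nat_lit 6) (nat_lit 4) (nat_lit 339) (nat_lit 267) (nat_lit 114)))) (XT.nd (nat_lit 156) (nat_lit 0) (nat_lit 0) (XT.nd (nat_lit 78) (nat_lit 0) (nat_lit 0) (XT.lf (nat_lit 0) (nat_lit 11076670364) (nat_lit 152) (nat_lit 87058729486) (nat_lit 76) (nat_lit 118469406466) (nat_lit 5) (nat_lit 5) (nat_lit 7) (nat_lit 5) (nat_lit 6) (nat_lit 4) (nat_lit 340) (nat_lit 267) (nat_lit 113)) (XT.lf (nat_lit 0) (nat_lit 21059135545) (nat_lit 152) (nat_lit 66597529071) (nat_lit 76) (nat_lit 139007152786) (nat_lit 5) (nat_lit 5) (nat_lit 7) (nat_lit 5) (nat_lit 6) (nat_lit 4) (nat_lit 341) (nat_lit 267) (nat_lit 112))) (XT.nd (nat_lit 78) (nat_lit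 0) (nat_lit 0) (XT.lf (nat_lit 0) (nat_lit 31539976933) (nat_lit 152) (nat_lit 45114521565) (nat_lit 76) (nat_lit 160571319838) (nat_lit 5) (nat_lit 5) (nat_lit 7) (nat_lit 5) (nat_lit 6) (nat_lit 4) (nat_lit 342) (nat_lit 267) (nat_lit 111)) (XT.lf (nat_lit 0) (nat_lit 42544148911) (nat_lit 152) (nat_lit 22558556951) (nat_lit 76) (nat_lit 183213250876) (nat_lit 5) (nat_lit 5) (nat_lit 7) (nat_lit 5) (nat_lit 6) (nat_lit 4) (nat_lit 343) (nat_lit 267) (nat_lit 110))))) (XT.nd (nat_lit 31590) (nat_lit 0) (nat_lit 4104) (XT.nd (nat_lit 156) (nat_lit 0) (nat_lit 0) (XT.nd (nat_lit 78) (nat_lit 0) (nat_lit 0) (XT.lf (nat_lit 0) (nat_lit 1161236261) (nat_lit 76) (nat_lit 52954745781) (nat_lit 152) (nat_lit 205843749152) (nat_lit 4) (nat_lit 5) (nat_lit 5) (nat_lit 5) (nat_lit 6) (nat_lit 4) (nat_lit 344) (nat_lit 267) (nat_lit 109)) (XT.lf (nat_lit 0) (nat_lit 26849083178) (nat_lit 76)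 (nat_lit 39798700941) (nat_lit 152) (nat_lit 205518843067) (nat_lit 4) (nat_lit 5) (nat_lit 5) (nat_lit 5) (nat_lit 6) (nat_lit 4) (nat_lit 345) (nat_lit 267) (nat_lit 108))) (XT.nd (nat_lit 78) (nat_lit 0) (nat_lit 0) (XT.lf (nat_lit 0) (nat_lit 53820257569) (nat_lit 76) (nat_lit 25985287502) (nat_lit 152) (nat_lit 205178356063) (nat_lit 4) (nat_lit 5) (nat_lit 5) (nat_lit 5) (nat_lit 6) (nat_lit 4) (nat_lit 346) (nat_lit 267) (nat_lit 107)) (XT.lf (nat_lit 0) (nat_lit 82138976517) (nat_lit 76) (nat_lit 11481616385) (nat_lit 152) (nat_lit 204821477457) (nat_lit 4) (nat_lit 5) (nat_lit 5) (nat_lit 5) (nat_lit 6) (nat_lit 4) (nat_lit 347) (nat_lit 267) (nat_lit 106)))) (XT.nd (nat_lit 156) (nat_lit 0) (nat_lit 0) (XT.nd (nat_lit 78) (nat_lit 0) (nat_lit 0) (XT.lf (nat_lit 0) (nat_lit 5260623300) (nat_lit 684) (nat_lit 1460522251) (nat_lit 684) (nat_lit 1460522251) (nat_lit 58) (nat_lit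 3) (nat_lit 67) (nat_lit 3) (nat_lit 67) (nat_lit 5) (nat_lit 268) (nat_lit 268) (nat_lit 184)) (XT.lf (nat_lit 76) (nat_lit 3522994524) (nat_lit 0) (nat_lit 7526931619) (nat_lit 684) (nat_lit 5707912276) (nat_lit 59) (nat_lit 5) (nat_lit 58) (nat_lit 3) (nat_lit 67) (nat_lit 5) (nat_lit 269) (nat_lit 268) (nat_lit 183))) (XT.nd (nat_lit 78) (nat_lit 0) (nat_lit 76) (XT.lf (nat_lit 76) (nat_lit 10383291546) (nat_lit 0) (nat_lit 1257618689) (nat_lit 684) (nat_lit 5529445709) (nat_lit 59) (nat_lit 5) (nat_lit 58) (nat_lit 3) (nat_lit 67) (nat_lit 5) (nat_lit 270) (nat_lit 268) (nat_lit 182)) (XT.lf (nat_lit 0) (nat_lit 12331725853) (nat_lit 608) (nat_lit 107861861) (nat_lit 684) (nat_lit 5160476655) (nat_lit 59) (nat_lit 5) (nat_lit 67) (nat_lit 5) (nat_lit 68) (nat_lit 5) (nat_lit 271) (nat_lit 268) (nat_lit 181)))))) (XT.nd (nat_lit 624) (nat_lit 1064) (nat_lit 0) (XT.nd (nat_lit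 312) (nat_lit 456) (nat_lit 0) (XT.nd (nat_lit 156) (nat_lit 0) (nat_lit 76) (XT.nd (nat_lit 78) (nat_lit 0) (nat_lit 76) (XT.lf (nat_lit 76) (nat_lit 7104623801) (nat_lit 0) (nat_lit 6071752194) (nat_lit 684) (nat_lit 4868992908) (nat_lit 60) (nat_lit 5) (nat_lit 59) (nat_lit 5) (nat_lit 68) (nat_lit 5) (nat_lit 272) (nat_lit 268) (nat_lit 180)) (XT.lf (nat_lit 0) (nat_lit 14063000980) (nat_lit 608) (nat_lit 3849054965) (nat_lit 684) (nat_lit 600967385) (nat_lit 60) (nat_lit 5) (nat_lit 68) (nat_lit 5) (nat_lit 69) (nat_lit 5) (nat_lit 273) (nat_lit 268) (nat_lit 179))) (XT.nd (nat_lit 78) (nat_lit 0) (nat_lit 0) (XT.lf (nat_lit 76) (nat_lit 3605399506) (nat_lit 0) (nat_lit 11533234559) (nat_lit 684) (nat_lit 3858260935) (nat_lit 61) (nat_lit 5) (nat_lit 60) (nat_lit 5) (nat_lit 69) (nat_lit 5) (nat_lit 274) (nat_lit 268) (nat_lit 178)) (XT.lf (nat_lit 76) (nat_lit 11558652494) (nat_lit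 0) (nat_lit 4763844485) (nat_lit 684) (nat_lit 3179805976) (nat_lit 61) (nat_lit 5) (nat_lit 60) (nat_lit 5) (nat_lit 69) (nat_lit 5) (nat_lit 275) (nat_lit 268) (nat_lit 177)))) (XT.nd (nat_lit 156) (nat_lit 608) (nat_lit 0) (XT.nd (nat_lit 78) (nat_lit 0) (nat_lit 0) (XT.lf (nat_lit 0) (nat_lit 17591970880) (nat_lit 608) (nat_lit 167825417) (nat_lit 684) (nat_lit 2271926127) (nat_lit 61) (nat_lit 5) (nat_lit 69) (nat_lit 5) (nat_lit 70) (nat_lit 5) (nat_lit 276) (nat_lit 268) (nat_lit 176)) (XT.lf (nat_lit 76) (nat_lit 8172833349) (nat_lit 0) (nat_lit 10948087673) (nat_lit 684) (nat_lit 1456950775) (nat_lit 62) (nat_lit 5) (nat_lit 61) (nat_lit 5) (nat_lit 70) (nat_lit 5) (nat_lit 277) (nat_lit 268) (nat_lit 175))) (XT.nd (nat_lit 78) (nat_lit 608) (nat_lit 0) (XT.lf (nat_lit 76) (nat_lit 16929028203) (nat_lit 0) (nat_lit 3790785859) (nat_lit 684) (nat_lit 431896050) (nat_lit 62)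 (nat_lit 5) (nat_lit 61) (nat_lit 5) (nat_lit 70) (nat_lit 5) (nat_lit 278) (nat_lit 268) (nat_lit 174)) (XT.lf (nat_lit 0) (nat_lit 744361861) (nat_lit 684) (nat_lit 17314943322) (nat_lit 76) (nat_lit 3688454339) (nat_lit 53) (nat_lit 5) (nat_lit 62) (nat_lit 5) (nat_lit 54) (nat_lit 5) (nat_lit 279) (nat_lit 268) (nat_lit 173))))) (XT.nd (nat_lit 312) (nat_lit 608) (nat_lit 0) (XT.nd (nat_lit 156) (nat_lit 0) (nat_lit 0) (XT.nd (nat_lit 78) (nat_lit 456) (nat_lit 0) (XT.lf (nat_lit 0) (nat_lit 2090993446) (nat_lit 684) (nat_lit 8780461585) (nat_lit 76) (nat_lit 11495547180) (nat_lit 53) (nat_lit 5) (nat_lit 62) (nat_lit 5) (nat_lit 54) (nat_lit 5) (nat_lit 280) (nat_lit 268) (nat_lit 172)) (XT.lf (nat_lit 0) (nat_lit 179124586) (nat_lit 456) (nat_lit 3320291305) (nat_lit 532) (nat_lit 19518114450) (nat_lit 47) (nat_lit 5) (nat_lit 53) (nat_lit 5) (nat_lit 54) (nat_lit 5) (nat_lit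 281) (nat_lit 268) (nat_lit 171))) (XT.nd (nat_lit 78) (nat_lit 0) (nat_lit 0) (XT.lf (nat_lit 0) (nat_lit 5193308574) (nat_lit 532) (nat_lit 13883703875) (nat_lit 76) (nat_lit 4612864042) (nat_lit 47) (nat_lit 5) (nat_lit 54) (nat_lit 5) (nat_lit 48) (nat_lit 5) (nat_lit 282) (nat_lit 268) (nat_lit 170)) (XT.lf (nat_lit 0) (nat_lit 7018669282) (nat_lit 532) (nat_lit 4543025226) (nat_lit 76) (nat_lit 12831848741) (nat_lit 47) (nat_lit 5) (nat_lit 54) (nat_lit 5) (nat_lit 48) (nat_lit 5) (nat_lit 283) (nat_lit 268) (nat_lit 169)))) (XT.nd (nat_lit 156) (nat_lit 304) (nat_lit 0) (XT.nd (nat_lit 78) (nat_lit 0) (nat_lit 0) (XT.lf (nat_lit 0) (nat_lit 5431552556) (nat_lit 304) (nat_lit 3581254260) (nat_lit 380) (nat_lit 16115751061) (nat_lit 43) (nat_lit 5) (nat_lit 47) (nat_lit 5) (nat_lit 48) (nat_lit 5) (nat_lit 284) (nat_lit 268) (nat_lit 168)) (XT.lf (nat_lit 0) (nat_lit 11252714360)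 (nat_lit 380) (nat_lit 9917327751) (nat_lit 76) (nat_lit 4723016038) (nat_lit 43) (nat_lit 5) (nat_lit 48) (nat_lit 5) (nat_lit 44) (nat_lit 5) (nat_lit 285) (nat_lit 268) (nat_lit 167))) (XT.nd (nat_lit 78) (nat_lit 0) (nat_lit 0) (XT.lf (nat_lit 0) (nat_lit 295157712) (nat_lit 304) (nat_lit 13366062648) (nat_lit 380) (nat_lit 13031769175) (nat_lit 39) (nat_lit 5) (nat_lit 43) (nat_lit 5) (nat_lit 44) (nat_lit 5) (nat_lit 286) (nat_lit 268) (nat_lit 166)) (XT.nd (nat_lit 78) (nat_lit 0) (nat_lit 0) (XT.lf (nat_lit 0) (nat_lit 11355772400) (nat_lit 304) (nat_lit 4995833285) (nat_lit 380) (nat_lit 11173273635) (nat_lit 39) (nat_lit 5) (nat_lit 43) (nat_lit 5) (nat_lit 44) (nat_lit 5) (nat_lit 287) (nat_lit 268) (nat_lit 165)) (XT.lf (nat_lit 0) (nat_lit 19229532545) (nat_lit 380) (nat_lit 5494980004) (nat_lit 76) (nat_lit 3671232815) (nat_lit 39) (nat_lit 5) (nat_lit 44) (nat_lit 5)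 (nat_lit 40) (nat_lit 5) (nat_lit 288) (nat_lit 268) (nat_lit 164))))))))
noncomputable def xc166 : XT := (XT.nd (nat_lit 2496) (nat_lit 532) (nat_lit 0) (XT.nd (nat_lit 1248) (nat_lit 684) (nat_lit 0) (XT.nd (nat_lit 624) (nat_lit 684) (nat_lit 0) (XT.nd (nat_lit 312) (nat_lit 228) (nat_lit 0) (XT.nd (nat_lit 156) (nat_lit 304) (nat_lit 0) (XT.nd (nat_lit 78) (nat_lit 0) (nat_lit 0) (XT.lf (nat_lit 0) (nat_lit 5810432755) (nat_lit 228) (nat_lit 16607638421) (nat_lit 304) (nat_lit 6883779081) (nat_lit 36) (nat_lit 5) (nat_lit 39) (nat_lit 5) (nat_lit 40) (nat_lit 5) (nat_lit 289) (nat_lit 268) (nat_lit 163)) (XT.lf (nat_lit 0) (nat_lit 17865502426) (nat_lit 228) (nat_lit 7987875106) (nat_lit 304) (nat_lit 4395545653) (nat_lit 36) (nat_lit 5) (nat_lit 39) (nat_lit 5) (nat_lit 40) (nat_lit 5) (nat_lit 290) (nat_lit 268) (nat_lit 162))) (XT.nd (nat_lit 78) (nat_lit 304) (nat_lit 0) (XT.lf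 (nat_lit 0) (nat_lit 29471586752) (nat_lit 304) (nat_lit 742992367) (nat_lit 76) (nat_lit 1028242168) (nat_lit 36) (nat_lit 5) (nat_lit 40) (nat_lit 5) (nat_lit 37) (nat_lit 5) (nat_lit 291) (nat_lit 268) (nat_lit 161)) (XT.lf (nat_lit 0) (nat_lit 1266517266) (nat_lit 304) (nat_lit 20573963623) (nat_lit 76) (nat_lit 10429504362) (nat_lit 32) (nat_lit 5) (nat_lit 36) (nat_lit 5) (nat_lit 33) (nat_lit 5) (nat_lit 292) (nat_lit 268) (nat_lit 160)))) (XT.nd (nat_lit 156) (nat_lit 0) (nat_lit 0) (XT.nd (nat_lit 78) (nat_lit 228) (nat_lit 0) (XT.lf (nat_lit 0) (nat_lit 4404270323) (nat_lit 304) (nat_lit 8600506966) (nat_lit 76) (nat_lit 20341920895) (nat_lit 32) (nat_lit 5) (nat_lit 36) (nat_lit 5) (nat_lit 33) (nat_lit 5) (nat_lit 293) (nat_lit 268) (nat_lit 159)) (XT.lf (nat_lit 0) (nat_lit 4096874640) (nat_lit 228) (nat_lit 3661094894) (nat_lit 304) (nat_lit 26716347674) (nat_lit 29)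 (nat_lit 5) (nat_lit 32) (nat_lit 5) (nat_lit 33) (nat_lit 5) (nat_lit 294) (nat_lit 268) (nat_lit 158))) (XT.nd (nat_lit 78) (nat_lit 0) (nat_lit 0) (XT.lf (nat_lit 0) (nat_lit 11518632678) (nat_lit 304) (nat_lit 18027745122) (nat_lit 76) (nat_lit 6099997693) (nat_lit 29) (nat_lit 5) (nat_lit 33) (nat_lit 5) (nat_lit 30) (nat_lit 5) (nat_lit 295) (nat_lit 268) (nat_lit 157)) (XT.lf (nat_lit 0) (nat_lit 15522796727) (nat_lit 304) (nat_lit 5126317130) (nat_lit 76) (nat_lit 16225170646) (nat_lit 29) (nat_lit 5) (nat_lit 33) (nat_lit 5) (nat_lit 30) (nat_lit 5) (nat_lit 296) (nat_lit 268) (nat_lit 156))))) (XT.nd (nat_lit 312) (nat_lit 304) (nat_lit 0) (XT.nd (nat_lit 156) (nat_lit 152) (nat_lit 0) (XT.nd (nat_lit 78) (nat_lit 0) (nat_lit 0) (XT.lf (nat_lit 0) (nat_lit 8692947656) (nat_lit 228) (nat_lit 11165609072) (nat_lit 304) (nat_lit 18298483036) (nat_lit 26) (nat_lit 5) (nat_lit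 29) (nat_lit 5) (nat_lit 30) (nat_lit 5) (nat_lit 297) (nat_lit 268) (nat_lit 155)) (XT.lf (nat_lit 0) (nat_lit 23375774737) (nat_lit 228) (nat_lit 1117935566) (nat_lit 304) (nat_lit 15006111433) (nat_lit 26) (nat_lit 5) (nat_lit 29) (nat_lit 5) (nat_lit 30) (nat_lit 5) (nat_lit 298) (nat_lit 268) (nat_lit 154))) (XT.nd (nat_lit 78) (nat_lit 152) (nat_lit 0) (XT.lf (nat_lit 0) (nat_lit 29503855543) (nat_lit 304) (nat_lit 2269582163) (nat_lit 76) (nat_lit 9129161714) (nat_lit 26) (nat_lit 5) (nat_lit 30) (nat_lit 5) (nat_lit 27) (nat_lit 5) (nat_lit 299) (nat_lit 268) (nat_lit 153)) (XT.lf (nat_lit 0) (nat_lit 12659391376) (nat_lit 152) (nat_lit 22317255993) (nat_lit 228) (nat_lit 7388279091) (nat_lit 24) (nat_lit 5) (nat_lit 26) (nat_lit 5) (nat_lit 27) (nat_lit 5) (nat_lit 300) (nat_lit 268) (nat_lit 152)))) (XT.nd (nat_lit 156) (nat_lit 228) (nat_lit 0) (XT.nd (nat_lit 78) (nat_lit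 76) (nat_lit 0) (XT.lf (nat_lit 0) (nat_lit 28408622782) (nat_lit 152) (nat_lit 12349161245) (nat_lit 228) (nat_lit 3140867173) (nat_lit 24) (nat_lit 5) (nat_lit 26) (nat_lit 5) (nat_lit 27) (nat_lit 5) (nat_lit 301) (nat_lit 268) (nat_lit 151)) (XT.lf (nat_lit 0) (nat_lit 1273074690) (nat_lit 228) (nat_lit 589221548) (nat_lit 76) (nat_lit 43645932762) (nat_lit 23) (nat_lit 5) (nat_lit 26) (nat_lit 5) (nat_lit 24) (nat_lit 5) (nat_lit 302) (nat_lit 268) (nat_lit 150))) (XT.nd (nat_lit 78) (nat_lit 0) (nat_lit 0) (XT.lf (nat_lit 0) (nat_lit 6188280681) (nat_lit 304) (nat_lit 31834963767) (nat_lit 76) (nat_lit 9153175069) (nat_lit 20) (nat_lit 5) (nat_lit 24) (nat_lit 5) (nat_lit 21) (nat_lit 5) (nat_lit 303) (nat_lit 268) (nat_lit 149)) (XT.lf (nat_lit 0) (nat_lit 11386538453) (nat_lit 304) (nat_lit 16873828696) (nat_lit 76) (nat_lit 20665801501) (nat_lit 20) (nat_lit 5) (nat_lit 24)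 (nat_lit 5) (nat_lit 21) (nat_lit 5) (nat_lit 304) (nat_lit 268) (nat_lit 148)))))) (XT.nd (nat_lit 624) (nat_lit 228) (nat_lit 0) (XT.nd (nat_lit 312) (nat_lit 304) (nat_lit 0) (XT.nd (nat_lit 156) (nat_lit 0) (nat_lit 0) (XT.nd (nat_lit 78) (nat_lit 152) (nat_lit 0) (XT.lf (nat_lit 0) (nat_lit 16841489777) (nat_lit 304) (nat_lit 1169149630) (nat_lit 76) (nat_lit 32752939814) (nat_lit 20) (nat_lit 5) (nat_lit 24) (nat_lit 5) (nat_lit 21) (nat_lit 5) (nat_lit 305) (nat_lit 268) (nat_lit 147)) (XT.lf (nat_lit 0) (nat_lit 15822897046) (nat_lit 152) (nat_lit 6990265352) (nat_lit 228) (nat_lit 29867511629) (nat_lit 18) (nat_lit 5) (nat_lit 20) (nat_lit 5) (nat_lit 21) (nat_lit 5) (nat_lit 306) (nat_lit 268) (nat_lit 146))) (XT.nd (nat_lit 78) (nat_lit 0) (nat_lit 0) (XT.lf (nat_lit 0) (nat_lit 29172062145) (nat_lit 228) (nat_lit 21063716358) (nat_lit 76) (nat_lit 4453424700) (nat_lit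 18) (nat_lit 5) (nat_lit 21) (nat_lit 5) (nat_lit 19) (nat_lit 5) (nat_lit 307) (nat_lit 268) (nat_lit 145)) (XT.lf (nat_lit 0) (nat_lit 35960639057) (nat_lit 228) (nat_lit 4598709362) (nat_lit 76) (nat_lit 16233235051) (nat_lit 18) (nat_lit 5) (nat_lit 21) (nat_lit 5) (nat_lit 19) (nat_lit 5) (nat_lit 308) (nat_lit 268) (nat_lit 144)))) (XT.nd (nat_lit 156) (nat_lit 152) (nat_lit 0) (XT.nd (nat_lit 78) (nat_lit 0) (nat_lit 0) (XT.lf (nat_lit 0) (nat_lit 13105026734) (nat_lit 152) (nat_lit 30185498243) (nat_lit 228) (nat_lit 15700524473) (nat_lit 16) (nat_lit 5) (nat_lit 18) (nat_lit 5) (nat_lit 19) (nat_lit 5) (nat_lit 309) (nat_lit 268) (nat_lit 143)) (XT.lf (nat_lit 0) (nat_lit 31849706427) (nat_lit 152) (nat_lit 19212423021) (nat_lit 228) (nat_lit 10233558263) (nat_lit 16) (nat_lit 5) (nat_lit 18) (nat_lit 5) (nat_lit 19) (nat_lit 5) (nat_lit 310) (nat_lit 268) (nat_lit 142)))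 (XT.nd (nat_lit 78) (nat_lit 152) (nat_lit 0) (XT.lf (nat_lit 0) (nat_lit 51527905808) (nat_lit 152) (nat_lit 7691877753) (nat_lit 228) (nat_lit 4495910565) (nat_lit 16) (nat_lit 5) (nat_lit 18) (nat_lit 5) (nat_lit 19) (nat_lit 5) (nat_lit 311) (nat_lit 268) (nat_lit 141)) (XT.lf (nat_lit 0) (nat_lit 1643194963) (nat_lit 152) (nat_lit 60220486882) (nat_lit 76) (nat_lit 4383659482) (nat_lit 14) (nat_lit 5) (nat_lit 16) (nat_lit 5) (nat_lit 15) (nat_lit 5) (nat_lit 312) (nat_lit 268) (nat_lit 140))))) (XT.nd (nat_lit 312) (nat_lit 76) (nat_lit 0) (XT.nd (nat_lit 156) (nat_lit 152) (nat_lit 0) (XT.nd (nat_lit 78) (nat_lit 0) (nat_lit 0) (XT.lf (nat_lit 0) (nat_lit 8271634363) (nat_lit 152) (nat_lit 43526751230) (nat_lit 76) (nat_lit 17086834978) (nat_lit 14) (nat_lit 5) (nat_lit 16) (nat_lit 5) (nat_lit 15) (nat_lit 5) (nat_lit 313) (nat_lit 268) (nat_lit 139)) (XT.lf (nat_lit 0) (nat_lit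 15229195270) (nat_lit 152) (nat_lit 26001832575) (nat_lit 76) (nat_lit 30424088944) (nat_lit 14) (nat_lit 5) (nat_lit 16) (nat_lit 5) (nat_lit 15) (nat_lit 5) (nat_lit 314) (nat_lit 268) (nat_lit 138))) (XT.nd (nat_lit 78) (nat_lit 152) (nat_lit 0) (XT.lf (nat_lit 0) (nat_lit 22532443306) (nat_lit 152) (nat_lit 7604004922) (nat_lit 76) (nat_lit 44427176745) (nat_lit 14) (nat_lit 5) (nat_lit 16) (nat_lit 5) (nat_lit 15) (nat_lit 5) (nat_lit 315) (nat_lit 268) (nat_lit 137)) (XT.lf (nat_lit 0) (nat_lit 12097739291) (nat_lit 152) (nat_lit 18289907480) (nat_lit 228) (nat_lit 47220579391) (nat_lit 12) (nat_lit 5) (nat_lit 14) (nat_lit 5) (nat_lit 15) (nat_lit 5) (nat_lit 316) (nat_lit 268) (nat_lit 136)))) (XT.nd (nat_lit 156) (nat_lit 76) (nat_lit 0) (XT.nd (nat_lit 78) (nat_lit 0) (nat_lit 0) (XT.lf (nat_lit 0) (nat_lit 33045437822) (nat_lit 152) (nat_lit 5716914046) (nat_lit 228) (nat_lit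 42036375369) (nat_lit 12) (nat_lit 5) (nat_lit 14) (nat_lit 5) (nat_lit 15) (nat_lit 5) (nat_lit 317) (nat_lit 268) (nat_lit 135)) (XT.lf (nat_lit 0) (nat_lit 47670694510) (nat_lit 228) (nat_lit 29228154872) (nat_lit 76) (nat_lit 7244165443) (nat_lit 12) (nat_lit 5) (nat_lit 15) (nat_lit 5) (nat_lit 13) (nat_lit 4) (nat_lit 318) (nat_lit 268) (nat_lit 134))) (XT.nd (nat_lit 78) (nat_lit 76) (nat_lit 0) (XT.lf (nat_lit 0) (nat_lit 57116311989) (nat_lit 228) (nat_lit 9873402731) (nat_lit 76) (nat_lit 20660215448) (nat_lit 12) (nat_lit 5) (nat_lit 15) (nat_lit 5) (nat_lit 13) (nat_lit 4) (nat_lit 319) (nat_lit 268) (nat_lit 133)) (XT.lf (nat_lit 0) (nat_lit 10791708880) (nat_lit 76) (nat_lit 56409216759) (nat_lit 152) (nat_lit 24122935835) (nat_lit 11) (nat_lit 5) (nat_lit 12) (nat_lit 5) (nat_lit 13) (nat_lit 4) (nat_lit 320) (nat_lit 268) (nat_lit 132))))))) (XT.nd (nat_lit 1248) (nat_lit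 228) (nat_lit 0) (XT.nd (nat_lit 624) (nat_lit 76) (nat_lit 0) (XT.nd (nat_lit 312) (nat_lit 152) (nat_lit 0) (XT.nd (nat_lit 156) (nat_lit 76) (nat_lit 0) (XT.nd (nat_lit 78) (nat_lit 0) (nat_lit 0) (XT.lf (nat_lit 0) (nat_lit 32830122947) (nat_lit 76) (nat_lit 45125126102) (nat_lit 152) (nat_lit 17217972020) (nat_lit 11) (nat_lit 5) (nat_lit 12) (nat_lit 5) (nat_lit 13) (nat_lit 4) (nat_lit 321) (nat_lit 268) (nat_lit 131)) (XT.lf (nat_lit 0) (nat_lit 55967852599) (nat_lit 76) (nat_lit 33277786722) (nat_lit 152) (nat_lit 9969497196) (nat_lit 11) (nat_lit 5) (nat_lit 12) (nat_lit 5) (nat_lit 13) (nat_lit 4) (nat_lit 322) (nat_lit 268) (nat_lit 130))) (XT.nd (nat_lit 78) (nat_lit 76) (nat_lit 0) (XT.lf (nat_lit 0) (nat_lit 80259987669) (nat_lit 76) (nat_lit 20838990666) (nat_lit 152) (nat_lit 2360253091) (nat_lit 11) (nat_lit 5) (nat_lit 12) (nat_lit 5) (nat_lit 13) (nat_lit 4) (nat_lit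 323) (nat_lit 268) (nat_lit 129)) (XT.lf (nat_lit 0) (nat_lit 5447750315) (nat_lit 152) (nat_lit 2239111151) (nat_lit 76) (nat_lit 100224355971) (nat_lit 10) (nat_lit 5) (nat_lit 12) (nat_lit 5) (nat_lit 11) (nat_lit 5) (nat_lit 324) (nat_lit 268) (nat_lit 128)))) (XT.nd (nat_lit 156) (nat_lit 0) (nat_lit 0) (XT.nd (nat_lit 78) (nat_lit 0) (nat_lit 0) (XT.lf (nat_lit 0) (nat_lit 13985007924) (nat_lit 228) (nat_lit 92289137658) (nat_lit 76) (nat_lit 6288818279) (nat_lit 8) (nat_lit 5) (nat_lit 11) (nat_lit 5) (nat_lit 9) (nat_lit 4) (nat_lit 325) (nat_lit 268) (nat_lit 127)) (XT.lf (nat_lit 0) (nat_lit 23112252574) (nat_lit 228) (nat_lit 73584217735) (nat_lit 76) (nat_lit 20742675328) (nat_lit 8) (nat_lit 5) (nat_lit 11) (nat_lit 5) (nat_lit 9) (nat_lit 4) (nat_lit 326) (nat_lit 268) (nat_lit 126))) (XT.nd (nat_lit 78) (nat_lit 0) (nat_lit 0) (XT.lf (nat_lit 0) (nat_lit 32694495611)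 (nat_lit 228) (nat_lit 53946268663) (nat_lit 76) (nat_lit 35918444455) (nat_lit 8) (nat_lit 5) (nat_lit 11) (nat_lit 5) (nat_lit 9) (nat_lit 4) (nat_lit 327) (nat_lit 268) (nat_lit 125)) (XT.lf (nat_lit 0) (nat_lit 42754551898) (nat_lit 228) (nat_lit 33328533420) (nat_lit 76) (nat_lit 51852258446) (nat_lit 8) (nat_lit 5) (nat_lit 11) (nat_lit 5) (nat_lit 9) (nat_lit 4) (nat_lit 328) (nat_lit 268) (nat_lit 124))))) (XT.nd (nat_lit 312) (nat_lit 0) (nat_lit 0) (XT.nd (nat_lit 156) (nat_lit 0) (nat_lit 0) (XT.nd (nat_lit 78) (nat_lit 76) (nat_lit 0) (XT.lf (nat_lit 0) (nat_lit 53316373950) (nat_lit 228) (nat_lit 11681922160) (nat_lit 76) (nat_lit 68582054951) (nat_lit 8) (nat_lit 5) (nat_lit 11) (nat_lit 5) (nat_lit 9) (nat_lit 4) (nat_lit 329) (nat_lit 268) (nat_lit 123)) (XT.lf (nat_lit 0) (nat_lit 11410305708) (nat_lit 76) (nat_lit 53172950105) (nat_lit 152) (nat_lit 74915507963)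 (nat_lit 7) (nat_lit 5) (nat_lit 8) (nat_lit 5) (nat_lit 9) (nat_lit 4) (nat_lit 330) (nat_lit 268) (nat_lit 122))) (XT.nd (nat_lit 78) (nat_lit 0) (nat_lit 0) (XT.lf (nat_lit 0) (nat_lit 36060830820) (nat_lit 76) (nat_lit 40549338497) (nat_lit 152) (nat_lit 69093096750) (nat_lit 7) (nat_lit 5) (nat_lit 8) (nat_lit 5) (nat_lit 9) (nat_lit 4) (nat_lit 331) (nat_lit 268) (nat_lit 121)) (XT.lf (nat_lit 0) (nat_lit 61942087799) (nat_lit 76) (nat_lit 27295244073) (nat_lit 152) (nat_lit 62980719594) (nat_lit 7) (nat_lit 5) (nat_lit 8) (nat_lit 5) (nat_lit 9) (nat_lit 4) (nat_lit 332) (nat_lit 268) (nat_lit 120)))) (XT.nd (nat_lit 156) (nat_lit 0) (nat_lit 0) (XT.nd (nat_lit 78) (nat_lit 0) (nat_lit 0) (XT.lf (nat_lit 0) (nat_lit 89115698684) (nat_lit 76) (nat_lit 13379109466) (nat_lit 152) (nat_lit 56563823216) (nat_lit 7) (nat_lit 5) (nat_lit 8) (nat_lit 5) (nat_lit 9) (nat_lit 4) (nat_lit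 333) (nat_lit 268) (nat_lit 119)) (XT.lf (nat_lit 0) (nat_lit 116433401651) (nat_lit 152) (nat_lit 48614168393) (nat_lit 0) (nat_lit 1192760916) (nat_lit 7) (nat_lit 5) (nat_lit 9) (nat_lit 4) (nat_lit 7) (nat_lit 4) (nat_lit 334) (nat_lit 268) (nat_lit 118))) (XT.nd (nat_lit 78) (nat_lit 0) (nat_lit 0) (XT.lf (nat_lit 0) (nat_lit 131287297773) (nat_lit 152) (nat_lit 26439886298) (nat_lit 0) (nat_lit 16043015544) (nat_lit 7) (nat_lit 5) (nat_lit 9) (nat_lit 4) (nat_lit 7) (nat_lit 4) (nat_lit 335) (nat_lit 268) (nat_lit 117)) (XT.lf (nat_lit 0) (nat_lit 146882977543) (nat_lit 152) (nat_lit 3158405095) (nat_lit 0) (nat_lit 31635227224) (nat_lit 7) (nat_lit 5) (nat_lit 9) (nat_lit 4) (nat_lit 7) (nat_lit 4) (nat_lit 336) (nat_lit 268) (nat_lit 116)))))) (XT.nd (nat_lit 624) (nat_lit 76) (nat_lit 0) (XT.nd (nat_lit 312) (nat_lit 0) (nat_lit 0) (XT.nd (nat_lit 156) (nat_lit 76) (nat_lit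 0) (XT.nd (nat_lit 78) (nat_lit 0) (nat_lit 0) (XT.lf (nat_lit 0) (nat_lit 21989508925) (nat_lit 76) (nat_lit 141611382466) (nat_lit 76) (nat_lit 26360329205) (nat_lit 6) (nat_lit 4) (nat_lit 7) (nat_lit 5) (nat_lit 7) (nat_lit 4) (nat_lit 337) (nat_lit 268) (nat_lit 115)) (XT.lf (nat_lit 0) (nat_lit 48503051759) (nat_lit 76) (nat_lit 132704289680) (nat_lit 76) (nat_lit 17450090760) (nat_lit 6) (nat_lit 4) (nat_lit 7) (nat_lit 5) (nat_lit 7) (nat_lit 4) (nat_lit 338) (nat_lit 268) (nat_lit 114))) (XT.nd (nat_lit 78) (nat_lit 76) (nat_lit 0) (XT.lf (nat_lit 0) (nat_lit 76340919751) (nat_lit 76) (nat_lit 123352386038) (nat_lit 76) (nat_lit 8095191251) (nat_lit 6) (nat_lit 4) (nat_lit 7) (nat_lit 5) (nat_lit 7) (nat_lit 4) (nat_lit 339) (nat_lit 268) (nat_lit 113)) (XT.lf (nat_lit 0) (nat_lit 1671379536) (nat_lit 152) (nat_lit 111833719943) (nat_lit 76) (nat_lit 103869708383) (nat_lit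 5) (nat_lit 5) (nat_lit 7) (nat_lit 5) (nat_lit 6) (nat_lit 4) (nat_lit 340) (nat_lit 268) (nat_lit 112)))) (XT.nd (nat_lit 156) (nat_lit 0) (nat_lit 0) (XT.nd (nat_lit 78) (nat_lit 0) (nat_lit 0) (XT.lf (nat_lit 0) (nat_lit 11653480301) (nat_lit 152) (nat_lit 91373130713) (nat_lit 76) (nat_lit 124407227101) (nat_lit 5) (nat_lit 5) (nat_lit 7) (nat_lit 5) (nat_lit 6) (nat_lit 4) (nat_lit 341) (nat_lit 268) (nat_lit 111)) (XT.lf (nat_lit 0) (nat_lit 22133974626) (nat_lit 152) (nat_lit 69890705288) (nat_lit 76) (nat_lit 145971177389) (nat_lit 5) (nat_lit 5) (nat_lit 7) (nat_lit 5) (nat_lit 6) (nat_lit 4) (nat_lit 342) (nat_lit 268) (nat_lit 110))) (XT.nd (nat_lit 78) (nat_lit 0) (nat_lit 0) (XT.lf (nat_lit 0) (nat_lit 33137816069) (nat_lit 152) (nat_lit 47335295037) (nat_lit 76) (nat_lit 168612901986) (nat_lit 5) (nat_lit 5) (nat_lit 7) (nat_lit 5) (nat_lit 6) (nat_lit 4) (nat_lit 343)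 (nat_lit 268) (nat_lit 109)) (XT.lf (nat_lit 0) (nat_lit 44691204251) (nat_lit 152) (nat_lit 23653196602) (nat_lit 76) (nat_lit 192386309759) (nat_lit 5) (nat_lit 5) (nat_lit 7) (nat_lit 5) (nat_lit 6) (nat_lit 4) (nat_lit 344) (nat_lit 268) (nat_lit 108))))) (XT.nd (nat_lit 31668) (nat_lit 0) (nat_lit 4104) (XT.nd (nat_lit 156) (nat_lit 0) (nat_lit 0) (XT.nd (nat_lit 78) (nat_lit 0) (nat_lit 0) (XT.lf (nat_lit 0) (nat_lit 1252049363) (nat_lit 76) (nat_lit 55589145877) (nat_lit 152) (nat_lit 216115502697) (nat_lit 4) (nat_lit 5) (nat_lit 5) (nat_lit 5) (nat_lit 6) (nat_lit 4) (nat_lit 345) (nat_lit 268) (nat_lit 107)) (XT.lf (nat_lit 0) (nat_lit 28222729041) (nat_lit 76) (nat_lit 41775933899) (nat_lit 152) (nat_lit 215775324351) (nat_lit 4) (nat_lit 5) (nat_lit 5) (nat_lit 5) (nat_lit 6) (nat_lit 4) (nat_lit 346) (nat_lit 268) (nat_lit 106))) (XT.nd (nat_lit 31434) (nat_lit 0) (nat_lit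 4104) (XT.lf (nat_lit 0) (nat_lit 56540976833) (nat_lit 76) (nat_lit 27272454649) (nat_lit 152) (nat_lit 215418739705) (nat_lit 4) (nat_lit 5) (nat_lit 5) (nat_lit 5) (nat_lit 6) (nat_lit 4) (nat_lit 347) (nat_lit 268) (nat_lit 105)) (XT.lf (nat_lit 0) (nat_lit 5731010274) (nat_lit 684) (nat_lit 1424047619) (nat_lit 684) (nat_lit 1424047619) (nat_lit 58) (nat_lit 3) (nat_lit 67) (nat_lit 3) (nat_lit 67) (nat_lit 5) (nat_lit 269) (nat_lit 269) (nat_lit 182)))) (XT.nd (nat_lit 156) (nat_lit 0) (nat_lit 76) (XT.nd (nat_lit 78) (nat_lit 0) (nat_lit 0) (XT.lf (nat_lit 76) (nat_lit 3914613456) (nat_lit 0) (nat_lit 8086136517) (nat_lit 684) (nat_lit 5572629916) (nat_lit 59) (nat_lit 5) (nat_lit 58) (nat_lit 3) (nat_lit 67) (nat_lit 5) (nat_lit 270) (nat_lit 269) (nat_lit 181)) (XT.lf (nat_lit 76) (nat_lit 11107664890) (nat_lit 0) (nat_lit 1494650402) (nat_lit 684) (nat_lit 5405272305) (nat_lit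 59) (nat_lit 5) (nat_lit 58) (nat_lit 3) (nat_lit 67) (nat_lit 5) (nat_lit 271) (nat_lit 269) (nat_lit 180))) (XT.nd (nat_lit 78) (nat_lit 0) (nat_lit 0) (XT.lf (nat_lit 76) (nat_lit 108517218) (nat_lit 0) (nat_lit 13200194485) (nat_lit 684) (nat_lit 5151128131) (nat_lit 60) (nat_lit 5) (nat_lit 59) (nat_lit 5) (nat_lit 68) (nat_lit 5) (nat_lit 272) (nat_lit 269) (nat_lit 179)) (XT.lf (nat_lit 76) (nat_lit 7674632985) (nat_lit 0) (nat_lit 6505539191) (nat_lit 684) (nat_lit 4748113659) (nat_lit 60) (nat_lit 5) (nat_lit 59) (nat_lit 5) (nat_lit 68) (nat_lit 5) (nat_lit 273) (nat_lit 269) (nat_lit 178))))))))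
noncomputable def xc167 : XT := (XT.nd (nat_lit 1248) (nat_lit 1444) (nat_lit 0) (XT.nd (nat_lit 624) (nat_lit 1064) (nat_lit 0) (XT.nd (nat_lit 312) (nat_lit 532) (nat_lit 0) (XT.nd (nat_lit 156) (nat_lit 0) (nat_lit 0) (XT.nd (nat_lit 78) (nat_lit 0) (nat_lit 0) (XT.lf (nat_lit 0) (nat_lit 15092764937) (nat_lit 608) (nat_lit 3816591252) (nat_lit 684) (nat_lit 510985093) (nat_lit 60) (nat_lit 5) (nat_lit 68) (nat_lit 5) (nat_lit 69) (nat_lit 5) (nat_lit 274) (nat_lit 269) (nat_lit 177)) (XT.lf (nat_lit 76) (nat_lit 4006958258) (nat_lit 0) (nat_lit 12203123314) (nat_lit 684) (nat_lit 3719025228) (nat_lit 61) (nat_lit 5) (nat_lit 60) (nat_lit 5) (nat_lit 69) (nat_lit 5) (nat_lit 275) (nat_lit 269) (nat_lit 176))) (XT.nd (nat_lit 78) (nat_lit 0) (nat_lit 76) (XT.lf (nat_lit 76) (nat_lit 12347336335) (nat_lit 0) (nat_lit 5090824353) (nat_lit 684) (nat_lit 3022464128) (nat_lit 61) (nat_lit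 5) (nat_lit 60) (nat_lit 5) (nat_lit 69) (nat_lit 5) (nat_lit 276) (nat_lit 269) (nat_lit 175)) (XT.lf (nat_lit 76) (nat_lit 43195087) (nat_lit 0) (nat_lit 18713003625) (nat_lit 684) (nat_lit 2261148518) (nat_lit 62) (nat_lit 5) (nat_lit 61) (nat_lit 5) (nat_lit 70) (nat_lit 5) (nat_lit 277) (nat_lit 269) (nat_lit 174)))) (XT.nd (nat_lit 156) (nat_lit 608) (nat_lit 0) (XT.nd (nat_lit 78) (nat_lit 0) (nat_lit 0) (XT.lf (nat_lit 76) (nat_lit 8795987678) (nat_lit 0) (nat_lit 11554761768) (nat_lit 684) (nat_lit 1240679344) (nat_lit 62) (nat_lit 5) (nat_lit 61) (nat_lit 5) (nat_lit 70) (nat_lit 5) (nat_lit 278) (nat_lit 269) (nat_lit 173)) (XT.lf (nat_lit 76) (nat_lit 17979777386) (nat_lit 0) (nat_lit 4036772496) (nat_lit 684) (nat_lit 178139453) (nat_lit 62) (nat_lit 5) (nat_lit 61) (nat_lit 5) (nat_lit 70) (nat_lit 5) (nat_lit 279) (nat_lit 269) (nat_lit 172))) (XT.nd (nat_lit 78) (nat_lit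 0) (nat_lit 0) (XT.lf (nat_lit 0) (nat_lit 1038004454) (nat_lit 684) (nat_lit 17954548353) (nat_lit 76) (nat_lit 3828350314) (nat_lit 53) (nat_lit 5) (nat_lit 62) (nat_lit 5) (nat_lit 54) (nat_lit 5) (nat_lit 280) (nat_lit 269) (nat_lit 171)) (XT.lf (nat_lit 0) (nat_lit 2439756928) (nat_lit 684) (nat_lit 9004111201) (nat_lit 76) (nat_lit 12027918118) (nat_lit 53) (nat_lit 5) (nat_lit 62) (nat_lit 5) (nat_lit 54) (nat_lit 5) (nat_lit 281) (nat_lit 269) (nat_lit 170))))) (XT.nd (nat_lit 312) (nat_lit 304) (nat_lit 0) (XT.nd (nat_lit 156) (nat_lit 304) (nat_lit 0) (XT.nd (nat_lit 78) (nat_lit 0) (nat_lit 0) (XT.lf (nat_lit 0) (nat_lit 399980513) (nat_lit 456) (nat_lit 3510299101) (nat_lit 532) (nat_lit 20245041756) (nat_lit 47) (nat_lit 5) (nat_lit 53) (nat_lit 5) (nat_lit 54) (nat_lit 5) (nat_lit 282) (nat_lit 269) (nat_lit 169)) (XT.lf (nat_lit 0) (nat_lit 5677277172) (nat_lit 532)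 (nat_lit 14363260700) (nat_lit 76) (nat_lit 4821387913) (nat_lit 47) (nat_lit 5) (nat_lit 54) (nat_lit 5) (nat_lit 48) (nat_lit 5) (nat_lit 283) (nat_lit 269) (nat_lit 168))) (XT.nd (nat_lit 78) (nat_lit 304) (nat_lit 0) (XT.lf (nat_lit 0) (nat_lit 7583224812) (nat_lit 532) (nat_lit 4565768518) (nat_lit 76) (nat_lit 13452375148) (nat_lit 47) (nat_lit 5) (nat_lit 54) (nat_lit 5) (nat_lit 48) (nat_lit 5) (nat_lit 284) (nat_lit 269) (nat_lit 167)) (XT.lf (nat_lit 0) (nat_lit 5904241251) (nat_lit 304) (nat_lit 3765795400) (nat_lit 380) (nat_lit 16703504569) (nat_lit 43) (nat_lit 5) (nat_lit 47) (nat_lit 5) (nat_lit 48) (nat_lit 5) (nat_lit 285) (nat_lit 269) (nat_lit 166)))) (XT.nd (nat_lit 156) (nat_lit 0) (nat_lit 0) (XT.nd (nat_lit 78) (nat_lit 304) (nat_lit 0) (XT.lf (nat_lit 0) (nat_lit 12012020516) (nat_lit 380) (nat_lit 10210678756) (nat_lit 76) (nat_lit 4954116285) (nat_lit 43)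 (nat_lit 5) (nat_lit 48) (nat_lit 5) (nat_lit 44) (nat_lit 5) (nat_lit 286) (nat_lit 269) (nat_lit 165)) (XT.lf (nat_lit 0) (nat_lit 509164604) (nat_lit 304) (nat_lit 14025532789) (nat_lit 380) (nat_lit 13482409411) (nat_lit 39) (nat_lit 5) (nat_lit 43) (nat_lit 5) (nat_lit 44) (nat_lit 5) (nat_lit 287) (nat_lit 269) (nat_lit 164))) (XT.nd (nat_lit 78) (nat_lit 0) (nat_lit 0) (XT.lf (nat_lit 0) (nat_lit 12113321978) (nat_lit 304) (nat_lit 5237212576) (nat_lit 380) (nat_lit 11540558057) (nat_lit 39) (nat_lit 5) (nat_lit 43) (nat_lit 5) (nat_lit 44) (nat_lit 5) (nat_lit 288) (nat_lit 269) (nat_lit 163)) (XT.lf (nat_lit 0) (nat_lit 20363847197) (nat_lit 380) (nat_lit 5579576345) (nat_lit 76) (nat_lit 3862549812) (nat_lit 39) (nat_lit 5) (nat_lit 44) (nat_lit 5) (nat_lit 40) (nat_lit 5) (nat_lit 289) (nat_lit 269) (nat_lit 162)))))) (XT.nd (nat_lit 624) (nat_lit 684) (nat_lit 0) (XT.nd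 (nat_lit 312) (nat_lit 228) (nat_lit 0) (XT.nd (nat_lit 156) (nat_lit 304) (nat_lit 0) (XT.nd (nat_lit 78) (nat_lit 0) (nat_lit 0) (XT.lf (nat_lit 0) (nat_lit 6288040074) (nat_lit 228) (nat_lit 17418463236) (nat_lit 304) (nat_lit 7051189340) (nat_lit 36) (nat_lit 5) (nat_lit 39) (nat_lit 5) (nat_lit 40) (nat_lit 5) (nat_lit 290) (nat_lit 269) (nat_lit 161)) (XT.lf (nat_lit 0) (nat_lit 18936954386) (nat_lit 228) (nat_lit 8368643045) (nat_lit 304) (nat_lit 4446962273) (nat_lit 36) (nat_lit 5) (nat_lit 39) (nat_lit 5) (nat_lit 40) (nat_lit 5) (nat_lit 291) (nat_lit 269) (nat_lit 160))) (XT.nd (nat_lit 78) (nat_lit 304) (nat_lit 0) (XT.lf (nat_lit 0) (nat_lit 31097396399) (nat_lit 304) (nat_lit 602336579) (nat_lit 76) (nat_lit 1096825393) (nat_lit 36) (nat_lit 5) (nat_lit 40) (nat_lit 5) (nat_lit 37) (nat_lit 5) (nat_lit 292) (nat_lit 269) (nat_lit 159)) (XT.lf (nat_lit 0) (nat_lit 1480707731)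 (nat_lit 304) (nat_lit 21422017174) (nat_lit 76) (nat_lit 10972497591) (nat_lit 32) (nat_lit 5) (nat_lit 36) (nat_lit 5) (nat_lit 33) (nat_lit 5) (nat_lit 293) (nat_lit 269) (nat_lit 158)))) (XT.nd (nat_lit 156) (nat_lit 0) (nat_lit 0) (XT.nd (nat_lit 78) (nat_lit 228) (nat_lit 0) (XT.lf (nat_lit 0) (nat_lit 4768164412) (nat_lit 304) (nat_lit 8858489809) (nat_lit 76) (nat_lit 21379510283) (nat_lit 32) (nat_lit 5) (nat_lit 36) (nat_lit 5) (nat_lit 33) (nat_lit 5) (nat_lit 294) (nat_lit 269) (nat_lit 157)) (XT.lf (nat_lit 0) (nat_lit 4470985998) (nat_lit 228) (nat_lit 3814363394) (nat_lit 304) (nat_lit 27905057644) (nat_lit 29) (nat_lit 5) (nat_lit 32) (nat_lit 5) (nat_lit 33) (nat_lit 5) (nat_lit 295) (nat_lit 269) (nat_lit 156))) (XT.nd (nat_lit 78) (nat_lit 0) (nat_lit 0) (XT.lf (nat_lit 0) (nat_lit 12227846625) (nat_lit 304) (nat_lit 18761105129) (nat_lit 76) (nat_lit 6432457481)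 (nat_lit 29) (nat_lit 5) (nat_lit 33) (nat_lit 5) (nat_lit 30) (nat_lit 5) (nat_lit 296) (nat_lit 269) (nat_lit 155)) (XT.lf (nat_lit 0) (nat_lit 16425872100) (nat_lit 304) (nat_lit 5222607035) (nat_lit 76) (nat_lit 17062581467) (nat_lit 29) (nat_lit 5) (nat_lit 33) (nat_lit 5) (nat_lit 30) (nat_lit 5) (nat_lit 297) (nat_lit 269) (nat_lit 154))))) (XT.nd (nat_lit 312) (nat_lit 304) (nat_lit 0) (XT.nd (nat_lit 156) (nat_lit 152) (nat_lit 0) (XT.nd (nat_lit 78) (nat_lit 0) (nat_lit 0) (XT.lf (nat_lit 0) (nat_lit 9285039926) (nat_lit 228) (nat_lit 11689793781) (nat_lit 304) (nat_lit 19083327398) (nat_lit 26) (nat_lit 5) (nat_lit 29) (nat_lit 5) (nat_lit 30) (nat_lit 5) (nat_lit 298) (nat_lit 269) (nat_lit 153)) (XT.lf (nat_lit 0) (nat_lit 24694510986) (nat_lit 228) (nat_lit 1141360207) (nat_lit 304) (nat_lit 15632531490) (nat_lit 26) (nat_lit 5) (nat_lit 29) (nat_lit 5) (nat_lit 30)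 (nat_lit 5) (nat_lit 299) (nat_lit 269) (nat_lit 152))) (XT.nd (nat_lit 78) (nat_lit 152) (nat_lit 0) (XT.lf (nat_lit 0) (nat_lit 31091412468) (nat_lit 304) (nat_lit 2234632061) (nat_lit 76) (nat_lit 9615555825) (nat_lit 26) (nat_lit 5) (nat_lit 30) (nat_lit 5) (nat_lit 27) (nat_lit 5) (nat_lit 300) (nat_lit 269) (nat_lit 151)) (XT.lf (nat_lit 0) (nat_lit 13438396136) (nat_lit 152) (nat_lit 23396377095) (nat_lit 228) (nat_lit 7642448373) (nat_lit 24) (nat_lit 5) (nat_lit 26) (nat_lit 5) (nat_lit 27) (nat_lit 5) (nat_lit 301) (nat_lit 269) (nat_lit 150)))) (XT.nd (nat_lit 156) (nat_lit 228) (nat_lit 0) (XT.nd (nat_lit 78) (nat_lit 76) (nat_lit 0) (XT.lf (nat_lit 0) (nat_lit 29968135055) (nat_lit 152) (nat_lit 12931627214) (nat_lit 228) (nat_lit 3188153701) (nat_lit 24) (nat_lit 5) (nat_lit 26) (nat_lit 5) (nat_lit 27) (nat_lit 5) (nat_lit 302) (nat_lit 269) (nat_lit 149)) (XT.lf (nat_lit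 0) (nat_lit 1437913116) (nat_lit 228) (nat_lit 482458518) (nat_lit 76) (nat_lit 45857789319) (nat_lit 23) (nat_lit 5) (nat_lit 26) (nat_lit 5) (nat_lit 24) (nat_lit 5) (nat_lit 303) (nat_lit 269) (nat_lit 148))) (XT.nd (nat_lit 78) (nat_lit 0) (nat_lit 0) (XT.lf (nat_lit 0) (nat_lit 6596708941) (nat_lit 304) (nat_lit 33287917134) (nat_lit 76) (nat_lit 9645263457) (nat_lit 20) (nat_lit 5) (nat_lit 24) (nat_lit 5) (nat_lit 21) (nat_lit 5) (nat_lit 304) (nat_lit 269) (nat_lit 147)) (XT.lf (nat_lit 0) (nat_lit 12050164638) (nat_lit 304) (nat_lit 17585334587) (nat_lit 76) (nat_lit 21731881705) (nat_lit 20) (nat_lit 5) (nat_lit 24) (nat_lit 5) (nat_lit 21) (nat_lit 5) (nat_lit 305) (nat_lit 269) (nat_lit 146)))))))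
noncomputable def xc168 : XT := (XT.nd (nat_lit 1248) (nat_lit 380) (nat_lit 0) (XT.nd (nat_lit 624) (nat_lit 228) (nat_lit 0) (XT.nd (nat_lit 312) (nat_lit 304) (nat_lit 0) (XT.nd (nat_lit 156) (nat_lit 0) (nat_lit 0) (XT.nd (nat_lit 78) (nat_lit 152) (nat_lit 0) (XT.lf (nat_lit 0) (nat_lit 17773373087) (nat_lit 304) (nat_lit 1101716117) (nat_lit 76) (nat_lit 34421815499) (nat_lit 20) (nat_lit 5) (nat_lit 24) (nat_lit 5) (nat_lit 21) (nat_lit 5) (nat_lit 306) (nat_lit 269) (nat_lit 145)) (XT.lf (nat_lit 0) (nat_lit 16737902393) (nat_lit 152) (nat_lit 7303384146) (nat_lit 228) (nat_lit 31268702139) (nat_lit 18) (nat_lit 5) (nat_lit 20) (nat_lit 5) (nat_lit 21) (nat_lit 5) (nat_lit 307) (nat_lit 269) (nat_lit 144))) (XT.nd (nat_lit 78) (nat_lit 0) (nat_lit 0) (XT.lf (nat_lit 0) (nat_lit 30714507386) (nat_lit 228) (nat_lit 21994986628) (nat_lit 76) (nat_lit 4709647957) (nat_lit 18)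 (nat_lit 5) (nat_lit 21) (nat_lit 5) (nat_lit 19) (nat_lit 5) (nat_lit 308) (nat_lit 269) (nat_lit 143)) (XT.lf (nat_lit 0) (nat_lit 37838520662) (nat_lit 228) (nat_lit 4712534784) (nat_lit 76) (nat_lit 17076851110) (nat_lit 18) (nat_lit 5) (nat_lit 21) (nat_lit 5) (nat_lit 19) (nat_lit 5) (nat_lit 309) (nat_lit 269) (nat_lit 142)))) (XT.nd (nat_lit 156) (nat_lit 152) (nat_lit 0) (XT.nd (nat_lit 78) (nat_lit 0) (nat_lit 0) (XT.lf (nat_lit 0) (nat_lit 13874515373) (nat_lit 152) (nat_lit 31658366703) (nat_lit 228) (nat_lit 16403529631) (nat_lit 16) (nat_lit 5) (nat_lit 18) (nat_lit 5) (nat_lit 19) (nat_lit 5) (nat_lit 310) (nat_lit 269) (nat_lit 141)) (XT.lf (nat_lit 0) (nat_lit 33550989180) (nat_lit 152) (nat_lit 20138371361) (nat_lit 228) (nat_lit 10667120875) (nat_lit 16) (nat_lit 5) (nat_lit 18) (nat_lit 5) (nat_lit 19) (nat_lit 5) (nat_lit 311) (nat_lit 269) (nat_lit 140))) (XT.nd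 (nat_lit 78) (nat_lit 152) (nat_lit 0) (XT.lf (nat_lit 0) (nat_lit 54207917700) (nat_lit 152) (nat_lit 8043449916) (nat_lit 228) (nat_lit 4646310569) (nat_lit 16) (nat_lit 5) (nat_lit 18) (nat_lit 5) (nat_lit 19) (nat_lit 5) (nat_lit 312) (nat_lit 269) (nat_lit 139)) (XT.lf (nat_lit 0) (nat_lit 1796107953) (nat_lit 152) (nat_lit 63123748620) (nat_lit 76) (nat_lit 4636068441) (nat_lit 14) (nat_lit 5) (nat_lit 16) (nat_lit 5) (nat_lit 15) (nat_lit 5) (nat_lit 313) (nat_lit 269) (nat_lit 138))))) (XT.nd (nat_lit 312) (nat_lit 76) (nat_lit 0) (XT.nd (nat_lit 156) (nat_lit 152) (nat_lit 0) (XT.nd (nat_lit 78) (nat_lit 0) (nat_lit 0) (XT.lf (nat_lit 0) (nat_lit 8752600120) (nat_lit 152) (nat_lit 45600457738) (nat_lit 76) (nat_lit 17972820523) (nat_lit 14) (nat_lit 5) (nat_lit 16) (nat_lit 5) (nat_lit 15) (nat_lit 5) (nat_lit 314) (nat_lit 269) (nat_lit 137)) (XT.lf (nat_lit 0) (nat_lit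 16054830309) (nat_lit 152) (nat_lit 27204180344) (nat_lit 76) (nat_lit 31975430339) (nat_lit 14) (nat_lit 5) (nat_lit 16) (nat_lit 5) (nat_lit 15) (nat_lit 5) (nat_lit 315) (nat_lit 269) (nat_lit 136))) (XT.nd (nat_lit 78) (nat_lit 152) (nat_lit 0) (XT.lf (nat_lit 0) (nat_lit 23720184781) (nat_lit 152) (nat_lit 7891115777) (nat_lit 76) (nat_lit 46677237438) (nat_lit 14) (nat_lit 5) (nat_lit 16) (nat_lit 5) (nat_lit 15) (nat_lit 5) (nat_lit 316) (nat_lit 269) (nat_lit 135)) (XT.lf (nat_lit 0) (nat_lit 12794214204) (nat_lit 152) (nat_lit 19172453716) (nat_lit 228) (nat_lit 49518785456) (nat_lit 12) (nat_lit 5) (nat_lit 14) (nat_lit 5) (nat_lit 15) (nat_lit 5) (nat_lit 317) (nat_lit 269) (nat_lit 134)))) (XT.nd (nat_lit 156) (nat_lit 76) (nat_lit 0) (XT.nd (nat_lit 78) (nat_lit 0) (nat_lit 0) (XT.lf (nat_lit 0) (nat_lit 34784936331) (nat_lit 152) (nat_lit 5972331998) (nat_lit 228) (nat_lit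 44078362800) (nat_lit 12) (nat_lit 5) (nat_lit 14) (nat_lit 5) (nat_lit 15) (nat_lit 5) (nat_lit 318) (nat_lit 269) (nat_lit 133)) (XT.lf (nat_lit 0) (nat_lit 50108775836) (nat_lit 228) (nat_lit 30604054020) (nat_lit 76) (nat_lit 7634425022) (nat_lit 12) (nat_lit 5) (nat_lit 15) (nat_lit 5) (nat_lit 13) (nat_lit 4) (nat_lit 319) (nat_lit 269) (nat_lit 132))) (XT.nd (nat_lit 78) (nat_lit 76) (nat_lit 0) (XT.lf (nat_lit 0) (nat_lit 60024076731) (nat_lit 228) (nat_lit 10285636110) (nat_lit 76) (nat_lit 21719941751) (nat_lit 12) (nat_lit 5) (nat_lit 15) (nat_lit 5) (nat_lit 13) (nat_lit 4) (nat_lit 320) (nat_lit 269) (nat_lit 131)) (XT.lf (nat_lit 0) (nat_lit 11411417585) (nat_lit 76) (nat_lit 59200280658) (nat_lit 152) (nat_lit 25275653676) (nat_lit 11) (nat_lit 5) (nat_lit 12) (nat_lit 5) (nat_lit 13) (nat_lit 4) (nat_lit 321) (nat_lit 269) (nat_lit 130)))))) (XT.nd (nat_lit 624) (nat_lit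 152) (nat_lit 0) (XT.nd (nat_lit 312) (nat_lit 152) (nat_lit 0) (XT.nd (nat_lit 156) (nat_lit 76) (nat_lit 0) (XT.nd (nat_lit 78) (nat_lit 0) (nat_lit 0) (XT.lf (nat_lit 0) (nat_lit 34547936962) (nat_lit 76) (nat_lit 47353385323) (nat_lit 152) (nat_lit 18027985906) (nat_lit 11) (nat_lit 5) (nat_lit 12) (nat_lit 5) (nat_lit 13) (nat_lit 4) (nat_lit 322) (nat_lit 269) (nat_lit 129)) (XT.lf (nat_lit 0) (nat_lit 58838919389) (nat_lit 76) (nat_lit 34915012168) (nat_lit 152) (nat_lit 10419510423) (nat_lit 11) (nat_lit 5) (nat_lit 12) (nat_lit 5) (nat_lit 13) (nat_lit 4) (nat_lit 323) (nat_lit 269) (nat_lit 128))) (XT.nd (nat_lit 78) (nat_lit 76) (nat_lit 0) (XT.lf (nat_lit 0) (nat_lit 84342200538) (nat_lit 76) (nat_lit 21855546018) (nat_lit 152) (nat_lit 2432111809) (nat_lit 11) (nat_lit 5) (nat_lit 12) (nat_lit 5) (nat_lit 13) (nat_lit 4) (nat_lit 324) (nat_lit 269) (nat_lit 127)) (XT.lf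 (nat_lit 0) (nat_lit 5762687090) (nat_lit 152) (nat_lit 2283611922) (nat_lit 76) (nat_lit 105258221523) (nat_lit 10) (nat_lit 5) (nat_lit 12) (nat_lit 5) (nat_lit 11) (nat_lit 5) (nat_lit 325) (nat_lit 269) (nat_lit 126)))) (XT.nd (nat_lit 156) (nat_lit 0) (nat_lit 0) (XT.nd (nat_lit 78) (nat_lit 0) (nat_lit 0) (XT.lf (nat_lit 0) (nat_lit 14726204911) (nat_lit 228) (nat_lit 96835412983) (nat_lit 76) (nat_lit 6627272727) (nat_lit 8) (nat_lit 5) (nat_lit 11) (nat_lit 5) (nat_lit 9) (nat_lit 4) (nat_lit 326) (nat_lit 269) (nat_lit 125)) (XT.lf (nat_lit 0) (nat_lit 24307814337) (nat_lit 228) (nat_lit 77198493805) (nat_lit 76) (nat_lit 21802679126) (nat_lit 8) (nat_lit 5) (nat_lit 11) (nat_lit 5) (nat_lit 9) (nat_lit 4) (nat_lit 327) (nat_lit 269) (nat_lit 124))) (XT.nd (nat_lit 78) (nat_lit 0) (nat_lit 0) (XT.lf (nat_lit 0) (nat_lit 34367267186) (nat_lit 228) (nat_lit 56581739413) (nat_lit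 76) (nat_lit 37736147661) (nat_lit 8) (nat_lit 5) (nat_lit 11) (nat_lit 5) (nat_lit 9) (nat_lit 4) (nat_lit 328) (nat_lit 269) (nat_lit 123)) (XT.lf (nat_lit 0) (nat_lit 44928514535) (nat_lit 228) (nat_lit 34936062297) (nat_lit 76) (nat_lit 54465615161) (nat_lit 8) (nat_lit 5) (nat_lit 11) (nat_lit 5) (nat_lit 9) (nat_lit 4) (nat_lit 329) (nat_lit 269) (nat_lit 122))))) (XT.nd (nat_lit 312) (nat_lit 76) (nat_lit 0) (XT.nd (nat_lit 156) (nat_lit 0) (nat_lit 0) (XT.nd (nat_lit 78) (nat_lit 76) (nat_lit 0) (XT.lf (nat_lit 0) (nat_lit 56016702212) (nat_lit 228) (nat_lit 12209925131) (nat_lit 76) (nat_lit 72030913693) (nat_lit 8) (nat_lit 5) (nat_lit 11) (nat_lit 5) (nat_lit 9) (nat_lit 4) (nat_lit 330) (nat_lit 269) (nat_lit 121)) (XT.lf (nat_lit 0) (nat_lit 12036009402) (nat_lit 76) (nat_lit 55810137099) (nat_lit 152) (nat_lit 78625771830) (nat_lit 7) (nat_lit 5) (nat_lit 8) (nat_lit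 5) (nat_lit 9) (nat_lit 4) (nat_lit 331) (nat_lit 269) (nat_lit 120))) (XT.nd (nat_lit 78) (nat_lit 0) (nat_lit 0) (XT.lf (nat_lit 0) (nat_lit 37916432750) (nat_lit 76) (nat_lit 42556366840) (nat_lit 152) (nat_lit 72513931082) (nat_lit 7) (nat_lit 5) (nat_lit 8) (nat_lit 5) (nat_lit 9) (nat_lit 4) (nat_lit 332) (nat_lit 269) (nat_lit 119)) (XT.lf (nat_lit 0) (nat_lit 65089249702) (nat_lit 76) (nat_lit 28640540960) (nat_lit 152) (nat_lit 66097545569) (nat_lit 7) (nat_lit 5) (nat_lit 8) (nat_lit 5) (nat_lit 9) (nat_lit 4) (nat_lit 333) (nat_lit 269) (nat_lit 118)))) (XT.nd (nat_lit 156) (nat_lit 76) (nat_lit 0) (XT.nd (nat_lit 78) (nat_lit 0) (nat_lit 0) (XT.lf (nat_lit 0) (nat_lit 93619157441) (nat_lit 76) (nat_lit 14029526542) (nat_lit 152) (nat_lit 59361338182) (nat_lit 7) (nat_lit 5) (nat_lit 8) (nat_lit 5) (nat_lit 9) (nat_lit 4) (nat_lit 334) (nat_lit 269) (nat_lit 117)) (XT.lf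 (nat_lit 0) (nat_lit 122283095412) (nat_lit 152) (nat_lit 50998281426) (nat_lit 0) (nat_lit 1269489487) (nat_lit 7) (nat_lit 5) (nat_lit 9) (nat_lit 4) (nat_lit 7) (nat_lit 4) (nat_lit 335) (nat_lit 269) (nat_lit 116))) (XT.nd (nat_lit 78) (nat_lit 76) (nat_lit 0) (XT.lf (nat_lit 0) (nat_lit 137878351879) (nat_lit 152) (nat_lit 27717504054) (nat_lit 0) (nat_lit 16861443013) (nat_lit 7) (nat_lit 5) (nat_lit 9) (nat_lit 4) (nat_lit 7) (nat_lit 4) (nat_lit 336) (nat_lit 269) (nat_lit 115)) (XT.nd (nat_lit 78) (nat_lit 76) (nat_lit 0) (XT.lf (nat_lit 0) (nat_lit 154252544723) (nat_lit 152) (nat_lit 3274061961) (nat_lit 0) (nat_lit 33232490196) (nat_lit 7) (nat_lit 5) (nat_lit 9) (nat_lit 4) (nat_lit 7) (nat_lit 4) (nat_lit 337) (nat_lit 269) (nat_lit 114)) (XT.lf (nat_lit 0) (nat_lit 23130566093) (nat_lit 76) (nat_lit 148675226981) (nat_lit 76) (nat_lit 27652176589) (nat_lit 6) (nat_lit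 4) (nat_lit 7) (nat_lit 5) (nat_lit 7) (nat_lit 4) (nat_lit 338) (nat_lit 269) (nat_lit 113))))))))
noncomputable def xc169 : XT := (XT.nd (nat_lit 34008) (nat_lit 0) (nat_lit 532) (XT.nd (nat_lit 32760) (nat_lit 0) (nat_lit 2432) (XT.nd (nat_lit 32136) (nat_lit 0) (nat_lit 4104) (XT.nd (nat_lit 312) (nat_lit 76) (nat_lit 0) (XT.nd (nat_lit 156) (nat_lit 76) (nat_lit 0) (XT.nd (nat_lit 78) (nat_lit 0) (nat_lit 0) (XT.lf (nat_lit 0) (nat_lit 50967805987) (nat_lit 76) (nat_lit 139323575967) (nat_lit 76) (nat_lit 18297672369) (nat_lit 6) (nat_lit 4) (nat_lit 7) (nat_lit 5) (nat_lit 7) (nat_lit 4) (nat_lit 339) (nat_lit 269) (nat_lit 112)) (XT.lf (nat_lit 0) (nat_lit 80195681586) (nat_lit 76) (nat_lit 129504835627) (nat_lit 76) (nat_lit 8476214690) (nat_lit 6) (nat_lit 4) (nat_lit 7) (nat_lit 5) (nat_lit 7) (nat_lit 4) (nat_lit 340) (nat_lit 269) (nat_lit 111))) (XT.nd (nat_lit 78) (nat_lit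 0) (nat_lit 0) (XT.lf (nat_lit 0) (nat_lit 1776830816) (nat_lit 152) (nat_lit 117388705704) (nat_lit 76) (nat_lit 109076860765) (nat_lit 5) (nat_lit 5) (nat_lit 7) (nat_lit 5) (nat_lit 6) (nat_lit 4) (nat_lit 341) (nat_lit 269) (nat_lit 110)) (XT.lf (nat_lit 0) (nat_lit 12256994605) (nat_lit 152) (nat_lit 95906834643) (nat_lit 76) (nat_lit 130640604612) (nat_lit 5) (nat_lit 5) (nat_lit 7) (nat_lit 5) (nat_lit 6) (nat_lit 4) (nat_lit 342) (nat_lit 269) (nat_lit 109)))) (XT.nd (nat_lit 156) (nat_lit 76) (nat_lit 0) (XT.nd (nat_lit 78) (nat_lit 0) (nat_lit 0) (XT.lf (nat_lit 0) (nat_lit 23260521252) (nat_lit 152) (nat_lit 73351952357) (nat_lit 76) (nat_lit 153282132597) (nat_lit 5) (nat_lit 5) (nat_lit 7) (nat_lit 5) (nat_lit 6) (nat_lit 4) (nat_lit 343) (nat_lit 269) (nat_lit 108)) (XT.lf (nat_lit 0) (nat_lit 34813609629) (nat_lit 152) (nat_lit 49670356746) (nat_lit 76) (nat_lit 177055353122)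 (nat_lit 5) (nat_lit 5) (nat_lit 7) (nat_lit 5) (nat_lit 6) (nat_lit 4) (nat_lit 344) (nat_lit 269) (nat_lit 107))) (XT.nd (nat_lit 78) (nat_lit 76) (nat_lit 0) (XT.lf (nat_lit 0) (nat_lit 46943767089) (nat_lit 152) (nat_lit 24805663057) (nat_lit 76) (nat_lit 202016869092) (nat_lit 5) (nat_lit 5) (nat_lit 7) (nat_lit 5) (nat_lit 6) (nat_lit 4) (nat_lit 345) (nat_lit 269) (nat_lit 106)) (XT.lf (nat_lit 0) (nat_lit 1344358217) (nat_lit 76) (nat_lit 58356505943) (nat_lit 152) (nat_lit 226902743670) (nat_lit 4) (nat_lit 5) (nat_lit 5) (nat_lit 5) (nat_lit 6) (nat_lit 4) (nat_lit 346) (nat_lit 269) (nat_lit 105))))) (XT.nd (nat_lit 312) (nat_lit 0) (nat_lit 76) (XT.nd (nat_lit 156) (nat_lit 0) (nat_lit 0) (XT.nd (nat_lit 78) (nat_lit 0) (nat_lit 0) (XT.lf (nat_lit 0) (nat_lit 6205638619) (nat_lit 684) (nat_lit 1395929598) (nat_lit 684) (nat_lit 1395929598) (nat_lit 58) (nat_lit 3) (nat_lit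 67) (nat_lit 3) (nat_lit 67) (nat_lit 5) (nat_lit 270) (nat_lit 270) (nat_lit 180)) (XT.lf (nat_lit 76) (nat_lit 4305781051) (nat_lit 0) (nat_lit 8656301228) (nat_lit 684) (nat_lit 5469694089) (nat_lit 59) (nat_lit 5) (nat_lit 58) (nat_lit 3) (nat_lit 67) (nat_lit 5) (nat_lit 271) (nat_lit 270) (nat_lit 179))) (XT.nd (nat_lit 78) (nat_lit 0) (nat_lit 76) (XT.lf (nat_lit 76) (nat_lit 11849178536) (nat_lit 0) (nat_lit 1727342813) (nat_lit 684) (nat_lit 5312138470) (nat_lit 59) (nat_lit 5) (nat_lit 58) (nat_lit 3) (nat_lit 67) (nat_lit 5) (nat_lit 272) (nat_lit 270) (nat_lit 178)) (XT.lf (nat_lit 76) (nat_lit 318493550) (nat_lit 0) (nat_lit 13984203626) (nat_lit 684) (nat_lit 5061704638) (nat_lit 60) (nat_lit 5) (nat_lit 59) (nat_lit 5) (nat_lit 68) (nat_lit 5) (nat_lit 273) (nat_lit 270) (nat_lit 177)))) (XT.nd (nat_lit 156) (nat_lit 0) (nat_lit 76) (XT.nd (nat_lit 78) (nat_lit 0) (nat_lit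 76) (XT.lf (nat_lit 76) (nat_lit 8253174606) (nat_lit 0) (nat_lit 6948910833) (nat_lit 684) (nat_lit 4655062295) (nat_lit 60) (nat_lit 5) (nat_lit 59) (nat_lit 5) (nat_lit 68) (nat_lit 5) (nat_lit 274) (nat_lit 270) (nat_lit 176)) (XT.lf (nat_lit 0) (nat_lit 16143651627) (nat_lit 608) (nat_lit 3803414953) (nat_lit 684) (nat_lit 427663000) (nat_lit 60) (nat_lit 5) (nat_lit 68) (nat_lit 5) (nat_lit 69) (nat_lit 5) (nat_lit 275) (nat_lit 270) (nat_lit 175))) (XT.nd (nat_lit 78) (nat_lit 0) (nat_lit 0) (XT.lf (nat_lit 76) (nat_lit 4408021615) (nat_lit 0) (nat_lit 12897839141) (nat_lit 684) (nat_lit 3603707778) (nat_lit 61) (nat_lit 5) (nat_lit 60) (nat_lit 5) (nat_lit 69) (nat_lit 5) (nat_lit 276) (nat_lit 270) (nat_lit 174)) (XT.lf (nat_lit 76) (nat_lit 13155860717) (nat_lit 0) (nat_lit 5425898581) (nat_lit 684) (nat_lit 2886664752) (nat_lit 61) (nat_lit 5) (nat_lit 60) (nat_lit 5) (nat_lit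 69) (nat_lit 5) (nat_lit 277) (nat_lit 270) (nat_lit 173)))))) (XT.nd (nat_lit 624) (nat_lit 836) (nat_lit 0) (XT.nd (nat_lit 312) (nat_lit 380) (nat_lit 0) (XT.nd (nat_lit 156) (nat_lit 684) (nat_lit 0) (XT.nd (nat_lit 78) (nat_lit 0) (nat_lit 0) (XT.lf (nat_lit 76) (nat_lit 249652615) (nat_lit 0) (nat_lit 19705101151) (nat_lit 684) (nat_lit 2098854545) (nat_lit 62) (nat_lit 5) (nat_lit 61) (nat_lit 5) (nat_lit 70) (nat_lit 5) (nat_lit 278) (nat_lit 270) (nat_lit 172)) (XT.lf (nat_lit 76) (nat_lit 9430356370) (nat_lit 0) (nat_lit 12186259232) (nat_lit 684) (nat_lit 1040473883) (nat_lit 62) (nat_lit 5) (nat_lit 61) (nat_lit 5) (nat_lit 70) (nat_lit 5) (nat_lit 279) (nat_lit 270) (nat_lit 171))) (XT.nd (nat_lit 78) (nat_lit 0) (nat_lit 76) (XT.lf (nat_lit 0) (nat_lit 60698445) (nat_lit 684) (nat_lit 4228084123) (nat_lit 760) (nat_lit 19002343955) (nat_lit 52) (nat_lit 5) (nat_lit 61)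 (nat_lit 5) (nat_lit 62) (nat_lit 5) (nat_lit 280) (nat_lit 270) (nat_lit 170)) (XT.lf (nat_lit 0) (nat_lit 1322489258) (nat_lit 684) (nat_lit 18647158187) (nat_lit 76) (nat_lit 3979380762) (nat_lit 53) (nat_lit 5) (nat_lit 62) (nat_lit 5) (nat_lit 54) (nat_lit 5) (nat_lit 281) (nat_lit 270) (nat_lit 169)))) (XT.nd (nat_lit 156) (nat_lit 0) (nat_lit 0) (XT.nd (nat_lit 78) (nat_lit 456) (nat_lit 0) (XT.lf (nat_lit 0) (nat_lit 2783253898) (nat_lit 684) (nat_lit 9258966682) (nat_lit 76) (nat_lit 12590850150) (nat_lit 53) (nat_lit 5) (nat_lit 62) (nat_lit 5) (nat_lit 54) (nat_lit 5) (nat_lit 282) (nat_lit 270) (nat_lit 168)) (XT.lf (nat_lit 0) (nat_lit 612178810) (nat_lit 456) (nat_lit 3707576625) (nat_lit 532) (nat_lit 21031463081) (nat_lit 47) (nat_lit 5) (nat_lit 53) (nat_lit 5) (nat_lit 54) (nat_lit 5) (nat_lit 283) (nat_lit 270) (nat_lit 167))) (XT.nd (nat_lit 78) (nat_lit 0) (nat_lit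 0) (XT.lf (nat_lit 0) (nat_lit 6164590616) (nat_lit 532) (nat_lit 14886749479) (nat_lit 76) (nat_lit 5042394422) (nat_lit 47) (nat_lit 5) (nat_lit 54) (nat_lit 5) (nat_lit 48) (nat_lit 5) (nat_lit 284) (nat_lit 270) (nat_lit 166)) (XT.lf (nat_lit 0) (nat_lit 8156147563) (nat_lit 532) (nat_lit 4608652890) (nat_lit 76) (nat_lit 14105886395) (nat_lit 47) (nat_lit 5) (nat_lit 54) (nat_lit 5) (nat_lit 48) (nat_lit 5) (nat_lit 285) (nat_lit 270) (nat_lit 165))))) (XT.nd (nat_lit 312) (nat_lit 228) (nat_lit 0) (XT.nd (nat_lit 156) (nat_lit 304) (nat_lit 0) (XT.nd (nat_lit 78) (nat_lit 0) (nat_lit 0) (XT.lf (nat_lit 0) (nat_lit 6381866980) (nat_lit 304) (nat_lit 3959054264) (nat_lit 380) (nat_lit 17340916491) (nat_lit 43) (nat_lit 5) (nat_lit 47) (nat_lit 5) (nat_lit 48) (nat_lit 5) (nat_lit 286) (nat_lit 270) (nat_lit 164)) (XT.lf (nat_lit 0) (nat_lit 12791007427) (nat_lit 380) (nat_lit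 10537525271) (nat_lit 76) (nat_lit 5197241097) (nat_lit 43) (nat_lit 5) (nat_lit 48) (nat_lit 5) (nat_lit 44) (nat_lit 5) (nat_lit 287) (nat_lit 270) (nat_lit 163))) (XT.nd (nat_lit 78) (nat_lit 0) (nat_lit 0) (XT.lf (nat_lit 0) (nat_lit 715347556) (nat_lit 304) (nat_lit 14718797645) (nat_lit 380) (nat_lit 13974263920) (nat_lit 39) (nat_lit 5) (nat_lit 43) (nat_lit 5) (nat_lit 44) (nat_lit 5) (nat_lit 288) (nat_lit 270) (nat_lit 162)) (XT.lf (nat_lit 0) (nat_lit 12891106860) (nat_lit 304) (nat_lit 5491442934) (nat_lit 380) (nat_lit 11943999329) (nat_lit 39) (nat_lit 5) (nat_lit 43) (nat_lit 5) (nat_lit 44) (nat_lit 5) (nat_lit 289) (nat_lit 270) (nat_lit 161)))) (XT.nd (nat_lit 156) (nat_lit 0) (nat_lit 0) (XT.nd (nat_lit 78) (nat_lit 228) (nat_lit 0) (XT.lf (nat_lit 0) (nat_lit 21538808740) (nat_lit 380) (nat_lit 5686081095) (nat_lit 76) (nat_lit 4062711640) (nat_lit 39) (nat_lit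 5) (nat_lit 44) (nat_lit 5) (nat_lit 40) (nat_lit 5) (nat_lit 290) (nat_lit 270) (nat_lit 160)) (XT.lf (nat_lit 0) (nat_lit 6772134305) (nat_lit 228) (nat_lit 18271647526) (nat_lit 304) (nat_lit 7243405319) (nat_lit 36) (nat_lit 5) (nat_lit 39) (nat_lit 5) (nat_lit 40) (nat_lit 5) (nat_lit 291) (nat_lit 270) (nat_lit 159))) (XT.nd (nat_lit 78) (nat_lit 0) (nat_lit 0) (XT.lf (nat_lit 0) (nat_lit 20045413751) (nat_lit 228) (nat_lit 8770181034) (nat_lit 304) (nat_lit 4516602303) (nat_lit 36) (nat_lit 5) (nat_lit 39) (nat_lit 5) (nat_lit 40) (nat_lit 5) (nat_lit 292) (nat_lit 270) (nat_lit 158)) (XT.lf (nat_lit 0) (nat_lit 32790343596) (nat_lit 304) (nat_lit 471178663) (nat_lit 76) (nat_lit 1167241373) (nat_lit 36) (nat_lit 5) (nat_lit 40) (nat_lit 5) (nat_lit 37) (nat_lit 5) (nat_lit 293) (nat_lit 270) (nat_lit 157))))))) (XT.nd (nat_lit 1248) (nat_lit 532) (nat_lit 0) (XT.nd (nat_lit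 624) (nat_lit 608) (nat_lit 0) (XT.nd (nat_lit 312) (nat_lit 228) (nat_lit 0) (XT.nd (nat_lit 156) (nat_lit 228) (nat_lit 0) (XT.nd (nat_lit 78) (nat_lit 0) (nat_lit 0) (XT.lf (nat_lit 0) (nat_lit 1691581758) (nat_lit 304) (nat_lit 22329268027) (nat_lit 76) (nat_lit 11540639941) (nat_lit 32) (nat_lit 5) (nat_lit 36) (nat_lit 5) (nat_lit 33) (nat_lit 5) (nat_lit 294) (nat_lit 270) (nat_lit 156)) (XT.lf (nat_lit 0) (nat_lit 5136895147) (nat_lit 304) (nat_lit 9145366675) (nat_lit 76) (nat_lit 22467073865) (nat_lit 32) (nat_lit 5) (nat_lit 36) (nat_lit 5) (nat_lit 33) (nat_lit 5) (nat_lit 295) (nat_lit 270) (nat_lit 155))) (XT.nd (nat_lit 78) (nat_lit 0) (nat_lit 0) (XT.lf (nat_lit 0) (nat_lit 4848066026) (nat_lit 228) (nat_lit 3978064563) (nat_lit 304) (nat_lit 29166879765) (nat_lit 29) (nat_lit 5) (nat_lit 32) (nat_lit 5) (nat_lit 33) (nat_lit 5) (nat_lit 296) (nat_lit 270) (nat_lit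 154)) (XT.lf (nat_lit 0) (nat_lit 12960129944) (nat_lit 304) (nat_lit 19546754717) (nat_lit 76) (nat_lit 6778987297) (nat_lit 29) (nat_lit 5) (nat_lit 33) (nat_lit 5) (nat_lit 30) (nat_lit 5) (nat_lit 297) (nat_lit 270) (nat_lit 153)))) (XT.nd (nat_lit 156) (nat_lit 0) (nat_lit 0) (XT.nd (nat_lit 78) (nat_lit 228) (nat_lit 0) (XT.lf (nat_lit 0) (nat_lit 17362299978) (nat_lit 304) (nat_lit 5338589132) (nat_lit 76) (nat_lit 17939431437) (nat_lit 29) (nat_lit 5) (nat_lit 33) (nat_lit 5) (nat_lit 30) (nat_lit 5) (nat_lit 298) (nat_lit 270) (nat_lit 152)) (XT.lf (nat_lit 0) (nat_lit 9892099077) (nat_lit 228) (nat_lit 12243357624) (nat_lit 304) (nat_lit 19919507563) (nat_lit 26) (nat_lit 5) (nat_lit 29) (nat_lit 5) (nat_lit 30) (nat_lit 5) (nat_lit 299) (nat_lit 270) (nat_lit 151))) (XT.nd (nat_lit 78) (nat_lit 0) (nat_lit 0) (XT.lf (nat_lit 0) (nat_lit 26065243349) (nat_lit 228) (nat_lit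 1168975031) (nat_lit 304) (nat_lit 16301790251) (nat_lit 26) (nat_lit 5) (nat_lit 29) (nat_lit 5) (nat_lit 30) (nat_lit 5) (nat_lit 300) (nat_lit 270) (nat_lit 150)) (XT.lf (nat_lit 0) (nat_lit 32747900686) (nat_lit 304) (nat_lit 2211733994) (nat_lit 76) (nat_lit 10123486473) (nat_lit 26) (nat_lit 5) (nat_lit 30) (nat_lit 5) (nat_lit 27) (nat_lit 5) (nat_lit 301) (nat_lit 270) (nat_lit 149))))) (XT.nd (nat_lit 312) (nat_lit 152) (nat_lit 0) (XT.nd (nat_lit 156) (nat_lit 304) (nat_lit 0) (XT.nd (nat_lit 78) (nat_lit 0) (nat_lit 0) (XT.lf (nat_lit 0) (nat_lit 14242774166) (nat_lit 152) (nat_lit 24532870146) (nat_lit 228) (nat_lit 7920040477) (nat_lit 24) (nat_lit 5) (nat_lit 26) (nat_lit 5) (nat_lit 27) (nat_lit 5) (nat_lit 302) (nat_lit 270) (nat_lit 148)) (XT.lf (nat_lit 0) (nat_lit 31592692497) (nat_lit 152) (nat_lit 13546469714) (nat_lit 228) (nat_lit 3248008705) (nat_lit 24) (nat_lit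 5) (nat_lit 26) (nat_lit 5) (nat_lit 27) (nat_lit 5) (nat_lit 303) (nat_lit 270) (nat_lit 147))) (XT.nd (nat_lit 78) (nat_lit 228) (nat_lit 0) (XT.lf (nat_lit 0) (nat_lit 1601586271) (nat_lit 228) (nat_lit 383022164) (nat_lit 76) (nat_lit 48177490503) (nat_lit 23) (nat_lit 5) (nat_lit 26) (nat_lit 5) (nat_lit 24) (nat_lit 5) (nat_lit 304) (nat_lit 270) (nat_lit 146)) (XT.lf (nat_lit 0) (nat_lit 7016353210) (nat_lit 304) (nat_lit 34826421997) (nat_lit 76) (nat_lit 10158755324) (nat_lit 20) (nat_lit 5) (nat_lit 24) (nat_lit 5) (nat_lit 21) (nat_lit 5) (nat_lit 305) (nat_lit 270) (nat_lit 145)))) (XT.nd (nat_lit 156) (nat_lit 152) (nat_lit 0) (XT.nd (nat_lit 78) (nat_lit 0) (nat_lit 0) (XT.lf (nat_lit 0) (nat_lit 12738205082) (nat_lit 304) (nat_lit 18344705132) (nat_lit 76) (nat_lit 22848217403) (nat_lit 20) (nat_lit 5) (nat_lit 24) (nat_lit 5) (nat_lit 21) (nat_lit 5) (nat_lit 306)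 (nat_lit 270) (nat_lit 144)) (XT.lf (nat_lit 0) (nat_lit 18743500991) (nat_lit 304) (nat_lit 1042615080) (nat_lit 76) (nat_lit 36171231620) (nat_lit 20) (nat_lit 5) (nat_lit 24) (nat_lit 5) (nat_lit 21) (nat_lit 5) (nat_lit 307) (nat_lit 270) (nat_lit 143))) (XT.nd (nat_lit 78) (nat_lit 0) (nat_lit 0) (XT.lf (nat_lit 0) (nat_lit 17687142632) (nat_lit 152) (nat_lit 7635542493) (nat_lit 228) (nat_lit 32748522668) (nat_lit 18) (nat_lit 5) (nat_lit 20) (nat_lit 5) (nat_lit 21) (nat_lit 5) (nat_lit 308) (nat_lit 270) (nat_lit 142)) (XT.lf (nat_lit 0) (nat_lit 32326280042) (nat_lit 228) (nat_lit 22984154963) (nat_lit 76) (nat_lit 4975563028) (nat_lit 18) (nat_lit 5) (nat_lit 21) (nat_lit 5) (nat_lit 19) (nat_lit 5) (nat_lit 309) (nat_lit 270) (nat_lit 141)))))) (XT.nd (nat_lit 624) (nat_lit 228) (nat_lit 0) (XT.nd (nat_lit 312) (nat_lit 152) (nat_lit 0) (XT.nd (nat_lit 156) (nat_lit 0)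 (nat_lit 0) (XT.nd (nat_lit 78) (nat_lit 152) (nat_lit 0) (XT.lf (nat_lit 0) (nat_lit 39802872682) (nat_lit 228) (nat_lit 4842846289) (nat_lit 76) (nat_lit 17959677164) (nat_lit 18) (nat_lit 5) (nat_lit 21) (nat_lit 5) (nat_lit 19) (nat_lit 5) (nat_lit 310) (nat_lit 270) (nat_lit 140)) (XT.lf (nat_lit 0) (nat_lit 14671857743) (nat_lit 152) (nat_lit 33208263314) (nat_lit 228) (nat_lit 17149310588) (nat_lit 16) (nat_lit 5) (nat_lit 18) (nat_lit 5) (nat_lit 19) (nat_lit 5) (nat_lit 311) (nat_lit 270) (nat_lit 139))) (XT.nd (nat_lit 78) (nat_lit 0) (nat_lit 0) (XT.lf (nat_lit 0) (nat_lit 35327221117) (nat_lit 152) (nat_lit 21113840667) (nat_lit 228) (nat_lit 11129624039) (nat_lit 16) (nat_lit 5) (nat_lit 18) (nat_lit 5) (nat_lit 19) (nat_lit 5) (nat_lit 312) (nat_lit 270) (nat_lit 138)) (XT.lf (nat_lit 0) (nat_lit 57012296897) (nat_lit 152) (nat_lit 8415670734) (nat_lit 228) (nat_lit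 4811147164) (nat_lit 16) (nat_lit 5) (nat_lit 18) (nat_lit 5) (nat_lit 19) (nat_lit 5) (nat_lit 313) (nat_lit 270) (nat_lit 137)))) (XT.nd (nat_lit 156) (nat_lit 0) (nat_lit 0) (XT.nd (nat_lit 78) (nat_lit 0) (nat_lit 0) (XT.lf (nat_lit 0) (nat_lit 1950088626) (nat_lit 152) (nat_lit 66182192190) (nat_lit 76) (nat_lit 4898008811) (nat_lit 14) (nat_lit 5) (nat_lit 16) (nat_lit 5) (nat_lit 15) (nat_lit 5) (nat_lit 314) (nat_lit 270) (nat_lit 136)) (XT.lf (nat_lit 0) (nat_lit 9251349436) (nat_lit 152) (nat_lit 47787391234) (nat_lit 76) (nat_lit 18900163404) (nat_lit 14) (nat_lit 5) (nat_lit 16) (nat_lit 5) (nat_lit 15) (nat_lit 5) (nat_lit 315) (nat_lit 270) (nat_lit 135))) (XT.nd (nat_lit 78) (nat_lit 0) (nat_lit 0) (XT.lf (nat_lit 0) (nat_lit 16915780691) (nat_lit 152) (nat_lit 28475732798) (nat_lit 76) (nat_lit 33601536956) (nat_lit 14) (nat_lit 5) (nat_lit 16) (nat_lit 5) (nat_lit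 15) (nat_lit 5) (nat_lit 316) (nat_lit 270) (nat_lit 134)) (XT.lf (nat_lit 0) (nat_lit 24961631036) (nat_lit 152) (nat_lit 8201236744) (nat_lit 76) (nat_lit 49037132738) (nat_lit 14) (nat_lit 5) (nat_lit 16) (nat_lit 5) (nat_lit 15) (nat_lit 5) (nat_lit 317) (nat_lit 270) (nat_lit 133))))) (XT.nd (nat_lit 312) (nat_lit 76) (nat_lit 0) (XT.nd (nat_lit 156) (nat_lit 0) (nat_lit 0) (XT.nd (nat_lit 78) (nat_lit 0) (nat_lit 0) (XT.lf (nat_lit 0) (nat_lit 13516997884) (nat_lit 152) (nat_lit 20102097592) (nat_lit 228) (nat_lit 51937742503) (nat_lit 12) (nat_lit 5) (nat_lit 14) (nat_lit 5) (nat_lit 15) (nat_lit 5) (nat_lit 318) (nat_lit 270) (nat_lit 132)) (XT.lf (nat_lit 0) (nat_lit 36603300262) (nat_lit 152) (nat_lit 6243349731) (nat_lit 228) (nat_lit 46228012153) (nat_lit 12) (nat_lit 5) (nat_lit 14) (nat_lit 5) (nat_lit 15) (nat_lit 5) (nat_lit 319) (nat_lit 270) (nat_lit 131))) (XT.nd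 (nat_lit 78) (nat_lit 0) (nat_lit 0) (XT.lf (nat_lit 0) (nat_lit 52663690002) (nat_lit 228) (nat_lit 32056697905) (nat_lit 76) (nat_lit 8041589636) (nat_lit 12) (nat_lit 5) (nat_lit 15) (nat_lit 5) (nat_lit 13) (nat_lit 4) (nat_lit 320) (nat_lit 270) (nat_lit 130)) (XT.lf (nat_lit 0) (nat_lit 63072399972) (nat_lit 228) (nat_lit 10726052376) (nat_lit 76) (nat_lit 22830170612) (nat_lit 12) (nat_lit 5) (nat_lit 15) (nat_lit 5) (nat_lit 13) (nat_lit 4) (nat_lit 321) (nat_lit 270) (nat_lit 129)))) (XT.nd (nat_lit 156) (nat_lit 0) (nat_lit 0) (XT.nd (nat_lit 78) (nat_lit 0) (nat_lit 0) (XT.lf (nat_lit 0) (nat_lit 12054662625) (nat_lit 76) (nat_lit 62133630801) (nat_lit 152) (nat_lit 26490974727) (nat_lit 11) (nat_lit 5) (nat_lit 12) (nat_lit 5) (nat_lit 13) (nat_lit 4) (nat_lit 322) (nat_lit 270) (nat_lit 128)) (XT.lf (nat_lit 0) (nat_lit 36344547296) (nat_lit 76) (nat_lit 49695660408)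 (nat_lit 152) (nat_lit 18883231265) (nat_lit 11) (nat_lit 5) (nat_lit 12) (nat_lit 5) (nat_lit 13) (nat_lit 4) (nat_lit 323) (nat_lit 270) (nat_lit 127))) (XT.nd (nat_lit 78) (nat_lit 0) (nat_lit 0) (XT.lf (nat_lit 0) (nat_lit 61846782964) (nat_lit 76) (nat_lit 36636577842) (nat_lit 152) (nat_lit 10896529814) (nat_lit 11) (nat_lit 5) (nat_lit 12) (nat_lit 5) (nat_lit 13) (nat_lit 4) (nat_lit 324) (nat_lit 270) (nat_lit 126)) (XT.lf (nat_lit 0) (nat_lit 88622089237) (nat_lit 76) (nat_lit 22925290048) (nat_lit 152) (nat_lit 2511854419) (nat_lit 11) (nat_lit 5) (nat_lit 12) (nat_lit 5) (nat_lit 13) (nat_lit 4) (nat_lit 325) (nat_lit 270) (nat_lit 125))))))))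
noncomputable def xc170 : XT := (XT.nd (nat_lit 1248) (nat_lit 76) (nat_lit 0) (XT.nd (nat_lit 624) (nat_lit 76) (nat_lit 0) (XT.nd (nat_lit 312) (nat_lit 76) (nat_lit 0) (XT.nd (nat_lit 156) (nat_lit 0) (nat_lit 0) (XT.nd (nat_lit 78) (nat_lit 152) (nat_lit 0) (XT.lf (nat_lit 0) (nat_lit 6089414877) (nat_lit 152) (nat_lit 2336609039) (nat_lit 76) (nat_lit 110541674780) (nat_lit 10) (nat_lit 5) (nat_lit 12) (nat_lit 5) (nat_lit 11) (nat_lit 5) (nat_lit 326) (nat_lit 270) (nat_lit 124)) (XT.lf (nat_lit 0) (nat_lit 15500561951) (nat_lit 228) (nat_lit 101615340949) (nat_lit 76) (nat_lit 6980417346) (nat_lit 8) (nat_lit 5) (nat_lit 11) (nat_lit 5) (nat_lit 9) (nat_lit 4) (nat_lit 327) (nat_lit 270) (nat_lit 123))) (XT.nd (nat_lit 78) (nat_lit 0) (nat_lit 0) (XT.lf (nat_lit 0) (nat_lit 25559440096) (nat_lit 228) (nat_lit 80999520701) (nat_lit 76) (nat_lit 22913556876) (nat_lit 8) (nat_lit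 5) (nat_lit 11) (nat_lit 5) (nat_lit 9) (nat_lit 4) (nat_lit 328) (nat_lit 270) (nat_lit 122)) (XT.lf (nat_lit 0) (nat_lit 36120140109) (nat_lit 228) (nat_lit 59354733247) (nat_lit 76) (nat_lit 39642711037) (nat_lit 8) (nat_lit 5) (nat_lit 11) (nat_lit 5) (nat_lit 9) (nat_lit 4) (nat_lit 329) (nat_lit 270) (nat_lit 121)))) (XT.nd (nat_lit 156) (nat_lit 76) (nat_lit 0) (XT.nd (nat_lit 78) (nat_lit 0) (nat_lit 0) (XT.lf (nat_lit 0) (nat_lit 47207806513) (nat_lit 228) (nat_lit 36629443377) (nat_lit 76) (nat_lit 57207711151) (nat_lit 8) (nat_lit 5) (nat_lit 11) (nat_lit 5) (nat_lit 9) (nat_lit 4) (nat_lit 330) (nat_lit 270) (nat_lit 120)) (XT.lf (nat_lit 0) (nat_lit 58848838515) (nat_lit 228) (nat_lit 12769543259) (nat_lit 76) (nat_lit 75650378646) (nat_lit 8) (nat_lit 5) (nat_lit 11) (nat_lit 5) (nat_lit 9) (nat_lit 4) (nat_lit 331) (nat_lit 270) (nat_lit 119))) (XT.nd (nat_lit 78) (nat_lit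 0) (nat_lit 0) (XT.lf (nat_lit 0) (nat_lit 12687867385) (nat_lit 76) (nat_lit 58581178637) (nat_lit 152) (nat_lit 82524850416) (nat_lit 7) (nat_lit 5) (nat_lit 8) (nat_lit 5) (nat_lit 9) (nat_lit 4) (nat_lit 332) (nat_lit 270) (nat_lit 118)) (XT.lf (nat_lit 0) (nat_lit 39859928210) (nat_lit 76) (nat_lit 44665646785) (nat_lit 152) (nat_lit 76108951440) (nat_lit 7) (nat_lit 5) (nat_lit 8) (nat_lit 5) (nat_lit 9) (nat_lit 4) (nat_lit 333) (nat_lit 270) (nat_lit 117))))) (XT.nd (nat_lit 312) (nat_lit 76) (nat_lit 0) (XT.nd (nat_lit 156) (nat_lit 0) (nat_lit 0) (XT.nd (nat_lit 78) (nat_lit 0) (nat_lit 0) (XT.lf (nat_lit 0) (nat_lit 68389115828) (nat_lit 76) (nat_lit 30054912393) (nat_lit 152) (nat_lit 69373207422) (nat_lit 7) (nat_lit 5) (nat_lit 8) (nat_lit 5) (nat_lit 9) (nat_lit 4) (nat_lit 334) (nat_lit 270) (nat_lit 116)) (XT.lf (nat_lit 0) (nat_lit 98343356875) (nat_lit 76) (nat_lit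 14714187997) (nat_lit 152) (nat_lit 62301580877) (nat_lit 7) (nat_lit 5) (nat_lit 8) (nat_lit 5) (nat_lit 9) (nat_lit 4) (nat_lit 335) (nat_lit 270) (nat_lit 115))) (XT.nd (nat_lit 78) (nat_lit 0) (nat_lit 0) (XT.lf (nat_lit 0) (nat_lit 128422668484) (nat_lit 152) (nat_lit 53505932108) (nat_lit 0) (nat_lit 1348465573) (nat_lit 7) (nat_lit 5) (nat_lit 9) (nat_lit 4) (nat_lit 7) (nat_lit 4) (nat_lit 336) (nat_lit 270) (nat_lit 114)) (XT.lf (nat_lit 0) (nat_lit 144796477380) (nat_lit 152) (nat_lit 29063128410) (nat_lit 0) (nat_lit 17719278602) (nat_lit 7) (nat_lit 5) (nat_lit 9) (nat_lit 4) (nat_lit 7) (nat_lit 4) (nat_lit 337) (nat_lit 270) (nat_lit 113)))) (XT.nd (nat_lit 156) (nat_lit 0) (nat_lit 0) (XT.nd (nat_lit 78) (nat_lit 76) (nat_lit 0) (XT.lf (nat_lit 0) (nat_lit 161988227108) (nat_lit 152) (nat_lit 3399430919) (nat_lit 0) (nat_lit 34908175124) (nat_lit 7) (nat_lit 5) (nat_lit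 9) (nat_lit 4) (nat_lit 7) (nat_lit 4) (nat_lit 338) (nat_lit 270) (nat_lit 112)) (XT.lf (nat_lit 0) (nat_lit 24324810246) (nat_lit 76) (nat_lit 156093818618) (nat_lit 76) (nat_lit 29011049296) (nat_lit 6) (nat_lit 4) (nat_lit 7) (nat_lit 5) (nat_lit 7) (nat_lit 4) (nat_lit 339) (nat_lit 270) (nat_lit 111))) (XT.nd (nat_lit 78) (nat_lit 0) (nat_lit 0) (XT.lf (nat_lit 0) (nat_lit 53552116141) (nat_lit 76) (nat_lit 146275307420) (nat_lit 76) (nat_lit 19189950156) (nat_lit 6) (nat_lit 4) (nat_lit 7) (nat_lit 5) (nat_lit 7) (nat_lit 4) (nat_lit 340) (nat_lit 270) (nat_lit 110)) (XT.lf (nat_lit 0) (nat_lit 84239675051) (nat_lit 76) (nat_lit 135966318033) (nat_lit 76) (nat_lit 8878496062) (nat_lit 6) (nat_lit 4) (nat_lit 7) (nat_lit 5) (nat_lit 7) (nat_lit 4) (nat_lit 341) (nat_lit 270) (nat_lit 109)))))) (XT.nd (nat_lit 32214) (nat_lit 0) (nat_lit 3572) (XT.nd (nat_lit 312) (nat_lit 0)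 (nat_lit 0) (XT.nd (nat_lit 156) (nat_lit 0) (nat_lit 0) (XT.nd (nat_lit 78) (nat_lit 0) (nat_lit 0) (XT.lf (nat_lit 0) (nat_lit 1885520252) (nat_lit 152) (nat_lit 123224852793) (nat_lit 76) (nat_lit 114543100142) (nat_lit 5) (nat_lit 5) (nat_lit 7) (nat_lit 5) (nat_lit 6) (nat_lit 4) (nat_lit 342) (nat_lit 270) (nat_lit 108)) (XT.lf (nat_lit 0) (nat_lit 12888747092) (nat_lit 152) (nat_lit 100670473331) (nat_lit 76) (nat_lit 137184440879) (nat_lit 5) (nat_lit 5) (nat_lit 7) (nat_lit 5) (nat_lit 6) (nat_lit 4) (nat_lit 343) (nat_lit 270) (nat_lit 107))) (XT.nd (nat_lit 78) (nat_lit 0) (nat_lit 0) (XT.lf (nat_lit 0) (nat_lit 24441549940) (nat_lit 152) (nat_lit 76989356600) (nat_lit 76) (nat_lit 160957483072) (nat_lit 5) (nat_lit 5) (nat_lit 7) (nat_lit 5) (nat_lit 6) (nat_lit 4) (nat_lit 344) (nat_lit 270) (nat_lit 106)) (XT.lf (nat_lit 0) (nat_lit 36571435468) (nat_lit 152) (nat_lit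 52125118988) (nat_lit 76) (nat_lit 185918829202) (nat_lit 5) (nat_lit 5) (nat_lit 7) (nat_lit 5) (nat_lit 6) (nat_lit 4) (nat_lit 345) (nat_lit 270) (nat_lit 105)))) (XT.nd (nat_lit 31746) (nat_lit 0) (nat_lit 4028) (XT.nd (nat_lit 31668) (nat_lit 0) (nat_lit 4028) (XT.lf (nat_lit 0) (nat_lit 49307284356) (nat_lit 152) (nat_lit 26018559929) (nat_lit 76) (nat_lit 212127911045) (nat_lit 5) (nat_lit 5) (nat_lit 7) (nat_lit 5) (nat_lit 6) (nat_lit 4) (nat_lit 346) (nat_lit 270) (nat_lit 104)) (XT.lf (nat_lit 0) (nat_lit 6686512687) (nat_lit 684) (nat_lit 1375639544) (nat_lit 684) (nat_lit 1375639544) (nat_lit 58) (nat_lit 3) (nat_lit 67) (nat_lit 3) (nat_lit 67) (nat_lit 5) (nat_lit 271) (nat_lit 271) (nat_lit 178))) (XT.nd (nat_lit 78) (nat_lit 0) (nat_lit 0) (XT.lf (nat_lit 76) (nat_lit 4698337152) (nat_lit 0) (nat_lit 9239554280) (nat_lit 684) (nat_lit 5397085983) (nat_lit 59) (nat_lit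 5) (nat_lit 58) (nat_lit 3) (nat_lit 67) (nat_lit 5) (nat_lit 272) (nat_lit 271) (nat_lit 177)) (XT.lf (nat_lit 76) (nat_lit 12610463224) (nat_lit 0) (nat_lit 1956984230) (nat_lit 684) (nat_lit 5248133194) (nat_lit 59) (nat_lit 5) (nat_lit 58) (nat_lit 3) (nat_lit 67) (nat_lit 5) (nat_lit 273) (nat_lit 271) (nat_lit 176))))) (XT.nd (nat_lit 312) (nat_lit 532) (nat_lit 0) (XT.nd (nat_lit 156) (nat_lit 0) (nat_lit 76) (XT.nd (nat_lit 78) (nat_lit 0) (nat_lit 0) (XT.lf (nat_lit 76) (nat_lit 519951534) (nat_lit 0) (nat_lit 14795884933) (nat_lit 684) (nat_lit 5000068872) (nat_lit 60) (nat_lit 5) (nat_lit 59) (nat_lit 5) (nat_lit 68) (nat_lit 5) (nat_lit 274) (nat_lit 271) (nat_lit 175)) (XT.lf (nat_lit 76) (nat_lit 8842531724) (nat_lit 0) (nat_lit 7403471733) (nat_lit 684) (nat_lit 4588081126) (nat_lit 60) (nat_lit 5) (nat_lit 59) (nat_lit 5) (nat_lit 68) (nat_lit 5) (nat_lit 275) (nat_lit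 271) (nat_lit 174))) (XT.nd (nat_lit 78) (nat_lit 0) (nat_lit 0) (XT.lf (nat_lit 0) (nat_lit 17219540279) (nat_lit 608) (nat_lit 3808546371) (nat_lit 684) (nat_lit 350296629) (nat_lit 60) (nat_lit 5) (nat_lit 68) (nat_lit 5) (nat_lit 69) (nat_lit 5) (nat_lit 276) (nat_lit 271) (nat_lit 173)) (XT.lf (nat_lit 76) (nat_lit 4810477520) (nat_lit 0) (nat_lit 13619429203) (nat_lit 684) (nat_lit 3510633565) (nat_lit 61) (nat_lit 5) (nat_lit 60) (nat_lit 5) (nat_lit 69) (nat_lit 5) (nat_lit 277) (nat_lit 271) (nat_lit 172)))) (XT.nd (nat_lit 156) (nat_lit 608) (nat_lit 0) (XT.nd (nat_lit 78) (nat_lit 0) (nat_lit 76) (XT.lf (nat_lit 76) (nat_lit 13987039300) (nat_lit 0) (nat_lit 5770239325) (nat_lit 684) (nat_lit 2770750750) (nat_lit 61) (nat_lit 5) (nat_lit 60) (nat_lit 5) (nat_lit 69) (nat_lit 5) (nat_lit 278) (nat_lit 271) (nat_lit 171)) (XT.lf (nat_lit 76) (nat_lit 447439349) (nat_lit 0)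 (nat_lit 20741555614) (nat_lit 684) (nat_lit 1954045436) (nat_lit 62) (nat_lit 5) (nat_lit 61) (nat_lit 5) (nat_lit 70) (nat_lit 5) (nat_lit 279) (nat_lit 271) (nat_lit 170))) (XT.nd (nat_lit 78) (nat_lit 684) (nat_lit 0) (XT.lf (nat_lit 76) (nat_lit 10078354287) (nat_lit 0) (nat_lit 12844333532) (nat_lit 684) (nat_lit 854638685) (nat_lit 62) (nat_lit 5) (nat_lit 61) (nat_lit 5) (nat_lit 70) (nat_lit 5) (nat_lit 280) (nat_lit 271) (nat_lit 169)) (XT.lf (nat_lit 0) (nat_lit 283015198) (nat_lit 684) (nat_lit 4262932225) (nat_lit 760) (nat_lit 19897541963) (nat_lit 52) (nat_lit 5) (nat_lit 61) (nat_lit 5) (nat_lit 62) (nat_lit 5) (nat_lit 281) (nat_lit 271) (nat_lit 168)))))))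
noncomputable def xc171 : XT := (XT.nd (nat_lit 1248) (nat_lit 988) (nat_lit 0) (XT.nd (nat_lit 624) (nat_lit 760) (nat_lit 0) (XT.nd (nat_lit 312) (nat_lit 608) (nat_lit 0) (XT.nd (nat_lit 156) (nat_lit 456) (nat_lit 0) (XT.nd (nat_lit 78) (nat_lit 0) (nat_lit 0) (XT.lf (nat_lit 0) (nat_lit 1599574792) (nat_lit 684) (nat_lit 19393468401) (nat_lit 76) (nat_lit 4141717539) (nat_lit 53) (nat_lit 5) (nat_lit 62) (nat_lit 5) (nat_lit 54) (nat_lit 5) (nat_lit 282) (nat_lit 271) (nat_lit 167)) (XT.lf (nat_lit 0) (nat_lit 3123331899) (nat_lit 684) (nat_lit 9544726735) (nat_lit 76) (nat_lit 13185504790) (nat_lit 53) (nat_lit 5) (nat_lit 62) (nat_lit 5) (nat_lit 54) (nat_lit 5) (nat_lit 283) (nat_lit 271) (nat_lit 166))) (XT.nd (nat_lit 78) (nat_lit 0) (nat_lit 0) (XT.lf (nat_lit 0) (nat_lit 817118156) (nat_lit 456) (nat_lit 3912694747) (nat_lit 532) (nat_lit 21878201075) (nat_lit 47) (nat_lit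 5) (nat_lit 53) (nat_lit 5) (nat_lit 54) (nat_lit 5) (nat_lit 284) (nat_lit 271) (nat_lit 165)) (XT.lf (nat_lit 0) (nat_lit 6657354919) (nat_lit 532) (nat_lit 15454511663) (nat_lit 76) (nat_lit 5276316514) (nat_lit 47) (nat_lit 5) (nat_lit 54) (nat_lit 5) (nat_lit 48) (nat_lit 5) (nat_lit 285) (nat_lit 271) (nat_lit 164)))) (XT.nd (nat_lit 156) (nat_lit 304) (nat_lit 0) (XT.nd (nat_lit 78) (nat_lit 304) (nat_lit 0) (XT.lf (nat_lit 0) (nat_lit 8739702343) (nat_lit 532) (nat_lit 4670918592) (nat_lit 76) (nat_lit 14793849640) (nat_lit 47) (nat_lit 5) (nat_lit 54) (nat_lit 5) (nat_lit 48) (nat_lit 5) (nat_lit 286) (nat_lit 271) (nat_lit 163)) (XT.lf (nat_lit 0) (nat_lit 6866414901) (nat_lit 304) (nat_lit 4161514093) (nat_lit 380) (nat_lit 18028585167) (nat_lit 43) (nat_lit 5) (nat_lit 47) (nat_lit 5) (nat_lit 48) (nat_lit 5) (nat_lit 287) (nat_lit 271) (nat_lit 162))) (XT.nd (nat_lit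 78) (nat_lit 304) (nat_lit 0) (XT.lf (nat_lit 0) (nat_lit 13592359054) (nat_lit 380) (nat_lit 10897791628) (nat_lit 76) (nat_lit 5452948048) (nat_lit 43) (nat_lit 5) (nat_lit 48) (nat_lit 5) (nat_lit 44) (nat_lit 5) (nat_lit 288) (nat_lit 271) (nat_lit 161)) (XT.lf (nat_lit 0) (nat_lit 915037584) (nat_lit 304) (nat_lit 15447470603) (nat_lit 380) (nat_lit 14507656515) (nat_lit 39) (nat_lit 5) (nat_lit 43) (nat_lit 5) (nat_lit 44) (nat_lit 5) (nat_lit 289) (nat_lit 271) (nat_lit 160))))) (XT.nd (nat_lit 312) (nat_lit 532) (nat_lit 0) (XT.nd (nat_lit 156) (nat_lit 228) (nat_lit 0) (XT.nd (nat_lit 78) (nat_lit 0) (nat_lit 0) (XT.lf (nat_lit 0) (nat_lit 13691779013) (nat_lit 304) (nat_lit 5759094201) (nat_lit 380) (nat_lit 12383751105) (nat_lit 39) (nat_lit 5) (nat_lit 43) (nat_lit 5) (nat_lit 44) (nat_lit 5) (nat_lit 290) (nat_lit 271) (nat_lit 159)) (XT.lf (nat_lit 0) (nat_lit 22757943448)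 (nat_lit 380) (nat_lit 5813946086) (nat_lit 76) (nat_lit 4272227573) (nat_lit 39) (nat_lit 5) (nat_lit 44) (nat_lit 5) (nat_lit 40) (nat_lit 5) (nat_lit 291) (nat_lit 271) (nat_lit 158))) (XT.nd (nat_lit 78) (nat_lit 0) (nat_lit 0) (XT.lf (nat_lit 0) (nat_lit 7264656873) (nat_lit 228) (nat_lit 19169140222) (nat_lit 304) (nat_lit 7460139315) (nat_lit 36) (nat_lit 5) (nat_lit 39) (nat_lit 5) (nat_lit 40) (nat_lit 5) (nat_lit 292) (nat_lit 271) (nat_lit 157)) (XT.lf (nat_lit 0) (nat_lit 21194270965) (nat_lit 228) (nat_lit 9193366580) (nat_lit 304) (nat_lit 4603921685) (nat_lit 36) (nat_lit 5) (nat_lit 39) (nat_lit 5) (nat_lit 40) (nat_lit 5) (nat_lit 293) (nat_lit 271) (nat_lit 156)))) (XT.nd (nat_lit 156) (nat_lit 228) (nat_lit 0) (XT.nd (nat_lit 78) (nat_lit 304) (nat_lit 0) (XT.lf (nat_lit 0) (nat_lit 34555101028) (nat_lit 304) (nat_lit 348456648) (nat_lit 76) (nat_lit 1239730163)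 (nat_lit 36) (nat_lit 5) (nat_lit 40) (nat_lit 5) (nat_lit 37) (nat_lit 5) (nat_lit 294) (nat_lit 271) (nat_lit 155)) (XT.lf (nat_lit 0) (nat_lit 1900277526) (nat_lit 304) (nat_lit 23297114643) (nat_lit 76) (nat_lit 12135374859) (nat_lit 32) (nat_lit 5) (nat_lit 36) (nat_lit 5) (nat_lit 33) (nat_lit 5) (nat_lit 295) (nat_lit 271) (nat_lit 154))) (XT.nd (nat_lit 78) (nat_lit 228) (nat_lit 0) (XT.lf (nat_lit 0) (nat_lit 5511946267) (nat_lit 304) (nat_lit 9461095213) (nat_lit 76) (nat_lit 23607287483) (nat_lit 32) (nat_lit 5) (nat_lit 36) (nat_lit 5) (nat_lit 33) (nat_lit 5) (nat_lit 296) (nat_lit 271) (nat_lit 153)) (XT.lf (nat_lit 0) (nat_lit 5229726222) (nat_lit 228) (nat_lit 4152462574) (nat_lit 304) (nat_lit 30504198120) (nat_lit 29) (nat_lit 5) (nat_lit 32) (nat_lit 5) (nat_lit 33) (nat_lit 5) (nat_lit 297) (nat_lit 271) (nat_lit 152)))))) (XT.nd (nat_lit 624) (nat_lit 532) (nat_lit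 0) (XT.nd (nat_lit 312) (nat_lit 228) (nat_lit 0) (XT.nd (nat_lit 156) (nat_lit 228) (nat_lit 0) (XT.nd (nat_lit 78) (nat_lit 0) (nat_lit 0) (XT.lf (nat_lit 0) (nat_lit 13717788130) (nat_lit 304) (nat_lit 20385856020) (nat_lit 76) (nat_lit 7140527992) (nat_lit 29) (nat_lit 5) (nat_lit 33) (nat_lit 5) (nat_lit 30) (nat_lit 5) (nat_lit 298) (nat_lit 271) (nat_lit 151)) (XT.lf (nat_lit 0) (nat_lit 18334845158) (nat_lit 304) (nat_lit 5473864842) (nat_lit 76) (nat_lit 18857918561) (nat_lit 29) (nat_lit 5) (nat_lit 33) (nat_lit 5) (nat_lit 30) (nat_lit 5) (nat_lit 299) (nat_lit 271) (nat_lit 150))) (XT.nd (nat_lit 78) (nat_lit 0) (nat_lit 0) (XT.lf (nat_lit 0) (nat_lit 10516234330) (nat_lit 228) (nat_lit 12827474852) (nat_lit 304) (nat_lit 20808465976) (nat_lit 26) (nat_lit 5) (nat_lit 29) (nat_lit 5) (nat_lit 30) (nat_lit 5) (nat_lit 300) (nat_lit 271) (nat_lit 149)) (XT.lf (nat_lit 0)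 (nat_lit 27491867706) (nat_lit 228) (nat_lit 1200708875) (nat_lit 304) (nat_lit 17014958844) (nat_lit 26) (nat_lit 5) (nat_lit 29) (nat_lit 5) (nat_lit 30) (nat_lit 5) (nat_lit 301) (nat_lit 271) (nat_lit 148)))) (XT.nd (nat_lit 156) (nat_lit 76) (nat_lit 0) (XT.nd (nat_lit 78) (nat_lit 152) (nat_lit 0) (XT.lf (nat_lit 0) (nat_lit 34477737983) (nat_lit 304) (nat_lit 2200207615) (nat_lit 76) (nat_lit 10654289239) (nat_lit 26) (nat_lit 5) (nat_lit 30) (nat_lit 5) (nat_lit 27) (nat_lit 5) (nat_lit 302) (nat_lit 271) (nat_lit 147)) (XT.lf (nat_lit 0) (nat_lit 15075056387) (nat_lit 152) (nat_lit 25729286168) (nat_lit 228) (nat_lit 8221230424) (nat_lit 24) (nat_lit 5) (nat_lit 26) (nat_lit 5) (nat_lit 27) (nat_lit 5) (nat_lit 303) (nat_lit 271) (nat_lit 146))) (XT.nd (nat_lit 78) (nat_lit 76) (nat_lit 0) (XT.lf (nat_lit 0) (nat_lit 33286749515) (nat_lit 152) (nat_lit 14195005118) (nat_lit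 228) (nat_lit 3320111924) (nat_lit 24) (nat_lit 5) (nat_lit 26) (nat_lit 5) (nat_lit 27) (nat_lit 5) (nat_lit 304) (nat_lit 271) (nat_lit 145)) (XT.lf (nat_lit 0) (nat_lit 1764910481) (nat_lit 228) (nat_lit 290101362) (nat_lit 76) (nat_lit 50610684047) (nat_lit 23) (nat_lit 5) (nat_lit 26) (nat_lit 5) (nat_lit 24) (nat_lit 5) (nat_lit 305) (nat_lit 271) (nat_lit 144))))) (XT.nd (nat_lit 312) (nat_lit 152) (nat_lit 0) (XT.nd (nat_lit 156) (nat_lit 152) (nat_lit 0) (XT.nd (nat_lit 78) (nat_lit 0) (nat_lit 0) (XT.lf (nat_lit 0) (nat_lit 7448630120) (nat_lit 304) (nat_lit 36453556254) (nat_lit 76) (nat_lit 10695018436) (nat_lit 20) (nat_lit 5) (nat_lit 24) (nat_lit 5) (nat_lit 21) (nat_lit 5) (nat_lit 306) (nat_lit 271) (nat_lit 143)) (XT.lf (nat_lit 0) (nat_lit 13452695573) (nat_lit 304) (nat_lit 19153191014) (nat_lit 76) (nat_lit 24017604793) (nat_lit 20) (nat_lit 5) (nat_lit 24) (nat_lit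 5) (nat_lit 21) (nat_lit 5) (nat_lit 307) (nat_lit 271) (nat_lit 142))) (XT.nd (nat_lit 78) (nat_lit 152) (nat_lit 0) (XT.lf (nat_lit 0) (nat_lit 19754561981) (nat_lit 304) (nat_lit 991175001) (nat_lit 76) (nat_lit 38005485125) (nat_lit 20) (nat_lit 5) (nat_lit 24) (nat_lit 5) (nat_lit 21) (nat_lit 5) (nat_lit 308) (nat_lit 271) (nat_lit 141)) (XT.lf (nat_lit 0) (nat_lit 18673400099) (nat_lit 152) (nat_lit 7987377795) (nat_lit 228) (nat_lit 34310107915) (nat_lit 18) (nat_lit 5) (nat_lit 20) (nat_lit 5) (nat_lit 21) (nat_lit 5) (nat_lit 309) (nat_lit 271) (nat_lit 140)))) (XT.nd (nat_lit 156) (nat_lit 152) (nat_lit 0) (XT.nd (nat_lit 78) (nat_lit 0) (nat_lit 0) (XT.lf (nat_lit 0) (nat_lit 34011571175) (nat_lit 228) (nat_lit 24033062489) (nat_lit 76) (nat_lit 5251944511) (nat_lit 18) (nat_lit 5) (nat_lit 21) (nat_lit 5) (nat_lit 19) (nat_lit 5) (nat_lit 310) (nat_lit 271) (nat_lit 139))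 (XT.lf (nat_lit 0) (nat_lit 41858708822) (nat_lit 228) (nat_lit 4989464582) (nat_lit 76) (nat_lit 18883949909) (nat_lit 18) (nat_lit 5) (nat_lit 21) (nat_lit 5) (nat_lit 19) (nat_lit 5) (nat_lit 311) (nat_lit 271) (nat_lit 138))) (XT.nd (nat_lit 78) (nat_lit 0) (nat_lit 0) (XT.lf (nat_lit 0) (nat_lit 15499433942) (nat_lit 152) (nat_lit 34838724802) (nat_lit 228) (nat_lit 17939297184) (nat_lit 16) (nat_lit 5) (nat_lit 18) (nat_lit 5) (nat_lit 19) (nat_lit 5) (nat_lit 312) (nat_lit 271) (nat_lit 137)) (XT.nd (nat_lit 78) (nat_lit 0) (nat_lit 0) (XT.lf (nat_lit 0) (nat_lit 37183090089) (nat_lit 152) (nat_lit 22141007294) (nat_lit 228) (nat_lit 11621839590) (nat_lit 16) (nat_lit 5) (nat_lit 18) (nat_lit 5) (nat_lit 19) (nat_lit 5) (nat_lit 313) (nat_lit 271) (nat_lit 136)) (XT.lf (nat_lit 0) (nat_lit 59948157376) (nat_lit 152) (nat_lit 8809287216) (nat_lit 228) (nat_lit 4990499140) (nat_lit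 16) (nat_lit 5) (nat_lit 18) (nat_lit 5) (nat_lit 19) (nat_lit 5) (nat_lit 314) (nat_lit 271) (nat_lit 135))))))))
noncomputable def xc172 : XT := (XT.nd (nat_lit 1248) (nat_lit 228) (nat_lit 0) (XT.nd (nat_lit 624) (nat_lit 304) (nat_lit 0) (XT.nd (nat_lit 312) (nat_lit 152) (nat_lit 0) (XT.nd (nat_lit 156) (nat_lit 0) (nat_lit 0) (XT.nd (nat_lit 78) (nat_lit 0) (nat_lit 0) (XT.lf (nat_lit 0) (nat_lit 2105801923) (nat_lit 152) (nat_lit 69402645237) (nat_lit 76) (nat_lit 5170244352) (nat_lit 14) (nat_lit 5) (nat_lit 16) (nat_lit 5) (nat_lit 15) (nat_lit 5) (nat_lit 315) (nat_lit 271) (nat_lit 134)) (XT.lf (nat_lit 0) (nat_lit 9769353924) (nat_lit 152) (nat_lit 50092325974) (nat_lit 76) (nat_lit 19871205003) (nat_lit 14) (nat_lit 5) (nat_lit 16) (nat_lit 5) (nat_lit 15) (nat_lit 5) (nat_lit 316) (nat_lit 271) (nat_lit 133))) (XT.nd (nat_lit 78) (nat_lit 0) (nat_lit 0) (XT.lf (nat_lit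 0) (nat_lit 17814366883) (nat_lit 152) (nat_lit 29819105322) (nat_lit 76) (nat_lit 35306407546) (nat_lit 14) (nat_lit 5) (nat_lit 16) (nat_lit 5) (nat_lit 15) (nat_lit 5) (nat_lit 317) (nat_lit 271) (nat_lit 132)) (XT.lf (nat_lit 0) (nat_lit 26259995595) (nat_lit 152) (nat_lit 8534713709) (nat_lit 76) (nat_lit 51512602463) (nat_lit 14) (nat_lit 5) (nat_lit 16) (nat_lit 5) (nat_lit 15) (nat_lit 5) (nat_lit 318) (nat_lit 271) (nat_lit 131)))) (XT.nd (nat_lit 156) (nat_lit 0) (nat_lit 0) (XT.nd (nat_lit 78) (nat_lit 0) (nat_lit 0) (XT.lf (nat_lit 0) (nat_lit 14268197411) (nat_lit 152) (nat_lit 21080917837) (nat_lit 228) (nat_lit 54482945069) (nat_lit 12) (nat_lit 5) (nat_lit 14) (nat_lit 5) (nat_lit 15) (nat_lit 5) (nat_lit 319) (nat_lit 271) (nat_lit 130)) (XT.lf (nat_lit 0) (nat_lit 38505226830) (nat_lit 152) (nat_lit 6530484232) (nat_lit 228) (nat_lit 48490189372) (nat_lit 12) (nat_lit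 5) (nat_lit 14) (nat_lit 5) (nat_lit 15) (nat_lit 5) (nat_lit 320) (nat_lit 271) (nat_lit 129))) (XT.nd (nat_lit 78) (nat_lit 0) (nat_lit 0) (XT.lf (nat_lit 0) (nat_lit 55341750125) (nat_lit 228) (nat_lit 33589184666) (nat_lit 76) (nat_lit 8466746997) (nat_lit 12) (nat_lit 5) (nat_lit 15) (nat_lit 5) (nat_lit 13) (nat_lit 4) (nat_lit 321) (nat_lit 271) (nat_lit 128)) (XT.lf (nat_lit 0) (nat_lit 66268758659) (nat_lit 228) (nat_lit 11195356772) (nat_lit 76) (nat_lit 23993658076) (nat_lit 12) (nat_lit 5) (nat_lit 15) (nat_lit 5) (nat_lit 13) (nat_lit 4) (nat_lit 322) (nat_lit 271) (nat_lit 127))))) (XT.nd (nat_lit 312) (nat_lit 228) (nat_lit 0) (XT.nd (nat_lit 156) (nat_lit 0) (nat_lit 0) (XT.nd (nat_lit 78) (nat_lit 0) (nat_lit 0) (XT.lf (nat_lit 0) (nat_lit 12723313362) (nat_lit 76) (nat_lit 65216127407) (nat_lit 152) (nat_lit 27771567334) (nat_lit 11) (nat_lit 5) (nat_lit 12) (nat_lit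 5) (nat_lit 13) (nat_lit 4) (nat_lit 323) (nat_lit 271) (nat_lit 126)) (XT.lf (nat_lit 0) (nat_lit 38224553333) (nat_lit 76) (nat_lit 52157410158) (nat_lit 152) (nat_lit 19785529847) (nat_lit 11) (nat_lit 5) (nat_lit 12) (nat_lit 5) (nat_lit 13) (nat_lit 4) (nat_lit 324) (nat_lit 271) (nat_lit 125))) (XT.nd (nat_lit 78) (nat_lit 0) (nat_lit 0) (XT.lf (nat_lit 0) (nat_lit 64998911324) (nat_lit 76) (nat_lit 38446470286) (nat_lit 152) (nat_lit 11401486799) (nat_lit 11) (nat_lit 5) (nat_lit 12) (nat_lit 5) (nat_lit 13) (nat_lit 4) (nat_lit 325) (nat_lit 271) (nat_lit 124)) (XT.lf (nat_lit 0) (nat_lit 93110135805) (nat_lit 76) (nat_lit 24050662695) (nat_lit 152) (nat_lit 2599476182) (nat_lit 11) (nat_lit 5) (nat_lit 12) (nat_lit 5) (nat_lit 13) (nat_lit 4) (nat_lit 326) (nat_lit 271) (nat_lit 123)))) (XT.nd (nat_lit 156) (nat_lit 0) (nat_lit 0) (XT.nd (nat_lit 78) (nat_lit 152) (nat_lit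 0) (XT.lf (nat_lit 0) (nat_lit 6428891002) (nat_lit 152) (nat_lit 2397944272) (nat_lit 76) (nat_lit 116087390883) (nat_lit 10) (nat_lit 5) (nat_lit 12) (nat_lit 5) (nat_lit 11) (nat_lit 5) (nat_lit 327) (nat_lit 271) (nat_lit 122)) (XT.lf (nat_lit 0) (nat_lit 16310099613) (nat_lit 228) (nat_lit 106640014860) (nat_lit 76) (nat_lit 7349194207) (nat_lit 8) (nat_lit 5) (nat_lit 11) (nat_lit 5) (nat_lit 9) (nat_lit 4) (nat_lit 328) (nat_lit 271) (nat_lit 121))) (XT.nd (nat_lit 78) (nat_lit 0) (nat_lit 0) (XT.lf (nat_lit 0) (nat_lit 26870278353) (nat_lit 228) (nat_lit 84996074701) (nat_lit 76) (nat_lit 24078049951) (nat_lit 8) (nat_lit 5) (nat_lit 11) (nat_lit 5) (nat_lit 9) (nat_lit 4) (nat_lit 329) (nat_lit 271) (nat_lit 120)) (XT.lf (nat_lit 0) (nat_lit 37957448307) (nat_lit 228) (nat_lit 62271591781) (nat_lit 76) (nat_lit 41642765858) (nat_lit 8) (nat_lit 5) (nat_lit 11) (nat_lit 5)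 (nat_lit 9) (nat_lit 4) (nat_lit 330) (nat_lit 271) (nat_lit 119)))))) (XT.nd (nat_lit 624) (nat_lit 152) (nat_lit 0) (XT.nd (nat_lit 312) (nat_lit 0) (nat_lit 0) (XT.nd (nat_lit 156) (nat_lit 76) (nat_lit 0) (XT.nd (nat_lit 78) (nat_lit 0) (nat_lit 0) (XT.lf (nat_lit 0) (nat_lit 49598007498) (nat_lit 228) (nat_lit 38412460186) (nat_lit 76) (nat_lit 60085162679) (nat_lit 8) (nat_lit 5) (nat_lit 11) (nat_lit 5) (nat_lit 9) (nat_lit 4) (nat_lit 331) (nat_lit 271) (nat_lit 118)) (XT.lf (nat_lit 0) (nat_lit 61819671544) (nat_lit 228) (nat_lit 13361872460) (nat_lit 76) (nat_lit 79449150883) (nat_lit 8) (nat_lit 5) (nat_lit 11) (nat_lit 5) (nat_lit 9) (nat_lit 4) (nat_lit 332) (nat_lit 271) (nat_lit 117))) (XT.nd (nat_lit 78) (nat_lit 0) (nat_lit 0) (XT.lf (nat_lit 0) (nat_lit 13367664395) (nat_lit 76) (nat_lit 61492581953) (nat_lit 152) (nat_lit 86621877512) (nat_lit 7) (nat_lit 5) (nat_lit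 8) (nat_lit 5) (nat_lit 9) (nat_lit 4) (nat_lit 333) (nat_lit 271) (nat_lit 116)) (XT.lf (nat_lit 0) (nat_lit 41896166183) (nat_lit 76) (nat_lit 46882114252) (nat_lit 152) (nat_lit 79886574798) (nat_lit 7) (nat_lit 5) (nat_lit 8) (nat_lit 5) (nat_lit 9) (nat_lit 4) (nat_lit 334) (nat_lit 271) (nat_lit 115)))) (XT.nd (nat_lit 156) (nat_lit 0) (nat_lit 0) (XT.nd (nat_lit 78) (nat_lit 0) (nat_lit 0) (XT.lf (nat_lit 0) (nat_lit 71849754060) (nat_lit 76) (nat_lit 31541643848) (nat_lit 152) (nat_lit 72815368542) (nat_lit 7) (nat_lit 5) (nat_lit 8) (nat_lit 5) (nat_lit 9) (nat_lit 4) (nat_lit 335) (nat_lit 271) (nat_lit 114)) (XT.lf (nat_lit 0) (nat_lit 103299746091) (nat_lit 76) (nat_lit 15434645812) (nat_lit 152) (nat_lit 65391422539) (nat_lit 7) (nat_lit 5) (nat_lit 8) (nat_lit 5) (nat_lit 9) (nat_lit 4) (nat_lit 336) (nat_lit 271) (nat_lit 113))) (XT.nd (nat_lit 78) (nat_lit 0) (nat_lit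 0) (XT.lf (nat_lit 0) (nat_lit 134866857058) (nat_lit 152) (nat_lit 56142894573) (nat_lit 0) (nat_lit 1429949269) (nat_lit 7) (nat_lit 5) (nat_lit 9) (nat_lit 4) (nat_lit 7) (nat_lit 4) (nat_lit 337) (nat_lit 271) (nat_lit 112)) (XT.lf (nat_lit 0) (nat_lit 152058258534) (nat_lit 152) (nat_lit 30479776126) (nat_lit 0) (nat_lit 18618633406) (nat_lit 7) (nat_lit 5) (nat_lit 9) (nat_lit 4) (nat_lit 7) (nat_lit 4) (nat_lit 338) (nat_lit 271) (nat_lit 111))))) (XT.nd (nat_lit 312) (nat_lit 76) (nat_lit 0) (XT.nd (nat_lit 156) (nat_lit 0) (nat_lit 0) (XT.nd (nat_lit 78) (nat_lit 76) (nat_lit 0) (XT.lf (nat_lit 0) (nat_lit 170108550164) (nat_lit 152) (nat_lit 3534632270) (nat_lit 0) (nat_lit 36666337094) (nat_lit 7) (nat_lit 5) (nat_lit 9) (nat_lit 4) (nat_lit 7) (nat_lit 4) (nat_lit 339) (nat_lit 271) (nat_lit 110)) (XT.lf (nat_lit 0) (nat_lit 25575260143) (nat_lit 76) (nat_lit 163884750173)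 (nat_lit 76) (nat_lit 30440072397) (nat_lit 6) (nat_lit 4) (nat_lit 7) (nat_lit 5) (nat_lit 7) (nat_lit 4) (nat_lit 340) (nat_lit 271) (nat_lit 109))) (XT.nd (nat_lit 78) (nat_lit 0) (nat_lit 0) (XT.lf (nat_lit 0) (nat_lit 56262302315) (nat_lit 76) (nat_lit 153575968623) (nat_lit 76) (nat_lit 20128943508) (nat_lit 6) (nat_lit 4) (nat_lit 7) (nat_lit 5) (nat_lit 7) (nat_lit 4) (nat_lit 341) (nat_lit 271) (nat_lit 108)) (XT.lf (nat_lit 0) (nat_lit 88482687724) (nat_lit 76) (nat_lit 142752153775) (nat_lit 76) (nat_lit 9302893097) (nat_lit 6) (nat_lit 4) (nat_lit 7) (nat_lit 5) (nat_lit 7) (nat_lit 4) (nat_lit 342) (nat_lit 271) (nat_lit 107)))) (XT.nd (nat_lit 156) (nat_lit 0) (nat_lit 0) (XT.nd (nat_lit 78) (nat_lit 0) (nat_lit 0) (XT.lf (nat_lit 0) (nat_lit 1997798890) (nat_lit 152) (nat_lit 129355902058) (nat_lit 76) (nat_lit 120281498994) (nat_lit 5) (nat_lit 5) (nat_lit 7) (nat_lit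 5) (nat_lit 6) (nat_lit 4) (nat_lit 343) (nat_lit 271) (nat_lit 106)) (XT.lf (nat_lit 0) (nat_lit 13550329805) (nat_lit 152) (nat_lit 105675241402) (nat_lit 76) (nat_lit 144054371347) (nat_lit 5) (nat_lit 5) (nat_lit 7) (nat_lit 5) (nat_lit 6) (nat_lit 4) (nat_lit 344) (nat_lit 271) (nat_lit 105))) (XT.nd (nat_lit 31824) (nat_lit 0) (nat_lit 4028) (XT.lf (nat_lit 0) (nat_lit 25679956349) (nat_lit 152) (nat_lit 80811438149) (nat_lit 76) (nat_lit 169015555724) (nat_lit 5) (nat_lit 5) (nat_lit 7) (nat_lit 5) (nat_lit 6) (nat_lit 4) (nat_lit 345) (nat_lit 271) (nat_lit 104)) (XT.lf (nat_lit 0) (nat_lit 7175570418) (nat_lit 684) (nat_lit 1362710380) (nat_lit 684) (nat_lit 1362710380) (nat_lit 58) (nat_lit 3) (nat_lit 67) (nat_lit 3) (nat_lit 67) (nat_lit 5) (nat_lit 272) (nat_lit 272) (nat_lit 176)))))))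
noncomputable def xc173 : XT := (XT.nd (nat_lit 1248) (nat_lit 1444) (nat_lit 0) (XT.nd (nat_lit 624) (nat_lit 1140) (nat_lit 0) (XT.nd (nat_lit 312) (nat_lit 0) (nat_lit 152) (XT.nd (nat_lit 156) (nat_lit 0) (nat_lit 76) (XT.nd (nat_lit 78) (nat_lit 0) (nat_lit 0) (XT.lf (nat_lit 76) (nat_lit 5094040449) (nat_lit 0) (nat_lit 9837983686) (nat_lit 684) (nat_lit 5353023902) (nat_lit 59) (nat_lit 5) (nat_lit 58) (nat_lit 3) (nat_lit 67) (nat_lit 5) (nat_lit 273) (nat_lit 272) (nat_lit 175)) (XT.lf (nat_lit 76) (nat_lit 13394116327) (nat_lit 0) (nat_lit 2184787434) (nat_lit 684) (nat_lit 5211571872) (nat_lit 59) (nat_lit 5) (nat_lit 58) (nat_lit 3) (nat_lit 67) (nat_lit 5) (nat_lit 274) (nat_lit 272) (nat_lit 174))) (XT.nd (nat_lit 78) (nat_lit 0) (nat_lit 0) (XT.lf (nat_lit 76) (nat_lit 714233289) (nat_lit 0) (nat_lit 15637693806) (nat_lit 684) (nat_lit 4964611093) (nat_lit 60) (nat_lit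 5) (nat_lit 59) (nat_lit 5) (nat_lit 68) (nat_lit 5) (nat_lit 275) (nat_lit 272) (nat_lit 173)) (XT.lf (nat_lit 76) (nat_lit 9444928956) (nat_lit 0) (nat_lit 7870802107) (nat_lit 684) (nat_lit 4545617351) (nat_lit 60) (nat_lit 5) (nat_lit 59) (nat_lit 5) (nat_lit 68) (nat_lit 5) (nat_lit 276) (nat_lit 272) (nat_lit 172)))) (XT.nd (nat_lit 156) (nat_lit 0) (nat_lit 0) (XT.nd (nat_lit 78) (nat_lit 0) (nat_lit 0) (XT.lf (nat_lit 0) (nat_lit 18324241621) (nat_lit 608) (nat_lit 3831137563) (nat_lit 684) (nat_lit 278242733) (nat_lit 60) (nat_lit 5) (nat_lit 68) (nat_lit 5) (nat_lit 69) (nat_lit 5) (nat_lit 277) (nat_lit 272) (nat_lit 171)) (XT.lf (nat_lit 76) (nat_lit 5216130488) (nat_lit 0) (nat_lit 14369968105) (nat_lit 684) (nat_lit 3438310729) (nat_lit 61) (nat_lit 5) (nat_lit 60) (nat_lit 5) (nat_lit 69) (nat_lit 5) (nat_lit 278) (nat_lit 272) (nat_lit 170))) (XT.nd (nat_lit 78) (nat_lit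 0) (nat_lit 76) (XT.lf (nat_lit 76) (nat_lit 14843657068) (nat_lit 0) (nat_lit 6125005998) (nat_lit 684) (nat_lit 2673236370) (nat_lit 61) (nat_lit 5) (nat_lit 60) (nat_lit 5) (nat_lit 69) (nat_lit 5) (nat_lit 279) (nat_lit 272) (nat_lit 169)) (XT.lf (nat_lit 76) (nat_lit 637887600) (nat_lit 0) (nat_lit 21825072765) (nat_lit 684) (nat_lit 1825215429) (nat_lit 62) (nat_lit 5) (nat_lit 61) (nat_lit 5) (nat_lit 70) (nat_lit 5) (nat_lit 280) (nat_lit 272) (nat_lit 168))))) (XT.nd (nat_lit 312) (nat_lit 684) (nat_lit 0) (XT.nd (nat_lit 156) (nat_lit 0) (nat_lit 76) (XT.nd (nat_lit 78) (nat_lit 684) (nat_lit 0) (XT.lf (nat_lit 76) (nat_lit 10742344653) (nat_lit 0) (nat_lit 13530778181) (nat_lit 684) (nat_lit 681625593) (nat_lit 62) (nat_lit 5) (nat_lit 61) (nat_lit 5) (nat_lit 70) (nat_lit 5) (nat_lit 281) (nat_lit 272) (nat_lit 167)) (XT.lf (nat_lit 0) (nat_lit 496061042) (nat_lit 684)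 (nat_lit 4315937246) (nat_lit 760) (nat_lit 20842605736) (nat_lit 52) (nat_lit 5) (nat_lit 61) (nat_lit 5) (nat_lit 62) (nat_lit 5) (nat_lit 282) (nat_lit 272) (nat_lit 166))) (XT.nd (nat_lit 78) (nat_lit 0) (nat_lit 0) (XT.lf (nat_lit 0) (nat_lit 1870901441) (nat_lit 684) (nat_lit 20194391078) (nat_lit 76) (nat_lit 4315576876) (nat_lit 53) (nat_lit 5) (nat_lit 62) (nat_lit 5) (nat_lit 54) (nat_lit 5) (nat_lit 283) (nat_lit 272) (nat_lit 165)) (XT.lf (nat_lit 0) (nat_lit 3461734599) (nat_lit 684) (nat_lit 9861248078) (nat_lit 76) (nat_lit 13813135706) (nat_lit 53) (nat_lit 5) (nat_lit 62) (nat_lit 5) (nat_lit 54) (nat_lit 5) (nat_lit 284) (nat_lit 272) (nat_lit 164)))) (XT.nd (nat_lit 156) (nat_lit 304) (nat_lit 0) (XT.nd (nat_lit 78) (nat_lit 0) (nat_lit 0) (XT.lf (nat_lit 0) (nat_lit 1016096880) (nat_lit 456) (nat_lit 4126233603) (nat_lit 532) (nat_lit 22786319601) (nat_lit 47)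 (nat_lit 5) (nat_lit 53) (nat_lit 5) (nat_lit 54) (nat_lit 5) (nat_lit 285) (nat_lit 272) (nat_lit 163)) (XT.lf (nat_lit 0) (nat_lit 7157601143) (nat_lit 532) (nat_lit 16067078254) (nat_lit 76) (nat_lit 5523626554) (nat_lit 47) (nat_lit 5) (nat_lit 54) (nat_lit 5) (nat_lit 48) (nat_lit 5) (nat_lit 286) (nat_lit 272) (nat_lit 162))) (XT.nd (nat_lit 78) (nat_lit 304) (nat_lit 0) (XT.lf (nat_lit 0) (nat_lit 9336095534) (nat_lit 532) (nat_lit 4751932147) (nat_lit 76) (nat_lit 15517822326) (nat_lit 47) (nat_lit 5) (nat_lit 54) (nat_lit 5) (nat_lit 48) (nat_lit 5) (nat_lit 287) (nat_lit 272) (nat_lit 161)) (XT.lf (nat_lit 0) (nat_lit 7359807821) (nat_lit 304) (nat_lit 4373677883) (nat_lit 380) (nat_lit 18767314064) (nat_lit 43) (nat_lit 5) (nat_lit 47) (nat_lit 5) (nat_lit 48) (nat_lit 5) (nat_lit 288) (nat_lit 272) (nat_lit 160)))))) (XT.nd (nat_lit 624) (nat_lit 608) (nat_lit 0) (XT.nd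 (nat_lit 312) (nat_lit 532) (nat_lit 0) (XT.nd (nat_lit 156) (nat_lit 0) (nat_lit 0) (XT.nd (nat_lit 78) (nat_lit 304) (nat_lit 0) (XT.lf (nat_lit 0) (nat_lit 14418735516) (nat_lit 380) (nat_lit 11291561112) (nat_lit 76) (nat_lit 5721826648) (nat_lit 43) (nat_lit 5) (nat_lit 48) (nat_lit 5) (nat_lit 44) (nat_lit 5) (nat_lit 289) (nat_lit 272) (nat_lit 159)) (XT.lf (nat_lit 0) (nat_lit 1109472140) (nat_lit 304) (nat_lit 16213252819) (nat_lit 380) (nat_lit 15083088683) (nat_lit 39) (nat_lit 5) (nat_lit 43) (nat_lit 5) (nat_lit 44) (nat_lit 5) (nat_lit 290) (nat_lit 272) (nat_lit 158))) (XT.nd (nat_lit 78) (nat_lit 0) (nat_lit 0) (XT.lf (nat_lit 0) (nat_lit 14517970512) (nat_lit 304) (nat_lit 6040771469) (nat_lit 380) (nat_lit 12860128509) (nat_lit 39) (nat_lit 5) (nat_lit 43) (nat_lit 5) (nat_lit 44) (nat_lit 5) (nat_lit 291) (nat_lit 272) (nat_lit 157)) (XT.lf (nat_lit 0) (nat_lit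 24024815015) (nat_lit 380) (nat_lit 5962748548) (nat_lit 76) (nat_lit 4491626118) (nat_lit 39) (nat_lit 5) (nat_lit 44) (nat_lit 5) (nat_lit 40) (nat_lit 5) (nat_lit 292) (nat_lit 272) (nat_lit 156)))) (XT.nd (nat_lit 156) (nat_lit 304) (nat_lit 0) (XT.nd (nat_lit 78) (nat_lit 0) (nat_lit 0) (XT.lf (nat_lit 0) (nat_lit 7767495932) (nat_lit 228) (nat_lit 20113003419) (nat_lit 304) (nat_lit 7701231297) (nat_lit 36) (nat_lit 5) (nat_lit 39) (nat_lit 5) (nat_lit 40) (nat_lit 5) (nat_lit 293) (nat_lit 272) (nat_lit 155)) (XT.lf (nat_lit 0) (nat_lit 22386942813) (nat_lit 228) (nat_lit 9639136039) (nat_lit 304) (nat_lit 4708484451) (nat_lit 36) (nat_lit 5) (nat_lit 39) (nat_lit 5) (nat_lit 40) (nat_lit 5) (nat_lit 294) (nat_lit 272) (nat_lit 154))) (XT.nd (nat_lit 78) (nat_lit 304) (nat_lit 0) (XT.lf (nat_lit 0) (nat_lit 36396452680) (nat_lit 304) (nat_lit 233198348) (nat_lit 76) (nat_lit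 1314530023) (nat_lit 36) (nat_lit 5) (nat_lit 40) (nat_lit 5) (nat_lit 37) (nat_lit 5) (nat_lit 295) (nat_lit 272) (nat_lit 153)) (XT.lf (nat_lit 0) (nat_lit 2107868891) (nat_lit 304) (nat_lit 24327170570) (nat_lit 76) (nat_lit 12758200673) (nat_lit 32) (nat_lit 5) (nat_lit 36) (nat_lit 5) (nat_lit 33) (nat_lit 5) (nat_lit 296) (nat_lit 272) (nat_lit 152))))) (XT.nd (nat_lit 312) (nat_lit 380) (nat_lit 0) (XT.nd (nat_lit 156) (nat_lit 0) (nat_lit 0) (XT.nd (nat_lit 78) (nat_lit 228) (nat_lit 0) (XT.lf (nat_lit 0) (nat_lit 5894760236) (nat_lit 304) (nat_lit 9805769207) (nat_lit 76) (nat_lit 24802944306) (nat_lit 32) (nat_lit 5) (nat_lit 36) (nat_lit 5) (nat_lit 33) (nat_lit 5) (nat_lit 297) (nat_lit 272) (nat_lit 151)) (XT.lf (nat_lit 0) (nat_lit 5617522642) (nat_lit 228) (nat_lit 4337858749) (nat_lit 304) (nat_lit 31919634208) (nat_lit 29) (nat_lit 5) (nat_lit 32) (nat_lit 5) (nat_lit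 33) (nat_lit 5) (nat_lit 298) (nat_lit 272) (nat_lit 150))) (XT.nd (nat_lit 78) (nat_lit 0) (nat_lit 0) (XT.lf (nat_lit 0) (nat_lit 14503134851) (nat_lit 304) (nat_lit 21279764300) (nat_lit 76) (nat_lit 7518045394) (nat_lit 29) (nat_lit 5) (nat_lit 33) (nat_lit 5) (nat_lit 30) (nat_lit 5) (nat_lit 299) (nat_lit 272) (nat_lit 149)) (XT.lf (nat_lit 0) (nat_lit 19346308667) (nat_lit 304) (nat_lit 5628144255) (nat_lit 76) (nat_lit 19820329730) (nat_lit 29) (nat_lit 5) (nat_lit 33) (nat_lit 5) (nat_lit 30) (nat_lit 5) (nat_lit 300) (nat_lit 272) (nat_lit 148)))) (XT.nd (nat_lit 156) (nat_lit 152) (nat_lit 0) (XT.nd (nat_lit 78) (nat_lit 0) (nat_lit 0) (XT.lf (nat_lit 0) (nat_lit 11159533846) (nat_lit 228) (nat_lit 13443405825) (nat_lit 304) (nat_lit 21751821733) (nat_lit 26) (nat_lit 5) (nat_lit 29) (nat_lit 5) (nat_lit 30) (nat_lit 5) (nat_lit 301) (nat_lit 272) (nat_lit 147)) (XT.lf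 (nat_lit 0) (nat_lit 28978354233) (nat_lit 228) (nat_lit 1236513110) (nat_lit 304) (nat_lit 17773261508) (nat_lit 26) (nat_lit 5) (nat_lit 29) (nat_lit 5) (nat_lit 30) (nat_lit 5) (nat_lit 302) (nat_lit 272) (nat_lit 146))) (XT.nd (nat_lit 78) (nat_lit 152) (nat_lit 0) (XT.lf (nat_lit 0) (nat_lit 36285472740) (nat_lit 304) (nat_lit 2199457834) (nat_lit 76) (nat_lit 11209342424) (nat_lit 26) (nat_lit 5) (nat_lit 30) (nat_lit 5) (nat_lit 27) (nat_lit 5) (nat_lit 303) (nat_lit 272) (nat_lit 145)) (XT.nd (nat_lit 78) (nat_lit 0) (nat_lit 0) (XT.lf (nat_lit 0) (nat_lit 15937782915) (nat_lit 152) (nat_lit 26988333256) (nat_lit 228) (nat_lit 8546294596) (nat_lit 24) (nat_lit 5) (nat_lit 26) (nat_lit 5) (nat_lit 27) (nat_lit 5) (nat_lit 304) (nat_lit 272) (nat_lit 144)) (XT.lf (nat_lit 0) (nat_lit 35054871475) (nat_lit 152) (nat_lit 14878643735) (nat_lit 228) (nat_lit 3404215283) (nat_lit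 24) (nat_lit 5) (nat_lit 26) (nat_lit 5) (nat_lit 27) (nat_lit 5) (nat_lit 305) (nat_lit 272) (nat_lit 143))))))))
noncomputable def xc174 : XT := (XT.nd (nat_lit 1248) (nat_lit 380) (nat_lit 0) (XT.nd (nat_lit 624) (nat_lit 304) (nat_lit 0) (XT.nd (nat_lit 312) (nat_lit 304) (nat_lit 0) (XT.nd (nat_lit 156) (nat_lit 0) (nat_lit 0) (XT.nd (nat_lit 78) (nat_lit 228) (nat_lit 0) (XT.lf (nat_lit 0) (nat_lit 1928661580) (nat_lit 228) (nat_lit 202953904) (nat_lit 76) (nat_lit 53163276317) (nat_lit 23) (nat_lit 5) (nat_lit 26) (nat_lit 5) (nat_lit 24) (nat_lit 5) (nat_lit 306) (nat_lit 272) (nat_lit 142)) (XT.lf (nat_lit 0) (nat_lit 7894947566) (nat_lit 304) (nat_lit 38172663234) (nat_lit 76) (nat_lit 11255461282) (nat_lit 20) (nat_lit 5) (nat_lit 24) (nat_lit 5) (nat_lit 21) (nat_lit 5) (nat_lit 307) (nat_lit 272) (nat_lit 141))) (XT.nd (nat_lit 78) (nat_lit 0) (nat_lit 0) (XT.lf (nat_lit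 0) (nat_lit 14195697914) (nat_lit 304) (nat_lit 20012211677) (nat_lit 76) (nat_lit 25242953532) (nat_lit 20) (nat_lit 5) (nat_lit 24) (nat_lit 5) (nat_lit 21) (nat_lit 5) (nat_lit 308) (nat_lit 272) (nat_lit 140)) (XT.lf (nat_lit 0) (nat_lit 20809306805) (nat_lit 304) (nat_lit 946791953) (nat_lit 76) (nat_lit 39929062713) (nat_lit 20) (nat_lit 5) (nat_lit 24) (nat_lit 5) (nat_lit 21) (nat_lit 5) (nat_lit 309) (nat_lit 272) (nat_lit 139)))) (XT.nd (nat_lit 156) (nat_lit 152) (nat_lit 0) (XT.nd (nat_lit 78) (nat_lit 0) (nat_lit 0) (XT.lf (nat_lit 0) (nat_lit 19699496712) (nat_lit 152) (nat_lit 8359588568) (nat_lit 228) (nat_lit 35956823391) (nat_lit 18) (nat_lit 5) (nat_lit 20) (nat_lit 5) (nat_lit 21) (nat_lit 5) (nat_lit 310) (nat_lit 272) (nat_lit 138)) (XT.lf (nat_lit 0) (nat_lit 35774714025) (nat_lit 228) (nat_lit 25143740354) (nat_lit 76) (nat_lit 5539578772) (nat_lit 18) (nat_lit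 5) (nat_lit 21) (nat_lit 5) (nat_lit 19) (nat_lit 5) (nat_lit 311) (nat_lit 272) (nat_lit 137))) (XT.nd (nat_lit 78) (nat_lit 152) (nat_lit 0) (XT.lf (nat_lit 0) (nat_lit 44011229303) (nat_lit 228) (nat_lit 5152294707) (nat_lit 76) (nat_lit 19851992200) (nat_lit 18) (nat_lit 5) (nat_lit 21) (nat_lit 5) (nat_lit 19) (nat_lit 5) (nat_lit 312) (nat_lit 272) (nat_lit 136)) (XT.lf (nat_lit 0) (nat_lit 16359651274) (nat_lit 152) (nat_lit 36553493987) (nat_lit 228) (nat_lit 18775056661) (nat_lit 16) (nat_lit 5) (nat_lit 18) (nat_lit 5) (nat_lit 19) (nat_lit 5) (nat_lit 313) (nat_lit 272) (nat_lit 135))))) (XT.nd (nat_lit 312) (nat_lit 152) (nat_lit 0) (XT.nd (nat_lit 156) (nat_lit 152) (nat_lit 0) (XT.nd (nat_lit 78) (nat_lit 0) (nat_lit 0) (XT.lf (nat_lit 0) (nat_lit 39123430911) (nat_lit 152) (nat_lit 23222184273) (nat_lit 228) (nat_lit 12144640729) (nat_lit 16) (nat_lit 5) (nat_lit 18)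 (nat_lit 5) (nat_lit 19) (nat_lit 5) (nat_lit 314) (nat_lit 272) (nat_lit 134)) (XT.lf (nat_lit 0) (nat_lit 63022885548) (nat_lit 152) (nat_lit 9225110258) (nat_lit 228) (nat_lit 5184509011) (nat_lit 16) (nat_lit 5) (nat_lit 18) (nat_lit 5) (nat_lit 19) (nat_lit 5) (nat_lit 315) (nat_lit 272) (nat_lit 133))) (XT.nd (nat_lit 78) (nat_lit 0) (nat_lit 0) (XT.lf (nat_lit 0) (nat_lit 2263889178) (nat_lit 152) (nat_lit 72792363383) (nat_lit 76) (nat_lit 5453550311) (nat_lit 14) (nat_lit 5) (nat_lit 16) (nat_lit 5) (nat_lit 15) (nat_lit 5) (nat_lit 316) (nat_lit 272) (nat_lit 132)) (XT.lf (nat_lit 0) (nat_lit 10308104627) (nat_lit 152) (nat_lit 52520357400) (nat_lit 76) (nat_lit 20888378340) (nat_lit 14) (nat_lit 5) (nat_lit 16) (nat_lit 5) (nat_lit 15) (nat_lit 5) (nat_lit 317) (nat_lit 272) (nat_lit 131)))) (XT.nd (nat_lit 156) (nat_lit 152) (nat_lit 0) (XT.nd (nat_lit 78) (nat_lit 0)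 (nat_lit 0) (XT.lf (nat_lit 0) (nat_lit 18752973806) (nat_lit 152) (nat_lit 31237122615) (nat_lit 76) (nat_lit 37094216578) (nat_lit 14) (nat_lit 5) (nat_lit 16) (nat_lit 5) (nat_lit 15) (nat_lit 5) (nat_lit 318) (nat_lit 272) (nat_lit 130)) (XT.lf (nat_lit 0) (nat_lit 27618603545) (nat_lit 152) (nat_lit 8891984658) (nat_lit 76) (nat_lit 54109650352) (nat_lit 14) (nat_lit 5) (nat_lit 16) (nat_lit 5) (nat_lit 15) (nat_lit 5) (nat_lit 319) (nat_lit 272) (nat_lit 129))) (XT.nd (nat_lit 78) (nat_lit 0) (nat_lit 0) (XT.lf (nat_lit 0) (nat_lit 15049951619) (nat_lit 152) (nat_lit 22111122790) (nat_lit 228) (nat_lit 57160212904) (nat_lit 12) (nat_lit 5) (nat_lit 14) (nat_lit 5) (nat_lit 15) (nat_lit 5) (nat_lit 320) (nat_lit 272) (nat_lit 128)) (XT.lf (nat_lit 0) (nat_lit 40495578017) (nat_lit 152) (nat_lit 6834302788) (nat_lit 228) (nat_lit 50870051775) (nat_lit 12) (nat_lit 5) (nat_lit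 14) (nat_lit 5) (nat_lit 15) (nat_lit 5) (nat_lit 321) (nat_lit 272) (nat_lit 127)))))) (XT.nd (nat_lit 624) (nat_lit 76) (nat_lit 0) (XT.nd (nat_lit 312) (nat_lit 228) (nat_lit 0) (XT.nd (nat_lit 156) (nat_lit 76) (nat_lit 0) (XT.nd (nat_lit 78) (nat_lit 0) (nat_lit 0) (XT.lf (nat_lit 0) (nat_lit 58149541144) (nat_lit 228) (nat_lit 35204836069) (nat_lit 76) (nat_lit 8911016664) (nat_lit 12) (nat_lit 5) (nat_lit 15) (nat_lit 5) (nat_lit 13) (nat_lit 4) (nat_lit 322) (nat_lit 272) (nat_lit 126)) (XT.lf (nat_lit 0) (nat_lit 69620961842) (nat_lit 228) (nat_lit 11694355248) (nat_lit 76) (nat_lit 25213276520) (nat_lit 12) (nat_lit 5) (nat_lit 15) (nat_lit 5) (nat_lit 13) (nat_lit 4) (nat_lit 323) (nat_lit 272) (nat_lit 125))) (XT.nd (nat_lit 78) (nat_lit 0) (nat_lit 0) (XT.lf (nat_lit 0) (nat_lit 13419268242) (nat_lit 76) (nat_lit 68454997329) (nat_lit 152) (nat_lit 29120276195) (nat_lit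 11) (nat_lit 5) (nat_lit 12) (nat_lit 5) (nat_lit 13) (nat_lit 4) (nat_lit 324) (nat_lit 272) (nat_lit 124)) (XT.lf (nat_lit 0) (nat_lit 40192723106) (nat_lit 76) (nat_lit 54744388810) (nat_lit 152) (nat_lit 20736835382) (nat_lit 11) (nat_lit 5) (nat_lit 12) (nat_lit 5) (nat_lit 13) (nat_lit 4) (nat_lit 325) (nat_lit 272) (nat_lit 123)))) (XT.nd (nat_lit 156) (nat_lit 228) (nat_lit 0) (XT.nd (nat_lit 78) (nat_lit 0) (nat_lit 0) (XT.lf (nat_lit 0) (nat_lit 68303087468) (nat_lit 76) (nat_lit 40348896795) (nat_lit 152) (nat_lit 11935398322) (nat_lit 11) (nat_lit 5) (nat_lit 12) (nat_lit 5) (nat_lit 13) (nat_lit 4) (nat_lit 326) (nat_lit 272) (nat_lit 122)) (XT.lf (nat_lit 0) (nat_lit 97817290765) (nat_lit 76) (nat_lit 25234246301) (nat_lit 152) (nat_lit 2695009213) (nat_lit 11) (nat_lit 5) (nat_lit 12) (nat_lit 5) (nat_lit 13) (nat_lit 4) (nat_lit 327) (nat_lit 272) (nat_lit 121))) (XT.nd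 (nat_lit 78) (nat_lit 152) (nat_lit 0) (XT.lf (nat_lit 0) (nat_lit 6782086464) (nat_lit 152) (nat_lit 2467505686) (nat_lit 76) (nat_lit 121908660530) (nat_lit 10) (nat_lit 5) (nat_lit 12) (nat_lit 5) (nat_lit 11) (nat_lit 5) (nat_lit 328) (nat_lit 272) (nat_lit 120)) (XT.lf (nat_lit 0) (nat_lit 17156905786) (nat_lit 228) (nat_lit 111921137474) (nat_lit 76) (nat_lit 7734573186) (nat_lit 8) (nat_lit 5) (nat_lit 11) (nat_lit 5) (nat_lit 9) (nat_lit 4) (nat_lit 329) (nat_lit 272) (nat_lit 119))))) (XT.nd (nat_lit 312) (nat_lit 76) (nat_lit 0) (XT.nd (nat_lit 156) (nat_lit 0) (nat_lit 0) (XT.nd (nat_lit 78) (nat_lit 0) (nat_lit 0) (XT.lf (nat_lit 0) (nat_lit 28243602930) (nat_lit 228) (nat_lit 89197423076) (nat_lit 76) (nat_lit 25299018419) (nat_lit 8) (nat_lit 5) (nat_lit 11) (nat_lit 5) (nat_lit 9) (nat_lit 4) (nat_lit 330) (nat_lit 272) (nat_lit 118)) (XT.lf (nat_lit 0) (nat_lit 39883711826)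 (nat_lit 228) (nat_lit 65339023407) (nat_lit 76) (nat_lit 43741157456) (nat_lit 8) (nat_lit 5) (nat_lit 11) (nat_lit 5) (nat_lit 9) (nat_lit 4) (nat_lit 331) (nat_lit 272) (nat_lit 117))) (XT.nd (nat_lit 78) (nat_lit 0) (nat_lit 0) (XT.lf (nat_lit 0) (nat_lit 52104947019) (nat_lit 228) (nat_lit 40289132754) (nat_lit 76) (nat_lit 63104900151) (nat_lit 8) (nat_lit 5) (nat_lit 11) (nat_lit 5) (nat_lit 9) (nat_lit 4) (nat_lit 332) (nat_lit 272) (nat_lit 116)) (XT.lf (nat_lit 0) (nat_lit 64936406689) (nat_lit 228) (nat_lit 13988108521) (nat_lit 76) (nat_lit 83436350654) (nat_lit 8) (nat_lit 5) (nat_lit 11) (nat_lit 5) (nat_lit 9) (nat_lit 4) (nat_lit 333) (nat_lit 272) (nat_lit 115)))) (XT.nd (nat_lit 156) (nat_lit 0) (nat_lit 0) (XT.nd (nat_lit 78) (nat_lit 0) (nat_lit 0) (XT.lf (nat_lit 0) (nat_lit 14077230055) (nat_lit 76) (nat_lit 64551196887) (nat_lit 152) (nat_lit 90926472137) (nat_lit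 7) (nat_lit 5) (nat_lit 8) (nat_lit 5) (nat_lit 9) (nat_lit 4) (nat_lit 334) (nat_lit 272) (nat_lit 114)) (XT.lf (nat_lit 0) (nat_lit 44030195864) (nat_lit 76) (nat_lit 49210968380) (nat_lit 152) (nat_lit 83855666156) (nat_lit 7) (nat_lit 5) (nat_lit 8) (nat_lit 5) (nat_lit 9) (nat_lit 4) (nat_lit 335) (nat_lit 272) (nat_lit 113))) (XT.nd (nat_lit 78) (nat_lit 0) (nat_lit 0) (XT.lf (nat_lit 0) (nat_lit 75479595450) (nat_lit 76) (nat_lit 33104200722) (nat_lit 152) (nat_lit 76432101368) (nat_lit 7) (nat_lit 5) (nat_lit 8) (nat_lit 5) (nat_lit 9) (nat_lit 4) (nat_lit 336) (nat_lit 272) (nat_lit 112)) (XT.lf (nat_lit 0) (nat_lit 108500308336) (nat_lit 76) (nat_lit 16192544466) (nat_lit 152) (nat_lit 68638102616) (nat_lit 7) (nat_lit 5) (nat_lit 8) (nat_lit 5) (nat_lit 9) (nat_lit 4) (nat_lit 337) (nat_lit 272) (nat_lit 111)))))))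
noncomputable def xc175 : XT := (XT.nd (nat_lit 33072) (nat_lit 0) (nat_lit 2052) (XT.nd (nat_lit 32448) (nat_lit 0) (nat_lit 4028) (XT.nd (nat_lit 312) (nat_lit 76) (nat_lit 0) (XT.nd (nat_lit 156) (nat_lit 76) (nat_lit 0) (XT.nd (nat_lit 78) (nat_lit 0) (nat_lit 0) (XT.lf (nat_lit 0) (nat_lit 141631111611) (nat_lit 152) (nat_lit 58915269107) (nat_lit 0) (nat_lit 1514199946) (nat_lit 7) (nat_lit 5) (nat_lit 9) (nat_lit 4) (nat_lit 7) (nat_lit 4) (nat_lit 338) (nat_lit 272) (nat_lit 110)) (XT.lf (nat_lit 0) (nat_lit 159681087366) (nat_lit 152) (nat_lit 31970650461) (nat_lit 0) (nat_lit 19561710994) (nat_lit 7) (nat_lit 5) (nat_lit 9) (nat_lit 4) (nat_lit 7) (nat_lit 4) (nat_lit 339) (nat_lit 272) (nat_lit 109))) (XT.nd (nat_lit 78) (nat_lit 76) (nat_lit 0) (XT.lf (nat_lit 0) (nat_lit 178632945200) (nat_lit 152) (nat_lit 3679826291) (nat_lit 0) (nat_lit 38511221489) (nat_lit 7) (nat_lit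 5) (nat_lit 9) (nat_lit 4) (nat_lit 7) (nat_lit 4) (nat_lit 340) (nat_lit 272) (nat_lit 108)) (XT.lf (nat_lit 0) (nat_lit 26885052071) (nat_lit 76) (nat_lit 172066507522) (nat_lit 76) (nat_lit 31942548250) (nat_lit 6) (nat_lit 4) (nat_lit 7) (nat_lit 5) (nat_lit 7) (nat_lit 4) (nat_lit 341) (nat_lit 272) (nat_lit 107)))) (XT.nd (nat_lit 156) (nat_lit 76) (nat_lit 0) (XT.nd (nat_lit 78) (nat_lit 0) (nat_lit 0) (XT.lf (nat_lit 0) (nat_lit 59104968784) (nat_lit 76) (nat_lit 161242881188) (nat_lit 76) (nat_lit 21116792810) (nat_lit 6) (nat_lit 4) (nat_lit 7) (nat_lit 5) (nat_lit 7) (nat_lit 4) (nat_lit 342) (nat_lit 272) (nat_lit 106)) (XT.lf (nat_lit 0) (nat_lit 92934966257) (nat_lit 76) (nat_lit 149878441591) (nat_lit 76) (nat_lit 9750325492) (nat_lit 6) (nat_lit 4) (nat_lit 7) (nat_lit 5) (nat_lit 7) (nat_lit 4) (nat_lit 343) (nat_lit 272) (nat_lit 105))) (XT.nd (nat_lit 78) (nat_lit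 0) (nat_lit 0) (XT.lf (nat_lit 0) (nat_lit 2114017746) (nat_lit 152) (nat_lit 135796310880) (nat_lit 76) (nat_lit 126305772443) (nat_lit 5) (nat_lit 5) (nat_lit 7) (nat_lit 5) (nat_lit 6) (nat_lit 4) (nat_lit 344) (nat_lit 272) (nat_lit 104)) (XT.lf (nat_lit 0) (nat_lit 14243397640) (nat_lit 152) (nat_lit 110932921300) (nat_lit 76) (nat_lit 151266802770) (nat_lit 5) (nat_lit 5) (nat_lit 7) (nat_lit 5) (nat_lit 6) (nat_lit 4) (nat_lit 345) (nat_lit 272) (nat_lit 103))))) (XT.nd (nat_lit 312) (nat_lit 0) (nat_lit 76) (XT.nd (nat_lit 156) (nat_lit 0) (nat_lit 0) (XT.nd (nat_lit 78) (nat_lit 0) (nat_lit 0) (XT.lf (nat_lit 0) (nat_lit 7674695513) (nat_lit 684) (nat_lit 1356731486) (nat_lit 684) (nat_lit 1356731486) (nat_lit 58) (nat_lit 3) (nat_lit 67) (nat_lit 3) (nat_lit 67) (nat_lit 5) (nat_lit 273) (nat_lit 273) (nat_lit 174)) (XT.lf (nat_lit 76) (nat_lit 5494580511) (nat_lit 0) (nat_lit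 10453648577) (nat_lit 684) (nat_lit 5335943685) (nat_lit 59) (nat_lit 5) (nat_lit 58) (nat_lit 3) (nat_lit 67) (nat_lit 5) (nat_lit 274) (nat_lit 273) (nat_lit 173))) (XT.nd (nat_lit 78) (nat_lit 0) (nat_lit 76) (XT.lf (nat_lit 76) (nat_lit 14202715515) (nat_lit 0) (nat_lit 2411898908) (nat_lit 684) (nat_lit 5200977693) (nat_lit 59) (nat_lit 5) (nat_lit 58) (nat_lit 3) (nat_lit 67) (nat_lit 5) (nat_lit 275) (nat_lit 273) (nat_lit 172)) (XT.lf (nat_lit 76) (nat_lit 902583664) (nat_lit 0) (nat_lit 16512108770) (nat_lit 684) (nat_lit 4953919905) (nat_lit 60) (nat_lit 5) (nat_lit 59) (nat_lit 5) (nat_lit 68) (nat_lit 5) (nat_lit 276) (nat_lit 273) (nat_lit 171)))) (XT.nd (nat_lit 156) (nat_lit 0) (nat_lit 76) (XT.nd (nat_lit 78) (nat_lit 0) (nat_lit 76) (XT.lf (nat_lit 76) (nat_lit 10062545604) (nat_lit 0) (nat_lit 8352466282) (nat_lit 684) (nat_lit 4526306082) (nat_lit 60) (nat_lit 5)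 (nat_lit 59) (nat_lit 5) (nat_lit 68) (nat_lit 5) (nat_lit 277) (nat_lit 273) (nat_lit 170)) (XT.lf (nat_lit 0) (nat_lit 19461518851) (nat_lit 608) (nat_lit 3870462127) (nat_lit 684) (nat_lit 210913394) (nat_lit 60) (nat_lit 5) (nat_lit 68) (nat_lit 5) (nat_lit 69) (nat_lit 5) (nat_lit 278) (nat_lit 273) (nat_lit 169))) (XT.nd (nat_lit 78) (nat_lit 0) (nat_lit 0) (XT.lf (nat_lit 76) (nat_lit 5626713968) (nat_lit 0) (nat_lit 15151566232) (nat_lit 684) (nat_lit 3385414915) (nat_lit 61) (nat_lit 5) (nat_lit 60) (nat_lit 5) (nat_lit 69) (nat_lit 5) (nat_lit 279) (nat_lit 273) (nat_lit 168)) (XT.lf (nat_lit 76) (nat_lit 15728484640) (nat_lit 0) (nat_lit 6491351270) (nat_lit 684) (nat_lit 2592792140) (nat_lit 61) (nat_lit 5) (nat_lit 60) (nat_lit 5) (nat_lit 69) (nat_lit 5) (nat_lit 280) (nat_lit 273) (nat_lit 167)))))) (XT.nd (nat_lit 624) (nat_lit 1140) (nat_lit 0) (XT.nd (nat_lit 312)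 (nat_lit 380) (nat_lit 0) (XT.nd (nat_lit 156) (nat_lit 684) (nat_lit 0) (XT.nd (nat_lit 78) (nat_lit 0) (nat_lit 0) (XT.lf (nat_lit 76) (nat_lit 822232124) (nat_lit 0) (nat_lit 22958448280) (nat_lit 684) (nat_lit 1711004747) (nat_lit 62) (nat_lit 5) (nat_lit 61) (nat_lit 5) (nat_lit 70) (nat_lit 5) (nat_lit 281) (nat_lit 273) (nat_lit 166)) (XT.lf (nat_lit 76) (nat_lit 11424652499) (nat_lit 0) (nat_lit 14247433164) (nat_lit 684) (nat_lit 520019774) (nat_lit 62) (nat_lit 5) (nat_lit 61) (nat_lit 5) (nat_lit 70) (nat_lit 5) (nat_lit 282) (nat_lit 273) (nat_lit 165))) (XT.nd (nat_lit 78) (nat_lit 0) (nat_lit 76) (XT.lf (nat_lit 0) (nat_lit 701267799) (nat_lit 684) (nat_lit 4386480964) (nat_lit 760) (nat_lit 21839553870) (nat_lit 52) (nat_lit 5) (nat_lit 61) (nat_lit 5) (nat_lit 62) (nat_lit 5) (nat_lit 283) (nat_lit 273) (nat_lit 164)) (XT.lf (nat_lit 0) (nat_lit 2138004708) (nat_lit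 684) (nat_lit 21051048733) (nat_lit 76) (nat_lit 4501218268) (nat_lit 53) (nat_lit 5) (nat_lit 62) (nat_lit 5) (nat_lit 54) (nat_lit 5) (nat_lit 284) (nat_lit 273) (nat_lit 163)))) (XT.nd (nat_lit 156) (nat_lit 0) (nat_lit 0) (XT.nd (nat_lit 78) (nat_lit 456) (nat_lit 0) (XT.lf (nat_lit 0) (nat_lit 3800114848) (nat_lit 684) (nat_lit 10208537245) (nat_lit 76) (nat_lit 14475090156) (nat_lit 53) (nat_lit 5) (nat_lit 62) (nat_lit 5) (nat_lit 54) (nat_lit 5) (nat_lit 285) (nat_lit 273) (nat_lit 162)) (XT.lf (nat_lit 0) (nat_lit 1210323780) (nat_lit 456) (nat_lit 4348784847) (nat_lit 532) (nat_lit 23757117189) (nat_lit 47) (nat_lit 5) (nat_lit 53) (nat_lit 5) (nat_lit 54) (nat_lit 5) (nat_lit 286) (nat_lit 273) (nat_lit 161))) (XT.nd (nat_lit 78) (nat_lit 0) (nat_lit 0) (XT.lf (nat_lit 0) (nat_lit 7667298414) (nat_lit 532) (nat_lit 16725163239) (nat_lit 76) (nat_lit 5784836648) (nat_lit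 47) (nat_lit 5) (nat_lit 54) (nat_lit 5) (nat_lit 48) (nat_lit 5) (nat_lit 287) (nat_lit 273) (nat_lit 160)) (XT.lf (nat_lit 0) (nat_lit 9947488134) (nat_lit 532) (nat_lit 4851177395) (nat_lit 76) (nat_lit 16279455124) (nat_lit 47) (nat_lit 5) (nat_lit 54) (nat_lit 5) (nat_lit 48) (nat_lit 5) (nat_lit 288) (nat_lit 273) (nat_lit 159))))) (XT.nd (nat_lit 312) (nat_lit 532) (nat_lit 0) (XT.nd (nat_lit 156) (nat_lit 304) (nat_lit 0) (XT.nd (nat_lit 78) (nat_lit 0) (nat_lit 0) (XT.lf (nat_lit 0) (nat_lit 7863918098) (nat_lit 304) (nat_lit 4596069792) (nat_lit 380) (nat_lit 19558105743) (nat_lit 43) (nat_lit 5) (nat_lit 47) (nat_lit 5) (nat_lit 48) (nat_lit 5) (nat_lit 289) (nat_lit 273) (nat_lit 158)) (XT.lf (nat_lit 0) (nat_lit 15272786585) (nat_lit 380) (nat_lit 11719068785) (nat_lit 76) (nat_lit 6004499566) (nat_lit 43) (nat_lit 5) (nat_lit 48) (nat_lit 5) (nat_lit 44) (nat_lit 5)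 (nat_lit 290) (nat_lit 273) (nat_lit 157))) (XT.nd (nat_lit 78) (nat_lit 0) (nat_lit 0) (XT.lf (nat_lit 0) (nat_lit 1299805317) (nat_lit 304) (nat_lit 17017936943) (nat_lit 380) (nat_lit 15701233450) (nat_lit 39) (nat_lit 5) (nat_lit 43) (nat_lit 5) (nat_lit 44) (nat_lit 5) (nat_lit 291) (nat_lit 273) (nat_lit 156)) (XT.lf (nat_lit 0) (nat_lit 15372306724) (nat_lit 304) (nat_lit 6337116217) (nat_lit 380) (nat_lit 13373601919) (nat_lit 39) (nat_lit 5) (nat_lit 43) (nat_lit 5) (nat_lit 44) (nat_lit 5) (nat_lit 292) (nat_lit 273) (nat_lit 155)))) (XT.nd (nat_lit 156) (nat_lit 304) (nat_lit 0) (XT.nd (nat_lit 78) (nat_lit 228) (nat_lit 0) (XT.lf (nat_lit 0) (nat_lit 25343039344) (nat_lit 380) (nat_lit 6132183171) (nat_lit 76) (nat_lit 4721456555) (nat_lit 39) (nat_lit 5) (nat_lit 44) (nat_lit 5) (nat_lit 40) (nat_lit 5) (nat_lit 293) (nat_lit 273) (nat_lit 154)) (XT.lf (nat_lit 0) (nat_lit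 8282497682) (nat_lit 228) (nat_lit 21105416570) (nat_lit 304) (nat_lit 7966642083) (nat_lit 36) (nat_lit 5) (nat_lit 39) (nat_lit 5) (nat_lit 40) (nat_lit 5) (nat_lit 294) (nat_lit 273) (nat_lit 153))) (XT.nd (nat_lit 78) (nat_lit 304) (nat_lit 0) (XT.lf (nat_lit 0) (nat_lit 23626887052) (nat_lit 228) (nat_lit 10108486156) (nat_lit 304) (nat_lit 4829955551) (nat_lit 36) (nat_lit 5) (nat_lit 39) (nat_lit 5) (nat_lit 40) (nat_lit 5) (nat_lit 295) (nat_lit 273) (nat_lit 152)) (XT.nd (nat_lit 78) (nat_lit 304) (nat_lit 0) (XT.lf (nat_lit 0) (nat_lit 38319310779) (nat_lit 304) (nat_lit 124512568) (nat_lit 76) (nat_lit 1391878612) (nat_lit 36) (nat_lit 5) (nat_lit 40) (nat_lit 5) (nat_lit 37) (nat_lit 5) (nat_lit 296) (nat_lit 273) (nat_lit 151)) (XT.lf (nat_lit 0) (nat_lit 2315373436) (nat_lit 304) (nat_lit 25421261702) (nat_lit 76) (nat_lit 13410674944) (nat_lit 32) (nat_lit 5) (nat_lit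 36) (nat_lit 5) (nat_lit 33) (nat_lit 5) (nat_lit 297) (nat_lit 273) (nat_lit 150))))))))
noncomputable def xc176 : XT := (XT.nd (nat_lit 2496) (nat_lit 304) (nat_lit 0) (XT.nd (nat_lit 1248) (nat_lit 608) (nat_lit 0) (XT.nd (nat_lit 624) (nat_lit 456) (nat_lit 0) (XT.nd (nat_lit 312) (nat_lit 380) (nat_lit 0) (XT.nd (nat_lit 156) (nat_lit 0) (nat_lit 0) (XT.nd (nat_lit 78) (nat_lit 228) (nat_lit 0) (XT.lf (nat_lit 0) (nat_lit 6286746915) (nat_lit 304) (nat_lit 10179612528) (nat_lit 76) (nat_lit 26056962223) (nat_lit 32) (nat_lit 5) (nat_lit 36) (nat_lit 5) (nat_lit 33) (nat_lit 5) (nat_lit 298) (nat_lit 273) (nat_lit 149)) (XT.lf (nat_lit 0) (nat_lit 6012965767) (nat_lit 228) (nat_lit 4534591184) (nat_lit 304) (nat_lit 33416047830) (nat_lit 29) (nat_lit 5) (nat_lit 32) (nat_lit 5) (nat_lit 33) (nat_lit 5) (nat_lit 299) (nat_lit 273) (nat_lit 148))) (XT.nd (nat_lit 78) (nat_lit 0)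 (nat_lit 0) (XT.lf (nat_lit 0) (nat_lit 15318502310) (nat_lit 304) (nat_lit 22230025059) (nat_lit 76) (nat_lit 7912533607) (nat_lit 29) (nat_lit 5) (nat_lit 33) (nat_lit 5) (nat_lit 30) (nat_lit 5) (nat_lit 300) (nat_lit 273) (nat_lit 147)) (XT.lf (nat_lit 0) (nat_lit 20399539069) (nat_lit 304) (nat_lit 5801239605) (nat_lit 76) (nat_lit 20829047115) (nat_lit 29) (nat_lit 5) (nat_lit 33) (nat_lit 5) (nat_lit 30) (nat_lit 5) (nat_lit 301) (nat_lit 273) (nat_lit 146)))) (XT.nd (nat_lit 156) (nat_lit 152) (nat_lit 0) (XT.nd (nat_lit 78) (nat_lit 0) (nat_lit 0) (XT.lf (nat_lit 0) (nat_lit 11824075436) (nat_lit 228) (nat_lit 14092498775) (nat_lit 304) (nat_lit 22751369697) (nat_lit 26) (nat_lit 5) (nat_lit 29) (nat_lit 5) (nat_lit 30) (nat_lit 5) (nat_lit 302) (nat_lit 273) (nat_lit 145)) (XT.lf (nat_lit 0) (nat_lit 30528762324) (nat_lit 228) (nat_lit 1276360344) (nat_lit 304) (nat_lit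 18578073991) (nat_lit 26) (nat_lit 5) (nat_lit 29) (nat_lit 5) (nat_lit 30) (nat_lit 5) (nat_lit 303) (nat_lit 273) (nat_lit 144))) (XT.nd (nat_lit 78) (nat_lit 152) (nat_lit 0) (XT.lf (nat_lit 0) (nat_lit 38175798855) (nat_lit 304) (nat_lit 2208967993) (nat_lit 76) (nat_lit 11790071425) (nat_lit 26) (nat_lit 5) (nat_lit 30) (nat_lit 5) (nat_lit 27) (nat_lit 5) (nat_lit 304) (nat_lit 273) (nat_lit 143)) (XT.lf (nat_lit 0) (nat_lit 16833514426) (nat_lit 152) (nat_lit 28312881691) (nat_lit 228) (nat_lit 8895607195) (nat_lit 24) (nat_lit 5) (nat_lit 26) (nat_lit 5) (nat_lit 27) (nat_lit 5) (nat_lit 305) (nat_lit 273) (nat_lit 142))))) (XT.nd (nat_lit 312) (nat_lit 152) (nat_lit 0) (XT.nd (nat_lit 156) (nat_lit 228) (nat_lit 0) (XT.nd (nat_lit 78) (nat_lit 76) (nat_lit 0) (XT.lf (nat_lit 0) (nat_lit 36901750635) (nat_lit 152) (nat_lit 15598891896) (nat_lit 228) (nat_lit 3500138304) (nat_lit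 24) (nat_lit 5) (nat_lit 26) (nat_lit 5) (nat_lit 27) (nat_lit 5) (nat_lit 306) (nat_lit 273) (nat_lit 141)) (XT.lf (nat_lit 0) (nat_lit 2093580441) (nat_lit 228) (nat_lit 120899762) (nat_lit 76) (nat_lit 55841447449) (nat_lit 23) (nat_lit 5) (nat_lit 26) (nat_lit 5) (nat_lit 24) (nat_lit 5) (nat_lit 307) (nat_lit 273) (nat_lit 140))) (XT.nd (nat_lit 78) (nat_lit 0) (nat_lit 0) (XT.lf (nat_lit 0) (nat_lit 8356711670) (nat_lit 304) (nat_lit 39987354598) (nat_lit 76) (nat_lit 11841537678) (nat_lit 20) (nat_lit 5) (nat_lit 24) (nat_lit 5) (nat_lit 21) (nat_lit 5) (nat_lit 308) (nat_lit 273) (nat_lit 139)) (XT.lf (nat_lit 0) (nat_lit 14969308263) (nat_lit 304) (nat_lit 20923353881) (nat_lit 76) (nat_lit 26527294858) (nat_lit 20) (nat_lit 5) (nat_lit 24) (nat_lit 5) (nat_lit 21) (nat_lit 5) (nat_lit 309) (nat_lit 273) (nat_lit 138)))) (XT.nd (nat_lit 156) (nat_lit 0) (nat_lit 0) (XT.nd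 (nat_lit 78) (nat_lit 152) (nat_lit 0) (XT.lf (nat_lit 0) (nat_lit 21910558292) (nat_lit 304) (nat_lit 908923571) (nat_lit 76) (nat_lit 41946652658) (nat_lit 20) (nat_lit 5) (nat_lit 24) (nat_lit 5) (nat_lit 21) (nat_lit 5) (nat_lit 310) (nat_lit 273) (nat_lit 137)) (XT.lf (nat_lit 0) (nat_lit 20768305205) (nat_lit 152) (nat_lit 8752934784) (nat_lit 228) (nat_lit 37692270076) (nat_lit 18) (nat_lit 5) (nat_lit 20) (nat_lit 5) (nat_lit 21) (nat_lit 5) (nat_lit 311) (nat_lit 273) (nat_lit 136))) (XT.nd (nat_lit 78) (nat_lit 0) (nat_lit 0) (XT.lf (nat_lit 0) (nat_lit 37620197383) (nat_lit 228) (nat_lit 26318410130) (nat_lit 76) (nat_lit 5839267040) (nat_lit 18) (nat_lit 5) (nat_lit 21) (nat_lit 5) (nat_lit 19) (nat_lit 5) (nat_lit 312) (nat_lit 273) (nat_lit 135)) (XT.lf (nat_lit 0) (nat_lit 46265836155) (nat_lit 228) (nat_lit 5331321594) (nat_lit 76) (nat_lit 20866219742) (nat_lit 18)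 (nat_lit 5) (nat_lit 21) (nat_lit 5) (nat_lit 19) (nat_lit 5) (nat_lit 313) (nat_lit 273) (nat_lit 134)))))) (XT.nd (nat_lit 624) (nat_lit 152) (nat_lit 0) (XT.nd (nat_lit 312) (nat_lit 152) (nat_lit 0) (XT.nd (nat_lit 156) (nat_lit 152) (nat_lit 0) (XT.nd (nat_lit 78) (nat_lit 0) (nat_lit 0) (XT.lf (nat_lit 0) (nat_lit 17254954141) (nat_lit 152) (nat_lit 38356527367) (nat_lit 228) (nat_lit 19658294408) (nat_lit 16) (nat_lit 5) (nat_lit 18) (nat_lit 5) (nat_lit 19) (nat_lit 5) (nat_lit 314) (nat_lit 273) (nat_lit 133)) (XT.lf (nat_lit 0) (nat_lit 41153240841) (nat_lit 152) (nat_lit 24359825563) (nat_lit 228) (nat_lit 12699001255) (nat_lit 16) (nat_lit 5) (nat_lit 18) (nat_lit 5) (nat_lit 19) (nat_lit 5) (nat_lit 315) (nat_lit 273) (nat_lit 132))) (XT.nd (nat_lit 78) (nat_lit 152) (nat_lit 0) (XT.lf (nat_lit 0) (nat_lit 66244161620) (nat_lit 152) (nat_lit 9664015367) (nat_lit 228)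 (nat_lit 5393380642) (nat_lit 16) (nat_lit 5) (nat_lit 18) (nat_lit 5) (nat_lit 19) (nat_lit 5) (nat_lit 316) (nat_lit 273) (nat_lit 131)) (XT.lf (nat_lit 0) (nat_lit 2424972215) (nat_lit 152) (nat_lit 76359043579) (nat_lit 76) (nat_lit 5748716482) (nat_lit 14) (nat_lit 5) (nat_lit 16) (nat_lit 5) (nat_lit 15) (nat_lit 5) (nat_lit 317) (nat_lit 273) (nat_lit 130)))) (XT.nd (nat_lit 156) (nat_lit 152) (nat_lit 0) (XT.nd (nat_lit 78) (nat_lit 0) (nat_lit 0) (XT.lf (nat_lit 0) (nat_lit 10869118029) (nat_lit 152) (nat_lit 55076910534) (nat_lit 76) (nat_lit 21954215024) (nat_lit 14) (nat_lit 5) (nat_lit 16) (nat_lit 5) (nat_lit 15) (nat_lit 5) (nat_lit 318) (nat_lit 273) (nat_lit 129)) (XT.lf (nat_lit 0) (nat_lit 19734058849) (nat_lit 152) (nat_lit 32732821853) (nat_lit 76) (nat_lit 38969325279) (nat_lit 14) (nat_lit 5) (nat_lit 16) (nat_lit 5) (nat_lit 15) (nat_lit 5) (nat_lit 319) (nat_lit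 273) (nat_lit 128))) (XT.nd (nat_lit 78) (nat_lit 152) (nat_lit 0) (XT.lf (nat_lit 0) (nat_lit 29040901677) (nat_lit 152) (nat_lit 9273577327) (nat_lit 76) (nat_lit 56834559415) (nat_lit 14) (nat_lit 5) (nat_lit 16) (nat_lit 5) (nat_lit 15) (nat_lit 5) (nat_lit 320) (nat_lit 273) (nat_lit 127)) (XT.lf (nat_lit 0) (nat_lit 15864439529) (nat_lit 152) (nat_lit 23195054495) (nat_lit 228) (nat_lit 59975702535) (nat_lit 12) (nat_lit 5) (nat_lit 14) (nat_lit 5) (nat_lit 15) (nat_lit 5) (nat_lit 321) (nat_lit 273) (nat_lit 126))))) (XT.nd (nat_lit 312) (nat_lit 76) (nat_lit 0) (XT.nd (nat_lit 156) (nat_lit 76) (nat_lit 0) (XT.nd (nat_lit 78) (nat_lit 0) (nat_lit 0) (XT.lf (nat_lit 0) (nat_lit 42579395326) (nat_lit 152) (nat_lit 7155423228) (nat_lit 228) (nat_lit 53373058160) (nat_lit 12) (nat_lit 5) (nat_lit 14) (nat_lit 5) (nat_lit 15) (nat_lit 5) (nat_lit 322) (nat_lit 273) (nat_lit 125))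 (XT.lf (nat_lit 0) (nat_lit 61093937488) (nat_lit 228) (nat_lit 36907202289) (nat_lit 76) (nat_lit 9375553726) (nat_lit 12) (nat_lit 5) (nat_lit 15) (nat_lit 5) (nat_lit 13) (nat_lit 4) (nat_lit 323) (nat_lit 273) (nat_lit 124))) (XT.nd (nat_lit 78) (nat_lit 76) (nat_lit 0) (XT.lf (nat_lit 0) (nat_lit 73137171159) (nat_lit 228) (nat_lit 12223953408) (nat_lit 76) (nat_lit 26492022469) (nat_lit 12) (nat_lit 5) (nat_lit 15) (nat_lit 5) (nat_lit 13) (nat_lit 4) (nat_lit 324) (nat_lit 273) (nat_lit 123)) (XT.lf (nat_lit 0) (nat_lit 14144462231) (nat_lit 76) (nat_lit 71857850190) (nat_lit 152) (nat_lit 30540127188) (nat_lit 11) (nat_lit 5) (nat_lit 12) (nat_lit 5) (nat_lit 13) (nat_lit 4) (nat_lit 325) (nat_lit 273) (nat_lit 122)))) (XT.nd (nat_lit 156) (nat_lit 76) (nat_lit 0) (XT.nd (nat_lit 78) (nat_lit 0) (nat_lit 0) (XT.lf (nat_lit 0) (nat_lit 42254007430) (nat_lit 76) (nat_lit 57462658722)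 (nat_lit 152) (nat_lit 21739236373) (nat_lit 11) (nat_lit 5) (nat_lit 12) (nat_lit 5) (nat_lit 13) (nat_lit 4) (nat_lit 326) (nat_lit 273) (nat_lit 121)) (XT.lf (nat_lit 0) (nat_lit 71767430573) (nat_lit 76) (nat_lit 42348294464) (nat_lit 152) (nat_lit 12499367498) (nat_lit 11) (nat_lit 5) (nat_lit 12) (nat_lit 5) (nat_lit 13) (nat_lit 4) (nat_lit 327) (nat_lit 273) (nat_lit 120))) (XT.nd (nat_lit 78) (nat_lit 76) (nat_lit 0) (XT.lf (nat_lit 0) (nat_lit 102755001715) (nat_lit 76) (nat_lit 26478770835) (nat_lit 152) (nat_lit 2798520873) (nat_lit 11) (nat_lit 5) (nat_lit 12) (nat_lit 5) (nat_lit 13) (nat_lit 4) (nat_lit 328) (nat_lit 273) (nat_lit 119)) (XT.lf (nat_lit 0) (nat_lit 7149989801) (nat_lit 152) (nat_lit 2545224916) (nat_lit 76) (nat_lit 128019422448) (nat_lit 10) (nat_lit 5) (nat_lit 12) (nat_lit 5) (nat_lit 11) (nat_lit 5) (nat_lit 329) (nat_lit 273) (nat_lit 118)))))))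 (XT.nd (nat_lit 33228) (nat_lit 0) (nat_lit 2812) (XT.nd (nat_lit 624) (nat_lit 76) (nat_lit 0) (XT.nd (nat_lit 312) (nat_lit 76) (nat_lit 0) (XT.nd (nat_lit 156) (nat_lit 0) (nat_lit 0) (XT.nd (nat_lit 78) (nat_lit 0) (nat_lit 0) (XT.lf (nat_lit 0) (nat_lit 18043142179) (nat_lit 228) (nat_lit 117471046385) (nat_lit 76) (nat_lit 8137555150) (nat_lit 8) (nat_lit 5) (nat_lit 11) (nat_lit 5) (nat_lit 9) (nat_lit 4) (nat_lit 330) (nat_lit 273) (nat_lit 117)) (XT.lf (nat_lit 0) (nat_lit 29682822223) (nat_lit 228) (nat_lit 93613343789) (nat_lit 76) (nat_lit 26579448678) (nat_lit 8) (nat_lit 5) (nat_lit 11) (nat_lit 5) (nat_lit 9) (nat_lit 4) (nat_lit 331) (nat_lit 273) (nat_lit 116))) (XT.nd (nat_lit 78) (nat_lit 0) (nat_lit 0) (XT.lf (nat_lit 0) (nat_lit 41903648985) (nat_lit 228) (nat_lit 68564117015) (nat_lit 76) (nat_lit 45942957555) (nat_lit 8) (nat_lit 5) (nat_lit 11) (nat_lit 5)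 (nat_lit 9) (nat_lit 4) (nat_lit 332) (nat_lit 273) (nat_lit 115)) (XT.lf (nat_lit 0) (nat_lit 54734719673) (nat_lit 228) (nat_lit 42263725047) (nat_lit 76) (nat_lit 66274185374) (nat_lit 8) (nat_lit 5) (nat_lit 11) (nat_lit 5) (nat_lit 9) (nat_lit 4) (nat_lit 333) (nat_lit 273) (nat_lit 114)))) (XT.nd (nat_lit 156) (nat_lit 0) (nat_lit 0) (XT.nd (nat_lit 78) (nat_lit 76) (nat_lit 0) (XT.lf (nat_lit 0) (nat_lit 68206584455) (nat_lit 228) (nat_lit 14649547904) (nat_lit 76) (nat_lit 87621539820) (nat_lit 8) (nat_lit 5) (nat_lit 11) (nat_lit 5) (nat_lit 9) (nat_lit 4) (nat_lit 334) (nat_lit 273) (nat_lit 113)) (XT.lf (nat_lit 0) (nat_lit 14818445246) (nat_lit 76) (nat_lit 67764231412) (nat_lit 152) (nat_lit 95448760141) (nat_lit 7) (nat_lit 5) (nat_lit 8) (nat_lit 5) (nat_lit 9) (nat_lit 4) (nat_lit 335) (nat_lit 273) (nat_lit 112))) (XT.nd (nat_lit 78) (nat_lit 0) (nat_lit 0) (XT.lf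 (nat_lit 0) (nat_lit 46267280598) (nat_lit 76) (nat_lit 51657683162) (nat_lit 152) (nat_lit 88025558415) (nat_lit 7) (nat_lit 5) (nat_lit 8) (nat_lit 5) (nat_lit 9) (nat_lit 4) (nat_lit 336) (nat_lit 273) (nat_lit 111)) (XT.lf (nat_lit 0) (nat_lit 79287456118) (nat_lit 76) (nat_lit 34746235865) (nat_lit 152) (nat_lit 80231905436) (nat_lit 7) (nat_lit 5) (nat_lit 8) (nat_lit 5) (nat_lit 9) (nat_lit 4) (nat_lit 337) (nat_lit 273) (nat_lit 110))))) (XT.nd (nat_lit 312) (nat_lit 76) (nat_lit 0) (XT.nd (nat_lit 156) (nat_lit 0) (nat_lit 0) (XT.nd (nat_lit 78) (nat_lit 0) (nat_lit 0) (XT.lf (nat_lit 0) (nat_lit 113957591272) (nat_lit 76) (nat_lit 16989624173) (nat_lit 152) (nat_lit 72049244890) (nat_lit 7) (nat_lit 5) (nat_lit 8) (nat_lit 5) (nat_lit 9) (nat_lit 4) (nat_lit 338) (nat_lit 273) (nat_lit 109)) (XT.lf (nat_lit 0) (nat_lit 148731634720) (nat_lit 152) (nat_lit 61829494970) (nat_lit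 0) (nat_lit 1601477484) (nat_lit 7) (nat_lit 5) (nat_lit 9) (nat_lit 4) (nat_lit 7) (nat_lit 4) (nat_lit 339) (nat_lit 273) (nat_lit 108))) (XT.nd (nat_lit 78) (nat_lit 0) (nat_lit 0) (XT.lf (nat_lit 0) (nat_lit 167683206047) (nat_lit 152) (nat_lit 33539147182) (nat_lit 0) (nat_lit 20550813250) (nat_lit 7) (nat_lit 5) (nat_lit 9) (nat_lit 4) (nat_lit 7) (nat_lit 4) (nat_lit 340) (nat_lit 273) (nat_lit 107)) (XT.lf (nat_lit 0) (nat_lit 187581796568) (nat_lit 152) (nat_lit 3835212081) (nat_lit 0) (nat_lit 40447274664) (nat_lit 7) (nat_lit 5) (nat_lit 9) (nat_lit 4) (nat_lit 7) (nat_lit 4) (nat_lit 341) (nat_lit 273) (nat_lit 106)))) (XT.nd (nat_lit 156) (nat_lit 0) (nat_lit 0) (XT.nd (nat_lit 78) (nat_lit 0) (nat_lit 0) (XT.lf (nat_lit 0) (nat_lit 28257448821) (nat_lit 76) (nat_lit 180658513026) (nat_lit 76) (nat_lit 33521963402) (nat_lit 6) (nat_lit 4) (nat_lit 7) (nat_lit 5) (nat_lit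 7) (nat_lit 4) (nat_lit 342) (nat_lit 273) (nat_lit 105)) (XT.lf (nat_lit 0) (nat_lit 62087021172) (nat_lit 76) (nat_lit 169294244416) (nat_lit 76) (nat_lit 22155763631) (nat_lit 6) (nat_lit 4) (nat_lit 7) (nat_lit 5) (nat_lit 7) (nat_lit 4) (nat_lit 343) (nat_lit 273) (nat_lit 104))) (XT.nd (nat_lit 32058) (nat_lit 0) (nat_lit 3952) (XT.lf (nat_lit 0) (nat_lit 97607242140) (nat_lit 76) (nat_lit 157362096212) (nat_lit 76) (nat_lit 10221776224) (nat_lit 6) (nat_lit 4) (nat_lit 7) (nat_lit 5) (nat_lit 7) (nat_lit 4) (nat_lit 344) (nat_lit 273) (nat_lit 103)) (XT.lf (nat_lit 0) (nat_lit 8185728767) (nat_lit 684) (nat_lit 1357344102) (nat_lit 684) (nat_lit 1357344102) (nat_lit 58) (nat_lit 3) (nat_lit 67) (nat_lit 3) (nat_lit 67) (nat_lit 5) (nat_lit 274) (nat_lit 274) (nat_lit 172)))))) (XT.nd (nat_lit 624) (nat_lit 1140) (nat_lit 0) (XT.nd (nat_lit 312) (nat_lit 0) (nat_lit 152) (XT.nd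 (nat_lit 156) (nat_lit 0) (nat_lit 76) (XT.nd (nat_lit 78) (nat_lit 0) (nat_lit 0) (XT.lf (nat_lit 76) (nat_lit 5901588938) (nat_lit 0) (nat_lit 11088590151) (nat_lit 684) (nat_lit 5344481086) (nat_lit 59) (nat_lit 5) (nat_lit 58) (nat_lit 3) (nat_lit 67) (nat_lit 5) (nat_lit 275) (nat_lit 274) (nat_lit 171)) (XT.lf (nat_lit 76) (nat_lit 15038831673) (nat_lit 0) (nat_lit 2639407324) (nat_lit 684) (nat_lit 5215064879) (nat_lit 59) (nat_lit 5) (nat_lit 58) (nat_lit 3) (nat_lit 67) (nat_lit 5) (nat_lit 276) (nat_lit 274) (nat_lit 170))) (XT.nd (nat_lit 78) (nat_lit 0) (nat_lit 0) (XT.lf (nat_lit 76) (nat_lit 1086160657) (nat_lit 0) (nat_lit 17421641895) (nat_lit 684) (nat_lit 4966766246) (nat_lit 60) (nat_lit 5) (nat_lit 59) (nat_lit 5) (nat_lit 68) (nat_lit 5) (nat_lit 277) (nat_lit 274) (nat_lit 169)) (XT.lf (nat_lit 76) (nat_lit 10697527942) (nat_lit 0) (nat_lit 8850020726) (nat_lit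 684) (nat_lit 4528955049) (nat_lit 60) (nat_lit 5) (nat_lit 59) (nat_lit 5) (nat_lit 68) (nat_lit 5) (nat_lit 278) (nat_lit 274) (nat_lit 168)))) (XT.nd (nat_lit 156) (nat_lit 0) (nat_lit 0) (XT.nd (nat_lit 78) (nat_lit 0) (nat_lit 0) (XT.lf (nat_lit 0) (nat_lit 20635107401) (nat_lit 608) (nat_lit 3925906036) (nat_lit 684) (nat_lit 147770651) (nat_lit 60) (nat_lit 5) (nat_lit 68) (nat_lit 5) (nat_lit 69) (nat_lit 5) (nat_lit 279) (nat_lit 274) (nat_lit 167)) (XT.lf (nat_lit 76) (nat_lit 6043901779) (nat_lit 0) (nat_lit 15966377850) (nat_lit 684) (nat_lit 3350775139) (nat_lit 61) (nat_lit 5) (nat_lit 60) (nat_lit 5) (nat_lit 69) (nat_lit 5) (nat_lit 280) (nat_lit 274) (nat_lit 166))) (XT.nd (nat_lit 78) (nat_lit 0) (nat_lit 76) (XT.lf (nat_lit 76) (nat_lit 16644291837) (nat_lit 0) (nat_lit 6870426745) (nat_lit 684) (nat_lit 2528231250) (nat_lit 61) (nat_lit 5) (nat_lit 60) (nat_lit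 5) (nat_lit 69) (nat_lit 5) (nat_lit 281) (nat_lit 274) (nat_lit 165)) (XT.lf (nat_lit 76) (nat_lit 1001620505) (nat_lit 0) (nat_lit 24144576479) (nat_lit 684) (nat_lit 1610186319) (nat_lit 62) (nat_lit 5) (nat_lit 61) (nat_lit 5) (nat_lit 70) (nat_lit 5) (nat_lit 282) (nat_lit 274) (nat_lit 164))))) (XT.nd (nat_lit 312) (nat_lit 684) (nat_lit 0) (XT.nd (nat_lit 156) (nat_lit 0) (nat_lit 76) (XT.nd (nat_lit 78) (nat_lit 684) (nat_lit 0) (XT.lf (nat_lit 76) (nat_lit 12127577290) (nat_lit 0) (nat_lit 14996191283) (nat_lit 684) (nat_lit 368526795) (nat_lit 62) (nat_lit 5) (nat_lit 61) (nat_lit 5) (nat_lit 70) (nat_lit 5) (nat_lit 283) (nat_lit 274) (nat_lit 163)) (XT.lf (nat_lit 0) (nat_lit 899962667) (nat_lit 684) (nat_lit 4474056129) (nat_lit 760) (nat_lit 22890550018) (nat_lit 52) (nat_lit 5) (nat_lit 61) (nat_lit 5) (nat_lit 62) (nat_lit 5) (nat_lit 284) (nat_lit 274) (nat_lit 162)))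 (XT.nd (nat_lit 78) (nat_lit 0) (nat_lit 0) (XT.lf (nat_lit 0) (nat_lit 2402327343) (nat_lit 684) (nat_lit 21964769515) (nat_lit 76) (nat_lit 4698943625) (nat_lit 53) (nat_lit 5) (nat_lit 62) (nat_lit 5) (nat_lit 54) (nat_lit 5) (nat_lit 285) (nat_lit 274) (nat_lit 161)) (XT.lf (nat_lit 0) (nat_lit 4140046685) (nat_lit 684) (nat_lit 10586743484) (nat_lit 76) (nat_lit 15172810800) (nat_lit 53) (nat_lit 5) (nat_lit 62) (nat_lit 5) (nat_lit 54) (nat_lit 5) (nat_lit 286) (nat_lit 274) (nat_lit 160)))) (XT.nd (nat_lit 156) (nat_lit 304) (nat_lit 0) (XT.nd (nat_lit 78) (nat_lit 0) (nat_lit 0) (XT.lf (nat_lit 0) (nat_lit 1400928002) (nat_lit 456) (nat_lit 4580953852) (nat_lit 532) (nat_lit 24792121899) (nat_lit 47) (nat_lit 5) (nat_lit 53) (nat_lit 5) (nat_lit 54) (nat_lit 5) (nat_lit 287) (nat_lit 274) (nat_lit 159)) (XT.lf (nat_lit 0) (nat_lit 8188366023) (nat_lit 532) (nat_lit 17429658201)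 (nat_lit 76) (nat_lit 6060499129) (nat_lit 47) (nat_lit 5) (nat_lit 54) (nat_lit 5) (nat_lit 48) (nat_lit 5) (nat_lit 288) (nat_lit 274) (nat_lit 158))) (XT.nd (nat_lit 78) (nat_lit 304) (nat_lit 0) (XT.lf (nat_lit 0) (nat_lit 10576007957) (nat_lit 532) (nat_lit 4968247503) (nat_lit 76) (nat_lit 17080495165) (nat_lit 47) (nat_lit 5) (nat_lit 54) (nat_lit 5) (nat_lit 48) (nat_lit 5) (nat_lit 289) (nat_lit 274) (nat_lit 157)) (XT.lf (nat_lit 0) (nat_lit 8380578752) (nat_lit 304) (nat_lit 4829236561) (nat_lit 380) (nat_lit 20402157040) (nat_lit 43) (nat_lit 5) (nat_lit 47) (nat_lit 5) (nat_lit 48) (nat_lit 5) (nat_lit 290) (nat_lit 274) (nat_lit 156))))))))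
noncomputable def xc177 : XT := (XT.nd (nat_lit 1248) (nat_lit 912) (nat_lit 0) (XT.nd (nat_lit 624) (nat_lit 608) (nat_lit 0) (XT.nd (nat_lit 312) (nat_lit 532) (nat_lit 0) (XT.nd (nat_lit 156) (nat_lit 0) (nat_lit 0) (XT.nd (nat_lit 78) (nat_lit 304) (nat_lit 0) (XT.lf (nat_lit 0) (nat_lit 16157164503) (nat_lit 380) (nat_lit 12180695347) (nat_lit 76) (nat_lit 6301623942) (nat_lit 43) (nat_lit 5) (nat_lit 48) (nat_lit 5) (nat_lit 44) (nat_lit 5) (nat_lit 291) (nat_lit 274) (nat_lit 155)) (XT.lf (nat_lit 0) (nat_lit 1487117188) (nat_lit 304) (nat_lit 17863411100) (nat_lit 380) (nat_lit 16362930345) (nat_lit 39) (nat_lit 5) (nat_lit 43) (nat_lit 5) (nat_lit 44) (nat_lit 5) (nat_lit 292) (nat_lit 274) (nat_lit 154))) (XT.nd (nat_lit 78) (nat_lit 0) (nat_lit 0) (XT.lf (nat_lit 0) (nat_lit 16257418827) (nat_lit 304) (nat_lit 6648807561) (nat_lit 380) (nat_lit 13924791750) (nat_lit 39)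 (nat_lit 5) (nat_lit 43) (nat_lit 5) (nat_lit 44) (nat_lit 5) (nat_lit 293) (nat_lit 274) (nat_lit 153)) (XT.lf (nat_lit 0) (nat_lit 26716298866) (nat_lit 380) (nat_lit 6322055092) (nat_lit 76) (nat_lit 4962290499) (nat_lit 39) (nat_lit 5) (nat_lit 44) (nat_lit 5) (nat_lit 40) (nat_lit 5) (nat_lit 294) (nat_lit 274) (nat_lit 152)))) (XT.nd (nat_lit 156) (nat_lit 304) (nat_lit 0) (XT.nd (nat_lit 78) (nat_lit 0) (nat_lit 0) (XT.lf (nat_lit 0) (nat_lit 8811476945) (nat_lit 228) (nat_lit 22148681032) (nat_lit 304) (nat_lit 8256447403) (nat_lit 36) (nat_lit 5) (nat_lit 39) (nat_lit 5) (nat_lit 40) (nat_lit 5) (nat_lit 295) (nat_lit 274) (nat_lit 151)) (XT.lf (nat_lit 0) (nat_lit 24917616528) (nat_lit 228) (nat_lit 10602475828) (nat_lit 304) (nat_lit 4968094486) (nat_lit 36) (nat_lit 5) (nat_lit 39) (nat_lit 5) (nat_lit 40) (nat_lit 5) (nat_lit 296) (nat_lit 274) (nat_lit 150))) (XT.nd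 (nat_lit 78) (nat_lit 304) (nat_lit 0) (XT.lf (nat_lit 0) (nat_lit 40328732522) (nat_lit 304) (nat_lit 21581101) (nat_lit 76) (nat_lit 1472014120) (nat_lit 36) (nat_lit 5) (nat_lit 40) (nat_lit 5) (nat_lit 37) (nat_lit 5) (nat_lit 297) (nat_lit 274) (nat_lit 149)) (XT.lf (nat_lit 0) (nat_lit 2523759886) (nat_lit 304) (nat_lit 26581424654) (nat_lit 76) (nat_lit 14094418883) (nat_lit 32) (nat_lit 5) (nat_lit 36) (nat_lit 5) (nat_lit 33) (nat_lit 5) (nat_lit 298) (nat_lit 274) (nat_lit 148))))) (XT.nd (nat_lit 312) (nat_lit 380) (nat_lit 0) (XT.nd (nat_lit 156) (nat_lit 0) (nat_lit 0) (XT.nd (nat_lit 78) (nat_lit 228) (nat_lit 0) (XT.lf (nat_lit 0) (nat_lit 6689291668) (nat_lit 304) (nat_lit 10582973980) (nat_lit 76) (nat_lit 27372391469) (nat_lit 32) (nat_lit 5) (nat_lit 36) (nat_lit 5) (nat_lit 33) (nat_lit 5) (nat_lit 299) (nat_lit 274) (nat_lit 147)) (XT.lf (nat_lit 0) (nat_lit 6417529695)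 (nat_lit 228) (nat_lit 4743034573) (nat_lit 304) (nat_lit 34996539031) (nat_lit 29) (nat_lit 5) (nat_lit 32) (nat_lit 5) (nat_lit 33) (nat_lit 5) (nat_lit 300) (nat_lit 274) (nat_lit 146))) (XT.nd (nat_lit 78) (nat_lit 0) (nat_lit 0) (XT.lf (nat_lit 0) (nat_lit 16166251205) (nat_lit 304) (nat_lit 23238372157) (nat_lit 76) (nat_lit 8325018286) (nat_lit 29) (nat_lit 5) (nat_lit 33) (nat_lit 5) (nat_lit 30) (nat_lit 5) (nat_lit 301) (nat_lit 274) (nat_lit 145)) (XT.lf (nat_lit 0) (nat_lit 21497443430) (nat_lit 304) (nat_lit 5993059533) (nat_lit 76) (nat_lit 21886554707) (nat_lit 29) (nat_lit 5) (nat_lit 33) (nat_lit 5) (nat_lit 30) (nat_lit 5) (nat_lit 302) (nat_lit 274) (nat_lit 144)))) (XT.nd (nat_lit 156) (nat_lit 152) (nat_lit 0) (XT.nd (nat_lit 78) (nat_lit 0) (nat_lit 0) (XT.lf (nat_lit 0) (nat_lit 12511936711) (nat_lit 228) (nat_lit 14776191884) (nat_lit 304) (nat_lit 23809080475)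 (nat_lit 26) (nat_lit 5) (nat_lit 29) (nat_lit 5) (nat_lit 30) (nat_lit 5) (nat_lit 303) (nat_lit 274) (nat_lit 143)) (XT.lf (nat_lit 0) (nat_lit 32147255205) (nat_lit 228) (nat_lit 1320243286) (nat_lit 304) (nat_lit 19430922731) (nat_lit 26) (nat_lit 5) (nat_lit 29) (nat_lit 5) (nat_lit 30) (nat_lit 5) (nat_lit 304) (nat_lit 274) (nat_lit 142))) (XT.nd (nat_lit 78) (nat_lit 152) (nat_lit 0) (XT.lf (nat_lit 0) (nat_lit 40153570638) (nat_lit 304) (nat_lit 2228293733) (nat_lit 76) (nat_lit 12397953119) (nat_lit 26) (nat_lit 5) (nat_lit 30) (nat_lit 5) (nat_lit 27) (nat_lit 5) (nat_lit 305) (nat_lit 274) (nat_lit 141)) (XT.lf (nat_lit 0) (nat_lit 17764843086) (nat_lit 152) (nat_lit 29705969561) (nat_lit 228) (nat_lit 9269637323) (nat_lit 24) (nat_lit 5) (nat_lit 26) (nat_lit 5) (nat_lit 27) (nat_lit 5) (nat_lit 306) (nat_lit 274) (nat_lit 140)))))) (XT.nd (nat_lit 624) (nat_lit 456)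 (nat_lit 0) (XT.nd (nat_lit 312) (nat_lit 152) (nat_lit 0) (XT.nd (nat_lit 156) (nat_lit 228) (nat_lit 0) (XT.nd (nat_lit 78) (nat_lit 76) (nat_lit 0) (XT.lf (nat_lit 0) (nat_lit 38832221918) (nat_lit 152) (nat_lit 16357354381) (nat_lit 228) (nat_lit 3607764047) (nat_lit 24) (nat_lit 5) (nat_lit 26) (nat_lit 5) (nat_lit 27) (nat_lit 5) (nat_lit 307) (nat_lit 274) (nat_lit 139)) (XT.lf (nat_lit 0) (nat_lit 2260378087) (nat_lit 228) (nat_lit 43314965) (nat_lit 76) (nat_lit 58651667048) (nat_lit 23) (nat_lit 5) (nat_lit 26) (nat_lit 5) (nat_lit 24) (nat_lit 5) (nat_lit 308) (nat_lit 274) (nat_lit 138))) (XT.nd (nat_lit 78) (nat_lit 0) (nat_lit 0) (XT.lf (nat_lit 0) (nat_lit 8835333399) (nat_lit 304) (nat_lit 41901514347) (nat_lit 76) (nat_lit 12454751371) (nat_lit 20) (nat_lit 5) (nat_lit 24) (nat_lit 5) (nat_lit 21) (nat_lit 5) (nat_lit 309) (nat_lit 274) (nat_lit 137)) (XT.lf (nat_lit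 0) (nat_lit 15775665243) (nat_lit 304) (nat_lit 21888371118) (nat_lit 76) (nat_lit 27873789896) (nat_lit 20) (nat_lit 5) (nat_lit 24) (nat_lit 5) (nat_lit 21) (nat_lit 5) (nat_lit 310) (nat_lit 274) (nat_lit 136)))) (XT.nd (nat_lit 156) (nat_lit 0) (nat_lit 0) (XT.nd (nat_lit 78) (nat_lit 152) (nat_lit 0) (XT.lf (nat_lit 0) (nat_lit 23061221032) (nat_lit 304) (nat_lit 877083599) (nat_lit 76) (nat_lit 44063157000) (nat_lit 20) (nat_lit 5) (nat_lit 24) (nat_lit 5) (nat_lit 21) (nat_lit 5) (nat_lit 311) (nat_lit 274) (nat_lit 135)) (XT.lf (nat_lit 0) (nat_lit 21882760065) (nat_lit 152) (nat_lit 9168238474) (nat_lit 228) (nat_lit 39520289942) (nat_lit 18) (nat_lit 5) (nat_lit 20) (nat_lit 5) (nat_lit 21) (nat_lit 5) (nat_lit 312) (nat_lit 274) (nat_lit 134))) (XT.nd (nat_lit 78) (nat_lit 0) (nat_lit 0) (XT.lf (nat_lit 0) (nat_lit 39552679050) (nat_lit 228) (nat_lit 27559485066) (nat_lit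 76) (nat_lit 6151828422) (nat_lit 18) (nat_lit 5) (nat_lit 21) (nat_lit 5) (nat_lit 19) (nat_lit 5) (nat_lit 313) (nat_lit 274) (nat_lit 133)) (XT.lf (nat_lit 0) (nat_lit 48628148722) (nat_lit 228) (nat_lit 5526606177) (nat_lit 76) (nat_lit 21929147902) (nat_lit 18) (nat_lit 5) (nat_lit 21) (nat_lit 5) (nat_lit 19) (nat_lit 5) (nat_lit 314) (nat_lit 274) (nat_lit 132))))) (XT.nd (nat_lit 312) (nat_lit 152) (nat_lit 0) (XT.nd (nat_lit 156) (nat_lit 152) (nat_lit 0) (XT.nd (nat_lit 78) (nat_lit 0) (nat_lit 0) (XT.lf (nat_lit 0) (nat_lit 18187833642) (nat_lit 152) (nat_lit 40252003333) (nat_lit 228) (nat_lit 20590855310) (nat_lit 16) (nat_lit 5) (nat_lit 18) (nat_lit 5) (nat_lit 19) (nat_lit 5) (nat_lit 315) (nat_lit 274) (nat_lit 131)) (XT.lf (nat_lit 0) (nat_lit 43277695068) (nat_lit 152) (nat_lit 25556530743) (nat_lit 228) (nat_lit 13285995300) (nat_lit 16) (nat_lit 5) (nat_lit 18)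 (nat_lit 5) (nat_lit 19) (nat_lit 5) (nat_lit 316) (nat_lit 274) (nat_lit 130))) (XT.nd (nat_lit 78) (nat_lit 152) (nat_lit 0) (XT.lf (nat_lit 0) (nat_lit 69619981306) (nat_lit 152) (nat_lit 10126943661) (nat_lit 228) (nat_lit 5617377276) (nat_lit 16) (nat_lit 5) (nat_lit 18) (nat_lit 5) (nat_lit 19) (nat_lit 5) (nat_lit 317) (nat_lit 274) (nat_lit 129)) (XT.lf (nat_lit 0) (nat_lit 2589657178) (nat_lit 152) (nat_lit 80110838866) (nat_lit 76) (nat_lit 6056550178) (nat_lit 14) (nat_lit 5) (nat_lit 16) (nat_lit 5) (nat_lit 15) (nat_lit 5) (nat_lit 318) (nat_lit 274) (nat_lit 128)))) (XT.nd (nat_lit 156) (nat_lit 152) (nat_lit 0) (XT.nd (nat_lit 78) (nat_lit 0) (nat_lit 0) (XT.lf (nat_lit 0) (nat_lit 11453941885) (nat_lit 152) (nat_lit 57767749496) (nat_lit 76) (nat_lit 23071352320) (nat_lit 14) (nat_lit 5) (nat_lit 16) (nat_lit 5) (nat_lit 15) (nat_lit 5) (nat_lit 319) (nat_lit 274)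 (nat_lit 127)) (XT.lf (nat_lit 0) (nat_lit 20760159843) (nat_lit 152) (nat_lit 34309456695) (nat_lit 76) (nat_lit 40936293015) (nat_lit 14) (nat_lit 5) (nat_lit 16) (nat_lit 5) (nat_lit 15) (nat_lit 5) (nat_lit 320) (nat_lit 274) (nat_lit 126))) (XT.nd (nat_lit 78) (nat_lit 152) (nat_lit 0) (XT.lf (nat_lit 0) (nat_lit 30530468715) (nat_lit 152) (nat_lit 9680107382) (nat_lit 76) (nat_lit 59693907835) (nat_lit 14) (nat_lit 5) (nat_lit 16) (nat_lit 5) (nat_lit 15) (nat_lit 5) (nat_lit 321) (nat_lit 274) (nat_lit 125)) (XT.lf (nat_lit 0) (nat_lit 16713888562) (nat_lit 152) (nat_lit 24335193221) (nat_lit 228) (nat_lit 62935919848) (nat_lit 12) (nat_lit 5) (nat_lit 14) (nat_lit 5) (nat_lit 15) (nat_lit 5) (nat_lit 322) (nat_lit 274) (nat_lit 124)))))))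
noncomputable def xc178 : XT := (XT.nd (nat_lit 1248) (nat_lit 76) (nat_lit 0) (XT.nd (nat_lit 624) (nat_lit 228) (nat_lit 0) (XT.nd (nat_lit 312) (nat_lit 76) (nat_lit 0) (XT.nd (nat_lit 156) (nat_lit 76) (nat_lit 0) (XT.nd (nat_lit 78) (nat_lit 0) (nat_lit 0) (XT.lf (nat_lit 0) (nat_lit 44761914670) (nat_lit 152) (nat_lit 7494514390) (nat_lit 228) (nat_lit 56004979817) (nat_lit 12) (nat_lit 5) (nat_lit 14) (nat_lit 5) (nat_lit 15) (nat_lit 5) (nat_lit 323) (nat_lit 274) (nat_lit 123)) (XT.lf (nat_lit 0) (nat_lit 64182121243) (nat_lit 228) (nat_lit 38700067544) (nat_lit 76) (nat_lit 9861552482) (nat_lit 12) (nat_lit 5) (nat_lit 15) (nat_lit 5) (nat_lit 13) (nat_lit 4) (nat_lit 324) (nat_lit 274) (nat_lit 122))) (XT.nd (nat_lit 78) (nat_lit 76) (nat_lit 0) (XT.lf (nat_lit 0) (nat_lit 76825921985) (nat_lit 228) (nat_lit 12785155973) (nat_lit 76) (nat_lit 27833024610) (nat_lit 12) (nat_lit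 5) (nat_lit 15) (nat_lit 5) (nat_lit 13) (nat_lit 4) (nat_lit 325) (nat_lit 274) (nat_lit 121)) (XT.lf (nat_lit 0) (nat_lit 14900874075) (nat_lit 76) (nat_lit 75432695529) (nat_lit 152) (nat_lit 32034332806) (nat_lit 11) (nat_lit 5) (nat_lit 12) (nat_lit 5) (nat_lit 13) (nat_lit 4) (nat_lit 326) (nat_lit 274) (nat_lit 120)))) (XT.nd (nat_lit 156) (nat_lit 76) (nat_lit 0) (XT.nd (nat_lit 78) (nat_lit 0) (nat_lit 0) (XT.lf (nat_lit 0) (nat_lit 44413554214) (nat_lit 76) (nat_lit 60318603877) (nat_lit 152) (nat_lit 22794959391) (nat_lit 11) (nat_lit 5) (nat_lit 12) (nat_lit 5) (nat_lit 13) (nat_lit 4) (nat_lit 327) (nat_lit 274) (nat_lit 119)) (XT.lf (nat_lit 0) (nat_lit 75400417732) (nat_lit 76) (nat_lit 44449339872) (nat_lit 152) (nat_lit 13094584634) (nat_lit 11) (nat_lit 5) (nat_lit 12) (nat_lit 5) (nat_lit 13) (nat_lit 4) (nat_lit 328) (nat_lit 274) (nat_lit 118))) (XT.nd (nat_lit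 78) (nat_lit 76) (nat_lit 0) (XT.lf (nat_lit 0) (nat_lit 107935242877) (nat_lit 76) (nat_lit 27787119553) (nat_lit 152) (nat_lit 2910112403) (nat_lit 11) (nat_lit 5) (nat_lit 12) (nat_lit 5) (nat_lit 13) (nat_lit 4) (nat_lit 329) (nat_lit 274) (nat_lit 117)) (XT.lf (nat_lit 0) (nat_lit 7533610845) (nat_lit 152) (nat_lit 2631074775) (nat_lit 76) (nat_lit 134434297326) (nat_lit 10) (nat_lit 5) (nat_lit 12) (nat_lit 5) (nat_lit 11) (nat_lit 5) (nat_lit 330) (nat_lit 274) (nat_lit 116))))) (XT.nd (nat_lit 312) (nat_lit 76) (nat_lit 0) (XT.nd (nat_lit 156) (nat_lit 0) (nat_lit 0) (XT.nd (nat_lit 78) (nat_lit 0) (nat_lit 0) (XT.lf (nat_lit 0) (nat_lit 18971050856) (nat_lit 228) (nat_lit 123302741142) (nat_lit 76) (nat_lit 8559175134) (nat_lit 8) (nat_lit 5) (nat_lit 11) (nat_lit 5) (nat_lit 9) (nat_lit 4) (nat_lit 331) (nat_lit 274) (nat_lit 115)) (XT.lf (nat_lit 0) (nat_lit 31191488637)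 (nat_lit 228) (nat_lit 98254146634) (nat_lit 76) (nat_lit 27922461328) (nat_lit 8) (nat_lit 5) (nat_lit 11) (nat_lit 5) (nat_lit 9) (nat_lit 4) (nat_lit 332) (nat_lit 274) (nat_lit 114))) (XT.nd (nat_lit 78) (nat_lit 0) (nat_lit 0) (XT.lf (nat_lit 0) (nat_lit 44022188866) (nat_lit 228) (nat_lit 71954356823) (nat_lit 76) (nat_lit 48253477067) (nat_lit 8) (nat_lit 5) (nat_lit 11) (nat_lit 5) (nat_lit 9) (nat_lit 4) (nat_lit 333) (nat_lit 274) (nat_lit 113)) (XT.lf (nat_lit 0) (nat_lit 57493700830) (nat_lit 228) (nat_lit 44340753163) (nat_lit 76) (nat_lit 69600629532) (nat_lit 8) (nat_lit 5) (nat_lit 11) (nat_lit 5) (nat_lit 9) (nat_lit 4) (nat_lit 334) (nat_lit 274) (nat_lit 112)))) (XT.nd (nat_lit 156) (nat_lit 0) (nat_lit 0) (XT.nd (nat_lit 78) (nat_lit 76) (nat_lit 0) (XT.lf (nat_lit 0) (nat_lit 71638099557) (nat_lit 228) (nat_lit 15347588979) (nat_lit 76) (nat_lit 92014745278) (nat_lit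 8) (nat_lit 5) (nat_lit 11) (nat_lit 5) (nat_lit 9) (nat_lit 4) (nat_lit 335) (nat_lit 274) (nat_lit 111)) (XT.lf (nat_lit 0) (nat_lit 15593248403) (nat_lit 76) (nat_lit 71139268091) (nat_lit 152) (nat_lit 100199397149) (nat_lit 7) (nat_lit 5) (nat_lit 8) (nat_lit 5) (nat_lit 9) (nat_lit 4) (nat_lit 336) (nat_lit 274) (nat_lit 110))) (XT.nd (nat_lit 78) (nat_lit 0) (nat_lit 0) (XT.lf (nat_lit 0) (nat_lit 48612912147) (nat_lit 76) (nat_lit 54228019803) (nat_lit 152) (nat_lit 92406073479) (nat_lit 7) (nat_lit 5) (nat_lit 8) (nat_lit 5) (nat_lit 9) (nat_lit 4) (nat_lit 337) (nat_lit 274) (nat_lit 109)) (XT.lf (nat_lit 0) (nat_lit 83282559895) (nat_lit 76) (nat_lit 36471597643) (nat_lit 152) (nat_lit 84223726559) (nat_lit 7) (nat_lit 5) (nat_lit 8) (nat_lit 5) (nat_lit 9) (nat_lit 4) (nat_lit 338) (nat_lit 274) (nat_lit 108)))))) (XT.nd (nat_lit 32682) (nat_lit 0) (nat_lit 3496) (XT.nd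 (nat_lit 312) (nat_lit 76) (nat_lit 0) (XT.nd (nat_lit 156) (nat_lit 0) (nat_lit 0) (XT.nd (nat_lit 78) (nat_lit 0) (nat_lit 0) (XT.lf (nat_lit 0) (nat_lit 119684738427) (nat_lit 76) (nat_lit 17827724414) (nat_lit 152) (nat_lit 75632874612) (nat_lit 7) (nat_lit 5) (nat_lit 8) (nat_lit 5) (nat_lit 9) (nat_lit 4) (nat_lit 339) (nat_lit 274) (nat_lit 107)) (XT.lf (nat_lit 0) (nat_lit 156185420564) (nat_lit 152) (nat_lit 64892364193) (nat_lit 0) (nat_lit 1692043459) (nat_lit 7) (nat_lit 5) (nat_lit 9) (nat_lit 4) (nat_lit 7) (nat_lit 4) (nat_lit 340) (nat_lit 274) (nat_lit 106))) (XT.nd (nat_lit 78) (nat_lit 0) (nat_lit 0) (XT.lf (nat_lit 0) (nat_lit 176083751214) (nat_lit 152) (nat_lit 35188861183) (nat_lit 0) (nat_lit 21588346389) (nat_lit 7) (nat_lit 5) (nat_lit 9) (nat_lit 4) (nat_lit 7) (nat_lit 4) (nat_lit 341) (nat_lit 274) (nat_lit 105)) (XT.lf (nat_lit 0) (nat_lit 196976491029)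 (nat_lit 152) (nat_lit 4001026630) (nat_lit 0) (nat_lit 42479155042) (nat_lit 7) (nat_lit 5) (nat_lit 9) (nat_lit 4) (nat_lit 7) (nat_lit 4) (nat_lit 342) (nat_lit 274) (nat_lit 104)))) (XT.nd (nat_lit 32214) (nat_lit 0) (nat_lit 3952) (XT.nd (nat_lit 78) (nat_lit 0) (nat_lit 0) (XT.lf (nat_lit 0) (nat_lit 29695848832) (nat_lit 76) (nat_lit 189681171219) (nat_lit 76) (nat_lit 35181996029) (nat_lit 6) (nat_lit 4) (nat_lit 7) (nat_lit 5) (nat_lit 7) (nat_lit 4) (nat_lit 343) (nat_lit 274) (nat_lit 103)) (XT.lf (nat_lit 0) (nat_lit 65215684202) (nat_lit 76) (nat_lit 177749178106) (nat_lit 76) (nat_lit 23248251296) (nat_lit 6) (nat_lit 4) (nat_lit 7) (nat_lit 5) (nat_lit 7) (nat_lit 4) (nat_lit 344) (nat_lit 274) (nat_lit 102))) (XT.nd (nat_lit 78) (nat_lit 0) (nat_lit 0) (XT.lf (nat_lit 0) (nat_lit 8710478679) (nat_lit 684) (nat_lit 1364237196) (nat_lit 684) (nat_lit 1364237196) (nat_lit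 58) (nat_lit 3) (nat_lit 67) (nat_lit 3) (nat_lit 67) (nat_lit 5) (nat_lit 275) (nat_lit 275) (nat_lit 170)) (XT.lf (nat_lit 76) (nat_lit 6316649702) (nat_lit 0) (nat_lit 11744842012) (nat_lit 684) (nat_lit 5377455904) (nat_lit 59) (nat_lit 5) (nat_lit 58) (nat_lit 3) (nat_lit 67) (nat_lit 5) (nat_lit 276) (nat_lit 275) (nat_lit 169))))) (XT.nd (nat_lit 312) (nat_lit 456) (nat_lit 0) (XT.nd (nat_lit 156) (nat_lit 0) (nat_lit 76) (XT.nd (nat_lit 78) (nat_lit 0) (nat_lit 76) (XT.lf (nat_lit 76) (nat_lit 15905041177) (nat_lit 0) (nat_lit 2868351360) (nat_lit 684) (nat_lit 5252723612) (nat_lit 59) (nat_lit 5) (nat_lit 58) (nat_lit 3) (nat_lit 67) (nat_lit 5) (nat_lit 277) (nat_lit 275) (nat_lit 168)) (XT.lf (nat_lit 76) (nat_lit 1266044935) (nat_lit 0) (nat_lit 18368848875) (nat_lit 684) (nat_lit 5002088999) (nat_lit 60) (nat_lit 5) (nat_lit 59) (nat_lit 5) (nat_lit 68) (nat_lit 5) (nat_lit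 278) (nat_lit 275) (nat_lit 167))) (XT.nd (nat_lit 78) (nat_lit 0) (nat_lit 76) (XT.lf (nat_lit 76) (nat_lit 11352000763) (nat_lit 0) (nat_lit 9365021653) (nat_lit 684) (nat_lit 4552530841) (nat_lit 60) (nat_lit 5) (nat_lit 59) (nat_lit 5) (nat_lit 68) (nat_lit 5) (nat_lit 279) (nat_lit 275) (nat_lit 166)) (XT.lf (nat_lit 0) (nat_lit 21848733617) (nat_lit 608) (nat_lit 3996959436) (nat_lit 684) (nat_lit 88321620) (nat_lit 60) (nat_lit 5) (nat_lit 68) (nat_lit 5) (nat_lit 69) (nat_lit 5) (nat_lit 280) (nat_lit 275) (nat_lit 165)))) (XT.nd (nat_lit 156) (nat_lit 608) (nat_lit 0) (XT.nd (nat_lit 78) (nat_lit 0) (nat_lit 0) (XT.lf (nat_lit 76) (nat_lit 6469318739) (nat_lit 0) (nat_lit 16816609039) (nat_lit 684) (nat_lit 3333361041) (nat_lit 61) (nat_lit 5) (nat_lit 60) (nat_lit 5) (nat_lit 69) (nat_lit 5) (nat_lit 281) (nat_lit 275) (nat_lit 164)) (XT.lf (nat_lit 76) (nat_lit 17593860592)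 (nat_lit 0) (nat_lit 7263388365) (nat_lit 684) (nat_lit 2478497236) (nat_lit 61) (nat_lit 5) (nat_lit 60) (nat_lit 5) (nat_lit 69) (nat_lit 5) (nat_lit 282) (nat_lit 275) (nat_lit 163))) (XT.nd (nat_lit 78) (nat_lit 684) (nat_lit 0) (XT.lf (nat_lit 76) (nat_lit 1177122641) (nat_lit 0) (nat_lit 25386459076) (nat_lit 684) (nat_lit 1521653761) (nat_lit 62) (nat_lit 5) (nat_lit 61) (nat_lit 5) (nat_lit 70) (nat_lit 5) (nat_lit 283) (nat_lit 275) (nat_lit 162)) (XT.nd (nat_lit 78) (nat_lit 684) (nat_lit 0) (XT.lf (nat_lit 76) (nat_lit 12853404832) (nat_lit 0) (nat_lit 15779004441) (nat_lit 684) (nat_lit 225960874) (nat_lit 62) (nat_lit 5) (nat_lit 61) (nat_lit 5) (nat_lit 70) (nat_lit 5) (nat_lit 284) (nat_lit 275) (nat_lit 161)) (XT.lf (nat_lit 0) (nat_lit 1093379374) (nat_lit 684) (nat_lit 4578258815) (nat_lit 760) (nat_lit 23997906049) (nat_lit 52) (nat_lit 5) (nat_lit 61) (nat_lit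 5) (nat_lit 62) (nat_lit 5) (nat_lit 285) (nat_lit 275) (nat_lit 160))))))))
noncomputable def xc179 : XT := (XT.nd (nat_lit 1248) (nat_lit 988) (nat_lit 0) (XT.nd (nat_lit 624) (nat_lit 760) (nat_lit 0) (XT.nd (nat_lit 312) (nat_lit 608) (nat_lit 0) (XT.nd (nat_lit 156) (nat_lit 456) (nat_lit 0) (XT.nd (nat_lit 78) (nat_lit 0) (nat_lit 0) (XT.lf (nat_lit 0) (nat_lit 2665230467) (nat_lit 684) (nat_lit 22937083588) (nat_lit 76) (nat_lit 4909096650) (nat_lit 53) (nat_lit 5) (nat_lit 62) (nat_lit 5) (nat_lit 54) (nat_lit 5) (nat_lit 286) (nat_lit 275) (nat_lit 159)) (XT.lf (nat_lit 0) (nat_lit 4483036406) (nat_lit 684) (nat_lit 10996152656) (nat_lit 76) (nat_lit 15907837859) (nat_lit 53) (nat_lit 5) (nat_lit 62) (nat_lit 5) (nat_lit 54) (nat_lit 5) (nat_lit 287) (nat_lit 275) (nat_lit 158))) (XT.nd (nat_lit 78) (nat_lit 0) (nat_lit 0) (XT.lf (nat_lit 0) (nat_lit 1588968082) (nat_lit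 456) (nat_lit 4823361874) (nat_lit 532) (nat_lit 25893087495) (nat_lit 47) (nat_lit 5) (nat_lit 53) (nat_lit 5) (nat_lit 54) (nat_lit 5) (nat_lit 288) (nat_lit 275) (nat_lit 157)) (XT.lf (nat_lit 0) (nat_lit 8722684721) (nat_lit 532) (nat_lit 18181628005) (nat_lit 76) (nat_lit 6351207214) (nat_lit 47) (nat_lit 5) (nat_lit 54) (nat_lit 5) (nat_lit 48) (nat_lit 5) (nat_lit 289) (nat_lit 275) (nat_lit 156)))) (XT.nd (nat_lit 156) (nat_lit 304) (nat_lit 0) (XT.nd (nat_lit 78) (nat_lit 304) (nat_lit 0) (XT.lf (nat_lit 0) (nat_lit 11223761115) (nat_lit 532) (nat_lit 5102837872) (nat_lit 76) (nat_lit 17922789569) (nat_lit 47) (nat_lit 5) (nat_lit 54) (nat_lit 5) (nat_lit 48) (nat_lit 5) (nat_lit 290) (nat_lit 275) (nat_lit 155)) (XT.lf (nat_lit 0) (nat_lit 8911593857) (nat_lit 304) (nat_lit 5073748982) (nat_lit 380) (nat_lit 21300855377) (nat_lit 43) (nat_lit 5) (nat_lit 47) (nat_lit 5)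 (nat_lit 48) (nat_lit 5) (nat_lit 291) (nat_lit 275) (nat_lit 154))) (XT.nd (nat_lit 78) (nat_lit 304) (nat_lit 0) (XT.lf (nat_lit 0) (nat_lit 17074536187) (nat_lit 380) (nat_lit 12676961971) (nat_lit 76) (nat_lit 6613892801) (nat_lit 43) (nat_lit 5) (nat_lit 48) (nat_lit 5) (nat_lit 44) (nat_lit 5) (nat_lit 292) (nat_lit 275) (nat_lit 153)) (XT.lf (nat_lit 0) (nat_lit 1672422350) (nat_lit 304) (nat_lit 18751663115) (nat_lit 380) (nat_lit 17069181373) (nat_lit 39) (nat_lit 5) (nat_lit 43) (nat_lit 5) (nat_lit 44) (nat_lit 5) (nat_lit 293) (nat_lit 275) (nat_lit 152))))) (XT.nd (nat_lit 312) (nat_lit 532) (nat_lit 0) (XT.nd (nat_lit 156) (nat_lit 228) (nat_lit 0) (XT.nd (nat_lit 78) (nat_lit 0) (nat_lit 0) (XT.lf (nat_lit 0) (nat_lit 17175955770) (nat_lit 304) (nat_lit 6976563615) (nat_lit 380) (nat_lit 14514464205) (nat_lit 39) (nat_lit 5) (nat_lit 43) (nat_lit 5) (nat_lit 44) (nat_lit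 5) (nat_lit 294) (nat_lit 275) (nat_lit 151)) (XT.lf (nat_lit 0) (nat_lit 28148356488) (nat_lit 380) (nat_lit 6532273731) (nat_lit 76) (nat_lit 5214723497) (nat_lit 39) (nat_lit 5) (nat_lit 44) (nat_lit 5) (nat_lit 40) (nat_lit 5) (nat_lit 295) (nat_lit 275) (nat_lit 150))) (XT.nd (nat_lit 78) (nat_lit 0) (nat_lit 0) (XT.lf (nat_lit 0) (nat_lit 9356227100) (nat_lit 228) (nat_lit 23245224955) (nat_lit 304) (nat_lit 8570832781) (nat_lit 36) (nat_lit 5) (nat_lit 39) (nat_lit 5) (nat_lit 40) (nat_lit 5) (nat_lit 296) (nat_lit 275) (nat_lit 149)) (XT.lf (nat_lit 0) (nat_lit 26262712885) (nat_lit 228) (nat_lit 11122228068) (nat_lit 304) (nat_lit 5122749694) (nat_lit 36) (nat_lit 5) (nat_lit 39) (nat_lit 5) (nat_lit 40) (nat_lit 5) (nat_lit 297) (nat_lit 275) (nat_lit 148)))) (XT.nd (nat_lit 156) (nat_lit 228) (nat_lit 0) (XT.nd (nat_lit 78) (nat_lit 76) (nat_lit 0) (XT.lf (nat_lit 0) (nat_lit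 78872974) (nat_lit 228) (nat_lit 42352295134) (nat_lit 304) (nat_lit 1477534800) (nat_lit 33) (nat_lit 5) (nat_lit 36) (nat_lit 5) (nat_lit 37) (nat_lit 5) (nat_lit 298) (nat_lit 275) (nat_lit 147)) (XT.lf (nat_lit 0) (nat_lit 2733954935) (nat_lit 304) (nat_lit 27809906197) (nat_lit 76) (nat_lit 14811121861) (nat_lit 32) (nat_lit 5) (nat_lit 36) (nat_lit 5) (nat_lit 33) (nat_lit 5) (nat_lit 299) (nat_lit 275) (nat_lit 146))) (XT.nd (nat_lit 78) (nat_lit 228) (nat_lit 0) (XT.lf (nat_lit 0) (nat_lit 7103762971) (nat_lit 304) (nat_lit 11016322974) (nat_lit 76) (nat_lit 28752422503) (nat_lit 32) (nat_lit 5) (nat_lit 36) (nat_lit 5) (nat_lit 33) (nat_lit 5) (nat_lit 300) (nat_lit 275) (nat_lit 145)) (XT.lf (nat_lit 0) (nat_lit 6832660728) (nat_lit 228) (nat_lit 4963600206) (nat_lit 304) (nat_lit 36664451069) (nat_lit 29) (nat_lit 5) (nat_lit 32) (nat_lit 5) (nat_lit 33) (nat_lit 5) (nat_lit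 301) (nat_lit 275) (nat_lit 144)))))) (XT.nd (nat_lit 624) (nat_lit 304) (nat_lit 0) (XT.nd (nat_lit 312) (nat_lit 456) (nat_lit 0) (XT.nd (nat_lit 156) (nat_lit 228) (nat_lit 0) (XT.nd (nat_lit 78) (nat_lit 0) (nat_lit 0) (XT.lf (nat_lit 0) (nat_lit 17048780344) (nat_lit 304) (nat_lit 24306726905) (nat_lit 76) (nat_lit 8756559902) (nat_lit 29) (nat_lit 5) (nat_lit 33) (nat_lit 5) (nat_lit 30) (nat_lit 5) (nat_lit 302) (nat_lit 275) (nat_lit 143)) (XT.lf (nat_lit 0) (nat_lit 22642998058) (nat_lit 304) (nat_lit 6203604072) (nat_lit 76) (nat_lit 22995445015) (nat_lit 29) (nat_lit 5) (nat_lit 33) (nat_lit 5) (nat_lit 30) (nat_lit 5) (nat_lit 303) (nat_lit 275) (nat_lit 142))) (XT.nd (nat_lit 78) (nat_lit 0) (nat_lit 0) (XT.lf (nat_lit 0) (nat_lit 13225204751) (nat_lit 228) (nat_lit 15496015692) (nat_lit 304) (nat_lit 24927101204) (nat_lit 26) (nat_lit 5) (nat_lit 29) (nat_lit 5) (nat_lit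 30) (nat_lit 5) (nat_lit 304) (nat_lit 275) (nat_lit 141)) (XT.lf (nat_lit 0) (nat_lit 33838114351) (nat_lit 228) (nat_lit 1368173749) (nat_lit 304) (nat_lit 20333484778) (nat_lit 26) (nat_lit 5) (nat_lit 29) (nat_lit 5) (nat_lit 30) (nat_lit 5) (nat_lit 305) (nat_lit 275) (nat_lit 140)))) (XT.nd (nat_lit 156) (nat_lit 304) (nat_lit 0) (XT.nd (nat_lit 78) (nat_lit 152) (nat_lit 0) (XT.lf (nat_lit 0) (nat_lit 42223817732) (nat_lit 304) (nat_lit 2257057482) (nat_lit 76) (nat_lit 13034520274) (nat_lit 26) (nat_lit 5) (nat_lit 30) (nat_lit 5) (nat_lit 27) (nat_lit 5) (nat_lit 306) (nat_lit 275) (nat_lit 139)) (XT.lf (nat_lit 0) (nat_lit 18734403099) (nat_lit 152) (nat_lit 31170808886) (nat_lit 228) (nat_lit 9668946644) (nat_lit 24) (nat_lit 5) (nat_lit 26) (nat_lit 5) (nat_lit 27) (nat_lit 5) (nat_lit 307) (nat_lit 275) (nat_lit 138))) (XT.nd (nat_lit 78) (nat_lit 304) (nat_lit 0) (XT.lf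 (nat_lit 0) (nat_lit 40851278594) (nat_lit 152) (nat_lit 17155737193) (nat_lit 228) (nat_lit 3727035539) (nat_lit 24) (nat_lit 5) (nat_lit 26) (nat_lit 5) (nat_lit 27) (nat_lit 5) (nat_lit 308) (nat_lit 275) (nat_lit 137)) (XT.lf (nat_lit 0) (nat_lit 31378266) (nat_lit 228) (nat_lit 2398852050) (nat_lit 304) (nat_lit 61569822106) (nat_lit 20) (nat_lit 5) (nat_lit 23) (nat_lit 5) (nat_lit 24) (nat_lit 5) (nat_lit 309) (nat_lit 275) (nat_lit 136))))) (XT.nd (nat_lit 312) (nat_lit 152) (nat_lit 0) (XT.nd (nat_lit 156) (nat_lit 152) (nat_lit 0) (XT.nd (nat_lit 78) (nat_lit 0) (nat_lit 0) (XT.lf (nat_lit 0) (nat_lit 9332234896) (nat_lit 304) (nat_lit 43919303915) (nat_lit 76) (nat_lit 13096660649) (nat_lit 20) (nat_lit 5) (nat_lit 24) (nat_lit 5) (nat_lit 21) (nat_lit 5) (nat_lit 310) (nat_lit 275) (nat_lit 135)) (XT.lf (nat_lit 0) (nat_lit 16616957864) (nat_lit 304) (nat_lit 22909183817)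 (nat_lit 76) (nat_lit 29285738161) (nat_lit 20) (nat_lit 5) (nat_lit 24) (nat_lit 5) (nat_lit 21) (nat_lit 5) (nat_lit 311) (nat_lit 275) (nat_lit 134))) (XT.nd (nat_lit 78) (nat_lit 152) (nat_lit 0) (XT.lf (nat_lit 0) (nat_lit 24264290997) (nat_lit 304) (nat_lit 850836963) (nat_lit 76) (nat_lit 46283704155) (nat_lit 20) (nat_lit 5) (nat_lit 24) (nat_lit 5) (nat_lit 21) (nat_lit 5) (nat_lit 312) (nat_lit 275) (nat_lit 133)) (XT.lf (nat_lit 0) (nat_lit 23045868226) (nat_lit 152) (nat_lit 9606384593) (nat_lit 228) (nat_lit 41444972342) (nat_lit 18) (nat_lit 5) (nat_lit 20) (nat_lit 5) (nat_lit 21) (nat_lit 5) (nat_lit 313) (nat_lit 275) (nat_lit 132)))) (XT.nd (nat_lit 156) (nat_lit 152) (nat_lit 0) (XT.nd (nat_lit 78) (nat_lit 0) (nat_lit 0) (XT.lf (nat_lit 0) (nat_lit 41576999440) (nat_lit 228) (nat_lit 28869572180) (nat_lit 76) (nat_lit 6478102865) (nat_lit 18) (nat_lit 5) (nat_lit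 21) (nat_lit 5) (nat_lit 19) (nat_lit 5) (nat_lit 314) (nat_lit 275) (nat_lit 131)) (XT.lf (nat_lit 0) (nat_lit 51104019432) (nat_lit 228) (nat_lit 5738282068) (nat_lit 76) (nat_lit 23043398651) (nat_lit 18) (nat_lit 5) (nat_lit 21) (nat_lit 5) (nat_lit 19) (nat_lit 5) (nat_lit 315) (nat_lit 275) (nat_lit 130))) (XT.nd (nat_lit 78) (nat_lit 0) (nat_lit 0) (XT.lf (nat_lit 0) (nat_lit 19160836929) (nat_lit 152) (nat_lit 42244331025) (nat_lit 228) (nat_lit 21574725677) (nat_lit 16) (nat_lit 5) (nat_lit 18) (nat_lit 5) (nat_lit 19) (nat_lit 5) (nat_lit 316) (nat_lit 275) (nat_lit 129)) (XT.lf (nat_lit 0) (nat_lit 45502162303) (nat_lit 152) (nat_lit 26815050162) (nat_lit 228) (nat_lit 13906797542) (nat_lit 16) (nat_lit 5) (nat_lit 18) (nat_lit 5) (nat_lit 19) (nat_lit 5) (nat_lit 317) (nat_lit 275) (nat_lit 128)))))))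
noncomputable def xc180 : XT := (XT.nd (nat_lit 1248) (nat_lit 76) (nat_lit 0) (XT.nd (nat_lit 624) (nat_lit 304) (nat_lit 0) (XT.nd (nat_lit 312) (nat_lit 152) (nat_lit 0) (XT.nd (nat_lit 156) (nat_lit 0) (nat_lit 0) (XT.nd (nat_lit 78) (nat_lit 152) (nat_lit 0) (XT.lf (nat_lit 0) (nat_lit 73158677972) (nat_lit 152) (nat_lit 10614903112) (nat_lit 228) (nat_lit 5856819928) (nat_lit 16) (nat_lit 5) (nat_lit 18) (nat_lit 5) (nat_lit 19) (nat_lit 5) (nat_lit 318) (nat_lit 275) (nat_lit 127)) (XT.lf (nat_lit 0) (nat_lit 2758538089) (nat_lit 152) (nat_lit 84056374557) (nat_lit 76) (nat_lit 6377879159) (nat_lit 14) (nat_lit 5) (nat_lit 16) (nat_lit 5) (nat_lit 15) (nat_lit 5) (nat_lit 319) (nat_lit 275) (nat_lit 126))) (XT.nd (nat_lit 78) (nat_lit 0) (nat_lit 0) (XT.lf (nat_lit 0) (nat_lit 12064160933) (nat_lit 152) (nat_lit 60598988160) (nat_lit 76) (nat_lit 24242540386) (nat_lit 14) (nat_lit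 5) (nat_lit 16) (nat_lit 5) (nat_lit 15) (nat_lit 5) (nat_lit 320) (nat_lit 275) (nat_lit 125)) (XT.lf (nat_lit 0) (nat_lit 21833903030) (nat_lit 152) (nat_lit 35970502091) (nat_lit 76) (nat_lit 42999889046) (nat_lit 14) (nat_lit 5) (nat_lit 16) (nat_lit 5) (nat_lit 15) (nat_lit 5) (nat_lit 321) (nat_lit 275) (nat_lit 124)))) (XT.nd (nat_lit 156) (nat_lit 0) (nat_lit 0) (XT.nd (nat_lit 78) (nat_lit 152) (nat_lit 0) (XT.lf (nat_lit 0) (nat_lit 32091025670) (nat_lit 152) (nat_lit 10112277095) (nat_lit 76) (nat_lit 62694585494) (nat_lit 14) (nat_lit 5) (nat_lit 16) (nat_lit 5) (nat_lit 15) (nat_lit 5) (nat_lit 322) (nat_lit 275) (nat_lit 123)) (XT.lf (nat_lit 0) (nat_lit 17600582587) (nat_lit 152) (nat_lit 25534162406) (nat_lit 228) (nat_lit 66047733696) (nat_lit 12) (nat_lit 5) (nat_lit 14) (nat_lit 5) (nat_lit 15) (nat_lit 5) (nat_lit 323) (nat_lit 275) (nat_lit 122))) (XT.nd (nat_lit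 78) (nat_lit 0) (nat_lit 0) (XT.lf (nat_lit 0) (nat_lit 47048581448) (nat_lit 152) (nat_lit 7852296800) (nat_lit 228) (nat_lit 58771912480) (nat_lit 12) (nat_lit 5) (nat_lit 14) (nat_lit 5) (nat_lit 15) (nat_lit 5) (nat_lit 324) (nat_lit 275) (nat_lit 121)) (XT.lf (nat_lit 0) (nat_lit 67421600893) (nat_lit 228) (nat_lit 40587456535) (nat_lit 76) (nat_lit 10370250123) (nat_lit 12) (nat_lit 5) (nat_lit 15) (nat_lit 5) (nat_lit 13) (nat_lit 4) (nat_lit 325) (nat_lit 275) (nat_lit 120))))) (XT.nd (nat_lit 312) (nat_lit 228) (nat_lit 0) (XT.nd (nat_lit 156) (nat_lit 0) (nat_lit 0) (XT.nd (nat_lit 78) (nat_lit 76) (nat_lit 0) (XT.lf (nat_lit 0) (nat_lit 80696145311) (nat_lit 228) (nat_lit 13379066738) (nat_lit 76) (nat_lit 29239552048) (nat_lit 12) (nat_lit 5) (nat_lit 15) (nat_lit 5) (nat_lit 13) (nat_lit 4) (nat_lit 326) (nat_lit 275) (nat_lit 119)) (XT.lf (nat_lit 0) (nat_lit 15690533409)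 (nat_lit 76) (nat_lit 79187960990) (nat_lit 152) (nat_lit 33606298207) (nat_lit 11) (nat_lit 5) (nat_lit 12) (nat_lit 5) (nat_lit 13) (nat_lit 4) (nat_lit 327) (nat_lit 275) (nat_lit 118))) (XT.nd (nat_lit 78) (nat_lit 0) (nat_lit 0) (XT.lf (nat_lit 0) (nat_lit 46676723001) (nat_lit 76) (nat_lit 63318944246) (nat_lit 152) (nat_lit 23906372848) (nat_lit 11) (nat_lit 5) (nat_lit 12) (nat_lit 5) (nat_lit 13) (nat_lit 4) (nat_lit 328) (nat_lit 275) (nat_lit 117)) (XT.lf (nat_lit 0) (nat_lit 79210906311) (nat_lit 76) (nat_lit 46656959414) (nat_lit 152) (nat_lit 13722328615) (nat_lit 11) (nat_lit 5) (nat_lit 12) (nat_lit 5) (nat_lit 13) (nat_lit 4) (nat_lit 329) (nat_lit 275) (nat_lit 116)))) (XT.nd (nat_lit 156) (nat_lit 152) (nat_lit 0) (XT.nd (nat_lit 78) (nat_lit 76) (nat_lit 0) (XT.lf (nat_lit 0) (nat_lit 113370545679) (nat_lit 76) (nat_lit 29162335100) (nat_lit 152) (nat_lit 3029917785)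 (nat_lit 11) (nat_lit 5) (nat_lit 12) (nat_lit 5) (nat_lit 13) (nat_lit 4) (nat_lit 330) (nat_lit 275) (nat_lit 115)) (XT.lf (nat_lit 0) (nat_lit 7933984407) (nat_lit 152) (nat_lit 2725067165) (nat_lit 76) (nat_lit 141168623310) (nat_lit 10) (nat_lit 5) (nat_lit 12) (nat_lit 5) (nat_lit 11) (nat_lit 5) (nat_lit 331) (nat_lit 275) (nat_lit 114))) (XT.nd (nat_lit 78) (nat_lit 0) (nat_lit 0) (XT.lf (nat_lit 0) (nat_lit 19942960830) (nat_lit 228) (nat_lit 129429912157) (nat_lit 76) (nat_lit 9000505525) (nat_lit 8) (nat_lit 5) (nat_lit 11) (nat_lit 5) (nat_lit 9) (nat_lit 4) (nat_lit 332) (nat_lit 275) (nat_lit 113)) (XT.lf (nat_lit 0) (nat_lit 32773308241) (nat_lit 228) (nat_lit 103130695829) (nat_lit 76) (nat_lit 29331319284) (nat_lit 8) (nat_lit 5) (nat_lit 11) (nat_lit 5) (nat_lit 9) (nat_lit 4) (nat_lit 333) (nat_lit 275) (nat_lit 112)))))) (XT.nd (nat_lit 624) (nat_lit 0) (nat_lit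 0) (XT.nd (nat_lit 312) (nat_lit 0) (nat_lit 0) (XT.nd (nat_lit 156) (nat_lit 76) (nat_lit 0) (XT.nd (nat_lit 78) (nat_lit 0) (nat_lit 0) (XT.lf (nat_lit 0) (nat_lit 46244484188) (nat_lit 228) (nat_lit 75517638344) (nat_lit 76) (nat_lit 50678279386) (nat_lit 8) (nat_lit 5) (nat_lit 11) (nat_lit 5) (nat_lit 9) (nat_lit 4) (nat_lit 334) (nat_lit 275) (nat_lit 111)) (XT.lf (nat_lit 0) (nat_lit 60388562899) (nat_lit 228) (nat_lit 46524994326) (nat_lit 76) (nat_lit 73092211929) (nat_lit 8) (nat_lit 5) (nat_lit 11) (nat_lit 5) (nat_lit 9) (nat_lit 4) (nat_lit 335) (nat_lit 275) (nat_lit 110))) (XT.nd (nat_lit 78) (nat_lit 76) (nat_lit 0) (XT.lf (nat_lit 0) (nat_lit 75239220751) (nat_lit 228) (nat_lit 16083733670) (nat_lit 76) (nat_lit 96626483418) (nat_lit 8) (nat_lit 5) (nat_lit 11) (nat_lit 5) (nat_lit 9) (nat_lit 4) (nat_lit 336) (nat_lit 275) (nat_lit 109)) (XT.lf (nat_lit 0) (nat_lit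 16403641795) (nat_lit 76) (nat_lit 74684281479) (nat_lit 152) (nat_lit 105189592857) (nat_lit 7) (nat_lit 5) (nat_lit 8) (nat_lit 5) (nat_lit 9) (nat_lit 4) (nat_lit 337) (nat_lit 275) (nat_lit 108)))) (XT.nd (nat_lit 156) (nat_lit 0) (nat_lit 0) (XT.nd (nat_lit 78) (nat_lit 0) (nat_lit 0) (XT.lf (nat_lit 0) (nat_lit 51072825346) (nat_lit 76) (nat_lit 56928039826) (nat_lit 152) (nat_lit 97007544629) (nat_lit 7) (nat_lit 5) (nat_lit 8) (nat_lit 5) (nat_lit 9) (nat_lit 4) (nat_lit 338) (nat_lit 275) (nat_lit 107)) (XT.lf (nat_lit 0) (nat_lit 87474561786) (nat_lit 76) (nat_lit 38284338509) (nat_lit 152) (nat_lit 88416977151) (nat_lit 7) (nat_lit 5) (nat_lit 8) (nat_lit 5) (nat_lit 9) (nat_lit 4) (nat_lit 339) (nat_lit 275) (nat_lit 106))) (XT.nd (nat_lit 78) (nat_lit 0) (nat_lit 0) (XT.lf (nat_lit 0) (nat_lit 125695521917) (nat_lit 76) (nat_lit 18708787762) (nat_lit 152) (nat_lit 79397436689)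 (nat_lit 7) (nat_lit 5) (nat_lit 8) (nat_lit 5) (nat_lit 9) (nat_lit 4) (nat_lit 340) (nat_lit 275) (nat_lit 105)) (XT.lf (nat_lit 0) (nat_lit 164010296225) (nat_lit 152) (nat_lit 68111036348) (nat_lit 0) (nat_lit 1786162276) (nat_lit 7) (nat_lit 5) (nat_lit 9) (nat_lit 4) (nat_lit 7) (nat_lit 4) (nat_lit 341) (nat_lit 275) (nat_lit 104))))) (XT.nd (nat_lit 32526) (nat_lit 0) (nat_lit 3876) (XT.nd (nat_lit 32370) (nat_lit 0) (nat_lit 3876) (XT.nd (nat_lit 78) (nat_lit 0) (nat_lit 0) (XT.lf (nat_lit 0) (nat_lit 184902800329) (nat_lit 152) (nat_lit 36923593714) (nat_lit 0) (nat_lit 22676827179) (nat_lit 7) (nat_lit 5) (nat_lit 9) (nat_lit 4) (nat_lit 7) (nat_lit 4) (nat_lit 342) (nat_lit 275) (nat_lit 103)) (XT.lf (nat_lit 0) (nat_lit 206839469442) (nat_lit 152) (nat_lit 4177544125) (nat_lit 0) (nat_lit 44611744671) (nat_lit 7) (nat_lit 5) (nat_lit 9) (nat_lit 4) (nat_lit 7) (nat_lit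 4) (nat_lit 343) (nat_lit 275) (nat_lit 102))) (XT.nd (nat_lit 78) (nat_lit 0) (nat_lit 0) (XT.lf (nat_lit 0) (nat_lit 9250731387) (nat_lit 684) (nat_lit 1377143739) (nat_lit 684) (nat_lit 1377143739) (nat_lit 58) (nat_lit 3) (nat_lit 67) (nat_lit 3) (nat_lit 67) (nat_lit 5) (nat_lit 276) (nat_lit 276) (nat_lit 168)) (XT.lf (nat_lit 76) (nat_lit 6741308777) (nat_lit 0) (nat_lit 12424439989) (nat_lit 684) (nat_lit 5433857736) (nat_lit 59) (nat_lit 5) (nat_lit 58) (nat_lit 3) (nat_lit 67) (nat_lit 5) (nat_lit 277) (nat_lit 276) (nat_lit 167)))) (XT.nd (nat_lit 156) (nat_lit 0) (nat_lit 76) (XT.nd (nat_lit 78) (nat_lit 0) (nat_lit 76) (XT.lf (nat_lit 76) (nat_lit 16803937608) (nat_lit 0) (nat_lit 3099726906) (nat_lit 684) (nat_lit 5313006494) (nat_lit 59) (nat_lit 5) (nat_lit 58) (nat_lit 3) (nat_lit 67) (nat_lit 5) (nat_lit 278) (nat_lit 276) (nat_lit 166)) (XT.lf (nat_lit 76) (nat_lit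 1443248538) (nat_lit 0) (nat_lit 19356338833) (nat_lit 684) (nat_lit 5058982057) (nat_lit 60) (nat_lit 5) (nat_lit 59) (nat_lit 5) (nat_lit 68) (nat_lit 5) (nat_lit 279) (nat_lit 276) (nat_lit 165))) (XT.nd (nat_lit 78) (nat_lit 0) (nat_lit 76) (XT.lf (nat_lit 76) (nat_lit 12028078283) (nat_lit 0) (nat_lit 9899032273) (nat_lit 684) (nat_lit 4596146534) (nat_lit 60) (nat_lit 5) (nat_lit 59) (nat_lit 5) (nat_lit 68) (nat_lit 5) (nat_lit 280) (nat_lit 276) (nat_lit 164)) (XT.nd (nat_lit 78) (nat_lit 0) (nat_lit 0) (XT.lf (nat_lit 0) (nat_lit 23106132516) (nat_lit 608) (nat_lit 4083209311) (nat_lit 684) (nat_lit 32114061) (nat_lit 60) (nat_lit 5) (nat_lit 68) (nat_lit 5) (nat_lit 69) (nat_lit 5) (nat_lit 281) (nat_lit 276) (nat_lit 163)) (XT.lf (nat_lit 76) (nat_lit 6904550546) (nat_lit 0) (nat_lit 17704525475) (nat_lit 684) (nat_lit 3332271402) (nat_lit 61) (nat_lit 5) (nat_lit 60) (nat_lit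 5) (nat_lit 69) (nat_lit 5) (nat_lit 282) (nat_lit 276) (nat_lit 162))))))))
noncomputable def xc181 : XT := (XT.nd (nat_lit 1248) (nat_lit 1368) (nat_lit 0) (XT.nd (nat_lit 624) (nat_lit 836) (nat_lit 0) (XT.nd (nat_lit 312) (nat_lit 380) (nat_lit 0) (XT.nd (nat_lit 156) (nat_lit 608) (nat_lit 0) (XT.nd (nat_lit 78) (nat_lit 0) (nat_lit 76) (XT.lf (nat_lit 76) (nat_lit 18579997307) (nat_lit 0) (nat_lit 7671401577) (nat_lit 684) (nat_lit 2442652868) (nat_lit 61) (nat_lit 5) (nat_lit 60) (nat_lit 5) (nat_lit 69) (nat_lit 5) (nat_lit 283) (nat_lit 276) (nat_lit 161)) (XT.lf (nat_lit 76) (nat_lit 1349739418) (nat_lit 0) (nat_lit 26687214023) (nat_lit 684) (nat_lit 1444410487) (nat_lit 62) (nat_lit 5) (nat_lit 61) (nat_lit 5) (nat_lit 70) (nat_lit 5) (nat_lit 284) (nat_lit 276) (nat_lit 160))) (XT.nd (nat_lit 78) (nat_lit 684) (nat_lit 0) (XT.lf (nat_lit 76) (nat_lit 13604418545) (nat_lit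 0) (nat_lit 16597889895) (nat_lit 684) (nat_lit 91234192) (nat_lit 62) (nat_lit 5) (nat_lit 61) (nat_lit 5) (nat_lit 70) (nat_lit 5) (nat_lit 285) (nat_lit 276) (nat_lit 159)) (XT.lf (nat_lit 0) (nat_lit 1282668365) (nat_lit 684) (nat_lit 4698781623) (nat_lit 760) (nat_lit 25164085732) (nat_lit 52) (nat_lit 5) (nat_lit 61) (nat_lit 5) (nat_lit 62) (nat_lit 5) (nat_lit 286) (nat_lit 276) (nat_lit 158)))) (XT.nd (nat_lit 156) (nat_lit 456) (nat_lit 0) (XT.nd (nat_lit 78) (nat_lit 0) (nat_lit 0) (XT.lf (nat_lit 0) (nat_lit 2928003787) (nat_lit 684) (nat_lit 23969720622) (nat_lit 76) (nat_lit 5132062452) (nat_lit 53) (nat_lit 5) (nat_lit 62) (nat_lit 5) (nat_lit 54) (nat_lit 5) (nat_lit 287) (nat_lit 276) (nat_lit 157)) (XT.lf (nat_lit 0) (nat_lit 4830532795) (nat_lit 684) (nat_lit 11437182055) (nat_lit 76) (nat_lit 16681811627) (nat_lit 53) (nat_lit 5) (nat_lit 62) (nat_lit 5) (nat_lit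 54) (nat_lit 5) (nat_lit 288) (nat_lit 276) (nat_lit 156))) (XT.nd (nat_lit 78) (nat_lit 0) (nat_lit 0) (XT.lf (nat_lit 0) (nat_lit 1775440232) (nat_lit 456) (nat_lit 5076648180) (nat_lit 532) (nat_lit 27061990851) (nat_lit 47) (nat_lit 5) (nat_lit 53) (nat_lit 5) (nat_lit 54) (nat_lit 5) (nat_lit 289) (nat_lit 276) (nat_lit 155)) (XT.lf (nat_lit 0) (nat_lit 9272107300) (nat_lit 532) (nat_lit 18982307494) (nat_lit 76) (nat_lit 6657595809) (nat_lit 47) (nat_lit 5) (nat_lit 54) (nat_lit 5) (nat_lit 48) (nat_lit 5) (nat_lit 290) (nat_lit 276) (nat_lit 154))))) (XT.nd (nat_lit 312) (nat_lit 228) (nat_lit 0) (XT.nd (nat_lit 156) (nat_lit 304) (nat_lit 0) (XT.nd (nat_lit 78) (nat_lit 304) (nat_lit 0) (XT.lf (nat_lit 0) (nat_lit 11892842830) (nat_lit 532) (nat_lit 5254739851) (nat_lit 76) (nat_lit 18808289271) (nat_lit 47) (nat_lit 5) (nat_lit 54) (nat_lit 5) (nat_lit 48) (nat_lit 5) (nat_lit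 291) (nat_lit 276) (nat_lit 153)) (XT.lf (nat_lit 0) (nat_lit 9458748305) (nat_lit 304) (nat_lit 5330203409) (nat_lit 380) (nat_lit 22255776137) (nat_lit 43) (nat_lit 5) (nat_lit 47) (nat_lit 5) (nat_lit 48) (nat_lit 5) (nat_lit 292) (nat_lit 276) (nat_lit 152))) (XT.nd (nat_lit 78) (nat_lit 304) (nat_lit 0) (XT.lf (nat_lit 0) (nat_lit 18027594932) (nat_lit 380) (nat_lit 13208526039) (nat_lit 76) (nat_lit 6942036567) (nat_lit 43) (nat_lit 5) (nat_lit 48) (nat_lit 5) (nat_lit 44) (nat_lit 5) (nat_lit 293) (nat_lit 276) (nat_lit 151)) (XT.lf (nat_lit 0) (nat_lit 1856677755) (nat_lit 304) (nat_lit 19684785009) (nat_lit 380) (nat_lit 17821147934) (nat_lit 39) (nat_lit 5) (nat_lit 43) (nat_lit 5) (nat_lit 44) (nat_lit 5) (nat_lit 294) (nat_lit 276) (nat_lit 150)))) (XT.nd (nat_lit 156) (nat_lit 228) (nat_lit 0) (XT.nd (nat_lit 78) (nat_lit 0) (nat_lit 0) (XT.lf (nat_lit 0) (nat_lit 18130595738)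 (nat_lit 304) (nat_lit 7321142976) (nat_lit 380) (nat_lit 15143527884) (nat_lit 39) (nat_lit 5) (nat_lit 43) (nat_lit 5) (nat_lit 44) (nat_lit 5) (nat_lit 295) (nat_lit 276) (nat_lit 149)) (XT.lf (nat_lit 0) (nat_lit 29643069260) (nat_lit 380) (nat_lit 6762847403) (nat_lit 76) (nat_lit 5479376653) (nat_lit 39) (nat_lit 5) (nat_lit 44) (nat_lit 5) (nat_lit 40) (nat_lit 5) (nat_lit 296) (nat_lit 276) (nat_lit 148))) (XT.nd (nat_lit 78) (nat_lit 0) (nat_lit 0) (XT.lf (nat_lit 0) (nat_lit 9918529437) (nat_lit 228) (nat_lit 24397608535) (nat_lit 304) (nat_lit 8910089166) (nat_lit 36) (nat_lit 5) (nat_lit 39) (nat_lit 5) (nat_lit 40) (nat_lit 5) (nat_lit 297) (nat_lit 276) (nat_lit 147)) (XT.lf (nat_lit 0) (nat_lit 27665839941) (nat_lit 228) (nat_lit 11668932169) (nat_lit 304) (nat_lit 5293853604) (nat_lit 36) (nat_lit 5) (nat_lit 39) (nat_lit 5) (nat_lit 40) (nat_lit 5) (nat_lit 298) (nat_lit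 276) (nat_lit 146)))))) (XT.nd (nat_lit 624) (nat_lit 608) (nat_lit 0) (XT.nd (nat_lit 312) (nat_lit 228) (nat_lit 0) (XT.nd (nat_lit 156) (nat_lit 228) (nat_lit 0) (XT.nd (nat_lit 78) (nat_lit 76) (nat_lit 0) (XT.lf (nat_lit 0) (nat_lit 175589755) (nat_lit 228) (nat_lit 44455471858) (nat_lit 304) (nat_lit 1468759437) (nat_lit 33) (nat_lit 5) (nat_lit 36) (nat_lit 5) (nat_lit 37) (nat_lit 5) (nat_lit 299) (nat_lit 276) (nat_lit 145)) (XT.lf (nat_lit 0) (nat_lit 2946849557) (nat_lit 304) (nat_lit 29109163692) (nat_lit 76) (nat_lit 15562546012) (nat_lit 32) (nat_lit 5) (nat_lit 36) (nat_lit 5) (nat_lit 33) (nat_lit 5) (nat_lit 300) (nat_lit 276) (nat_lit 144))) (XT.nd (nat_lit 78) (nat_lit 228) (nat_lit 0) (XT.lf (nat_lit 0) (nat_lit 7531519572) (nat_lit 304) (nat_lit 11480245967) (nat_lit 76) (nat_lit 30200394160) (nat_lit 32) (nat_lit 5) (nat_lit 36) (nat_lit 5) (nat_lit 33) (nat_lit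 5) (nat_lit 301) (nat_lit 276) (nat_lit 143)) (XT.lf (nat_lit 0) (nat_lit 7259785418) (nat_lit 228) (nat_lit 5196736140) (nat_lit 304) (nat_lit 38423374382) (nat_lit 29) (nat_lit 5) (nat_lit 32) (nat_lit 5) (nat_lit 33) (nat_lit 5) (nat_lit 302) (nat_lit 276) (nat_lit 142)))) (XT.nd (nat_lit 156) (nat_lit 228) (nat_lit 0) (XT.nd (nat_lit 78) (nat_lit 0) (nat_lit 0) (XT.lf (nat_lit 0) (nat_lit 17968535987) (nat_lit 304) (nat_lit 25437198072) (nat_lit 76) (nat_lit 9208257014) (nat_lit 29) (nat_lit 5) (nat_lit 33) (nat_lit 5) (nat_lit 30) (nat_lit 5) (nat_lit 303) (nat_lit 276) (nat_lit 141)) (XT.lf (nat_lit 0) (nat_lit 23839259033) (nat_lit 304) (nat_lit 6432960296) (nat_lit 76) (nat_lit 24158425949) (nat_lit 29) (nat_lit 5) (nat_lit 33) (nat_lit 5) (nat_lit 30) (nat_lit 5) (nat_lit 304) (nat_lit 276) (nat_lit 140))) (XT.nd (nat_lit 78) (nat_lit 0) (nat_lit 0) (XT.lf (nat_lit 0) (nat_lit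 13965985356) (nat_lit 228) (nat_lit 16253595809) (nat_lit 304) (nat_lit 26107757131) (nat_lit 26) (nat_lit 5) (nat_lit 29) (nat_lit 5) (nat_lit 30) (nat_lit 5) (nat_lit 305) (nat_lit 276) (nat_lit 139)) (XT.lf (nat_lit 0) (nat_lit 35605753751) (nat_lit 228) (nat_lit 1420181800) (nat_lit 304) (nat_lit 21287588413) (nat_lit 26) (nat_lit 5) (nat_lit 29) (nat_lit 5) (nat_lit 30) (nat_lit 5) (nat_lit 306) (nat_lit 276) (nat_lit 138))))) (XT.nd (nat_lit 312) (nat_lit 152) (nat_lit 0) (XT.nd (nat_lit 156) (nat_lit 304) (nat_lit 0) (XT.nd (nat_lit 78) (nat_lit 152) (nat_lit 0) (XT.lf (nat_lit 0) (nat_lit 44391760149) (nat_lit 304) (nat_lit 2294943518) (nat_lit 76) (nat_lit 13701366015) (nat_lit 26) (nat_lit 5) (nat_lit 30) (nat_lit 5) (nat_lit 27) (nat_lit 5) (nat_lit 307) (nat_lit 276) (nat_lit 137)) (XT.lf (nat_lit 0) (nat_lit 19744880949) (nat_lit 152) (nat_lit 32710792277) (nat_lit 228)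 (nat_lit 10094187585) (nat_lit 24) (nat_lit 5) (nat_lit 26) (nat_lit 5) (nat_lit 27) (nat_lit 5) (nat_lit 308) (nat_lit 276) (nat_lit 136))) (XT.nd (nat_lit 78) (nat_lit 304) (nat_lit 0) (XT.lf (nat_lit 0) (nat_lit 42964087947) (nat_lit 152) (nat_lit 17995850668) (nat_lit 228) (nat_lit 3857952658) (nat_lit 24) (nat_lit 5) (nat_lit 26) (nat_lit 5) (nat_lit 27) (nat_lit 5) (nat_lit 309) (nat_lit 276) (nat_lit 135)) (XT.lf (nat_lit 0) (nat_lit 104024529) (nat_lit 228) (nat_lit 2499932165) (nat_lit 304) (nat_lit 64593275346) (nat_lit 20) (nat_lit 5) (nat_lit 23) (nat_lit 5) (nat_lit 24) (nat_lit 5) (nat_lit 310) (nat_lit 276) (nat_lit 134)))) (XT.nd (nat_lit 156) (nat_lit 152) (nat_lit 0) (XT.nd (nat_lit 78) (nat_lit 0) (nat_lit 0) (XT.lf (nat_lit 0) (nat_lit 9848855553) (nat_lit 304) (nat_lit 46045168295) (nat_lit 76) (nat_lit 13768882986) (nat_lit 20) (nat_lit 5) (nat_lit 24) (nat_lit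 5) (nat_lit 21) (nat_lit 5) (nat_lit 311) (nat_lit 276) (nat_lit 133)) (XT.lf (nat_lit 0) (nat_lit 17495433293) (nat_lit 304) (nat_lit 23987880326) (nat_lit 76) (nat_lit 30766586312) (nat_lit 20) (nat_lit 5) (nat_lit 24) (nat_lit 5) (nat_lit 21) (nat_lit 5) (nat_lit 312) (nat_lit 276) (nat_lit 132))) (XT.nd (nat_lit 78) (nat_lit 152) (nat_lit 0) (XT.lf (nat_lit 0) (nat_lit 25522865104) (nat_lit 304) (nat_lit 829795305) (nat_lit 76) (nat_lit 48613661976) (nat_lit 20) (nat_lit 5) (nat_lit 24) (nat_lit 5) (nat_lit 21) (nat_lit 5) (nat_lit 313) (nat_lit 276) (nat_lit 131)) (XT.lf (nat_lit 0) (nat_lit 24260719603) (nat_lit 152) (nat_lit 10068322141) (nat_lit 228) (nat_lit 43470661234) (nat_lit 18) (nat_lit 5) (nat_lit 20) (nat_lit 5) (nat_lit 21) (nat_lit 5) (nat_lit 314) (nat_lit 276) (nat_lit 130)))))))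
noncomputable def xc182 : XT := (XT.nd (nat_lit 1248) (nat_lit 304) (nat_lit 0) (XT.nd (nat_lit 624) (nat_lit 228) (nat_lit 0) (XT.nd (nat_lit 312) (nat_lit 152) (nat_lit 0) (XT.nd (nat_lit 156) (nat_lit 152) (nat_lit 0) (XT.nd (nat_lit 78) (nat_lit 0) (nat_lit 0) (XT.lf (nat_lit 0) (nat_lit 43698195386) (nat_lit 228) (nat_lit 30251475153) (nat_lit 76) (nat_lit 6818954059) (nat_lit 18) (nat_lit 5) (nat_lit 21) (nat_lit 5) (nat_lit 19) (nat_lit 5) (nat_lit 315) (nat_lit 276) (nat_lit 129)) (XT.lf (nat_lit 0) (nat_lit 53699549903) (nat_lit 228) (nat_lit 5966552709) (nat_lit 76) (nat_lit 24211707679) (nat_lit 18) (nat_lit 5) (nat_lit 21) (nat_lit 5) (nat_lit 19) (nat_lit 5) (nat_lit 316) (nat_lit 276) (nat_lit 128))) (XT.nd (nat_lit 78) (nat_lit 0) (nat_lit 0) (XT.lf (nat_lit 0) (nat_lit 20176576377) (nat_lit 152) (nat_lit 44338159844) (nat_lit 228) (nat_lit 22612035749) (nat_lit 16)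 (nat_lit 5) (nat_lit 18) (nat_lit 5) (nat_lit 19) (nat_lit 5) (nat_lit 317) (nat_lit 276) (nat_lit 127)) (XT.lf (nat_lit 0) (nat_lit 47832220514) (nat_lit 152) (nat_lit 28138290544) (nat_lit 228) (nat_lit 14562683885) (nat_lit 16) (nat_lit 5) (nat_lit 18) (nat_lit 5) (nat_lit 19) (nat_lit 5) (nat_lit 318) (nat_lit 276) (nat_lit 126)))) (XT.nd (nat_lit 156) (nat_lit 0) (nat_lit 0) (XT.nd (nat_lit 78) (nat_lit 152) (nat_lit 0) (XT.lf (nat_lit 0) (nat_lit 76868945295) (nat_lit 152) (nat_lit 11128970053) (nat_lit 228) (nat_lit 6112086129) (nat_lit 16) (nat_lit 5) (nat_lit 18) (nat_lit 5) (nat_lit 19) (nat_lit 5) (nat_lit 319) (nat_lit 276) (nat_lit 125)) (XT.lf (nat_lit 0) (nat_lit 2932200188) (nat_lit 152) (nat_lit 88204765846) (nat_lit 76) (nat_lit 6713554497) (nat_lit 14) (nat_lit 5) (nat_lit 16) (nat_lit 5) (nat_lit 15) (nat_lit 5) (nat_lit 320) (nat_lit 276) (nat_lit 124))) (XT.nd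 (nat_lit 78) (nat_lit 0) (nat_lit 0) (XT.lf (nat_lit 0) (nat_lit 12701402499) (nat_lit 152) (nat_lit 63577101912) (nat_lit 76) (nat_lit 25470649672) (nat_lit 14) (nat_lit 5) (nat_lit 16) (nat_lit 5) (nat_lit 15) (nat_lit 5) (nat_lit 321) (nat_lit 276) (nat_lit 123)) (XT.lf (nat_lit 0) (nat_lit 22958011057) (nat_lit 152) (nat_lit 37719659904) (nat_lit 76) (nat_lit 45165104705) (nat_lit 14) (nat_lit 5) (nat_lit 16) (nat_lit 5) (nat_lit 15) (nat_lit 5) (nat_lit 322) (nat_lit 276) (nat_lit 122))))) (XT.nd (nat_lit 312) (nat_lit 76) (nat_lit 0) (XT.nd (nat_lit 156) (nat_lit 0) (nat_lit 0) (XT.nd (nat_lit 78) (nat_lit 152) (nat_lit 0) (XT.lf (nat_lit 0) (nat_lit 33726446358) (nat_lit 152) (nat_lit 10570874482) (nat_lit 76) (nat_lit 65843811156) (nat_lit 14) (nat_lit 5) (nat_lit 16) (nat_lit 5) (nat_lit 15) (nat_lit 5) (nat_lit 323) (nat_lit 276) (nat_lit 121)) (XT.lf (nat_lit 0) (nat_lit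 18526869854) (nat_lit 152) (nat_lit 26794734041) (nat_lit 228) (nat_lit 69318390545) (nat_lit 12) (nat_lit 5) (nat_lit 14) (nat_lit 5) (nat_lit 15) (nat_lit 5) (nat_lit 324) (nat_lit 276) (nat_lit 120))) (XT.nd (nat_lit 78) (nat_lit 0) (nat_lit 0) (XT.lf (nat_lit 0) (nat_lit 49445065890) (nat_lit 152) (nat_lit 8229543558) (nat_lit 228) (nat_lit 61680289213) (nat_lit 12) (nat_lit 5) (nat_lit 14) (nat_lit 5) (nat_lit 15) (nat_lit 5) (nat_lit 325) (nat_lit 276) (nat_lit 119)) (XT.lf (nat_lit 0) (nat_lit 70820230677) (nat_lit 228) (nat_lit 42573641710) (nat_lit 76) (nat_lit 10902930446) (nat_lit 12) (nat_lit 5) (nat_lit 15) (nat_lit 5) (nat_lit 13) (nat_lit 4) (nat_lit 326) (nat_lit 276) (nat_lit 118)))) (XT.nd (nat_lit 156) (nat_lit 0) (nat_lit 0) (XT.nd (nat_lit 78) (nat_lit 76) (nat_lit 0) (XT.lf (nat_lit 0) (nat_lit 84757190424) (nat_lit 228) (nat_lit 14006888978) (nat_lit 76) (nat_lit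 30715022809) (nat_lit 12) (nat_lit 5) (nat_lit 15) (nat_lit 5) (nat_lit 13) (nat_lit 4) (nat_lit 327) (nat_lit 276) (nat_lit 117)) (XT.lf (nat_lit 0) (nat_lit 16515527771) (nat_lit 76) (nat_lit 83132511588) (nat_lit 152) (nat_lit 35259627867) (nat_lit 11) (nat_lit 5) (nat_lit 12) (nat_lit 5) (nat_lit 13) (nat_lit 4) (nat_lit 328) (nat_lit 276) (nat_lit 116))) (XT.nd (nat_lit 78) (nat_lit 0) (nat_lit 0) (XT.lf (nat_lit 0) (nat_lit 49049099810) (nat_lit 76) (nat_lit 66470751029) (nat_lit 152) (nat_lit 25075991251) (nat_lit 11) (nat_lit 5) (nat_lit 12) (nat_lit 5) (nat_lit 13) (nat_lit 4) (nat_lit 329) (nat_lit 276) (nat_lit 115)) (XT.lf (nat_lit 0) (nat_lit 83208157015) (nat_lit 76) (nat_lit 48976340308) (nat_lit 152) (nat_lit 14383968628) (nat_lit 11) (nat_lit 5) (nat_lit 12) (nat_lit 5) (nat_lit 13) (nat_lit 4) (nat_lit 330) (nat_lit 276) (nat_lit 114)))))) (XT.nd (nat_lit 624) (nat_lit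 0) (nat_lit 0) (XT.nd (nat_lit 312) (nat_lit 76) (nat_lit 0) (XT.nd (nat_lit 156) (nat_lit 152) (nat_lit 0) (XT.nd (nat_lit 78) (nat_lit 76) (nat_lit 0) (XT.lf (nat_lit 0) (nat_lit 119074030477) (nat_lit 76) (nat_lit 30607626068) (nat_lit 152) (nat_lit 3158102800) (nat_lit 11) (nat_lit 5) (nat_lit 12) (nat_lit 5) (nat_lit 13) (nat_lit 4) (nat_lit 331) (nat_lit 276) (nat_lit 113)) (XT.lf (nat_lit 0) (nat_lit 8352173895) (nat_lit 152) (nat_lit 2827251273) (nat_lit 76) (nat_lit 148238493130) (nat_lit 10) (nat_lit 5) (nat_lit 12) (nat_lit 5) (nat_lit 11) (nat_lit 5) (nat_lit 332) (nat_lit 276) (nat_lit 112))) (XT.nd (nat_lit 78) (nat_lit 0) (nat_lit 0) (XT.lf (nat_lit 0) (nat_lit 20961294750) (nat_lit 228) (nat_lit 135866971444) (nat_lit 76) (nat_lit 9462659268) (nat_lit 8) (nat_lit 5) (nat_lit 11) (nat_lit 5) (nat_lit 9) (nat_lit 4) (nat_lit 333) (nat_lit 276) (nat_lit 111)) (XT.lf (nat_lit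 0) (nat_lit 34432150681) (nat_lit 228) (nat_lit 108254434126) (nat_lit 76) (nat_lit 30809436168) (nat_lit 8) (nat_lit 5) (nat_lit 11) (nat_lit 5) (nat_lit 9) (nat_lit 4) (nat_lit 334) (nat_lit 276) (nat_lit 110)))) (XT.nd (nat_lit 156) (nat_lit 76) (nat_lit 0) (XT.nd (nat_lit 78) (nat_lit 0) (nat_lit 0) (XT.lf (nat_lit 0) (nat_lit 48575924614) (nat_lit 228) (nat_lit 79262285504) (nat_lit 76) (nat_lit 53223194232) (nat_lit 8) (nat_lit 5) (nat_lit 11) (nat_lit 5) (nat_lit 9) (nat_lit 4) (nat_lit 335) (nat_lit 276) (nat_lit 109)) (XT.lf (nat_lit 0) (nat_lit 63426292202) (nat_lit 228) (nat_lit 48821496655) (nat_lit 76) (nat_lit 76757299551) (nat_lit 8) (nat_lit 5) (nat_lit 11) (nat_lit 5) (nat_lit 9) (nat_lit 4) (nat_lit 336) (nat_lit 276) (nat_lit 108))) (XT.nd (nat_lit 78) (nat_lit 76) (nat_lit 0) (XT.lf (nat_lit 0) (nat_lit 79018611464) (nat_lit 228) (nat_lit 16859589508) (nat_lit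 76) (nat_lit 101467785708) (nat_lit 8) (nat_lit 5) (nat_lit 11) (nat_lit 5) (nat_lit 9) (nat_lit 4) (nat_lit 337) (nat_lit 276) (nat_lit 107)) (XT.lf (nat_lit 0) (nat_lit 17251697781) (nat_lit 76) (nat_lit 78407656537) (nat_lit 152) (nat_lit 110431136764) (nat_lit 7) (nat_lit 5) (nat_lit 8) (nat_lit 5) (nat_lit 9) (nat_lit 4) (nat_lit 338) (nat_lit 276) (nat_lit 106))))) (XT.nd (nat_lit 312) (nat_lit 0) (nat_lit 0) (XT.nd (nat_lit 156) (nat_lit 0) (nat_lit 0) (XT.nd (nat_lit 78) (nat_lit 0) (nat_lit 0) (XT.lf (nat_lit 0) (nat_lit 53653013181) (nat_lit 76) (nat_lit 59764118944) (nat_lit 152) (nat_lit 101840840207) (nat_lit 7) (nat_lit 5) (nat_lit 8) (nat_lit 5) (nat_lit 9) (nat_lit 4) (nat_lit 339) (nat_lit 276) (nat_lit 105)) (XT.lf (nat_lit 0) (nat_lit 91873572322) (nat_lit 76) (nat_lit 40188724126) (nat_lit 152) (nat_lit 92821557767) (nat_lit 7) (nat_lit 5) (nat_lit 8) (nat_lit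 5) (nat_lit 9) (nat_lit 4) (nat_lit 340) (nat_lit 276) (nat_lit 104))) (XT.nd (nat_lit 78) (nat_lit 0) (nat_lit 0) (XT.lf (nat_lit 0) (nat_lit 132004376533) (nat_lit 76) (nat_lit 19634864000) (nat_lit 152) (nat_lit 83351814960) (nat_lit 7) (nat_lit 5) (nat_lit 8) (nat_lit 5) (nat_lit 9) (nat_lit 4) (nat_lit 341) (nat_lit 276) (nat_lit 103)) (XT.lf (nat_lit 0) (nat_lit 172224964898) (nat_lit 152) (nat_lit 71493054329) (nat_lit 0) (nat_lit 1884102267) (nat_lit 7) (nat_lit 5) (nat_lit 9) (nat_lit 4) (nat_lit 7) (nat_lit 4) (nat_lit 342) (nat_lit 276) (nat_lit 102)))) (XT.nd (nat_lit 32448) (nat_lit 0) (nat_lit 3876) (XT.nd (nat_lit 32370) (nat_lit 0) (nat_lit 3876) (XT.lf (nat_lit 0) (nat_lit 194161420214) (nat_lit 152) (nat_lit 38747360222) (nat_lit 0) (nat_lit 23818889373) (nat_lit 7) (nat_lit 5) (nat_lit 9) (nat_lit 4) (nat_lit 7) (nat_lit 4) (nat_lit 343) (nat_lit 276) (nat_lit 101))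 (XT.lf (nat_lit 0) (nat_lit 9808260042) (nat_lit 684) (nat_lit 1395837373) (nat_lit 684) (nat_lit 1395837373) (nat_lit 58) (nat_lit 3) (nat_lit 67) (nat_lit 3) (nat_lit 67) (nat_lit 5) (nat_lit 277) (nat_lit 277) (nat_lit 166))) (XT.nd (nat_lit 78) (nat_lit 0) (nat_lit 0) (XT.lf (nat_lit 76) (nat_lit 7177083142) (nat_lit 0) (nat_lit 13129431491) (nat_lit 684) (nat_lit 5512833196) (nat_lit 59) (nat_lit 5) (nat_lit 58) (nat_lit 3) (nat_lit 67) (nat_lit 5) (nat_lit 278) (nat_lit 277) (nat_lit 165)) (XT.nd (nat_lit 78) (nat_lit 0) (nat_lit 76) (XT.lf (nat_lit 76) (nat_lit 17738142990) (nat_lit 0) (nat_lit 3334493729) (nat_lit 684) (nat_lit 5395116412) (nat_lit 59) (nat_lit 5) (nat_lit 58) (nat_lit 3) (nat_lit 67) (nat_lit 5) (nat_lit 279) (nat_lit 277) (nat_lit 164)) (XT.lf (nat_lit 76) (nat_lit 1618722852) (nat_lit 0) (nat_lit 20386783906) (nat_lit 684) (nat_lit 5136682733) (nat_lit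 60) (nat_lit 5) (nat_lit 59) (nat_lit 5) (nat_lit 68) (nat_lit 5) (nat_lit 280) (nat_lit 277) (nat_lit 163))))))))
noncomputable def xc183 : XT := (XT.nd (nat_lit 2496) (nat_lit 988) (nat_lit 0) (XT.nd (nat_lit 1248) (nat_lit 1444) (nat_lit 0) (XT.nd (nat_lit 624) (nat_lit 988) (nat_lit 0) (XT.nd (nat_lit 312) (nat_lit 532) (nat_lit 0) (XT.nd (nat_lit 156) (nat_lit 0) (nat_lit 76) (XT.nd (nat_lit 78) (nat_lit 0) (nat_lit 0) (XT.lf (nat_lit 76) (nat_lit 12727874471) (nat_lit 0) (nat_lit 10453629726) (nat_lit 684) (nat_lit 4659050596) (nat_lit 60) (nat_lit 5) (nat_lit 59) (nat_lit 5) (nat_lit 68) (nat_lit 5) (nat_lit 281) (nat_lit 277) (nat_lit 162)) (XT.lf (nat_lit 76) (nat_lit 24389436894) (nat_lit 0) (nat_lit 21970869) (nat_lit 684) (nat_lit 4162705112) (nat_lit 60) (nat_lit 5) (nat_lit 59) (nat_lit 5) (nat_lit 68) (nat_lit 5) (nat_lit 282) (nat_lit 277) (nat_lit 161))) (XT.nd (nat_lit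 78) (nat_lit 0) (nat_lit 0) (XT.lf (nat_lit 76) (nat_lit 7351153012) (nat_lit 0) (nat_lit 18632460123) (nat_lit 684) (nat_lit 3346723801) (nat_lit 61) (nat_lit 5) (nat_lit 60) (nat_lit 5) (nat_lit 69) (nat_lit 5) (nat_lit 283) (nat_lit 277) (nat_lit 160)) (XT.lf (nat_lit 76) (nat_lit 19605544732) (nat_lit 0) (nat_lit 8095646299) (nat_lit 684) (nat_lit 2419870111) (nat_lit 61) (nat_lit 5) (nat_lit 60) (nat_lit 5) (nat_lit 69) (nat_lit 5) (nat_lit 284) (nat_lit 277) (nat_lit 159)))) (XT.nd (nat_lit 156) (nat_lit 0) (nat_lit 0) (XT.nd (nat_lit 78) (nat_lit 684) (nat_lit 0) (XT.lf (nat_lit 76) (nat_lit 1520410647) (nat_lit 0) (nat_lit 28050084469) (nat_lit 684) (nat_lit 1377559843) (nat_lit 62) (nat_lit 5) (nat_lit 61) (nat_lit 5) (nat_lit 70) (nat_lit 5) (nat_lit 285) (nat_lit 277) (nat_lit 158)) (XT.lf (nat_lit 0) (nat_lit 35479709) (nat_lit 684) (nat_lit 17418855952) (nat_lit 760)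 (nat_lit 14346829618) (nat_lit 52) (nat_lit 5) (nat_lit 61) (nat_lit 5) (nat_lit 62) (nat_lit 5) (nat_lit 286) (nat_lit 277) (nat_lit 157))) (XT.nd (nat_lit 78) (nat_lit 0) (nat_lit 76) (XT.lf (nat_lit 0) (nat_lit 1468906111) (nat_lit 684) (nat_lit 4835407659) (nat_lit 760) (nat_lit 26391708959) (nat_lit 52) (nat_lit 5) (nat_lit 61) (nat_lit 5) (nat_lit 62) (nat_lit 5) (nat_lit 287) (nat_lit 277) (nat_lit 156)) (XT.lf (nat_lit 0) (nat_lit 3191874995) (nat_lit 684) (nat_lit 25064608335) (nat_lit 76) (nat_lit 5368267361) (nat_lit 53) (nat_lit 5) (nat_lit 62) (nat_lit 5) (nat_lit 54) (nat_lit 5) (nat_lit 288) (nat_lit 277) (nat_lit 155))))) (XT.nd (nat_lit 312) (nat_lit 608) (nat_lit 0) (XT.nd (nat_lit 156) (nat_lit 0) (nat_lit 0) (XT.nd (nat_lit 78) (nat_lit 456) (nat_lit 0) (XT.lf (nat_lit 0) (nat_lit 5183936595) (nat_lit 684) (nat_lit 11910376093) (nat_lit 76) (nat_lit 17496475339)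 (nat_lit 53) (nat_lit 5) (nat_lit 62) (nat_lit 5) (nat_lit 54) (nat_lit 5) (nat_lit 289) (nat_lit 277) (nat_lit 154)) (XT.lf (nat_lit 0) (nat_lit 1961285937) (nat_lit 456) (nat_lit 5341472165) (nat_lit 532) (nat_lit 28301030512) (nat_lit 47) (nat_lit 5) (nat_lit 53) (nat_lit 5) (nat_lit 54) (nat_lit 5) (nat_lit 290) (nat_lit 277) (nat_lit 153))) (XT.nd (nat_lit 78) (nat_lit 0) (nat_lit 0) (XT.lf (nat_lit 0) (nat_lit 9838468531) (nat_lit 532) (nat_lit 19833099141) (nat_lit 76) (nat_lit 6980342479) (nat_lit 47) (nat_lit 5) (nat_lit 54) (nat_lit 5) (nat_lit 48) (nat_lit 5) (nat_lit 291) (nat_lit 277) (nat_lit 152)) (XT.lf (nat_lit 0) (nat_lit 12585347701) (nat_lit 532) (nat_lit 5423835198) (nat_lit 76) (nat_lit 19739053143) (nat_lit 47) (nat_lit 5) (nat_lit 54) (nat_lit 5) (nat_lit 48) (nat_lit 5) (nat_lit 292) (nat_lit 277) (nat_lit 151)))) (XT.nd (nat_lit 156) (nat_lit 304) (nat_lit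 0) (XT.nd (nat_lit 78) (nat_lit 0) (nat_lit 0) (XT.lf (nat_lit 0) (nat_lit 10023817017) (nat_lit 304) (nat_lit 5599223310) (nat_lit 380) (nat_lit 23268681035) (nat_lit 43) (nat_lit 5) (nat_lit 47) (nat_lit 5) (nat_lit 48) (nat_lit 5) (nat_lit 293) (nat_lit 277) (nat_lit 150)) (XT.lf (nat_lit 0) (nat_lit 19019071672) (nat_lit 380) (nat_lit 13776177711) (nat_lit 76) (nat_lit 7286824678) (nat_lit 43) (nat_lit 5) (nat_lit 48) (nat_lit 5) (nat_lit 44) (nat_lit 5) (nat_lit 294) (nat_lit 277) (nat_lit 149))) (XT.nd (nat_lit 78) (nat_lit 0) (nat_lit 0) (XT.lf (nat_lit 0) (nat_lit 2040789908) (nat_lit 304) (nat_lit 20664977765) (nat_lit 380) (nat_lit 18620148634) (nat_lit 39) (nat_lit 5) (nat_lit 43) (nat_lit 5) (nat_lit 44) (nat_lit 5) (nat_lit 295) (nat_lit 277) (nat_lit 148)) (XT.lf (nat_lit 0) (nat_lit 19124057206) (nat_lit 304) (nat_lit 7683346320) (nat_lit 380) (nat_lit 15813031234)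 (nat_lit 39) (nat_lit 5) (nat_lit 43) (nat_lit 5) (nat_lit 44) (nat_lit 5) (nat_lit 296) (nat_lit 277) (nat_lit 147)))))) (XT.nd (nat_lit 624) (nat_lit 684) (nat_lit 0) (XT.nd (nat_lit 312) (nat_lit 304) (nat_lit 0) (XT.nd (nat_lit 156) (nat_lit 228) (nat_lit 0) (XT.nd (nat_lit 78) (nat_lit 228) (nat_lit 0) (XT.lf (nat_lit 0) (nat_lit 31204401814) (nat_lit 380) (nat_lit 7013878649) (nat_lit 76) (nat_lit 5756898304) (nat_lit 39) (nat_lit 5) (nat_lit 44) (nat_lit 5) (nat_lit 40) (nat_lit 5) (nat_lit 297) (nat_lit 277) (nat_lit 146)) (XT.lf (nat_lit 0) (nat_lit 10500162015) (nat_lit 228) (nat_lit 25608529626) (nat_lit 304) (nat_lit 9274609267) (nat_lit 36) (nat_lit 5) (nat_lit 39) (nat_lit 5) (nat_lit 40) (nat_lit 5) (nat_lit 298) (nat_lit 277) (nat_lit 145))) (XT.nd (nat_lit 78) (nat_lit 228) (nat_lit 0) (XT.lf (nat_lit 0) (nat_lit 29130756801) (nat_lit 228) (nat_lit 12243846077) (nat_lit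 304) (nat_lit 5481418325) (nat_lit 36) (nat_lit 5) (nat_lit 39) (nat_lit 5) (nat_lit 40) (nat_lit 5) (nat_lit 299) (nat_lit 277) (nat_lit 144)) (XT.lf (nat_lit 0) (nat_lit 268517209) (nat_lit 228) (nat_lit 46665149729) (nat_lit 304) (nat_lit 1467229516) (nat_lit 33) (nat_lit 5) (nat_lit 36) (nat_lit 5) (nat_lit 37) (nat_lit 5) (nat_lit 300) (nat_lit 277) (nat_lit 143)))) (XT.nd (nat_lit 156) (nat_lit 228) (nat_lit 0) (XT.nd (nat_lit 78) (nat_lit 0) (nat_lit 0) (XT.lf (nat_lit 0) (nat_lit 3163304847) (nat_lit 304) (nat_lit 30481866490) (nat_lit 76) (nat_lit 16350530962) (nat_lit 32) (nat_lit 5) (nat_lit 36) (nat_lit 5) (nat_lit 33) (nat_lit 5) (nat_lit 301) (nat_lit 277) (nat_lit 142)) (XT.lf (nat_lit 0) (nat_lit 7973917276) (nat_lit 304) (nat_lit 11975443611) (nat_lit 76) (nat_lit 31719802105) (nat_lit 32) (nat_lit 5) (nat_lit 36) (nat_lit 5) (nat_lit 33) (nat_lit 5) (nat_lit 302)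 (nat_lit 277) (nat_lit 141))) (XT.nd (nat_lit 78) (nat_lit 0) (nat_lit 0) (XT.lf (nat_lit 0) (nat_lit 7700318139) (nat_lit 228) (nat_lit 5442927525) (nat_lit 304) (nat_lit 40277151500) (nat_lit 29) (nat_lit 5) (nat_lit 32) (nat_lit 5) (nat_lit 33) (nat_lit 5) (nat_lit 303) (nat_lit 277) (nat_lit 140)) (XT.lf (nat_lit 0) (nat_lit 18928020950) (nat_lit 304) (nat_lit 26632082757) (nat_lit 76) (nat_lit 9681249563) (nat_lit 29) (nat_lit 5) (nat_lit 33) (nat_lit 5) (nat_lit 30) (nat_lit 5) (nat_lit 304) (nat_lit 277) (nat_lit 139))))) (XT.nd (nat_lit 312) (nat_lit 456) (nat_lit 0) (XT.nd (nat_lit 156) (nat_lit 0) (nat_lit 0) (XT.nd (nat_lit 78) (nat_lit 228) (nat_lit 0) (XT.lf (nat_lit 0) (nat_lit 25089372617) (nat_lit 304) (nat_lit 6681298578) (nat_lit 76) (nat_lit 25378327911) (nat_lit 29) (nat_lit 5) (nat_lit 33) (nat_lit 5) (nat_lit 30) (nat_lit 5) (nat_lit 305) (nat_lit 277) (nat_lit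 138)) (XT.lf (nat_lit 0) (nat_lit 14736411941) (nat_lit 228) (nat_lit 17050655946) (nat_lit 304) (nat_lit 27353553937) (nat_lit 26) (nat_lit 5) (nat_lit 29) (nat_lit 5) (nat_lit 30) (nat_lit 5) (nat_lit 306) (nat_lit 277) (nat_lit 137))) (XT.nd (nat_lit 78) (nat_lit 0) (nat_lit 0) (XT.lf (nat_lit 0) (nat_lit 37454734122) (nat_lit 228) (nat_lit 1476315030) (nat_lit 304) (nat_lit 22295214453) (nat_lit 26) (nat_lit 5) (nat_lit 29) (nat_lit 5) (nat_lit 30) (nat_lit 5) (nat_lit 307) (nat_lit 277) (nat_lit 136)) (XT.lf (nat_lit 0) (nat_lit 46662823468) (nat_lit 304) (nat_lit 2341693563) (nat_lit 76) (nat_lit 14400148353) (nat_lit 26) (nat_lit 5) (nat_lit 30) (nat_lit 5) (nat_lit 27) (nat_lit 5) (nat_lit 308) (nat_lit 277) (nat_lit 135)))) (XT.nd (nat_lit 156) (nat_lit 304) (nat_lit 0) (XT.nd (nat_lit 78) (nat_lit 0) (nat_lit 0) (XT.lf (nat_lit 0) (nat_lit 20799025401) (nat_lit 152) (nat_lit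 34329500095) (nat_lit 228) (nat_lit 10546102052) (nat_lit 24) (nat_lit 5) (nat_lit 26) (nat_lit 5) (nat_lit 27) (nat_lit 5) (nat_lit 309) (nat_lit 277) (nat_lit 134)) (XT.lf (nat_lit 0) (nat_lit 45176007015) (nat_lit 152) (nat_lit 18879612921) (nat_lit 228) (nat_lit 4000569422) (nat_lit 24) (nat_lit 5) (nat_lit 26) (nat_lit 5) (nat_lit 27) (nat_lit 5) (nat_lit 310) (nat_lit 277) (nat_lit 133))) (XT.nd (nat_lit 78) (nat_lit 0) (nat_lit 0) (XT.lf (nat_lit 0) (nat_lit 173695008) (nat_lit 228) (nat_lit 2607819940) (nat_lit 304) (nat_lit 67773018147) (nat_lit 20) (nat_lit 5) (nat_lit 23) (nat_lit 5) (nat_lit 24) (nat_lit 5) (nat_lit 311) (nat_lit 277) (nat_lit 132)) (XT.lf (nat_lit 0) (nat_lit 10386657889) (nat_lit 304) (nat_lit 48283843203) (nat_lit 76) (nat_lit 14473099748) (nat_lit 20) (nat_lit 5) (nat_lit 24) (nat_lit 5) (nat_lit 21) (nat_lit 5) (nat_lit 312) (nat_lit 277) (nat_lit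 131))))))) (XT.nd (nat_lit 1248) (nat_lit 380) (nat_lit 0) (XT.nd (nat_lit 624) (nat_lit 304) (nat_lit 0) (XT.nd (nat_lit 312) (nat_lit 152) (nat_lit 0) (XT.nd (nat_lit 156) (nat_lit 152) (nat_lit 0) (XT.nd (nat_lit 78) (nat_lit 0) (nat_lit 0) (XT.lf (nat_lit 0) (nat_lit 18413404536) (nat_lit 304) (nat_lit 25126718621) (nat_lit 76) (nat_lit 32319937164) (nat_lit 20) (nat_lit 5) (nat_lit 24) (nat_lit 5) (nat_lit 21) (nat_lit 5) (nat_lit 313) (nat_lit 277) (nat_lit 130)) (XT.lf (nat_lit 0) (nat_lit 26840150816) (nat_lit 304) (nat_lit 813612955) (nat_lit 76) (nat_lit 51058651299) (nat_lit 20) (nat_lit 5) (nat_lit 24) (nat_lit 5) (nat_lit 21) (nat_lit 5) (nat_lit 314) (nat_lit 277) (nat_lit 129))) (XT.nd (nat_lit 78) (nat_lit 0) (nat_lit 0) (XT.lf (nat_lit 0) (nat_lit 25530497503) (nat_lit 152) (nat_lit 10555065520) (nat_lit 228) (nat_lit 45601963252) (nat_lit 18) (nat_lit 5) (nat_lit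 20) (nat_lit 5) (nat_lit 21) (nat_lit 5) (nat_lit 315) (nat_lit 277) (nat_lit 128)) (XT.lf (nat_lit 0) (nat_lit 45921514203) (nat_lit 228) (nat_lit 31708197994) (nat_lit 76) (nat_lit 7175272330) (nat_lit 18) (nat_lit 5) (nat_lit 21) (nat_lit 5) (nat_lit 19) (nat_lit 5) (nat_lit 316) (nat_lit 277) (nat_lit 127)))) (XT.nd (nat_lit 156) (nat_lit 0) (nat_lit 0) (XT.nd (nat_lit 78) (nat_lit 152) (nat_lit 0) (XT.lf (nat_lit 0) (nat_lit 56421107444) (nat_lit 228) (nat_lit 6211688994) (nat_lit 76) (nat_lit 25436931699) (nat_lit 18) (nat_lit 5) (nat_lit 21) (nat_lit 5) (nat_lit 19) (nat_lit 5) (nat_lit 317) (nat_lit 277) (nat_lit 126)) (XT.lf (nat_lit 0) (nat_lit 21237738620) (nat_lit 152) (nat_lit 46538389622) (nat_lit 228) (nat_lit 23705062741) (nat_lit 16) (nat_lit 5) (nat_lit 18) (nat_lit 5) (nat_lit 19) (nat_lit 5) (nat_lit 318) (nat_lit 277) (nat_lit 125))) (XT.nd (nat_lit 78) (nat_lit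 0) (nat_lit 0) (XT.lf (nat_lit 0) (nat_lit 50273672896) (nat_lit 152) (nat_lit 29529321058) (nat_lit 228) (nat_lit 15255032560) (nat_lit 16) (nat_lit 5) (nat_lit 18) (nat_lit 5) (nat_lit 19) (nat_lit 5) (nat_lit 319) (nat_lit 277) (nat_lit 124)) (XT.lf (nat_lit 0) (nat_lit 80759860519) (nat_lit 152) (nat_lit 11670290923) (nat_lit 228) (nat_lit 6383608989) (nat_lit 16) (nat_lit 5) (nat_lit 18) (nat_lit 5) (nat_lit 19) (nat_lit 5) (nat_lit 320) (nat_lit 277) (nat_lit 123))))) (XT.nd (nat_lit 312) (nat_lit 152) (nat_lit 0) (XT.nd (nat_lit 156) (nat_lit 0) (nat_lit 0) (XT.nd (nat_lit 78) (nat_lit 0) (nat_lit 0) (XT.lf (nat_lit 0) (nat_lit 3111223073) (nat_lit 152) (nat_lit 92565636847) (nat_lit 76) (nat_lit 7064453429) (nat_lit 14) (nat_lit 5) (nat_lit 16) (nat_lit 5) (nat_lit 15) (nat_lit 5) (nat_lit 321) (nat_lit 277) (nat_lit 122)) (XT.lf (nat_lit 0) (nat_lit 13367342029) (nat_lit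 152) (nat_lit 66708940540) (nat_lit 76) (nat_lit 26758678543) (nat_lit 14) (nat_lit 5) (nat_lit 16) (nat_lit 5) (nat_lit 15) (nat_lit 5) (nat_lit 322) (nat_lit 277) (nat_lit 121))) (XT.nd (nat_lit 78) (nat_lit 0) (nat_lit 0) (XT.lf (nat_lit 0) (nat_lit 24135311043) (nat_lit 152) (nat_lit 39560865310) (nat_lit 76) (nat_lit 47437166023) (nat_lit 14) (nat_lit 5) (nat_lit 16) (nat_lit 5) (nat_lit 15) (nat_lit 5) (nat_lit 323) (nat_lit 277) (nat_lit 120)) (XT.lf (nat_lit 0) (nat_lit 35440768136) (nat_lit 152) (nat_lit 11056772884) (nat_lit 76) (nat_lit 69149150364) (nat_lit 14) (nat_lit 5) (nat_lit 16) (nat_lit 5) (nat_lit 15) (nat_lit 5) (nat_lit 324) (nat_lit 277) (nat_lit 119)))) (XT.nd (nat_lit 156) (nat_lit 0) (nat_lit 0) (XT.nd (nat_lit 78) (nat_lit 0) (nat_lit 0) (XT.lf (nat_lit 0) (nat_lit 19495170842) (nat_lit 152) (nat_lit 28119834474) (nat_lit 228) (nat_lit 72755530176) (nat_lit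 12) (nat_lit 5) (nat_lit 14) (nat_lit 5) (nat_lit 15) (nat_lit 5) (nat_lit 325) (nat_lit 277) (nat_lit 118)) (XT.lf (nat_lit 0) (nat_lit 51957278703) (nat_lit 152) (nat_lit 8627081433) (nat_lit 228) (nat_lit 64736894248) (nat_lit 12) (nat_lit 5) (nat_lit 14) (nat_lit 5) (nat_lit 15) (nat_lit 5) (nat_lit 326) (nat_lit 277) (nat_lit 117))) (XT.nd (nat_lit 78) (nat_lit 0) (nat_lit 0) (XT.lf (nat_lit 0) (nat_lit 74386230637) (nat_lit 228) (nat_lit 44663151323) (nat_lit 76) (nat_lit 11460927595) (nat_lit 12) (nat_lit 5) (nat_lit 15) (nat_lit 5) (nat_lit 13) (nat_lit 4) (nat_lit 327) (nat_lit 277) (nat_lit 116)) (XT.lf (nat_lit 0) (nat_lit 89018848446) (nat_lit 228) (nat_lit 14669926310) (nat_lit 76) (nat_lit 32263012641) (nat_lit 12) (nat_lit 5) (nat_lit 15) (nat_lit 5) (nat_lit 13) (nat_lit 4) (nat_lit 328) (nat_lit 277) (nat_lit 115)))))) (XT.nd (nat_lit 624) (nat_lit 76) (nat_lit 0)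 (XT.nd (nat_lit 312) (nat_lit 228) (nat_lit 0) (XT.nd (nat_lit 156) (nat_lit 0) (nat_lit 0) (XT.nd (nat_lit 78) (nat_lit 0) (nat_lit 0) (XT.lf (nat_lit 0) (nat_lit 17378009549) (nat_lit 76) (nat_lit 87275670091) (nat_lit 152) (nat_lit 36998132843) (nat_lit 11) (nat_lit 5) (nat_lit 12) (nat_lit 5) (nat_lit 13) (nat_lit 4) (nat_lit 329) (nat_lit 277) (nat_lit 114)) (XT.lf (nat_lit 0) (nat_lit 51536512314) (nat_lit 76) (nat_lit 69781462793) (nat_lit 152) (nat_lit 26306479940) (nat_lit 11) (nat_lit 5) (nat_lit 12) (nat_lit 5) (nat_lit 13) (nat_lit 4) (nat_lit 330) (nat_lit 277) (nat_lit 113))) (XT.nd (nat_lit 78) (nat_lit 0) (nat_lit 0) (XT.lf (nat_lit 0) (nat_lit 87401857736) (nat_lit 76) (nat_lit 51412942289) (nat_lit 152) (nat_lit 15080966226) (nat_lit 11) (nat_lit 5) (nat_lit 12) (nat_lit 5) (nat_lit 13) (nat_lit 4) (nat_lit 331) (nat_lit 277) (nat_lit 112)) (XT.lf (nat_lit 0) (nat_lit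 125059439496) (nat_lit 76) (nat_lit 32126374005) (nat_lit 152) (nat_lit 3294864290) (nat_lit 11) (nat_lit 5) (nat_lit 12) (nat_lit 5) (nat_lit 13) (nat_lit 4) (nat_lit 332) (nat_lit 277) (nat_lit 111)))) (XT.nd (nat_lit 156) (nat_lit 0) (nat_lit 0) (XT.nd (nat_lit 78) (nat_lit 152) (nat_lit 0) (XT.lf (nat_lit 0) (nat_lit 8789274895) (nat_lit 152) (nat_lit 2937712022) (nat_lit 76) (nat_lit 155660792984) (nat_lit 10) (nat_lit 5) (nat_lit 12) (nat_lit 5) (nat_lit 11) (nat_lit 5) (nat_lit 333) (nat_lit 277) (nat_lit 110)) (XT.lf (nat_lit 0) (nat_lit 22028575704) (nat_lit 228) (nat_lit 142629085259) (nat_lit 76) (nat_lit 9946793107) (nat_lit 8) (nat_lit 5) (nat_lit 11) (nat_lit 5) (nat_lit 9) (nat_lit 4) (nat_lit 334) (nat_lit 277) (nat_lit 109))) (XT.nd (nat_lit 78) (nat_lit 0) (nat_lit 0) (XT.lf (nat_lit 0) (nat_lit 36172059374) (nat_lit 228) (nat_lit 113637408444) (nat_lit 76) (nat_lit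 32360385002) (nat_lit 8) (nat_lit 5) (nat_lit 11) (nat_lit 5) (nat_lit 9) (nat_lit 4) (nat_lit 335) (nat_lit 277) (nat_lit 108)) (XT.lf (nat_lit 0) (nat_lit 51022150520) (nat_lit 228) (nat_lit 83197068934) (nat_lit 76) (nat_lit 55894332063) (nat_lit 8) (nat_lit 5) (nat_lit 11) (nat_lit 5) (nat_lit 9) (nat_lit 4) (nat_lit 336) (nat_lit 277) (nat_lit 107))))) (XT.nd (nat_lit 312) (nat_lit 0) (nat_lit 0) (XT.nd (nat_lit 156) (nat_lit 76) (nat_lit 0) (XT.nd (nat_lit 78) (nat_lit 0) (nat_lit 0) (XT.lf (nat_lit 0) (nat_lit 66614206503) (nat_lit 228) (nat_lit 51235589729) (nat_lit 76) (nat_lit 80604667499) (nat_lit 8) (nat_lit 5) (nat_lit 11) (nat_lit 5) (nat_lit 9) (nat_lit 4) (nat_lit 337) (nat_lit 277) (nat_lit 106)) (XT.lf (nat_lit 0) (nat_lit 82985351266) (nat_lit 228) (nat_lit 17676872071) (nat_lit 76) (nat_lit 106550225442) (nat_lit 8) (nat_lit 5) (nat_lit 11) (nat_lit 5) (nat_lit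 9) (nat_lit 4) (nat_lit 338) (nat_lit 277) (nat_lit 105))) (XT.nd (nat_lit 78) (nat_lit 0) (nat_lit 0) (XT.lf (nat_lit 0) (nat_lit 18139565116) (nat_lit 76) (nat_lit 82318208056) (nat_lit 152) (nat_lit 115936425360) (nat_lit 7) (nat_lit 5) (nat_lit 8) (nat_lit 5) (nat_lit 9) (nat_lit 4) (nat_lit 339) (nat_lit 277) (nat_lit 104)) (XT.lf (nat_lit 0) (nat_lit 56359742360) (nat_lit 76) (nat_lit 62742961742) (nat_lit 152) (nat_lit 106917388654) (nat_lit 7) (nat_lit 5) (nat_lit 8) (nat_lit 5) (nat_lit 9) (nat_lit 4) (nat_lit 340) (nat_lit 277) (nat_lit 103)))) (XT.nd (nat_lit 32604) (nat_lit 0) (nat_lit 3876) (XT.nd (nat_lit 78) (nat_lit 0) (nat_lit 0) (XT.lf (nat_lit 0) (nat_lit 96490182861) (nat_lit 76) (nat_lit 42189243047) (nat_lit 152) (nat_lit 97447879880) (nat_lit 7) (nat_lit 5) (nat_lit 8) (nat_lit 5) (nat_lit 9) (nat_lit 4) (nat_lit 341) (nat_lit 277) (nat_lit 102)) (XT.lf (nat_lit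 0) (nat_lit 138626435287) (nat_lit 76) (nat_lit 20608114547) (nat_lit 152) (nat_lit 87505352589) (nat_lit 7) (nat_lit 5) (nat_lit 8) (nat_lit 5) (nat_lit 9) (nat_lit 4) (nat_lit 342) (nat_lit 277) (nat_lit 101))) (XT.nd (nat_lit 78) (nat_lit 0) (nat_lit 0) (XT.lf (nat_lit 0) (nat_lit 10384833665) (nat_lit 684) (nat_lit 1420129421) (nat_lit 684) (nat_lit 1420129421) (nat_lit 58) (nat_lit 3) (nat_lit 67) (nat_lit 3) (nat_lit 67) (nat_lit 5) (nat_lit 278) (nat_lit 278) (nat_lit 164)) (XT.lf (nat_lit 76) (nat_lit 7625469205) (nat_lit 0) (nat_lit 13861884473) (nat_lit 684) (nat_lit 5613674469) (nat_lit 59) (nat_lit 5) (nat_lit 58) (nat_lit 3) (nat_lit 67) (nat_lit 5) (nat_lit 279) (nat_lit 278) (nat_lit 163))))))))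
noncomputable def xc184 : XT := (XT.nd (nat_lit 1248) (nat_lit 1444) (nat_lit 0) (XT.nd (nat_lit 624) (nat_lit 684) (nat_lit 0) (XT.nd (nat_lit 312) (nat_lit 456) (nat_lit 0) (XT.nd (nat_lit 156) (nat_lit 0) (nat_lit 76) (XT.nd (nat_lit 78) (nat_lit 0) (nat_lit 76) (XT.lf (nat_lit 76) (nat_lit 18710318621) (nat_lit 0) (nat_lit 3573581661) (nat_lit 684) (nat_lit 5498395674) (nat_lit 59) (nat_lit 5) (nat_lit 58) (nat_lit 3) (nat_lit 67) (nat_lit 5) (nat_lit 280) (nat_lit 278) (nat_lit 162)) (XT.lf (nat_lit 76) (nat_lit 1793365922) (nat_lit 0) (nat_lit 21462928663) (nat_lit 684) (nat_lit 5234561379) (nat_lit 60) (nat_lit 5) (nat_lit 59) (nat_lit 5) (nat_lit 68) (nat_lit 5) (nat_lit 281) (nat_lit 278) (nat_lit 161))) (XT.nd (nat_lit 78) (nat_lit 0) (nat_lit 0) (XT.lf (nat_lit 76) (nat_lit 13453512887) (nat_lit 0) (nat_lit 11030411747) (nat_lit 684) (nat_lit 4740616945) (nat_lit 60) (nat_lit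 5) (nat_lit 59) (nat_lit 5) (nat_lit 68) (nat_lit 5) (nat_lit 282) (nat_lit 278) (nat_lit 160)) (XT.lf (nat_lit 76) (nat_lit 25693903684) (nat_lit 0) (nat_lit 74593731) (nat_lit 684) (nat_lit 4226663052) (nat_lit 60) (nat_lit 5) (nat_lit 59) (nat_lit 5) (nat_lit 68) (nat_lit 5) (nat_lit 283) (nat_lit 278) (nat_lit 159)))) (XT.nd (nat_lit 156) (nat_lit 608) (nat_lit 0) (XT.nd (nat_lit 78) (nat_lit 0) (nat_lit 0) (XT.lf (nat_lit 76) (nat_lit 7810660720) (nat_lit 0) (nat_lit 19602820885) (nat_lit 684) (nat_lit 3376045323) (nat_lit 61) (nat_lit 5) (nat_lit 60) (nat_lit 5) (nat_lit 69) (nat_lit 5) (nat_lit 284) (nat_lit 278) (nat_lit 158)) (XT.lf (nat_lit 76) (nat_lit 20673393452) (nat_lit 0) (nat_lit 8537321714) (nat_lit 684) (nat_lit 2409421076) (nat_lit 61) (nat_lit 5) (nat_lit 60) (nat_lit 5) (nat_lit 69) (nat_lit 5) (nat_lit 285) (nat_lit 278) (nat_lit 157))) (XT.nd (nat_lit 78) (nat_lit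 684) (nat_lit 0) (XT.lf (nat_lit 76) (nat_lit 1690022344) (nat_lit 0) (nat_lit 29478447872) (nat_lit 684) (nat_lit 1320296187) (nat_lit 62) (nat_lit 5) (nat_lit 61) (nat_lit 5) (nat_lit 70) (nat_lit 5) (nat_lit 286) (nat_lit 278) (nat_lit 156)) (XT.lf (nat_lit 0) (nat_lit 153543531) (nat_lit 684) (nat_lit 18196167278) (nat_lit 760) (nat_lit 15035046280) (nat_lit 52) (nat_lit 5) (nat_lit 61) (nat_lit 5) (nat_lit 62) (nat_lit 5) (nat_lit 287) (nat_lit 278) (nat_lit 155))))) (XT.nd (nat_lit 312) (nat_lit 304) (nat_lit 0) (XT.nd (nat_lit 156) (nat_lit 380) (nat_lit 0) (XT.nd (nat_lit 78) (nat_lit 0) (nat_lit 76) (XT.lf (nat_lit 0) (nat_lit 1653103642) (nat_lit 684) (nat_lit 4988005212) (nat_lit 760) (nat_lit 27683556484) (nat_lit 52) (nat_lit 5) (nat_lit 61) (nat_lit 5) (nat_lit 62) (nat_lit 5) (nat_lit 288) (nat_lit 278) (nat_lit 154)) (XT.lf (nat_lit 0) (nat_lit 3458018421) (nat_lit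 684) (nat_lit 26223872024) (nat_lit 76) (nat_lit 5618178949) (nat_lit 53) (nat_lit 5) (nat_lit 62) (nat_lit 5) (nat_lit 54) (nat_lit 5) (nat_lit 289) (nat_lit 278) (nat_lit 153))) (XT.nd (nat_lit 78) (nat_lit 456) (nat_lit 0) (XT.lf (nat_lit 0) (nat_lit 5544609307) (nat_lit 684) (nat_lit 12416402775) (nat_lit 76) (nat_lit 18353678362) (nat_lit 53) (nat_lit 5) (nat_lit 62) (nat_lit 5) (nat_lit 54) (nat_lit 5) (nat_lit 290) (nat_lit 278) (nat_lit 152)) (XT.lf (nat_lit 0) (nat_lit 2147398935) (nat_lit 456) (nat_lit 5618515457) (nat_lit 532) (nat_lit 29612626363) (nat_lit 47) (nat_lit 5) (nat_lit 53) (nat_lit 5) (nat_lit 54) (nat_lit 5) (nat_lit 291) (nat_lit 278) (nat_lit 151)))) (XT.nd (nat_lit 156) (nat_lit 304) (nat_lit 0) (XT.nd (nat_lit 78) (nat_lit 0) (nat_lit 0) (XT.lf (nat_lit 0) (nat_lit 10423594557) (nat_lit 532) (nat_lit 20735571578) (nat_lit 76) (nat_lit 7320168564) (nat_lit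 47) (nat_lit 5) (nat_lit 54) (nat_lit 5) (nat_lit 48) (nat_lit 5) (nat_lit 292) (nat_lit 278) (nat_lit 150)) (XT.lf (nat_lit 0) (nat_lit 13303379466) (nat_lit 532) (nat_lit 5610091224) (nat_lit 76) (nat_lit 20717252430) (nat_lit 47) (nat_lit 5) (nat_lit 54) (nat_lit 5) (nat_lit 48) (nat_lit 5) (nat_lit 293) (nat_lit 278) (nat_lit 149))) (XT.nd (nat_lit 78) (nat_lit 0) (nat_lit 0) (XT.lf (nat_lit 0) (nat_lit 10608573670) (nat_lit 304) (nat_lit 5881460875) (nat_lit 380) (nat_lit 24341517438) (nat_lit 43) (nat_lit 5) (nat_lit 47) (nat_lit 5) (nat_lit 48) (nat_lit 5) (nat_lit 294) (nat_lit 278) (nat_lit 148)) (XT.lf (nat_lit 0) (nat_lit 20051745885) (nat_lit 380) (nat_lit 14380837272) (nat_lit 76) (nat_lit 7649067302) (nat_lit 43) (nat_lit 5) (nat_lit 48) (nat_lit 5) (nat_lit 44) (nat_lit 5) (nat_lit 295) (nat_lit 278) (nat_lit 147)))))) (XT.nd (nat_lit 624) (nat_lit 608) (nat_lit 0)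 (XT.nd (nat_lit 312) (nat_lit 304) (nat_lit 0) (XT.nd (nat_lit 156) (nat_lit 228) (nat_lit 0) (XT.nd (nat_lit 78) (nat_lit 0) (nat_lit 0) (XT.lf (nat_lit 0) (nat_lit 2225621481) (nat_lit 304) (nat_lit 21694556363) (nat_lit 380) (nat_lit 19467657929) (nat_lit 39) (nat_lit 5) (nat_lit 43) (nat_lit 5) (nat_lit 44) (nat_lit 5) (nat_lit 296) (nat_lit 278) (nat_lit 146)) (XT.lf (nat_lit 0) (nat_lit 20159109664) (nat_lit 304) (nat_lit 8064018121) (nat_lit 380) (nat_lit 16524160761) (nat_lit 39) (nat_lit 5) (nat_lit 43) (nat_lit 5) (nat_lit 44) (nat_lit 5) (nat_lit 297) (nat_lit 278) (nat_lit 145))) (XT.nd (nat_lit 78) (nat_lit 228) (nat_lit 0) (XT.lf (nat_lit 0) (nat_lit 32836439674) (nat_lit 380) (nat_lit 7285560224) (nat_lit 76) (nat_lit 6047965731) (nat_lit 39) (nat_lit 5) (nat_lit 44) (nat_lit 5) (nat_lit 40) (nat_lit 5) (nat_lit 298) (nat_lit 278) (nat_lit 144)) (XT.lf (nat_lit 0) (nat_lit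 11102908080) (nat_lit 228) (nat_lit 26880829725) (nat_lit 304) (nat_lit 9664884532) (nat_lit 36) (nat_lit 5) (nat_lit 39) (nat_lit 5) (nat_lit 40) (nat_lit 5) (nat_lit 299) (nat_lit 278) (nat_lit 143)))) (XT.nd (nat_lit 156) (nat_lit 76) (nat_lit 0) (XT.nd (nat_lit 78) (nat_lit 228) (nat_lit 0) (XT.lf (nat_lit 0) (nat_lit 30661330797) (nat_lit 228) (nat_lit 12848298970) (nat_lit 304) (nat_lit 5685531909) (nat_lit 36) (nat_lit 5) (nat_lit 39) (nat_lit 5) (nat_lit 40) (nat_lit 5) (nat_lit 300) (nat_lit 278) (nat_lit 142)) (XT.lf (nat_lit 0) (nat_lit 358267755) (nat_lit 228) (nat_lit 48986529010) (nat_lit 304) (nat_lit 1472592902) (nat_lit 33) (nat_lit 5) (nat_lit 36) (nat_lit 5) (nat_lit 37) (nat_lit 5) (nat_lit 301) (nat_lit 278) (nat_lit 141))) (XT.nd (nat_lit 78) (nat_lit 0) (nat_lit 0) (XT.lf (nat_lit 0) (nat_lit 3384157447) (nat_lit 304) (nat_lit 31930898239) (nat_lit 76) (nat_lit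 17176998688) (nat_lit 32) (nat_lit 5) (nat_lit 36) (nat_lit 5) (nat_lit 33) (nat_lit 5) (nat_lit 302) (nat_lit 278) (nat_lit 140)) (XT.lf (nat_lit 0) (nat_lit 8432315386) (nat_lit 304) (nat_lit 12502728577) (nat_lit 76) (nat_lit 33314307618) (nat_lit 32) (nat_lit 5) (nat_lit 36) (nat_lit 5) (nat_lit 33) (nat_lit 5) (nat_lit 303) (nat_lit 278) (nat_lit 139))))) (XT.nd (nat_lit 312) (nat_lit 152) (nat_lit 0) (XT.nd (nat_lit 156) (nat_lit 228) (nat_lit 0) (XT.nd (nat_lit 78) (nat_lit 0) (nat_lit 0) (XT.lf (nat_lit 0) (nat_lit 8155668241) (nat_lit 228) (nat_lit 5702697101) (nat_lit 304) (nat_lit 42229882906) (nat_lit 29) (nat_lit 5) (nat_lit 32) (nat_lit 5) (nat_lit 33) (nat_lit 5) (nat_lit 304) (nat_lit 278) (nat_lit 138)) (XT.lf (nat_lit 0) (nat_lit 19929803551) (nat_lit 304) (nat_lit 27893868102) (nat_lit 76) (nat_lit 10176722198) (nat_lit 29) (nat_lit 5) (nat_lit 33) (nat_lit 5) (nat_lit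 30) (nat_lit 5) (nat_lit 305) (nat_lit 278) (nat_lit 137))) (XT.nd (nat_lit 78) (nat_lit 228) (nat_lit 0) (XT.lf (nat_lit 0) (nat_lit 26396585585) (nat_lit 304) (nat_lit 6948869419) (nat_lit 76) (nat_lit 26658111123) (nat_lit 29) (nat_lit 5) (nat_lit 33) (nat_lit 5) (nat_lit 30) (nat_lit 5) (nat_lit 306) (nat_lit 278) (nat_lit 136)) (XT.lf (nat_lit 0) (nat_lit 15538654141) (nat_lit 228) (nat_lit 17889021257) (nat_lit 304) (nat_lit 28667180794) (nat_lit 26) (nat_lit 5) (nat_lit 29) (nat_lit 5) (nat_lit 30) (nat_lit 5) (nat_lit 307) (nat_lit 278) (nat_lit 135)))) (XT.nd (nat_lit 156) (nat_lit 152) (nat_lit 0) (XT.nd (nat_lit 78) (nat_lit 0) (nat_lit 0) (XT.lf (nat_lit 0) (nat_lit 39389777116) (nat_lit 228) (nat_lit 1536637938) (nat_lit 304) (nat_lit 23358498185) (nat_lit 26) (nat_lit 5) (nat_lit 29) (nat_lit 5) (nat_lit 30) (nat_lit 5) (nat_lit 308) (nat_lit 278) (nat_lit 134)) (XT.lf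 (nat_lit 0) (nat_lit 49042654265) (nat_lit 304) (nat_lit 2397102838) (nat_lit 76) (nat_lit 15132594808) (nat_lit 26) (nat_lit 5) (nat_lit 30) (nat_lit 5) (nat_lit 27) (nat_lit 5) (nat_lit 309) (nat_lit 278) (nat_lit 133))) (XT.nd (nat_lit 78) (nat_lit 0) (nat_lit 0) (XT.lf (nat_lit 0) (nat_lit 21899657309) (nat_lit 152) (nat_lit 36030708166) (nat_lit 228) (nat_lit 11025520613) (nat_lit 24) (nat_lit 5) (nat_lit 26) (nat_lit 5) (nat_lit 27) (nat_lit 5) (nat_lit 310) (nat_lit 278) (nat_lit 132)) (XT.lf (nat_lit 0) (nat_lit 47492598449) (nat_lit 152) (nat_lit 19809053629) (nat_lit 228) (nat_lit 4154991663) (nat_lit 24) (nat_lit 5) (nat_lit 26) (nat_lit 5) (nat_lit 27) (nat_lit 5) (nat_lit 311) (nat_lit 278) (nat_lit 131)))))))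
noncomputable def xc185 : XT := (XT.nd (nat_lit 1248) (nat_lit 380) (nat_lit 0) (XT.nd (nat_lit 624) (nat_lit 304) (nat_lit 0) (XT.nd (nat_lit 312) (nat_lit 304) (nat_lit 0) (XT.nd (nat_lit 156) (nat_lit 0) (nat_lit 0) (XT.nd (nat_lit 78) (nat_lit 0) (nat_lit 0) (XT.lf (nat_lit 0) (nat_lit 240855270) (nat_lit 228) (nat_lit 2722692722) (nat_lit 304) (nat_lit 71116389266) (nat_lit 20) (nat_lit 5) (nat_lit 23) (nat_lit 5) (nat_lit 24) (nat_lit 5) (nat_lit 312) (nat_lit 278) (nat_lit 130)) (XT.lf (nat_lit 0) (nat_lit 10947133239) (nat_lit 304) (nat_lit 50640363248) (nat_lit 76) (nat_lit 15211060960) (nat_lit 20) (nat_lit 5) (nat_lit 24) (nat_lit 5) (nat_lit 21) (nat_lit 5) (nat_lit 313) (nat_lit 278) (nat_lit 129))) (XT.nd (nat_lit 78) (nat_lit 0) (nat_lit 0) (XT.lf (nat_lit 0) (nat_lit 19373258055) (nat_lit 304) (nat_lit 26328128729) (nat_lit 76) (nat_lit 33949558998) (nat_lit 20) (nat_lit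 5) (nat_lit 24) (nat_lit 5) (nat_lit 21) (nat_lit 5) (nat_lit 314) (nat_lit 278) (nat_lit 128)) (XT.lf (nat_lit 0) (nat_lit 28219475777) (nat_lit 304) (nat_lit 801983294) (nat_lit 76) (nat_lit 53624560031) (nat_lit 20) (nat_lit 5) (nat_lit 24) (nat_lit 5) (nat_lit 21) (nat_lit 5) (nat_lit 315) (nat_lit 278) (nat_lit 127)))) (XT.nd (nat_lit 156) (nat_lit 152) (nat_lit 0) (XT.nd (nat_lit 78) (nat_lit 0) (nat_lit 0) (XT.lf (nat_lit 0) (nat_lit 26858488972) (nat_lit 152) (nat_lit 11067696141) (nat_lit 228) (nat_lit 47843756613) (nat_lit 18) (nat_lit 5) (nat_lit 20) (nat_lit 5) (nat_lit 21) (nat_lit 5) (nat_lit 316) (nat_lit 278) (nat_lit 126)) (XT.lf (nat_lit 0) (nat_lit 48252428052) (nat_lit 228) (nat_lit 33242949465) (nat_lit 76) (nat_lit 7547977504) (nat_lit 18) (nat_lit 5) (nat_lit 21) (nat_lit 5) (nat_lit 19) (nat_lit 5) (nat_lit 317) (nat_lit 278) (nat_lit 125))) (XT.nd (nat_lit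 78) (nat_lit 152) (nat_lit 0) (XT.lf (nat_lit 0) (nat_lit 59275341996) (nat_lit 228) (nat_lit 6474027322) (nat_lit 76) (nat_lit 26722055959) (nat_lit 18) (nat_lit 5) (nat_lit 21) (nat_lit 5) (nat_lit 19) (nat_lit 5) (nat_lit 318) (nat_lit 278) (nat_lit 124)) (XT.lf (nat_lit 0) (nat_lit 22347093510) (nat_lit 152) (nat_lit 48850181470) (nat_lit 228) (nat_lit 24856234431) (nat_lit 16) (nat_lit 5) (nat_lit 18) (nat_lit 5) (nat_lit 19) (nat_lit 5) (nat_lit 319) (nat_lit 278) (nat_lit 123))))) (XT.nd (nat_lit 312) (nat_lit 152) (nat_lit 0) (XT.nd (nat_lit 156) (nat_lit 152) (nat_lit 0) (XT.nd (nat_lit 78) (nat_lit 0) (nat_lit 0) (XT.lf (nat_lit 0) (nat_lit 52832564121) (nat_lit 152) (nat_lit 30991379841) (nat_lit 228) (nat_lit 15985325667) (nat_lit 16) (nat_lit 5) (nat_lit 18) (nat_lit 5) (nat_lit 19) (nat_lit 5) (nat_lit 320) (nat_lit 278) (nat_lit 122)) (XT.lf (nat_lit 0) (nat_lit 84840908383)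 (nat_lit 152) (nat_lit 12240084261) (nat_lit 228) (nat_lit 6671876562) (nat_lit 16) (nat_lit 5) (nat_lit 18) (nat_lit 5) (nat_lit 19) (nat_lit 5) (nat_lit 321) (nat_lit 278) (nat_lit 121))) (XT.nd (nat_lit 78) (nat_lit 0) (nat_lit 0) (XT.lf (nat_lit 0) (nat_lit 3296183660) (nat_lit 152) (nat_lit 97149141101) (nat_lit 76) (nat_lit 7431482183) (nat_lit 14) (nat_lit 5) (nat_lit 16) (nat_lit 5) (nat_lit 15) (nat_lit 5) (nat_lit 322) (nat_lit 278) (nat_lit 120)) (XT.lf (nat_lit 0) (nat_lit 14063708590) (nat_lit 152) (nat_lit 70001742244) (nat_lit 76) (nat_lit 28109761121) (nat_lit 14) (nat_lit 5) (nat_lit 16) (nat_lit 5) (nat_lit 15) (nat_lit 5) (nat_lit 323) (nat_lit 278) (nat_lit 119)))) (XT.nd (nat_lit 156) (nat_lit 152) (nat_lit 0) (XT.nd (nat_lit 78) (nat_lit 0) (nat_lit 0) (XT.lf (nat_lit 0) (nat_lit 25368742747) (nat_lit 152) (nat_lit 41498293983) (nat_lit 76) (nat_lit 49821546849)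 (nat_lit 14) (nat_lit 5) (nat_lit 16) (nat_lit 5) (nat_lit 15) (nat_lit 5) (nat_lit 324) (nat_lit 278) (nat_lit 118)) (XT.lf (nat_lit 0) (nat_lit 37238202879) (nat_lit 152) (nat_lit 11570930963) (nat_lit 76) (nat_lit 72618534096) (nat_lit 14) (nat_lit 5) (nat_lit 16) (nat_lit 5) (nat_lit 15) (nat_lit 5) (nat_lit 325) (nat_lit 278) (nat_lit 117))) (XT.nd (nat_lit 78) (nat_lit 0) (nat_lit 0) (XT.lf (nat_lit 0) (nat_lit 20507986068) (nat_lit 152) (nat_lit 29512550671) (nat_lit 228) (nat_lit 76367202471) (nat_lit 12) (nat_lit 5) (nat_lit 14) (nat_lit 5) (nat_lit 15) (nat_lit 5) (nat_lit 326) (nat_lit 278) (nat_lit 116)) (XT.lf (nat_lit 0) (nat_lit 54591387100) (nat_lit 152) (nat_lit 9045792146) (nat_lit 228) (nat_lit 67948877804) (nat_lit 12) (nat_lit 5) (nat_lit 14) (nat_lit 5) (nat_lit 15) (nat_lit 5) (nat_lit 327) (nat_lit 278) (nat_lit 115)))))) (XT.nd (nat_lit 624) (nat_lit 76) (nat_lit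 0) (XT.nd (nat_lit 312) (nat_lit 228) (nat_lit 0) (XT.nd (nat_lit 156) (nat_lit 76) (nat_lit 0) (XT.nd (nat_lit 78) (nat_lit 0) (nat_lit 0) (XT.lf (nat_lit 0) (nat_lit 78128207408) (nat_lit 228) (nat_lit 46860778302) (nat_lit 76) (nat_lit 12045629872) (nat_lit 12) (nat_lit 5) (nat_lit 15) (nat_lit 5) (nat_lit 13) (nat_lit 4) (nat_lit 328) (nat_lit 278) (nat_lit 114)) (XT.lf (nat_lit 0) (nat_lit 93491376810) (nat_lit 228) (nat_lit 15369583970) (nat_lit 76) (nat_lit 33887264128) (nat_lit 12) (nat_lit 5) (nat_lit 15) (nat_lit 5) (nat_lit 13) (nat_lit 4) (nat_lit 329) (nat_lit 278) (nat_lit 113))) (XT.nd (nat_lit 78) (nat_lit 0) (nat_lit 0) (XT.lf (nat_lit 0) (nat_lit 18280202897) (nat_lit 76) (nat_lit 91627238560) (nat_lit 152) (nat_lit 38825838652) (nat_lit 11) (nat_lit 5) (nat_lit 12) (nat_lit 5) (nat_lit 13) (nat_lit 4) (nat_lit 330) (nat_lit 278) (nat_lit 112)) (XT.lf (nat_lit 0)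 (nat_lit 54145045425) (nat_lit 76) (nat_lit 73258902566) (nat_lit 152) (nat_lit 27600660286) (nat_lit 11) (nat_lit 5) (nat_lit 12) (nat_lit 5) (nat_lit 13) (nat_lit 4) (nat_lit 331) (nat_lit 278) (nat_lit 111)))) (XT.nd (nat_lit 156) (nat_lit 228) (nat_lit 0) (XT.nd (nat_lit 78) (nat_lit 0) (nat_lit 0) (XT.lf (nat_lit 0) (nat_lit 91802148238) (nat_lit 76) (nat_lit 53972510006) (nat_lit 152) (nat_lit 15814877728) (nat_lit 11) (nat_lit 5) (nat_lit 12) (nat_lit 5) (nat_lit 13) (nat_lit 4) (nat_lit 332) (nat_lit 278) (nat_lit 110)) (XT.lf (nat_lit 0) (nat_lit 131341171104) (nat_lit 76) (nat_lit 33722140898) (nat_lit 152) (nat_lit 3440429590) (nat_lit 11) (nat_lit 5) (nat_lit 12) (nat_lit 5) (nat_lit 13) (nat_lit 4) (nat_lit 333) (nat_lit 278) (nat_lit 109))) (XT.nd (nat_lit 78) (nat_lit 152) (nat_lit 0) (XT.lf (nat_lit 0) (nat_lit 9246418736) (nat_lit 152) (nat_lit 3056568766) (nat_lit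 76) (nat_lit 163453243243) (nat_lit 10) (nat_lit 5) (nat_lit 12) (nat_lit 5) (nat_lit 11) (nat_lit 5) (nat_lit 334) (nat_lit 278) (nat_lit 108)) (XT.lf (nat_lit 0) (nat_lit 23147434165) (nat_lit 228) (nat_lit 149732208676) (nat_lit 76) (nat_lit 10454110882) (nat_lit 8) (nat_lit 5) (nat_lit 11) (nat_lit 5) (nat_lit 9) (nat_lit 4) (nat_lit 335) (nat_lit 278) (nat_lit 107))))) (XT.nd (nat_lit 312) (nat_lit 76) (nat_lit 0) (XT.nd (nat_lit 156) (nat_lit 0) (nat_lit 0) (XT.nd (nat_lit 78) (nat_lit 0) (nat_lit 0) (XT.lf (nat_lit 0) (nat_lit 37997262033) (nat_lit 228) (nat_lit 119292297108) (nat_lit 76) (nat_lit 33987907222) (nat_lit 8) (nat_lit 5) (nat_lit 11) (nat_lit 5) (nat_lit 9) (nat_lit 4) (nat_lit 336) (nat_lit 278) (nat_lit 106)) (XT.lf (nat_lit 0) (nat_lit 53589067275) (nat_lit 228) (nat_lit 87331225468) (nat_lit 76) (nat_lit 58698099115) (nat_lit 8) (nat_lit 5) (nat_lit 11) (nat_lit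 5) (nat_lit 9) (nat_lit 4) (nat_lit 337) (nat_lit 278) (nat_lit 105))) (XT.nd (nat_lit 78) (nat_lit 0) (nat_lit 0) (XT.lf (nat_lit 0) (nat_lit 69959973237) (nat_lit 228) (nat_lit 53772895966) (nat_lit 76) (nat_lit 84643520349) (nat_lit 8) (nat_lit 5) (nat_lit 11) (nat_lit 5) (nat_lit 9) (nat_lit 4) (nat_lit 338) (nat_lit 278) (nat_lit 104)) (XT.lf (nat_lit 0) (nat_lit 87148958266) (nat_lit 228) (nat_lit 18537407818) (nat_lit 76) (nat_lit 111885945738) (nat_lit 8) (nat_lit 5) (nat_lit 11) (nat_lit 5) (nat_lit 9) (nat_lit 4) (nat_lit 339) (nat_lit 278) (nat_lit 103)))) (XT.nd (nat_lit 156) (nat_lit 0) (nat_lit 0) (XT.nd (nat_lit 78) (nat_lit 0) (nat_lit 0) (XT.lf (nat_lit 0) (nat_lit 19069475296) (nat_lit 76) (nat_lit 86425201173) (nat_lit 152) (nat_lit 121718490854) (nat_lit 7) (nat_lit 5) (nat_lit 8) (nat_lit 5) (nat_lit 9) (nat_lit 4) (nat_lit 340) (nat_lit 278) (nat_lit 102)) (XT.lf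 (nat_lit 0) (nat_lit 59199569406) (nat_lit 76) (nat_lit 65871617176) (nat_lit 152) (nat_lit 112249204968) (nat_lit 7) (nat_lit 5) (nat_lit 8) (nat_lit 5) (nat_lit 9) (nat_lit 4) (nat_lit 341) (nat_lit 278) (nat_lit 101))) (XT.nd (nat_lit 32604) (nat_lit 0) (nat_lit 3876) (XT.lf (nat_lit 0) (nat_lit 101335491935) (nat_lit 76) (nat_lit 44290616958) (nat_lit 152) (nat_lit 102306889952) (nat_lit 7) (nat_lit 5) (nat_lit 8) (nat_lit 5) (nat_lit 9) (nat_lit 4) (nat_lit 342) (nat_lit 278) (nat_lit 100)) (XT.nd (nat_lit 78) (nat_lit 0) (nat_lit 0) (XT.lf (nat_lit 0) (nat_lit 10982225572) (nat_lit 684) (nat_lit 1449866213) (nat_lit 684) (nat_lit 1449866213) (nat_lit 58) (nat_lit 3) (nat_lit 67) (nat_lit 3) (nat_lit 67) (nat_lit 5) (nat_lit 279) (nat_lit 279) (nat_lit 162)) (XT.lf (nat_lit 76) (nat_lit 8087950743) (nat_lit 0) (nat_lit 14623896073) (nat_lit 684) (nat_lit 5735809088) (nat_lit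 59) (nat_lit 5) (nat_lit 58) (nat_lit 3) (nat_lit 67) (nat_lit 5) (nat_lit 280) (nat_lit 279) (nat_lit 161))))))))
noncomputable def xc186 : XT := (XT.nd (nat_lit 1248) (nat_lit 1444) (nat_lit 0) (XT.nd (nat_lit 624) (nat_lit 684) (nat_lit 0) (XT.nd (nat_lit 312) (nat_lit 456) (nat_lit 0) (XT.nd (nat_lit 156) (nat_lit 0) (nat_lit 76) (XT.nd (nat_lit 78) (nat_lit 0) (nat_lit 76) (XT.lf (nat_lit 76) (nat_lit 19723175578) (nat_lit 0) (nat_lit 3817896341) (nat_lit 684) (nat_lit 5622316311) (nat_lit 59) (nat_lit 5) (nat_lit 58) (nat_lit 3) (nat_lit 67) (nat_lit 5) (nat_lit 281) (nat_lit 279) (nat_lit 160)) (XT.lf (nat_lit 76) (nat_lit 1968029164) (nat_lit 0) (nat_lit 22587599415) (nat_lit 684) (nat_lit 5352112133) (nat_lit 60) (nat_lit 5) (nat_lit 59) (nat_lit 5) (nat_lit 68) (nat_lit 5) (nat_lit 282) (nat_lit 279) (nat_lit 159))) (XT.nd (nat_lit 78) (nat_lit 0) (nat_lit 0) (XT.lf (nat_lit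 76) (nat_lit 14207136098) (nat_lit 0) (nat_lit 11631003115) (nat_lit 684) (nat_lit 4840336063) (nat_lit 60) (nat_lit 5) (nat_lit 59) (nat_lit 5) (nat_lit 68) (nat_lit 5) (nat_lit 283) (nat_lit 279) (nat_lit 158)) (XT.lf (nat_lit 76) (nat_lit 27055691790) (nat_lit 0) (nat_lit 125057493) (nat_lit 684) (nat_lit 4307223130) (nat_lit 60) (nat_lit 5) (nat_lit 59) (nat_lit 5) (nat_lit 68) (nat_lit 5) (nat_lit 284) (nat_lit 279) (nat_lit 157)))) (XT.nd (nat_lit 156) (nat_lit 608) (nat_lit 0) (XT.nd (nat_lit 78) (nat_lit 0) (nat_lit 0) (XT.lf (nat_lit 76) (nat_lit 8284595168) (nat_lit 0) (nat_lit 20618098215) (nat_lit 684) (nat_lit 3419664217) (nat_lit 61) (nat_lit 5) (nat_lit 60) (nat_lit 5) (nat_lit 69) (nat_lit 5) (nat_lit 285) (nat_lit 279) (nat_lit 156)) (XT.lf (nat_lit 76) (nat_lit 21786493042) (nat_lit 0) (nat_lit 8997650929) (nat_lit 684) (nat_lit 2410669870) (nat_lit 61) (nat_lit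 5) (nat_lit 60) (nat_lit 5) (nat_lit 69) (nat_lit 5) (nat_lit 286) (nat_lit 279) (nat_lit 155))) (XT.nd (nat_lit 78) (nat_lit 684) (nat_lit 0) (XT.lf (nat_lit 76) (nat_lit 1859413406) (nat_lit 0) (nat_lit 30975825303) (nat_lit 684) (nat_lit 1271896802) (nat_lit 62) (nat_lit 5) (nat_lit 61) (nat_lit 5) (nat_lit 70) (nat_lit 5) (nat_lit 287) (nat_lit 279) (nat_lit 154)) (XT.lf (nat_lit 0) (nat_lit 266699018) (nat_lit 684) (nat_lit 19021049137) (nat_lit 760) (nat_lit 15760381524) (nat_lit 52) (nat_lit 5) (nat_lit 61) (nat_lit 5) (nat_lit 62) (nat_lit 5) (nat_lit 288) (nat_lit 279) (nat_lit 153))))) (XT.nd (nat_lit 312) (nat_lit 304) (nat_lit 0) (XT.nd (nat_lit 156) (nat_lit 380) (nat_lit 0) (XT.nd (nat_lit 78) (nat_lit 0) (nat_lit 76) (XT.lf (nat_lit 0) (nat_lit 1836214357) (nat_lit 684) (nat_lit 5156523087) (nat_lit 760) (nat_lit 29042575194) (nat_lit 52) (nat_lit 5) (nat_lit 61) (nat_lit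 5) (nat_lit 62) (nat_lit 5) (nat_lit 289) (nat_lit 279) (nat_lit 152)) (XT.lf (nat_lit 0) (nat_lit 3727563039) (nat_lit 684) (nat_lit 27449835032) (nat_lit 76) (nat_lit 5882306235) (nat_lit 53) (nat_lit 5) (nat_lit 62) (nat_lit 5) (nat_lit 54) (nat_lit 5) (nat_lit 290) (nat_lit 279) (nat_lit 151))) (XT.nd (nat_lit 78) (nat_lit 456) (nat_lit 0) (XT.lf (nat_lit 0) (nat_lit 5913881389) (nat_lit 684) (nat_lit 12956050921) (nat_lit 76) (nat_lit 19255379746) (nat_lit 53) (nat_lit 5) (nat_lit 62) (nat_lit 5) (nat_lit 54) (nat_lit 5) (nat_lit 291) (nat_lit 279) (nat_lit 150)) (XT.lf (nat_lit 0) (nat_lit 2334631649) (nat_lit 456) (nat_lit 5908484026) (nat_lit 532) (nat_lit 30999420335) (nat_lit 47) (nat_lit 5) (nat_lit 53) (nat_lit 5) (nat_lit 54) (nat_lit 5) (nat_lit 292) (nat_lit 279) (nat_lit 149)))) (XT.nd (nat_lit 156) (nat_lit 304) (nat_lit 0) (XT.nd (nat_lit 78) (nat_lit 0) (nat_lit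 0) (XT.lf (nat_lit 0) (nat_lit 11029311790) (nat_lit 532) (nat_lit 21691458982) (nat_lit 76) (nat_lit 7677840448) (nat_lit 47) (nat_lit 5) (nat_lit 54) (nat_lit 5) (nat_lit 48) (nat_lit 5) (nat_lit 293) (nat_lit 279) (nat_lit 148)) (XT.lf (nat_lit 0) (nat_lit 14049060350) (nat_lit 532) (nat_lit 5813556571) (nat_lit 76) (nat_lit 21745175486) (nat_lit 47) (nat_lit 5) (nat_lit 54) (nat_lit 5) (nat_lit 48) (nat_lit 5) (nat_lit 294) (nat_lit 279) (nat_lit 147))) (XT.nd (nat_lit 78) (nat_lit 0) (nat_lit 0) (XT.lf (nat_lit 0) (nat_lit 11214798999) (nat_lit 304) (nat_lit 6177598680) (nat_lit 380) (nat_lit 25476418571) (nat_lit 43) (nat_lit 5) (nat_lit 47) (nat_lit 5) (nat_lit 48) (nat_lit 5) (nat_lit 295) (nat_lit 279) (nat_lit 146)) (XT.lf (nat_lit 0) (nat_lit 21128456199) (nat_lit 380) (nat_lit 15023553218) (nat_lit 76) (nat_lit 8029617166) (nat_lit 43) (nat_lit 5) (nat_lit 48) (nat_lit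 5) (nat_lit 44) (nat_lit 5) (nat_lit 296) (nat_lit 279) (nat_lit 145)))))) (XT.nd (nat_lit 624) (nat_lit 608) (nat_lit 0) (XT.nd (nat_lit 312) (nat_lit 304) (nat_lit 0) (XT.nd (nat_lit 156) (nat_lit 228) (nat_lit 0) (XT.nd (nat_lit 78) (nat_lit 0) (nat_lit 0) (XT.lf (nat_lit 0) (nat_lit 2411997410) (nat_lit 304) (nat_lit 22775955119) (nat_lit 380) (nat_lit 20365305553) (nat_lit 39) (nat_lit 5) (nat_lit 43) (nat_lit 5) (nat_lit 44) (nat_lit 5) (nat_lit 297) (nat_lit 279) (nat_lit 144)) (XT.lf (nat_lit 0) (nat_lit 21238584056) (nat_lit 304) (nat_lit 8464048492) (nat_lit 380) (nat_lit 17278239968) (nat_lit 39) (nat_lit 5) (nat_lit 43) (nat_lit 5) (nat_lit 44) (nat_lit 5) (nat_lit 298) (nat_lit 279) (nat_lit 143))) (XT.nd (nat_lit 78) (nat_lit 228) (nat_lit 0) (XT.lf (nat_lit 0) (nat_lit 34543402491) (nat_lit 380) (nat_lit 7578171698) (nat_lit 76) (nat_lit 6353286929) (nat_lit 39) (nat_lit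 5) (nat_lit 44) (nat_lit 5) (nat_lit 40) (nat_lit 5) (nat_lit 299) (nat_lit 279) (nat_lit 142)) (XT.lf (nat_lit 0) (nat_lit 11728564110) (nat_lit 228) (nat_lit 28217500344) (nat_lit 304) (nat_lit 10081502727) (nat_lit 36) (nat_lit 5) (nat_lit 39) (nat_lit 5) (nat_lit 40) (nat_lit 5) (nat_lit 300) (nat_lit 279) (nat_lit 141)))) (XT.nd (nat_lit 156) (nat_lit 76) (nat_lit 0) (XT.nd (nat_lit 78) (nat_lit 228) (nat_lit 0) (XT.lf (nat_lit 0) (nat_lit 32261550314) (nat_lit 228) (nat_lit 13483694044) (nat_lit 304) (nat_lit 5906355141) (nat_lit 36) (nat_lit 5) (nat_lit 39) (nat_lit 5) (nat_lit 40) (nat_lit 5) (nat_lit 301) (nat_lit 279) (nat_lit 140)) (XT.lf (nat_lit 0) (nat_lit 445409882) (nat_lit 228) (nat_lit 51425081577) (nat_lit 304) (nat_lit 1484546276) (nat_lit 33) (nat_lit 5) (nat_lit 36) (nat_lit 5) (nat_lit 37) (nat_lit 5) (nat_lit 302) (nat_lit 279) (nat_lit 139))) (XT.nd (nat_lit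 78) (nat_lit 0) (nat_lit 0) (XT.lf (nat_lit 0) (nat_lit 3610224601) (nat_lit 304) (nat_lit 33459360090) (nat_lit 76) (nat_lit 18043958534) (nat_lit 32) (nat_lit 5) (nat_lit 36) (nat_lit 5) (nat_lit 33) (nat_lit 5) (nat_lit 303) (nat_lit 279) (nat_lit 138)) (XT.lf (nat_lit 0) (nat_lit 8908082852) (nat_lit 304) (nat_lit 13063023994) (nat_lit 76) (nat_lit 34987746725) (nat_lit 32) (nat_lit 5) (nat_lit 36) (nat_lit 5) (nat_lit 33) (nat_lit 5) (nat_lit 304) (nat_lit 279) (nat_lit 137))))) (XT.nd (nat_lit 312) (nat_lit 152) (nat_lit 0) (XT.nd (nat_lit 156) (nat_lit 228) (nat_lit 0) (XT.nd (nat_lit 78) (nat_lit 0) (nat_lit 0) (XT.lf (nat_lit 0) (nat_lit 8627246841) (nat_lit 228) (nat_lit 5976605834) (nat_lit 304) (nat_lit 44285933814) (nat_lit 29) (nat_lit 5) (nat_lit 32) (nat_lit 5) (nat_lit 33) (nat_lit 5) (nat_lit 305) (nat_lit 279) (nat_lit 136)) (XT.lf (nat_lit 0) (nat_lit 20976526431)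 (nat_lit 304) (nat_lit 29225233804) (nat_lit 76) (nat_lit 10695907656) (nat_lit 29) (nat_lit 5) (nat_lit 33) (nat_lit 5) (nat_lit 30) (nat_lit 5) (nat_lit 306) (nat_lit 279) (nat_lit 135))) (XT.nd (nat_lit 78) (nat_lit 228) (nat_lit 0) (XT.lf (nat_lit 0) (nat_lit 27764255533) (nat_lit 304) (nat_lit 7236000792) (nat_lit 76) (nat_lit 28000873202) (nat_lit 29) (nat_lit 5) (nat_lit 33) (nat_lit 5) (nat_lit 30) (nat_lit 5) (nat_lit 307) (nat_lit 279) (nat_lit 134)) (XT.lf (nat_lit 0) (nat_lit 16374926170) (nat_lit 228) (nat_lit 18770621992) (nat_lit 304) (nat_lit 30051514129) (nat_lit 26) (nat_lit 5) (nat_lit 29) (nat_lit 5) (nat_lit 30) (nat_lit 5) (nat_lit 308) (nat_lit 279) (nat_lit 133)))) (XT.nd (nat_lit 156) (nat_lit 152) (nat_lit 0) (XT.nd (nat_lit 78) (nat_lit 0) (nat_lit 0) (XT.lf (nat_lit 0) (nat_lit 41415779613) (nat_lit 228) (nat_lit 1601231427) (nat_lit 304) (nat_lit 24479731947)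 (nat_lit 26) (nat_lit 5) (nat_lit 29) (nat_lit 5) (nat_lit 30) (nat_lit 5) (nat_lit 309) (nat_lit 279) (nat_lit 132)) (XT.lf (nat_lit 0) (nat_lit 51537135844) (nat_lit 304) (nat_lit 2461016571) (nat_lit 76) (nat_lit 15900507121) (nat_lit 26) (nat_lit 5) (nat_lit 30) (nat_lit 5) (nat_lit 27) (nat_lit 5) (nat_lit 310) (nat_lit 279) (nat_lit 131))) (XT.nd (nat_lit 78) (nat_lit 0) (nat_lit 0) (XT.lf (nat_lit 0) (nat_lit 23049679302) (nat_lit 152) (nat_lit 37818396014) (nat_lit 228) (nat_lit 11533362139) (nat_lit 24) (nat_lit 5) (nat_lit 26) (nat_lit 5) (nat_lit 27) (nat_lit 5) (nat_lit 311) (nat_lit 279) (nat_lit 130)) (XT.lf (nat_lit 0) (nat_lit 49919646589) (nat_lit 152) (nat_lit 20786318159) (nat_lit 228) (nat_lit 4321375051) (nat_lit 24) (nat_lit 5) (nat_lit 26) (nat_lit 5) (nat_lit 27) (nat_lit 5) (nat_lit 312) (nat_lit 279) (nat_lit 129)))))))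
noncomputable def xc187 : XT := (XT.nd (nat_lit 1248) (nat_lit 380) (nat_lit 0) (XT.nd (nat_lit 624) (nat_lit 304) (nat_lit 0) (XT.nd (nat_lit 312) (nat_lit 304) (nat_lit 0) (XT.nd (nat_lit 156) (nat_lit 0) (nat_lit 0) (XT.nd (nat_lit 78) (nat_lit 0) (nat_lit 0) (XT.lf (nat_lit 0) (nat_lit 305937046) (nat_lit 228) (nat_lit 2844751879) (nat_lit 304) (nat_lit 74631138627) (nat_lit 20) (nat_lit 5) (nat_lit 23) (nat_lit 5) (nat_lit 24) (nat_lit 5) (nat_lit 313) (nat_lit 279) (nat_lit 128)) (XT.lf (nat_lit 0) (nat_lit 11531807322) (nat_lit 304) (nat_lit 53120071102) (nat_lit 76) (nat_lit 15984590176) (nat_lit 20) (nat_lit 5) (nat_lit 24) (nat_lit 5) (nat_lit 21) (nat_lit 5) (nat_lit 314) (nat_lit 279) (nat_lit 127))) (XT.nd (nat_lit 78) (nat_lit 0) (nat_lit 0) (XT.lf (nat_lit 0) (nat_lit 20377461358) (nat_lit 304) (nat_lit 27594715824) (nat_lit 76) (nat_lit 35659395202) (nat_lit 20) (nat_lit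 5) (nat_lit 24) (nat_lit 5) (nat_lit 21) (nat_lit 5) (nat_lit 315) (nat_lit 279) (nat_lit 126)) (XT.lf (nat_lit 0) (nat_lit 29664297567) (nat_lit 304) (nat_lit 794635467) (nat_lit 76) (nat_lit 56317557799) (nat_lit 20) (nat_lit 5) (nat_lit 24) (nat_lit 5) (nat_lit 21) (nat_lit 5) (nat_lit 316) (nat_lit 279) (nat_lit 125)))) (XT.nd (nat_lit 156) (nat_lit 152) (nat_lit 0) (XT.nd (nat_lit 78) (nat_lit 0) (nat_lit 0) (XT.lf (nat_lit 0) (nat_lit 28248095138) (nat_lit 152) (nat_lit 11607364253) (nat_lit 228) (nat_lit 50201200860) (nat_lit 18) (nat_lit 5) (nat_lit 20) (nat_lit 5) (nat_lit 21) (nat_lit 5) (nat_lit 317) (nat_lit 279) (nat_lit 124)) (XT.lf (nat_lit 0) (nat_lit 50696648673) (nat_lit 228) (nat_lit 34859148251) (nat_lit 76) (nat_lit 7938021784) (nat_lit 18) (nat_lit 5) (nat_lit 21) (nat_lit 5) (nat_lit 19) (nat_lit 5) (nat_lit 318) (nat_lit 279) (nat_lit 123))) (XT.nd (nat_lit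 78) (nat_lit 152) (nat_lit 0) (XT.lf (nat_lit 0) (nat_lit 62269203589) (nat_lit 228) (nat_lit 6753968033) (nat_lit 76) (nat_lit 28070201999) (nat_lit 18) (nat_lit 5) (nat_lit 21) (nat_lit 5) (nat_lit 19) (nat_lit 5) (nat_lit 319) (nat_lit 279) (nat_lit 122)) (XT.lf (nat_lit 0) (nat_lit 23507503024) (nat_lit 152) (nat_lit 51278969335) (nat_lit 228) (nat_lit 26068133276) (nat_lit 16) (nat_lit 5) (nat_lit 18) (nat_lit 5) (nat_lit 19) (nat_lit 5) (nat_lit 320) (nat_lit 279) (nat_lit 121))))) (XT.nd (nat_lit 312) (nat_lit 152) (nat_lit 0) (XT.nd (nat_lit 156) (nat_lit 152) (nat_lit 0) (XT.nd (nat_lit 78) (nat_lit 0) (nat_lit 0) (XT.lf (nat_lit 0) (nat_lit 55515196935) (nat_lit 152) (nat_lit 32527881016) (nat_lit 228) (nat_lit 16755151115) (nat_lit 16) (nat_lit 5) (nat_lit 18) (nat_lit 5) (nat_lit 19) (nat_lit 5) (nat_lit 321) (nat_lit 279) (nat_lit 120)) (XT.lf (nat_lit 0) (nat_lit 89122005809)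 (nat_lit 152) (nat_lit 12839642933) (nat_lit 228) (nat_lit 6977431499) (nat_lit 16) (nat_lit 5) (nat_lit 18) (nat_lit 5) (nat_lit 19) (nat_lit 5) (nat_lit 322) (nat_lit 279) (nat_lit 119))) (XT.nd (nat_lit 78) (nat_lit 0) (nat_lit 0) (XT.lf (nat_lit 0) (nat_lit 3487658995) (nat_lit 152) (nat_lit 101965983563) (nat_lit 76) (nat_lit 7815578817) (nat_lit 14) (nat_lit 5) (nat_lit 16) (nat_lit 5) (nat_lit 15) (nat_lit 5) (nat_lit 323) (nat_lit 279) (nat_lit 118)) (XT.lf (nat_lit 0) (nat_lit 14792290355) (nat_lit 152) (nat_lit 73463148792) (nat_lit 76) (nat_lit 29527175390) (nat_lit 14) (nat_lit 5) (nat_lit 16) (nat_lit 5) (nat_lit 15) (nat_lit 5) (nat_lit 324) (nat_lit 279) (nat_lit 117)))) (XT.nd (nat_lit 156) (nat_lit 152) (nat_lit 0) (XT.nd (nat_lit 78) (nat_lit 0) (nat_lit 0) (XT.lf (nat_lit 0) (nat_lit 26661366871) (nat_lit 152) (nat_lit 43536370049) (nat_lit 76) (nat_lit 52323982490)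 (nat_lit 14) (nat_lit 5) (nat_lit 16) (nat_lit 5) (nat_lit 15) (nat_lit 5) (nat_lit 325) (nat_lit 279) (nat_lit 116)) (XT.lf (nat_lit 0) (nat_lit 39123148248) (nat_lit 152) (nat_lit 12114393099) (nat_lit 76) (nat_lit 76260278229) (nat_lit 14) (nat_lit 5) (nat_lit 16) (nat_lit 5) (nat_lit 15) (nat_lit 5) (nat_lit 326) (nat_lit 279) (nat_lit 115))) (XT.nd (nat_lit 78) (nat_lit 0) (nat_lit 0) (XT.lf (nat_lit 0) (nat_lit 21567903907) (nat_lit 152) (nat_lit 30976136911) (nat_lit 228) (nat_lit 80161885303) (nat_lit 12) (nat_lit 5) (nat_lit 14) (nat_lit 5) (nat_lit 15) (nat_lit 5) (nat_lit 327) (nat_lit 279) (nat_lit 114)) (XT.lf (nat_lit 0) (nat_lit 57353831250) (nat_lit 152) (nat_lit 9486613854) (nat_lit 228) (nat_lit 71323771893) (nat_lit 12) (nat_lit 5) (nat_lit 14) (nat_lit 5) (nat_lit 15) (nat_lit 5) (nat_lit 328) (nat_lit 279) (nat_lit 113)))))) (XT.nd (nat_lit 624) (nat_lit 76) (nat_lit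 0) (XT.nd (nat_lit 312) (nat_lit 228) (nat_lit 0) (XT.nd (nat_lit 156) (nat_lit 76) (nat_lit 0) (XT.nd (nat_lit 78) (nat_lit 0) (nat_lit 0) (XT.lf (nat_lit 0) (nat_lit 82055175819) (nat_lit 228) (nat_lit 49171589926) (nat_lit 76) (nat_lit 12658483609) (nat_lit 12) (nat_lit 5) (nat_lit 15) (nat_lit 5) (nat_lit 13) (nat_lit 4) (nat_lit 329) (nat_lit 279) (nat_lit 112)) (XT.lf (nat_lit 0) (nat_lit 98185524736) (nat_lit 228) (nat_lit 16107370511) (nat_lit 76) (nat_lit 35591696137) (nat_lit 12) (nat_lit 5) (nat_lit 15) (nat_lit 5) (nat_lit 13) (nat_lit 4) (nat_lit 330) (nat_lit 279) (nat_lit 111))) (XT.nd (nat_lit 78) (nat_lit 0) (nat_lit 0) (XT.lf (nat_lit 0) (nat_lit 19224410656) (nat_lit 76) (nat_lit 96197521091) (nat_lit 152) (nat_lit 40746993775) (nat_lit 11) (nat_lit 5) (nat_lit 12) (nat_lit 5) (nat_lit 13) (nat_lit 4) (nat_lit 331) (nat_lit 279) (nat_lit 110)) (XT.lf (nat_lit 0)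 (nat_lit 56881057329) (nat_lit 76) (nat_lit 76911295888) (nat_lit 152) (nat_lit 28961515387) (nat_lit 11) (nat_lit 5) (nat_lit 12) (nat_lit 5) (nat_lit 13) (nat_lit 4) (nat_lit 332) (nat_lit 279) (nat_lit 109)))) (XT.nd (nat_lit 156) (nat_lit 228) (nat_lit 0) (XT.nd (nat_lit 78) (nat_lit 0) (nat_lit 0) (XT.lf (nat_lit 0) (nat_lit 96419645777) (nat_lit 76) (nat_lit 56661086167) (nat_lit 152) (nat_lit 16587356935) (nat_lit 11) (nat_lit 5) (nat_lit 12) (nat_lit 5) (nat_lit 13) (nat_lit 4) (nat_lit 333) (nat_lit 279) (nat_lit 108)) (XT.lf (nat_lit 0) (nat_lit 137934315495) (nat_lit 76) (nat_lit 35398677144) (nat_lit 152) (nat_lit 3595056137) (nat_lit 11) (nat_lit 5) (nat_lit 12) (nat_lit 5) (nat_lit 13) (nat_lit 4) (nat_lit 334) (nat_lit 279) (nat_lit 107))) (XT.nd (nat_lit 78) (nat_lit 152) (nat_lit 0) (XT.lf (nat_lit 0) (nat_lit 9724776041) (nat_lit 152) (nat_lit 3183974205) (nat_lit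 76) (nat_lit 171634441105) (nat_lit 10) (nat_lit 5) (nat_lit 12) (nat_lit 5) (nat_lit 11) (nat_lit 5) (nat_lit 335) (nat_lit 279) (nat_lit 106)) (XT.lf (nat_lit 0) (nat_lit 24320615102) (nat_lit 228) (nat_lit 157193122198) (nat_lit 76) (nat_lit 10985866874) (nat_lit 8) (nat_lit 5) (nat_lit 11) (nat_lit 5) (nat_lit 9) (nat_lit 4) (nat_lit 336) (nat_lit 279) (nat_lit 105))))) (XT.nd (nat_lit 312) (nat_lit 76) (nat_lit 0) (XT.nd (nat_lit 156) (nat_lit 0) (nat_lit 0) (XT.nd (nat_lit 78) (nat_lit 0) (nat_lit 0) (XT.lf (nat_lit 0) (nat_lit 39912181543) (nat_lit 228) (nat_lit 125232438714) (nat_lit 76) (nat_lit 35695922058) (nat_lit 8) (nat_lit 5) (nat_lit 11) (nat_lit 5) (nat_lit 9) (nat_lit 4) (nat_lit 337) (nat_lit 279) (nat_lit 104)) (XT.lf (nat_lit 0) (nat_lit 56282860075) (nat_lit 228) (nat_lit 91674478885) (nat_lit 76) (nat_lit 61641213094) (nat_lit 8) (nat_lit 5) (nat_lit 11) (nat_lit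 5) (nat_lit 9) (nat_lit 4) (nat_lit 338) (nat_lit 279) (nat_lit 103))) (XT.nd (nat_lit 78) (nat_lit 0) (nat_lit 0) (XT.lf (nat_lit 0) (nat_lit 73471628505) (nat_lit 228) (nat_lit 56439342806) (nat_lit 76) (nat_lit 88883514484) (nat_lit 8) (nat_lit 5) (nat_lit 11) (nat_lit 5) (nat_lit 9) (nat_lit 4) (nat_lit 339) (nat_lit 279) (nat_lit 102)) (XT.lf (nat_lit 0) (nat_lit 91519412471) (nat_lit 228) (nat_lit 19443137296) (nat_lit 76) (nat_lit 117487688851) (nat_lit 8) (nat_lit 5) (nat_lit 11) (nat_lit 5) (nat_lit 9) (nat_lit 4) (nat_lit 340) (nat_lit 279) (nat_lit 101)))) (XT.nd (nat_lit 32838) (nat_lit 0) (nat_lit 3876) (XT.nd (nat_lit 32760) (nat_lit 0) (nat_lit 3876) (XT.lf (nat_lit 0) (nat_lit 20043748991) (nat_lit 76) (nat_lit 90738372991) (nat_lit 152) (nat_lit 127791031474) (nat_lit 7) (nat_lit 5) (nat_lit 8) (nat_lit 5) (nat_lit 9) (nat_lit 4) (nat_lit 341) (nat_lit 279) (nat_lit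 100)) (XT.lf (nat_lit 0) (nat_lit 11602221407) (nat_lit 684) (nat_lit 1484926709) (nat_lit 684) (nat_lit 1484926709) (nat_lit 58) (nat_lit 3) (nat_lit 67) (nat_lit 3) (nat_lit 67) (nat_lit 5) (nat_lit 280) (nat_lit 280) (nat_lit 160))) (XT.nd (nat_lit 78) (nat_lit 0) (nat_lit 0) (XT.lf (nat_lit 76) (nat_lit 8566006400) (nat_lit 0) (nat_lit 15417600969) (nat_lit 684) (nat_lit 5878790832) (nat_lit 59) (nat_lit 5) (nat_lit 58) (nat_lit 3) (nat_lit 67) (nat_lit 5) (nat_lit 281) (nat_lit 280) (nat_lit 159)) (XT.nd (nat_lit 78) (nat_lit 0) (nat_lit 76) (XT.lf (nat_lit 76) (nat_lit 20779484948) (nat_lit 0) (nat_lit 4068324580) (nat_lit 684) (nat_lit 5766471449) (nat_lit 59) (nat_lit 5) (nat_lit 58) (nat_lit 3) (nat_lit 67) (nat_lit 5) (nat_lit 282) (nat_lit 280) (nat_lit 158)) (XT.lf (nat_lit 76) (nat_lit 2143523543) (nat_lit 0) (nat_lit 23763713461) (nat_lit 684) (nat_lit 5488944665) (nat_lit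 60) (nat_lit 5) (nat_lit 59) (nat_lit 5) (nat_lit 68) (nat_lit 5) (nat_lit 283) (nat_lit 280) (nat_lit 157))))))))
noncomputable def xc188 : XT := (XT.nd (nat_lit 1248) (nat_lit 1444) (nat_lit 0) (XT.nd (nat_lit 624) (nat_lit 988) (nat_lit 0) (XT.nd (nat_lit 312) (nat_lit 532) (nat_lit 0) (XT.nd (nat_lit 156) (nat_lit 0) (nat_lit 76) (XT.nd (nat_lit 78) (nat_lit 0) (nat_lit 0) (XT.lf (nat_lit 76) (nat_lit 14990914733) (nat_lit 0) (nat_lit 12257061914) (nat_lit 684) (nat_lit 4957807081) (nat_lit 60) (nat_lit 5) (nat_lit 59) (nat_lit 5) (nat_lit 68) (nat_lit 5) (nat_lit 284) (nat_lit 280) (nat_lit 156)) (XT.lf (nat_lit 76) (nat_lit 28478401931) (nat_lit 0) (nat_lit 173699552) (nat_lit 684) (nat_lit 4403969252) (nat_lit 60) (nat_lit 5) (nat_lit 59) (nat_lit 5) (nat_lit 68) (nat_lit 5) (nat_lit 285) (nat_lit 280) (nat_lit 155))) (XT.nd (nat_lit 78) (nat_lit 0) (nat_lit 0) (XT.lf (nat_lit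 76) (nat_lit 8774472467) (nat_lit 0) (nat_lit 21680872772) (nat_lit 684) (nat_lit 3477102420) (nat_lit 61) (nat_lit 5) (nat_lit 60) (nat_lit 5) (nat_lit 69) (nat_lit 5) (nat_lit 286) (nat_lit 280) (nat_lit 154)) (XT.lf (nat_lit 76) (nat_lit 22947862970) (nat_lit 0) (nat_lit 9477885520) (nat_lit 684) (nat_lit 2423065260) (nat_lit 61) (nat_lit 5) (nat_lit 60) (nat_lit 5) (nat_lit 69) (nat_lit 5) (nat_lit 287) (nat_lit 280) (nat_lit 153)))) (XT.nd (nat_lit 156) (nat_lit 0) (nat_lit 0) (XT.nd (nat_lit 78) (nat_lit 684) (nat_lit 0) (XT.lf (nat_lit 76) (nat_lit 2029381758) (nat_lit 0) (nat_lit 32545890979) (nat_lit 684) (nat_lit 1231714595) (nat_lit 62) (nat_lit 5) (nat_lit 61) (nat_lit 5) (nat_lit 70) (nat_lit 5) (nat_lit 288) (nat_lit 280) (nat_lit 152)) (XT.lf (nat_lit 0) (nat_lit 375705905) (nat_lit 684) (nat_lit 19895070750) (nat_lit 760) (nat_lit 16524439540) (nat_lit 52) (nat_lit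 5) (nat_lit 61) (nat_lit 5) (nat_lit 62) (nat_lit 5) (nat_lit 289) (nat_lit 280) (nat_lit 151))) (XT.nd (nat_lit 78) (nat_lit 0) (nat_lit 76) (XT.lf (nat_lit 0) (nat_lit 2019141205) (nat_lit 684) (nat_lit 5340986533) (nat_lit 760) (nat_lit 30471883896) (nat_lit 52) (nat_lit 5) (nat_lit 61) (nat_lit 5) (nat_lit 62) (nat_lit 5) (nat_lit 290) (nat_lit 280) (nat_lit 150)) (XT.lf (nat_lit 0) (nat_lit 4001599873) (nat_lit 684) (nat_lit 28745020124) (nat_lit 76) (nat_lit 6161200086) (nat_lit 53) (nat_lit 5) (nat_lit 62) (nat_lit 5) (nat_lit 54) (nat_lit 5) (nat_lit 291) (nat_lit 280) (nat_lit 149))))) (XT.nd (nat_lit 312) (nat_lit 608) (nat_lit 0) (XT.nd (nat_lit 156) (nat_lit 0) (nat_lit 0) (XT.nd (nat_lit 78) (nat_lit 456) (nat_lit 0) (XT.lf (nat_lit 0) (nat_lit 6293059918) (nat_lit 684) (nat_lit 13530228076) (nat_lit 76) (nat_lit 20203652104) (nat_lit 53) (nat_lit 5) (nat_lit 62) (nat_lit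 5) (nat_lit 54) (nat_lit 5) (nat_lit 292) (nat_lit 280) (nat_lit 148)) (XT.lf (nat_lit 0) (nat_lit 2523801115) (nat_lit 456) (nat_lit 6212110311) (nat_lit 532) (nat_lit 32464278112) (nat_lit 47) (nat_lit 5) (nat_lit 53) (nat_lit 5) (nat_lit 54) (nat_lit 5) (nat_lit 293) (nat_lit 280) (nat_lit 147))) (XT.nd (nat_lit 78) (nat_lit 0) (nat_lit 0) (XT.lf (nat_lit 0) (nat_lit 11657455389) (nat_lit 532) (nat_lit 22702661251) (nat_lit 76) (nat_lit 8054170980) (nat_lit 47) (nat_lit 5) (nat_lit 54) (nat_lit 5) (nat_lit 48) (nat_lit 5) (nat_lit 294) (nat_lit 280) (nat_lit 146)) (XT.lf (nat_lit 0) (nat_lit 14824540043) (nat_lit 532) (nat_lit 6034357562) (nat_lit 76) (nat_lit 22825232841) (nat_lit 47) (nat_lit 5) (nat_lit 54) (nat_lit 5) (nat_lit 48) (nat_lit 5) (nat_lit 295) (nat_lit 280) (nat_lit 145)))) (XT.nd (nat_lit 156) (nat_lit 304) (nat_lit 0) (XT.nd (nat_lit 78) (nat_lit 0) (nat_lit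 0) (XT.lf (nat_lit 0) (nat_lit 11844288742) (nat_lit 304) (nat_lit 6488351413) (nat_lit 380) (nat_lit 26675704589) (nat_lit 43) (nat_lit 5) (nat_lit 47) (nat_lit 5) (nat_lit 48) (nat_lit 5) (nat_lit 296) (nat_lit 280) (nat_lit 144)) (XT.lf (nat_lit 0) (nat_lit 22252110773) (nat_lit 380) (nat_lit 15705501021) (nat_lit 76) (nat_lit 8429371493) (nat_lit 43) (nat_lit 5) (nat_lit 48) (nat_lit 5) (nat_lit 44) (nat_lit 5) (nat_lit 297) (nat_lit 280) (nat_lit 143))) (XT.nd (nat_lit 78) (nat_lit 0) (nat_lit 0) (XT.lf (nat_lit 0) (nat_lit 2600710527) (nat_lit 304) (nat_lit 23911733318) (nat_lit 380) (nat_lit 21314876707) (nat_lit 39) (nat_lit 5) (nat_lit 43) (nat_lit 5) (nat_lit 44) (nat_lit 5) (nat_lit 298) (nat_lit 280) (nat_lit 142)) (XT.lf (nat_lit 0) (nat_lit 22365383018) (nat_lit 304) (nat_lit 8884375148) (nat_lit 380) (nat_lit 18076728991) (nat_lit 39) (nat_lit 5) (nat_lit 43) (nat_lit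 5) (nat_lit 44) (nat_lit 5) (nat_lit 299) (nat_lit 280) (nat_lit 141)))))) (XT.nd (nat_lit 624) (nat_lit 684) (nat_lit 0) (XT.nd (nat_lit 312) (nat_lit 304) (nat_lit 0) (XT.nd (nat_lit 156) (nat_lit 228) (nat_lit 0) (XT.nd (nat_lit 78) (nat_lit 228) (nat_lit 0) (XT.lf (nat_lit 0) (nat_lit 36329657272) (nat_lit 380) (nat_lit 7892076621) (nat_lit 76) (nat_lit 6673602444) (nat_lit 39) (nat_lit 5) (nat_lit 44) (nat_lit 5) (nat_lit 40) (nat_lit 5) (nat_lit 300) (nat_lit 280) (nat_lit 140)) (XT.lf (nat_lit 0) (nat_lit 12378947531) (nat_lit 228) (nat_lit 29621689766) (nat_lit 304) (nat_lit 10525146089) (nat_lit 36) (nat_lit 5) (nat_lit 39) (nat_lit 5) (nat_lit 40) (nat_lit 5) (nat_lit 301) (nat_lit 280) (nat_lit 139))) (XT.nd (nat_lit 78) (nat_lit 228) (nat_lit 0) (XT.lf (nat_lit 0) (nat_lit 33935537559) (nat_lit 228) (nat_lit 14151511513) (nat_lit 304) (nat_lit 6144118828) (nat_lit 36)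 (nat_lit 5) (nat_lit 39) (nat_lit 5) (nat_lit 40) (nat_lit 5) (nat_lit 302) (nat_lit 280) (nat_lit 138)) (XT.lf (nat_lit 0) (nat_lit 530472884) (nat_lit 228) (nat_lit 53986563427) (nat_lit 304) (nat_lit 1502831394) (nat_lit 33) (nat_lit 5) (nat_lit 36) (nat_lit 5) (nat_lit 37) (nat_lit 5) (nat_lit 303) (nat_lit 280) (nat_lit 137)))) (XT.nd (nat_lit 156) (nat_lit 228) (nat_lit 0) (XT.nd (nat_lit 78) (nat_lit 0) (nat_lit 0) (XT.lf (nat_lit 0) (nat_lit 3842308875) (nat_lit 304) (nat_lit 35070574751) (nat_lit 76) (nat_lit 18953512390) (nat_lit 32) (nat_lit 5) (nat_lit 36) (nat_lit 5) (nat_lit 33) (nat_lit 5) (nat_lit 304) (nat_lit 280) (nat_lit 136)) (XT.lf (nat_lit 0) (nat_lit 9402604179) (nat_lit 304) (nat_lit 13657362486) (nat_lit 76) (nat_lit 36744139708) (nat_lit 32) (nat_lit 5) (nat_lit 36) (nat_lit 5) (nat_lit 33) (nat_lit 5) (nat_lit 305) (nat_lit 280) (nat_lit 135))) (XT.nd (nat_lit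 78) (nat_lit 0) (nat_lit 0) (XT.lf (nat_lit 0) (nat_lit 9116473300) (nat_lit 228) (nat_lit 6265253702) (nat_lit 304) (nat_lit 46449941854) (nat_lit 29) (nat_lit 5) (nat_lit 32) (nat_lit 5) (nat_lit 33) (nat_lit 5) (nat_lit 306) (nat_lit 280) (nat_lit 134)) (XT.lf (nat_lit 0) (nat_lit 22070915294) (nat_lit 304) (nat_lit 30629055401) (nat_lit 76) (nat_lit 11240090203) (nat_lit 29) (nat_lit 5) (nat_lit 33) (nat_lit 5) (nat_lit 30) (nat_lit 5) (nat_lit 307) (nat_lit 280) (nat_lit 133))))) (XT.nd (nat_lit 312) (nat_lit 456) (nat_lit 0) (XT.nd (nat_lit 156) (nat_lit 0) (nat_lit 0) (XT.nd (nat_lit 78) (nat_lit 228) (nat_lit 0) (XT.lf (nat_lit 0) (nat_lit 29195861207) (nat_lit 304) (nat_lit 7543095981) (nat_lit 76) (nat_lit 29409857018) (nat_lit 29) (nat_lit 5) (nat_lit 33) (nat_lit 5) (nat_lit 30) (nat_lit 5) (nat_lit 308) (nat_lit 280) (nat_lit 132)) (XT.lf (nat_lit 0) (nat_lit 17247494994)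 (nat_lit 228) (nat_lit 19697497466) (nat_lit 304) (nat_lit 31509622076) (nat_lit 26) (nat_lit 5) (nat_lit 29) (nat_lit 5) (nat_lit 30) (nat_lit 5) (nat_lit 309) (nat_lit 280) (nat_lit 131))) (XT.nd (nat_lit 78) (nat_lit 0) (nat_lit 0) (XT.lf (nat_lit 0) (nat_lit 43537828131) (nat_lit 228) (nat_lit 1670192403) (nat_lit 304) (nat_lit 25661368297) (nat_lit 26) (nat_lit 5) (nat_lit 29) (nat_lit 5) (nat_lit 30) (nat_lit 5) (nat_lit 310) (nat_lit 280) (nat_lit 130)) (XT.lf (nat_lit 0) (nat_lit 54152404306) (nat_lit 304) (nat_lit 2533326894) (nat_lit 76) (nat_lit 16705766104) (nat_lit 26) (nat_lit 5) (nat_lit 30) (nat_lit 5) (nat_lit 27) (nat_lit 5) (nat_lit 311) (nat_lit 280) (nat_lit 129)))) (XT.nd (nat_lit 156) (nat_lit 304) (nat_lit 0) (XT.nd (nat_lit 78) (nat_lit 0) (nat_lit 0) (XT.lf (nat_lit 0) (nat_lit 24252085378) (nat_lit 152) (nat_lit 39696755671) (nat_lit 228) (nat_lit 12070633870)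 (nat_lit 24) (nat_lit 5) (nat_lit 26) (nat_lit 5) (nat_lit 27) (nat_lit 5) (nat_lit 312) (nat_lit 280) (nat_lit 128)) (XT.lf (nat_lit 0) (nat_lit 52463173786) (nat_lit 152) (nat_lit 21813672024) (nat_lit 228) (nat_lit 4499923445) (nat_lit 24) (nat_lit 5) (nat_lit 26) (nat_lit 5) (nat_lit 27) (nat_lit 5) (nat_lit 313) (nat_lit 280) (nat_lit 127))) (XT.nd (nat_lit 78) (nat_lit 0) (nat_lit 0) (XT.lf (nat_lit 0) (nat_lit 369341846) (nat_lit 228) (nat_lit 2974222599) (nat_lit 304) (nat_lit 78325443764) (nat_lit 20) (nat_lit 5) (nat_lit 23) (nat_lit 5) (nat_lit 24) (nat_lit 5) (nat_lit 314) (nat_lit 280) (nat_lit 126)) (XT.lf (nat_lit 0) (nat_lit 12142245688) (nat_lit 304) (nat_lit 55728627665) (nat_lit 76) (nat_lit 16795589451) (nat_lit 20) (nat_lit 5) (nat_lit 24) (nat_lit 5) (nat_lit 21) (nat_lit 5) (nat_lit 315) (nat_lit 280) (nat_lit 125)))))))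
noncomputable def xc189 : XT := (XT.nd (nat_lit 1248) (nat_lit 304) (nat_lit 0) (XT.nd (nat_lit 624) (nat_lit 304) (nat_lit 0) (XT.nd (nat_lit 312) (nat_lit 152) (nat_lit 0) (XT.nd (nat_lit 156) (nat_lit 152) (nat_lit 0) (XT.nd (nat_lit 78) (nat_lit 0) (nat_lit 0) (XT.lf (nat_lit 0) (nat_lit 21428570617) (nat_lit 304) (nat_lit 28929264004) (nat_lit 76) (nat_lit 37453574264) (nat_lit 20) (nat_lit 5) (nat_lit 24) (nat_lit 5) (nat_lit 21) (nat_lit 5) (nat_lit 316) (nat_lit 280) (nat_lit 124)) (XT.lf (nat_lit 0) (nat_lit 31178213579) (nat_lit 304) (nat_lit 791331421) (nat_lit 76) (nat_lit 59144111214) (nat_lit 20) (nat_lit 5) (nat_lit 24) (nat_lit 5) (nat_lit 21) (nat_lit 5) (nat_lit 317) (nat_lit 280) (nat_lit 123))) (XT.nd (nat_lit 78) (nat_lit 0) (nat_lit 0) (XT.lf (nat_lit 0) (nat_lit 29702841589) (nat_lit 152) (nat_lit 12175291020) (nat_lit 228) (nat_lit 52679747448) (nat_lit 18)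 (nat_lit 5) (nat_lit 20) (nat_lit 5) (nat_lit 21) (nat_lit 5) (nat_lit 318) (nat_lit 280) (nat_lit 122)) (XT.lf (nat_lit 0) (nat_lit 53260142530) (nat_lit 228) (nat_lit 36560428849) (nat_lit 76) (nat_lit 8346392627) (nat_lit 18) (nat_lit 5) (nat_lit 21) (nat_lit 5) (nat_lit 19) (nat_lit 5) (nat_lit 319) (nat_lit 280) (nat_lit 121)))) (XT.nd (nat_lit 156) (nat_lit 0) (nat_lit 0) (XT.nd (nat_lit 78) (nat_lit 152) (nat_lit 0) (XT.lf (nat_lit 0) (nat_lit 65409960362) (nat_lit 228) (nat_lit 7051974231) (nat_lit 76) (nat_lit 29484635674) (nat_lit 18) (nat_lit 5) (nat_lit 21) (nat_lit 5) (nat_lit 19) (nat_lit 5) (nat_lit 320) (nat_lit 280) (nat_lit 120)) (XT.lf (nat_lit 0) (nat_lit 24721930182) (nat_lit 152) (nat_lit 53830472261) (nat_lit 228) (nat_lit 27343501049) (nat_lit 16) (nat_lit 5) (nat_lit 18) (nat_lit 5) (nat_lit 19) (nat_lit 5) (nat_lit 321) (nat_lit 280) (nat_lit 119))) (XT.nd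 (nat_lit 78) (nat_lit 0) (nat_lit 0) (XT.lf (nat_lit 0) (nat_lit 58328149169) (nat_lit 152) (nat_lit 34142422170) (nat_lit 228) (nat_lit 17566204965) (nat_lit 16) (nat_lit 5) (nat_lit 18) (nat_lit 5) (nat_lit 19) (nat_lit 5) (nat_lit 322) (nat_lit 280) (nat_lit 118)) (XT.lf (nat_lit 0) (nat_lit 93613527421) (nat_lit 152) (nat_lit 13470336607) (nat_lit 228) (nat_lit 7300870974) (nat_lit 16) (nat_lit 5) (nat_lit 18) (nat_lit 5) (nat_lit 19) (nat_lit 5) (nat_lit 323) (nat_lit 280) (nat_lit 117))))) (XT.nd (nat_lit 312) (nat_lit 152) (nat_lit 0) (XT.nd (nat_lit 156) (nat_lit 0) (nat_lit 0) (XT.nd (nat_lit 78) (nat_lit 0) (nat_lit 0) (XT.lf (nat_lit 0) (nat_lit 3686228931) (nat_lit 152) (nat_lit 107027444108) (nat_lit 76) (nat_lit 8217716057) (nat_lit 14) (nat_lit 5) (nat_lit 16) (nat_lit 5) (nat_lit 15) (nat_lit 5) (nat_lit 324) (nat_lit 280) (nat_lit 116)) (XT.lf (nat_lit 0) (nat_lit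 15554940098) (nat_lit 152) (nat_lit 77101221819) (nat_lit 76) (nat_lit 31014351587) (nat_lit 14) (nat_lit 5) (nat_lit 16) (nat_lit 5) (nat_lit 15) (nat_lit 5) (nat_lit 325) (nat_lit 280) (nat_lit 115))) (XT.nd (nat_lit 78) (nat_lit 0) (nat_lit 0) (XT.lf (nat_lit 0) (nat_lit 28016373524) (nat_lit 152) (nat_lit 45679774825) (nat_lit 76) (nat_lit 54950483927) (nat_lit 14) (nat_lit 5) (nat_lit 16) (nat_lit 5) (nat_lit 15) (nat_lit 5) (nat_lit 326) (nat_lit 280) (nat_lit 114)) (XT.lf (nat_lit 0) (nat_lit 41100199288) (nat_lit 152) (nat_lit 12688290158) (nat_lit 76) (nat_lit 80083103866) (nat_lit 14) (nat_lit 5) (nat_lit 16) (nat_lit 5) (nat_lit 15) (nat_lit 5) (nat_lit 327) (nat_lit 280) (nat_lit 113)))) (XT.nd (nat_lit 156) (nat_lit 0) (nat_lit 0) (XT.nd (nat_lit 78) (nat_lit 0) (nat_lit 0) (XT.lf (nat_lit 0) (nat_lit 22677608431) (nat_lit 152) (nat_lit 32514021948) (nat_lit 228) (nat_lit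 84148503566) (nat_lit 12) (nat_lit 5) (nat_lit 14) (nat_lit 5) (nat_lit 15) (nat_lit 5) (nat_lit 328) (nat_lit 280) (nat_lit 112)) (XT.lf (nat_lit 0) (nat_lit 60251341221) (nat_lit 152) (nat_lit 9950542824) (nat_lit 228) (nat_lit 74869507152) (nat_lit 12) (nat_lit 5) (nat_lit 14) (nat_lit 5) (nat_lit 15) (nat_lit 5) (nat_lit 329) (nat_lit 280) (nat_lit 111))) (XT.nd (nat_lit 78) (nat_lit 0) (nat_lit 0) (XT.lf (nat_lit 0) (nat_lit 86176581358) (nat_lit 228) (nat_lit 51600938320) (nat_lit 76) (nat_lit 13300997125) (nat_lit 12) (nat_lit 5) (nat_lit 15) (nat_lit 5) (nat_lit 13) (nat_lit 4) (nat_lit 330) (nat_lit 280) (nat_lit 110)) (XT.lf (nat_lit 0) (nat_lit 103112559781) (nat_lit 228) (nat_lit 16884899892) (nat_lit 76) (nat_lit 37380413645) (nat_lit 12) (nat_lit 5) (nat_lit 15) (nat_lit 5) (nat_lit 13) (nat_lit 4) (nat_lit 331) (nat_lit 280) (nat_lit 109)))))) (XT.nd (nat_lit 624) (nat_lit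 0) (nat_lit 0) (XT.nd (nat_lit 312) (nat_lit 228) (nat_lit 0) (XT.nd (nat_lit 156) (nat_lit 0) (nat_lit 0) (XT.nd (nat_lit 78) (nat_lit 0) (nat_lit 0) (XT.lf (nat_lit 0) (nat_lit 20213021316) (nat_lit 76) (nat_lit 100997347806) (nat_lit 152) (nat_lit 42766078784) (nat_lit 11) (nat_lit 5) (nat_lit 12) (nat_lit 5) (nat_lit 13) (nat_lit 4) (nat_lit 332) (nat_lit 280) (nat_lit 108)) (XT.lf (nat_lit 0) (nat_lit 59751196031) (nat_lit 76) (nat_lit 80747289882) (nat_lit 152) (nat_lit 30392196223) (nat_lit 11) (nat_lit 5) (nat_lit 12) (nat_lit 5) (nat_lit 13) (nat_lit 4) (nat_lit 333) (nat_lit 280) (nat_lit 107))) (XT.nd (nat_lit 78) (nat_lit 0) (nat_lit 0) (XT.lf (nat_lit 0) (nat_lit 101265471718) (nat_lit 76) (nat_lit 59485025428) (nat_lit 152) (nat_lit 17400158178) (nat_lit 11) (nat_lit 5) (nat_lit 12) (nat_lit 5) (nat_lit 13) (nat_lit 4) (nat_lit 334) (nat_lit 280) (nat_lit 106)) (XT.lf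 (nat_lit 0) (nat_lit 144854691891) (nat_lit 76) (nat_lit 37159930003) (nat_lit 152) (nat_lit 3759031226) (nat_lit 11) (nat_lit 5) (nat_lit 12) (nat_lit 5) (nat_lit 13) (nat_lit 4) (nat_lit 335) (nat_lit 280) (nat_lit 105)))) (XT.nd (nat_lit 156) (nat_lit 0) (nat_lit 0) (XT.nd (nat_lit 78) (nat_lit 152) (nat_lit 0) (XT.lf (nat_lit 0) (nat_lit 10225560302) (nat_lit 152) (nat_lit 3320113506) (nat_lit 76) (nat_lit 180223905292) (nat_lit 10) (nat_lit 5) (nat_lit 12) (nat_lit 5) (nat_lit 11) (nat_lit 5) (nat_lit 336) (nat_lit 280) (nat_lit 104)) (XT.lf (nat_lit 0) (nat_lit 25550985294) (nat_lit 228) (nat_lit 165029470451) (nat_lit 76) (nat_lit 11543369242) (nat_lit 8) (nat_lit 5) (nat_lit 11) (nat_lit 5) (nat_lit 9) (nat_lit 4) (nat_lit 337) (nat_lit 280) (nat_lit 103))) (XT.nd (nat_lit 78) (nat_lit 0) (nat_lit 0) (XT.lf (nat_lit 0) (nat_lit 41921447226) (nat_lit 228) (nat_lit 131471862691)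 (nat_lit 76) (nat_lit 37488536279) (nat_lit 8) (nat_lit 5) (nat_lit 11) (nat_lit 5) (nat_lit 9) (nat_lit 4) (nat_lit 338) (nat_lit 280) (nat_lit 102)) (XT.lf (nat_lit 0) (nat_lit 59110009371) (nat_lit 228) (nat_lit 96237061916) (nat_lit 76) (nat_lit 64730719575) (nat_lit 8) (nat_lit 5) (nat_lit 11) (nat_lit 5) (nat_lit 9) (nat_lit 4) (nat_lit 339) (nat_lit 280) (nat_lit 101))))) (XT.nd (nat_lit 33072) (nat_lit 0) (nat_lit 3800) (XT.nd (nat_lit 32916) (nat_lit 0) (nat_lit 3800) (XT.nd (nat_lit 78) (nat_lit 0) (nat_lit 0) (XT.lf (nat_lit 0) (nat_lit 77157596875) (nat_lit 228) (nat_lit 59241175743) (nat_lit 76) (nat_lit 93334781471) (nat_lit 8) (nat_lit 5) (nat_lit 11) (nat_lit 5) (nat_lit 9) (nat_lit 4) (nat_lit 340) (nat_lit 280) (nat_lit 100)) (XT.lf (nat_lit 0) (nat_lit 96107180185) (nat_lit 228) (nat_lit 20396118729) (nat_lit 76) (nat_lit 123368826877) (nat_lit 8) (nat_lit 5) (nat_lit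 11) (nat_lit 5) (nat_lit 9) (nat_lit 4) (nat_lit 341) (nat_lit 280) (nat_lit 99))) (XT.nd (nat_lit 78) (nat_lit 0) (nat_lit 0) (XT.lf (nat_lit 0) (nat_lit 12246626860) (nat_lit 684) (nat_lit 1525220377) (nat_lit 684) (nat_lit 1525220377) (nat_lit 58) (nat_lit 3) (nat_lit 67) (nat_lit 3) (nat_lit 67) (nat_lit 5) (nat_lit 281) (nat_lit 281) (nat_lit 158)) (XT.lf (nat_lit 76) (nat_lit 9061116807) (nat_lit 0) (nat_lit 16245179514) (nat_lit 684) (nat_lit 6042291633) (nat_lit 59) (nat_lit 5) (nat_lit 58) (nat_lit 3) (nat_lit 67) (nat_lit 5) (nat_lit 282) (nat_lit 281) (nat_lit 157)))) (XT.nd (nat_lit 156) (nat_lit 0) (nat_lit 76) (XT.nd (nat_lit 78) (nat_lit 0) (nat_lit 76) (XT.lf (nat_lit 76) (nat_lit 21882087849) (nat_lit 0) (nat_lit 4325739377) (nat_lit 684) (nat_lit 5930567650) (nat_lit 59) (nat_lit 5) (nat_lit 58) (nat_lit 3) (nat_lit 67) (nat_lit 5) (nat_lit 283) (nat_lit 281) (nat_lit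 156)) (XT.lf (nat_lit 76) (nat_lit 2320625273) (nat_lit 0) (nat_lit 24994288319) (nat_lit 684) (nat_lit 5644776864) (nat_lit 60) (nat_lit 5) (nat_lit 59) (nat_lit 5) (nat_lit 68) (nat_lit 5) (nat_lit 284) (nat_lit 281) (nat_lit 155))) (XT.nd (nat_lit 78) (nat_lit 0) (nat_lit 0) (XT.lf (nat_lit 76) (nat_lit 15807056233) (nat_lit 0) (nat_lit 12910285662) (nat_lit 684) (nat_lit 5092730736) (nat_lit 60) (nat_lit 5) (nat_lit 59) (nat_lit 5) (nat_lit 68) (nat_lit 5) (nat_lit 285) (nat_lit 281) (nat_lit 154)) (XT.nd (nat_lit 78) (nat_lit 0) (nat_lit 76) (XT.lf (nat_lit 76) (nat_lit 29965746565) (nat_lit 0) (nat_lit 220832770) (nat_lit 684) (nat_lit 4516580382) (nat_lit 60) (nat_lit 5) (nat_lit 59) (nat_lit 5) (nat_lit 68) (nat_lit 5) (nat_lit 286) (nat_lit 281) (nat_lit 153)) (XT.lf (nat_lit 76) (nat_lit 9281810639) (nat_lit 0) (nat_lit 22793823120) (nat_lit 684) (nat_lit 3547968871) (nat_lit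 61) (nat_lit 5) (nat_lit 60) (nat_lit 5) (nat_lit 69) (nat_lit 5) (nat_lit 287) (nat_lit 281) (nat_lit 152))))))))
noncomputable def xc190 : XT := (XT.nd (nat_lit 2496) (nat_lit 760) (nat_lit 0) (XT.nd (nat_lit 1248) (nat_lit 1368) (nat_lit 0) (XT.nd (nat_lit 624) (nat_lit 836) (nat_lit 0) (XT.nd (nat_lit 312) (nat_lit 380) (nat_lit 0) (XT.nd (nat_lit 156) (nat_lit 608) (nat_lit 0) (XT.nd (nat_lit 78) (nat_lit 0) (nat_lit 76) (XT.lf (nat_lit 76) (nat_lit 24160603308) (nat_lit 0) (nat_lit 9979309995) (nat_lit 684) (nat_lit 2446134076) (nat_lit 61) (nat_lit 5) (nat_lit 60) (nat_lit 5) (nat_lit 69) (nat_lit 5) (nat_lit 288) (nat_lit 281) (nat_lit 151)) (XT.lf (nat_lit 76) (nat_lit 2200690014) (nat_lit 0) (nat_lit 34192482045) (nat_lit 684) (nat_lit 1199171485) (nat_lit 62) (nat_lit 5) (nat_lit 61) (nat_lit 5) (nat_lit 70) (nat_lit 5) (nat_lit 289) (nat_lit 281) (nat_lit 150))) (XT.nd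 (nat_lit 78) (nat_lit 0) (nat_lit 0) (XT.lf (nat_lit 0) (nat_lit 481268466) (nat_lit 684) (nat_lit 20819955042) (nat_lit 760) (nat_lit 17328928128) (nat_lit 52) (nat_lit 5) (nat_lit 61) (nat_lit 5) (nat_lit 62) (nat_lit 5) (nat_lit 290) (nat_lit 281) (nat_lit 149)) (XT.lf (nat_lit 0) (nat_lit 2202743281) (nat_lit 684) (nat_lit 5541493721) (nat_lit 760) (nat_lit 31974779626) (nat_lit 52) (nat_lit 5) (nat_lit 61) (nat_lit 5) (nat_lit 62) (nat_lit 5) (nat_lit 291) (nat_lit 281) (nat_lit 148)))) (XT.nd (nat_lit 156) (nat_lit 456) (nat_lit 0) (XT.nd (nat_lit 78) (nat_lit 0) (nat_lit 0) (XT.lf (nat_lit 0) (nat_lit 4281188876) (nat_lit 684) (nat_lit 30112151710) (nat_lit 76) (nat_lit 6455453777) (nat_lit 53) (nat_lit 5) (nat_lit 62) (nat_lit 5) (nat_lit 54) (nat_lit 5) (nat_lit 292) (nat_lit 281) (nat_lit 147)) (XT.lf (nat_lit 0) (nat_lit 6683435779) (nat_lit 684) (nat_lit 14139959081) (nat_lit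 76) (nat_lit 21200685839) (nat_lit 53) (nat_lit 5) (nat_lit 62) (nat_lit 5) (nat_lit 54) (nat_lit 5) (nat_lit 293) (nat_lit 281) (nat_lit 146))) (XT.nd (nat_lit 78) (nat_lit 0) (nat_lit 0) (XT.lf (nat_lit 0) (nat_lit 2715694467) (nat_lit 456) (nat_lit 6530155357) (nat_lit 532) (nat_lit 34010291800) (nat_lit 47) (nat_lit 5) (nat_lit 53) (nat_lit 5) (nat_lit 54) (nat_lit 5) (nat_lit 294) (nat_lit 281) (nat_lit 145)) (XT.lf (nat_lit 0) (nat_lit 12309877373) (nat_lit 532) (nat_lit 23771244944) (nat_lit 76) (nat_lit 8450021034) (nat_lit 47) (nat_lit 5) (nat_lit 54) (nat_lit 5) (nat_lit 48) (nat_lit 5) (nat_lit 295) (nat_lit 281) (nat_lit 144))))) (XT.nd (nat_lit 312) (nat_lit 228) (nat_lit 0) (XT.nd (nat_lit 156) (nat_lit 304) (nat_lit 0) (XT.nd (nat_lit 78) (nat_lit 304) (nat_lit 0) (XT.lf (nat_lit 0) (nat_lit 15632004392) (nat_lit 532) (nat_lit 6272695088) (nat_lit 76) (nat_lit 23959962583)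 (nat_lit 47) (nat_lit 5) (nat_lit 54) (nat_lit 5) (nat_lit 48) (nat_lit 5) (nat_lit 296) (nat_lit 281) (nat_lit 143)) (XT.lf (nat_lit 0) (nat_lit 12498861267) (nat_lit 304) (nat_lit 6814467668) (nat_lit 380) (nat_lit 27941884458) (nat_lit 43) (nat_lit 5) (nat_lit 47) (nat_lit 5) (nat_lit 48) (nat_lit 5) (nat_lit 297) (nat_lit 281) (nat_lit 142))) (XT.nd (nat_lit 78) (nat_lit 304) (nat_lit 0) (XT.lf (nat_lit 0) (nat_lit 23425697503) (nat_lit 380) (nat_lit 16427982550) (nat_lit 76) (nat_lit 8849274053) (nat_lit 43) (nat_lit 5) (nat_lit 48) (nat_lit 5) (nat_lit 44) (nat_lit 5) (nat_lit 298) (nat_lit 281) (nat_lit 141)) (XT.lf (nat_lit 0) (nat_lit 2792526777) (nat_lit 304) (nat_lit 25104581157) (nat_lit 380) (nat_lit 22318312947) (nat_lit 39) (nat_lit 5) (nat_lit 43) (nat_lit 5) (nat_lit 44) (nat_lit 5) (nat_lit 299) (nat_lit 281) (nat_lit 140)))) (XT.nd (nat_lit 156) (nat_lit 228) (nat_lit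 0) (XT.nd (nat_lit 78) (nat_lit 0) (nat_lit 0) (XT.lf (nat_lit 0) (nat_lit 23542490953) (nat_lit 304) (nat_lit 9325985499) (nat_lit 380) (nat_lit 18921224874) (nat_lit 39) (nat_lit 5) (nat_lit 43) (nat_lit 5) (nat_lit 44) (nat_lit 5) (nat_lit 300) (nat_lit 281) (nat_lit 139)) (XT.lf (nat_lit 0) (nat_lit 38199731661) (nat_lit 380) (nat_lit 8227720214) (nat_lit 76) (nat_lit 7009687253) (nat_lit 39) (nat_lit 5) (nat_lit 44) (nat_lit 5) (nat_lit 40) (nat_lit 5) (nat_lit 301) (nat_lit 281) (nat_lit 138))) (XT.nd (nat_lit 78) (nat_lit 0) (nat_lit 0) (XT.lf (nat_lit 0) (nat_lit 13055904174) (nat_lit 228) (nat_lit 31096710224) (nat_lit 304) (nat_lit 10996589993) (nat_lit 36) (nat_lit 5) (nat_lit 39) (nat_lit 5) (nat_lit 40) (nat_lit 5) (nat_lit 302) (nat_lit 281) (nat_lit 137)) (XT.lf (nat_lit 0) (nat_lit 35687561357) (nat_lit 228) (nat_lit 14853311821) (nat_lit 304) (nat_lit 6399121531)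 (nat_lit 36) (nat_lit 5) (nat_lit 39) (nat_lit 5) (nat_lit 40) (nat_lit 5) (nat_lit 303) (nat_lit 281) (nat_lit 136)))))) (XT.nd (nat_lit 624) (nat_lit 608) (nat_lit 0) (XT.nd (nat_lit 312) (nat_lit 228) (nat_lit 0) (XT.nd (nat_lit 156) (nat_lit 228) (nat_lit 0) (XT.nd (nat_lit 78) (nat_lit 76) (nat_lit 0) (XT.lf (nat_lit 0) (nat_lit 613951184) (nat_lit 228) (nat_lit 56677027899) (nat_lit 304) (nat_lit 1527231742) (nat_lit 33) (nat_lit 5) (nat_lit 36) (nat_lit 5) (nat_lit 37) (nat_lit 5) (nat_lit 304) (nat_lit 281) (nat_lit 135)) (XT.lf (nat_lit 0) (nat_lit 4081202591) (nat_lit 304) (nat_lit 36768091385) (nat_lit 76) (nat_lit 19907860055) (nat_lit 32) (nat_lit 5) (nat_lit 36) (nat_lit 5) (nat_lit 33) (nat_lit 5) (nat_lit 305) (nat_lit 281) (nat_lit 134))) (XT.nd (nat_lit 78) (nat_lit 228) (nat_lit 0) (XT.lf (nat_lit 0) (nat_lit 9917285123) (nat_lit 304) (nat_lit 14286885750) (nat_lit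 76) (nat_lit 38587701022) (nat_lit 32) (nat_lit 5) (nat_lit 36) (nat_lit 5) (nat_lit 33) (nat_lit 5) (nat_lit 306) (nat_lit 281) (nat_lit 133)) (XT.lf (nat_lit 0) (nat_lit 9624781424) (nat_lit 228) (nat_lit 6569280629) (nat_lit 304) (nat_lit 48726825658) (nat_lit 29) (nat_lit 5) (nat_lit 32) (nat_lit 5) (nat_lit 33) (nat_lit 5) (nat_lit 307) (nat_lit 281) (nat_lit 132)))) (XT.nd (nat_lit 156) (nat_lit 228) (nat_lit 0) (XT.nd (nat_lit 78) (nat_lit 0) (nat_lit 0) (XT.lf (nat_lit 0) (nat_lit 23215787628) (nat_lit 304) (nat_lit 32108408313) (nat_lit 76) (nat_lit 11810609148) (nat_lit 29) (nat_lit 5) (nat_lit 33) (nat_lit 5) (nat_lit 30) (nat_lit 5) (nat_lit 308) (nat_lit 281) (nat_lit 131)) (XT.lf (nat_lit 0) (nat_lit 30695012904) (nat_lit 304) (nat_lit 7870631867) (nat_lit 76) (nat_lit 30888458855) (nat_lit 29) (nat_lit 5) (nat_lit 33) (nat_lit 5) (nat_lit 30) (nat_lit 5) (nat_lit 309)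 (nat_lit 281) (nat_lit 130))) (XT.nd (nat_lit 78) (nat_lit 0) (nat_lit 0) (XT.lf (nat_lit 0) (nat_lit 18158688351) (nat_lit 228) (nat_lit 20671800343) (nat_lit 304) (nat_lit 33044769611) (nat_lit 26) (nat_lit 5) (nat_lit 29) (nat_lit 5) (nat_lit 30) (nat_lit 5) (nat_lit 310) (nat_lit 281) (nat_lit 129)) (XT.lf (nat_lit 0) (nat_lit 45761213449) (nat_lit 228) (nat_lit 1743633455) (nat_lit 304) (nat_lit 26906023789) (nat_lit 26) (nat_lit 5) (nat_lit 29) (nat_lit 5) (nat_lit 30) (nat_lit 5) (nat_lit 311) (nat_lit 281) (nat_lit 128))))) (XT.nd (nat_lit 312) (nat_lit 152) (nat_lit 0) (XT.nd (nat_lit 156) (nat_lit 304) (nat_lit 0) (XT.nd (nat_lit 78) (nat_lit 152) (nat_lit 0) (XT.lf (nat_lit 0) (nat_lit 56894865038) (nat_lit 304) (nat_lit 2613970103) (nat_lit 76) (nat_lit 17550336610) (nat_lit 26) (nat_lit 5) (nat_lit 30) (nat_lit 5) (nat_lit 27) (nat_lit 5) (nat_lit 312) (nat_lit 281) (nat_lit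 127)) (XT.lf (nat_lit 0) (nat_lit 25509970474) (nat_lit 152) (nat_lit 41670201033) (nat_lit 228) (nat_lit 12638431888) (nat_lit 24) (nat_lit 5) (nat_lit 26) (nat_lit 5) (nat_lit 27) (nat_lit 5) (nat_lit 313) (nat_lit 281) (nat_lit 126))) (XT.nd (nat_lit 78) (nat_lit 304) (nat_lit 0) (XT.lf (nat_lit 0) (nat_lit 55129457072) (nat_lit 152) (nat_lit 22893505700) (nat_lit 228) (nat_lit 4690887546) (nat_lit 24) (nat_lit 5) (nat_lit 26) (nat_lit 5) (nat_lit 27) (nat_lit 5) (nat_lit 314) (nat_lit 281) (nat_lit 125)) (XT.lf (nat_lit 0) (nat_lit 431444266) (nat_lit 228) (nat_lit 3111353797) (nat_lit 304) (nat_lit 82207927478) (nat_lit 20) (nat_lit 5) (nat_lit 23) (nat_lit 5) (nat_lit 24) (nat_lit 5) (nat_lit 315) (nat_lit 281) (nat_lit 124)))) (XT.nd (nat_lit 156) (nat_lit 152) (nat_lit 0) (XT.nd (nat_lit 78) (nat_lit 0) (nat_lit 0) (XT.lf (nat_lit 0) (nat_lit 12780059107) (nat_lit 304) (nat_lit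 58472023228) (nat_lit 76) (nat_lit 17646044448) (nat_lit 20) (nat_lit 5) (nat_lit 24) (nat_lit 5) (nat_lit 21) (nat_lit 5) (nat_lit 316) (nat_lit 281) (nat_lit 123)) (XT.lf (nat_lit 0) (nat_lit 22529238323) (nat_lit 304) (nat_lit 30334740709) (nat_lit 76) (nat_lit 39336420143) (nat_lit 20) (nat_lit 5) (nat_lit 24) (nat_lit 5) (nat_lit 21) (nat_lit 5) (nat_lit 317) (nat_lit 281) (nat_lit 122))) (XT.nd (nat_lit 78) (nat_lit 152) (nat_lit 0) (XT.lf (nat_lit 0) (nat_lit 32764971092) (nat_lit 304) (nat_lit 791863234) (nat_lit 76) (nat_lit 62110999791) (nat_lit 20) (nat_lit 5) (nat_lit 24) (nat_lit 5) (nat_lit 21) (nat_lit 5) (nat_lit 318) (nat_lit 281) (nat_lit 121)) (XT.lf (nat_lit 0) (nat_lit 31226388834) (nat_lit 152) (nat_lit 12772770813) (nat_lit 228) (nat_lit 55285151188) (nat_lit 18) (nat_lit 5) (nat_lit 20) (nat_lit 5) (nat_lit 21) (nat_lit 5) (nat_lit 319) (nat_lit 281) (nat_lit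 120))))))) (XT.nd (nat_lit 1248) (nat_lit 228) (nat_lit 0) (XT.nd (nat_lit 624) (nat_lit 228) (nat_lit 0) (XT.nd (nat_lit 312) (nat_lit 152) (nat_lit 0) (XT.nd (nat_lit 156) (nat_lit 152) (nat_lit 0) (XT.nd (nat_lit 78) (nat_lit 0) (nat_lit 0) (XT.lf (nat_lit 0) (nat_lit 55949146411) (nat_lit 228) (nat_lit 38350648192) (nat_lit 76) (nat_lit 8774115664) (nat_lit 18) (nat_lit 5) (nat_lit 21) (nat_lit 5) (nat_lit 19) (nat_lit 5) (nat_lit 320) (nat_lit 281) (nat_lit 119)) (XT.lf (nat_lit 0) (nat_lit 68705217194) (nat_lit 228) (nat_lit 7368570943) (nat_lit 76) (nat_lit 30968775463) (nat_lit 18) (nat_lit 5) (nat_lit 21) (nat_lit 5) (nat_lit 19) (nat_lit 5) (nat_lit 321) (nat_lit 281) (nat_lit 118))) (XT.nd (nat_lit 78) (nat_lit 0) (nat_lit 0) (XT.lf (nat_lit 0) (nat_lit 25993448013) (nat_lit 152) (nat_lit 56510707402) (nat_lit 228) (nat_lit 28685244001) (nat_lit 16) (nat_lit 5) (nat_lit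 18) (nat_lit 5) (nat_lit 19) (nat_lit 5) (nat_lit 322) (nat_lit 281) (nat_lit 117)) (XT.lf (nat_lit 0) (nat_lit 61278291220) (nat_lit 152) (nat_lit 35838792353) (nat_lit 228) (nat_lit 18420294166) (nat_lit 16) (nat_lit 5) (nat_lit 18) (nat_lit 5) (nat_lit 19) (nat_lit 5) (nat_lit 323) (nat_lit 281) (nat_lit 116)))) (XT.nd (nat_lit 156) (nat_lit 0) (nat_lit 0) (XT.nd (nat_lit 78) (nat_lit 152) (nat_lit 0) (XT.lf (nat_lit 0) (nat_lit 98326331975) (nat_lit 152) (nat_lit 14133614461) (nat_lit 228) (nat_lit 7642846857) (nat_lit 16) (nat_lit 5) (nat_lit 18) (nat_lit 5) (nat_lit 19) (nat_lit 5) (nat_lit 324) (nat_lit 281) (nat_lit 115)) (XT.lf (nat_lit 0) (nat_lit 3892478687) (nat_lit 152) (nat_lit 112345402588) (nat_lit 76) (nat_lit 8638904171) (nat_lit 14) (nat_lit 5) (nat_lit 16) (nat_lit 5) (nat_lit 15) (nat_lit 5) (nat_lit 325) (nat_lit 281) (nat_lit 114))) (XT.nd (nat_lit 78) (nat_lit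 0) (nat_lit 0) (XT.lf (nat_lit 0) (nat_lit 16353580731) (nat_lit 152) (nat_lit 80924460314) (nat_lit 76) (nat_lit 32574880892) (nat_lit 14) (nat_lit 5) (nat_lit 16) (nat_lit 5) (nat_lit 15) (nat_lit 5) (nat_lit 326) (nat_lit 281) (nat_lit 113)) (XT.lf (nat_lit 0) (nat_lit 29437090894) (nat_lit 152) (nat_lit 47933456332) (nat_lit 76) (nat_lit 57707352623) (nat_lit 14) (nat_lit 5) (nat_lit 16) (nat_lit 5) (nat_lit 15) (nat_lit 5) (nat_lit 327) (nat_lit 281) (nat_lit 112))))) (XT.nd (nat_lit 312) (nat_lit 76) (nat_lit 0) (XT.nd (nat_lit 156) (nat_lit 0) (nat_lit 0) (XT.nd (nat_lit 78) (nat_lit 152) (nat_lit 0) (XT.lf (nat_lit 0) (nat_lit 43174160390) (nat_lit 152) (nat_lit 13293840633) (nat_lit 76) (nat_lit 84096158583) (nat_lit 14) (nat_lit 5) (nat_lit 16) (nat_lit 5) (nat_lit 15) (nat_lit 5) (nat_lit 328) (nat_lit 281) (nat_lit 111)) (XT.lf (nat_lit 0) (nat_lit 23839887336) (nat_lit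 152) (nat_lit 34129816643) (nat_lit 228) (nat_lit 88336449378) (nat_lit 12) (nat_lit 5) (nat_lit 14) (nat_lit 5) (nat_lit 15) (nat_lit 5) (nat_lit 329) (nat_lit 281) (nat_lit 110))) (XT.nd (nat_lit 78) (nat_lit 0) (nat_lit 0) (XT.lf (nat_lit 0) (nat_lit 63290954457) (nat_lit 152) (nat_lit 10438635296) (nat_lit 228) (nat_lit 78594430732) (nat_lit 12) (nat_lit 5) (nat_lit 14) (nat_lit 5) (nat_lit 15) (nat_lit 5) (nat_lit 330) (nat_lit 281) (nat_lit 109)) (XT.lf (nat_lit 0) (nat_lit 90502323576) (nat_lit 228) (nat_lit 54154471765) (nat_lit 76) (nat_lit 13974744791) (nat_lit 12) (nat_lit 5) (nat_lit 15) (nat_lit 5) (nat_lit 13) (nat_lit 4) (nat_lit 331) (nat_lit 281) (nat_lit 108)))) (XT.nd (nat_lit 156) (nat_lit 0) (nat_lit 0) (XT.nd (nat_lit 78) (nat_lit 76) (nat_lit 0) (XT.lf (nat_lit 0) (nat_lit 108284295532) (nat_lit 228) (nat_lit 17703893961) (nat_lit 76) (nat_lit 39257717956) (nat_lit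 12) (nat_lit 5) (nat_lit 15) (nat_lit 5) (nat_lit 13) (nat_lit 4) (nat_lit 332) (nat_lit 281) (nat_lit 107)) (XT.lf (nat_lit 0) (nat_lit 21248516034) (nat_lit 76) (nat_lit 106038100149) (nat_lit 152) (nat_lit 44887816120) (nat_lit 11) (nat_lit 5) (nat_lit 12) (nat_lit 5) (nat_lit 13) (nat_lit 4) (nat_lit 333) (nat_lit 281) (nat_lit 106))) (XT.nd (nat_lit 78) (nat_lit 0) (nat_lit 0) (XT.lf (nat_lit 0) (nat_lit 62762416454) (nat_lit 76) (nat_lit 84775973379) (nat_lit 152) (nat_lit 31896028317) (nat_lit 11) (nat_lit 5) (nat_lit 12) (nat_lit 5) (nat_lit 13) (nat_lit 4) (nat_lit 334) (nat_lit 281) (nat_lit 105)) (XT.lf (nat_lit 0) (nat_lit 106351279229) (nat_lit 76) (nat_lit 62451009082) (nat_lit 152) (nat_lit 18255139690) (nat_lit 11) (nat_lit 5) (nat_lit 12) (nat_lit 5) (nat_lit 13) (nat_lit 4) (nat_lit 335) (nat_lit 281) (nat_lit 104)))))) (XT.nd (nat_lit 33540) (nat_lit 0) (nat_lit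 3344) (XT.nd (nat_lit 312) (nat_lit 0) (nat_lit 0) (XT.nd (nat_lit 156) (nat_lit 152) (nat_lit 0) (XT.nd (nat_lit 78) (nat_lit 76) (nat_lit 0) (XT.lf (nat_lit 0) (nat_lit 152118887366) (nat_lit 76) (nat_lit 39010052583) (nat_lit 152) (nat_lit 3932671933) (nat_lit 11) (nat_lit 5) (nat_lit 12) (nat_lit 5) (nat_lit 13) (nat_lit 4) (nat_lit 336) (nat_lit 281) (nat_lit 103)) (XT.lf (nat_lit 0) (nat_lit 10750031477) (nat_lit 152) (nat_lit 3465203616) (nat_lit 76) (nat_lit 189242122899) (nat_lit 10) (nat_lit 5) (nat_lit 12) (nat_lit 5) (nat_lit 11) (nat_lit 5) (nat_lit 337) (nat_lit 281) (nat_lit 102))) (XT.nd (nat_lit 78) (nat_lit 0) (nat_lit 0) (XT.lf (nat_lit 0) (nat_lit 26841540850) (nat_lit 228) (nat_lit 173259803060) (nat_lit 76) (nat_lit 12127983530) (nat_lit 8) (nat_lit 5) (nat_lit 11) (nat_lit 5) (nat_lit 9) (nat_lit 4) (nat_lit 338) (nat_lit 281) (nat_lit 101)) (XT.lf (nat_lit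 0) (nat_lit 44029906532) (nat_lit 228) (nat_lit 138025321622) (nat_lit 76) (nat_lit 39370054356) (nat_lit 8) (nat_lit 5) (nat_lit 11) (nat_lit 5) (nat_lit 9) (nat_lit 4) (nat_lit 339) (nat_lit 281) (nat_lit 100)))) (XT.nd (nat_lit 33072) (nat_lit 0) (nat_lit 3800) (XT.nd (nat_lit 32994) (nat_lit 0) (nat_lit 3800) (XT.lf (nat_lit 0) (nat_lit 62077306929) (nat_lit 228) (nat_lit 101029739580) (nat_lit 76) (nat_lit 67974009137) (nat_lit 8) (nat_lit 5) (nat_lit 11) (nat_lit 5) (nat_lit 9) (nat_lit 4) (nat_lit 340) (nat_lit 281) (nat_lit 99)) (XT.lf (nat_lit 0) (nat_lit 12917275103) (nat_lit 684) (nat_lit 1570685327) (nat_lit 684) (nat_lit 1570685327) (nat_lit 58) (nat_lit 3) (nat_lit 67) (nat_lit 3) (nat_lit 67) (nat_lit 5) (nat_lit 282) (nat_lit 282) (nat_lit 156))) (XT.nd (nat_lit 78) (nat_lit 0) (nat_lit 0) (XT.lf (nat_lit 76) (nat_lit 9574771365) (nat_lit 0) (nat_lit 17108865698) (nat_lit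 684) (nat_lit 6226094432) (nat_lit 59) (nat_lit 5) (nat_lit 58) (nat_lit 3) (nat_lit 67) (nat_lit 5) (nat_lit 283) (nat_lit 282) (nat_lit 155)) (XT.lf (nat_lit 76) (nat_lit 23033905306) (nat_lit 0) (nat_lit 4591004639) (nat_lit 684) (nat_lit 6114418145) (nat_lit 59) (nat_lit 5) (nat_lit 58) (nat_lit 3) (nat_lit 67) (nat_lit 5) (nat_lit 284) (nat_lit 282) (nat_lit 154))))) (XT.nd (nat_lit 312) (nat_lit 532) (nat_lit 0) (XT.nd (nat_lit 156) (nat_lit 0) (nat_lit 0) (XT.nd (nat_lit 78) (nat_lit 0) (nat_lit 0) (XT.lf (nat_lit 76) (nat_lit 2500081073) (nat_lit 0) (nat_lit 26282450975) (nat_lit 684) (nat_lit 5819428375) (nat_lit 60) (nat_lit 5) (nat_lit 59) (nat_lit 5) (nat_lit 68) (nat_lit 5) (nat_lit 285) (nat_lit 282) (nat_lit 153)) (XT.lf (nat_lit 76) (nat_lit 16657813366) (nat_lit 0) (nat_lit 13592417316) (nat_lit 684) (nat_lit 5244903146) (nat_lit 60) (nat_lit 5) (nat_lit 59) (nat_lit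 5) (nat_lit 68) (nat_lit 5) (nat_lit 286) (nat_lit 282) (nat_lit 152))) (XT.nd (nat_lit 78) (nat_lit 0) (nat_lit 76) (XT.lf (nat_lit 76) (nat_lit 31521561818) (nat_lit 0) (nat_lit 266748095) (nat_lit 684) (nat_lit 4644824520) (nat_lit 60) (nat_lit 5) (nat_lit 59) (nat_lit 5) (nat_lit 68) (nat_lit 5) (nat_lit 287) (nat_lit 282) (nat_lit 151)) (XT.lf (nat_lit 76) (nat_lit 9808136589) (nat_lit 0) (nat_lit 23959733514) (nat_lit 684) (nat_lit 3631953554) (nat_lit 61) (nat_lit 5) (nat_lit 60) (nat_lit 5) (nat_lit 69) (nat_lit 5) (nat_lit 288) (nat_lit 282) (nat_lit 150)))) (XT.nd (nat_lit 156) (nat_lit 608) (nat_lit 0) (XT.nd (nat_lit 78) (nat_lit 0) (nat_lit 76) (XT.lf (nat_lit 76) (nat_lit 25427905300) (nat_lit 0) (nat_lit 10503246197) (nat_lit 684) (nat_lit 2479475294) (nat_lit 61) (nat_lit 5) (nat_lit 60) (nat_lit 5) (nat_lit 69) (nat_lit 5) (nat_lit 289) (nat_lit 282) (nat_lit 149))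 (XT.lf (nat_lit 76) (nat_lit 2374070698) (nat_lit 0) (nat_lit 35919608658) (nat_lit 684) (nat_lit 1173752426) (nat_lit 62) (nat_lit 5) (nat_lit 61) (nat_lit 5) (nat_lit 70) (nat_lit 5) (nat_lit 290) (nat_lit 282) (nat_lit 148))) (XT.nd (nat_lit 78) (nat_lit 0) (nat_lit 0) (XT.lf (nat_lit 0) (nat_lit 584041428) (nat_lit 684) (nat_lit 21797579329) (nat_lit 760) (nat_lit 18175661711) (nat_lit 52) (nat_lit 5) (nat_lit 61) (nat_lit 5) (nat_lit 62) (nat_lit 5) (nat_lit 291) (nat_lit 282) (nat_lit 147)) (XT.lf (nat_lit 0) (nat_lit 2387841910) (nat_lit 684) (nat_lit 5758212726) (nat_lit 760) (nat_lit 33554744489) (nat_lit 52) (nat_lit 5) (nat_lit 61) (nat_lit 5) (nat_lit 62) (nat_lit 5) (nat_lit 292) (nat_lit 282) (nat_lit 146))))))))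
noncomputable def xc191 : XT := (XT.nd (nat_lit 1248) (nat_lit 988) (nat_lit 0) (XT.nd (nat_lit 624) (nat_lit 760) (nat_lit 0) (XT.nd (nat_lit 312) (nat_lit 608) (nat_lit 0) (XT.nd (nat_lit 156) (nat_lit 456) (nat_lit 0) (XT.nd (nat_lit 78) (nat_lit 0) (nat_lit 0) (XT.lf (nat_lit 0) (nat_lit 4567365335) (nat_lit 684) (nat_lit 31554158916) (nat_lit 76) (nat_lit 6765703732) (nat_lit 53) (nat_lit 5) (nat_lit 62) (nat_lit 5) (nat_lit 54) (nat_lit 5) (nat_lit 293) (nat_lit 282) (nat_lit 145)) (XT.lf (nat_lit 0) (nat_lit 7086290440) (nat_lit 684) (nat_lit 14786385244) (nat_lit 76) (nat_lit 22248793718) (nat_lit 53) (nat_lit 5) (nat_lit 62) (nat_lit 5) (nat_lit 54) (nat_lit 5) (nat_lit 294) (nat_lit 282) (nat_lit 144))) (XT.nd (nat_lit 78) (nat_lit 0) (nat_lit 0) (XT.lf (nat_lit 0) (nat_lit 2911074017) (nat_lit 456) (nat_lit 6863410999) (nat_lit 532) (nat_lit 35640783517) (nat_lit 47) (nat_lit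 5) (nat_lit 53) (nat_lit 5) (nat_lit 54) (nat_lit 5) (nat_lit 295) (nat_lit 282) (nat_lit 143)) (XT.lf (nat_lit 0) (nat_lit 12988454430) (nat_lit 532) (nat_lit 24899444952) (nat_lit 76) (nat_lit 8866301229) (nat_lit 47) (nat_lit 5) (nat_lit 54) (nat_lit 5) (nat_lit 48) (nat_lit 5) (nat_lit 296) (nat_lit 282) (nat_lit 142)))) (XT.nd (nat_lit 156) (nat_lit 304) (nat_lit 0) (XT.nd (nat_lit 78) (nat_lit 304) (nat_lit 0) (XT.lf (nat_lit 0) (nat_lit 16473683838) (nat_lit 532) (nat_lit 6528841995) (nat_lit 76) (nat_lit 25152036086) (nat_lit 47) (nat_lit 5) (nat_lit 54) (nat_lit 5) (nat_lit 48) (nat_lit 5) (nat_lit 297) (nat_lit 282) (nat_lit 141)) (XT.lf (nat_lit 0) (nat_lit 13180364955) (nat_lit 304) (nat_lit 7156731808) (nat_lit 380) (nat_lit 29277658626) (nat_lit 43) (nat_lit 5) (nat_lit 47) (nat_lit 5) (nat_lit 48) (nat_lit 5) (nat_lit 298) (nat_lit 282) (nat_lit 140))) (XT.nd (nat_lit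 78) (nat_lit 304) (nat_lit 0) (XT.lf (nat_lit 0) (nat_lit 24652294117) (nat_lit 380) (nat_lit 17192426103) (nat_lit 76) (nat_lit 9290317334) (nat_lit 43) (nat_lit 5) (nat_lit 48) (nat_lit 5) (nat_lit 44) (nat_lit 5) (nat_lit 299) (nat_lit 282) (nat_lit 139)) (XT.lf (nat_lit 0) (nat_lit 2988190052) (nat_lit 304) (nat_lit 26357326018) (nat_lit 380) (nat_lit 23377713768) (nat_lit 39) (nat_lit 5) (nat_lit 43) (nat_lit 5) (nat_lit 44) (nat_lit 5) (nat_lit 300) (nat_lit 282) (nat_lit 138))))) (XT.nd (nat_lit 312) (nat_lit 532) (nat_lit 0) (XT.nd (nat_lit 156) (nat_lit 228) (nat_lit 0) (XT.nd (nat_lit 78) (nat_lit 0) (nat_lit 0) (XT.lf (nat_lit 0) (nat_lit 24772984012) (nat_lit 304) (nat_lit 9789918872) (nat_lit 380) (nat_lit 19813462474) (nat_lit 39) (nat_lit 5) (nat_lit 43) (nat_lit 5) (nat_lit 44) (nat_lit 5) (nat_lit 301) (nat_lit 282) (nat_lit 137)) (XT.lf (nat_lit 0) (nat_lit 40158327337)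 (nat_lit 380) (nat_lit 8585627551) (nat_lit 76) (nat_lit 7362352738) (nat_lit 39) (nat_lit 5) (nat_lit 44) (nat_lit 5) (nat_lit 40) (nat_lit 5) (nat_lit 302) (nat_lit 282) (nat_lit 136))) (XT.nd (nat_lit 78) (nat_lit 0) (nat_lit 0) (XT.lf (nat_lit 0) (nat_lit 13761315497) (nat_lit 228) (nat_lit 32646045480) (nat_lit 304) (nat_lit 11496702123) (nat_lit 36) (nat_lit 5) (nat_lit 39) (nat_lit 5) (nat_lit 40) (nat_lit 5) (nat_lit 303) (nat_lit 282) (nat_lit 135)) (XT.lf (nat_lit 0) (nat_lit 37522050010) (nat_lit 228) (nat_lit 15590739074) (nat_lit 304) (nat_lit 6671727731) (nat_lit 36) (nat_lit 5) (nat_lit 39) (nat_lit 5) (nat_lit 40) (nat_lit 5) (nat_lit 304) (nat_lit 282) (nat_lit 134)))) (XT.nd (nat_lit 156) (nat_lit 228) (nat_lit 0) (XT.nd (nat_lit 78) (nat_lit 76) (nat_lit 0) (XT.lf (nat_lit 0) (nat_lit 696308294) (nat_lit 228) (nat_lit 59502839656) (nat_lit 304) (nat_lit 1557569546)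 (nat_lit 33) (nat_lit 5) (nat_lit 36) (nat_lit 5) (nat_lit 37) (nat_lit 5) (nat_lit 305) (nat_lit 282) (nat_lit 133)) (XT.lf (nat_lit 0) (nat_lit 4327691992) (nat_lit 304) (nat_lit 38555691325) (nat_lit 76) (nat_lit 20909304799) (nat_lit 32) (nat_lit 5) (nat_lit 36) (nat_lit 5) (nat_lit 33) (nat_lit 5) (nat_lit 306) (nat_lit 282) (nat_lit 132))) (XT.nd (nat_lit 78) (nat_lit 228) (nat_lit 0) (XT.lf (nat_lit 0) (nat_lit 10453558209) (nat_lit 304) (nat_lit 14952844677) (nat_lit 76) (nat_lit 40522849636) (nat_lit 32) (nat_lit 5) (nat_lit 36) (nat_lit 5) (nat_lit 33) (nat_lit 5) (nat_lit 307) (nat_lit 282) (nat_lit 131)) (XT.lf (nat_lit 0) (nat_lit 10153625447) (nat_lit 228) (nat_lit 6889367555) (nat_lit 304) (nat_lit 51121794344) (nat_lit 29) (nat_lit 5) (nat_lit 32) (nat_lit 5) (nat_lit 33) (nat_lit 5) (nat_lit 308) (nat_lit 282) (nat_lit 130)))))) (XT.nd (nat_lit 624) (nat_lit 304)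 (nat_lit 0) (XT.nd (nat_lit 312) (nat_lit 456) (nat_lit 0) (XT.nd (nat_lit 156) (nat_lit 228) (nat_lit 0) (XT.nd (nat_lit 78) (nat_lit 0) (nat_lit 0) (XT.lf (nat_lit 0) (nat_lit 24414061425) (nat_lit 304) (nat_lit 33666572622) (nat_lit 76) (nat_lit 12408862449) (nat_lit 29) (nat_lit 5) (nat_lit 33) (nat_lit 5) (nat_lit 30) (nat_lit 5) (nat_lit 309) (nat_lit 282) (nat_lit 129)) (XT.lf (nat_lit 0) (nat_lit 32265462992) (nat_lit 304) (nat_lit 8219157644) (nat_lit 76) (nat_lit 32440236887) (nat_lit 29) (nat_lit 5) (nat_lit 33) (nat_lit 5) (nat_lit 30) (nat_lit 5) (nat_lit 310) (nat_lit 282) (nat_lit 128))) (XT.nd (nat_lit 78) (nat_lit 0) (nat_lit 0) (XT.lf (nat_lit 0) (nat_lit 19110902684) (nat_lit 228) (nat_lit 21695801248) (nat_lit 304) (nat_lit 34660424356) (nat_lit 26) (nat_lit 5) (nat_lit 29) (nat_lit 5) (nat_lit 30) (nat_lit 5) (nat_lit 311) (nat_lit 282) (nat_lit 127)) (XT.lf (nat_lit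 0) (nat_lit 48091445470) (nat_lit 228) (nat_lit 1821682640) (nat_lit 304) (nat_lit 28216483326) (nat_lit 26) (nat_lit 5) (nat_lit 29) (nat_lit 5) (nat_lit 30) (nat_lit 5) (nat_lit 312) (nat_lit 282) (nat_lit 126)))) (XT.nd (nat_lit 156) (nat_lit 304) (nat_lit 0) (XT.nd (nat_lit 78) (nat_lit 152) (nat_lit 0) (XT.lf (nat_lit 0) (nat_lit 59771209666) (nat_lit 304) (nat_lit 2702924268) (nat_lit 76) (nat_lit 18436272670) (nat_lit 26) (nat_lit 5) (nat_lit 30) (nat_lit 5) (nat_lit 27) (nat_lit 5) (nat_lit 313) (nat_lit 282) (nat_lit 125)) (XT.lf (nat_lit 0) (nat_lit 26826540042) (nat_lit 152) (nat_lit 43743377822) (nat_lit 228) (nat_lit 13237941987) (nat_lit 24) (nat_lit 5) (nat_lit 26) (nat_lit 5) (nat_lit 27) (nat_lit 5) (nat_lit 314) (nat_lit 282) (nat_lit 124))) (XT.nd (nat_lit 78) (nat_lit 304) (nat_lit 0) (XT.lf (nat_lit 0) (nat_lit 57925045206) (nat_lit 152) (nat_lit 24028339783)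 (nat_lit 228) (nat_lit 4894563832) (nat_lit 24) (nat_lit 5) (nat_lit 26) (nat_lit 5) (nat_lit 27) (nat_lit 5) (nat_lit 315) (nat_lit 282) (nat_lit 123)) (XT.lf (nat_lit 0) (nat_lit 492595007) (nat_lit 228) (nat_lit 3256418148) (nat_lit 304) (nat_lit 86287676709) (nat_lit 20) (nat_lit 5) (nat_lit 23) (nat_lit 5) (nat_lit 24) (nat_lit 5) (nat_lit 316) (nat_lit 282) (nat_lit 122))))) (XT.nd (nat_lit 312) (nat_lit 152) (nat_lit 0) (XT.nd (nat_lit 156) (nat_lit 152) (nat_lit 0) (XT.nd (nat_lit 78) (nat_lit 0) (nat_lit 0) (XT.lf (nat_lit 0) (nat_lit 13446908896) (nat_lit 304) (nat_lit 61356589632) (nat_lit 76) (nat_lit 18538029687) (nat_lit 20) (nat_lit 5) (nat_lit 24) (nat_lit 5) (nat_lit 21) (nat_lit 5) (nat_lit 317) (nat_lit 282) (nat_lit 121)) (XT.lf (nat_lit 0) (nat_lit 23682221034) (nat_lit 304) (nat_lit 31814301785) (nat_lit 76) (nat_lit 41312463070) (nat_lit 20) (nat_lit 5) (nat_lit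 24) (nat_lit 5) (nat_lit 21) (nat_lit 5) (nat_lit 318) (nat_lit 282) (nat_lit 120))) (XT.nd (nat_lit 78) (nat_lit 152) (nat_lit 0) (XT.lf (nat_lit 0) (nat_lit 34428477546) (nat_lit 304) (nat_lit 796050720) (nat_lit 76) (nat_lit 65225332561) (nat_lit 20) (nat_lit 5) (nat_lit 24) (nat_lit 5) (nat_lit 21) (nat_lit 5) (nat_lit 319) (nat_lit 282) (nat_lit 119)) (XT.lf (nat_lit 0) (nat_lit 32822542892) (nat_lit 152) (nat_lit 13401173745) (nat_lit 228) (nat_lit 58023482550) (nat_lit 18) (nat_lit 5) (nat_lit 20) (nat_lit 5) (nat_lit 21) (nat_lit 5) (nat_lit 320) (nat_lit 282) (nat_lit 118)))) (XT.nd (nat_lit 156) (nat_lit 152) (nat_lit 0) (XT.nd (nat_lit 78) (nat_lit 0) (nat_lit 0) (XT.lf (nat_lit 0) (nat_lit 58770183555) (nat_lit 228) (nat_lit 40233892983) (nat_lit 76) (nat_lit 9222257643) (nat_lit 18) (nat_lit 5) (nat_lit 21) (nat_lit 5) (nat_lit 19) (nat_lit 5) (nat_lit 321) (nat_lit 282)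 (nat_lit 117)) (XT.lf (nat_lit 0) (nat_lit 72162935029) (nat_lit 228) (nat_lit 7704344615) (nat_lit 76) (nat_lit 32526201089) (nat_lit 18) (nat_lit 5) (nat_lit 21) (nat_lit 5) (nat_lit 19) (nat_lit 5) (nat_lit 322) (nat_lit 282) (nat_lit 116))) (XT.nd (nat_lit 78) (nat_lit 0) (nat_lit 0) (XT.lf (nat_lit 0) (nat_lit 27325248597) (nat_lit 152) (nat_lit 59326003795) (nat_lit 228) (nat_lit 30096438536) (nat_lit 16) (nat_lit 5) (nat_lit 18) (nat_lit 5) (nat_lit 19) (nat_lit 5) (nat_lit 323) (nat_lit 282) (nat_lit 115)) (XT.lf (nat_lit 0) (nat_lit 64372804051) (nat_lit 152) (nat_lit 37620980564) (nat_lit 228) (nat_lit 19319339669) (nat_lit 16) (nat_lit 5) (nat_lit 18) (nat_lit 5) (nat_lit 19) (nat_lit 5) (nat_lit 324) (nat_lit 282) (nat_lit 114)))))))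
noncomputable def xc192 : XT := (XT.nd (nat_lit 34242) (nat_lit 0) (nat_lit 2660) (XT.nd (nat_lit 624) (nat_lit 304) (nat_lit 0) (XT.nd (nat_lit 312) (nat_lit 152) (nat_lit 0) (XT.nd (nat_lit 156) (nat_lit 0) (nat_lit 0) (XT.nd (nat_lit 78) (nat_lit 152) (nat_lit 0) (XT.lf (nat_lit 0) (nat_lit 103271789783) (nat_lit 152) (nat_lit 14831008130) (nat_lit 228) (nat_lit 8004066148) (nat_lit 16) (nat_lit 5) (nat_lit 18) (nat_lit 5) (nat_lit 19) (nat_lit 5) (nat_lit 325) (nat_lit 282) (nat_lit 113)) (XT.lf (nat_lit 0) (nat_lit 4107001315) (nat_lit 152) (nat_lit 117932365483) (nat_lit 76) (nat_lit 9080193880) (nat_lit 14) (nat_lit 5) (nat_lit 16) (nat_lit 5) (nat_lit 15) (nat_lit 5) (nat_lit 326) (nat_lit 282) (nat_lit 112))) (XT.nd (nat_lit 78) (nat_lit 0) (nat_lit 0) (XT.lf (nat_lit 0) (nat_lit 17190210905) (nat_lit 152) (nat_lit 84941819297) (nat_lit 76) (nat_lit 34212524461) (nat_lit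 14) (nat_lit 5) (nat_lit 16) (nat_lit 5) (nat_lit 15) (nat_lit 5) (nat_lit 327) (nat_lit 282) (nat_lit 111)) (XT.lf (nat_lit 0) (nat_lit 30926994140) (nat_lit 152) (nat_lit 50302639594) (nat_lit 76) (nat_lit 60601195992) (nat_lit 14) (nat_lit 5) (nat_lit 16) (nat_lit 5) (nat_lit 15) (nat_lit 5) (nat_lit 328) (nat_lit 282) (nat_lit 110)))) (XT.nd (nat_lit 156) (nat_lit 0) (nat_lit 0) (XT.nd (nat_lit 78) (nat_lit 152) (nat_lit 0) (XT.lf (nat_lit 0) (nat_lit 45350057649) (nat_lit 152) (nat_lit 13932352136) (nat_lit 76) (nat_lit 88309038643) (nat_lit 14) (nat_lit 5) (nat_lit 16) (nat_lit 5) (nat_lit 15) (nat_lit 5) (nat_lit 329) (nat_lit 282) (nat_lit 109)) (XT.lf (nat_lit 0) (nat_lit 25057639965) (nat_lit 152) (nat_lit 35827322076) (nat_lit 228) (nat_lit 92735603487) (nat_lit 12) (nat_lit 5) (nat_lit 14) (nat_lit 5) (nat_lit 15) (nat_lit 5) (nat_lit 330) (nat_lit 282) (nat_lit 108)))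 (XT.nd (nat_lit 78) (nat_lit 0) (nat_lit 0) (XT.lf (nat_lit 0) (nat_lit 66480033858) (nat_lit 152) (nat_lit 10952009538) (nat_lit 228) (nat_lit 82507325260) (nat_lit 12) (nat_lit 5) (nat_lit 14) (nat_lit 5) (nat_lit 15) (nat_lit 5) (nat_lit 331) (nat_lit 282) (nat_lit 107)) (XT.lf (nat_lit 0) (nat_lit 95042780481) (nat_lit 228) (nat_lit 56838146853) (nat_lit 76) (nat_lit 14681371201) (nat_lit 12) (nat_lit 5) (nat_lit 15) (nat_lit 5) (nat_lit 13) (nat_lit 4) (nat_lit 332) (nat_lit 282) (nat_lit 106))))) (XT.nd (nat_lit 312) (nat_lit 228) (nat_lit 0) (XT.nd (nat_lit 156) (nat_lit 0) (nat_lit 0) (XT.nd (nat_lit 78) (nat_lit 76) (nat_lit 0) (XT.lf (nat_lit 0) (nat_lit 113713120524) (nat_lit 228) (nat_lit 18566185326) (nat_lit 76) (nat_lit 41228117349) (nat_lit 12) (nat_lit 5) (nat_lit 15) (nat_lit 5) (nat_lit 13) (nat_lit 4) (nat_lit 333) (nat_lit 282) (nat_lit 105)) (XT.lf (nat_lit 0)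 (nat_lit 22333475761) (nat_lit 76) (nat_lit 111331737540) (nat_lit 152) (nat_lit 47117180529) (nat_lit 11) (nat_lit 5) (nat_lit 12) (nat_lit 5) (nat_lit 13) (nat_lit 4) (nat_lit 334) (nat_lit 282) (nat_lit 104))) (XT.nd (nat_lit 78) (nat_lit 0) (nat_lit 0) (XT.lf (nat_lit 0) (nat_lit 65921998157) (nat_lit 76) (nat_lit 89006898127) (nat_lit 152) (nat_lit 33476518878) (nat_lit 11) (nat_lit 5) (nat_lit 12) (nat_lit 5) (nat_lit 13) (nat_lit 4) (nat_lit 335) (nat_lit 282) (nat_lit 103)) (XT.lf (nat_lit 0) (nat_lit 111689282124) (nat_lit 76) (nat_lit 65566060565) (nat_lit 152) (nat_lit 19154267289) (nat_lit 11) (nat_lit 5) (nat_lit 12) (nat_lit 5) (nat_lit 13) (nat_lit 4) (nat_lit 336) (nat_lit 282) (nat_lit 102)))) (XT.nd (nat_lit 156) (nat_lit 152) (nat_lit 0) (XT.nd (nat_lit 78) (nat_lit 76) (nat_lit 0) (XT.lf (nat_lit 0) (nat_lit 159744297386) (nat_lit 76) (nat_lit 40953413334) (nat_lit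 152) (nat_lit 4116325163) (nat_lit 11) (nat_lit 5) (nat_lit 12) (nat_lit 5) (nat_lit 13) (nat_lit 4) (nat_lit 337) (nat_lit 282) (nat_lit 101)) (XT.lf (nat_lit 0) (nat_lit 11299499636) (nat_lit 152) (nat_lit 3619492764) (nat_lit 76) (nat_lit 198710598515) (nat_lit 10) (nat_lit 5) (nat_lit 12) (nat_lit 5) (nat_lit 11) (nat_lit 5) (nat_lit 338) (nat_lit 282) (nat_lit 100))) (XT.nd (nat_lit 78) (nat_lit 0) (nat_lit 0) (XT.lf (nat_lit 0) (nat_lit 28195414983) (nat_lit 228) (nat_lit 181903617782) (nat_lit 76) (nat_lit 12741136290) (nat_lit 8) (nat_lit 5) (nat_lit 11) (nat_lit 5) (nat_lit 9) (nat_lit 4) (nat_lit 339) (nat_lit 282) (nat_lit 99)) (XT.lf (nat_lit 0) (nat_lit 46242637183) (nat_lit 228) (nat_lit 144908325387) (nat_lit 76) (nat_lit 41344989058) (nat_lit 8) (nat_lit 5) (nat_lit 11) (nat_lit 5) (nat_lit 9) (nat_lit 4) (nat_lit 340) (nat_lit 282) (nat_lit 98)))))) (XT.nd (nat_lit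 624) (nat_lit 1140) (nat_lit 0) (XT.nd (nat_lit 312) (nat_lit 0) (nat_lit 76) (XT.nd (nat_lit 156) (nat_lit 0) (nat_lit 0) (XT.nd (nat_lit 78) (nat_lit 0) (nat_lit 0) (XT.lf (nat_lit 0) (nat_lit 13616034006) (nat_lit 684) (nat_lit 1621286650) (nat_lit 684) (nat_lit 1621286650) (nat_lit 58) (nat_lit 3) (nat_lit 67) (nat_lit 3) (nat_lit 67) (nat_lit 5) (nat_lit 283) (nat_lit 283) (nat_lit 154)) (XT.lf (nat_lit 76) (nat_lit 10108474757) (nat_lit 0) (nat_lit 18010954976) (nat_lit 684) (nat_lit 6430086880) (nat_lit 59) (nat_lit 5) (nat_lit 58) (nat_lit 3) (nat_lit 67) (nat_lit 5) (nat_lit 284) (nat_lit 283) (nat_lit 153))) (XT.nd (nat_lit 78) (nat_lit 0) (nat_lit 76) (XT.lf (nat_lit 76) (nat_lit 24237948022) (nat_lit 0) (nat_lit 4864979626) (nat_lit 684) (nat_lit 6317936886) (nat_lit 59) (nat_lit 5) (nat_lit 58) (nat_lit 3) (nat_lit 67) (nat_lit 5) (nat_lit 285) (nat_lit 283) (nat_lit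 152)) (XT.lf (nat_lit 76) (nat_lit 2682613052) (nat_lit 0) (nat_lit 27631447211) (nat_lit 684) (nat_lit 6012814911) (nat_lit 60) (nat_lit 5) (nat_lit 59) (nat_lit 5) (nat_lit 68) (nat_lit 5) (nat_lit 286) (nat_lit 283) (nat_lit 151)))) (XT.nd (nat_lit 156) (nat_lit 0) (nat_lit 76) (XT.nd (nat_lit 78) (nat_lit 0) (nat_lit 0) (XT.lf (nat_lit 76) (nat_lit 17545492534) (nat_lit 0) (nat_lit 14305251217) (nat_lit 684) (nat_lit 5414210321) (nat_lit 60) (nat_lit 5) (nat_lit 59) (nat_lit 5) (nat_lit 68) (nat_lit 5) (nat_lit 287) (nat_lit 283) (nat_lit 150)) (XT.lf (nat_lit 76) (nat_lit 33149819432) (nat_lit 0) (nat_lit 311716962) (nat_lit 684) (nat_lit 4788553381) (nat_lit 60) (nat_lit 5) (nat_lit 59) (nat_lit 5) (nat_lit 68) (nat_lit 5) (nat_lit 288) (nat_lit 283) (nat_lit 149))) (XT.nd (nat_lit 78) (nat_lit 0) (nat_lit 0) (XT.lf (nat_lit 76) (nat_lit 10354992777) (nat_lit 0) (nat_lit 25181501811)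 (nat_lit 684) (nat_lit 3728822198) (nat_lit 61) (nat_lit 5) (nat_lit 60) (nat_lit 5) (nat_lit 69) (nat_lit 5) (nat_lit 289) (nat_lit 283) (nat_lit 148)) (XT.lf (nat_lit 76) (nat_lit 26753061860) (nat_lit 0) (nat_lit 11051057670) (nat_lit 684) (nat_lit 2522754741) (nat_lit 61) (nat_lit 5) (nat_lit 60) (nat_lit 5) (nat_lit 69) (nat_lit 5) (nat_lit 290) (nat_lit 283) (nat_lit 147))))) (XT.nd (nat_lit 312) (nat_lit 684) (nat_lit 0) (XT.nd (nat_lit 156) (nat_lit 0) (nat_lit 0) (XT.nd (nat_lit 78) (nat_lit 684) (nat_lit 0) (XT.lf (nat_lit 76) (nat_lit 2550231089) (nat_lit 0) (nat_lit 37731464383) (nat_lit 684) (nat_lit 1155000017) (nat_lit 62) (nat_lit 5) (nat_lit 61) (nat_lit 5) (nat_lit 70) (nat_lit 5) (nat_lit 291) (nat_lit 283) (nat_lit 146)) (XT.lf (nat_lit 0) (nat_lit 684635372) (nat_lit 684) (nat_lit 22829976694) (nat_lit 760) (nat_lit 19066564684) (nat_lit 52) (nat_lit 5) (nat_lit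 61) (nat_lit 5) (nat_lit 62) (nat_lit 5) (nat_lit 292) (nat_lit 283) (nat_lit 145))) (XT.nd (nat_lit 78) (nat_lit 0) (nat_lit 76) (XT.lf (nat_lit 0) (nat_lit 2575226265) (nat_lit 684) (nat_lit 5991378980) (nat_lit 760) (nat_lit 35215453035) (nat_lit 52) (nat_lit 5) (nat_lit 61) (nat_lit 5) (nat_lit 62) (nat_lit 5) (nat_lit 293) (nat_lit 283) (nat_lit 144)) (XT.lf (nat_lit 0) (nat_lit 4861145860) (nat_lit 684) (nat_lit 33074179441) (nat_lit 76) (nat_lit 7092630430) (nat_lit 53) (nat_lit 5) (nat_lit 62) (nat_lit 5) (nat_lit 54) (nat_lit 5) (nat_lit 294) (nat_lit 283) (nat_lit 143)))) (XT.nd (nat_lit 156) (nat_lit 304) (nat_lit 0) (XT.nd (nat_lit 78) (nat_lit 456) (nat_lit 0) (XT.lf (nat_lit 0) (nat_lit 7502902350) (nat_lit 684) (nat_lit 15470764106) (nat_lit 76) (nat_lit 23350415796) (nat_lit 53) (nat_lit 5) (nat_lit 62) (nat_lit 5) (nat_lit 54) (nat_lit 5) (nat_lit 295) (nat_lit 283)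 (nat_lit 142)) (XT.lf (nat_lit 0) (nat_lit 3110681983) (nat_lit 456) (nat_lit 7212702070) (nat_lit 532) (nat_lit 37359309883) (nat_lit 47) (nat_lit 5) (nat_lit 53) (nat_lit 5) (nat_lit 54) (nat_lit 5) (nat_lit 296) (nat_lit 283) (nat_lit 141))) (XT.nd (nat_lit 78) (nat_lit 304) (nat_lit 0) (XT.lf (nat_lit 0) (nat_lit 13695095462) (nat_lit 532) (nat_lit 26089666868) (nat_lit 76) (nat_lit 9303973789) (nat_lit 47) (nat_lit 5) (nat_lit 54) (nat_lit 5) (nat_lit 48) (nat_lit 5) (nat_lit 297) (nat_lit 283) (nat_lit 140)) (XT.nd (nat_lit 78) (nat_lit 304) (nat_lit 0) (XT.lf (nat_lit 0) (nat_lit 17351861660) (nat_lit 532) (nat_lit 6803140922) (nat_lit 76) (nat_lit 26404264080) (nat_lit 47) (nat_lit 5) (nat_lit 54) (nat_lit 5) (nat_lit 48) (nat_lit 5) (nat_lit 298) (nat_lit 283) (nat_lit 139)) (XT.lf (nat_lit 0) (nat_lit 13890685356) (nat_lit 304) (nat_lit 7515965911) (nat_lit 380) (nat_lit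 30685922459) (nat_lit 43) (nat_lit 5) (nat_lit 47) (nat_lit 5) (nat_lit 48) (nat_lit 5) (nat_lit 299) (nat_lit 283) (nat_lit 138))))))))
noncomputable def xc193 : XT := (XT.nd (nat_lit 1248) (nat_lit 912) (nat_lit 0) (XT.nd (nat_lit 624) (nat_lit 608) (nat_lit 0) (XT.nd (nat_lit 312) (nat_lit 532) (nat_lit 0) (XT.nd (nat_lit 156) (nat_lit 0) (nat_lit 0) (XT.nd (nat_lit 78) (nat_lit 304) (nat_lit 0) (XT.lf (nat_lit 0) (nat_lit 25935078200) (nat_lit 380) (nat_lit 18000387022) (nat_lit 76) (nat_lit 9753544836) (nat_lit 43) (nat_lit 5) (nat_lit 48) (nat_lit 5) (nat_lit 44) (nat_lit 5) (nat_lit 300) (nat_lit 283) (nat_lit 137)) (XT.lf (nat_lit 0) (nat_lit 3188426709) (nat_lit 304) (nat_lit 27672939079) (nat_lit 380) (nat_lit 24495338843) (nat_lit 39) (nat_lit 5) (nat_lit 43) (nat_lit 5) (nat_lit 44) (nat_lit 5) (nat_lit 301) (nat_lit 283) (nat_lit 136))) (XT.nd (nat_lit 78) (nat_lit 0)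 (nat_lit 0) (XT.lf (nat_lit 0) (nat_lit 26060040025) (nat_lit 304) (nat_lit 10277268873) (nat_lit 380) (nat_lit 20755315966) (nat_lit 39) (nat_lit 5) (nat_lit 43) (nat_lit 5) (nat_lit 44) (nat_lit 5) (nat_lit 302) (nat_lit 283) (nat_lit 135)) (XT.lf (nat_lit 0) (nat_lit 42210333584) (nat_lit 380) (nat_lit 8966402195) (nat_lit 76) (nat_lit 7732448717) (nat_lit 39) (nat_lit 5) (nat_lit 44) (nat_lit 5) (nat_lit 40) (nat_lit 5) (nat_lit 303) (nat_lit 283) (nat_lit 134)))) (XT.nd (nat_lit 156) (nat_lit 304) (nat_lit 0) (XT.nd (nat_lit 78) (nat_lit 0) (nat_lit 0) (XT.lf (nat_lit 0) (nat_lit 14497105638) (nat_lit 228) (nat_lit 34273358860) (nat_lit 304) (nat_lit 12026442109) (nat_lit 36) (nat_lit 5) (nat_lit 39) (nat_lit 5) (nat_lit 40) (nat_lit 5) (nat_lit 304) (nat_lit 283) (nat_lit 133)) (XT.lf (nat_lit 0) (nat_lit 39443604289) (nat_lit 228) (nat_lit 16365524701) (nat_lit 304) (nat_lit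 6962366384) (nat_lit 36) (nat_lit 5) (nat_lit 39) (nat_lit 5) (nat_lit 40) (nat_lit 5) (nat_lit 305) (nat_lit 283) (nat_lit 132))) (XT.nd (nat_lit 78) (nat_lit 76) (nat_lit 0) (XT.lf (nat_lit 0) (nat_lit 777980445) (nat_lit 228) (nat_lit 62470689451) (nat_lit 304) (nat_lit 1593703095) (nat_lit 33) (nat_lit 5) (nat_lit 36) (nat_lit 5) (nat_lit 37) (nat_lit 5) (nat_lit 306) (nat_lit 283) (nat_lit 131)) (XT.lf (nat_lit 0) (nat_lit 4582561191) (nat_lit 304) (nat_lit 40437394596) (nat_lit 76) (nat_lit 21960259146) (nat_lit 32) (nat_lit 5) (nat_lit 36) (nat_lit 5) (nat_lit 33) (nat_lit 5) (nat_lit 307) (nat_lit 283) (nat_lit 130))))) (XT.nd (nat_lit 312) (nat_lit 380) (nat_lit 0) (XT.nd (nat_lit 156) (nat_lit 0) (nat_lit 0) (XT.nd (nat_lit 78) (nat_lit 228) (nat_lit 0) (XT.lf (nat_lit 0) (nat_lit 11012888120) (nat_lit 304) (nat_lit 15656599962) (nat_lit 76) (nat_lit 42554219839) (nat_lit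 32) (nat_lit 5) (nat_lit 36) (nat_lit 5) (nat_lit 33) (nat_lit 5) (nat_lit 308) (nat_lit 283) (nat_lit 129)) (XT.lf (nat_lit 0) (nat_lit 10704485814) (nat_lit 228) (nat_lit 7226237652) (nat_lit 304) (nat_lit 53640357896) (nat_lit 29) (nat_lit 5) (nat_lit 32) (nat_lit 5) (nat_lit 33) (nat_lit 5) (nat_lit 309) (nat_lit 283) (nat_lit 128))) (XT.nd (nat_lit 78) (nat_lit 0) (nat_lit 0) (XT.lf (nat_lit 0) (nat_lit 25668763966) (nat_lit 304) (nat_lit 35307038571) (nat_lit 76) (nat_lit 13036310418) (nat_lit 29) (nat_lit 5) (nat_lit 33) (nat_lit 5) (nat_lit 30) (nat_lit 5) (nat_lit 310) (nat_lit 283) (nat_lit 127)) (XT.lf (nat_lit 0) (nat_lit 33911116590) (nat_lit 304) (nat_lit 8589293925) (nat_lit 76) (nat_lit 34068920013) (nat_lit 29) (nat_lit 5) (nat_lit 33) (nat_lit 5) (nat_lit 30) (nat_lit 5) (nat_lit 311) (nat_lit 283) (nat_lit 126)))) (XT.nd (nat_lit 156) (nat_lit 152) (nat_lit 0) (XT.nd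 (nat_lit 78) (nat_lit 0) (nat_lit 0) (XT.lf (nat_lit 0) (nat_lit 20106611008) (nat_lit 228) (nat_lit 22771893703) (nat_lit 304) (nat_lit 36360263046) (nat_lit 26) (nat_lit 5) (nat_lit 29) (nat_lit 5) (nat_lit 30) (nat_lit 5) (nat_lit 312) (nat_lit 283) (nat_lit 125)) (XT.lf (nat_lit 0) (nat_lit 50534268400) (nat_lit 228) (nat_lit 1904483336) (nat_lit 304) (nat_lit 29595705085) (nat_lit 26) (nat_lit 5) (nat_lit 29) (nat_lit 5) (nat_lit 30) (nat_lit 5) (nat_lit 313) (nat_lit 283) (nat_lit 124))) (XT.nd (nat_lit 78) (nat_lit 152) (nat_lit 0) (XT.lf (nat_lit 0) (nat_lit 62788433528) (nat_lit 304) (nat_lit 2800207134) (nat_lit 76) (nat_lit 19365722793) (nat_lit 26) (nat_lit 5) (nat_lit 30) (nat_lit 5) (nat_lit 27) (nat_lit 5) (nat_lit 314) (nat_lit 283) (nat_lit 123)) (XT.lf (nat_lit 0) (nat_lit 28205119692) (nat_lit 152) (nat_lit 45921174140) (nat_lit 228) (nat_lit 13870440903) (nat_lit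 24) (nat_lit 5) (nat_lit 26) (nat_lit 5) (nat_lit 27) (nat_lit 5) (nat_lit 315) (nat_lit 283) (nat_lit 122)))))) (XT.nd (nat_lit 624) (nat_lit 456) (nat_lit 0) (XT.nd (nat_lit 312) (nat_lit 152) (nat_lit 0) (XT.nd (nat_lit 156) (nat_lit 0) (nat_lit 0) (XT.nd (nat_lit 78) (nat_lit 304) (nat_lit 0) (XT.lf (nat_lit 0) (nat_lit 60856776179) (nat_lit 152) (nat_lit 25220830512) (nat_lit 228) (nat_lit 5111293754) (nat_lit 24) (nat_lit 5) (nat_lit 26) (nat_lit 5) (nat_lit 27) (nat_lit 5) (nat_lit 316) (nat_lit 283) (nat_lit 121)) (XT.lf (nat_lit 0) (nat_lit 553123649) (nat_lit 228) (nat_lit 3409712217) (nat_lit 304) (nat_lit 90574262682) (nat_lit 20) (nat_lit 5) (nat_lit 23) (nat_lit 5) (nat_lit 24) (nat_lit 5) (nat_lit 317) (nat_lit 283) (nat_lit 120))) (XT.nd (nat_lit 78) (nat_lit 0) (nat_lit 0) (XT.lf (nat_lit 0) (nat_lit 14144512240) (nat_lit 304) (nat_lit 64389013438) (nat_lit 76) (nat_lit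 19473713952) (nat_lit 20) (nat_lit 5) (nat_lit 24) (nat_lit 5) (nat_lit 21) (nat_lit 5) (nat_lit 318) (nat_lit 283) (nat_lit 119)) (XT.lf (nat_lit 0) (nat_lit 24890387227) (nat_lit 304) (nat_lit 33371297183) (nat_lit 76) (nat_lit 43386450777) (nat_lit 20) (nat_lit 5) (nat_lit 24) (nat_lit 5) (nat_lit 21) (nat_lit 5) (nat_lit 319) (nat_lit 283) (nat_lit 118)))) (XT.nd (nat_lit 156) (nat_lit 0) (nat_lit 0) (XT.nd (nat_lit 78) (nat_lit 152) (nat_lit 0) (XT.lf (nat_lit 0) (nat_lit 36172811082) (nat_lit 304) (nat_lit 803739265) (nat_lit 76) (nat_lit 68494565430) (nat_lit 20) (nat_lit 5) (nat_lit 24) (nat_lit 5) (nat_lit 21) (nat_lit 5) (nat_lit 320) (nat_lit 283) (nat_lit 117)) (XT.lf (nat_lit 0) (nat_lit 34495266060) (nat_lit 152) (nat_lit 14061948434) (nat_lit 228) (nat_lit 60901140852) (nat_lit 18) (nat_lit 5) (nat_lit 20) (nat_lit 5) (nat_lit 21) (nat_lit 5) (nat_lit 321) (nat_lit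 283) (nat_lit 116))) (XT.nd (nat_lit 78) (nat_lit 0) (nat_lit 0) (XT.lf (nat_lit 0) (nat_lit 61730080328) (nat_lit 228) (nat_lit 42214487752) (nat_lit 76) (nat_lit 9691929432) (nat_lit 18) (nat_lit 5) (nat_lit 21) (nat_lit 5) (nat_lit 19) (nat_lit 5) (nat_lit 322) (nat_lit 283) (nat_lit 115)) (XT.lf (nat_lit 0) (nat_lit 75791450918) (nat_lit 228) (nat_lit 8059942912) (nat_lit 76) (nat_lit 34160662484) (nat_lit 18) (nat_lit 5) (nat_lit 21) (nat_lit 5) (nat_lit 19) (nat_lit 5) (nat_lit 323) (nat_lit 283) (nat_lit 114))))) (XT.nd (nat_lit 312) (nat_lit 152) (nat_lit 0) (XT.nd (nat_lit 156) (nat_lit 152) (nat_lit 0) (XT.nd (nat_lit 78) (nat_lit 0) (nat_lit 0) (XT.lf (nat_lit 0) (nat_lit 28720652236) (nat_lit 152) (nat_lit 62283016930) (nat_lit 228) (nat_lit 31580337411) (nat_lit 16) (nat_lit 5) (nat_lit 18) (nat_lit 5) (nat_lit 19) (nat_lit 5) (nat_lit 324) (nat_lit 283) (nat_lit 113))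 (XT.lf (nat_lit 0) (nat_lit 67619197786) (nat_lit 152) (nat_lit 39493184779) (nat_lit 228) (nat_lit 20265379937) (nat_lit 16) (nat_lit 5) (nat_lit 18) (nat_lit 5) (nat_lit 19) (nat_lit 5) (nat_lit 325) (nat_lit 283) (nat_lit 112))) (XT.nd (nat_lit 78) (nat_lit 152) (nat_lit 0) (XT.lf (nat_lit 0) (nat_lit 108461811208) (nat_lit 152) (nat_lit 15564134904) (nat_lit 228) (nat_lit 8385291631) (nat_lit 16) (nat_lit 5) (nat_lit 18) (nat_lit 5) (nat_lit 19) (nat_lit 5) (nat_lit 326) (nat_lit 283) (nat_lit 111)) (XT.lf (nat_lit 0) (nat_lit 4330400083) (nat_lit 152) (nat_lit 123801494202) (nat_lit 76) (nat_lit 9542679312) (nat_lit 14) (nat_lit 5) (nat_lit 16) (nat_lit 5) (nat_lit 15) (nat_lit 5) (nat_lit 327) (nat_lit 283) (nat_lit 110)))) (XT.nd (nat_lit 156) (nat_lit 152) (nat_lit 0) (XT.nd (nat_lit 78) (nat_lit 0) (nat_lit 0) (XT.lf (nat_lit 0) (nat_lit 18066910690) (nat_lit 152) (nat_lit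 89162729733) (nat_lit 76) (nat_lit 35931222815) (nat_lit 14) (nat_lit 5) (nat_lit 16) (nat_lit 5) (nat_lit 15) (nat_lit 5) (nat_lit 328) (nat_lit 283) (nat_lit 109)) (XT.lf (nat_lit 0) (nat_lit 32489714552) (nat_lit 152) (nat_lit 52792837736) (nat_lit 76) (nat_lit 63638943535) (nat_lit 14) (nat_lit 5) (nat_lit 16) (nat_lit 5) (nat_lit 15) (nat_lit 5) (nat_lit 329) (nat_lit 283) (nat_lit 108))) (XT.nd (nat_lit 78) (nat_lit 152) (nat_lit 0) (XT.lf (nat_lit 0) (nat_lit 47633151678) (nat_lit 152) (nat_lit 14605223231) (nat_lit 76) (nat_lit 92731812236) (nat_lit 14) (nat_lit 5) (nat_lit 16) (nat_lit 5) (nat_lit 15) (nat_lit 5) (nat_lit 330) (nat_lit 283) (nat_lit 107)) (XT.lf (nat_lit 0) (nat_lit 26333885466) (nat_lit 152) (nat_lit 37610538158) (nat_lit 228) (nat_lit 97356357938) (nat_lit 12) (nat_lit 5) (nat_lit 14) (nat_lit 5) (nat_lit 15) (nat_lit 5) (nat_lit 331) (nat_lit 283) (nat_lit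 106)))))))
noncomputable def xc194 : XT := (XT.nd (nat_lit 34398) (nat_lit 0) (nat_lit 1672) (XT.nd (nat_lit 33774) (nat_lit 0) (nat_lit 3648) (XT.nd (nat_lit 312) (nat_lit 76) (nat_lit 0) (XT.nd (nat_lit 156) (nat_lit 76) (nat_lit 0) (XT.nd (nat_lit 78) (nat_lit 0) (nat_lit 0) (XT.lf (nat_lit 0) (nat_lit 69826286506) (nat_lit 152) (nat_lit 11491848090) (nat_lit 228) (nat_lit 86617428929) (nat_lit 12) (nat_lit 5) (nat_lit 14) (nat_lit 5) (nat_lit 15) (nat_lit 5) (nat_lit 332) (nat_lit 283) (nat_lit 105)) (XT.lf (nat_lit 0) (nat_lit 99808833995) (nat_lit 228) (nat_lit 59658241497) (nat_lit 76) (nat_lit 15422595471) (nat_lit 12) (nat_lit 5) (nat_lit 15) (nat_lit 5) (nat_lit 13) (nat_lit 4) (nat_lit 333) (nat_lit 283) (nat_lit 104))) (XT.nd (nat_lit 78) (nat_lit 76) (nat_lit 0) (XT.lf (nat_lit 0) (nat_lit 119412028446) (nat_lit 228) (nat_lit 19473720593) (nat_lit 76) (nat_lit 43296338178)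 (nat_lit 12) (nat_lit 5) (nat_lit 15) (nat_lit 5) (nat_lit 13) (nat_lit 4) (nat_lit 334) (nat_lit 283) (nat_lit 103)) (XT.lf (nat_lit 0) (nat_lit 23470588483) (nat_lit 76) (nat_lit 116890825445) (nat_lit 152) (nat_lit 49459410170) (nat_lit 11) (nat_lit 5) (nat_lit 12) (nat_lit 5) (nat_lit 13) (nat_lit 4) (nat_lit 335) (nat_lit 283) (nat_lit 102)))) (XT.nd (nat_lit 156) (nat_lit 76) (nat_lit 0) (XT.nd (nat_lit 78) (nat_lit 0) (nat_lit 0) (XT.lf (nat_lit 0) (nat_lit 69237563717) (nat_lit 76) (nat_lit 93450101155) (nat_lit 152) (nat_lit 35137364455) (nat_lit 11) (nat_lit 5) (nat_lit 12) (nat_lit 5) (nat_lit 13) (nat_lit 4) (nat_lit 336) (nat_lit 283) (nat_lit 101)) (XT.lf (nat_lit 0) (nat_lit 117292284946) (nat_lit 76) (nat_lit 68837561804) (nat_lit 152) (nat_lit 20099618399) (nat_lit 11) (nat_lit 5) (nat_lit 12) (nat_lit 5) (nat_lit 13) (nat_lit 4) (nat_lit 337) (nat_lit 283) (nat_lit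 100))) (XT.nd (nat_lit 78) (nat_lit 76) (nat_lit 0) (XT.lf (nat_lit 0) (nat_lit 167749168175) (nat_lit 76) (nat_lit 42994606107) (nat_lit 152) (nat_lit 4310367845) (nat_lit 11) (nat_lit 5) (nat_lit 12) (nat_lit 5) (nat_lit 13) (nat_lit 4) (nat_lit 338) (nat_lit 283) (nat_lit 99)) (XT.lf (nat_lit 0) (nat_lit 11875328663) (nat_lit 152) (nat_lit 3783260115) (nat_lit 76) (nat_lit 208651905738) (nat_lit 10) (nat_lit 5) (nat_lit 12) (nat_lit 5) (nat_lit 11) (nat_lit 5) (nat_lit 339) (nat_lit 283) (nat_lit 98))))) (XT.nd (nat_lit 312) (nat_lit 0) (nat_lit 76) (XT.nd (nat_lit 156) (nat_lit 0) (nat_lit 0) (XT.nd (nat_lit 78) (nat_lit 0) (nat_lit 0) (XT.lf (nat_lit 0) (nat_lit 14344813164) (nat_lit 684) (nat_lit 1677014980) (nat_lit 684) (nat_lit 1677014980) (nat_lit 58) (nat_lit 3) (nat_lit 67) (nat_lit 3) (nat_lit 67) (nat_lit 5) (nat_lit 284) (nat_lit 284) (nat_lit 152)) (XT.lf (nat_lit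 76) (nat_lit 10663753210) (nat_lit 0) (nat_lit 18953812016) (nat_lit 684) (nat_lit 6654255828) (nat_lit 59) (nat_lit 5) (nat_lit 58) (nat_lit 3) (nat_lit 67) (nat_lit 5) (nat_lit 285) (nat_lit 284) (nat_lit 151))) (XT.nd (nat_lit 78) (nat_lit 0) (nat_lit 76) (XT.lf (nat_lit 76) (nat_lit 25497326104) (nat_lit 0) (nat_lit 5148523170) (nat_lit 684) (nat_lit 6541133353) (nat_lit 59) (nat_lit 5) (nat_lit 58) (nat_lit 3) (nat_lit 67) (nat_lit 5) (nat_lit 286) (nat_lit 284) (nat_lit 150)) (XT.lf (nat_lit 76) (nat_lit 2868923228) (nat_lit 0) (nat_lit 29044651033) (nat_lit 684) (nat_lit 6224943292) (nat_lit 60) (nat_lit 5) (nat_lit 59) (nat_lit 5) (nat_lit 68) (nat_lit 5) (nat_lit 287) (nat_lit 284) (nat_lit 149)))) (XT.nd (nat_lit 156) (nat_lit 0) (nat_lit 76) (XT.nd (nat_lit 78) (nat_lit 0) (nat_lit 0) (XT.lf (nat_lit 76) (nat_lit 18472461945) (nat_lit 0) (nat_lit 15050638980) (nat_lit 684)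 (nat_lit 5600623347) (nat_lit 60) (nat_lit 5) (nat_lit 59) (nat_lit 5) (nat_lit 68) (nat_lit 5) (nat_lit 288) (nat_lit 284) (nat_lit 148)) (XT.lf (nat_lit 76) (nat_lit 34854638770) (nat_lit 0) (nat_lit 355993479) (nat_lit 684) (nat_lit 4947697726) (nat_lit 60) (nat_lit 5) (nat_lit 59) (nat_lit 5) (nat_lit 68) (nat_lit 5) (nat_lit 289) (nat_lit 284) (nat_lit 147))) (XT.nd (nat_lit 78) (nat_lit 0) (nat_lit 0) (XT.lf (nat_lit 76) (nat_lit 10923943649) (nat_lit 0) (nat_lit 26462147533) (nat_lit 684) (nat_lit 3838411577) (nat_lit 61) (nat_lit 5) (nat_lit 60) (nat_lit 5) (nat_lit 69) (nat_lit 5) (nat_lit 290) (nat_lit 284) (nat_lit 146)) (XT.lf (nat_lit 76) (nat_lit 28139478031) (nat_lit 0) (nat_lit 11624154012) (nat_lit 684) (nat_lit 2575700353) (nat_lit 61) (nat_lit 5) (nat_lit 60) (nat_lit 5) (nat_lit 69) (nat_lit 5) (nat_lit 291) (nat_lit 284) (nat_lit 145)))))) (XT.nd (nat_lit 624)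 (nat_lit 1140) (nat_lit 0) (XT.nd (nat_lit 312) (nat_lit 380) (nat_lit 0) (XT.nd (nat_lit 156) (nat_lit 0) (nat_lit 0) (XT.nd (nat_lit 78) (nat_lit 684) (nat_lit 0) (XT.lf (nat_lit 76) (nat_lit 2729857706) (nat_lit 0) (nat_lit 39632436961) (nat_lit 684) (nat_lit 1142509628) (nat_lit 62) (nat_lit 5) (nat_lit 61) (nat_lit 5) (nat_lit 70) (nat_lit 5) (nat_lit 292) (nat_lit 284) (nat_lit 144)) (XT.lf (nat_lit 0) (nat_lit 783621673) (nat_lit 684) (nat_lit 23919338021) (nat_lit 760) (nat_lit 20003675129) (nat_lit 52) (nat_lit 5) (nat_lit 61) (nat_lit 5) (nat_lit 62) (nat_lit 5) (nat_lit 293) (nat_lit 284) (nat_lit 143))) (XT.nd (nat_lit 78) (nat_lit 0) (nat_lit 76) (XT.lf (nat_lit 0) (nat_lit 2765658561) (nat_lit 684) (nat_lit 6241293160) (nat_lit 760) (nat_lit 36960780173) (nat_lit 52) (nat_lit 5) (nat_lit 61) (nat_lit 5) (nat_lit 62) (nat_lit 5) (nat_lit 294) (nat_lit 284) (nat_lit 142))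 (XT.lf (nat_lit 0) (nat_lit 5163533999) (nat_lit 684) (nat_lit 34675564223) (nat_lit 76) (nat_lit 7436959468) (nat_lit 53) (nat_lit 5) (nat_lit 62) (nat_lit 5) (nat_lit 54) (nat_lit 5) (nat_lit 295) (nat_lit 284) (nat_lit 141)))) (XT.nd (nat_lit 156) (nat_lit 0) (nat_lit 0) (XT.nd (nat_lit 78) (nat_lit 456) (nat_lit 0) (XT.lf (nat_lit 0) (nat_lit 7934553036) (nat_lit 684) (nat_lit 16194469749) (nat_lit 76) (nat_lit 24508124696) (nat_lit 53) (nat_lit 5) (nat_lit 62) (nat_lit 5) (nat_lit 54) (nat_lit 5) (nat_lit 296) (nat_lit 284) (nat_lit 140)) (XT.lf (nat_lit 0) (nat_lit 3315244893) (nat_lit 456) (nat_lit 7578888666) (nat_lit 532) (nat_lit 39169667387) (nat_lit 47) (nat_lit 5) (nat_lit 53) (nat_lit 5) (nat_lit 54) (nat_lit 5) (nat_lit 297) (nat_lit 284) (nat_lit 139))) (XT.nd (nat_lit 78) (nat_lit 0) (nat_lit 0) (XT.lf (nat_lit 0) (nat_lit 14431748930) (nat_lit 532) (nat_lit 27344490047)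 (nat_lit 76) (nat_lit 9764054564) (nat_lit 47) (nat_lit 5) (nat_lit 54) (nat_lit 5) (nat_lit 48) (nat_lit 5) (nat_lit 298) (nat_lit 284) (nat_lit 138)) (XT.lf (nat_lit 0) (nat_lit 18268882072) (nat_lit 532) (nat_lit 7096002574) (nat_lit 76) (nat_lit 27719603080) (nat_lit 47) (nat_lit 5) (nat_lit 54) (nat_lit 5) (nat_lit 48) (nat_lit 5) (nat_lit 299) (nat_lit 284) (nat_lit 137))))) (XT.nd (nat_lit 312) (nat_lit 532) (nat_lit 0) (XT.nd (nat_lit 156) (nat_lit 304) (nat_lit 0) (XT.nd (nat_lit 78) (nat_lit 0) (nat_lit 0) (XT.lf (nat_lit 0) (nat_lit 14631752189) (nat_lit 304) (nat_lit 7893031791) (nat_lit 380) (nat_lit 32169770421) (nat_lit 43) (nat_lit 5) (nat_lit 47) (nat_lit 5) (nat_lit 48) (nat_lit 5) (nat_lit 300) (nat_lit 284) (nat_lit 136)) (XT.lf (nat_lit 0) (nat_lit 27277337214) (nat_lit 380) (nat_lit 18853548881) (nat_lit 76) (nat_lit 10240053493) (nat_lit 43) (nat_lit 5) (nat_lit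 48) (nat_lit 5) (nat_lit 44) (nat_lit 5) (nat_lit 301) (nat_lit 284) (nat_lit 135))) (XT.nd (nat_lit 78) (nat_lit 0) (nat_lit 0) (XT.lf (nat_lit 0) (nat_lit 3393949771) (nat_lit 304) (nat_lit 29054542277) (nat_lit 380) (nat_lit 25673610898) (nat_lit 39) (nat_lit 5) (nat_lit 43) (nat_lit 5) (nat_lit 44) (nat_lit 5) (nat_lit 302) (nat_lit 284) (nat_lit 134)) (XT.lf (nat_lit 0) (nat_lit 27406948433) (nat_lit 304) (nat_lit 10789185883) (nat_lit 380) (nat_lit 21748800919) (nat_lit 39) (nat_lit 5) (nat_lit 43) (nat_lit 5) (nat_lit 44) (nat_lit 5) (nat_lit 303) (nat_lit 284) (nat_lit 133)))) (XT.nd (nat_lit 156) (nat_lit 304) (nat_lit 0) (XT.nd (nat_lit 78) (nat_lit 228) (nat_lit 0) (XT.lf (nat_lit 0) (nat_lit 44360841085) (nat_lit 380) (nat_lit 9370725268) (nat_lit 76) (nat_lit 8120865567) (nat_lit 39) (nat_lit 5) (nat_lit 44) (nat_lit 5) (nat_lit 40) (nat_lit 5) (nat_lit 304) (nat_lit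 284) (nat_lit 132)) (XT.lf (nat_lit 0) (nat_lit 15265248328) (nat_lit 228) (nat_lit 35982501730) (nat_lit 304) (nat_lit 12586861611) (nat_lit 36) (nat_lit 5) (nat_lit 39) (nat_lit 5) (nat_lit 40) (nat_lit 5) (nat_lit 305) (nat_lit 284) (nat_lit 131))) (XT.nd (nat_lit 78) (nat_lit 304) (nat_lit 0) (XT.lf (nat_lit 0) (nat_lit 41457010606) (nat_lit 228) (nat_lit 17179491342) (nat_lit 304) (nat_lit 7271529843) (nat_lit 36) (nat_lit 5) (nat_lit 39) (nat_lit 5) (nat_lit 40) (nat_lit 5) (nat_lit 306) (nat_lit 284) (nat_lit 130)) (XT.nd (nat_lit 78) (nat_lit 76) (nat_lit 0) (XT.lf (nat_lit 0) (nat_lit 859379908) (nat_lit 228) (nat_lit 65587609695) (nat_lit 304) (nat_lit 1635524369) (nat_lit 33) (nat_lit 5) (nat_lit 36) (nat_lit 5) (nat_lit 37) (nat_lit 5) (nat_lit 307) (nat_lit 284) (nat_lit 129)) (XT.lf (nat_lit 0) (nat_lit 4846595917) (nat_lit 304) (nat_lit 42417467232) (nat_lit 76) (nat_lit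 23063250886) (nat_lit 32) (nat_lit 5) (nat_lit 36) (nat_lit 5) (nat_lit 33) (nat_lit 5) (nat_lit 308) (nat_lit 284) (nat_lit 128))))))))
noncomputable def xc195 : XT := (XT.nd (nat_lit 1248) (nat_lit 532) (nat_lit 0) (XT.nd (nat_lit 624) (nat_lit 456) (nat_lit 0) (XT.nd (nat_lit 312) (nat_lit 380) (nat_lit 0) (XT.nd (nat_lit 156) (nat_lit 0) (nat_lit 0) (XT.nd (nat_lit 78) (nat_lit 228) (nat_lit 0) (XT.lf (nat_lit 0) (nat_lit 11596776970) (nat_lit 304) (nat_lit 16399623204) (nat_lit 76) (nat_lit 44686672529) (nat_lit 32) (nat_lit 5) (nat_lit 36) (nat_lit 5) (nat_lit 33) (nat_lit 5) (nat_lit 309) (nat_lit 284) (nat_lit 127)) (XT.lf (nat_lit 0) (nat_lit 11278874816) (nat_lit 228) (nat_lit 7580657669) (nat_lit 304) (nat_lit 56288338453) (nat_lit 29) (nat_lit 5) (nat_lit 32) (nat_lit 5) (nat_lit 33) (nat_lit 5) (nat_lit 310) (nat_lit 284) (nat_lit 126))) (XT.nd (nat_lit 78) (nat_lit 0)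 (nat_lit 0) (XT.lf (nat_lit 0) (nat_lit 26983040686) (nat_lit 304) (nat_lit 37033512783) (nat_lit 76) (nat_lit 13694479541) (nat_lit 29) (nat_lit 5) (nat_lit 33) (nat_lit 5) (nat_lit 30) (nat_lit 5) (nat_lit 311) (nat_lit 284) (nat_lit 125)) (XT.lf (nat_lit 0) (nat_lit 35636042440) (nat_lit 304) (nat_lit 8981732225) (nat_lit 76) (nat_lit 35778417064) (nat_lit 29) (nat_lit 5) (nat_lit 33) (nat_lit 5) (nat_lit 30) (nat_lit 5) (nat_lit 312) (nat_lit 284) (nat_lit 124)))) (XT.nd (nat_lit 156) (nat_lit 152) (nat_lit 0) (XT.nd (nat_lit 78) (nat_lit 0) (nat_lit 0) (XT.lf (nat_lit 0) (nat_lit 21148370754) (nat_lit 228) (nat_lit 23902599402) (nat_lit 304) (nat_lit 38148178669) (nat_lit 26) (nat_lit 5) (nat_lit 29) (nat_lit 5) (nat_lit 30) (nat_lit 5) (nat_lit 313) (nat_lit 284) (nat_lit 123)) (XT.lf (nat_lit 0) (nat_lit 53095676293) (nat_lit 228) (nat_lit 1992194183) (nat_lit 304) (nat_lit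 31046826025) (nat_lit 26) (nat_lit 5) (nat_lit 29) (nat_lit 5) (nat_lit 30) (nat_lit 5) (nat_lit 314) (nat_lit 284) (nat_lit 122))) (XT.nd (nat_lit 78) (nat_lit 152) (nat_lit 0) (XT.lf (nat_lit 0) (nat_lit 65953853735) (nat_lit 304) (nat_lit 2905874319) (nat_lit 76) (nat_lit 20340935454) (nat_lit 26) (nat_lit 5) (nat_lit 30) (nat_lit 5) (nat_lit 27) (nat_lit 5) (nat_lit 315) (nat_lit 284) (nat_lit 121)) (XT.lf (nat_lit 0) (nat_lit 29649164927) (nat_lit 152) (nat_lit 48208731647) (nat_lit 228) (nat_lit 14537297930) (nat_lit 24) (nat_lit 5) (nat_lit 26) (nat_lit 5) (nat_lit 27) (nat_lit 5) (nat_lit 316) (nat_lit 284) (nat_lit 120))))) (XT.nd (nat_lit 312) (nat_lit 152) (nat_lit 0) (XT.nd (nat_lit 156) (nat_lit 0) (nat_lit 0) (XT.nd (nat_lit 78) (nat_lit 304) (nat_lit 0) (XT.lf (nat_lit 0) (nat_lit 63931795226) (nat_lit 152) (nat_lit 26473775656) (nat_lit 228) (nat_lit 5341463186) (nat_lit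 24) (nat_lit 5) (nat_lit 26) (nat_lit 5) (nat_lit 27) (nat_lit 5) (nat_lit 317) (nat_lit 284) (nat_lit 119)) (XT.lf (nat_lit 0) (nat_lit 613341185) (nat_lit 228) (nat_lit 3571556705) (nat_lit 304) (nat_lit 95077762336) (nat_lit 20) (nat_lit 5) (nat_lit 23) (nat_lit 5) (nat_lit 24) (nat_lit 5) (nat_lit 318) (nat_lit 284) (nat_lit 118))) (XT.nd (nat_lit 78) (nat_lit 0) (nat_lit 0) (XT.lf (nat_lit 0) (nat_lit 14874647511) (nat_lit 304) (nat_lit 67576350119) (nat_lit 76) (nat_lit 20455365891) (nat_lit 20) (nat_lit 5) (nat_lit 24) (nat_lit 5) (nat_lit 21) (nat_lit 5) (nat_lit 319) (nat_lit 284) (nat_lit 117)) (XT.lf (nat_lit 0) (nat_lit 26156725312) (nat_lit 304) (nat_lit 35009277288) (nat_lit 76) (nat_lit 45563360212) (nat_lit 20) (nat_lit 5) (nat_lit 24) (nat_lit 5) (nat_lit 21) (nat_lit 5) (nat_lit 320) (nat_lit 284) (nat_lit 116)))) (XT.nd (nat_lit 156) (nat_lit 0) (nat_lit 0) (XT.nd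 (nat_lit 78) (nat_lit 152) (nat_lit 0) (XT.lf (nat_lit 0) (nat_lit 38002231372) (nat_lit 304) (nat_lit 814797891) (nat_lit 76) (nat_lit 71926519318) (nat_lit 20) (nat_lit 5) (nat_lit 24) (nat_lit 5) (nat_lit 21) (nat_lit 5) (nat_lit 321) (nat_lit 284) (nat_lit 115)) (XT.lf (nat_lit 0) (nat_lit 36248687888) (nat_lit 152) (nat_lit 14756624995) (nat_lit 228) (nat_lit 63924868348) (nat_lit 18) (nat_lit 5) (nat_lit 20) (nat_lit 5) (nat_lit 21) (nat_lit 5) (nat_lit 322) (nat_lit 284) (nat_lit 114))) (XT.nd (nat_lit 78) (nat_lit 0) (nat_lit 0) (XT.lf (nat_lit 0) (nat_lit 64835983523) (nat_lit 228) (nat_lit 44297003631) (nat_lit 76) (nat_lit 10184289085) (nat_lit 18) (nat_lit 5) (nat_lit 21) (nat_lit 5) (nat_lit 19) (nat_lit 5) (nat_lit 323) (nat_lit 284) (nat_lit 113)) (XT.lf (nat_lit 0) (nat_lit 79599498873) (nat_lit 228) (nat_lit 8436074812) (nat_lit 76) (nat_lit 35876089114) (nat_lit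 18) (nat_lit 5) (nat_lit 21) (nat_lit 5) (nat_lit 19) (nat_lit 5) (nat_lit 324) (nat_lit 284) (nat_lit 112)))))) (XT.nd (nat_lit 624) (nat_lit 76) (nat_lit 0) (XT.nd (nat_lit 312) (nat_lit 152) (nat_lit 0) (XT.nd (nat_lit 156) (nat_lit 152) (nat_lit 0) (XT.nd (nat_lit 78) (nat_lit 0) (nat_lit 0) (XT.lf (nat_lit 0) (nat_lit 30183116783) (nat_lit 152) (nat_lit 65388744145) (nat_lit 228) (nat_lit 33140376457) (nat_lit 16) (nat_lit 5) (nat_lit 18) (nat_lit 5) (nat_lit 19) (nat_lit 5) (nat_lit 325) (nat_lit 284) (nat_lit 111)) (XT.lf (nat_lit 0) (nat_lit 71025330947) (nat_lit 152) (nat_lit 41459821511) (nat_lit 228) (nat_lit 21260574815) (nat_lit 16) (nat_lit 5) (nat_lit 18) (nat_lit 5) (nat_lit 19) (nat_lit 5) (nat_lit 326) (nat_lit 284) (nat_lit 110))) (XT.nd (nat_lit 78) (nat_lit 152) (nat_lit 0) (XT.lf (nat_lit 0) (nat_lit 113908876314) (nat_lit 152) (nat_lit 16334701167) (nat_lit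 228) (nat_lit 8787342766) (nat_lit 16) (nat_lit 5) (nat_lit 18) (nat_lit 5) (nat_lit 19) (nat_lit 5) (nat_lit 327) (nat_lit 284) (nat_lit 109)) (XT.lf (nat_lit 0) (nat_lit 4563290791) (nat_lit 152) (nat_lit 129966635075) (nat_lit 76) (nat_lit 10027501021) (nat_lit 14) (nat_lit 5) (nat_lit 16) (nat_lit 5) (nat_lit 15) (nat_lit 5) (nat_lit 328) (nat_lit 284) (nat_lit 108)))) (XT.nd (nat_lit 156) (nat_lit 152) (nat_lit 0) (XT.nd (nat_lit 78) (nat_lit 0) (nat_lit 0) (XT.lf (nat_lit 0) (nat_lit 18985847371) (nat_lit 152) (nat_lit 93597119708) (nat_lit 76) (nat_lit 37735105617) (nat_lit 14) (nat_lit 5) (nat_lit 16) (nat_lit 5) (nat_lit 15) (nat_lit 5) (nat_lit 329) (nat_lit 284) (nat_lit 107)) (XT.lf (nat_lit 0) (nat_lit 34129048991) (nat_lit 152) (nat_lit 55409863898) (nat_lit 76) (nat_lit 66827863722) (nat_lit 14) (nat_lit 5) (nat_lit 16) (nat_lit 5) (nat_lit 15) (nat_lit 5) (nat_lit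 330) (nat_lit 284) (nat_lit 106))) (XT.nd (nat_lit 78) (nat_lit 152) (nat_lit 0) (XT.lf (nat_lit 0) (nat_lit 50028950892) (nat_lit 152) (nat_lit 15313945607) (nat_lit 76) (nat_lit 97375043810) (nat_lit 14) (nat_lit 5) (nat_lit 16) (nat_lit 5) (nat_lit 15) (nat_lit 5) (nat_lit 331) (nat_lit 284) (nat_lit 105)) (XT.lf (nat_lit 0) (nat_lit 27671771126) (nat_lit 152) (nat_lit 39483672756) (nat_lit 228) (nat_lit 102209640032) (nat_lit 12) (nat_lit 5) (nat_lit 14) (nat_lit 5) (nat_lit 15) (nat_lit 5) (nat_lit 332) (nat_lit 284) (nat_lit 104))))) (XT.nd (nat_lit 312) (nat_lit 0) (nat_lit 0) (XT.nd (nat_lit 156) (nat_lit 76) (nat_lit 0) (XT.nd (nat_lit 78) (nat_lit 0) (nat_lit 0) (XT.lf (nat_lit 0) (nat_lit 73337783104) (nat_lit 152) (nat_lit 12059400199) (nat_lit 228) (nat_lit 90934456753) (nat_lit 12) (nat_lit 5) (nat_lit 14) (nat_lit 5) (nat_lit 15) (nat_lit 5) (nat_lit 333) (nat_lit 284)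 (nat_lit 103)) (XT.lf (nat_lit 0) (nat_lit 104811896548) (nat_lit 228) (nat_lit 62621368811) (nat_lit 76) (nat_lit 16200215685) (nat_lit 12) (nat_lit 5) (nat_lit 15) (nat_lit 5) (nat_lit 13) (nat_lit 4) (nat_lit 334) (nat_lit 284) (nat_lit 102))) (XT.nd (nat_lit 78) (nat_lit 76) (nat_lit 0) (XT.lf (nat_lit 0) (nat_lit 125394649728) (nat_lit 228) (nat_lit 20428563994) (nat_lit 76) (nat_lit 45467336459) (nat_lit 12) (nat_lit 5) (nat_lit 15) (nat_lit 5) (nat_lit 13) (nat_lit 4) (nat_lit 335) (nat_lit 284) (nat_lit 101)) (XT.lf (nat_lit 0) (nat_lit 24662656623) (nat_lit 76) (nat_lit 122728564928) (nat_lit 152) (nat_lit 51920018424) (nat_lit 11) (nat_lit 5) (nat_lit 12) (nat_lit 5) (nat_lit 13) (nat_lit 4) (nat_lit 336) (nat_lit 284) (nat_lit 100)))) (XT.nd (nat_lit 33462) (nat_lit 0) (nat_lit 3572) (XT.nd (nat_lit 78) (nat_lit 0) (nat_lit 0) (XT.lf (nat_lit 0) (nat_lit 72717097823) (nat_lit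 76) (nat_lit 98116128319) (nat_lit 152) (nat_lit 36882459103) (nat_lit 11) (nat_lit 5) (nat_lit 12) (nat_lit 5) (nat_lit 13) (nat_lit 4) (nat_lit 337) (nat_lit 284) (nat_lit 99)) (XT.lf (nat_lit 0) (nat_lit 123173714356) (nat_lit 76) (nat_lit 72273270471) (nat_lit 152) (nat_lit 21093386390) (nat_lit 11) (nat_lit 5) (nat_lit 12) (nat_lit 5) (nat_lit 13) (nat_lit 4) (nat_lit 338) (nat_lit 284) (nat_lit 98))) (XT.nd (nat_lit 78) (nat_lit 0) (nat_lit 0) (XT.lf (nat_lit 0) (nat_lit 15105570791) (nat_lit 684) (nat_lit 1737885227) (nat_lit 684) (nat_lit 1737885227) (nat_lit 58) (nat_lit 3) (nat_lit 67) (nat_lit 3) (nat_lit 67) (nat_lit 5) (nat_lit 285) (nat_lit 285) (nat_lit 150)) (XT.lf (nat_lit 76) (nat_lit 11242160567) (nat_lit 0) (nat_lit 19939878391) (nat_lit 684) (nat_lit 6898682545) (nat_lit 59) (nat_lit 5) (nat_lit 58) (nat_lit 3) (nat_lit 67) (nat_lit 5) (nat_lit 286) (nat_lit 285)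 (nat_lit 149)))))))
noncomputable def xc196 : XT := (XT.nd (nat_lit 1248) (nat_lit 1748) (nat_lit 0) (XT.nd (nat_lit 624) (nat_lit 684) (nat_lit 0) (XT.nd (nat_lit 312) (nat_lit 456) (nat_lit 0) (XT.nd (nat_lit 156) (nat_lit 0) (nat_lit 76) (XT.nd (nat_lit 78) (nat_lit 0) (nat_lit 76) (XT.lf (nat_lit 76) (nat_lit 26815258787) (nat_lit 0) (nat_lit 5442497685) (nat_lit 684) (nat_lit 6784108046) (nat_lit 59) (nat_lit 5) (nat_lit 58) (nat_lit 3) (nat_lit 67) (nat_lit 5) (nat_lit 287) (nat_lit 285) (nat_lit 148)) (XT.lf (nat_lit 76) (nat_lit 3059697755) (nat_lit 0) (nat_lit 30525574254) (nat_lit 684) (nat_lit 6455907133) (nat_lit 60) (nat_lit 5) (nat_lit 59) (nat_lit 5) (nat_lit 68) (nat_lit 5) (nat_lit 288) (nat_lit 285) (nat_lit 147))) (XT.nd (nat_lit 78) (nat_lit 0) (nat_lit 0) (XT.lf (nat_lit 76) (nat_lit 19441159677) (nat_lit 0) (nat_lit 15830495375) (nat_lit 684) (nat_lit 5804194206)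 (nat_lit 60) (nat_lit 5) (nat_lit 59) (nat_lit 5) (nat_lit 68) (nat_lit 5) (nat_lit 289) (nat_lit 285) (nat_lit 146)) (XT.lf (nat_lit 76) (nat_lit 36640298932) (nat_lit 0) (nat_lit 399816435) (nat_lit 684) (nat_lit 5122263271) (nat_lit 60) (nat_lit 5) (nat_lit 59) (nat_lit 5) (nat_lit 68) (nat_lit 5) (nat_lit 290) (nat_lit 285) (nat_lit 145)))) (XT.nd (nat_lit 156) (nat_lit 608) (nat_lit 0) (XT.nd (nat_lit 78) (nat_lit 0) (nat_lit 0) (XT.lf (nat_lit 76) (nat_lit 11516581859) (nat_lit 0) (nat_lit 27804820108) (nat_lit 684) (nat_lit 3960625370) (nat_lit 61) (nat_lit 5) (nat_lit 60) (nat_lit 5) (nat_lit 69) (nat_lit 5) (nat_lit 291) (nat_lit 285) (nat_lit 144)) (XT.lf (nat_lit 76) (nat_lit 29590681483) (nat_lit 0) (nat_lit 12223995236) (nat_lit 684) (nat_lit 2638097956) (nat_lit 61) (nat_lit 5) (nat_lit 60) (nat_lit 5) (nat_lit 69) (nat_lit 5) (nat_lit 292) (nat_lit 285) (nat_lit 143)))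 (XT.nd (nat_lit 78) (nat_lit 684) (nat_lit 0) (XT.lf (nat_lit 76) (nat_lit 2913620488) (nat_lit 0) (nat_lit 41627119451) (nat_lit 684) (nat_lit 1135925005) (nat_lit 62) (nat_lit 5) (nat_lit 61) (nat_lit 5) (nat_lit 70) (nat_lit 5) (nat_lit 293) (nat_lit 285) (nat_lit 142)) (XT.lf (nat_lit 0) (nat_lit 881537026) (nat_lit 684) (nat_lit 25068014667) (nat_lit 760) (nat_lit 20989148873) (nat_lit 52) (nat_lit 5) (nat_lit 61) (nat_lit 5) (nat_lit 62) (nat_lit 5) (nat_lit 294) (nat_lit 285) (nat_lit 141))))) (XT.nd (nat_lit 312) (nat_lit 304) (nat_lit 0) (XT.nd (nat_lit 156) (nat_lit 380) (nat_lit 0) (XT.nd (nat_lit 78) (nat_lit 0) (nat_lit 76) (XT.lf (nat_lit 0) (nat_lit 2959878889) (nat_lit 684) (nat_lit 6508319479) (nat_lit 760) (nat_lit 38794809646) (nat_lit 52) (nat_lit 5) (nat_lit 61) (nat_lit 5) (nat_lit 62) (nat_lit 5) (nat_lit 295) (nat_lit 285) (nat_lit 140)) (XT.lf (nat_lit 0)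 (nat_lit 5475525526) (nat_lit 684) (nat_lit 36361882851) (nat_lit 76) (nat_lit 7799462785) (nat_lit 53) (nat_lit 5) (nat_lit 62) (nat_lit 5) (nat_lit 54) (nat_lit 5) (nat_lit 296) (nat_lit 285) (nat_lit 139))) (XT.nd (nat_lit 78) (nat_lit 456) (nat_lit 0) (XT.lf (nat_lit 0) (nat_lit 8382532904) (nat_lit 684) (nat_lit 16958993634) (nat_lit 76) (nat_lit 25724631258) (nat_lit 53) (nat_lit 5) (nat_lit 62) (nat_lit 5) (nat_lit 54) (nat_lit 5) (nat_lit 297) (nat_lit 285) (nat_lit 138)) (XT.lf (nat_lit 0) (nat_lit 3525477715) (nat_lit 456) (nat_lit 7962868467) (nat_lit 532) (nat_lit 41075898610) (nat_lit 47) (nat_lit 5) (nat_lit 53) (nat_lit 5) (nat_lit 54) (nat_lit 5) (nat_lit 298) (nat_lit 285) (nat_lit 137)))) (XT.nd (nat_lit 156) (nat_lit 304) (nat_lit 0) (XT.nd (nat_lit 78) (nat_lit 0) (nat_lit 0) (XT.lf (nat_lit 0) (nat_lit 15200410023) (nat_lit 532) (nat_lit 28666671317) (nat_lit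 76) (nat_lit 10247615193) (nat_lit 47) (nat_lit 5) (nat_lit 54) (nat_lit 5) (nat_lit 48) (nat_lit 5) (nat_lit 299) (nat_lit 285) (nat_lit 136)) (XT.lf (nat_lit 0) (nat_lit 19227158219) (nat_lit 532) (nat_lit 7407904386) (nat_lit 76) (nat_lit 29101162187) (nat_lit 47) (nat_lit 5) (nat_lit 54) (nat_lit 5) (nat_lit 48) (nat_lit 5) (nat_lit 300) (nat_lit 285) (nat_lit 135))) (XT.nd (nat_lit 78) (nat_lit 0) (nat_lit 0) (XT.lf (nat_lit 0) (nat_lit 15405546207) (nat_lit 304) (nat_lit 8288833116) (nat_lit 380) (nat_lit 33732500973) (nat_lit 43) (nat_lit 5) (nat_lit 47) (nat_lit 5) (nat_lit 48) (nat_lit 5) (nat_lit 301) (nat_lit 285) (nat_lit 134)) (XT.lf (nat_lit 0) (nat_lit 28682478546) (nat_lit 380) (nat_lit 19753725198) (nat_lit 76) (nat_lit 10750996227) (nat_lit 43) (nat_lit 5) (nat_lit 48) (nat_lit 5) (nat_lit 44) (nat_lit 5) (nat_lit 302) (nat_lit 285) (nat_lit 133)))))) (XT.nd (nat_lit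 624) (nat_lit 912) (nat_lit 0) (XT.nd (nat_lit 312) (nat_lit 304) (nat_lit 0) (XT.nd (nat_lit 156) (nat_lit 228) (nat_lit 0) (XT.nd (nat_lit 78) (nat_lit 0) (nat_lit 0) (XT.lf (nat_lit 0) (nat_lit 3605462885) (nat_lit 304) (nat_lit 30505415645) (nat_lit 380) (nat_lit 26915119210) (nat_lit 39) (nat_lit 5) (nat_lit 43) (nat_lit 5) (nat_lit 44) (nat_lit 5) (nat_lit 303) (nat_lit 285) (nat_lit 132)) (XT.lf (nat_lit 0) (nat_lit 28817120260) (nat_lit 304) (nat_lit 11326879705) (nat_lit 380) (nat_lit 22796076933) (nat_lit 39) (nat_lit 5) (nat_lit 43) (nat_lit 5) (nat_lit 44) (nat_lit 5) (nat_lit 304) (nat_lit 285) (nat_lit 131))) (XT.nd (nat_lit 78) (nat_lit 228) (nat_lit 0) (XT.lf (nat_lit 0) (nat_lit 46615155992) (nat_lit 380) (nat_lit 9799354922) (nat_lit 76) (nat_lit 8528536433) (nat_lit 39) (nat_lit 5) (nat_lit 44) (nat_lit 5) (nat_lit 40) (nat_lit 5) (nat_lit 305) (nat_lit 285) (nat_lit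 130)) (XT.lf (nat_lit 0) (nat_lit 16067773699) (nat_lit 228) (nat_lit 37777522441) (nat_lit 304) (nat_lit 13179104824) (nat_lit 36) (nat_lit 5) (nat_lit 39) (nat_lit 5) (nat_lit 40) (nat_lit 5) (nat_lit 306) (nat_lit 285) (nat_lit 129)))) (XT.nd (nat_lit 156) (nat_lit 76) (nat_lit 0) (XT.nd (nat_lit 78) (nat_lit 228) (nat_lit 0) (XT.lf (nat_lit 0) (nat_lit 43567254426) (nat_lit 228) (nat_lit 18034556981) (nat_lit 304) (nat_lit 7599773128) (nat_lit 36) (nat_lit 5) (nat_lit 39) (nat_lit 5) (nat_lit 40) (nat_lit 5) (nat_lit 307) (nat_lit 285) (nat_lit 128)) (XT.lf (nat_lit 0) (nat_lit 940898056) (nat_lit 228) (nat_lit 68860990878) (nat_lit 304) (nat_lit 1682956932) (nat_lit 33) (nat_lit 5) (nat_lit 36) (nat_lit 5) (nat_lit 37) (nat_lit 5) (nat_lit 308) (nat_lit 285) (nat_lit 127))) (XT.nd (nat_lit 78) (nat_lit 0) (nat_lit 0) (XT.lf (nat_lit 0) (nat_lit 5120587089) (nat_lit 304) (nat_lit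 44500429397) (nat_lit 76) (nat_lit 24220929333) (nat_lit 32) (nat_lit 5) (nat_lit 36) (nat_lit 5) (nat_lit 33) (nat_lit 5) (nat_lit 309) (nat_lit 285) (nat_lit 126)) (XT.lf (nat_lit 0) (nat_lit 12206769509) (nat_lit 304) (nat_lit 17183498463) (nat_lit 76) (nat_lit 46925307015) (nat_lit 32) (nat_lit 5) (nat_lit 36) (nat_lit 5) (nat_lit 33) (nat_lit 5) (nat_lit 310) (nat_lit 285) (nat_lit 125))))) (XT.nd (nat_lit 312) (nat_lit 456) (nat_lit 0) (XT.nd (nat_lit 156) (nat_lit 228) (nat_lit 0) (XT.nd (nat_lit 78) (nat_lit 0) (nat_lit 0) (XT.lf (nat_lit 0) (nat_lit 11878342105) (nat_lit 228) (nat_lit 7953439428) (nat_lit 304) (nat_lit 59071882506) (nat_lit 29) (nat_lit 5) (nat_lit 32) (nat_lit 5) (nat_lit 33) (nat_lit 5) (nat_lit 311) (nat_lit 285) (nat_lit 124)) (XT.lf (nat_lit 0) (nat_lit 28360164169) (nat_lit 304) (nat_lit 38849925187) (nat_lit 76) (nat_lit 14384966423) (nat_lit 29) (nat_lit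 5) (nat_lit 33) (nat_lit 5) (nat_lit 30) (nat_lit 5) (nat_lit 312) (nat_lit 285) (nat_lit 123))) (XT.nd (nat_lit 78) (nat_lit 228) (nat_lit 0) (XT.lf (nat_lit 0) (nat_lit 37444484036) (nat_lit 304) (nat_lit 9397234803) (nat_lit 76) (nat_lit 37572826398) (nat_lit 29) (nat_lit 5) (nat_lit 33) (nat_lit 5) (nat_lit 30) (nat_lit 5) (nat_lit 313) (nat_lit 285) (nat_lit 122)) (XT.lf (nat_lit 0) (nat_lit 22238831647) (nat_lit 228) (nat_lit 25090573829) (nat_lit 304) (nat_lit 40028288255) (nat_lit 26) (nat_lit 5) (nat_lit 29) (nat_lit 5) (nat_lit 30) (nat_lit 5) (nat_lit 314) (nat_lit 285) (nat_lit 121)))) (XT.nd (nat_lit 156) (nat_lit 456) (nat_lit 0) (XT.nd (nat_lit 78) (nat_lit 0) (nat_lit 0) (XT.lf (nat_lit 0) (nat_lit 55781929017) (nat_lit 228) (nat_lit 2084989089) (nat_lit 304) (nat_lit 32573167949) (nat_lit 26) (nat_lit 5) (nat_lit 29) (nat_lit 5) (nat_lit 30) (nat_lit 5) (nat_lit 315)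 (nat_lit 285) (nat_lit 120)) (XT.lf (nat_lit 0) (nat_lit 69275127855) (nat_lit 304) (nat_lit 3020017766) (nat_lit 76) (nat_lit 21364264785) (nat_lit 26) (nat_lit 5) (nat_lit 30) (nat_lit 5) (nat_lit 27) (nat_lit 5) (nat_lit 316) (nat_lit 285) (nat_lit 119))) (XT.nd (nat_lit 78) (nat_lit 304) (nat_lit 0) (XT.lf (nat_lit 0) (nat_lit 31162271019) (nat_lit 152) (nat_lit 50611457390) (nat_lit 228) (nat_lit 15239976869) (nat_lit 24) (nat_lit 5) (nat_lit 26) (nat_lit 5) (nat_lit 27) (nat_lit 5) (nat_lit 317) (nat_lit 285) (nat_lit 118)) (XT.nd (nat_lit 78) (nat_lit 304) (nat_lit 0) (XT.lf (nat_lit 0) (nat_lit 67157573412) (nat_lit 152) (nat_lit 27790120783) (nat_lit 228) (nat_lit 5585502100) (nat_lit 24) (nat_lit 5) (nat_lit 26) (nat_lit 5) (nat_lit 27) (nat_lit 5) (nat_lit 318) (nat_lit 285) (nat_lit 117)) (XT.lf (nat_lit 0) (nat_lit 673542351) (nat_lit 228) (nat_lit 3742296787) (nat_lit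 304) (nat_lit 99808781083) (nat_lit 20) (nat_lit 5) (nat_lit 23) (nat_lit 5) (nat_lit 24) (nat_lit 5) (nat_lit 319) (nat_lit 285) (nat_lit 116))))))))
noncomputable def xc197 : XT := (XT.nd (nat_lit 35880) (nat_lit 0) (nat_lit 228) (XT.nd (nat_lit 1248) (nat_lit 76) (nat_lit 0) (XT.nd (nat_lit 624) (nat_lit 304) (nat_lit 0) (XT.nd (nat_lit 312) (nat_lit 152) (nat_lit 0) (XT.nd (nat_lit 156) (nat_lit 152) (nat_lit 0) (XT.nd (nat_lit 78) (nat_lit 0) (nat_lit 0) (XT.lf (nat_lit 0) (nat_lit 15639159623) (nat_lit 304) (nat_lit 70926039287) (nat_lit 76) (nat_lit 21485359801) (nat_lit 20) (nat_lit 5) (nat_lit 24) (nat_lit 5) (nat_lit 21) (nat_lit 5) (nat_lit 320) (nat_lit 285) (nat_lit 115)) (XT.lf (nat_lit 0) (nat_lit 27484351802) (nat_lit 304) (nat_lit 36731999879) (nat_lit 76) (nat_lit 47848409762) (nat_lit 20) (nat_lit 5) (nat_lit 24) (nat_lit 5) (nat_lit 21) (nat_lit 5) (nat_lit 321)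 (nat_lit 285) (nat_lit 114))) (XT.nd (nat_lit 78) (nat_lit 152) (nat_lit 0) (XT.lf (nat_lit 0) (nat_lit 39921190774) (nat_lit 304) (nat_lit 829117525) (nat_lit 76) (nat_lit 75529399130) (nat_lit 20) (nat_lit 5) (nat_lit 24) (nat_lit 5) (nat_lit 21) (nat_lit 5) (nat_lit 322) (nat_lit 285) (nat_lit 113)) (XT.lf (nat_lit 0) (nat_lit 38087116410) (nat_lit 152) (nat_lit 15486818276) (nat_lit 228) (nat_lit 67101765238) (nat_lit 18) (nat_lit 5) (nat_lit 20) (nat_lit 5) (nat_lit 21) (nat_lit 5) (nat_lit 323) (nat_lit 285) (nat_lit 112)))) (XT.nd (nat_lit 156) (nat_lit 152) (nat_lit 0) (XT.nd (nat_lit 78) (nat_lit 0) (nat_lit 0) (XT.lf (nat_lit 0) (nat_lit 68095378327) (nat_lit 228) (nat_lit 46486267864) (nat_lit 76) (nat_lit 10700544973) (nat_lit 18) (nat_lit 5) (nat_lit 21) (nat_lit 5) (nat_lit 19) (nat_lit 5) (nat_lit 324) (nat_lit 285) (nat_lit 111)) (XT.lf (nat_lit 0) (nat_lit 83596231557)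 (nat_lit 228) (nat_lit 8833510982) (nat_lit 76) (nat_lit 37676599697) (nat_lit 18) (nat_lit 5) (nat_lit 21) (nat_lit 5) (nat_lit 19) (nat_lit 5) (nat_lit 325) (nat_lit 285) (nat_lit 110))) (XT.nd (nat_lit 78) (nat_lit 0) (nat_lit 0) (XT.lf (nat_lit 0) (nat_lit 31716247167) (nat_lit 152) (nat_lit 68650540870) (nat_lit 228) (nat_lit 34780181833) (nat_lit 16) (nat_lit 5) (nat_lit 18) (nat_lit 5) (nat_lit 19) (nat_lit 5) (nat_lit 326) (nat_lit 285) (nat_lit 109)) (XT.lf (nat_lit 0) (nat_lit 74599430394) (nat_lit 152) (nat_lit 43525535937) (nat_lit 228) (nat_lit 22307209797) (nat_lit 16) (nat_lit 5) (nat_lit 18) (nat_lit 5) (nat_lit 19) (nat_lit 5) (nat_lit 327) (nat_lit 285) (nat_lit 108))))) (XT.nd (nat_lit 312) (nat_lit 152) (nat_lit 0) (XT.nd (nat_lit 156) (nat_lit 0) (nat_lit 0) (XT.nd (nat_lit 78) (nat_lit 152) (nat_lit 0) (XT.lf (nat_lit 0) (nat_lit 119626065748) (nat_lit 152) (nat_lit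 17144506083) (nat_lit 228) (nat_lit 9211096801) (nat_lit 16) (nat_lit 5) (nat_lit 18) (nat_lit 5) (nat_lit 19) (nat_lit 5) (nat_lit 328) (nat_lit 285) (nat_lit 107)) (XT.lf (nat_lit 0) (nat_lit 4806304042) (nat_lit 152) (nat_lit 136442351104) (nat_lit 76) (nat_lit 10535849082) (nat_lit 14) (nat_lit 5) (nat_lit 16) (nat_lit 5) (nat_lit 15) (nat_lit 5) (nat_lit 329) (nat_lit 285) (nat_lit 106))) (XT.nd (nat_lit 78) (nat_lit 0) (nat_lit 0) (XT.lf (nat_lit 0) (nat_lit 19949281370) (nat_lit 152) (nat_lit 98255436908) (nat_lit 76) (nat_lit 39628501859) (nat_lit 14) (nat_lit 5) (nat_lit 16) (nat_lit 5) (nat_lit 15) (nat_lit 5) (nat_lit 330) (nat_lit 285) (nat_lit 105)) (XT.lf (nat_lit 0) (nat_lit 35848969659) (nat_lit 152) (nat_lit 58159843964) (nat_lit 76) (nat_lit 70175581634) (nat_lit 14) (nat_lit 5) (nat_lit 16) (nat_lit 5) (nat_lit 15) (nat_lit 5) (nat_lit 331) (nat_lit 285) (nat_lit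 104)))) (XT.nd (nat_lit 156) (nat_lit 0) (nat_lit 0) (XT.nd (nat_lit 78) (nat_lit 152) (nat_lit 0) (XT.lf (nat_lit 0) (nat_lit 52543225312) (nat_lit 152) (nat_lit 16060106574) (nat_lit 76) (nat_lit 102249819549) (nat_lit 14) (nat_lit 5) (nat_lit 16) (nat_lit 5) (nat_lit 15) (nat_lit 5) (nat_lit 332) (nat_lit 285) (nat_lit 103)) (XT.lf (nat_lit 0) (nat_lit 29074580894) (nat_lit 152) (nat_lit 41451151350) (nat_lit 228) (nat_lit 107306937631) (nat_lit 12) (nat_lit 5) (nat_lit 14) (nat_lit 5) (nat_lit 15) (nat_lit 5) (nat_lit 333) (nat_lit 285) (nat_lit 102))) (XT.nd (nat_lit 78) (nat_lit 0) (nat_lit 0) (XT.lf (nat_lit 0) (nat_lit 77022978175) (nat_lit 152) (nat_lit 12655984454) (nat_lit 228) (nat_lit 95468623018) (nat_lit 12) (nat_lit 5) (nat_lit 14) (nat_lit 5) (nat_lit 15) (nat_lit 5) (nat_lit 334) (nat_lit 285) (nat_lit 101)) (XT.lf (nat_lit 0) (nat_lit 110063938862) (nat_lit 228)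 (nat_lit 65734491890) (nat_lit 76) (nat_lit 17016113489) (nat_lit 12) (nat_lit 5) (nat_lit 15) (nat_lit 5) (nat_lit 13) (nat_lit 4) (nat_lit 335) (nat_lit 285) (nat_lit 100)))))) (XT.nd (nat_lit 34008) (nat_lit 0) (nat_lit 3116) (XT.nd (nat_lit 33696) (nat_lit 0) (nat_lit 3572) (XT.nd (nat_lit 156) (nat_lit 0) (nat_lit 0) (XT.nd (nat_lit 78) (nat_lit 76) (nat_lit 0) (XT.lf (nat_lit 0) (nat_lit 131675284582) (nat_lit 228) (nat_lit 21432901373) (nat_lit 76) (nat_lit 47746309968) (nat_lit 12) (nat_lit 5) (nat_lit 15) (nat_lit 5) (nat_lit 13) (nat_lit 4) (nat_lit 336) (nat_lit 285) (nat_lit 99)) (XT.lf (nat_lit 0) (nat_lit 25912604616) (nat_lit 76) (nat_lit 128858823752) (nat_lit 152) (nat_lit 54504806417) (nat_lit 11) (nat_lit 5) (nat_lit 12) (nat_lit 5) (nat_lit 13) (nat_lit 4) (nat_lit 337) (nat_lit 285) (nat_lit 98))) (XT.nd (nat_lit 33462) (nat_lit 0) (nat_lit 3572) (XT.lf (nat_lit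 0) (nat_lit 76368967153) (nat_lit 76) (nat_lit 103016059094) (nat_lit 152) (nat_lit 38715903078) (nat_lit 11) (nat_lit 5) (nat_lit 12) (nat_lit 5) (nat_lit 13) (nat_lit 4) (nat_lit 338) (nat_lit 285) (nat_lit 97)) (XT.lf (nat_lit 0) (nat_lit 15900320504) (nat_lit 684) (nat_lit 1803935496) (nat_lit 684) (nat_lit 1803935496) (nat_lit 58) (nat_lit 3) (nat_lit 67) (nat_lit 3) (nat_lit 67) (nat_lit 5) (nat_lit 286) (nat_lit 286) (nat_lit 148)))) (XT.nd (nat_lit 156) (nat_lit 0) (nat_lit 76) (XT.nd (nat_lit 78) (nat_lit 0) (nat_lit 0) (XT.lf (nat_lit 76) (nat_lit 11845284192) (nat_lit 0) (nat_lit 20971680269) (nat_lit 684) (nat_lit 7163538601) (nat_lit 59) (nat_lit 5) (nat_lit 58) (nat_lit 3) (nat_lit 67) (nat_lit 5) (nat_lit 287) (nat_lit 286) (nat_lit 147)) (XT.lf (nat_lit 76) (nat_lit 28195084200) (nat_lit 0) (nat_lit 5747773006) (nat_lit 684) (nat_lit 7047048618) (nat_lit 59) (nat_lit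 5) (nat_lit 58) (nat_lit 3) (nat_lit 67) (nat_lit 5) (nat_lit 288) (nat_lit 286) (nat_lit 146))) (XT.nd (nat_lit 78) (nat_lit 0) (nat_lit 0) (XT.lf (nat_lit 76) (nat_lit 3255610866) (nat_lit 0) (nat_lit 32077876249) (nat_lit 684) (nat_lit 6705883148) (nat_lit 60) (nat_lit 5) (nat_lit 59) (nat_lit 5) (nat_lit 68) (nat_lit 5) (nat_lit 289) (nat_lit 286) (nat_lit 145)) (XT.lf (nat_lit 76) (nat_lit 20454101683) (nat_lit 0) (nat_lit 16646804222) (nat_lit 684) (nat_lit 6025052162) (nat_lit 60) (nat_lit 5) (nat_lit 59) (nat_lit 5) (nat_lit 68) (nat_lit 5) (nat_lit 290) (nat_lit 286) (nat_lit 144))))) (XT.nd (nat_lit 312) (nat_lit 532) (nat_lit 0) (XT.nd (nat_lit 156) (nat_lit 0) (nat_lit 76) (XT.nd (nat_lit 78) (nat_lit 0) (nat_lit 76) (XT.lf (nat_lit 76) (nat_lit 38511251042) (nat_lit 0) (nat_lit 443411141) (nat_lit 684) (nat_lit 5312327145) (nat_lit 60) (nat_lit 5) (nat_lit 59) (nat_lit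 5) (nat_lit 68) (nat_lit 5) (nat_lit 291) (nat_lit 286) (nat_lit 143)) (XT.lf (nat_lit 76) (nat_lit 12134534333) (nat_lit 0) (nat_lit 29212807325) (nat_lit 684) (nat_lit 4095430529) (nat_lit 61) (nat_lit 5) (nat_lit 60) (nat_lit 5) (nat_lit 69) (nat_lit 5) (nat_lit 292) (nat_lit 286) (nat_lit 142))) (XT.nd (nat_lit 78) (nat_lit 0) (nat_lit 76) (XT.lf (nat_lit 76) (nat_lit 31110333062) (nat_lit 0) (nat_lit 12852096152) (nat_lit 684) (nat_lit 2709787511) (nat_lit 61) (nat_lit 5) (nat_lit 60) (nat_lit 5) (nat_lit 69) (nat_lit 5) (nat_lit 293) (nat_lit 286) (nat_lit 141)) (XT.lf (nat_lit 76) (nat_lit 3102176703) (nat_lit 0) (nat_lit 43720321812) (nat_lit 684) (nat_lit 1134934313) (nat_lit 62) (nat_lit 5) (nat_lit 61) (nat_lit 5) (nat_lit 70) (nat_lit 5) (nat_lit 294) (nat_lit 286) (nat_lit 140)))) (XT.nd (nat_lit 156) (nat_lit 0) (nat_lit 76) (XT.nd (nat_lit 78) (nat_lit 0) (nat_lit 0)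 (XT.lf (nat_lit 0) (nat_lit 978887591) (nat_lit 684) (nat_lit 26278521744) (nat_lit 760) (nat_lit 22025263901) (nat_lit 52) (nat_lit 5) (nat_lit 61) (nat_lit 5) (nat_lit 62) (nat_lit 5) (nat_lit 295) (nat_lit 286) (nat_lit 139)) (XT.lf (nat_lit 0) (nat_lit 3158609704) (nat_lit 684) (nat_lit 6792884353) (nat_lit 760) (nat_lit 40721843066) (nat_lit 52) (nat_lit 5) (nat_lit 61) (nat_lit 5) (nat_lit 62) (nat_lit 5) (nat_lit 296) (nat_lit 286) (nat_lit 138))) (XT.nd (nat_lit 78) (nat_lit 0) (nat_lit 0) (XT.lf (nat_lit 0) (nat_lit 5798113437) (nat_lit 684) (nat_lit 38136929753) (nat_lit 76) (nat_lit 8180960045) (nat_lit 53) (nat_lit 5) (nat_lit 62) (nat_lit 5) (nat_lit 54) (nat_lit 5) (nat_lit 297) (nat_lit 286) (nat_lit 137)) (XT.lf (nat_lit 0) (nat_lit 8848146820) (nat_lit 684) (nat_lit 17765945943) (nat_lit 76) (nat_lit 27002790555) (nat_lit 53) (nat_lit 5) (nat_lit 62) (nat_lit 5) (nat_lit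 54) (nat_lit 5) (nat_lit 298) (nat_lit 286) (nat_lit 136))))))) (XT.nd (nat_lit 1248) (nat_lit 1140) (nat_lit 0) (XT.nd (nat_lit 624) (nat_lit 760) (nat_lit 0) (XT.nd (nat_lit 312) (nat_lit 304) (nat_lit 0) (XT.nd (nat_lit 156) (nat_lit 304) (nat_lit 0) (XT.nd (nat_lit 78) (nat_lit 0) (nat_lit 0) (XT.lf (nat_lit 0) (nat_lit 3742087725) (nat_lit 456) (nat_lit 8365579117) (nat_lit 532) (nat_lit 43082299304) (nat_lit 47) (nat_lit 5) (nat_lit 53) (nat_lit 5) (nat_lit 54) (nat_lit 5) (nat_lit 299) (nat_lit 286) (nat_lit 135)) (XT.lf (nat_lit 0) (nat_lit 16003127709) (nat_lit 532) (nat_lit 30059149343) (nat_lit 76) (nat_lit 10755785432) (nat_lit 47) (nat_lit 5) (nat_lit 54) (nat_lit 5) (nat_lit 48) (nat_lit 5) (nat_lit 300) (nat_lit 286) (nat_lit 134))) (XT.nd (nat_lit 78) (nat_lit 304) (nat_lit 0) (XT.lf (nat_lit 0) (nat_lit 20229180116) (nat_lit 532) (nat_lit 7739389567) (nat_lit 76)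 (nat_lit 30552210276) (nat_lit 47) (nat_lit 5) (nat_lit 54) (nat_lit 5) (nat_lit 48) (nat_lit 5) (nat_lit 301) (nat_lit 286) (nat_lit 133)) (XT.lf (nat_lit 0) (nat_lit 16214105975) (nat_lit 304) (nat_lit 8704317617) (nat_lit 380) (nat_lit 35377622195) (nat_lit 43) (nat_lit 5) (nat_lit 47) (nat_lit 5) (nat_lit 48) (nat_lit 5) (nat_lit 302) (nat_lit 286) (nat_lit 132)))) (XT.nd (nat_lit 156) (nat_lit 0) (nat_lit 0) (XT.nd (nat_lit 78) (nat_lit 304) (nat_lit 0) (XT.lf (nat_lit 0) (nat_lit 30154039635) (nat_lit 380) (nat_lit 20702861682) (nat_lit 76) (nat_lit 11287584641) (nat_lit 43) (nat_lit 5) (nat_lit 48) (nat_lit 5) (nat_lit 44) (nat_lit 5) (nat_lit 303) (nat_lit 286) (nat_lit 131)) (XT.lf (nat_lit 0) (nat_lit 3823664033) (nat_lit 304) (nat_lit 32029005025) (nat_lit 380) (nat_lit 28222623712) (nat_lit 39) (nat_lit 5) (nat_lit 43) (nat_lit 5) (nat_lit 44) (nat_lit 5) (nat_lit 304)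 (nat_lit 286) (nat_lit 130))) (XT.nd (nat_lit 78) (nat_lit 0) (nat_lit 0) (XT.lf (nat_lit 0) (nat_lit 30294098182) (nat_lit 304) (nat_lit 11891622354) (nat_lit 380) (nat_lit 23899450819) (nat_lit 39) (nat_lit 5) (nat_lit 43) (nat_lit 5) (nat_lit 44) (nat_lit 5) (nat_lit 305) (nat_lit 286) (nat_lit 129)) (XT.lf (nat_lit 0) (nat_lit 48978814340) (nat_lit 380) (nat_lit 10253126196) (nat_lit 76) (nat_lit 8956439524) (nat_lit 39) (nat_lit 5) (nat_lit 44) (nat_lit 5) (nat_lit 40) (nat_lit 5) (nat_lit 306) (nat_lit 286) (nat_lit 128))))) (XT.nd (nat_lit 312) (nat_lit 228) (nat_lit 0) (XT.nd (nat_lit 156) (nat_lit 304) (nat_lit 0) (XT.nd (nat_lit 78) (nat_lit 0) (nat_lit 0) (XT.lf (nat_lit 0) (nat_lit 16906775041) (nat_lit 228) (nat_lit 39662675774) (nat_lit 304) (nat_lit 13804409392) (nat_lit 36) (nat_lit 5) (nat_lit 39) (nat_lit 5) (nat_lit 40) (nat_lit 5) (nat_lit 307) (nat_lit 286) (nat_lit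 127)) (XT.lf (nat_lit 0) (nat_lit 45779533964) (nat_lit 228) (nat_lit 18932739316) (nat_lit 304) (nat_lit 7947713524) (nat_lit 36) (nat_lit 5) (nat_lit 39) (nat_lit 5) (nat_lit 40) (nat_lit 5) (nat_lit 308) (nat_lit 286) (nat_lit 126))) (XT.nd (nat_lit 78) (nat_lit 76) (nat_lit 0) (XT.lf (nat_lit 0) (nat_lit 1022908177) (nat_lit 228) (nat_lit 72298598879) (nat_lit 304) (nat_lit 1735954070) (nat_lit 33) (nat_lit 5) (nat_lit 36) (nat_lit 5) (nat_lit 37) (nat_lit 5) (nat_lit 309) (nat_lit 286) (nat_lit 125)) (XT.lf (nat_lit 0) (nat_lit 5405334244) (nat_lit 304) (nat_lit 46691064294) (nat_lit 76) (nat_lit 25436071857) (nat_lit 32) (nat_lit 5) (nat_lit 36) (nat_lit 5) (nat_lit 33) (nat_lit 5) (nat_lit 310) (nat_lit 286) (nat_lit 124)))) (XT.nd (nat_lit 156) (nat_lit 0) (nat_lit 0) (XT.nd (nat_lit 78) (nat_lit 228) (nat_lit 0) (XT.lf (nat_lit 0) (nat_lit 12844458271) (nat_lit 304) (nat_lit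 18009924269) (nat_lit 76) (nat_lit 49275473372) (nat_lit 32) (nat_lit 5) (nat_lit 36) (nat_lit 5) (nat_lit 33) (nat_lit 5) (nat_lit 311) (nat_lit 286) (nat_lit 123)) (XT.lf (nat_lit 0) (nat_lit 12504480115) (nat_lit 228) (nat_lit 8345441445) (nat_lit 304) (nat_lit 61997474029) (nat_lit 29) (nat_lit 5) (nat_lit 32) (nat_lit 5) (nat_lit 33) (nat_lit 5) (nat_lit 312) (nat_lit 286) (nat_lit 122))) (XT.nd (nat_lit 78) (nat_lit 0) (nat_lit 0) (XT.lf (nat_lit 0) (nat_lit 29803543305) (nat_lit 304) (nat_lit 40760436653) (nat_lit 76) (nat_lit 15109441869) (nat_lit 29) (nat_lit 5) (nat_lit 33) (nat_lit 5) (nat_lit 30) (nat_lit 5) (nat_lit 313) (nat_lit 286) (nat_lit 121)) (XT.lf (nat_lit 0) (nat_lit 39340871027) (nat_lit 304) (nat_lit 9836634835) (nat_lit 76) (nat_lit 39456445931) (nat_lit 29) (nat_lit 5) (nat_lit 33) (nat_lit 5) (nat_lit 30) (nat_lit 5) (nat_lit 314) (nat_lit 286) (nat_lit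 120)))))) (XT.nd (nat_lit 624) (nat_lit 456) (nat_lit 0) (XT.nd (nat_lit 312) (nat_lit 304) (nat_lit 0) (XT.nd (nat_lit 156) (nat_lit 152) (nat_lit 0) (XT.nd (nat_lit 78) (nat_lit 0) (nat_lit 0) (XT.lf (nat_lit 0) (nat_lit 23380743620) (nat_lit 228) (nat_lit 26338612232) (nat_lit 304) (nat_lit 42004941356) (nat_lit 26) (nat_lit 5) (nat_lit 29) (nat_lit 5) (nat_lit 30) (nat_lit 5) (nat_lit 315) (nat_lit 286) (nat_lit 119)) (XT.lf (nat_lit 0) (nat_lit 58599568697) (nat_lit 228) (nat_lit 2183057316) (nat_lit 304) (nat_lit 34178244144) (nat_lit 26) (nat_lit 5) (nat_lit 29) (nat_lit 5) (nat_lit 30) (nat_lit 5) (nat_lit 316) (nat_lit 286) (nat_lit 118))) (XT.nd (nat_lit 78) (nat_lit 152) (nat_lit 0) (XT.lf (nat_lit 0) (nat_lit 72760273302) (nat_lit 304) (nat_lit 3142764441) (nat_lit 76) (nat_lit 22438176491) (nat_lit 26) (nat_lit 5) (nat_lit 30) (nat_lit 5) (nat_lit 27) (nat_lit 5) (nat_lit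 317) (nat_lit 286) (nat_lit 117)) (XT.lf (nat_lit 0) (nat_lit 32748183069) (nat_lit 152) (nat_lit 53135036301) (nat_lit 228) (nat_lit 15980038336) (nat_lit 24) (nat_lit 5) (nat_lit 26) (nat_lit 5) (nat_lit 27) (nat_lit 5) (nat_lit 318) (nat_lit 286) (nat_lit 116)))) (XT.nd (nat_lit 156) (nat_lit 0) (nat_lit 0) (XT.nd (nat_lit 78) (nat_lit 304) (nat_lit 0) (XT.lf (nat_lit 0) (nat_lit 70541926844) (nat_lit 152) (nat_lit 29172965909) (nat_lit 228) (nat_lit 5843884466) (nat_lit 24) (nat_lit 5) (nat_lit 26) (nat_lit 5) (nat_lit 27) (nat_lit 5) (nat_lit 319) (nat_lit 286) (nat_lit 115)) (XT.lf (nat_lit 0) (nat_lit 734007774) (nat_lit 228) (nat_lit 3922302553) (nat_lit 304) (nat_lit 104778476945) (nat_lit 20) (nat_lit 5) (nat_lit 23) (nat_lit 5) (nat_lit 24) (nat_lit 5) (nat_lit 320) (nat_lit 286) (nat_lit 114))) (XT.nd (nat_lit 78) (nat_lit 0) (nat_lit 0) (XT.lf (nat_lit 0) (nat_lit 16439965437)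 (nat_lit 304) (nat_lit 74445920991) (nat_lit 76) (nat_lit 22566181637) (nat_lit 20) (nat_lit 5) (nat_lit 24) (nat_lit 5) (nat_lit 21) (nat_lit 5) (nat_lit 321) (nat_lit 286) (nat_lit 113)) (XT.lf (nat_lit 0) (nat_lit 28876519710) (nat_lit 304) (nat_lit 38543437720) (nat_lit 76) (nat_lit 50247072008) (nat_lit 20) (nat_lit 5) (nat_lit 24) (nat_lit 5) (nat_lit 21) (nat_lit 5) (nat_lit 322) (nat_lit 286) (nat_lit 112))))) (XT.nd (nat_lit 312) (nat_lit 304) (nat_lit 0) (XT.nd (nat_lit 156) (nat_lit 0) (nat_lit 0) (XT.nd (nat_lit 78) (nat_lit 152) (nat_lit 0) (XT.lf (nat_lit 0) (nat_lit 41934345853) (nat_lit 304) (nat_lit 846609446) (nat_lit 76) (nat_lit 79311813618) (nat_lit 20) (nat_lit 5) (nat_lit 24) (nat_lit 5) (nat_lit 21) (nat_lit 5) (nat_lit 323) (nat_lit 286) (nat_lit 111)) (XT.lf (nat_lit 0) (nat_lit 40015049670) (nat_lit 152) (nat_lit 16254231327) (nat_lit 228) (nat_lit 70439305629)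 (nat_lit 18) (nat_lit 5) (nat_lit 20) (nat_lit 5) (nat_lit 21) (nat_lit 5) (nat_lit 324) (nat_lit 286) (nat_lit 110))) (XT.nd (nat_lit 78) (nat_lit 0) (nat_lit 0) (XT.lf (nat_lit 0) (nat_lit 71516106996) (nat_lit 228) (nat_lit 48787374048) (nat_lit 76) (nat_lit 11241959011) (nat_lit 18) (nat_lit 5) (nat_lit 21) (nat_lit 5) (nat_lit 19) (nat_lit 5) (nat_lit 325) (nat_lit 286) (nat_lit 109)) (XT.lf (nat_lit 0) (nat_lit 87791242899) (nat_lit 228) (nat_lit 9253084427) (nat_lit 76) (nat_lit 39566512338) (nat_lit 18) (nat_lit 5) (nat_lit 21) (nat_lit 5) (nat_lit 19) (nat_lit 5) (nat_lit 326) (nat_lit 286) (nat_lit 108)))) (XT.nd (nat_lit 156) (nat_lit 152) (nat_lit 0) (XT.nd (nat_lit 78) (nat_lit 0) (nat_lit 0) (XT.lf (nat_lit 0) (nat_lit 33323805145) (nat_lit 152) (nat_lit 72076137771) (nat_lit 228) (nat_lit 36503577821) (nat_lit 16) (nat_lit 5) (nat_lit 18) (nat_lit 5) (nat_lit 19) (nat_lit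 5) (nat_lit 327) (nat_lit 286) (nat_lit 107)) (XT.lf (nat_lit 0) (nat_lit 78350112027) (nat_lit 152) (nat_lit 45695212598) (nat_lit 228) (nat_lit 23407700664) (nat_lit 16) (nat_lit 5) (nat_lit 18) (nat_lit 5) (nat_lit 19) (nat_lit 5) (nat_lit 328) (nat_lit 286) (nat_lit 106))) (XT.nd (nat_lit 78) (nat_lit 152) (nat_lit 0) (XT.lf (nat_lit 0) (nat_lit 125627092953) (nat_lit 152) (nat_lit 17995445543) (nat_lit 228) (nat_lit 9657490096) (nat_lit 16) (nat_lit 5) (nat_lit 18) (nat_lit 5) (nat_lit 19) (nat_lit 5) (nat_lit 329) (nat_lit 286) (nat_lit 105)) (XT.lf (nat_lit 0) (nat_lit 5060087463) (nat_lit 152) (nat_lit 143243955529) (nat_lit 76) (nat_lit 11068966262) (nat_lit 14) (nat_lit 5) (nat_lit 16) (nat_lit 5) (nat_lit 15) (nat_lit 5) (nat_lit 330) (nat_lit 286) (nat_lit 104))))))))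
noncomputable def xc198 : XT := (XT.nd (nat_lit 34788) (nat_lit 0) (nat_lit 1520) (XT.nd (nat_lit 34164) (nat_lit 0) (nat_lit 3496) (XT.nd (nat_lit 312) (nat_lit 0) (nat_lit 0) (XT.nd (nat_lit 156) (nat_lit 152) (nat_lit 0) (XT.nd (nat_lit 78) (nat_lit 0) (nat_lit 0) (XT.lf (nat_lit 0) (nat_lit 20959572313) (nat_lit 152) (nat_lit 103148672440) (nat_lit 76) (nat_lit 41615950501) (nat_lit 14) (nat_lit 5) (nat_lit 16) (nat_lit 5) (nat_lit 15) (nat_lit 5) (nat_lit 331) (nat_lit 286) (nat_lit 103)) (XT.lf (nat_lit 0) (nat_lit 37653634214) (nat_lit 152) (nat_lit 61049230149) (nat_lit 76) (nat_lit 73690097429) (nat_lit 14) (nat_lit 5) (nat_lit 16) (nat_lit 5) (nat_lit 15) (nat_lit 5) (nat_lit 332) (nat_lit 286) (nat_lit 102))) (XT.nd (nat_lit 78) (nat_lit 152) (nat_lit 0) (XT.lf (nat_lit 0) (nat_lit 55182020932) (nat_lit 152) (nat_lit 16845391890) (nat_lit 76) (nat_lit 107367774062) (nat_lit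 14) (nat_lit 5) (nat_lit 16) (nat_lit 5) (nat_lit 15) (nat_lit 5) (nat_lit 333) (nat_lit 286) (nat_lit 101)) (XT.lf (nat_lit 0) (nat_lit 30545744144) (nat_lit 152) (nat_lit 43517627246) (nat_lit 228) (nat_lit 112660325871) (nat_lit 12) (nat_lit 5) (nat_lit 14) (nat_lit 5) (nat_lit 15) (nat_lit 5) (nat_lit 334) (nat_lit 286) (nat_lit 100)))) (XT.nd (nat_lit 156) (nat_lit 0) (nat_lit 0) (XT.nd (nat_lit 78) (nat_lit 0) (nat_lit 0) (XT.lf (nat_lit 0) (nat_lit 80890731089) (nat_lit 152) (nat_lit 13282991608) (nat_lit 228) (nat_lit 100230664986) (nat_lit 12) (nat_lit 5) (nat_lit 14) (nat_lit 5) (nat_lit 15) (nat_lit 5) (nat_lit 335) (nat_lit 286) (nat_lit 99)) (XT.lf (nat_lit 0) (nat_lit 115577519012) (nat_lit 228) (nat_lit 69004939513) (nat_lit 76) (nat_lit 17872258865) (nat_lit 12) (nat_lit 5) (nat_lit 15) (nat_lit 5) (nat_lit 13) (nat_lit 4) (nat_lit 336) (nat_lit 286) (nat_lit 98)))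 (XT.nd (nat_lit 33618) (nat_lit 0) (nat_lit 3496) (XT.lf (nat_lit 0) (nat_lit 138268937580) (nat_lit 228) (nat_lit 22489044564) (nat_lit 76) (nat_lit 50138710895) (nat_lit 12) (nat_lit 5) (nat_lit 15) (nat_lit 5) (nat_lit 13) (nat_lit 4) (nat_lit 337) (nat_lit 286) (nat_lit 97)) (XT.lf (nat_lit 0) (nat_lit 16731138047) (nat_lit 684) (nat_lit 1875226156) (nat_lit 684) (nat_lit 1875226156) (nat_lit 58) (nat_lit 3) (nat_lit 67) (nat_lit 3) (nat_lit 67) (nat_lit 5) (nat_lit 287) (nat_lit 287) (nat_lit 146))))) (XT.nd (nat_lit 312) (nat_lit 0) (nat_lit 76) (XT.nd (nat_lit 156) (nat_lit 0) (nat_lit 76) (XT.nd (nat_lit 78) (nat_lit 0) (nat_lit 0) (XT.lf (nat_lit 76) (nat_lit 12474750758) (nat_lit 0) (nat_lit 22051836127) (nat_lit 684) (nat_lit 7449082360) (nat_lit 59) (nat_lit 5) (nat_lit 58) (nat_lit 3) (nat_lit 67) (nat_lit 5) (nat_lit 288) (nat_lit 287) (nat_lit 145)) (XT.lf (nat_lit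 76) (nat_lit 29640269225) (nat_lit 0) (nat_lit 6065230080) (nat_lit 684) (nat_lit 7330226600) (nat_lit 59) (nat_lit 5) (nat_lit 58) (nat_lit 3) (nat_lit 67) (nat_lit 5) (nat_lit 289) (nat_lit 287) (nat_lit 144))) (XT.nd (nat_lit 78) (nat_lit 0) (nat_lit 0) (XT.lf (nat_lit 76) (nat_lit 3457328573) (nat_lit 0) (nat_lit 33705373945) (nat_lit 684) (nat_lit 6975128016) (nat_lit 60) (nat_lit 5) (nat_lit 59) (nat_lit 5) (nat_lit 68) (nat_lit 5) (nat_lit 290) (nat_lit 287) (nat_lit 143)) (XT.lf (nat_lit 76) (nat_lit 21513889780) (nat_lit 0) (nat_lit 17501624323) (nat_lit 684) (nat_lit 6263400685) (nat_lit 60) (nat_lit 5) (nat_lit 59) (nat_lit 5) (nat_lit 68) (nat_lit 5) (nat_lit 291) (nat_lit 287) (nat_lit 142)))) (XT.nd (nat_lit 156) (nat_lit 0) (nat_lit 76) (XT.nd (nat_lit 78) (nat_lit 0) (nat_lit 76) (XT.lf (nat_lit 76) (nat_lit 40472130750) (nat_lit 0) (nat_lit 486991117) (nat_lit 684)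 (nat_lit 5518034850) (nat_lit 60) (nat_lit 5) (nat_lit 59) (nat_lit 5) (nat_lit 68) (nat_lit 5) (nat_lit 292) (nat_lit 287) (nat_lit 141)) (XT.lf (nat_lit 76) (nat_lit 12779468197) (nat_lit 0) (nat_lit 30689544029) (nat_lit 684) (nat_lit 4242854111) (nat_lit 61) (nat_lit 5) (nat_lit 60) (nat_lit 5) (nat_lit 69) (nat_lit 5) (nat_lit 293) (nat_lit 287) (nat_lit 140))) (XT.nd (nat_lit 78) (nat_lit 0) (nat_lit 76) (XT.lf (nat_lit 76) (nat_lit 32702237476) (nat_lit 0) (nat_lit 13510030804) (nat_lit 684) (nat_lit 2790659796) (nat_lit 61) (nat_lit 5) (nat_lit 60) (nat_lit 5) (nat_lit 69) (nat_lit 5) (nat_lit 294) (nat_lit 287) (nat_lit 139)) (XT.lf (nat_lit 76) (nat_lit 3296174600) (nat_lit 0) (nat_lit 45917082925) (nat_lit 684) (nat_lit 1139266568) (nat_lit 62) (nat_lit 5) (nat_lit 61) (nat_lit 5) (nat_lit 70) (nat_lit 5) (nat_lit 295) (nat_lit 287) (nat_lit 138)))))) (XT.nd (nat_lit 624)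 (nat_lit 836) (nat_lit 0) (XT.nd (nat_lit 312) (nat_lit 684) (nat_lit 0) (XT.nd (nat_lit 156) (nat_lit 0) (nat_lit 76) (XT.nd (nat_lit 78) (nat_lit 0) (nat_lit 0) (XT.lf (nat_lit 0) (nat_lit 1076152800) (nat_lit 684) (nat_lit 27553542021) (nat_lit 760) (nat_lit 23114425132) (nat_lit 52) (nat_lit 5) (nat_lit 61) (nat_lit 5) (nat_lit 62) (nat_lit 5) (nat_lit 296) (nat_lit 287) (nat_lit 137)) (XT.lf (nat_lit 0) (nat_lit 3362560026) (nat_lit 684) (nat_lit 7095475417) (nat_lit 760) (nat_lit 42746409539) (nat_lit 52) (nat_lit 5) (nat_lit 61) (nat_lit 5) (nat_lit 62) (nat_lit 5) (nat_lit 297) (nat_lit 287) (nat_lit 136))) (XT.nd (nat_lit 78) (nat_lit 0) (nat_lit 0) (XT.lf (nat_lit 0) (nat_lit 6132292700) (nat_lit 684) (nat_lit 40004731124) (nat_lit 76) (nat_lit 8582320175) (nat_lit 53) (nat_lit 5) (nat_lit 62) (nat_lit 5) (nat_lit 54) (nat_lit 5) (nat_lit 298) (nat_lit 287) (nat_lit 135))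 (XT.lf (nat_lit 0) (nat_lit 9332719486) (nat_lit 684) (nat_lit 18617057415) (nat_lit 76) (nat_lit 28345608300) (nat_lit 53) (nat_lit 5) (nat_lit 62) (nat_lit 5) (nat_lit 54) (nat_lit 5) (nat_lit 299) (nat_lit 287) (nat_lit 134)))) (XT.nd (nat_lit 156) (nat_lit 304) (nat_lit 0) (XT.nd (nat_lit 78) (nat_lit 0) (nat_lit 0) (XT.lf (nat_lit 0) (nat_lit 3965778165) (nat_lit 456) (nat_lit 8788000683) (nat_lit 532) (nat_lit 45193426300) (nat_lit 47) (nat_lit 5) (nat_lit 53) (nat_lit 5) (nat_lit 54) (nat_lit 5) (nat_lit 300) (nat_lit 287) (nat_lit 133)) (XT.lf (nat_lit 0) (nat_lit 16842011700) (nat_lit 532) (nat_lit 31525049631) (nat_lit 76) (nat_lit 11289755637) (nat_lit 47) (nat_lit 5) (nat_lit 54) (nat_lit 5) (nat_lit 48) (nat_lit 5) (nat_lit 301) (nat_lit 287) (nat_lit 132))) (XT.nd (nat_lit 78) (nat_lit 304) (nat_lit 0) (XT.lf (nat_lit 0) (nat_lit 21277522555) (nat_lit 532) (nat_lit 8091066494)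 (nat_lit 76) (nat_lit 32076183584) (nat_lit 47) (nat_lit 5) (nat_lit 54) (nat_lit 5) (nat_lit 48) (nat_lit 5) (nat_lit 302) (nat_lit 287) (nat_lit 131)) (XT.lf (nat_lit 0) (nat_lit 17059534590) (nat_lit 304) (nat_lit 9140479389) (nat_lit 380) (nat_lit 37108858110) (nat_lit 43) (nat_lit 5) (nat_lit 47) (nat_lit 5) (nat_lit 48) (nat_lit 5) (nat_lit 303) (nat_lit 287) (nat_lit 130))))) (XT.nd (nat_lit 312) (nat_lit 532) (nat_lit 0) (XT.nd (nat_lit 156) (nat_lit 0) (nat_lit 0) (XT.nd (nat_lit 78) (nat_lit 304) (nat_lit 0) (XT.lf (nat_lit 0) (nat_lit 31695698226) (nat_lit 380) (nat_lit 21703038984) (nat_lit 76) (nat_lit 11851091858) (nat_lit 43) (nat_lit 5) (nat_lit 48) (nat_lit 5) (nat_lit 44) (nat_lit 5) (nat_lit 304) (nat_lit 287) (nat_lit 129)) (XT.lf (nat_lit 0) (nat_lit 4049249053) (nat_lit 304) (nat_lit 33628930195) (nat_lit 380) (nat_lit 29599059697) (nat_lit 39) (nat_lit 5) (nat_lit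 43) (nat_lit 5) (nat_lit 44) (nat_lit 5) (nat_lit 305) (nat_lit 287) (nat_lit 128))) (XT.nd (nat_lit 78) (nat_lit 0) (nat_lit 0) (XT.lf (nat_lit 0) (nat_lit 31841566727) (nat_lit 304) (nat_lit 12484751013) (nat_lit 380) (nat_lit 25061380312) (nat_lit 39) (nat_lit 5) (nat_lit 43) (nat_lit 5) (nat_lit 44) (nat_lit 5) (nat_lit 306) (nat_lit 287) (nat_lit 127)) (XT.lf (nat_lit 0) (nat_lit 51457596823) (nat_lit 380) (nat_lit 10732951240) (nat_lit 76) (nat_lit 9405600520) (nat_lit 39) (nat_lit 5) (nat_lit 44) (nat_lit 5) (nat_lit 40) (nat_lit 5) (nat_lit 307) (nat_lit 287) (nat_lit 126)))) (XT.nd (nat_lit 156) (nat_lit 304) (nat_lit 0) (XT.nd (nat_lit 78) (nat_lit 0) (nat_lit 0) (XT.lf (nat_lit 0) (nat_lit 17784415523) (nat_lit 228) (nat_lit 41642432884) (nat_lit 304) (nat_lit 14464107709) (nat_lit 36) (nat_lit 5) (nat_lit 39) (nat_lit 5) (nat_lit 40) (nat_lit 5) (nat_lit 308) (nat_lit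 287) (nat_lit 125)) (XT.lf (nat_lit 0) (nat_lit 48099274215) (nat_lit 228) (nat_lit 19876160397) (nat_lit 304) (nat_lit 8316030484) (nat_lit 36) (nat_lit 5) (nat_lit 39) (nat_lit 5) (nat_lit 40) (nat_lit 5) (nat_lit 309) (nat_lit 287) (nat_lit 124))) (XT.nd (nat_lit 78) (nat_lit 76) (nat_lit 0) (XT.lf (nat_lit 0) (nat_lit 1105768069) (nat_lit 228) (nat_lit 75908593184) (nat_lit 304) (nat_lit 1794497163) (nat_lit 33) (nat_lit 5) (nat_lit 36) (nat_lit 5) (nat_lit 37) (nat_lit 5) (nat_lit 310) (nat_lit 287) (nat_lit 123)) (XT.lf (nat_lit 0) (nat_lit 5701648848) (nat_lit 304) (nat_lit 48994427874) (nat_lit 76) (nat_lit 26711590694) (nat_lit 32) (nat_lit 5) (nat_lit 36) (nat_lit 5) (nat_lit 33) (nat_lit 5) (nat_lit 311) (nat_lit 287) (nat_lit 122)))))))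
noncomputable def xc199 : XT := (XT.nd (nat_lit 1248) (nat_lit 456) (nat_lit 0) (XT.nd (nat_lit 624) (nat_lit 456) (nat_lit 0) (XT.nd (nat_lit 312) (nat_lit 380) (nat_lit 0) (XT.nd (nat_lit 156) (nat_lit 0) (nat_lit 0) (XT.nd (nat_lit 78) (nat_lit 228) (nat_lit 0) (XT.lf (nat_lit 0) (nat_lit 13511488701) (nat_lit 304) (nat_lit 18880716069) (nat_lit 76) (nat_lit 51742785369) (nat_lit 32) (nat_lit 5) (nat_lit 36) (nat_lit 5) (nat_lit 33) (nat_lit 5) (nat_lit 312) (nat_lit 287) (nat_lit 121)) (XT.lf (nat_lit 0) (nat_lit 13158929432) (nat_lit 228) (nat_lit 8757570701) (nat_lit 304) (nat_lit 65071948545) (nat_lit 29) (nat_lit 5) (nat_lit 32) (nat_lit 5) (nat_lit 33) (nat_lit 5) (nat_lit 313) (nat_lit 287) (nat_lit 120))) (XT.nd (nat_lit 78) (nat_lit 0) (nat_lit 0) (XT.lf (nat_lit 0) (nat_lit 31316732650) (nat_lit 304) (nat_lit 42769447336) (nat_lit 76) (nat_lit 15869655118) (nat_lit 29)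 (nat_lit 5) (nat_lit 33) (nat_lit 5) (nat_lit 30) (nat_lit 5) (nat_lit 314) (nat_lit 287) (nat_lit 119)) (XT.lf (nat_lit 0) (nat_lit 41329830940) (nat_lit 304) (nat_lit 10300836910) (nat_lit 76) (nat_lit 41433783614) (nat_lit 29) (nat_lit 5) (nat_lit 33) (nat_lit 5) (nat_lit 30) (nat_lit 5) (nat_lit 315) (nat_lit 287) (nat_lit 118)))) (XT.nd (nat_lit 156) (nat_lit 152) (nat_lit 0) (XT.nd (nat_lit 78) (nat_lit 0) (nat_lit 0) (XT.lf (nat_lit 0) (nat_lit 24576964828) (nat_lit 228) (nat_lit 27649655960) (nat_lit 304) (nat_lit 44082729183) (nat_lit 26) (nat_lit 5) (nat_lit 29) (nat_lit 5) (nat_lit 30) (nat_lit 5) (nat_lit 316) (nat_lit 287) (nat_lit 117)) (XT.lf (nat_lit 0) (nat_lit 61555436681) (nat_lit 228) (nat_lit 2286603626) (nat_lit 304) (nat_lit 35865766599) (nat_lit 26) (nat_lit 5) (nat_lit 29) (nat_lit 5) (nat_lit 30) (nat_lit 5) (nat_lit 317) (nat_lit 287) (nat_lit 116))) (XT.nd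 (nat_lit 78) (nat_lit 152) (nat_lit 0) (XT.lf (nat_lit 0) (nat_lit 76417687471) (nat_lit 304) (nat_lit 3274275260) (nat_lit 76) (nat_lit 23565253992) (nat_lit 26) (nat_lit 5) (nat_lit 30) (nat_lit 5) (nat_lit 27) (nat_lit 5) (nat_lit 318) (nat_lit 287) (nat_lit 115)) (XT.lf (nat_lit 0) (nat_lit 34410806281) (nat_lit 152) (nat_lit 55785444389) (nat_lit 228) (nat_lit 16759142406) (nat_lit 24) (nat_lit 5) (nat_lit 26) (nat_lit 5) (nat_lit 27) (nat_lit 5) (nat_lit 319) (nat_lit 287) (nat_lit 114))))) (XT.nd (nat_lit 312) (nat_lit 152) (nat_lit 0) (XT.nd (nat_lit 156) (nat_lit 0) (nat_lit 0) (XT.nd (nat_lit 78) (nat_lit 304) (nat_lit 0) (XT.lf (nat_lit 0) (nat_lit 74093036575) (nat_lit 152) (nat_lit 30625572560) (nat_lit 228) (nat_lit 6117128359) (nat_lit 24) (nat_lit 5) (nat_lit 26) (nat_lit 5) (nat_lit 27) (nat_lit 5) (nat_lit 320) (nat_lit 287) (nat_lit 113)) (XT.lf (nat_lit 0) (nat_lit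 795005946) (nat_lit 228) (nat_lit 4111969542) (nat_lit 304) (nat_lit 109998586105) (nat_lit 20) (nat_lit 5) (nat_lit 23) (nat_lit 5) (nat_lit 24) (nat_lit 5) (nat_lit 321) (nat_lit 287) (nat_lit 112))) (XT.nd (nat_lit 78) (nat_lit 0) (nat_lit 0) (XT.lf (nat_lit 0) (nat_lit 17279059250) (nat_lit 304) (nat_lit 78144253086) (nat_lit 76) (nat_lit 23700435251) (nat_lit 20) (nat_lit 5) (nat_lit 24) (nat_lit 5) (nat_lit 21) (nat_lit 5) (nat_lit 322) (nat_lit 287) (nat_lit 111)) (XT.lf (nat_lit 0) (nat_lit 30336627162) (nat_lit 304) (nat_lit 40447786792) (nat_lit 76) (nat_lit 52765087067) (nat_lit 20) (nat_lit 5) (nat_lit 24) (nat_lit 5) (nat_lit 21) (nat_lit 5) (nat_lit 323) (nat_lit 287) (nat_lit 110)))) (XT.nd (nat_lit 156) (nat_lit 0) (nat_lit 0) (XT.nd (nat_lit 78) (nat_lit 152) (nat_lit 0) (XT.lf (nat_lit 0) (nat_lit 44046569305) (nat_lit 304) (nat_lit 867203905) (nat_lit 76) (nat_lit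 83282796164) (nat_lit 20) (nat_lit 5) (nat_lit 24) (nat_lit 5) (nat_lit 21) (nat_lit 5) (nat_lit 324) (nat_lit 287) (nat_lit 109)) (XT.lf (nat_lit 0) (nat_lit 42037187586) (nat_lit 152) (nat_lit 17060659118) (nat_lit 228) (nat_lit 73945354475) (nat_lit 18) (nat_lit 5) (nat_lit 20) (nat_lit 5) (nat_lit 21) (nat_lit 5) (nat_lit 325) (nat_lit 287) (nat_lit 108))) (XT.nd (nat_lit 78) (nat_lit 0) (nat_lit 0) (XT.lf (nat_lit 0) (nat_lit 75106388312) (nat_lit 228) (nat_lit 51205693127) (nat_lit 76) (nat_lit 11809849966) (nat_lit 18) (nat_lit 5) (nat_lit 21) (nat_lit 5) (nat_lit 19) (nat_lit 5) (nat_lit 326) (nat_lit 287) (nat_lit 107)) (XT.lf (nat_lit 0) (nat_lit 92194591678) (nat_lit 228) (nat_lit 9695691388) (nat_lit 76) (nat_lit 41550355103) (nat_lit 18) (nat_lit 5) (nat_lit 21) (nat_lit 5) (nat_lit 19) (nat_lit 5) (nat_lit 327) (nat_lit 287) (nat_lit 106)))))) (XT.nd (nat_lit 624) (nat_lit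 0) (nat_lit 0) (XT.nd (nat_lit 312) (nat_lit 152) (nat_lit 0) (XT.nd (nat_lit 156) (nat_lit 152) (nat_lit 0) (XT.nd (nat_lit 78) (nat_lit 0) (nat_lit 0) (XT.lf (nat_lit 0) (nat_lit 35009719319) (nat_lit 152) (nat_lit 75673658815) (nat_lit 228) (nat_lit 38314595167) (nat_lit 16) (nat_lit 5) (nat_lit 18) (nat_lit 5) (nat_lit 19) (nat_lit 5) (nat_lit 328) (nat_lit 287) (nat_lit 105)) (XT.lf (nat_lit 0) (nat_lit 82286402312) (nat_lit 152) (nat_lit 47973986710) (nat_lit 228) (nat_lit 24564598511) (nat_lit 16) (nat_lit 5) (nat_lit 18) (nat_lit 5) (nat_lit 19) (nat_lit 5) (nat_lit 329) (nat_lit 287) (nat_lit 104))) (XT.nd (nat_lit 78) (nat_lit 152) (nat_lit 0) (XT.lf (nat_lit 0) (nat_lit 131926337775) (nat_lit 152) (nat_lit 18889516375) (nat_lit 228) (nat_lit 10127519662) (nat_lit 16) (nat_lit 5) (nat_lit 18) (nat_lit 5) (nat_lit 19) (nat_lit 5) (nat_lit 330) (nat_lit 287) (nat_lit 103))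 (XT.lf (nat_lit 0) (nat_lit 5325307908) (nat_lit 152) (nat_lit 150387547293) (nat_lit 76) (nat_lit 11628151288) (nat_lit 14) (nat_lit 5) (nat_lit 16) (nat_lit 5) (nat_lit 15) (nat_lit 5) (nat_lit 331) (nat_lit 287) (nat_lit 102)))) (XT.nd (nat_lit 156) (nat_lit 152) (nat_lit 0) (XT.nd (nat_lit 78) (nat_lit 0) (nat_lit 0) (XT.lf (nat_lit 0) (nat_lit 22019185283) (nat_lit 152) (nat_lit 108288386049) (nat_lit 76) (nat_lit 43702211562) (nat_lit 14) (nat_lit 5) (nat_lit 16) (nat_lit 5) (nat_lit 15) (nat_lit 5) (nat_lit 332) (nat_lit 287) (nat_lit 101)) (XT.lf (nat_lit 0) (nat_lit 39547396262) (nat_lit 152) (nat_lit 64084815454) (nat_lit 76) (nat_lit 77379805668) (nat_lit 14) (nat_lit 5) (nat_lit 16) (nat_lit 5) (nat_lit 15) (nat_lit 5) (nat_lit 333) (nat_lit 287) (nat_lit 100))) (XT.nd (nat_lit 78) (nat_lit 152) (nat_lit 0) (XT.lf (nat_lit 0) (nat_lit 57951674680) (nat_lit 152) (nat_lit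 17671588911) (nat_lit 76) (nat_lit 112741118353) (nat_lit 14) (nat_lit 5) (nat_lit 16) (nat_lit 5) (nat_lit 15) (nat_lit 5) (nat_lit 334) (nat_lit 287) (nat_lit 99)) (XT.lf (nat_lit 0) (nat_lit 32088844690) (nat_lit 152) (nat_lit 45687992353) (nat_lit 228) (nat_lit 118282495325) (nat_lit 12) (nat_lit 5) (nat_lit 14) (nat_lit 5) (nat_lit 15) (nat_lit 5) (nat_lit 335) (nat_lit 287) (nat_lit 98))))) (XT.nd (nat_lit 34008) (nat_lit 0) (nat_lit 3572) (XT.nd (nat_lit 33852) (nat_lit 0) (nat_lit 3496) (XT.nd (nat_lit 33774) (nat_lit 0) (nat_lit 3496) (XT.lf (nat_lit 0) (nat_lit 84950327966) (nat_lit 152) (nat_lit 13941887612) (nat_lit 228) (nat_lit 105231867912) (nat_lit 12) (nat_lit 5) (nat_lit 14) (nat_lit 5) (nat_lit 15) (nat_lit 5) (nat_lit 336) (nat_lit 287) (nat_lit 97)) (XT.lf (nat_lit 0) (nat_lit 17600167982) (nat_lit 684) (nat_lit 1951839060) (nat_lit 684) (nat_lit 1951839060) (nat_lit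 58) (nat_lit 3) (nat_lit 67) (nat_lit 3) (nat_lit 67) (nat_lit 5) (nat_lit 288) (nat_lit 288) (nat_lit 144))) (XT.nd (nat_lit 78) (nat_lit 0) (nat_lit 0) (XT.lf (nat_lit 76) (nat_lit 13132231930) (nat_lit 0) (nat_lit 23183064527) (nat_lit 684) (nat_lit 7755656050) (nat_lit 59) (nat_lit 5) (nat_lit 58) (nat_lit 3) (nat_lit 67) (nat_lit 5) (nat_lit 289) (nat_lit 288) (nat_lit 143)) (XT.lf (nat_lit 76) (nat_lit 31154419481) (nat_lit 0) (nat_lit 6395764530) (nat_lit 684) (nat_lit 7633994666) (nat_lit 59) (nat_lit 5) (nat_lit 58) (nat_lit 3) (nat_lit 67) (nat_lit 5) (nat_lit 290) (nat_lit 288) (nat_lit 142)))) (XT.nd (nat_lit 156) (nat_lit 0) (nat_lit 0) (XT.nd (nat_lit 78) (nat_lit 0) (nat_lit 0) (XT.lf (nat_lit 76) (nat_lit 3665512157) (nat_lit 0) (nat_lit 35412052061) (nat_lit 684) (nat_lit 7263975765) (nat_lit 60) (nat_lit 5) (nat_lit 59) (nat_lit 5) (nat_lit 68) (nat_lit 5) (nat_lit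 291) (nat_lit 288) (nat_lit 141)) (XT.lf (nat_lit 76) (nat_lit 22623219655) (nat_lit 0) (nat_lit 18397095462) (nat_lit 684) (nat_lit 6519514860) (nat_lit 60) (nat_lit 5) (nat_lit 59) (nat_lit 5) (nat_lit 68) (nat_lit 5) (nat_lit 292) (nat_lit 288) (nat_lit 140))) (XT.nd (nat_lit 78) (nat_lit 0) (nat_lit 76) (XT.lf (nat_lit 76) (nat_lit 42527770988) (nat_lit 0) (nat_lit 530759646) (nat_lit 684) (nat_lit 5739597679) (nat_lit 60) (nat_lit 5) (nat_lit 59) (nat_lit 5) (nat_lit 68) (nat_lit 5) (nat_lit 293) (nat_lit 288) (nat_lit 139)) (XT.nd (nat_lit 78) (nat_lit 0) (nat_lit 0) (XT.lf (nat_lit 76) (nat_lit 13453096617) (nat_lit 0) (nat_lit 32238621083) (nat_lit 684) (nat_lit 4402980540) (nat_lit 61) (nat_lit 5) (nat_lit 60) (nat_lit 5) (nat_lit 69) (nat_lit 5) (nat_lit 294) (nat_lit 288) (nat_lit 138)) (XT.lf (nat_lit 76) (nat_lit 34370354121) (nat_lit 0) (nat_lit 14199436966) (nat_lit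 684) (nat_lit 2880653475) (nat_lit 61) (nat_lit 5) (nat_lit 60) (nat_lit 5) (nat_lit 69) (nat_lit 5) (nat_lit 295) (nat_lit 288) (nat_lit 137))))))))
noncomputable def xc200 : XT := (XT.nd (nat_lit 1248) (nat_lit 1140) (nat_lit 0) (XT.nd (nat_lit 624) (nat_lit 1064) (nat_lit 0) (XT.nd (nat_lit 312) (nat_lit 380) (nat_lit 0) (XT.nd (nat_lit 156) (nat_lit 0) (nat_lit 0) (XT.nd (nat_lit 78) (nat_lit 684) (nat_lit 0) (XT.lf (nat_lit 76) (nat_lit 3496256856) (nat_lit 0) (nat_lit 48222683124) (nat_lit 684) (nat_lit 1148688436) (nat_lit 62) (nat_lit 5) (nat_lit 61) (nat_lit 5) (nat_lit 70) (nat_lit 5) (nat_lit 296) (nat_lit 288) (nat_lit 136)) (XT.lf (nat_lit 0) (nat_lit 1173788856) (nat_lit 684) (nat_lit 28895930405) (nat_lit 760) (nat_lit 24259169551) (nat_lit 52) (nat_lit 5) (nat_lit 61) (nat_lit 5) (nat_lit 62) (nat_lit 5) (nat_lit 297) (nat_lit 288) (nat_lit 135))) (XT.nd (nat_lit 78)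 (nat_lit 0) (nat_lit 76) (XT.lf (nat_lit 0) (nat_lit 3572429376) (nat_lit 684) (nat_lit 7416640886) (nat_lit 760) (nat_lit 44873275885) (nat_lit 52) (nat_lit 5) (nat_lit 61) (nat_lit 5) (nat_lit 62) (nat_lit 5) (nat_lit 298) (nat_lit 288) (nat_lit 134)) (XT.lf (nat_lit 0) (nat_lit 6479064787) (nat_lit 684) (nat_lit 41969552609) (nat_lit 76) (nat_lit 9004463057) (nat_lit 53) (nat_lit 5) (nat_lit 62) (nat_lit 5) (nat_lit 54) (nat_lit 5) (nat_lit 299) (nat_lit 288) (nat_lit 133)))) (XT.nd (nat_lit 156) (nat_lit 0) (nat_lit 0) (XT.nd (nat_lit 78) (nat_lit 456) (nat_lit 0) (XT.lf (nat_lit 0) (nat_lit 9837600653) (nat_lit 684) (nat_lit 19514181646) (nat_lit 76) (nat_lit 29756247642) (nat_lit 53) (nat_lit 5) (nat_lit 62) (nat_lit 5) (nat_lit 54) (nat_lit 5) (nat_lit 300) (nat_lit 288) (nat_lit 132)) (XT.lf (nat_lit 0) (nat_lit 4197251703) (nat_lit 456) (nat_lit 9231158185) (nat_lit 532)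 (nat_lit 47414106259) (nat_lit 47) (nat_lit 5) (nat_lit 53) (nat_lit 5) (nat_lit 54) (nat_lit 5) (nat_lit 301) (nat_lit 288) (nat_lit 131))) (XT.nd (nat_lit 78) (nat_lit 0) (nat_lit 0) (XT.lf (nat_lit 0) (nat_lit 17719239364) (nat_lit 532) (nat_lit 33067690159) (nat_lit 76) (nat_lit 11850779413) (nat_lit 47) (nat_lit 5) (nat_lit 54) (nat_lit 5) (nat_lit 48) (nat_lit 5) (nat_lit 302) (nat_lit 288) (nat_lit 130)) (XT.lf (nat_lit 0) (nat_lit 22374853044) (nat_lit 532) (nat_lit 8463608434) (nat_lit 76) (nat_lit 33676693710) (nat_lit 47) (nat_lit 5) (nat_lit 54) (nat_lit 5) (nat_lit 48) (nat_lit 5) (nat_lit 303) (nat_lit 288) (nat_lit 129))))) (XT.nd (nat_lit 312) (nat_lit 456) (nat_lit 0) (XT.nd (nat_lit 156) (nat_lit 304) (nat_lit 0) (XT.nd (nat_lit 78) (nat_lit 0) (nat_lit 0) (XT.lf (nat_lit 0) (nat_lit 17944006392) (nat_lit 304) (nat_lit 9598361310) (nat_lit 380) (nat_lit 38930155714)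 (nat_lit 43) (nat_lit 5) (nat_lit 47) (nat_lit 5) (nat_lit 48) (nat_lit 5) (nat_lit 304) (nat_lit 288) (nat_lit 128)) (XT.lf (nat_lit 0) (nat_lit 33311282783) (nat_lit 380) (nat_lit 22756475938) (nat_lit 76) (nat_lit 12442855506) (nat_lit 43) (nat_lit 5) (nat_lit 48) (nat_lit 5) (nat_lit 44) (nat_lit 5) (nat_lit 305) (nat_lit 288) (nat_lit 127))) (XT.nd (nat_lit 78) (nat_lit 0) (nat_lit 0) (XT.lf (nat_lit 0) (nat_lit 4282914969) (nat_lit 304) (nat_lit 35308993411) (nat_lit 380) (nat_lit 31047543112) (nat_lit 39) (nat_lit 5) (nat_lit 43) (nat_lit 5) (nat_lit 44) (nat_lit 5) (nat_lit 306) (nat_lit 288) (nat_lit 126)) (XT.lf (nat_lit 0) (nat_lit 33463362648) (nat_lit 304) (nat_lit 13107671141) (nat_lit 380) (nat_lit 26284478309) (nat_lit 39) (nat_lit 5) (nat_lit 43) (nat_lit 5) (nat_lit 44) (nat_lit 5) (nat_lit 307) (nat_lit 288) (nat_lit 125)))) (XT.nd (nat_lit 156) (nat_lit 228) (nat_lit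 0) (XT.nd (nat_lit 78) (nat_lit 228) (nat_lit 0) (XT.lf (nat_lit 0) (nat_lit 54057544026) (nat_lit 380) (nat_lit 11239819875) (nat_lit 76) (nat_lit 9877095076) (nat_lit 39) (nat_lit 5) (nat_lit 44) (nat_lit 5) (nat_lit 40) (nat_lit 5) (nat_lit 308) (nat_lit 288) (nat_lit 124)) (XT.lf (nat_lit 0) (nat_lit 18702934921) (nat_lit 228) (nat_lit 43721491780) (nat_lit 304) (nat_lit 15159628603) (nat_lit 36) (nat_lit 5) (nat_lit 39) (nat_lit 5) (nat_lit 40) (nat_lit 5) (nat_lit 309) (nat_lit 288) (nat_lit 123))) (XT.nd (nat_lit 78) (nat_lit 228) (nat_lit 0) (XT.lf (nat_lit 0) (nat_lit 50532141374) (nat_lit 228) (nat_lit 20867051514) (nat_lit 304) (nat_lit 8705465825) (nat_lit 36) (nat_lit 5) (nat_lit 39) (nat_lit 5) (nat_lit 40) (nat_lit 5) (nat_lit 310) (nat_lit 288) (nat_lit 122)) (XT.lf (nat_lit 0) (nat_lit 1189822444) (nat_lit 228) (nat_lit 79699546072) (nat_lit 304) (nat_lit 1858594257)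 (nat_lit 33) (nat_lit 5) (nat_lit 36) (nat_lit 5) (nat_lit 37) (nat_lit 5) (nat_lit 311) (nat_lit 288) (nat_lit 121)))))) (XT.nd (nat_lit 624) (nat_lit 608) (nat_lit 0) (XT.nd (nat_lit 312) (nat_lit 228) (nat_lit 0) (XT.nd (nat_lit 156) (nat_lit 228) (nat_lit 0) (XT.nd (nat_lit 78) (nat_lit 0) (nat_lit 0) (XT.lf (nat_lit 0) (nat_lit 6010357497) (nat_lit 304) (nat_lit 51415859349) (nat_lit 76) (nat_lit 28050540064) (nat_lit 32) (nat_lit 5) (nat_lit 36) (nat_lit 5) (nat_lit 33) (nat_lit 5) (nat_lit 312) (nat_lit 288) (nat_lit 120)) (XT.lf (nat_lit 0) (nat_lit 14209564285) (nat_lit 304) (nat_lit 19797809093) (nat_lit 76) (nat_lit 54333134005) (nat_lit 32) (nat_lit 5) (nat_lit 36) (nat_lit 5) (nat_lit 33) (nat_lit 5) (nat_lit 313) (nat_lit 288) (nat_lit 119))) (XT.nd (nat_lit 78) (nat_lit 0) (nat_lit 0) (XT.lf (nat_lit 0) (nat_lit 13843384122) (nat_lit 228) (nat_lit 9190784551) (nat_lit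 304) (nat_lit 68302508162) (nat_lit 29) (nat_lit 5) (nat_lit 32) (nat_lit 5) (nat_lit 33) (nat_lit 5) (nat_lit 314) (nat_lit 288) (nat_lit 118)) (XT.lf (nat_lit 0) (nat_lit 32903442008) (nat_lit 304) (nat_lit 44881605734) (nat_lit 76) (nat_lit 16667438242) (nat_lit 29) (nat_lit 5) (nat_lit 33) (nat_lit 5) (nat_lit 30) (nat_lit 5) (nat_lit 315) (nat_lit 288) (nat_lit 117)))) (XT.nd (nat_lit 156) (nat_lit 0) (nat_lit 0) (XT.nd (nat_lit 78) (nat_lit 228) (nat_lit 0) (XT.lf (nat_lit 0) (nat_lit 43416201273) (nat_lit 304) (nat_lit 10790817833) (nat_lit 76) (nat_lit 43509568384) (nat_lit 29) (nat_lit 5) (nat_lit 33) (nat_lit 5) (nat_lit 30) (nat_lit 5) (nat_lit 316) (nat_lit 288) (nat_lit 116)) (XT.lf (nat_lit 0) (nat_lit 25830469783) (nat_lit 228) (nat_lit 29026799182) (nat_lit 304) (nat_lit 46266494450) (nat_lit 26) (nat_lit 5) (nat_lit 29) (nat_lit 5) (nat_lit 30) (nat_lit 5) (nat_lit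 317) (nat_lit 288) (nat_lit 115))) (XT.nd (nat_lit 78) (nat_lit 0) (nat_lit 0) (XT.lf (nat_lit 0) (nat_lit 64656691100) (nat_lit 228) (nat_lit 2395848497) (nat_lit 304) (nat_lit 37639653792) (nat_lit 26) (nat_lit 5) (nat_lit 29) (nat_lit 5) (nat_lit 30) (nat_lit 5) (nat_lit 318) (nat_lit 288) (nat_lit 114)) (XT.lf (nat_lit 0) (nat_lit 80256168673) (nat_lit 304) (nat_lit 3414744212) (nat_lit 76) (nat_lit 24748204834) (nat_lit 26) (nat_lit 5) (nat_lit 30) (nat_lit 5) (nat_lit 27) (nat_lit 5) (nat_lit 319) (nat_lit 288) (nat_lit 113))))) (XT.nd (nat_lit 312) (nat_lit 152) (nat_lit 0) (XT.nd (nat_lit 156) (nat_lit 304) (nat_lit 0) (XT.nd (nat_lit 78) (nat_lit 0) (nat_lit 0) (XT.lf (nat_lit 0) (nat_lit 36154216490) (nat_lit 152) (nat_lit 58568962662) (nat_lit 228) (nat_lit 17579051592) (nat_lit 24) (nat_lit 5) (nat_lit 26) (nat_lit 5) (nat_lit 27) (nat_lit 5) (nat_lit 320) (nat_lit 288)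 (nat_lit 112)) (XT.lf (nat_lit 0) (nat_lit 77819469256) (nat_lit 152) (nat_lit 32151371239) (nat_lit 228) (nat_lit 6405796268) (nat_lit 24) (nat_lit 5) (nat_lit 26) (nat_lit 5) (nat_lit 27) (nat_lit 5) (nat_lit 321) (nat_lit 288) (nat_lit 111))) (XT.nd (nat_lit 78) (nat_lit 0) (nat_lit 0) (XT.lf (nat_lit 0) (nat_lit 856795048) (nat_lit 228) (nat_lit 4311719367) (nat_lit 304) (nat_lit 115481449934) (nat_lit 20) (nat_lit 5) (nat_lit 23) (nat_lit 5) (nat_lit 24) (nat_lit 5) (nat_lit 322) (nat_lit 288) (nat_lit 110)) (XT.lf (nat_lit 0) (nat_lit 18158518371) (nat_lit 304) (nat_lit 82029729727) (nat_lit 76) (nat_lit 24890848879) (nat_lit 20) (nat_lit 5) (nat_lit 24) (nat_lit 5) (nat_lit 21) (nat_lit 5) (nat_lit 323) (nat_lit 288) (nat_lit 109)))) (XT.nd (nat_lit 156) (nat_lit 152) (nat_lit 0) (XT.nd (nat_lit 78) (nat_lit 0) (nat_lit 0) (XT.lf (nat_lit 0) (nat_lit 31868226291) (nat_lit 304)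 (nat_lit 42449475166) (nat_lit 76) (nat_lit 55408476531) (nat_lit 20) (nat_lit 5) (nat_lit 24) (nat_lit 5) (nat_lit 21) (nat_lit 5) (nat_lit 324) (nat_lit 288) (nat_lit 108)) (XT.lf (nat_lit 0) (nat_lit 46262962314) (nat_lit 304) (nat_lit 890848895) (nat_lit 76) (nat_lit 87451826554) (nat_lit 20) (nat_lit 5) (nat_lit 24) (nat_lit 5) (nat_lit 21) (nat_lit 5) (nat_lit 325) (nat_lit 288) (nat_lit 107))) (XT.nd (nat_lit 78) (nat_lit 0) (nat_lit 0) (XT.lf (nat_lit 0) (nat_lit 44158444184) (nat_lit 152) (nat_lit 17907992504) (nat_lit 228) (nat_lit 77628185522) (nat_lit 18) (nat_lit 5) (nat_lit 20) (nat_lit 5) (nat_lit 21) (nat_lit 5) (nat_lit 326) (nat_lit 288) (nat_lit 106)) (XT.lf (nat_lit 0) (nat_lit 78874837855) (nat_lit 228) (nat_lit 53746885154) (nat_lit 76) (nat_lit 12405596891) (nat_lit 18) (nat_lit 5) (nat_lit 21) (nat_lit 5) (nat_lit 19) (nat_lit 5) (nat_lit 327) (nat_lit 288)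 (nat_lit 105)))))))
noncomputable def xc201 : XT := (XT.nd (nat_lit 35022) (nat_lit 0) (nat_lit 1596) (XT.nd (nat_lit 624) (nat_lit 152) (nat_lit 0) (XT.nd (nat_lit 312) (nat_lit 152) (nat_lit 0) (XT.nd (nat_lit 156) (nat_lit 0) (nat_lit 0) (XT.nd (nat_lit 78) (nat_lit 152) (nat_lit 0) (XT.lf (nat_lit 0) (nat_lit 96816826146) (nat_lit 228) (nat_lit 10162292501) (nat_lit 76) (nat_lit 43632877074) (nat_lit 18) (nat_lit 5) (nat_lit 21) (nat_lit 5) (nat_lit 19) (nat_lit 5) (nat_lit 328) (nat_lit 288) (nat_lit 104)) (XT.lf (nat_lit 0) (nat_lit 36778095460) (nat_lit 152) (nat_lit 79451640310) (nat_lit 228) (nat_lit 40217479987) (nat_lit 16) (nat_lit 5) (nat_lit 18) (nat_lit 5) (nat_lit 19) (nat_lit 5) (nat_lit 329) (nat_lit 288) (nat_lit 103))) (XT.nd (nat_lit 78) (nat_lit 0) (nat_lit 0) (XT.lf (nat_lit 0) (nat_lit 86417760689) (nat_lit 152) (nat_lit 50367256097) (nat_lit 228) (nat_lit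 25780595162) (nat_lit 16) (nat_lit 5) (nat_lit 18) (nat_lit 5) (nat_lit 19) (nat_lit 5) (nat_lit 330) (nat_lit 288) (nat_lit 102)) (XT.lf (nat_lit 0) (nat_lit 138538881580) (nat_lit 152) (nat_lit 19828820814) (nat_lit 228) (nat_lit 10622244906) (nat_lit 16) (nat_lit 5) (nat_lit 18) (nat_lit 5) (nat_lit 19) (nat_lit 5) (nat_lit 331) (nat_lit 288) (nat_lit 101)))) (XT.nd (nat_lit 156) (nat_lit 0) (nat_lit 0) (XT.nd (nat_lit 78) (nat_lit 0) (nat_lit 0) (XT.lf (nat_lit 0) (nat_lit 5602653641) (nat_lit 152) (nat_lit 157890048455) (nat_lit 76) (nat_lit 12214762220) (nat_lit 14) (nat_lit 5) (nat_lit 16) (nat_lit 5) (nat_lit 15) (nat_lit 5) (nat_lit 332) (nat_lit 288) (nat_lit 100)) (XT.lf (nat_lit 0) (nat_lit 23130697249) (nat_lit 152) (nat_lit 113686732778) (nat_lit 76) (nat_lit 45892277728) (nat_lit 14) (nat_lit 5) (nat_lit 16) (nat_lit 5) (nat_lit 15) (nat_lit 5) (nat_lit 333) (nat_lit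 288) (nat_lit 99))) (XT.nd (nat_lit 78) (nat_lit 0) (nat_lit 0) (XT.lf (nat_lit 0) (nat_lit 41534816267) (nat_lit 152) (nat_lit 67273749014) (nat_lit 76) (nat_lit 81253515559) (nat_lit 14) (nat_lit 5) (nat_lit 16) (nat_lit 5) (nat_lit 15) (nat_lit 5) (nat_lit 334) (nat_lit 288) (nat_lit 98)) (XT.lf (nat_lit 0) (nat_lit 60858830026) (nat_lit 152) (nat_lit 18540590059) (nat_lit 76) (nat_lit 118382669135) (nat_lit 14) (nat_lit 5) (nat_lit 16) (nat_lit 5) (nat_lit 15) (nat_lit 5) (nat_lit 335) (nat_lit 288) (nat_lit 97))))) (XT.nd (nat_lit 34086) (nat_lit 0) (nat_lit 3572) (XT.nd (nat_lit 33930) (nat_lit 0) (nat_lit 3496) (XT.nd (nat_lit 33852) (nat_lit 0) (nat_lit 3496) (XT.lf (nat_lit 0) (nat_lit 33707630089) (nat_lit 152) (nat_lit 47967388564) (nat_lit 228) (nat_lit 124186781687) (nat_lit 12) (nat_lit 5) (nat_lit 14) (nat_lit 5) (nat_lit 15) (nat_lit 5) (nat_lit 336) (nat_lit 288)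 (nat_lit 96)) (XT.lf (nat_lit 0) (nat_lit 18509630378) (nat_lit 684) (nat_lit 2033876905) (nat_lit 684) (nat_lit 2033876905) (nat_lit 58) (nat_lit 3) (nat_lit 67) (nat_lit 3) (nat_lit 67) (nat_lit 5) (nat_lit 289) (nat_lit 289) (nat_lit 142))) (XT.nd (nat_lit 78) (nat_lit 0) (nat_lit 0) (XT.lf (nat_lit 76) (nat_lit 13819449996) (nat_lit 0) (nat_lit 24368191987) (nat_lit 684) (nat_lit 8083683363) (nat_lit 59) (nat_lit 5) (nat_lit 58) (nat_lit 3) (nat_lit 67) (nat_lit 5) (nat_lit 290) (nat_lit 289) (nat_lit 141)) (XT.lf (nat_lit 76) (nat_lit 32741289474) (nat_lit 0) (nat_lit 6740290123) (nat_lit 684) (nat_lit 7958784409) (nat_lit 59) (nat_lit 5) (nat_lit 58) (nat_lit 3) (nat_lit 67) (nat_lit 5) (nat_lit 291) (nat_lit 289) (nat_lit 140)))) (XT.nd (nat_lit 156) (nat_lit 0) (nat_lit 0) (XT.nd (nat_lit 78) (nat_lit 0) (nat_lit 0) (XT.lf (nat_lit 76) (nat_lit 3880821466) (nat_lit 0) (nat_lit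 37202073638) (nat_lit 684) (nat_lit 7572835639) (nat_lit 60) (nat_lit 5) (nat_lit 59) (nat_lit 5) (nat_lit 68) (nat_lit 5) (nat_lit 292) (nat_lit 289) (nat_lit 139)) (XT.lf (nat_lit 76) (nat_lit 23784888925) (nat_lit 0) (nat_lit 19335444496) (nat_lit 684) (nat_lit 6793739257) (nat_lit 60) (nat_lit 5) (nat_lit 59) (nat_lit 5) (nat_lit 68) (nat_lit 5) (nat_lit 293) (nat_lit 289) (nat_lit 138))) (XT.nd (nat_lit 78) (nat_lit 0) (nat_lit 76) (XT.lf (nat_lit 76) (nat_lit 44683215049) (nat_lit 0) (nat_lit 574911211) (nat_lit 684) (nat_lit 5977290566) (nat_lit 60) (nat_lit 5) (nat_lit 59) (nat_lit 5) (nat_lit 68) (nat_lit 5) (nat_lit 294) (nat_lit 289) (nat_lit 137)) (XT.lf (nat_lit 76) (nat_lit 14157184563) (nat_lit 0) (nat_lit 33863794633) (nat_lit 684) (nat_lit 4575949270) (nat_lit 61) (nat_lit 5) (nat_lit 60) (nat_lit 5) (nat_lit 69) (nat_lit 5) (nat_lit 295) (nat_lit 289) (nat_lit 136))))))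 (XT.nd (nat_lit 624) (nat_lit 1064) (nat_lit 0) (XT.nd (nat_lit 312) (nat_lit 380) (nat_lit 0) (XT.nd (nat_lit 156) (nat_lit 608) (nat_lit 0) (XT.nd (nat_lit 78) (nat_lit 0) (nat_lit 76) (XT.lf (nat_lit 76) (nat_lit 36118808127) (nat_lit 0) (nat_lit 14922020716) (nat_lit 684) (nat_lit 2979752533) (nat_lit 61) (nat_lit 5) (nat_lit 60) (nat_lit 5) (nat_lit 69) (nat_lit 5) (nat_lit 296) (nat_lit 289) (nat_lit 135)) (XT.lf (nat_lit 76) (nat_lit 3703063826) (nat_lit 0) (nat_lit 50642657237) (nat_lit 684) (nat_lit 1163001351) (nat_lit 62) (nat_lit 5) (nat_lit 61) (nat_lit 5) (nat_lit 70) (nat_lit 5) (nat_lit 297) (nat_lit 289) (nat_lit 134))) (XT.nd (nat_lit 78) (nat_lit 0) (nat_lit 0) (XT.lf (nat_lit 0) (nat_lit 1272231964) (nat_lit 684) (nat_lit 30308719019) (nat_lit 760) (nat_lit 25462171713) (nat_lit 52) (nat_lit 5) (nat_lit 61) (nat_lit 5) (nat_lit 62) (nat_lit 5) (nat_lit 298) (nat_lit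 289) (nat_lit 133)) (XT.lf (nat_lit 0) (nat_lit 3788911479) (nat_lit 684) (nat_lit 7756989210) (nat_lit 760) (nat_lit 47107457474) (nat_lit 52) (nat_lit 5) (nat_lit 61) (nat_lit 5) (nat_lit 62) (nat_lit 5) (nat_lit 299) (nat_lit 289) (nat_lit 132)))) (XT.nd (nat_lit 156) (nat_lit 456) (nat_lit 0) (XT.nd (nat_lit 78) (nat_lit 0) (nat_lit 0) (XT.lf (nat_lit 0) (nat_lit 6839442020) (nat_lit 684) (nat_lit 44035907725) (nat_lit 76) (nat_lit 9448361379) (nat_lit 53) (nat_lit 5) (nat_lit 62) (nat_lit 5) (nat_lit 54) (nat_lit 5) (nat_lit 300) (nat_lit 289) (nat_lit 131)) (XT.lf (nat_lit 0) (nat_lit 10364170203) (nat_lit 684) (nat_lit 20459297858) (nat_lit 76) (nat_lit 31238036375) (nat_lit 53) (nat_lit 5) (nat_lit 62) (nat_lit 5) (nat_lit 54) (nat_lit 5) (nat_lit 301) (nat_lit 289) (nat_lit 130))) (XT.nd (nat_lit 78) (nat_lit 0) (nat_lit 0) (XT.lf (nat_lit 0) (nat_lit 4437213725) (nat_lit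 456) (nat_lit 9696124230) (nat_lit 532) (nat_lit 49749445263) (nat_lit 47) (nat_lit 5) (nat_lit 53) (nat_lit 5) (nat_lit 54) (nat_lit 5) (nat_lit 302) (nat_lit 289) (nat_lit 129)) (XT.lf (nat_lit 0) (nat_lit 18637062629) (nat_lit 532) (nat_lit 34690587634) (nat_lit 76) (nat_lit 12440176428) (nat_lit 47) (nat_lit 5) (nat_lit 54) (nat_lit 5) (nat_lit 48) (nat_lit 5) (nat_lit 303) (nat_lit 289) (nat_lit 128))))) (XT.nd (nat_lit 312) (nat_lit 456) (nat_lit 0) (XT.nd (nat_lit 156) (nat_lit 304) (nat_lit 0) (XT.nd (nat_lit 78) (nat_lit 304) (nat_lit 0) (XT.lf (nat_lit 0) (nat_lit 23523939788) (nat_lit 532) (nat_lit 8857753586) (nat_lit 76) (nat_lit 35357536056) (nat_lit 47) (nat_lit 5) (nat_lit 54) (nat_lit 5) (nat_lit 48) (nat_lit 5) (nat_lit 304) (nat_lit 289) (nat_lit 127)) (XT.lf (nat_lit 0) (nat_lit 18869773670) (nat_lit 304) (nat_lit 10079057562) (nat_lit 380) (nat_lit 40845692705)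 (nat_lit 43) (nat_lit 5) (nat_lit 47) (nat_lit 5) (nat_lit 48) (nat_lit 5) (nat_lit 305) (nat_lit 289) (nat_lit 126))) (XT.nd (nat_lit 78) (nat_lit 304) (nat_lit 0) (XT.lf (nat_lit 0) (nat_lit 35004783109) (nat_lit 380) (nat_lit 23865533299) (nat_lit 76) (nat_lit 13064280872) (nat_lit 43) (nat_lit 5) (nat_lit 48) (nat_lit 5) (nat_lit 44) (nat_lit 5) (nat_lit 306) (nat_lit 289) (nat_lit 125)) (XT.lf (nat_lit 0) (nat_lit 4525363179) (nat_lit 304) (nat_lit 37073188393) (nat_lit 380) (nat_lit 32571376440) (nat_lit 39) (nat_lit 5) (nat_lit 43) (nat_lit 5) (nat_lit 44) (nat_lit 5) (nat_lit 307) (nat_lit 289) (nat_lit 124)))) (XT.nd (nat_lit 156) (nat_lit 456) (nat_lit 0) (XT.nd (nat_lit 78) (nat_lit 0) (nat_lit 0) (XT.lf (nat_lit 0) (nat_lit 35163485505) (nat_lit 304) (nat_lit 13761859757) (nat_lit 380) (nat_lit 27571517627) (nat_lit 39) (nat_lit 5) (nat_lit 43) (nat_lit 5) (nat_lit 44)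 (nat_lit 5) (nat_lit 308) (nat_lit 289) (nat_lit 123)) (XT.lf (nat_lit 0) (nat_lit 56784972123) (nat_lit 380) (nat_lit 11774800505) (nat_lit 76) (nat_lit 10372051445) (nat_lit 39) (nat_lit 5) (nat_lit 44) (nat_lit 5) (nat_lit 40) (nat_lit 5) (nat_lit 309) (nat_lit 289) (nat_lit 122))) (XT.nd (nat_lit 78) (nat_lit 228) (nat_lit 0) (XT.lf (nat_lit 0) (nat_lit 19664656380) (nat_lit 228) (nat_lit 45904788367) (nat_lit 304) (nat_lit 15892499383) (nat_lit 36) (nat_lit 5) (nat_lit 39) (nat_lit 5) (nat_lit 40) (nat_lit 5) (nat_lit 310) (nat_lit 289) (nat_lit 121)) (XT.nd (nat_lit 78) (nat_lit 228) (nat_lit 0) (XT.lf (nat_lit 0) (nat_lit 53084057694) (nat_lit 228) (nat_lit 21907758373) (nat_lit 304) (nat_lit 9116824211) (nat_lit 36) (nat_lit 5) (nat_lit 39) (nat_lit 5) (nat_lit 40) (nat_lit 5) (nat_lit 311) (nat_lit 289) (nat_lit 120)) (XT.lf (nat_lit 0) (nat_lit 1275405150) (nat_lit 228)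 (nat_lit 83680462813) (nat_lit 304) (nat_lit 1928278832) (nat_lit 33) (nat_lit 5) (nat_lit 36) (nat_lit 5) (nat_lit 37) (nat_lit 5) (nat_lit 312) (nat_lit 289) (nat_lit 119))))))))
noncomputable def xc202 : XT := (XT.nd (nat_lit 1248) (nat_lit 304) (nat_lit 0) (XT.nd (nat_lit 624) (nat_lit 608) (nat_lit 0) (XT.nd (nat_lit 312) (nat_lit 228) (nat_lit 0) (XT.nd (nat_lit 156) (nat_lit 228) (nat_lit 0) (XT.nd (nat_lit 78) (nat_lit 0) (nat_lit 0) (XT.lf (nat_lit 0) (nat_lit 6332305037) (nat_lit 304) (nat_lit 53960992527) (nat_lit 76) (nat_lit 29456123608) (nat_lit 32) (nat_lit 5) (nat_lit 36) (nat_lit 5) (nat_lit 33) (nat_lit 5) (nat_lit 313) (nat_lit 289) (nat_lit 118)) (XT.lf (nat_lit 0) (nat_lit 14940451704) (nat_lit 304) (nat_lit 20763261652) (nat_lit 76) (nat_lit 57052701696) (nat_lit 32) (nat_lit 5) (nat_lit 36) (nat_lit 5) (nat_lit 33) (nat_lit 5) (nat_lit 314) (nat_lit 289) (nat_lit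 117))) (XT.nd (nat_lit 78) (nat_lit 0) (nat_lit 0) (XT.lf (nat_lit 0) (nat_lit 14559597063) (nat_lit 228) (nat_lit 9646092771) (nat_lit 304) (nat_lit 71696737597) (nat_lit 29) (nat_lit 5) (nat_lit 32) (nat_lit 5) (nat_lit 33) (nat_lit 5) (nat_lit 315) (nat_lit 289) (nat_lit 116)) (XT.lf (nat_lit 0) (nat_lit 34567546286) (nat_lit 304) (nat_lit 47101818475) (nat_lit 76) (nat_lit 17504710715) (nat_lit 29) (nat_lit 5) (nat_lit 33) (nat_lit 5) (nat_lit 30) (nat_lit 5) (nat_lit 316) (nat_lit 289) (nat_lit 115)))) (XT.nd (nat_lit 156) (nat_lit 0) (nat_lit 0) (XT.nd (nat_lit 78) (nat_lit 228) (nat_lit 0) (XT.lf (nat_lit 0) (nat_lit 45605041982) (nat_lit 304) (nat_lit 11307627729) (nat_lit 76) (nat_lit 45688761623) (nat_lit 29) (nat_lit 5) (nat_lit 33) (nat_lit 5) (nat_lit 30) (nat_lit 5) (nat_lit 317) (nat_lit 289) (nat_lit 114)) (XT.lf (nat_lit 0) (nat_lit 27144357639) (nat_lit 228) (nat_lit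 30473295988) (nat_lit 304) (nat_lit 48561341899) (nat_lit 26) (nat_lit 5) (nat_lit 29) (nat_lit 5) (nat_lit 30) (nat_lit 5) (nat_lit 318) (nat_lit 289) (nat_lit 113))) (XT.nd (nat_lit 78) (nat_lit 0) (nat_lit 0) (XT.lf (nat_lit 0) (nat_lit 67910825052) (nat_lit 228) (nat_lit 2511028395) (nat_lit 304) (nat_lit 39504039079) (nat_lit 26) (nat_lit 5) (nat_lit 29) (nat_lit 5) (nat_lit 30) (nat_lit 5) (nat_lit 319) (nat_lit 289) (nat_lit 112)) (XT.lf (nat_lit 0) (nat_lit 84284937949) (nat_lit 304) (nat_lit 3564397694) (nat_lit 76) (nat_lit 25989867359) (nat_lit 26) (nat_lit 5) (nat_lit 30) (nat_lit 5) (nat_lit 27) (nat_lit 5) (nat_lit 320) (nat_lit 289) (nat_lit 111))))) (XT.nd (nat_lit 312) (nat_lit 152) (nat_lit 0) (XT.nd (nat_lit 156) (nat_lit 304) (nat_lit 0) (XT.nd (nat_lit 78) (nat_lit 0) (nat_lit 0) (XT.lf (nat_lit 0) (nat_lit 37982670982) (nat_lit 152) (nat_lit 61492191795) (nat_lit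 228) (nat_lit 18441634164) (nat_lit 24) (nat_lit 5) (nat_lit 26) (nat_lit 5) (nat_lit 27) (nat_lit 5) (nat_lit 321) (nat_lit 289) (nat_lit 110)) (XT.lf (nat_lit 0) (nat_lit 81730198593) (nat_lit 152) (nat_lit 33753969325) (nat_lit 228) (nat_lit 6710495598) (nat_lit 24) (nat_lit 5) (nat_lit 26) (nat_lit 5) (nat_lit 27) (nat_lit 5) (nat_lit 322) (nat_lit 289) (nat_lit 109))) (XT.nd (nat_lit 78) (nat_lit 0) (nat_lit 0) (XT.lf (nat_lit 0) (nat_lit 919624647) (nat_lit 228) (nat_lit 4522000435) (nat_lit 304) (nat_lit 121240043541) (nat_lit 20) (nat_lit 5) (nat_lit 23) (nat_lit 5) (nat_lit 24) (nat_lit 5) (nat_lit 323) (nat_lit 289) (nat_lit 108)) (XT.lf (nat_lit 0) (nat_lit 19080508833) (nat_lit 304) (nat_lit 86111501008) (nat_lit 76) (nat_lit 26140281904) (nat_lit 20) (nat_lit 5) (nat_lit 24) (nat_lit 5) (nat_lit 21) (nat_lit 5) (nat_lit 324) (nat_lit 289) (nat_lit 107)))) (XT.nd (nat_lit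 156) (nat_lit 152) (nat_lit 0) (XT.nd (nat_lit 78) (nat_lit 0) (nat_lit 0) (XT.lf (nat_lit 0) (nat_lit 33475032408) (nat_lit 304) (nat_lit 44553172539) (nat_lit 76) (nat_lit 58183558054) (nat_lit 20) (nat_lit 5) (nat_lit 24) (nat_lit 5) (nat_lit 21) (nat_lit 5) (nat_lit 325) (nat_lit 289) (nat_lit 106)) (XT.lf (nat_lit 0) (nat_lit 48588867385) (nat_lit 304) (nat_lit 917509068) (nat_lit 76) (nat_lit 91828853783) (nat_lit 20) (nat_lit 5) (nat_lit 24) (nat_lit 5) (nat_lit 21) (nat_lit 5) (nat_lit 326) (nat_lit 289) (nat_lit 105))) (XT.nd (nat_lit 78) (nat_lit 0) (nat_lit 0) (XT.lf (nat_lit 0) (nat_lit 46383960241) (nat_lit 152) (nat_lit 18798222451) (nat_lit 228) (nat_lit 81496500306) (nat_lit 18) (nat_lit 5) (nat_lit 20) (nat_lit 5) (nat_lit 21) (nat_lit 5) (nat_lit 327) (nat_lit 289) (nat_lit 104)) (XT.lf (nat_lit 0) (nat_lit 82830489161) (nat_lit 228) (nat_lit 56416911835) (nat_lit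 76) (nat_lit 13030642656) (nat_lit 18) (nat_lit 5) (nat_lit 21) (nat_lit 5) (nat_lit 19) (nat_lit 5) (nat_lit 328) (nat_lit 289) (nat_lit 103)))))) (XT.nd (nat_lit 34554) (nat_lit 0) (nat_lit 3344) (XT.nd (nat_lit 312) (nat_lit 152) (nat_lit 0) (XT.nd (nat_lit 156) (nat_lit 0) (nat_lit 0) (XT.nd (nat_lit 78) (nat_lit 152) (nat_lit 0) (XT.lf (nat_lit 0) (nat_lit 101669009752) (nat_lit 228) (nat_lit 10653914196) (nat_lit 76) (nat_lit 45819059899) (nat_lit 18) (nat_lit 5) (nat_lit 21) (nat_lit 5) (nat_lit 19) (nat_lit 5) (nat_lit 329) (nat_lit 289) (nat_lit 102)) (XT.lf (nat_lit 0) (nat_lit 38633227149) (nat_lit 152) (nat_lit 83419050947) (nat_lit 228) (nat_lit 42216703248) (nat_lit 16) (nat_lit 5) (nat_lit 18) (nat_lit 5) (nat_lit 19) (nat_lit 5) (nat_lit 330) (nat_lit 289) (nat_lit 101))) (XT.nd (nat_lit 78) (nat_lit 0) (nat_lit 0) (XT.lf (nat_lit 0) (nat_lit 90754102929) (nat_lit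 152) (nat_lit 52880693779) (nat_lit 228) (nat_lit 27058528979) (nat_lit 16) (nat_lit 5) (nat_lit 18) (nat_lit 5) (nat_lit 19) (nat_lit 5) (nat_lit 331) (nat_lit 289) (nat_lit 100)) (XT.lf (nat_lit 0) (nat_lit 145480543949) (nat_lit 152) (nat_lit 20815571262) (nat_lit 228) (nat_lit 11142789589) (nat_lit 16) (nat_lit 5) (nat_lit 18) (nat_lit 5) (nat_lit 19) (nat_lit 5) (nat_lit 332) (nat_lit 289) (nat_lit 99)))) (XT.nd (nat_lit 156) (nat_lit 0) (nat_lit 0) (XT.nd (nat_lit 78) (nat_lit 0) (nat_lit 0) (XT.lf (nat_lit 0) (nat_lit 5892836515) (nat_lit 152) (nat_lit 165769243665) (nat_lit 76) (nat_lit 12830219939) (nat_lit 14) (nat_lit 5) (nat_lit 16) (nat_lit 5) (nat_lit 15) (nat_lit 5) (nat_lit 333) (nat_lit 289) (nat_lit 98)) (XT.lf (nat_lit 0) (nat_lit 24296803724) (nat_lit 152) (nat_lit 119356491119) (nat_lit 76) (nat_lit 48191386479) (nat_lit 14) (nat_lit 5) (nat_lit 16) (nat_lit 5)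 (nat_lit 15) (nat_lit 5) (nat_lit 334) (nat_lit 289) (nat_lit 97))) (XT.nd (nat_lit 34008) (nat_lit 0) (nat_lit 3344) (XT.lf (nat_lit 0) (nat_lit 43620672902) (nat_lit 152) (nat_lit 70623552371) (nat_lit 76) (nat_lit 85320472160) (nat_lit 14) (nat_lit 5) (nat_lit 16) (nat_lit 5) (nat_lit 15) (nat_lit 5) (nat_lit 335) (nat_lit 289) (nat_lit 96)) (XT.lf (nat_lit 0) (nat_lit 19461827541) (nat_lit 684) (nat_lit 2121462716) (nat_lit 684) (nat_lit 2121462716) (nat_lit 58) (nat_lit 3) (nat_lit 67) (nat_lit 3) (nat_lit 67) (nat_lit 5) (nat_lit 290) (nat_lit 290) (nat_lit 140))))) (XT.nd (nat_lit 312) (nat_lit 0) (nat_lit 76) (XT.nd (nat_lit 156) (nat_lit 0) (nat_lit 76) (XT.nd (nat_lit 78) (nat_lit 0) (nat_lit 0) (XT.lf (nat_lit 76) (nat_lit 14538183467) (nat_lit 0) (nat_lit 25610160983) (nat_lit 684) (nat_lit 8433667541) (nat_lit 59) (nat_lit 5) (nat_lit 58) (nat_lit 3) (nat_lit 67) (nat_lit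 5) (nat_lit 291) (nat_lit 290) (nat_lit 139)) (XT.lf (nat_lit 76) (nat_lit 34404792968) (nat_lit 0) (nat_lit 7099742149) (nat_lit 684) (nat_lit 8305104591) (nat_lit 59) (nat_lit 5) (nat_lit 58) (nat_lit 3) (nat_lit 67) (nat_lit 5) (nat_lit 292) (nat_lit 290) (nat_lit 138))) (XT.nd (nat_lit 78) (nat_lit 0) (nat_lit 0) (XT.lf (nat_lit 76) (nat_lit 4103918051) (nat_lit 0) (nat_lit 39079790901) (nat_lit 684) (nat_lit 7902190425) (nat_lit 60) (nat_lit 5) (nat_lit 59) (nat_lit 5) (nat_lit 68) (nat_lit 5) (nat_lit 293) (nat_lit 290) (nat_lit 137)) (XT.lf (nat_lit 76) (nat_lit 25001805286) (nat_lit 0) (nat_lit 20318991560) (nat_lit 684) (nat_lit 7086486223) (nat_lit 60) (nat_lit 5) (nat_lit 59) (nat_lit 5) (nat_lit 68) (nat_lit 5) (nat_lit 294) (nat_lit 290) (nat_lit 136)))) (XT.nd (nat_lit 156) (nat_lit 0) (nat_lit 76) (XT.nd (nat_lit 78) (nat_lit 0) (nat_lit 76) (XT.lf (nat_lit 76) (nat_lit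 46943730006) (nat_lit 0) (nat_lit 619632809) (nat_lit 684) (nat_lit 6231450336) (nat_lit 60) (nat_lit 5) (nat_lit 59) (nat_lit 5) (nat_lit 68) (nat_lit 5) (nat_lit 295) (nat_lit 290) (nat_lit 135)) (XT.lf (nat_lit 76) (nat_lit 14893554553) (nat_lit 0) (nat_lit 35568995700) (nat_lit 684) (nat_lit 4761952814) (nat_lit 61) (nat_lit 5) (nat_lit 60) (nat_lit 5) (nat_lit 69) (nat_lit 5) (nat_lit 296) (nat_lit 290) (nat_lit 134))) (XT.nd (nat_lit 78) (nat_lit 0) (nat_lit 76) (XT.lf (nat_lit 76) (nat_lit 37951901640) (nat_lit 0) (nat_lit 15679561118) (nat_lit 684) (nat_lit 3087984046) (nat_lit 61) (nat_lit 5) (nat_lit 60) (nat_lit 5) (nat_lit 69) (nat_lit 5) (nat_lit 297) (nat_lit 290) (nat_lit 133)) (XT.lf (nat_lit 76) (nat_lit 3917236634) (nat_lit 0) (nat_lit 53182808201) (nat_lit 684) (nat_lit 1182038941) (nat_lit 62) (nat_lit 5) (nat_lit 61) (nat_lit 5) (nat_lit 70) (nat_lit 5) (nat_lit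 298) (nat_lit 290) (nat_lit 132)))))))
noncomputable def xc203 : XT := (XT.nd (nat_lit 1248) (nat_lit 1216) (nat_lit 0) (XT.nd (nat_lit 624) (nat_lit 836) (nat_lit 0) (XT.nd (nat_lit 312) (nat_lit 684) (nat_lit 0) (XT.nd (nat_lit 156) (nat_lit 0) (nat_lit 76) (XT.nd (nat_lit 78) (nat_lit 0) (nat_lit 0) (XT.lf (nat_lit 0) (nat_lit 1371901309) (nat_lit 684) (nat_lit 31795122855) (nat_lit 760) (nat_lit 26726249626) (nat_lit 52) (nat_lit 5) (nat_lit 61) (nat_lit 5) (nat_lit 62) (nat_lit 5) (nat_lit 299) (nat_lit 290) (nat_lit 131)) (XT.lf (nat_lit 0) (nat_lit 4012697764) (nat_lit 684) (nat_lit 8117189038) (nat_lit 760) (nat_lit 49454229707) (nat_lit 52) (nat_lit 5) (nat_lit 61) (nat_lit 5) (nat_lit 62) (nat_lit 5) (nat_lit 300) (nat_lit 290) (nat_lit 130))) (XT.nd (nat_lit 78) (nat_lit 0) (nat_lit 0) (XT.lf (nat_lit 0) (nat_lit 7214451756) (nat_lit 684) (nat_lit 46208567044) (nat_lit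 76) (nat_lit 9915042639) (nat_lit 53) (nat_lit 5) (nat_lit 62) (nat_lit 5) (nat_lit 54) (nat_lit 5) (nat_lit 301) (nat_lit 290) (nat_lit 129)) (XT.lf (nat_lit 0) (nat_lit 10913843128) (nat_lit 684) (nat_lit 21454514116) (nat_lit 76) (nat_lit 32794474567) (nat_lit 53) (nat_lit 5) (nat_lit 62) (nat_lit 5) (nat_lit 54) (nat_lit 5) (nat_lit 302) (nat_lit 290) (nat_lit 128)))) (XT.nd (nat_lit 156) (nat_lit 304) (nat_lit 0) (XT.nd (nat_lit 78) (nat_lit 0) (nat_lit 0) (XT.lf (nat_lit 0) (nat_lit 4686375488) (nat_lit 456) (nat_lit 10184021720) (nat_lit 532) (nat_lit 52204839242) (nat_lit 47) (nat_lit 5) (nat_lit 53) (nat_lit 5) (nat_lit 54) (nat_lit 5) (nat_lit 303) (nat_lit 290) (nat_lit 127)) (XT.lf (nat_lit 0) (nat_lit 19597814896) (nat_lit 532) (nat_lit 36397464378) (nat_lit 76) (nat_lit 13059335403) (nat_lit 47) (nat_lit 5) (nat_lit 54) (nat_lit 5) (nat_lit 48) (nat_lit 5) (nat_lit 304)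 (nat_lit 290) (nat_lit 126))) (XT.nd (nat_lit 78) (nat_lit 304) (nat_lit 0) (XT.lf (nat_lit 0) (nat_lit 24727659764) (nat_lit 532) (nat_lit 9274305420) (nat_lit 76) (nat_lit 37122698720) (nat_lit 47) (nat_lit 5) (nat_lit 54) (nat_lit 5) (nat_lit 48) (nat_lit 5) (nat_lit 305) (nat_lit 290) (nat_lit 125)) (XT.lf (nat_lit 0) (nat_lit 19839173427) (nat_lit 304) (nat_lit 10583716278) (nat_lit 380) (nat_lit 42859885917) (nat_lit 43) (nat_lit 5) (nat_lit 47) (nat_lit 5) (nat_lit 48) (nat_lit 5) (nat_lit 306) (nat_lit 290) (nat_lit 124))))) (XT.nd (nat_lit 312) (nat_lit 532) (nat_lit 0) (XT.nd (nat_lit 156) (nat_lit 0) (nat_lit 0) (XT.nd (nat_lit 78) (nat_lit 304) (nat_lit 0) (XT.lf (nat_lit 0) (nat_lit 36780361209) (nat_lit 380) (nat_lit 25032717959) (nat_lit 76) (nat_lit 13716844204) (nat_lit 43) (nat_lit 5) (nat_lit 48) (nat_lit 5) (nat_lit 44) (nat_lit 5) (nat_lit 307) (nat_lit 290) (nat_lit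 123)) (XT.lf (nat_lit 0) (nat_lit 4777302504) (nat_lit 304) (nat_lit 38925709774) (nat_lit 380) (nat_lit 34174055169) (nat_lit 39) (nat_lit 5) (nat_lit 43) (nat_lit 5) (nat_lit 44) (nat_lit 5) (nat_lit 308) (nat_lit 290) (nat_lit 122))) (XT.nd (nat_lit 78) (nat_lit 0) (nat_lit 0) (XT.lf (nat_lit 0) (nat_lit 36946108510) (nat_lit 304) (nat_lit 14448868898) (nat_lit 380) (nat_lit 28925436277) (nat_lit 39) (nat_lit 5) (nat_lit 43) (nat_lit 5) (nat_lit 44) (nat_lit 5) (nat_lit 309) (nat_lit 290) (nat_lit 121)) (XT.lf (nat_lit 0) (nat_lit 59646489114) (nat_lit 380) (nat_lit 12339041333) (nat_lit 76) (nat_lit 10891653215) (nat_lit 39) (nat_lit 5) (nat_lit 44) (nat_lit 5) (nat_lit 40) (nat_lit 5) (nat_lit 310) (nat_lit 290) (nat_lit 120)))) (XT.nd (nat_lit 156) (nat_lit 304) (nat_lit 0) (XT.nd (nat_lit 78) (nat_lit 0) (nat_lit 0) (XT.lf (nat_lit 0) (nat_lit 20671993247) (nat_lit 228) (nat_lit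 48197508055) (nat_lit 304) (nat_lit 16664348252) (nat_lit 36) (nat_lit 5) (nat_lit 39) (nat_lit 5) (nat_lit 40) (nat_lit 5) (nat_lit 311) (nat_lit 290) (nat_lit 119)) (XT.lf (nat_lit 0) (nat_lit 55761216815) (nat_lit 228) (nat_lit 23000746549) (nat_lit 304) (nat_lit 9550973898) (nat_lit 36) (nat_lit 5) (nat_lit 39) (nat_lit 5) (nat_lit 40) (nat_lit 5) (nat_lit 312) (nat_lit 290) (nat_lit 118))) (XT.nd (nat_lit 78) (nat_lit 76) (nat_lit 0) (XT.lf (nat_lit 0) (nat_lit 1362841243) (nat_lit 228) (nat_lit 87860802903) (nat_lit 304) (nat_lit 2003608748) (nat_lit 33) (nat_lit 5) (nat_lit 36) (nat_lit 5) (nat_lit 37) (nat_lit 5) (nat_lit 313) (nat_lit 290) (nat_lit 117)) (XT.lf (nat_lit 0) (nat_lit 6668357627) (nat_lit 304) (nat_lit 56635767968) (nat_lit 76) (nat_lit 30931702161) (nat_lit 32) (nat_lit 5) (nat_lit 36) (nat_lit 5) (nat_lit 33) (nat_lit 5) (nat_lit 314) (nat_lit 290) (nat_lit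 116)))))) (XT.nd (nat_lit 624) (nat_lit 608) (nat_lit 0) (XT.nd (nat_lit 312) (nat_lit 380) (nat_lit 0) (XT.nd (nat_lit 156) (nat_lit 0) (nat_lit 0) (XT.nd (nat_lit 78) (nat_lit 228) (nat_lit 0) (XT.lf (nat_lit 0) (nat_lit 15705986040) (nat_lit 304) (nat_lit 21779258844) (nat_lit 76) (nat_lit 59907977135) (nat_lit 32) (nat_lit 5) (nat_lit 36) (nat_lit 5) (nat_lit 33) (nat_lit 5) (nat_lit 315) (nat_lit 290) (nat_lit 115)) (XT.lf (nat_lit 0) (nat_lit 15309385294) (nat_lit 228) (nat_lit 10124559761) (nat_lit 304) (nat_lit 75262621213) (nat_lit 29) (nat_lit 5) (nat_lit 32) (nat_lit 5) (nat_lit 33) (nat_lit 5) (nat_lit 316) (nat_lit 290) (nat_lit 114))) (XT.nd (nat_lit 78) (nat_lit 0) (nat_lit 0) (XT.lf (nat_lit 0) (nat_lit 36313095643) (nat_lit 304) (nat_lit 49435260832) (nat_lit 76) (nat_lit 18383484174) (nat_lit 29) (nat_lit 5) (nat_lit 33) (nat_lit 5) (nat_lit 30) (nat_lit 5) (nat_lit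 317) (nat_lit 290) (nat_lit 113)) (XT.lf (nat_lit 0) (nat_lit 47901648407) (nat_lit 304) (nat_lit 11852391432) (nat_lit 76) (nat_lit 47976569155) (nat_lit 29) (nat_lit 5) (nat_lit 33) (nat_lit 5) (nat_lit 30) (nat_lit 5) (nat_lit 318) (nat_lit 290) (nat_lit 112)))) (XT.nd (nat_lit 156) (nat_lit 152) (nat_lit 0) (XT.nd (nat_lit 78) (nat_lit 0) (nat_lit 0) (XT.lf (nat_lit 0) (nat_lit 28521860661) (nat_lit 228) (nat_lit 31992567904) (nat_lit 304) (nat_lit 50972649564) (nat_lit 26) (nat_lit 5) (nat_lit 29) (nat_lit 5) (nat_lit 30) (nat_lit 5) (nat_lit 319) (nat_lit 290) (nat_lit 111)) (XT.lf (nat_lit 0) (nat_lit 71325685485) (nat_lit 228) (nat_lit 2632396117) (nat_lit 304) (nat_lit 41463279671) (nat_lit 26) (nat_lit 5) (nat_lit 29) (nat_lit 5) (nat_lit 30) (nat_lit 5) (nat_lit 320) (nat_lit 290) (nat_lit 110))) (XT.nd (nat_lit 78) (nat_lit 152) (nat_lit 0) (XT.lf (nat_lit 0) (nat_lit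 88513661800) (nat_lit 304) (nat_lit 3723494015) (nat_lit 76) (nat_lit 27293217673) (nat_lit 26) (nat_lit 5) (nat_lit 30) (nat_lit 5) (nat_lit 27) (nat_lit 5) (nat_lit 321) (nat_lit 290) (nat_lit 109)) (XT.lf (nat_lit 0) (nat_lit 39900619650) (nat_lit 152) (nat_lit 64562067599) (nat_lit 228) (nat_lit 19348867792) (nat_lit 24) (nat_lit 5) (nat_lit 26) (nat_lit 5) (nat_lit 27) (nat_lit 5) (nat_lit 322) (nat_lit 290) (nat_lit 108))))) (XT.nd (nat_lit 312) (nat_lit 304) (nat_lit 0) (XT.nd (nat_lit 156) (nat_lit 0) (nat_lit 0) (XT.nd (nat_lit 78) (nat_lit 304) (nat_lit 0) (XT.lf (nat_lit 0) (nat_lit 85834627683) (nat_lit 152) (nat_lit 35437159423) (nat_lit 228) (nat_lit 7031879349) (nat_lit 24) (nat_lit 5) (nat_lit 26) (nat_lit 5) (nat_lit 27) (nat_lit 5) (nat_lit 323) (nat_lit 290) (nat_lit 107)) (XT.lf (nat_lit 0) (nat_lit 983737259) (nat_lit 228) (nat_lit 4743288756) (nat_lit 304) (nat_lit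 127288005909) (nat_lit 20) (nat_lit 5) (nat_lit 23) (nat_lit 5) (nat_lit 24) (nat_lit 5) (nat_lit 324) (nat_lit 290) (nat_lit 106))) (XT.nd (nat_lit 78) (nat_lit 0) (nat_lit 0) (XT.lf (nat_lit 0) (nat_lit 20047291230) (nat_lit 304) (nat_lit 90399193786) (nat_lit 76) (nat_lit 27451731900) (nat_lit 20) (nat_lit 5) (nat_lit 24) (nat_lit 5) (nat_lit 21) (nat_lit 5) (nat_lit 325) (nat_lit 290) (nat_lit 105)) (XT.lf (nat_lit 0) (nat_lit 35160933510) (nat_lit 304) (nat_lit 46763800430) (nat_lit 76) (nat_lit 61096960624) (nat_lit 20) (nat_lit 5) (nat_lit 24) (nat_lit 5) (nat_lit 21) (nat_lit 5) (nat_lit 326) (nat_lit 290) (nat_lit 104)))) (XT.nd (nat_lit 156) (nat_lit 152) (nat_lit 0) (XT.nd (nat_lit 78) (nat_lit 152) (nat_lit 0) (XT.lf (nat_lit 0) (nat_lit 51029881689) (nat_lit 304) (nat_lit 947164773) (nat_lit 76) (nat_lit 96424319965) (nat_lit 20) (nat_lit 5) (nat_lit 24) (nat_lit 5) (nat_lit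 21) (nat_lit 5) (nat_lit 327) (nat_lit 290) (nat_lit 103)) (XT.lf (nat_lit 0) (nat_lit 48719116393) (nat_lit 152) (nat_lit 19733444524) (nat_lit 228) (nat_lit 85559448232) (nat_lit 18) (nat_lit 5) (nat_lit 20) (nat_lit 5) (nat_lit 21) (nat_lit 5) (nat_lit 328) (nat_lit 290) (nat_lit 102))) (XT.nd (nat_lit 78) (nat_lit 152) (nat_lit 0) (XT.lf (nat_lit 0) (nat_lit 86982815808) (nat_lit 228) (nat_lit 59222049874) (nat_lit 76) (nat_lit 13686497618) (nat_lit 18) (nat_lit 5) (nat_lit 21) (nat_lit 5) (nat_lit 19) (nat_lit 5) (nat_lit 329) (nat_lit 290) (nat_lit 101)) (XT.nd (nat_lit 78) (nat_lit 152) (nat_lit 0) (XT.lf (nat_lit 0) (nat_lit 106762748038) (nat_lit 228) (nat_lit 11171650331) (nat_lit 76) (nat_lit 48114129874) (nat_lit 18) (nat_lit 5) (nat_lit 21) (nat_lit 5) (nat_lit 19) (nat_lit 5) (nat_lit 330) (nat_lit 290) (nat_lit 100)) (XT.lf (nat_lit 0) (nat_lit 40579606797) (nat_lit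 152) (nat_lit 87585312901) (nat_lit 228) (nat_lit 44316970847) (nat_lit 16) (nat_lit 5) (nat_lit 18) (nat_lit 5) (nat_lit 19) (nat_lit 5) (nat_lit 331) (nat_lit 290) (nat_lit 99))))))))
noncomputable def xc204 : XT := (XT.nd (nat_lit 36660) (nat_lit 0) (nat_lit 0) (XT.nd (nat_lit 35412) (nat_lit 0) (nat_lit 760) (XT.nd (nat_lit 34788) (nat_lit 0) (nat_lit 2356) (XT.nd (nat_lit 34476) (nat_lit 0) (nat_lit 3192) (XT.nd (nat_lit 34320) (nat_lit 0) (nat_lit 3192) (XT.nd (nat_lit 78) (nat_lit 0) (nat_lit 0) (XT.lf (nat_lit 0) (nat_lit 95305825495) (nat_lit 152) (nat_lit 55520261236) (nat_lit 228) (nat_lit 28401391082) (nat_lit 16) (nat_lit 5) (nat_lit 18) (nat_lit 5) (nat_lit 19) (nat_lit 5) (nat_lit 332) (nat_lit 290) (nat_lit 98)) (XT.lf (nat_lit 0) (nat_lit 152767921071) (nat_lit 152) (nat_lit 21852095318) (nat_lit 228) (nat_lit 11690343977) (nat_lit 16) (nat_lit 5) (nat_lit 18) (nat_lit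 5) (nat_lit 19) (nat_lit 5) (nat_lit 333) (nat_lit 290) (nat_lit 97))) (XT.nd (nat_lit 78) (nat_lit 0) (nat_lit 0) (XT.lf (nat_lit 0) (nat_lit 20459150794) (nat_lit 684) (nat_lit 2214739449) (nat_lit 684) (nat_lit 2214739449) (nat_lit 58) (nat_lit 3) (nat_lit 67) (nat_lit 3) (nat_lit 67) (nat_lit 5) (nat_lit 291) (nat_lit 291) (nat_lit 138)) (XT.lf (nat_lit 76) (nat_lit 15290272659) (nat_lit 0) (nat_lit 26912038099) (nat_lit 684) (nat_lit 8806189928) (nat_lit 59) (nat_lit 5) (nat_lit 58) (nat_lit 3) (nat_lit 67) (nat_lit 5) (nat_lit 292) (nat_lit 291) (nat_lit 137)))) (XT.nd (nat_lit 156) (nat_lit 0) (nat_lit 76) (XT.nd (nat_lit 78) (nat_lit 0) (nat_lit 76) (XT.lf (nat_lit 76) (nat_lit 36149013586) (nat_lit 0) (nat_lit 7475080749) (nat_lit 684) (nat_lit 8673539830) (nat_lit 59) (nat_lit 5) (nat_lit 58) (nat_lit 3) (nat_lit 67) (nat_lit 5) (nat_lit 293) (nat_lit 291) (nat_lit 136))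 (XT.lf (nat_lit 76) (nat_lit 4335468158) (nat_lit 0) (nat_lit 41049756484) (nat_lit 684) (nat_lit 8252595187) (nat_lit 60) (nat_lit 5) (nat_lit 59) (nat_lit 5) (nat_lit 68) (nat_lit 5) (nat_lit 294) (nat_lit 291) (nat_lit 135))) (XT.nd (nat_lit 78) (nat_lit 0) (nat_lit 0) (XT.lf (nat_lit 76) (nat_lit 26276994794) (nat_lit 0) (nat_lit 21350156412) (nat_lit 684) (nat_lit 7398234573) (nat_lit 60) (nat_lit 5) (nat_lit 59) (nat_lit 5) (nat_lit 68) (nat_lit 5) (nat_lit 295) (nat_lit 291) (nat_lit 134)) (XT.lf (nat_lit 76) (nat_lit 49314820548) (nat_lit 0) (nat_lit 665105187) (nat_lit 684) (nat_lit 6502474318) (nat_lit 60) (nat_lit 5) (nat_lit 59) (nat_lit 5) (nat_lit 68) (nat_lit 5) (nat_lit 296) (nat_lit 291) (nat_lit 133))))) (XT.nd (nat_lit 312) (nat_lit 380) (nat_lit 0) (XT.nd (nat_lit 156) (nat_lit 608) (nat_lit 0) (XT.nd (nat_lit 78) (nat_lit 0) (nat_lit 0) (XT.lf (nat_lit 76) (nat_lit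 15664092383) (nat_lit 0) (nat_lit 37358340120) (nat_lit 684) (nat_lit 4961235108) (nat_lit 61) (nat_lit 5) (nat_lit 60) (nat_lit 5) (nat_lit 69) (nat_lit 5) (nat_lit 297) (nat_lit 291) (nat_lit 132)) (XT.lf (nat_lit 76) (nat_lit 39874125390) (nat_lit 0) (nat_lit 16473915016) (nat_lit 684) (nat_lit 3205416251) (nat_lit 61) (nat_lit 5) (nat_lit 60) (nat_lit 5) (nat_lit 69) (nat_lit 5) (nat_lit 298) (nat_lit 291) (nat_lit 131))) (XT.nd (nat_lit 78) (nat_lit 684) (nat_lit 0) (XT.lf (nat_lit 76) (nat_lit 4139420113) (nat_lit 0) (nat_lit 55849221265) (nat_lit 684) (nat_lit 1205664718) (nat_lit 62) (nat_lit 5) (nat_lit 61) (nat_lit 5) (nat_lit 70) (nat_lit 5) (nat_lit 299) (nat_lit 291) (nat_lit 130)) (XT.lf (nat_lit 0) (nat_lit 1473201814) (nat_lit 684) (nat_lit 33358546014) (nat_lit 760) (nat_lit 28054371022) (nat_lit 52) (nat_lit 5) (nat_lit 61) (nat_lit 5) (nat_lit 62) (nat_lit 5) (nat_lit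 300) (nat_lit 291) (nat_lit 129)))) (XT.nd (nat_lit 156) (nat_lit 380) (nat_lit 0) (XT.nd (nat_lit 78) (nat_lit 0) (nat_lit 76) (XT.lf (nat_lit 0) (nat_lit 4244480689) (nat_lit 684) (nat_lit 8497969457) (nat_lit 760) (nat_lit 51919140159) (nat_lit 52) (nat_lit 5) (nat_lit 61) (nat_lit 5) (nat_lit 62) (nat_lit 5) (nat_lit 301) (nat_lit 291) (nat_lit 128)) (XT.lf (nat_lit 0) (nat_lit 7605140453) (nat_lit 684) (nat_lit 48492568125) (nat_lit 76) (nat_lit 10405591316) (nat_lit 53) (nat_lit 5) (nat_lit 62) (nat_lit 5) (nat_lit 54) (nat_lit 5) (nat_lit 302) (nat_lit 291) (nat_lit 127))) (XT.nd (nat_lit 78) (nat_lit 456) (nat_lit 0) (XT.lf (nat_lit 0) (nat_lit 11488074436) (nat_lit 684) (nat_lit 22502070991) (nat_lit 76) (nat_lit 34429242624) (nat_lit 53) (nat_lit 5) (nat_lit 62) (nat_lit 5) (nat_lit 54) (nat_lit 5) (nat_lit 303) (nat_lit 291) (nat_lit 126)) (XT.lf (nat_lit 0) (nat_lit 4945457144)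 (nat_lit 456) (nat_lit 10696026687) (nat_lit 532) (nat_lit 54785985254) (nat_lit 47) (nat_lit 5) (nat_lit 53) (nat_lit 5) (nat_lit 54) (nat_lit 5) (nat_lit 304) (nat_lit 291) (nat_lit 125)))))) (XT.nd (nat_lit 624) (nat_lit 760) (nat_lit 0) (XT.nd (nat_lit 312) (nat_lit 532) (nat_lit 0) (XT.nd (nat_lit 156) (nat_lit 304) (nat_lit 0) (XT.nd (nat_lit 78) (nat_lit 0) (nat_lit 0) (XT.lf (nat_lit 0) (nat_lit 20603918008) (nat_lit 532) (nat_lit 38192255839) (nat_lit 76) (nat_lit 13709717278) (nat_lit 47) (nat_lit 5) (nat_lit 54) (nat_lit 5) (nat_lit 48) (nat_lit 5) (nat_lit 305) (nat_lit 291) (nat_lit 124)) (XT.lf (nat_lit 0) (nat_lit 25989006912) (nat_lit 532) (nat_lit 9714133303) (nat_lit 76) (nat_lit 38976371852) (nat_lit 47) (nat_lit 5) (nat_lit 54) (nat_lit 5) (nat_lit 48) (nat_lit 5) (nat_lit 306) (nat_lit 291) (nat_lit 123))) (XT.nd (nat_lit 78) (nat_lit 0) (nat_lit 0) (XT.lf (nat_lit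 0) (nat_lit 20854634206) (nat_lit 304) (nat_lit 11113542309) (nat_lit 380) (nat_lit 44977400463) (nat_lit 43) (nat_lit 5) (nat_lit 47) (nat_lit 5) (nat_lit 48) (nat_lit 5) (nat_lit 307) (nat_lit 291) (nat_lit 122)) (XT.lf (nat_lit 0) (nat_lit 38642362440) (nat_lit 380) (nat_lit 26260687639) (nat_lit 76) (nat_lit 14402096200) (nat_lit 43) (nat_lit 5) (nat_lit 48) (nat_lit 5) (nat_lit 44) (nat_lit 5) (nat_lit 308) (nat_lit 291) (nat_lit 121)))) (XT.nd (nat_lit 156) (nat_lit 228) (nat_lit 0) (XT.nd (nat_lit 78) (nat_lit 0) (nat_lit 0) (XT.lf (nat_lit 0) (nat_lit 5039452134) (nat_lit 304) (nat_lit 40870963027) (nat_lit 380) (nat_lit 35859274850) (nat_lit 39) (nat_lit 5) (nat_lit 43) (nat_lit 5) (nat_lit 44) (nat_lit 5) (nat_lit 309) (nat_lit 291) (nat_lit 120)) (XT.lf (nat_lit 0) (nat_lit 38815589654) (nat_lit 304) (nat_lit 15170329262) (nat_lit 380) (nat_lit 30349343255) (nat_lit 39)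 (nat_lit 5) (nat_lit 43) (nat_lit 5) (nat_lit 44) (nat_lit 5) (nat_lit 310) (nat_lit 291) (nat_lit 119))) (XT.nd (nat_lit 78) (nat_lit 228) (nat_lit 0) (XT.lf (nat_lit 0) (nat_lit 62649011652) (nat_lit 380) (nat_lit 12933771907) (nat_lit 76) (nat_lit 11437142177) (nat_lit 39) (nat_lit 5) (nat_lit 44) (nat_lit 5) (nat_lit 40) (nat_lit 5) (nat_lit 311) (nat_lit 291) (nat_lit 118)) (XT.lf (nat_lit 0) (nat_lit 21727455992) (nat_lit 228) (nat_lit 50605097988) (nat_lit 304) (nat_lit 17476907070) (nat_lit 36) (nat_lit 5) (nat_lit 39) (nat_lit 5) (nat_lit 40) (nat_lit 5) (nat_lit 312) (nat_lit 291) (nat_lit 117))))) (XT.nd (nat_lit 312) (nat_lit 456) (nat_lit 0) (XT.nd (nat_lit 156) (nat_lit 76) (nat_lit 0) (XT.nd (nat_lit 78) (nat_lit 228) (nat_lit 0) (XT.lf (nat_lit 0) (nat_lit 58570099639) (nat_lit 228) (nat_lit 24148607239) (nat_lit 304) (nat_lit 10008847741) (nat_lit 36) (nat_lit 5)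 (nat_lit 39) (nat_lit 5) (nat_lit 40) (nat_lit 5) (nat_lit 313) (nat_lit 291) (nat_lit 116)) (XT.lf (nat_lit 0) (nat_lit 1452448916) (nat_lit 228) (nat_lit 92250502413) (nat_lit 304) (nat_lit 2084665353) (nat_lit 33) (nat_lit 5) (nat_lit 36) (nat_lit 5) (nat_lit 37) (nat_lit 5) (nat_lit 314) (nat_lit 291) (nat_lit 115))) (XT.nd (nat_lit 78) (nat_lit 0) (nat_lit 0) (XT.lf (nat_lit 0) (nat_lit 7019405747) (nat_lit 304) (nat_lit 59446445993) (nat_lit 76) (nat_lit 32480801892) (nat_lit 32) (nat_lit 5) (nat_lit 36) (nat_lit 5) (nat_lit 33) (nat_lit 5) (nat_lit 315) (nat_lit 291) (nat_lit 114)) (XT.lf (nat_lit 0) (nat_lit 16508076045) (nat_lit 304) (nat_lit 22848116669) (nat_lit 76) (nat_lit 62905770872) (nat_lit 32) (nat_lit 5) (nat_lit 36) (nat_lit 5) (nat_lit 33) (nat_lit 5) (nat_lit 316) (nat_lit 291) (nat_lit 113)))) (XT.nd (nat_lit 156) (nat_lit 228) (nat_lit 0) (XT.nd (nat_lit 78)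 (nat_lit 0) (nat_lit 0) (XT.lf (nat_lit 0) (nat_lit 16094635399) (nat_lit 228) (nat_lit 10627306889) (nat_lit 304) (nat_lit 79008561105) (nat_lit 29) (nat_lit 5) (nat_lit 32) (nat_lit 5) (nat_lit 33) (nat_lit 5) (nat_lit 317) (nat_lit 291) (nat_lit 112)) (XT.lf (nat_lit 0) (nat_lit 38144325974) (nat_lit 304) (nat_lit 51887387985) (nat_lit 76) (nat_lit 19305867384) (nat_lit 29) (nat_lit 5) (nat_lit 33) (nat_lit 5) (nat_lit 30) (nat_lit 5) (nat_lit 318) (nat_lit 291) (nat_lit 111))) (XT.nd (nat_lit 78) (nat_lit 228) (nat_lit 0) (XT.lf (nat_lit 0) (nat_lit 50311564684) (nat_lit 304) (nat_lit 12426310158) (nat_lit 76) (nat_lit 50378453804) (nat_lit 29) (nat_lit 5) (nat_lit 33) (nat_lit 5) (nat_lit 30) (nat_lit 5) (nat_lit 319) (nat_lit 291) (nat_lit 110)) (XT.lf (nat_lit 0) (nat_lit 29966352913) (nat_lit 228) (nat_lit 33588211825) (nat_lit 304) (nat_lit 53506080744) (nat_lit 26) (nat_lit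 5) (nat_lit 29) (nat_lit 5) (nat_lit 30) (nat_lit 5) (nat_lit 320) (nat_lit 291) (nat_lit 109))))))) (XT.nd (nat_lit 35490) (nat_lit 0) (nat_lit 1748) (XT.nd (nat_lit 624) (nat_lit 304) (nat_lit 0) (XT.nd (nat_lit 312) (nat_lit 304) (nat_lit 0) (XT.nd (nat_lit 156) (nat_lit 152) (nat_lit 0) (XT.nd (nat_lit 78) (nat_lit 0) (nat_lit 0) (XT.lf (nat_lit 0) (nat_lit 74909492826) (nat_lit 228) (nat_lit 2760221185) (nat_lit 304) (nat_lit 43521966228) (nat_lit 26) (nat_lit 5) (nat_lit 29) (nat_lit 5) (nat_lit 30) (nat_lit 5) (nat_lit 321) (nat_lit 291) (nat_lit 108)) (XT.lf (nat_lit 0) (nat_lit 92952475915) (nat_lit 304) (nat_lit 3892323081) (nat_lit 76) (nat_lit 28661376920) (nat_lit 26) (nat_lit 5) (nat_lit 30) (nat_lit 5) (nat_lit 27) (nat_lit 5) (nat_lit 322) (nat_lit 291) (nat_lit 107))) (XT.nd (nat_lit 78) (nat_lit 0) (nat_lit 0) (XT.lf (nat_lit 0) (nat_lit 41912716500) (nat_lit 152)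 (nat_lit 67785877295) (nat_lit 228) (nat_lit 20302843536) (nat_lit 24) (nat_lit 5) (nat_lit 26) (nat_lit 5) (nat_lit 27) (nat_lit 5) (nat_lit 323) (nat_lit 291) (nat_lit 106)) (XT.lf (nat_lit 0) (nat_lit 90142612274) (nat_lit 152) (nat_lit 37204928171) (nat_lit 228) (nat_lit 7370646987) (nat_lit 24) (nat_lit 5) (nat_lit 26) (nat_lit 5) (nat_lit 27) (nat_lit 5) (nat_lit 324) (nat_lit 291) (nat_lit 105)))) (XT.nd (nat_lit 156) (nat_lit 0) (nat_lit 0) (XT.nd (nat_lit 78) (nat_lit 0) (nat_lit 0) (XT.lf (nat_lit 0) (nat_lit 1049369818) (nat_lit 228) (nat_lit 4976088840) (nat_lit 304) (nat_lit 133639671684) (nat_lit 20) (nat_lit 5) (nat_lit 23) (nat_lit 5) (nat_lit 24) (nat_lit 5) (nat_lit 325) (nat_lit 291) (nat_lit 104)) (XT.lf (nat_lit 0) (nat_lit 21061226726) (nat_lit 304) (nat_lit 94902933728) (nat_lit 76) (nat_lit 28828341988) (nat_lit 20) (nat_lit 5) (nat_lit 24) (nat_lit 5) (nat_lit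 21) (nat_lit 5) (nat_lit 326) (nat_lit 291) (nat_lit 103))) (XT.nd (nat_lit 78) (nat_lit 0) (nat_lit 0) (XT.lf (nat_lit 0) (nat_lit 36930000124) (nat_lit 304) (nat_lit 49086543073) (nat_lit 76) (nat_lit 64155640553) (nat_lit 20) (nat_lit 5) (nat_lit 24) (nat_lit 5) (nat_lit 21) (nat_lit 5) (nat_lit 327) (nat_lit 291) (nat_lit 102)) (XT.lf (nat_lit 0) (nat_lit 53591870952) (nat_lit 304) (nat_lit 979811223) (nat_lit 76) (nat_lit 101249185390) (nat_lit 20) (nat_lit 5) (nat_lit 24) (nat_lit 5) (nat_lit 21) (nat_lit 5) (nat_lit 328) (nat_lit 291) (nat_lit 101))))) (XT.nd (nat_lit 312) (nat_lit 0) (nat_lit 0) (XT.nd (nat_lit 156) (nat_lit 152) (nat_lit 0) (XT.nd (nat_lit 78) (nat_lit 0) (nat_lit 0) (XT.lf (nat_lit 0) (nat_lit 51169546715) (nat_lit 152) (nat_lit 20715863643) (nat_lit 228) (nat_lit 89826647773) (nat_lit 18) (nat_lit 5) (nat_lit 20) (nat_lit 5) (nat_lit 21) (nat_lit 5) (nat_lit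 329) (nat_lit 291) (nat_lit 100)) (XT.lf (nat_lit 0) (nat_lit 91341754502) (nat_lit 228) (nat_lit 62168905154) (nat_lit 76) (nat_lit 14374743433) (nat_lit 18) (nat_lit 5) (nat_lit 21) (nat_lit 5) (nat_lit 19) (nat_lit 5) (nat_lit 330) (nat_lit 291) (nat_lit 99))) (XT.nd (nat_lit 78) (nat_lit 152) (nat_lit 0) (XT.lf (nat_lit 0) (nat_lit 112110216777) (nat_lit 228) (nat_lit 11716664073) (nat_lit 76) (nat_lit 50523570591) (nat_lit 18) (nat_lit 5) (nat_lit 21) (nat_lit 5) (nat_lit 19) (nat_lit 5) (nat_lit 331) (nat_lit 291) (nat_lit 98)) (XT.lf (nat_lit 0) (nat_lit 42621937060) (nat_lit 152) (nat_lit 91960324039) (nat_lit 228) (nat_lit 46523234299) (nat_lit 16) (nat_lit 5) (nat_lit 18) (nat_lit 5) (nat_lit 19) (nat_lit 5) (nat_lit 332) (nat_lit 291) (nat_lit 97)))) (XT.nd (nat_lit 34398) (nat_lit 0) (nat_lit 3192) (XT.nd (nat_lit 34320) (nat_lit 0) (nat_lit 3192) (XT.lf (nat_lit 0) (nat_lit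 100083830983) (nat_lit 152) (nat_lit 58292222387) (nat_lit 228) (nat_lit 29812331978) (nat_lit 16) (nat_lit 5) (nat_lit 18) (nat_lit 5) (nat_lit 19) (nat_lit 5) (nat_lit 333) (nat_lit 291) (nat_lit 96)) (XT.lf (nat_lit 0) (nat_lit 21504087361) (nat_lit 684) (nat_lit 2313869706) (nat_lit 684) (nat_lit 2313869706) (nat_lit 58) (nat_lit 3) (nat_lit 67) (nat_lit 3) (nat_lit 67) (nat_lit 5) (nat_lit 292) (nat_lit 292) (nat_lit 136))) (XT.nd (nat_lit 78) (nat_lit 0) (nat_lit 0) (XT.lf (nat_lit 76) (nat_lit 16077625312) (nat_lit 0) (nat_lit 28277022378) (nat_lit 684) (nat_lit 9201908958) (nat_lit 59) (nat_lit 5) (nat_lit 58) (nat_lit 3) (nat_lit 67) (nat_lit 5) (nat_lit 293) (nat_lit 292) (nat_lit 135)) (XT.lf (nat_lit 76) (nat_lit 37978215713) (nat_lit 0) (nat_lit 7867294190) (nat_lit 684) (nat_lit 9064749711) (nat_lit 59) (nat_lit 5) (nat_lit 58) (nat_lit 3) (nat_lit 67) (nat_lit 5) (nat_lit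 294) (nat_lit 292) (nat_lit 134)))))) (XT.nd (nat_lit 624) (nat_lit 988) (nat_lit 0) (XT.nd (nat_lit 312) (nat_lit 532) (nat_lit 0) (XT.nd (nat_lit 156) (nat_lit 0) (nat_lit 0) (XT.nd (nat_lit 78) (nat_lit 0) (nat_lit 0) (XT.lf (nat_lit 76) (nat_lit 4576145607) (nat_lit 0) (nat_lit 43116735046) (nat_lit 684) (nat_lit 8624676412) (nat_lit 60) (nat_lit 5) (nat_lit 59) (nat_lit 5) (nat_lit 68) (nat_lit 5) (nat_lit 295) (nat_lit 292) (nat_lit 133)) (XT.lf (nat_lit 76) (nat_lit 27613610287) (nat_lit 0) (nat_lit 22431464935) (nat_lit 684) (nat_lit 7729528650) (nat_lit 60) (nat_lit 5) (nat_lit 59) (nat_lit 5) (nat_lit 68) (nat_lit 5) (nat_lit 296) (nat_lit 292) (nat_lit 132))) (XT.nd (nat_lit 78) (nat_lit 0) (nat_lit 76) (XT.lf (nat_lit 76) (nat_lit 51802243245) (nat_lit 0) (nat_lit 711503972) (nat_lit 684) (nat_lit 6790819319) (nat_lit 60) (nat_lit 5) (nat_lit 59) (nat_lit 5) (nat_lit 68)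 (nat_lit 5) (nat_lit 297) (nat_lit 292) (nat_lit 131)) (XT.lf (nat_lit 76) (nat_lit 16470752877) (nat_lit 0) (nat_lit 39236138880) (nat_lit 684) (nat_lit 5174090200) (nat_lit 61) (nat_lit 5) (nat_lit 60) (nat_lit 5) (nat_lit 69) (nat_lit 5) (nat_lit 298) (nat_lit 292) (nat_lit 130)))) (XT.nd (nat_lit 156) (nat_lit 608) (nat_lit 0) (XT.nd (nat_lit 78) (nat_lit 0) (nat_lit 76) (XT.lf (nat_lit 76) (nat_lit 41890170588) (nat_lit 0) (nat_lit 17307021962) (nat_lit 684) (nat_lit 3332156908) (nat_lit 61) (nat_lit 5) (nat_lit 60) (nat_lit 5) (nat_lit 69) (nat_lit 5) (nat_lit 299) (nat_lit 292) (nat_lit 129)) (XT.lf (nat_lit 76) (nat_lit 4370265630) (nat_lit 0) (nat_lit 58648278841) (nat_lit 684) (nat_lit 1233770022) (nat_lit 62) (nat_lit 5) (nat_lit 61) (nat_lit 5) (nat_lit 70) (nat_lit 5) (nat_lit 300) (nat_lit 292) (nat_lit 128))) (XT.nd (nat_lit 78) (nat_lit 0) (nat_lit 0) (XT.lf (nat_lit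 0) (nat_lit 1576526702) (nat_lit 684) (nat_lit 35002588522) (nat_lit 760) (nat_lit 29449660017) (nat_lit 52) (nat_lit 5) (nat_lit 61) (nat_lit 5) (nat_lit 62) (nat_lit 5) (nat_lit 301) (nat_lit 292) (nat_lit 127)) (XT.lf (nat_lit 0) (nat_lit 4484956912) (nat_lit 684) (nat_lit 8900120509) (nat_lit 760) (nat_lit 54508021399) (nat_lit 52) (nat_lit 5) (nat_lit 61) (nat_lit 5) (nat_lit 62) (nat_lit 5) (nat_lit 302) (nat_lit 292) (nat_lit 126))))) (XT.nd (nat_lit 312) (nat_lit 608) (nat_lit 0) (XT.nd (nat_lit 156) (nat_lit 456) (nat_lit 0) (XT.nd (nat_lit 78) (nat_lit 0) (nat_lit 0) (XT.lf (nat_lit 0) (nat_lit 8012577621) (nat_lit 684) (nat_lit 50893226216) (nat_lit 76) (nat_lit 10921151196) (nat_lit 53) (nat_lit 5) (nat_lit 62) (nat_lit 5) (nat_lit 54) (nat_lit 5) (nat_lit 303) (nat_lit 292) (nat_lit 125)) (XT.lf (nat_lit 0) (nat_lit 12088364010) (nat_lit 684) (nat_lit 23604345670) (nat_lit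 76) (nat_lit 36146209816) (nat_lit 53) (nat_lit 5) (nat_lit 62) (nat_lit 5) (nat_lit 54) (nat_lit 5) (nat_lit 304) (nat_lit 292) (nat_lit 124))) (XT.nd (nat_lit 78) (nat_lit 0) (nat_lit 0) (XT.lf (nat_lit 0) (nat_lit 5215190664) (nat_lit 456) (nat_lit 11233371224) (nat_lit 532) (nat_lit 57498893632) (nat_lit 47) (nat_lit 5) (nat_lit 53) (nat_lit 5) (nat_lit 54) (nat_lit 5) (nat_lit 305) (nat_lit 292) (nat_lit 123)) (XT.lf (nat_lit 0) (nat_lit 21657889299) (nat_lit 532) (nat_lit 40079118738) (nat_lit 76) (nat_lit 14392858567) (nat_lit 47) (nat_lit 5) (nat_lit 54) (nat_lit 5) (nat_lit 48) (nat_lit 5) (nat_lit 306) (nat_lit 292) (nat_lit 122)))) (XT.nd (nat_lit 156) (nat_lit 304) (nat_lit 0) (XT.nd (nat_lit 78) (nat_lit 304) (nat_lit 0) (XT.lf (nat_lit 0) (nat_lit 27311100486) (nat_lit 532) (nat_lit 10178173403) (nat_lit 76) (nat_lit 40922957515) (nat_lit 47) (nat_lit 5) (nat_lit 54)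 (nat_lit 5) (nat_lit 48) (nat_lit 5) (nat_lit 307) (nat_lit 292) (nat_lit 121)) (XT.lf (nat_lit 0) (nat_lit 21918683021) (nat_lit 304) (nat_lit 11669800119) (nat_lit 380) (nat_lit 47203159602) (nat_lit 43) (nat_lit 5) (nat_lit 47) (nat_lit 5) (nat_lit 48) (nat_lit 5) (nat_lit 308) (nat_lit 292) (nat_lit 120))) (XT.nd (nat_lit 78) (nat_lit 304) (nat_lit 0) (XT.lf (nat_lit 0) (nat_lit 40595326974) (nat_lit 380) (nat_lit 27552256063) (nat_lit 76) (nat_lit 15121665668) (nat_lit 43) (nat_lit 5) (nat_lit 48) (nat_lit 5) (nat_lit 44) (nat_lit 5) (nat_lit 309) (nat_lit 292) (nat_lit 119)) (XT.lf (nat_lit 0) (nat_lit 5312544473) (nat_lit 304) (nat_lit 42913574911) (nat_lit 380) (nat_lit 37630938749) (nat_lit 39) (nat_lit 5) (nat_lit 43) (nat_lit 5) (nat_lit 44) (nat_lit 5) (nat_lit 310) (nat_lit 292) (nat_lit 118))))))))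
noncomputable def xc205 : XT := (XT.nd (nat_lit 1248) (nat_lit 152) (nat_lit 0) (XT.nd (nat_lit 624) (nat_lit 684) (nat_lit 0) (XT.nd (nat_lit 312) (nat_lit 532) (nat_lit 0) (XT.nd (nat_lit 156) (nat_lit 228) (nat_lit 0) (XT.nd (nat_lit 78) (nat_lit 0) (nat_lit 0) (XT.lf (nat_lit 0) (nat_lit 40776483168) (nat_lit 304) (nat_lit 15927954042) (nat_lit 380) (nat_lit 31846524853) (nat_lit 39) (nat_lit 5) (nat_lit 43) (nat_lit 5) (nat_lit 44) (nat_lit 5) (nat_lit 311) (nat_lit 292) (nat_lit 117)) (XT.lf (nat_lit 0) (nat_lit 65799782491) (nat_lit 380) (nat_lit 13560304952) (nat_lit 76) (nat_lit 12009821328) (nat_lit 39) (nat_lit 5) (nat_lit 44) (nat_lit 5) (nat_lit 40) (nat_lit 5) (nat_lit 312) (nat_lit 292) (nat_lit 116))) (XT.nd (nat_lit 78) (nat_lit 0) (nat_lit 0) (XT.lf (nat_lit 0) (nat_lit 22833659252) (nat_lit 228) (nat_lit 53133279899) (nat_lit 304) (nat_lit 18332014470) (nat_lit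 36) (nat_lit 5) (nat_lit 39) (nat_lit 5) (nat_lit 40) (nat_lit 5) (nat_lit 313) (nat_lit 292) (nat_lit 115)) (XT.lf (nat_lit 0) (nat_lit 61517490773) (nat_lit 228) (nat_lit 25354063326) (nat_lit 304) (nat_lit 10491444458) (nat_lit 36) (nat_lit 5) (nat_lit 39) (nat_lit 5) (nat_lit 40) (nat_lit 5) (nat_lit 314) (nat_lit 292) (nat_lit 114)))) (XT.nd (nat_lit 156) (nat_lit 228) (nat_lit 0) (XT.nd (nat_lit 78) (nat_lit 76) (nat_lit 0) (XT.lf (nat_lit 0) (nat_lit 1544541304) (nat_lit 228) (nat_lit 96859997479) (nat_lit 304) (nat_lit 2171552740) (nat_lit 33) (nat_lit 5) (nat_lit 36) (nat_lit 5) (nat_lit 37) (nat_lit 5) (nat_lit 315) (nat_lit 292) (nat_lit 113)) (XT.lf (nat_lit 0) (nat_lit 7386367180) (nat_lit 304) (nat_lit 62399620563) (nat_lit 76) (nat_lit 34107122825) (nat_lit 32) (nat_lit 5) (nat_lit 36) (nat_lit 5) (nat_lit 33) (nat_lit 5) (nat_lit 316) (nat_lit 292) (nat_lit 112)))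 (XT.nd (nat_lit 78) (nat_lit 228) (nat_lit 0) (XT.lf (nat_lit 0) (nat_lit 17348709510) (nat_lit 304) (nat_lit 23972286569) (nat_lit 76) (nat_lit 66053231642) (nat_lit 32) (nat_lit 5) (nat_lit 36) (nat_lit 5) (nat_lit 33) (nat_lit 5) (nat_lit 317) (nat_lit 292) (nat_lit 111)) (XT.lf (nat_lit 0) (nat_lit 16917308975) (nat_lit 228) (nat_lit 11155514990) (nat_lit 304) (nat_lit 82943396264) (nat_lit 29) (nat_lit 5) (nat_lit 32) (nat_lit 5) (nat_lit 33) (nat_lit 5) (nat_lit 318) (nat_lit 292) (nat_lit 110))))) (XT.nd (nat_lit 312) (nat_lit 456) (nat_lit 0) (XT.nd (nat_lit 156) (nat_lit 228) (nat_lit 0) (XT.nd (nat_lit 78) (nat_lit 0) (nat_lit 0) (XT.lf (nat_lit 0) (nat_lit 40065669755) (nat_lit 304) (nat_lit 54463947055) (nat_lit 76) (nat_lit 20274071412) (nat_lit 29) (nat_lit 5) (nat_lit 33) (nat_lit 5) (nat_lit 30) (nat_lit 5) (nat_lit 319) (nat_lit 292) (nat_lit 109)) (XT.lf (nat_lit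 0) (nat_lit 52840597663) (nat_lit 304) (nat_lit 13030663447) (nat_lit 76) (nat_lit 52900148550) (nat_lit 29) (nat_lit 5) (nat_lit 33) (nat_lit 5) (nat_lit 30) (nat_lit 5) (nat_lit 320) (nat_lit 292) (nat_lit 108))) (XT.nd (nat_lit 78) (nat_lit 0) (nat_lit 0) (XT.lf (nat_lit 0) (nat_lit 31481359194) (nat_lit 228) (nat_lit 35264008381) (nat_lit 304) (nat_lit 56167596756) (nat_lit 26) (nat_lit 5) (nat_lit 29) (nat_lit 5) (nat_lit 30) (nat_lit 5) (nat_lit 321) (nat_lit 292) (nat_lit 107)) (XT.lf (nat_lit 0) (nat_lit 78670861405) (nat_lit 228) (nat_lit 2894790306) (nat_lit 304) (nat_lit 45684933087) (nat_lit 26) (nat_lit 5) (nat_lit 29) (nat_lit 5) (nat_lit 30) (nat_lit 5) (nat_lit 322) (nat_lit 292) (nat_lit 106)))) (XT.nd (nat_lit 156) (nat_lit 304) (nat_lit 0) (XT.nd (nat_lit 78) (nat_lit 152) (nat_lit 0) (XT.lf (nat_lit 0) (nat_lit 97612009936) (nat_lit 304) (nat_lit 4071206232) (nat_lit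 76) (nat_lit 30097618885) (nat_lit 26) (nat_lit 5) (nat_lit 30) (nat_lit 5) (nat_lit 27) (nat_lit 5) (nat_lit 323) (nat_lit 292) (nat_lit 105)) (XT.lf (nat_lit 0) (nat_lit 44023831570) (nat_lit 152) (nat_lit 71171276662) (nat_lit 228) (nat_lit 21305770160) (nat_lit 24) (nat_lit 5) (nat_lit 26) (nat_lit 5) (nat_lit 27) (nat_lit 5) (nat_lit 324) (nat_lit 292) (nat_lit 104))) (XT.nd (nat_lit 78) (nat_lit 304) (nat_lit 0) (XT.lf (nat_lit 0) (nat_lit 94664485026) (nat_lit 152) (nat_lit 39061465534) (nat_lit 228) (nat_lit 7727545477) (nat_lit 24) (nat_lit 5) (nat_lit 26) (nat_lit 5) (nat_lit 27) (nat_lit 5) (nat_lit 325) (nat_lit 292) (nat_lit 103)) (XT.lf (nat_lit 0) (nat_lit 1116755040) (nat_lit 228) (nat_lit 5220934684) (nat_lit 304) (nat_lit 140310104682) (nat_lit 20) (nat_lit 5) (nat_lit 23) (nat_lit 5) (nat_lit 24) (nat_lit 5) (nat_lit 326) (nat_lit 292) (nat_lit 102)))))) (XT.nd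 (nat_lit 35022) (nat_lit 0) (nat_lit 2584) (XT.nd (nat_lit 312) (nat_lit 0) (nat_lit 0) (XT.nd (nat_lit 156) (nat_lit 152) (nat_lit 0) (XT.nd (nat_lit 78) (nat_lit 0) (nat_lit 0) (XT.lf (nat_lit 0) (nat_lit 22124783241) (nat_lit 304) (nat_lit 99633368625) (nat_lit 76) (nat_lit 30273408514) (nat_lit 20) (nat_lit 5) (nat_lit 24) (nat_lit 5) (nat_lit 21) (nat_lit 5) (nat_lit 327) (nat_lit 292) (nat_lit 101)) (XT.lf (nat_lit 0) (nat_lit 38786495538) (nat_lit 304) (nat_lit 51526858998) (nat_lit 76) (nat_lit 67366898226) (nat_lit 20) (nat_lit 5) (nat_lit 24) (nat_lit 5) (nat_lit 21) (nat_lit 5) (nat_lit 328) (nat_lit 292) (nat_lit 100))) (XT.nd (nat_lit 78) (nat_lit 152) (nat_lit 0) (XT.lf (nat_lit 0) (nat_lit 56280983936) (nat_lit 304) (nat_lit 1015457757) (nat_lit 76) (nat_lit 106314954797) (nat_lit 20) (nat_lit 5) (nat_lit 24) (nat_lit 5) (nat_lit 21) (nat_lit 5) (nat_lit 329) (nat_lit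 292) (nat_lit 99)) (XT.lf (nat_lit 0) (nat_lit 53741152851) (nat_lit 152) (nat_lit 21747799132) (nat_lit 228) (nat_lit 94308208851) (nat_lit 18) (nat_lit 5) (nat_lit 20) (nat_lit 5) (nat_lit 21) (nat_lit 5) (nat_lit 330) (nat_lit 292) (nat_lit 98)))) (XT.nd (nat_lit 34554) (nat_lit 0) (nat_lit 3040) (XT.nd (nat_lit 78) (nat_lit 0) (nat_lit 0) (XT.lf (nat_lit 0) (nat_lit 95917729215) (nat_lit 228) (nat_lit 65264427769) (nat_lit 76) (nat_lit 15097037008) (nat_lit 18) (nat_lit 5) (nat_lit 21) (nat_lit 5) (nat_lit 19) (nat_lit 5) (nat_lit 331) (nat_lit 292) (nat_lit 97)) (XT.lf (nat_lit 0) (nat_lit 117724191413) (nat_lit 228) (nat_lit 12290189998) (nat_lit 76) (nat_lit 53053136171) (nat_lit 18) (nat_lit 5) (nat_lit 21) (nat_lit 5) (nat_lit 19) (nat_lit 5) (nat_lit 332) (nat_lit 292) (nat_lit 96))) (XT.nd (nat_lit 78) (nat_lit 0) (nat_lit 0) (XT.lf (nat_lit 0) (nat_lit 22599227353) (nat_lit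 684) (nat_lit 2419035559) (nat_lit 684) (nat_lit 2419035559) (nat_lit 58) (nat_lit 3) (nat_lit 67) (nat_lit 3) (nat_lit 67) (nat_lit 5) (nat_lit 293) (nat_lit 293) (nat_lit 134)) (XT.lf (nat_lit 76) (nat_lit 16902222241) (nat_lit 0) (nat_lit 29708453881) (nat_lit 684) (nat_lit 9621559539) (nat_lit 59) (nat_lit 5) (nat_lit 58) (nat_lit 3) (nat_lit 67) (nat_lit 5) (nat_lit 294) (nat_lit 293) (nat_lit 133))))) (XT.nd (nat_lit 312) (nat_lit 456) (nat_lit 0) (XT.nd (nat_lit 156) (nat_lit 0) (nat_lit 76) (XT.nd (nat_lit 78) (nat_lit 0) (nat_lit 76) (XT.lf (nat_lit 76) (nat_lit 39896855702) (nat_lit 0) (nat_lit 8277402123) (nat_lit 684) (nat_lit 9479468275) (nat_lit 59) (nat_lit 5) (nat_lit 58) (nat_lit 3) (nat_lit 67) (nat_lit 5) (nat_lit 295) (nat_lit 293) (nat_lit 132)) (XT.lf (nat_lit 76) (nat_lit 4826634557) (nat_lit 0) (nat_lit 45285715324) (nat_lit 684) (nat_lit 9019131517) (nat_lit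 60) (nat_lit 5) (nat_lit 59) (nat_lit 5) (nat_lit 68) (nat_lit 5) (nat_lit 296) (nat_lit 293) (nat_lit 131))) (XT.nd (nat_lit 78) (nat_lit 0) (nat_lit 0) (XT.lf (nat_lit 76) (nat_lit 29014940010) (nat_lit 0) (nat_lit 23565555826) (nat_lit 684) (nat_lit 8080977734) (nat_lit 60) (nat_lit 5) (nat_lit 59) (nat_lit 5) (nat_lit 68) (nat_lit 5) (nat_lit 297) (nat_lit 293) (nat_lit 130)) (XT.lf (nat_lit 76) (nat_lit 54412021321) (nat_lit 0) (nat_lit 759000736) (nat_lit 684) (nat_lit 7097000905) (nat_lit 60) (nat_lit 5) (nat_lit 59) (nat_lit 5) (nat_lit 68) (nat_lit 5) (nat_lit 298) (nat_lit 293) (nat_lit 129)))) (XT.nd (nat_lit 156) (nat_lit 608) (nat_lit 0) (XT.nd (nat_lit 78) (nat_lit 0) (nat_lit 0) (XT.lf (nat_lit 76) (nat_lit 17315565690) (nat_lit 0) (nat_lit 41206908867) (nat_lit 684) (nat_lit 5400861228) (nat_lit 61) (nat_lit 5) (nat_lit 60) (nat_lit 5) (nat_lit 69) (nat_lit 5) (nat_lit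 299) (nat_lit 293) (nat_lit 128)) (XT.lf (nat_lit 76) (nat_lit 44004941184) (nat_lit 0) (nat_lit 18180909292) (nat_lit 684) (nat_lit 3468351914) (nat_lit 61) (nat_lit 5) (nat_lit 60) (nat_lit 5) (nat_lit 69) (nat_lit 5) (nat_lit 300) (nat_lit 293) (nat_lit 127))) (XT.nd (nat_lit 78) (nat_lit 684) (nat_lit 0) (XT.lf (nat_lit 76) (nat_lit 4610433796) (nat_lit 0) (nat_lit 61586676014) (nat_lit 684) (nat_lit 1266272190) (nat_lit 62) (nat_lit 5) (nat_lit 61) (nat_lit 5) (nat_lit 70) (nat_lit 5) (nat_lit 301) (nat_lit 293) (nat_lit 126)) (XT.lf (nat_lit 0) (nat_lit 1682259883) (nat_lit 684) (nat_lit 36731053737) (nat_lit 760) (nat_lit 30915404192) (nat_lit 52) (nat_lit 5) (nat_lit 61) (nat_lit 5) (nat_lit 62) (nat_lit 5) (nat_lit 302) (nat_lit 293) (nat_lit 125)))))))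
noncomputable def xc206 : XT := (XT.nd (nat_lit 1248) (nat_lit 1064) (nat_lit 0) (XT.nd (nat_lit 624) (nat_lit 836) (nat_lit 0) (XT.nd (nat_lit 312) (nat_lit 304) (nat_lit 0) (XT.nd (nat_lit 156) (nat_lit 380) (nat_lit 0) (XT.nd (nat_lit 78) (nat_lit 0) (nat_lit 76) (XT.lf (nat_lit 0) (nat_lit 4734830325) (nat_lit 684) (nat_lit 9324493952) (nat_lit 760) (nat_lit 57227004539) (nat_lit 52) (nat_lit 5) (nat_lit 61) (nat_lit 5) (nat_lit 62) (nat_lit 5) (nat_lit 303) (nat_lit 293) (nat_lit 124)) (XT.lf (nat_lit 0) (nat_lit 8437859694) (nat_lit 684) (nat_lit 53416145745) (nat_lit 76) (nat_lit 11462927861) (nat_lit 53) (nat_lit 5) (nat_lit 62) (nat_lit 5) (nat_lit 54) (nat_lit 5) (nat_lit 304) (nat_lit 293) (nat_lit 123))) (XT.nd (nat_lit 78) (nat_lit 456) (nat_lit 0) (XT.lf (nat_lit 0) (nat_lit 12716261441) (nat_lit 684) (nat_lit 24763856494) (nat_lit 76) (nat_lit 37949443264) (nat_lit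 53) (nat_lit 5) (nat_lit 62) (nat_lit 5) (nat_lit 54) (nat_lit 5) (nat_lit 305) (nat_lit 293) (nat_lit 122)) (XT.lf (nat_lit 0) (nat_lit 5496322681) (nat_lit 456) (nat_lit 11797346546) (nat_lit 532) (nat_lit 60349901004) (nat_lit 47) (nat_lit 5) (nat_lit 53) (nat_lit 5) (nat_lit 54) (nat_lit 5) (nat_lit 306) (nat_lit 293) (nat_lit 121)))) (XT.nd (nat_lit 156) (nat_lit 304) (nat_lit 0) (XT.nd (nat_lit 78) (nat_lit 0) (nat_lit 0) (XT.lf (nat_lit 0) (nat_lit 22762348743) (nat_lit 532) (nat_lit 42062439851) (nat_lit 76) (nat_lit 15110374896) (nat_lit 47) (nat_lit 5) (nat_lit 54) (nat_lit 5) (nat_lit 48) (nat_lit 5) (nat_lit 307) (nat_lit 293) (nat_lit 120)) (XT.lf (nat_lit 0) (nat_lit 28697193586) (nat_lit 532) (nat_lit 10667429860) (nat_lit 76) (nat_lit 42967080058) (nat_lit 47) (nat_lit 5) (nat_lit 54) (nat_lit 5) (nat_lit 48) (nat_lit 5) (nat_lit 308) (nat_lit 293) (nat_lit 119)))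 (XT.nd (nat_lit 78) (nat_lit 0) (nat_lit 0) (XT.lf (nat_lit 0) (nat_lit 23033952414) (nat_lit 304) (nat_lit 12253816833) (nat_lit 380) (nat_lit 49542355330) (nat_lit 43) (nat_lit 5) (nat_lit 47) (nat_lit 5) (nat_lit 48) (nat_lit 5) (nat_lit 309) (nat_lit 293) (nat_lit 118)) (XT.lf (nat_lit 0) (nat_lit 42644001634) (nat_lit 380) (nat_lit 28910398610) (nat_lit 76) (nat_lit 15877263380) (nat_lit 43) (nat_lit 5) (nat_lit 48) (nat_lit 5) (nat_lit 44) (nat_lit 5) (nat_lit 310) (nat_lit 293) (nat_lit 117))))) (XT.nd (nat_lit 312) (nat_lit 304) (nat_lit 0) (XT.nd (nat_lit 156) (nat_lit 228) (nat_lit 0) (XT.nd (nat_lit 78) (nat_lit 0) (nat_lit 0) (XT.lf (nat_lit 0) (nat_lit 5597327916) (nat_lit 304) (nat_lit 45058404434) (nat_lit 380) (nat_lit 39493166101) (nat_lit 39) (nat_lit 5) (nat_lit 43) (nat_lit 5) (nat_lit 44) (nat_lit 5) (nat_lit 311) (nat_lit 293) (nat_lit 116)) (XT.lf (nat_lit 0)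 (nat_lit 42833551345) (nat_lit 304) (nat_lit 16723542960) (nat_lit 380) (nat_lit 33420451490) (nat_lit 39) (nat_lit 5) (nat_lit 43) (nat_lit 5) (nat_lit 44) (nat_lit 5) (nat_lit 312) (nat_lit 293) (nat_lit 115))) (XT.nd (nat_lit 78) (nat_lit 228) (nat_lit 0) (XT.lf (nat_lit 0) (nat_lit 69106388628) (nat_lit 380) (nat_lit 14220038522) (nat_lit 76) (nat_lit 12611058010) (nat_lit 39) (nat_lit 5) (nat_lit 44) (nat_lit 5) (nat_lit 40) (nat_lit 5) (nat_lit 313) (nat_lit 293) (nat_lit 114)) (XT.lf (nat_lit 0) (nat_lit 23993329026) (nat_lit 228) (nat_lit 55788063632) (nat_lit 304) (nat_lit 19231619316) (nat_lit 36) (nat_lit 5) (nat_lit 39) (nat_lit 5) (nat_lit 40) (nat_lit 5) (nat_lit 314) (nat_lit 293) (nat_lit 113)))) (XT.nd (nat_lit 156) (nat_lit 76) (nat_lit 0) (XT.nd (nat_lit 78) (nat_lit 228) (nat_lit 0) (XT.lf (nat_lit 0) (nat_lit 64610495609) (nat_lit 228) (nat_lit 26619975767) (nat_lit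 304) (nat_lit 10999830132) (nat_lit 36) (nat_lit 5) (nat_lit 39) (nat_lit 5) (nat_lit 40) (nat_lit 5) (nat_lit 315) (nat_lit 293) (nat_lit 112)) (XT.lf (nat_lit 0) (nat_lit 1639428180) (nat_lit 228) (nat_lit 101700249004) (nat_lit 304) (nat_lit 2264397153) (nat_lit 33) (nat_lit 5) (nat_lit 36) (nat_lit 5) (nat_lit 37) (nat_lit 5) (nat_lit 316) (nat_lit 293) (nat_lit 111))) (XT.nd (nat_lit 78) (nat_lit 0) (nat_lit 0) (XT.lf (nat_lit 0) (nat_lit 7770189980) (nat_lit 304) (nat_lit 65502234035) (nat_lit 76) (nat_lit 35814547753) (nat_lit 32) (nat_lit 5) (nat_lit 36) (nat_lit 5) (nat_lit 33) (nat_lit 5) (nat_lit 317) (nat_lit 293) (nat_lit 110)) (XT.lf (nat_lit 0) (nat_lit 18229958739) (nat_lit 304) (nat_lit 25154360368) (nat_lit 76) (nat_lit 69357863497) (nat_lit 32) (nat_lit 5) (nat_lit 36) (nat_lit 5) (nat_lit 33) (nat_lit 5) (nat_lit 318) (nat_lit 293) (nat_lit 109)))))) (XT.nd (nat_lit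 624) (nat_lit 456) (nat_lit 0) (XT.nd (nat_lit 312) (nat_lit 152) (nat_lit 0) (XT.nd (nat_lit 156) (nat_lit 228) (nat_lit 0) (XT.nd (nat_lit 78) (nat_lit 0) (nat_lit 0) (XT.lf (nat_lit 0) (nat_lit 17779448170) (nat_lit 228) (nat_lit 11710427028) (nat_lit 304) (nat_lit 87076422860) (nat_lit 29) (nat_lit 5) (nat_lit 32) (nat_lit 5) (nat_lit 33) (nat_lit 5) (nat_lit 319) (nat_lit 293) (nat_lit 108)) (XT.lf (nat_lit 0) (nat_lit 42081767285) (nat_lit 304) (nat_lit 57170989913) (nat_lit 76) (nat_lit 21290415035) (nat_lit 29) (nat_lit 5) (nat_lit 33) (nat_lit 5) (nat_lit 30) (nat_lit 5) (nat_lit 320) (nat_lit 293) (nat_lit 107))) (XT.nd (nat_lit 78) (nat_lit 228) (nat_lit 0) (XT.lf (nat_lit 0) (nat_lit 55494831396) (nat_lit 304) (nat_lit 13666811387) (nat_lit 76) (nat_lit 55547670314) (nat_lit 29) (nat_lit 5) (nat_lit 33) (nat_lit 5) (nat_lit 30) (nat_lit 5) (nat_lit 321) (nat_lit 293) (nat_lit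 106)) (XT.lf (nat_lit 0) (nat_lit 33070564237) (nat_lit 228) (nat_lit 37023930763) (nat_lit 304) (nat_lit 58963470448) (nat_lit 26) (nat_lit 5) (nat_lit 29) (nat_lit 5) (nat_lit 30) (nat_lit 5) (nat_lit 322) (nat_lit 293) (nat_lit 105)))) (XT.nd (nat_lit 156) (nat_lit 152) (nat_lit 0) (XT.nd (nat_lit 78) (nat_lit 0) (nat_lit 0) (XT.lf (nat_lit 0) (nat_lit 82618820745) (nat_lit 228) (nat_lit 3036407881) (nat_lit 304) (nat_lit 47957269126) (nat_lit 26) (nat_lit 5) (nat_lit 29) (nat_lit 5) (nat_lit 30) (nat_lit 5) (nat_lit 323) (nat_lit 293) (nat_lit 104)) (XT.lf (nat_lit 0) (nat_lit 102503413359) (nat_lit 304) (nat_lit 4260496246) (nat_lit 76) (nat_lit 31605377942) (nat_lit 26) (nat_lit 5) (nat_lit 30) (nat_lit 5) (nat_lit 27) (nat_lit 5) (nat_lit 324) (nat_lit 293) (nat_lit 103))) (XT.nd (nat_lit 78) (nat_lit 0) (nat_lit 0) (XT.lf (nat_lit 0) (nat_lit 46239063280) (nat_lit 152) (nat_lit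 74726308070) (nat_lit 228) (nat_lit 22359978803) (nat_lit 24) (nat_lit 5) (nat_lit 26) (nat_lit 5) (nat_lit 27) (nat_lit 5) (nat_lit 325) (nat_lit 293) (nat_lit 102)) (XT.lf (nat_lit 0) (nat_lit 99411080831) (nat_lit 152) (nat_lit 41011174598) (nat_lit 228) (nat_lit 8103370498) (nat_lit 24) (nat_lit 5) (nat_lit 26) (nat_lit 5) (nat_lit 27) (nat_lit 5) (nat_lit 326) (nat_lit 293) (nat_lit 101))))) (XT.nd (nat_lit 312) (nat_lit 152) (nat_lit 0) (XT.nd (nat_lit 156) (nat_lit 0) (nat_lit 0) (XT.nd (nat_lit 78) (nat_lit 0) (nat_lit 0) (XT.lf (nat_lit 0) (nat_lit 1186122707) (nat_lit 228) (nat_lit 5478390853) (nat_lit 304) (nat_lit 147315133194) (nat_lit 20) (nat_lit 5) (nat_lit 23) (nat_lit 5) (nat_lit 24) (nat_lit 5) (nat_lit 327) (nat_lit 293) (nat_lit 100)) (XT.lf (nat_lit 0) (nat_lit 23240541840) (nat_lit 304) (nat_lit 104601693029) (nat_lit 76) (nat_lit 31790389078) (nat_lit 20) (nat_lit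 5) (nat_lit 24) (nat_lit 5) (nat_lit 21) (nat_lit 5) (nat_lit 328) (nat_lit 293) (nat_lit 99))) (XT.nd (nat_lit 78) (nat_lit 0) (nat_lit 0) (XT.lf (nat_lit 0) (nat_lit 40734886445) (nat_lit 304) (nat_lit 54090493351) (nat_lit 76) (nat_lit 70738395649) (nat_lit 20) (nat_lit 5) (nat_lit 24) (nat_lit 5) (nat_lit 21) (nat_lit 5) (nat_lit 329) (nat_lit 293) (nat_lit 98)) (XT.lf (nat_lit 0) (nat_lit 59103667542) (nat_lit 304) (nat_lit 1054127219) (nat_lit 76) (nat_lit 111633704930) (nat_lit 20) (nat_lit 5) (nat_lit 24) (nat_lit 5) (nat_lit 21) (nat_lit 5) (nat_lit 330) (nat_lit 293) (nat_lit 97)))) (XT.nd (nat_lit 34710) (nat_lit 0) (nat_lit 3040) (XT.nd (nat_lit 34632) (nat_lit 0) (nat_lit 3040) (XT.lf (nat_lit 0) (nat_lit 56440118703) (nat_lit 152) (nat_lit 22831690048) (nat_lit 228) (nat_lit 99014756426) (nat_lit 18) (nat_lit 5) (nat_lit 20) (nat_lit 5) (nat_lit 21) (nat_lit 5) (nat_lit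 331) (nat_lit 293) (nat_lit 96)) (XT.lf (nat_lit 0) (nat_lit 23747270920) (nat_lit 684) (nat_lit 2530438464) (nat_lit 684) (nat_lit 2530438464) (nat_lit 58) (nat_lit 3) (nat_lit 67) (nat_lit 3) (nat_lit 67) (nat_lit 5) (nat_lit 294) (nat_lit 294) (nat_lit 132))) (XT.nd (nat_lit 78) (nat_lit 0) (nat_lit 0) (XT.lf (nat_lit 76) (nat_lit 17766123071) (nat_lit 0) (nat_lit 31209822502) (nat_lit 684) (nat_lit 10065952829) (nat_lit 59) (nat_lit 5) (nat_lit 58) (nat_lit 3) (nat_lit 67) (nat_lit 5) (nat_lit 295) (nat_lit 294) (nat_lit 131)) (XT.nd (nat_lit 78) (nat_lit 0) (nat_lit 76) (XT.lf (nat_lit 76) (nat_lit 41909593457) (nat_lit 0) (nat_lit 8706458826) (nat_lit 684) (nat_lit 9918503892) (nat_lit 59) (nat_lit 5) (nat_lit 58) (nat_lit 3) (nat_lit 67) (nat_lit 5) (nat_lit 296) (nat_lit 294) (nat_lit 130)) (XT.lf (nat_lit 76) (nat_lit 5087632199) (nat_lit 0) (nat_lit 47561922656) (nat_lit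 684) (nat_lit 9436728714) (nat_lit 60) (nat_lit 5) (nat_lit 59) (nat_lit 5) (nat_lit 68) (nat_lit 5) (nat_lit 297) (nat_lit 294) (nat_lit 129))))))))
noncomputable def xc207 : XT := (XT.nd (nat_lit 1248) (nat_lit 1444) (nat_lit 0) (XT.nd (nat_lit 624) (nat_lit 988) (nat_lit 0) (XT.nd (nat_lit 312) (nat_lit 532) (nat_lit 0) (XT.nd (nat_lit 156) (nat_lit 0) (nat_lit 76) (XT.nd (nat_lit 78) (nat_lit 0) (nat_lit 0) (XT.lf (nat_lit 76) (nat_lit 30484416452) (nat_lit 0) (nat_lit 24755187489) (nat_lit 684) (nat_lit 8453255784) (nat_lit 60) (nat_lit 5) (nat_lit 59) (nat_lit 5) (nat_lit 68) (nat_lit 5) (nat_lit 298) (nat_lit 294) (nat_lit 128)) (XT.lf (nat_lit 76) (nat_lit 57150459950) (nat_lit 0) (nat_lit 807763984) (nat_lit 684) (nat_lit 7421593010) (nat_lit 60) (nat_lit 5) (nat_lit 59) (nat_lit 5) (nat_lit 68) (nat_lit 5) (nat_lit 299) (nat_lit 294) (nat_lit 127))) (XT.nd (nat_lit 78) (nat_lit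 0) (nat_lit 0) (XT.lf (nat_lit 76) (nat_lit 18200641181) (nat_lit 0) (nat_lit 43275384055) (nat_lit 684) (nat_lit 5641939681) (nat_lit 61) (nat_lit 5) (nat_lit 60) (nat_lit 5) (nat_lit 69) (nat_lit 5) (nat_lit 300) (nat_lit 294) (nat_lit 126)) (XT.lf (nat_lit 76) (nat_lit 46223566535) (nat_lit 0) (nat_lit 19097697370) (nat_lit 684) (nat_lit 3614184167) (nat_lit 61) (nat_lit 5) (nat_lit 60) (nat_lit 5) (nat_lit 69) (nat_lit 5) (nat_lit 301) (nat_lit 294) (nat_lit 125)))) (XT.nd (nat_lit 156) (nat_lit 0) (nat_lit 0) (XT.nd (nat_lit 78) (nat_lit 684) (nat_lit 0) (XT.lf (nat_lit 76) (nat_lit 4860597104) (nat_lit 0) (nat_lit 64671436781) (nat_lit 684) (nat_lit 1303112936) (nat_lit 62) (nat_lit 5) (nat_lit 61) (nat_lit 5) (nat_lit 70) (nat_lit 5) (nat_lit 302) (nat_lit 294) (nat_lit 124)) (XT.lf (nat_lit 0) (nat_lit 1790778179) (nat_lit 684) (nat_lit 38547956346) (nat_lit 760) (nat_lit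 32455062087) (nat_lit 52) (nat_lit 5) (nat_lit 61) (nat_lit 5) (nat_lit 62) (nat_lit 5) (nat_lit 303) (nat_lit 294) (nat_lit 123))) (XT.nd (nat_lit 78) (nat_lit 0) (nat_lit 76) (XT.lf (nat_lit 0) (nat_lit 4994814986) (nat_lit 684) (nat_lit 9772004290) (nat_lit 760) (nat_lit 60082533515) (nat_lit 52) (nat_lit 5) (nat_lit 61) (nat_lit 5) (nat_lit 62) (nat_lit 5) (nat_lit 304) (nat_lit 294) (nat_lit 122)) (XT.lf (nat_lit 0) (nat_lit 8882113851) (nat_lit 684) (nat_lit 56067232596) (nat_lit 76) (nat_lit 12032191356) (nat_lit 53) (nat_lit 5) (nat_lit 62) (nat_lit 5) (nat_lit 54) (nat_lit 5) (nat_lit 305) (nat_lit 294) (nat_lit 121))))) (XT.nd (nat_lit 312) (nat_lit 608) (nat_lit 0) (XT.nd (nat_lit 156) (nat_lit 0) (nat_lit 0) (XT.nd (nat_lit 78) (nat_lit 456) (nat_lit 0) (XT.lf (nat_lit 0) (nat_lit 13373370867) (nat_lit 684) (nat_lit 25983267950) (nat_lit 76) (nat_lit 39843217429) (nat_lit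 53) (nat_lit 5) (nat_lit 62) (nat_lit 5) (nat_lit 54) (nat_lit 5) (nat_lit 306) (nat_lit 294) (nat_lit 120)) (XT.lf (nat_lit 0) (nat_lit 5789617259) (nat_lit 456) (nat_lit 12389306172) (nat_lit 532) (nat_lit 63345684208) (nat_lit 47) (nat_lit 5) (nat_lit 53) (nat_lit 5) (nat_lit 54) (nat_lit 5) (nat_lit 307) (nat_lit 294) (nat_lit 119))) (XT.nd (nat_lit 78) (nat_lit 0) (nat_lit 0) (XT.lf (nat_lit 0) (nat_lit 23920026253) (nat_lit 532) (nat_lit 44146845450) (nat_lit 76) (nat_lit 15863964753) (nat_lit 47) (nat_lit 5) (nat_lit 54) (nat_lit 5) (nat_lit 48) (nat_lit 5) (nat_lit 308) (nat_lit 294) (nat_lit 118)) (XT.lf (nat_lit 0) (nat_lit 30150681906) (nat_lit 532) (nat_lit 11182976216) (nat_lit 76) (nat_lit 45113597025) (nat_lit 47) (nat_lit 5) (nat_lit 54) (nat_lit 5) (nat_lit 48) (nat_lit 5) (nat_lit 309) (nat_lit 294) (nat_lit 117)))) (XT.nd (nat_lit 156) (nat_lit 304) (nat_lit 0)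 (XT.nd (nat_lit 78) (nat_lit 0) (nat_lit 0) (XT.lf (nat_lit 0) (nat_lit 24203187669) (nat_lit 304) (nat_lit 12866985413) (nat_lit 380) (nat_lit 52000459715) (nat_lit 43) (nat_lit 5) (nat_lit 47) (nat_lit 5) (nat_lit 48) (nat_lit 5) (nat_lit 310) (nat_lit 294) (nat_lit 116)) (XT.lf (nat_lit 0) (nat_lit 44793352110) (nat_lit 380) (nat_lit 30338258445) (nat_lit 76) (nat_lit 16670686122) (nat_lit 43) (nat_lit 5) (nat_lit 48) (nat_lit 5) (nat_lit 44) (nat_lit 5) (nat_lit 311) (nat_lit 294) (nat_lit 115))) (XT.nd (nat_lit 78) (nat_lit 0) (nat_lit 0) (XT.lf (nat_lit 0) (nat_lit 5894569568) (nat_lit 304) (nat_lit 47310554386) (nat_lit 380) (nat_lit 41450300972) (nat_lit 39) (nat_lit 5) (nat_lit 43) (nat_lit 5) (nat_lit 44) (nat_lit 5) (nat_lit 312) (nat_lit 294) (nat_lit 114)) (XT.lf (nat_lit 0) (nat_lit 44991776775) (nat_lit 304) (nat_lit 17558986518) (nat_lit 380) (nat_lit 35074785079)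 (nat_lit 39) (nat_lit 5) (nat_lit 43) (nat_lit 5) (nat_lit 44) (nat_lit 5) (nat_lit 313) (nat_lit 294) (nat_lit 113)))))) (XT.nd (nat_lit 624) (nat_lit 684) (nat_lit 0) (XT.nd (nat_lit 312) (nat_lit 304) (nat_lit 0) (XT.nd (nat_lit 156) (nat_lit 228) (nat_lit 0) (XT.nd (nat_lit 78) (nat_lit 228) (nat_lit 0) (XT.lf (nat_lit 0) (nat_lit 72576780179) (nat_lit 380) (nat_lit 14914458428) (nat_lit 76) (nat_lit 13242287207) (nat_lit 39) (nat_lit 5) (nat_lit 44) (nat_lit 5) (nat_lit 40) (nat_lit 5) (nat_lit 314) (nat_lit 294) (nat_lit 112)) (XT.lf (nat_lit 0) (nat_lit 25209310046) (nat_lit 228) (nat_lit 58575761362) (nat_lit 304) (nat_lit 20177784521) (nat_lit 36) (nat_lit 5) (nat_lit 39) (nat_lit 5) (nat_lit 40) (nat_lit 5) (nat_lit 315) (nat_lit 294) (nat_lit 111))) (XT.nd (nat_lit 78) (nat_lit 228) (nat_lit 0) (XT.lf (nat_lit 0) (nat_lit 67856558074) (nat_lit 228) (nat_lit 27949350315)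 (nat_lit 304) (nat_lit 11535139961) (nat_lit 36) (nat_lit 5) (nat_lit 39) (nat_lit 5) (nat_lit 40) (nat_lit 5) (nat_lit 316) (nat_lit 294) (nat_lit 110)) (XT.lf (nat_lit 0) (nat_lit 1737417558) (nat_lit 228) (nat_lit 106782768621) (nat_lit 304) (nat_lit 2363346512) (nat_lit 33) (nat_lit 5) (nat_lit 36) (nat_lit 5) (nat_lit 37) (nat_lit 5) (nat_lit 317) (nat_lit 294) (nat_lit 109)))) (XT.nd (nat_lit 156) (nat_lit 228) (nat_lit 0) (XT.nd (nat_lit 78) (nat_lit 0) (nat_lit 0) (XT.lf (nat_lit 0) (nat_lit 8171855434) (nat_lit 304) (nat_lit 68761592852) (nat_lit 76) (nat_lit 37607151591) (nat_lit 32) (nat_lit 5) (nat_lit 36) (nat_lit 5) (nat_lit 33) (nat_lit 5) (nat_lit 318) (nat_lit 294) (nat_lit 108)) (XT.lf (nat_lit 0) (nat_lit 19153986158) (nat_lit 304) (nat_lit 26397075639) (nat_lit 76) (nat_lit 72827543768) (nat_lit 32) (nat_lit 5) (nat_lit 36) (nat_lit 5) (nat_lit 33) (nat_lit 5)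 (nat_lit 319) (nat_lit 294) (nat_lit 107))) (XT.nd (nat_lit 78) (nat_lit 0) (nat_lit 0) (XT.lf (nat_lit 0) (nat_lit 18683181346) (nat_lit 228) (nat_lit 12293350908) (nat_lit 304) (nat_lit 91417415688) (nat_lit 29) (nat_lit 5) (nat_lit 32) (nat_lit 5) (nat_lit 33) (nat_lit 5) (nat_lit 320) (nat_lit 294) (nat_lit 106)) (XT.lf (nat_lit 0) (nat_lit 44197478364) (nat_lit 304) (nat_lit 60014886807) (nat_lit 76) (nat_lit 22357330393) (nat_lit 29) (nat_lit 5) (nat_lit 33) (nat_lit 5) (nat_lit 30) (nat_lit 5) (nat_lit 321) (nat_lit 294) (nat_lit 105))))) (XT.nd (nat_lit 312) (nat_lit 456) (nat_lit 0) (XT.nd (nat_lit 156) (nat_lit 0) (nat_lit 0) (XT.nd (nat_lit 78) (nat_lit 228) (nat_lit 0) (XT.lf (nat_lit 0) (nat_lit 58280642218) (nat_lit 304) (nat_lit 14336197097) (nat_lit 76) (nat_lit 58327334406) (nat_lit 29) (nat_lit 5) (nat_lit 33) (nat_lit 5) (nat_lit 30) (nat_lit 5) (nat_lit 322) (nat_lit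 294) (nat_lit 104)) (XT.lf (nat_lit 0) (nat_lit 34737822230) (nat_lit 228) (nat_lit 38872154025) (nat_lit 304) (nat_lit 61900300528) (nat_lit 26) (nat_lit 5) (nat_lit 29) (nat_lit 5) (nat_lit 30) (nat_lit 5) (nat_lit 323) (nat_lit 294) (nat_lit 103))) (XT.nd (nat_lit 78) (nat_lit 0) (nat_lit 0) (XT.lf (nat_lit 0) (nat_lit 86762837765) (nat_lit 228) (nat_lit 3185396584) (nat_lit 304) (nat_lit 50344329304) (nat_lit 26) (nat_lit 5) (nat_lit 29) (nat_lit 5) (nat_lit 30) (nat_lit 5) (nat_lit 324) (nat_lit 294) (nat_lit 102)) (XT.lf (nat_lit 0) (nat_lit 107638382600) (nat_lit 304) (nat_lit 4460577478) (nat_lit 76) (nat_lit 33188257372) (nat_lit 26) (nat_lit 5) (nat_lit 30) (nat_lit 5) (nat_lit 27) (nat_lit 5) (nat_lit 325) (nat_lit 294) (nat_lit 101)))) (XT.nd (nat_lit 156) (nat_lit 304) (nat_lit 0) (XT.nd (nat_lit 78) (nat_lit 0) (nat_lit 0) (XT.lf (nat_lit 0) (nat_lit 48563751256) (nat_lit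 152) (nat_lit 78459419461) (nat_lit 228) (nat_lit 23467927978) (nat_lit 24) (nat_lit 5) (nat_lit 26) (nat_lit 5) (nat_lit 27) (nat_lit 5) (nat_lit 326) (nat_lit 294) (nat_lit 100)) (XT.lf (nat_lit 0) (nat_lit 104393763266) (nat_lit 152) (nat_lit 43058681887) (nat_lit 228) (nat_lit 8498967818) (nat_lit 24) (nat_lit 5) (nat_lit 26) (nat_lit 5) (nat_lit 27) (nat_lit 5) (nat_lit 327) (nat_lit 294) (nat_lit 99))) (XT.nd (nat_lit 78) (nat_lit 0) (nat_lit 0) (XT.lf (nat_lit 0) (nat_lit 1257700873) (nat_lit 228) (nat_lit 5749053647) (nat_lit 304) (nat_lit 154671387159) (nat_lit 20) (nat_lit 5) (nat_lit 23) (nat_lit 5) (nat_lit 24) (nat_lit 5) (nat_lit 328) (nat_lit 294) (nat_lit 98)) (XT.lf (nat_lit 0) (nat_lit 24411203341) (nat_lit 304) (nat_lit 109819674255) (nat_lit 76) (nat_lit 33382910924) (nat_lit 20) (nat_lit 5) (nat_lit 24) (nat_lit 5) (nat_lit 21) (nat_lit 5) (nat_lit 329) (nat_lit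 294) (nat_lit 97)))))))
noncomputable def xc208 : XT := (XT.nd (nat_lit 35958) (nat_lit 0) (nat_lit 456) (XT.nd (nat_lit 35334) (nat_lit 0) (nat_lit 2052) (XT.nd (nat_lit 35022) (nat_lit 0) (nat_lit 2964) (XT.nd (nat_lit 34866) (nat_lit 0) (nat_lit 2888) (XT.nd (nat_lit 34788) (nat_lit 0) (nat_lit 2888) (XT.lf (nat_lit 0) (nat_lit 42779854015) (nat_lit 304) (nat_lit 56783490947) (nat_lit 76) (nat_lit 74278174853) (nat_lit 20) (nat_lit 5) (nat_lit 24) (nat_lit 5) (nat_lit 21) (nat_lit 5) (nat_lit 330) (nat_lit 294) (nat_lit 96)) (XT.lf (nat_lit 0) (nat_lit 24951035554) (nat_lit 684) (nat_lit 2648299278) (nat_lit 684) (nat_lit 2648299278) (nat_lit 58) (nat_lit 3) (nat_lit 67) (nat_lit 3) (nat_lit 67) (nat_lit 5) (nat_lit 295) (nat_lit 295) (nat_lit 130))) (XT.nd (nat_lit 78) (nat_lit 0) (nat_lit 0) (XT.lf (nat_lit 76) (nat_lit 18671472053) (nat_lit 0) (nat_lit 32784777053) (nat_lit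 684) (nat_lit 10535976377) (nat_lit 59) (nat_lit 5) (nat_lit 58) (nat_lit 3) (nat_lit 67) (nat_lit 5) (nat_lit 296) (nat_lit 295) (nat_lit 129)) (XT.lf (nat_lit 76) (nat_lit 44021304394) (nat_lit 0) (nat_lit 9155556458) (nat_lit 684) (nat_lit 10382739474) (nat_lit 59) (nat_lit 5) (nat_lit 58) (nat_lit 3) (nat_lit 67) (nat_lit 5) (nat_lit 297) (nat_lit 295) (nat_lit 128)))) (XT.nd (nat_lit 156) (nat_lit 0) (nat_lit 0) (XT.nd (nat_lit 78) (nat_lit 0) (nat_lit 0) (XT.lf (nat_lit 76) (nat_lit 5359851372) (nat_lit 0) (nat_lit 49950832000) (nat_lit 684) (nat_lit 9878307209) (nat_lit 60) (nat_lit 5) (nat_lit 59) (nat_lit 5) (nat_lit 68) (nat_lit 5) (nat_lit 298) (nat_lit 295) (nat_lit 127)) (XT.lf (nat_lit 76) (nat_lit 32025625431) (nat_lit 0) (nat_lit 26003245160) (nat_lit 684) (nat_lit 8847101487) (nat_lit 60) (nat_lit 5) (nat_lit 59) (nat_lit 5) (nat_lit 68) (nat_lit 5) (nat_lit 299)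 (nat_lit 295) (nat_lit 126))) (XT.nd (nat_lit 78) (nat_lit 0) (nat_lit 76) (XT.lf (nat_lit 76) (nat_lit 60024162143) (nat_lit 0) (nat_lit 857960085) (nat_lit 684) (nat_lit 7765227817) (nat_lit 60) (nat_lit 5) (nat_lit 59) (nat_lit 5) (nat_lit 68) (nat_lit 5) (nat_lit 300) (nat_lit 295) (nat_lit 125)) (XT.lf (nat_lit 76) (nat_lit 19128176375) (nat_lit 0) (nat_lit 45446527175) (nat_lit 684) (nat_lit 5897764910) (nat_lit 61) (nat_lit 5) (nat_lit 60) (nat_lit 5) (nat_lit 69) (nat_lit 5) (nat_lit 301) (nat_lit 295) (nat_lit 124))))) (XT.nd (nat_lit 312) (nat_lit 380) (nat_lit 0) (XT.nd (nat_lit 156) (nat_lit 608) (nat_lit 0) (XT.nd (nat_lit 78) (nat_lit 0) (nat_lit 76) (XT.lf (nat_lit 76) (nat_lit 48551414514) (nat_lit 0) (nat_lit 20059605017) (nat_lit 684) (nat_lit 3769872657) (nat_lit 61) (nat_lit 5) (nat_lit 60) (nat_lit 5) (nat_lit 69) (nat_lit 5) (nat_lit 302) (nat_lit 295) (nat_lit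 123)) (XT.lf (nat_lit 76) (nat_lit 5121442487) (nat_lit 0) (nat_lit 67909931039) (nat_lit 684) (nat_lit 1344256914) (nat_lit 62) (nat_lit 5) (nat_lit 61) (nat_lit 5) (nat_lit 70) (nat_lit 5) (nat_lit 303) (nat_lit 295) (nat_lit 122))) (XT.nd (nat_lit 78) (nat_lit 0) (nat_lit 0) (XT.lf (nat_lit 0) (nat_lit 1902453416) (nat_lit 684) (nat_lit 40457530963) (nat_lit 760) (nat_lit 34072271143) (nat_lit 52) (nat_lit 5) (nat_lit 61) (nat_lit 5) (nat_lit 62) (nat_lit 5) (nat_lit 304) (nat_lit 295) (nat_lit 121)) (XT.lf (nat_lit 0) (nat_lit 5265637953) (nat_lit 684) (nat_lit 10243630028) (nat_lit 760) (nat_lit 63081380144) (nat_lit 52) (nat_lit 5) (nat_lit 61) (nat_lit 5) (nat_lit 62) (nat_lit 5) (nat_lit 305) (nat_lit 295) (nat_lit 120)))) (XT.nd (nat_lit 156) (nat_lit 456) (nat_lit 0) (XT.nd (nat_lit 78) (nat_lit 0) (nat_lit 0) (XT.lf (nat_lit 0) (nat_lit 9346501786) (nat_lit 684) (nat_lit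 58852707208) (nat_lit 76) (nat_lit 12630279021) (nat_lit 53) (nat_lit 5) (nat_lit 62) (nat_lit 5) (nat_lit 54) (nat_lit 5) (nat_lit 306) (nat_lit 295) (nat_lit 119)) (XT.lf (nat_lit 0) (nat_lit 14061355832) (nat_lit 684) (nat_lit 27265396093) (nat_lit 76) (nat_lit 41832024107) (nat_lit 53) (nat_lit 5) (nat_lit 62) (nat_lit 5) (nat_lit 54) (nat_lit 5) (nat_lit 307) (nat_lit 295) (nat_lit 118))) (XT.nd (nat_lit 78) (nat_lit 0) (nat_lit 0) (XT.lf (nat_lit 0) (nat_lit 6095858615) (nat_lit 456) (nat_lit 13010669258) (nat_lit 532) (nat_lit 66493275134) (nat_lit 47) (nat_lit 5) (nat_lit 53) (nat_lit 5) (nat_lit 54) (nat_lit 5) (nat_lit 308) (nat_lit 295) (nat_lit 117)) (XT.lf (nat_lit 0) (nat_lit 25133769128) (nat_lit 532) (nat_lit 46337211401) (nat_lit 76) (nat_lit 16655413432) (nat_lit 47) (nat_lit 5) (nat_lit 54) (nat_lit 5) (nat_lit 48) (nat_lit 5) (nat_lit 309) (nat_lit 295) (nat_lit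 116)))))) (XT.nd (nat_lit 624) (nat_lit 760) (nat_lit 0) (XT.nd (nat_lit 312) (nat_lit 228) (nat_lit 0) (XT.nd (nat_lit 156) (nat_lit 304) (nat_lit 0) (XT.nd (nat_lit 78) (nat_lit 304) (nat_lit 0) (XT.lf (nat_lit 0) (nat_lit 31675112727) (nat_lit 532) (nat_lit 11725957102) (nat_lit 76) (nat_lit 47367610630) (nat_lit 47) (nat_lit 5) (nat_lit 54) (nat_lit 5) (nat_lit 48) (nat_lit 5) (nat_lit 310) (nat_lit 295) (nat_lit 115)) (XT.lf (nat_lit 0) (nat_lit 25429254204) (nat_lit 304) (nat_lit 13510768008) (nat_lit 380) (nat_lit 54583237003) (nat_lit 43) (nat_lit 5) (nat_lit 47) (nat_lit 5) (nat_lit 48) (nat_lit 5) (nat_lit 311) (nat_lit 295) (nat_lit 114))) (XT.nd (nat_lit 78) (nat_lit 304) (nat_lit 0) (XT.lf (nat_lit 0) (nat_lit 47048575630) (nat_lit 380) (nat_lit 31839153139) (nat_lit 76) (nat_lit 17503820948) (nat_lit 43) (nat_lit 5) (nat_lit 48) (nat_lit 5) (nat_lit 44) (nat_lit 5) (nat_lit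 312) (nat_lit 295) (nat_lit 113)) (XT.lf (nat_lit 0) (nat_lit 6205057916) (nat_lit 304) (nat_lit 49675383448) (nat_lit 380) (nat_lit 43506921749) (nat_lit 39) (nat_lit 5) (nat_lit 43) (nat_lit 5) (nat_lit 44) (nat_lit 5) (nat_lit 313) (nat_lit 295) (nat_lit 112)))) (XT.nd (nat_lit 156) (nat_lit 228) (nat_lit 0) (XT.nd (nat_lit 78) (nat_lit 0) (nat_lit 0) (XT.lf (nat_lit 0) (nat_lit 47256375013) (nat_lit 304) (nat_lit 18436270456) (nat_lit 380) (nat_lit 36813386932) (nat_lit 39) (nat_lit 5) (nat_lit 43) (nat_lit 5) (nat_lit 44) (nat_lit 5) (nat_lit 314) (nat_lit 295) (nat_lit 111)) (XT.lf (nat_lit 0) (nat_lit 76219290045) (nat_lit 380) (nat_lit 15645140968) (nat_lit 76) (nat_lit 13905014988) (nat_lit 39) (nat_lit 5) (nat_lit 44) (nat_lit 5) (nat_lit 40) (nat_lit 5) (nat_lit 315) (nat_lit 295) (nat_lit 110))) (XT.nd (nat_lit 78) (nat_lit 0) (nat_lit 0) (XT.lf (nat_lit 0) (nat_lit 26484573343)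 (nat_lit 228) (nat_lit 61503002534) (nat_lit 304) (nat_lit 21172691198) (nat_lit 36) (nat_lit 5) (nat_lit 39) (nat_lit 5) (nat_lit 40) (nat_lit 5) (nat_lit 316) (nat_lit 295) (nat_lit 109)) (XT.lf (nat_lit 0) (nat_lit 71263479115) (nat_lit 228) (nat_lit 29345344597) (nat_lit 304) (nat_lit 12098580245) (nat_lit 36) (nat_lit 5) (nat_lit 39) (nat_lit 5) (nat_lit 40) (nat_lit 5) (nat_lit 317) (nat_lit 295) (nat_lit 108))))) (XT.nd (nat_lit 312) (nat_lit 228) (nat_lit 0) (XT.nd (nat_lit 156) (nat_lit 228) (nat_lit 0) (XT.nd (nat_lit 78) (nat_lit 76) (nat_lit 0) (XT.lf (nat_lit 0) (nat_lit 1838817206) (nat_lit 228) (nat_lit 112119645978) (nat_lit 304) (nat_lit 2468570075) (nat_lit 33) (nat_lit 5) (nat_lit 36) (nat_lit 5) (nat_lit 37) (nat_lit 5) (nat_lit 318) (nat_lit 295) (nat_lit 107)) (XT.lf (nat_lit 0) (nat_lit 8592381046) (nat_lit 304) (nat_lit 72185384163) (nat_lit 76) (nat_lit 39489211167)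 (nat_lit 32) (nat_lit 5) (nat_lit 36) (nat_lit 5) (nat_lit 33) (nat_lit 5) (nat_lit 319) (nat_lit 295) (nat_lit 106))) (XT.nd (nat_lit 78) (nat_lit 228) (nat_lit 0) (XT.lf (nat_lit 0) (nat_lit 20123050075) (nat_lit 304) (nat_lit 27703321487) (nat_lit 76) (nat_lit 76470541905) (nat_lit 32) (nat_lit 5) (nat_lit 36) (nat_lit 5) (nat_lit 33) (nat_lit 5) (nat_lit 320) (nat_lit 295) (nat_lit 105)) (XT.lf (nat_lit 0) (nat_lit 19630728865) (nat_lit 228) (nat_lit 12905662470) (nat_lit 304) (nat_lit 95976650813) (nat_lit 29) (nat_lit 5) (nat_lit 32) (nat_lit 5) (nat_lit 33) (nat_lit 5) (nat_lit 321) (nat_lit 295) (nat_lit 104)))) (XT.nd (nat_lit 156) (nat_lit 228) (nat_lit 0) (XT.nd (nat_lit 78) (nat_lit 0) (nat_lit 0) (XT.lf (nat_lit 0) (nat_lit 46417894427) (nat_lit 304) (nat_lit 63002340805) (nat_lit 76) (nat_lit 23477368891) (nat_lit 29) (nat_lit 5) (nat_lit 33) (nat_lit 5) (nat_lit 30)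 (nat_lit 5) (nat_lit 322) (nat_lit 295) (nat_lit 103)) (XT.lf (nat_lit 0) (nat_lit 61204714467) (nat_lit 304) (nat_lit 15040349483) (nat_lit 76) (nat_lit 61245769677) (nat_lit 29) (nat_lit 5) (nat_lit 33) (nat_lit 5) (nat_lit 30) (nat_lit 5) (nat_lit 323) (nat_lit 295) (nat_lit 102))) (XT.nd (nat_lit 78) (nat_lit 0) (nat_lit 0) (XT.lf (nat_lit 0) (nat_lit 36487166658) (nat_lit 228) (nat_lit 40813064878) (nat_lit 304) (nat_lit 64985026718) (nat_lit 26) (nat_lit 5) (nat_lit 29) (nat_lit 5) (nat_lit 30) (nat_lit 5) (nat_lit 324) (nat_lit 295) (nat_lit 101)) (XT.nd (nat_lit 78) (nat_lit 0) (nat_lit 0) (XT.lf (nat_lit 0) (nat_lit 91112839954) (nat_lit 228) (nat_lit 3342097986) (nat_lit 304) (nat_lit 52851746877) (nat_lit 26) (nat_lit 5) (nat_lit 29) (nat_lit 5) (nat_lit 30) (nat_lit 5) (nat_lit 325) (nat_lit 295) (nat_lit 100)) (XT.lf (nat_lit 0) (nat_lit 113029189324) (nat_lit 304) (nat_lit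 4671866143) (nat_lit 76) (nat_lit 34850038071) (nat_lit 26) (nat_lit 5) (nat_lit 30) (nat_lit 5) (nat_lit 27) (nat_lit 5) (nat_lit 326) (nat_lit 295) (nat_lit 99))))))))
noncomputable def xc209 : XT := (XT.nd (nat_lit 36036) (nat_lit 0) (nat_lit 684) (XT.nd (nat_lit 35412) (nat_lit 0) (nat_lit 2432) (XT.nd (nat_lit 35100) (nat_lit 0) (nat_lit 2888) (XT.nd (nat_lit 156) (nat_lit 304) (nat_lit 0) (XT.nd (nat_lit 78) (nat_lit 0) (nat_lit 0) (XT.lf (nat_lit 0) (nat_lit 51003489670) (nat_lit 152) (nat_lit 82379484300) (nat_lit 228) (nat_lit 24632208944) (nat_lit 24) (nat_lit 5) (nat_lit 26) (nat_lit 5) (nat_lit 27) (nat_lit 5) (nat_lit 327) (nat_lit 295) (nat_lit 98)) (XT.lf (nat_lit 0) (nat_lit 109624452239) (nat_lit 152) (nat_lit 45208848234) (nat_lit 228) (nat_lit 8915234844) (nat_lit 24) (nat_lit 5) (nat_lit 26) (nat_lit 5) (nat_lit 27) (nat_lit 5) (nat_lit 328) (nat_lit 295) (nat_lit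 97))) (XT.nd (nat_lit 78) (nat_lit 0) (nat_lit 0) (XT.lf (nat_lit 0) (nat_lit 1331717011) (nat_lit 228) (nat_lit 6033552363) (nat_lit 304) (nat_lit 162396337292) (nat_lit 20) (nat_lit 5) (nat_lit 23) (nat_lit 5) (nat_lit 24) (nat_lit 5) (nat_lit 329) (nat_lit 295) (nat_lit 96)) (XT.lf (nat_lit 0) (nat_lit 25639595173) (nat_lit 304) (nat_lit 115299679804) (nat_lit 76) (nat_lit 35054779729) (nat_lit 20) (nat_lit 5) (nat_lit 24) (nat_lit 5) (nat_lit 21) (nat_lit 5) (nat_lit 330) (nat_lit 295) (nat_lit 95)))) (XT.nd (nat_lit 156) (nat_lit 0) (nat_lit 0) (XT.nd (nat_lit 78) (nat_lit 0) (nat_lit 0) (XT.lf (nat_lit 0) (nat_lit 26213463602) (nat_lit 684) (nat_lit 2772858360) (nat_lit 684) (nat_lit 2772858360) (nat_lit 58) (nat_lit 3) (nat_lit 67) (nat_lit 3) (nat_lit 67) (nat_lit 5) (nat_lit 296) (nat_lit 296) (nat_lit 128)) (XT.lf (nat_lit 76) (nat_lit 19620504003) (nat_lit 0) (nat_lit 34437134659)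 (nat_lit 684) (nat_lit 11032594613) (nat_lit 59) (nat_lit 5) (nat_lit 58) (nat_lit 3) (nat_lit 67) (nat_lit 5) (nat_lit 297) (nat_lit 296) (nat_lit 127))) (XT.nd (nat_lit 78) (nat_lit 0) (nat_lit 76) (XT.lf (nat_lit 76) (nat_lit 46237091850) (nat_lit 0) (nat_lit 9625828332) (nat_lit 684) (nat_lit 10873133036) (nat_lit 59) (nat_lit 5) (nat_lit 58) (nat_lit 3) (nat_lit 67) (nat_lit 5) (nat_lit 298) (nat_lit 296) (nat_lit 126)) (XT.lf (nat_lit 76) (nat_lit 5644023137) (nat_lit 0) (nat_lit 52458181501) (nat_lit 684) (nat_lit 10344777726) (nat_lit 60) (nat_lit 5) (nat_lit 59) (nat_lit 5) (nat_lit 68) (nat_lit 5) (nat_lit 299) (nat_lit 296) (nat_lit 125))))) (XT.nd (nat_lit 312) (nat_lit 532) (nat_lit 0) (XT.nd (nat_lit 156) (nat_lit 0) (nat_lit 76) (XT.nd (nat_lit 78) (nat_lit 0) (nat_lit 0) (XT.lf (nat_lit 76) (nat_lit 33642315460) (nat_lit 0) (nat_lit 27312748276) (nat_lit 684) (nat_lit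 9263318615) (nat_lit 60) (nat_lit 5) (nat_lit 59) (nat_lit 5) (nat_lit 68) (nat_lit 5) (nat_lit 300) (nat_lit 296) (nat_lit 124)) (XT.lf (nat_lit 76) (nat_lit 63040045258) (nat_lit 0) (nat_lit 909754144) (nat_lit 684) (nat_lit 8128595925) (nat_lit 60) (nat_lit 5) (nat_lit 59) (nat_lit 5) (nat_lit 68) (nat_lit 5) (nat_lit 301) (nat_lit 296) (nat_lit 123))) (XT.nd (nat_lit 78) (nat_lit 0) (nat_lit 0) (XT.lf (nat_lit 76) (nat_lit 20100461053) (nat_lit 0) (nat_lit 47725541895) (nat_lit 684) (nat_lit 6168823900) (nat_lit 61) (nat_lit 5) (nat_lit 60) (nat_lit 5) (nat_lit 69) (nat_lit 5) (nat_lit 302) (nat_lit 296) (nat_lit 122)) (XT.lf (nat_lit 76) (nat_lit 50994105105) (nat_lit 0) (nat_lit 21068955135) (nat_lit 684) (nat_lit 3935671761) (nat_lit 61) (nat_lit 5) (nat_lit 60) (nat_lit 5) (nat_lit 69) (nat_lit 5) (nat_lit 303) (nat_lit 296) (nat_lit 121)))) (XT.nd (nat_lit 156) (nat_lit 0)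 (nat_lit 0) (XT.nd (nat_lit 78) (nat_lit 684) (nat_lit 0) (XT.lf (nat_lit 76) (nat_lit 5393673820) (nat_lit 0) (nat_lit 71309892370) (nat_lit 684) (nat_lit 1389690469) (nat_lit 62) (nat_lit 5) (nat_lit 61) (nat_lit 5) (nat_lit 70) (nat_lit 5) (nat_lit 304) (nat_lit 296) (nat_lit 120)) (XT.lf (nat_lit 0) (nat_lit 2017654390) (nat_lit 684) (nat_lit 42464241344) (nat_lit 760) (nat_lit 35770856084) (nat_lit 52) (nat_lit 5) (nat_lit 61) (nat_lit 5) (nat_lit 62) (nat_lit 5) (nat_lit 305) (nat_lit 296) (nat_lit 119))) (XT.nd (nat_lit 78) (nat_lit 0) (nat_lit 76) (XT.lf (nat_lit 0) (nat_lit 5548042044) (nat_lit 684) (nat_lit 10740415179) (nat_lit 760) (nat_lit 66230659993) (nat_lit 52) (nat_lit 5) (nat_lit 61) (nat_lit 5) (nat_lit 62) (nat_lit 5) (nat_lit 306) (nat_lit 296) (nat_lit 118)) (XT.lf (nat_lit 0) (nat_lit 9832223467) (nat_lit 684) (nat_lit 61779118516) (nat_lit 76) (nat_lit 13258598502)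 (nat_lit 53) (nat_lit 5) (nat_lit 62) (nat_lit 5) (nat_lit 54) (nat_lit 5) (nat_lit 307) (nat_lit 296) (nat_lit 117)))))) (XT.nd (nat_lit 624) (nat_lit 760) (nat_lit 0) (XT.nd (nat_lit 312) (nat_lit 608) (nat_lit 0) (XT.nd (nat_lit 156) (nat_lit 0) (nat_lit 0) (XT.nd (nat_lit 78) (nat_lit 456) (nat_lit 0) (XT.lf (nat_lit 0) (nat_lit 14781944187) (nat_lit 684) (nat_lit 28613214419) (nat_lit 76) (nat_lit 43920582961) (nat_lit 53) (nat_lit 5) (nat_lit 62) (nat_lit 5) (nat_lit 54) (nat_lit 5) (nat_lit 308) (nat_lit 296) (nat_lit 116)) (XT.lf (nat_lit 0) (nat_lit 6415853806) (nat_lit 456) (nat_lit 13662924060) (nat_lit 532) (nat_lit 69800076502) (nat_lit 47) (nat_lit 5) (nat_lit 53) (nat_lit 5) (nat_lit 54) (nat_lit 5) (nat_lit 309) (nat_lit 296) (nat_lit 115))) (XT.nd (nat_lit 78) (nat_lit 0) (nat_lit 0) (XT.lf (nat_lit 0) (nat_lit 26406549704) (nat_lit 532) (nat_lit 48638673948) (nat_lit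 76) (nat_lit 17486597202) (nat_lit 47) (nat_lit 5) (nat_lit 54) (nat_lit 5) (nat_lit 48) (nat_lit 5) (nat_lit 310) (nat_lit 296) (nat_lit 114)) (XT.lf (nat_lit 0) (nat_lit 33274194192) (nat_lit 532) (nat_lit 12297590173) (nat_lit 76) (nat_lit 49734479827) (nat_lit 47) (nat_lit 5) (nat_lit 54) (nat_lit 5) (nat_lit 48) (nat_lit 5) (nat_lit 311) (nat_lit 296) (nat_lit 113)))) (XT.nd (nat_lit 156) (nat_lit 304) (nat_lit 0) (XT.nd (nat_lit 78) (nat_lit 0) (nat_lit 0) (XT.lf (nat_lit 0) (nat_lit 26715145170) (nat_lit 304) (nat_lit 14186699445) (nat_lit 380) (nat_lit 57296756497) (nat_lit 43) (nat_lit 5) (nat_lit 47) (nat_lit 5) (nat_lit 48) (nat_lit 5) (nat_lit 312) (nat_lit 296) (nat_lit 112)) (XT.lf (nat_lit 0) (nat_lit 49415114084) (nat_lit 380) (nat_lit 33416581791) (nat_lit 76) (nat_lit 18378649655) (nat_lit 43) (nat_lit 5) (nat_lit 48) (nat_lit 5) (nat_lit 44) (nat_lit 5) (nat_lit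 313) (nat_lit 296) (nat_lit 111))) (XT.nd (nat_lit 78) (nat_lit 0) (nat_lit 0) (XT.lf (nat_lit 0) (nat_lit 6529605478) (nat_lit 304) (nat_lit 52158518917) (nat_lit 380) (nat_lit 45667851264) (nat_lit 39) (nat_lit 5) (nat_lit 43) (nat_lit 5) (nat_lit 44) (nat_lit 5) (nat_lit 314) (nat_lit 296) (nat_lit 110)) (XT.lf (nat_lit 0) (nat_lit 49632807732) (nat_lit 304) (nat_lit 19357480452) (nat_lit 380) (nat_lit 38640326210) (nat_lit 39) (nat_lit 5) (nat_lit 43) (nat_lit 5) (nat_lit 44) (nat_lit 5) (nat_lit 315) (nat_lit 296) (nat_lit 109))))) (XT.nd (nat_lit 312) (nat_lit 304) (nat_lit 0) (XT.nd (nat_lit 156) (nat_lit 228) (nat_lit 0) (XT.nd (nat_lit 78) (nat_lit 228) (nat_lit 0) (XT.lf (nat_lit 0) (nat_lit 80042654418) (nat_lit 380) (nat_lit 16413755947) (nat_lit 76) (nat_lit 14600822127) (nat_lit 39) (nat_lit 5) (nat_lit 44) (nat_lit 5) (nat_lit 40) (nat_lit 5) (nat_lit 316) (nat_lit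 296) (nat_lit 108)) (XT.lf (nat_lit 0) (nat_lit 27822224047) (nat_lit 228) (nat_lit 64576749581) (nat_lit 304) (nat_lit 22218643173) (nat_lit 36) (nat_lit 5) (nat_lit 39) (nat_lit 5) (nat_lit 40) (nat_lit 5) (nat_lit 317) (nat_lit 296) (nat_lit 107))) (XT.nd (nat_lit 78) (nat_lit 228) (nat_lit 0) (XT.lf (nat_lit 0) (nat_lit 74839435963) (nat_lit 228) (nat_lit 30811275560) (nat_lit 304) (nat_lit 12691430605) (nat_lit 36) (nat_lit 5) (nat_lit 39) (nat_lit 5) (nat_lit 40) (nat_lit 5) (nat_lit 318) (nat_lit 296) (nat_lit 106)) (XT.lf (nat_lit 0) (nat_lit 1943936089) (nat_lit 228) (nat_lit 117723577417) (nat_lit 304) (nat_lit 2580258205) (nat_lit 33) (nat_lit 5) (nat_lit 36) (nat_lit 5) (nat_lit 37) (nat_lit 5) (nat_lit 319) (nat_lit 296) (nat_lit 105)))) (XT.nd (nat_lit 156) (nat_lit 228) (nat_lit 0) (XT.nd (nat_lit 78) (nat_lit 0) (nat_lit 0) (XT.lf (nat_lit 0) (nat_lit 9032823535) (nat_lit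 304) (nat_lit 75781693434) (nat_lit 76) (nat_lit 41465215486) (nat_lit 32) (nat_lit 5) (nat_lit 36) (nat_lit 5) (nat_lit 33) (nat_lit 5) (nat_lit 320) (nat_lit 296) (nat_lit 104)) (XT.lf (nat_lit 0) (nat_lit 21139510614) (nat_lit 304) (nat_lit 29076144763) (nat_lit 76) (nat_lit 80295539248) (nat_lit 32) (nat_lit 5) (nat_lit 36) (nat_lit 5) (nat_lit 33) (nat_lit 5) (nat_lit 321) (nat_lit 296) (nat_lit 103))) (XT.nd (nat_lit 78) (nat_lit 0) (nat_lit 0) (XT.lf (nat_lit 0) (nat_lit 20624409029) (nat_lit 228) (nat_lit 13548808647) (nat_lit 304) (nat_lit 100764929467) (nat_lit 29) (nat_lit 5) (nat_lit 32) (nat_lit 5) (nat_lit 33) (nat_lit 5) (nat_lit 322) (nat_lit 296) (nat_lit 102)) (XT.lf (nat_lit 0) (nat_lit 48748351184) (nat_lit 304) (nat_lit 66140403113) (nat_lit 76) (nat_lit 24653207383) (nat_lit 29) (nat_lit 5) (nat_lit 33) (nat_lit 5) (nat_lit 30) (nat_lit 5) (nat_lit 323) (nat_lit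 296) (nat_lit 101)))))))
noncomputable def xc210 : XT := (XT.nd (nat_lit 36192) (nat_lit 0) (nat_lit 380) (XT.nd (nat_lit 35568) (nat_lit 0) (nat_lit 2128) (XT.nd (nat_lit 312) (nat_lit 152) (nat_lit 0) (XT.nd (nat_lit 156) (nat_lit 0) (nat_lit 0) (XT.nd (nat_lit 78) (nat_lit 228) (nat_lit 0) (XT.lf (nat_lit 0) (nat_lit 64274056891) (nat_lit 304) (nat_lit 15780886260) (nat_lit 76) (nat_lit 64309934398) (nat_lit 29) (nat_lit 5) (nat_lit 33) (nat_lit 5) (nat_lit 30) (nat_lit 5) (nat_lit 324) (nat_lit 296) (nat_lit 100)) (XT.lf (nat_lit 0) (nat_lit 38322820515) (nat_lit 228) (nat_lit 42851272000) (nat_lit 304) (nat_lit 68224945776) (nat_lit 26) (nat_lit 5) (nat_lit 29) (nat_lit 5) (nat_lit 30) (nat_lit 5) (nat_lit 325) (nat_lit 296) (nat_lit 99))) (XT.nd (nat_lit 78) (nat_lit 0) (nat_lit 0) (XT.lf (nat_lit 0) (nat_lit 95679239594) (nat_lit 228) (nat_lit 3506873245) (nat_lit 304) (nat_lit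 55485446337) (nat_lit 26) (nat_lit 5) (nat_lit 29) (nat_lit 5) (nat_lit 30) (nat_lit 5) (nat_lit 326) (nat_lit 296) (nat_lit 98)) (XT.lf (nat_lit 0) (nat_lit 118688710100) (nat_lit 304) (nat_lit 4894810735) (nat_lit 76) (nat_lit 36594687667) (nat_lit 26) (nat_lit 5) (nat_lit 30) (nat_lit 5) (nat_lit 27) (nat_lit 5) (nat_lit 327) (nat_lit 296) (nat_lit 97)))) (XT.nd (nat_lit 35100) (nat_lit 0) (nat_lit 2584) (XT.nd (nat_lit 78) (nat_lit 0) (nat_lit 0) (XT.lf (nat_lit 0) (nat_lit 53564141116) (nat_lit 152) (nat_lit 86495822565) (nat_lit 228) (nat_lit 25855551424) (nat_lit 24) (nat_lit 5) (nat_lit 26) (nat_lit 5) (nat_lit 27) (nat_lit 5) (nat_lit 328) (nat_lit 296) (nat_lit 96)) (XT.lf (nat_lit 0) (nat_lit 115115652910) (nat_lit 152) (nat_lit 47466780218) (nat_lit 228) (nat_lit 9353122332) (nat_lit 24) (nat_lit 5) (nat_lit 26) (nat_lit 5) (nat_lit 27) (nat_lit 5) (nat_lit 329) (nat_lit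 296) (nat_lit 95))) (XT.nd (nat_lit 78) (nat_lit 0) (nat_lit 0) (XT.lf (nat_lit 0) (nat_lit 27537629998) (nat_lit 684) (nat_lit 2904375762) (nat_lit 684) (nat_lit 2904375762) (nat_lit 58) (nat_lit 3) (nat_lit 67) (nat_lit 3) (nat_lit 67) (nat_lit 5) (nat_lit 297) (nat_lit 297) (nat_lit 126)) (XT.lf (nat_lit 76) (nat_lit 20615550380) (nat_lit 0) (nat_lit 36170890488) (nat_lit 684) (nat_lit 11556849666) (nat_lit 59) (nat_lit 5) (nat_lit 58) (nat_lit 3) (nat_lit 67) (nat_lit 5) (nat_lit 298) (nat_lit 297) (nat_lit 125))))) (XT.nd (nat_lit 312) (nat_lit 456) (nat_lit 0) (XT.nd (nat_lit 156) (nat_lit 0) (nat_lit 76) (XT.nd (nat_lit 78) (nat_lit 0) (nat_lit 76) (XT.lf (nat_lit 76) (nat_lit 48562299944) (nat_lit 0) (nat_lit 10118452221) (nat_lit 684) (nat_lit 11390718565) (nat_lit 59) (nat_lit 5) (nat_lit 58) (nat_lit 3) (nat_lit 67) (nat_lit 5) (nat_lit 299) (nat_lit 297) (nat_lit 124))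 (XT.lf (nat_lit 76) (nat_lit 5940899301) (nat_lit 0) (nat_lit 55089986632) (nat_lit 684) (nat_lit 10837123329) (nat_lit 60) (nat_lit 5) (nat_lit 59) (nat_lit 5) (nat_lit 68) (nat_lit 5) (nat_lit 300) (nat_lit 297) (nat_lit 123))) (XT.nd (nat_lit 78) (nat_lit 0) (nat_lit 0) (XT.lf (nat_lit 76) (nat_lit 35338407431) (nat_lit 0) (nat_lit 28686858124) (nat_lit 684) (nat_lit 9702776657) (nat_lit 60) (nat_lit 5) (nat_lit 59) (nat_lit 5) (nat_lit 68) (nat_lit 5) (nat_lit 301) (nat_lit 297) (nat_lit 122)) (XT.lf (nat_lit 76) (nat_lit 66205358186) (nat_lit 0) (nat_lit 963310836) (nat_lit 684) (nat_lit 8512446780) (nat_lit 60) (nat_lit 5) (nat_lit 59) (nat_lit 5) (nat_lit 68) (nat_lit 5) (nat_lit 302) (nat_lit 297) (nat_lit 121)))) (XT.nd (nat_lit 156) (nat_lit 608) (nat_lit 0) (XT.nd (nat_lit 78) (nat_lit 0) (nat_lit 0) (XT.lf (nat_lit 76) (nat_lit 21119883977) (nat_lit 0) (nat_lit 50117885530)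 (nat_lit 684) (nat_lit 6455651258) (nat_lit 61) (nat_lit 5) (nat_lit 60) (nat_lit 5) (nat_lit 69) (nat_lit 5) (nat_lit 303) (nat_lit 297) (nat_lit 120)) (XT.lf (nat_lit 76) (nat_lit 53557524525) (nat_lit 0) (nat_lit 22128180549) (nat_lit 684) (nat_lit 4111870742) (nat_lit 61) (nat_lit 5) (nat_lit 60) (nat_lit 5) (nat_lit 69) (nat_lit 5) (nat_lit 304) (nat_lit 297) (nat_lit 119))) (XT.nd (nat_lit 78) (nat_lit 684) (nat_lit 0) (XT.lf (nat_lit 76) (nat_lit 5678014389) (nat_lit 0) (nat_lit 74879436675) (nat_lit 684) (nat_lit 1439420534) (nat_lit 62) (nat_lit 5) (nat_lit 61) (nat_lit 5) (nat_lit 70) (nat_lit 5) (nat_lit 305) (nat_lit 297) (nat_lit 118)) (XT.lf (nat_lit 0) (nat_lit 2136748722) (nat_lit 684) (nat_lit 44572790220) (nat_lit 760) (nat_lit 37554837785) (nat_lit 52) (nat_lit 5) (nat_lit 61) (nat_lit 5) (nat_lit 62) (nat_lit 5) (nat_lit 306) (nat_lit 297) (nat_lit 117)))))) (XT.nd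 (nat_lit 624) (nat_lit 1064) (nat_lit 0) (XT.nd (nat_lit 312) (nat_lit 304) (nat_lit 0) (XT.nd (nat_lit 156) (nat_lit 380) (nat_lit 0) (XT.nd (nat_lit 78) (nat_lit 0) (nat_lit 76) (XT.lf (nat_lit 0) (nat_lit 5842788538) (nat_lit 684) (nat_lit 11263470995) (nat_lit 760) (nat_lit 69537849085) (nat_lit 52) (nat_lit 5) (nat_lit 61) (nat_lit 5) (nat_lit 62) (nat_lit 5) (nat_lit 307) (nat_lit 297) (nat_lit 116)) (XT.lf (nat_lit 0) (nat_lit 10340520891) (nat_lit 684) (nat_lit 64853358748) (nat_lit 76) (nat_lit 13918630949) (nat_lit 53) (nat_lit 5) (nat_lit 62) (nat_lit 5) (nat_lit 54) (nat_lit 5) (nat_lit 308) (nat_lit 297) (nat_lit 115))) (XT.nd (nat_lit 78) (nat_lit 456) (nat_lit 0) (XT.lf (nat_lit 0) (nat_lit 15536933064) (nat_lit 684) (nat_lit 30029860194) (nat_lit 76) (nat_lit 46113852606) (nat_lit 53) (nat_lit 5) (nat_lit 62) (nat_lit 5) (nat_lit 54) (nat_lit 5) (nat_lit 309) (nat_lit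 297) (nat_lit 114)) (XT.lf (nat_lit 0) (nat_lit 6750435396) (nat_lit 456) (nat_lit 14347631569) (nat_lit 532) (nat_lit 73273878613) (nat_lit 47) (nat_lit 5) (nat_lit 53) (nat_lit 5) (nat_lit 54) (nat_lit 5) (nat_lit 310) (nat_lit 297) (nat_lit 113)))) (XT.nd (nat_lit 156) (nat_lit 304) (nat_lit 0) (XT.nd (nat_lit 78) (nat_lit 0) (nat_lit 0) (XT.lf (nat_lit 0) (nat_lit 27741473216) (nat_lit 532) (nat_lit 51056641184) (nat_lit 76) (nat_lit 18359487696) (nat_lit 47) (nat_lit 5) (nat_lit 54) (nat_lit 5) (nat_lit 48) (nat_lit 5) (nat_lit 311) (nat_lit 297) (nat_lit 112)) (XT.lf (nat_lit 0) (nat_lit 34951804879) (nat_lit 532) (nat_lit 12899168291) (nat_lit 76) (nat_lit 52219832994) (nat_lit 47) (nat_lit 5) (nat_lit 54) (nat_lit 5) (nat_lit 48) (nat_lit 5) (nat_lit 312) (nat_lit 297) (nat_lit 111))) (XT.nd (nat_lit 78) (nat_lit 0) (nat_lit 0) (XT.lf (nat_lit 0) (nat_lit 28063989281) (nat_lit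 304) (nat_lit 14896390914) (nat_lit 380) (nat_lit 60147406244) (nat_lit 43) (nat_lit 5) (nat_lit 47) (nat_lit 5) (nat_lit 48) (nat_lit 5) (nat_lit 313) (nat_lit 297) (nat_lit 110)) (XT.lf (nat_lit 0) (nat_lit 51898667677) (nat_lit 380) (nat_lit 35074232645) (nat_lit 76) (nat_lit 19297253484) (nat_lit 43) (nat_lit 5) (nat_lit 48) (nat_lit 5) (nat_lit 44) (nat_lit 5) (nat_lit 314) (nat_lit 297) (nat_lit 109))))) (XT.nd (nat_lit 312) (nat_lit 532) (nat_lit 0) (XT.nd (nat_lit 156) (nat_lit 228) (nat_lit 0) (XT.nd (nat_lit 78) (nat_lit 0) (nat_lit 0) (XT.lf (nat_lit 0) (nat_lit 6869051435) (nat_lit 304) (nat_lit 54765870076) (nat_lit 380) (nat_lit 47938167571) (nat_lit 39) (nat_lit 5) (nat_lit 43) (nat_lit 5) (nat_lit 44) (nat_lit 5) (nat_lit 315) (nat_lit 297) (nat_lit 108)) (XT.lf (nat_lit 0) (nat_lit 52126796388) (nat_lit 304) (nat_lit 20324807059) (nat_lit 380) (nat_lit 40559888943)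 (nat_lit 39) (nat_lit 5) (nat_lit 43) (nat_lit 5) (nat_lit 44) (nat_lit 5) (nat_lit 316) (nat_lit 297) (nat_lit 107))) (XT.nd (nat_lit 78) (nat_lit 228) (nat_lit 0) (XT.lf (nat_lit 0) (nat_lit 84056034187) (nat_lit 380) (nat_lit 17222069985) (nat_lit 76) (nat_lit 15331367896) (nat_lit 39) (nat_lit 5) (nat_lit 44) (nat_lit 5) (nat_lit 40) (nat_lit 5) (nat_lit 317) (nat_lit 297) (nat_lit 106)) (XT.lf (nat_lit 0) (nat_lit 29225509431) (nat_lit 228) (nat_lit 67804314425) (nat_lit 304) (nat_lit 23318071853) (nat_lit 36) (nat_lit 5) (nat_lit 39) (nat_lit 5) (nat_lit 40) (nat_lit 5) (nat_lit 318) (nat_lit 297) (nat_lit 105)))) (XT.nd (nat_lit 156) (nat_lit 304) (nat_lit 0) (XT.nd (nat_lit 78) (nat_lit 228) (nat_lit 0) (XT.lf (nat_lit 0) (nat_lit 78593002220) (nat_lit 228) (nat_lit 32350627305) (nat_lit 304) (nat_lit 13315046442) (nat_lit 36) (nat_lit 5) (nat_lit 39) (nat_lit 5) (nat_lit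 40) (nat_lit 5) (nat_lit 319) (nat_lit 297) (nat_lit 104)) (XT.lf (nat_lit 0) (nat_lit 2053085749) (nat_lit 228) (nat_lit 123607896097) (nat_lit 304) (nat_lit 2698622250) (nat_lit 33) (nat_lit 5) (nat_lit 36) (nat_lit 5) (nat_lit 37) (nat_lit 5) (nat_lit 320) (nat_lit 297) (nat_lit 103))) (XT.nd (nat_lit 78) (nat_lit 228) (nat_lit 0) (XT.lf (nat_lit 0) (nat_lit 9494281888) (nat_lit 304) (nat_lit 79559023060) (nat_lit 76) (nat_lit 43539876497) (nat_lit 32) (nat_lit 5) (nat_lit 36) (nat_lit 5) (nat_lit 33) (nat_lit 5) (nat_lit 321) (nat_lit 297) (nat_lit 102)) (XT.nd (nat_lit 78) (nat_lit 228) (nat_lit 0) (XT.lf (nat_lit 0) (nat_lit 22205835836) (nat_lit 304) (nat_lit 30518756720) (nat_lit 76) (nat_lit 84311649769) (nat_lit 32) (nat_lit 5) (nat_lit 36) (nat_lit 5) (nat_lit 33) (nat_lit 5) (nat_lit 322) (nat_lit 297) (nat_lit 101)) (XT.lf (nat_lit 0) (nat_lit 21666644193) (nat_lit 228)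 (nat_lit 14224310806) (nat_lit 304) (nat_lit 105793603255) (nat_lit 29) (nat_lit 5) (nat_lit 32) (nat_lit 5) (nat_lit 33) (nat_lit 5) (nat_lit 323) (nat_lit 297) (nat_lit 100))))))))
noncomputable def xc211 : XT := (XT.nd (nat_lit 37596) (nat_lit 0) (nat_lit 0) (XT.nd (nat_lit 36348) (nat_lit 0) (nat_lit 228) (XT.nd (nat_lit 35724) (nat_lit 0) (nat_lit 1976) (XT.nd (nat_lit 312) (nat_lit 0) (nat_lit 0) (XT.nd (nat_lit 156) (nat_lit 228) (nat_lit 0) (XT.nd (nat_lit 78) (nat_lit 0) (nat_lit 0) (XT.lf (nat_lit 0) (nat_lit 51194441792) (nat_lit 304) (nat_lit 69436489271) (nat_lit 76) (nat_lit 25887654644) (nat_lit 29) (nat_lit 5) (nat_lit 33) (nat_lit 5) (nat_lit 30) (nat_lit 5) (nat_lit 324) (nat_lit 297) (nat_lit 99)) (XT.lf (nat_lit 0) (nat_lit 67496019782) (nat_lit 304) (nat_lit 16559517242) (nat_lit 76) (nat_lit 67527132919) (nat_lit 29) (nat_lit 5) (nat_lit 33) (nat_lit 5) (nat_lit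 30) (nat_lit 5) (nat_lit 325) (nat_lit 297) (nat_lit 98))) (XT.nd (nat_lit 78) (nat_lit 0) (nat_lit 0) (XT.lf (nat_lit 0) (nat_lit 40249206915) (nat_lit 228) (nat_lit 44991616896) (nat_lit 304) (nat_lit 71627728413) (nat_lit 26) (nat_lit 5) (nat_lit 29) (nat_lit 5) (nat_lit 30) (nat_lit 5) (nat_lit 326) (nat_lit 297) (nat_lit 97)) (XT.lf (nat_lit 0) (nat_lit 100472959073) (nat_lit 228) (nat_lit 3680103856) (nat_lit 304) (nat_lit 58251657081) (nat_lit 26) (nat_lit 5) (nat_lit 29) (nat_lit 5) (nat_lit 30) (nat_lit 5) (nat_lit 327) (nat_lit 297) (nat_lit 96)))) (XT.nd (nat_lit 35256) (nat_lit 0) (nat_lit 2432) (XT.nd (nat_lit 35178) (nat_lit 0) (nat_lit 2432) (XT.lf (nat_lit 0) (nat_lit 124630457451) (nat_lit 304) (nat_lit 5129892573) (nat_lit 76) (nat_lit 38426370070) (nat_lit 26) (nat_lit 5) (nat_lit 30) (nat_lit 5) (nat_lit 27) (nat_lit 5) (nat_lit 328) (nat_lit 297) (nat_lit 95))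 (XT.lf (nat_lit 0) (nat_lit 28926750242) (nat_lit 684) (nat_lit 3043131498) (nat_lit 684) (nat_lit 3043131498) (nat_lit 58) (nat_lit 3) (nat_lit 67) (nat_lit 3) (nat_lit 67) (nat_lit 5) (nat_lit 298) (nat_lit 298) (nat_lit 124))) (XT.nd (nat_lit 78) (nat_lit 0) (nat_lit 0) (XT.lf (nat_lit 76) (nat_lit 21659045519) (nat_lit 0) (nat_lit 37990227844) (nat_lit 684) (nat_lit 12109862509) (nat_lit 59) (nat_lit 5) (nat_lit 58) (nat_lit 3) (nat_lit 67) (nat_lit 5) (nat_lit 299) (nat_lit 298) (nat_lit 123)) (XT.lf (nat_lit 76) (nat_lit 51002526961) (nat_lit 0) (nat_lit 10634653719) (nat_lit 684) (nat_lit 11936607217) (nat_lit 59) (nat_lit 5) (nat_lit 58) (nat_lit 3) (nat_lit 67) (nat_lit 5) (nat_lit 300) (nat_lit 298) (nat_lit 122))))) (XT.nd (nat_lit 312) (nat_lit 532) (nat_lit 0) (XT.nd (nat_lit 156) (nat_lit 0) (nat_lit 0) (XT.nd (nat_lit 78) (nat_lit 0) (nat_lit 0) (XT.lf (nat_lit 76)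 (nat_lit 6251254931) (nat_lit 0) (nat_lit 57852554948) (nat_lit 684) (nat_lit 11356400555) (nat_lit 60) (nat_lit 5) (nat_lit 59) (nat_lit 5) (nat_lit 68) (nat_lit 5) (nat_lit 301) (nat_lit 298) (nat_lit 121)) (XT.lf (nat_lit 76) (nat_lit 37118004626) (nat_lit 0) (nat_lit 30128885777) (nat_lit 684) (nat_lit 10166411737) (nat_lit 60) (nat_lit 5) (nat_lit 59) (nat_lit 5) (nat_lit 68) (nat_lit 5) (nat_lit 302) (nat_lit 298) (nat_lit 120))) (XT.nd (nat_lit 78) (nat_lit 0) (nat_lit 76) (XT.lf (nat_lit 76) (nat_lit 69527699260) (nat_lit 0) (nat_lit 1018795185) (nat_lit 684) (nat_lit 8917589354) (nat_lit 60) (nat_lit 5) (nat_lit 59) (nat_lit 5) (nat_lit 68) (nat_lit 5) (nat_lit 303) (nat_lit 298) (nat_lit 119)) (XT.lf (nat_lit 76) (nat_lit 22188939285) (nat_lit 0) (nat_lit 52629282337) (nat_lit 684) (nat_lit 6758829433) (nat_lit 61) (nat_lit 5) (nat_lit 60) (nat_lit 5) (nat_lit 69) (nat_lit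 5) (nat_lit 304) (nat_lit 298) (nat_lit 118)))) (XT.nd (nat_lit 156) (nat_lit 608) (nat_lit 0) (XT.nd (nat_lit 78) (nat_lit 0) (nat_lit 76) (XT.lf (nat_lit 76) (nat_lit 56247839902) (nat_lit 0) (nat_lit 23239830082) (nat_lit 684) (nat_lit 4298793434) (nat_lit 61) (nat_lit 5) (nat_lit 60) (nat_lit 5) (nat_lit 69) (nat_lit 5) (nat_lit 305) (nat_lit 298) (nat_lit 117)) (XT.lf (nat_lit 76) (nat_lit 5975209329) (nat_lit 0) (nat_lit 78627081693) (nat_lit 684) (nat_lit 1493473684) (nat_lit 62) (nat_lit 5) (nat_lit 61) (nat_lit 5) (nat_lit 70) (nat_lit 5) (nat_lit 306) (nat_lit 298) (nat_lit 116))) (XT.nd (nat_lit 78) (nat_lit 0) (nat_lit 0) (XT.lf (nat_lit 0) (nat_lit 2260104627) (nat_lit 684) (nat_lit 46788129785) (nat_lit 760) (nat_lit 39428442619) (nat_lit 52) (nat_lit 5) (nat_lit 61) (nat_lit 5) (nat_lit 62) (nat_lit 5) (nat_lit 307) (nat_lit 298) (nat_lit 115)) (XT.lf (nat_lit 0) (nat_lit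 6150659841) (nat_lit 684) (nat_lit 11813977929) (nat_lit 760) (nat_lit 73010801487) (nat_lit 52) (nat_lit 5) (nat_lit 61) (nat_lit 5) (nat_lit 62) (nat_lit 5) (nat_lit 308) (nat_lit 298) (nat_lit 114)))))) (XT.nd (nat_lit 624) (nat_lit 760) (nat_lit 0) (XT.nd (nat_lit 312) (nat_lit 608) (nat_lit 0) (XT.nd (nat_lit 156) (nat_lit 456) (nat_lit 0) (XT.nd (nat_lit 78) (nat_lit 0) (nat_lit 0) (XT.lf (nat_lit 0) (nat_lit 10872681857) (nat_lit 684) (nat_lit 68082679117) (nat_lit 76) (nat_lit 14611934399) (nat_lit 53) (nat_lit 5) (nat_lit 62) (nat_lit 5) (nat_lit 54) (nat_lit 5) (nat_lit 309) (nat_lit 298) (nat_lit 113)) (XT.lf (nat_lit 0) (nat_lit 16328193928) (nat_lit 684) (nat_lit 31518641234) (nat_lit 76) (nat_lit 48417042286) (nat_lit 53) (nat_lit 5) (nat_lit 62) (nat_lit 5) (nat_lit 54) (nat_lit 5) (nat_lit 310) (nat_lit 298) (nat_lit 112))) (XT.nd (nat_lit 78) (nat_lit 0) (nat_lit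 0) (XT.lf (nat_lit 0) (nat_lit 7100464103) (nat_lit 456) (nat_lit 15066429298) (nat_lit 532) (nat_lit 76922877112) (nat_lit 47) (nat_lit 5) (nat_lit 53) (nat_lit 5) (nat_lit 54) (nat_lit 5) (nat_lit 311) (nat_lit 298) (nat_lit 111)) (XT.lf (nat_lit 0) (nat_lit 29141785904) (nat_lit 532) (nat_lit 53596805252) (nat_lit 76) (nat_lit 19276156534) (nat_lit 47) (nat_lit 5) (nat_lit 54) (nat_lit 5) (nat_lit 48) (nat_lit 5) (nat_lit 312) (nat_lit 298) (nat_lit 110)))) (XT.nd (nat_lit 156) (nat_lit 304) (nat_lit 0) (XT.nd (nat_lit 78) (nat_lit 304) (nat_lit 0) (XT.lf (nat_lit 0) (nat_lit 36712003720) (nat_lit 532) (nat_lit 13532061951) (nat_lit 76) (nat_lit 54829581265) (nat_lit 47) (nat_lit 5) (nat_lit 54) (nat_lit 5) (nat_lit 48) (nat_lit 5) (nat_lit 313) (nat_lit 298) (nat_lit 109)) (XT.lf (nat_lit 0) (nat_lit 29479058907) (nat_lit 304) (nat_lit 15641533812) (nat_lit 380) (nat_lit 63141907552)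 (nat_lit 43) (nat_lit 5) (nat_lit 47) (nat_lit 5) (nat_lit 48) (nat_lit 5) (nat_lit 314) (nat_lit 298) (nat_lit 108))) (XT.nd (nat_lit 78) (nat_lit 304) (nat_lit 0) (XT.lf (nat_lit 0) (nat_lit 54505209124) (nat_lit 380) (nat_lit 36815991229) (nat_lit 76) (nat_lit 20261818060) (nat_lit 43) (nat_lit 5) (nat_lit 48) (nat_lit 5) (nat_lit 44) (nat_lit 5) (nat_lit 315) (nat_lit 298) (nat_lit 107)) (XT.lf (nat_lit 0) (nat_lit 7224264264) (nat_lit 304) (nat_lit 57503642231) (nat_lit 380) (nat_lit 50323215400) (nat_lit 39) (nat_lit 5) (nat_lit 43) (nat_lit 5) (nat_lit 44) (nat_lit 5) (nat_lit 316) (nat_lit 298) (nat_lit 106))))) (XT.nd (nat_lit 312) (nat_lit 532) (nat_lit 0) (XT.nd (nat_lit 156) (nat_lit 228) (nat_lit 0) (XT.nd (nat_lit 78) (nat_lit 0) (nat_lit 0) (XT.lf (nat_lit 0) (nat_lit 54744336452) (nat_lit 304) (nat_lit 21340550889) (nat_lit 380) (nat_lit 42576587628) (nat_lit 39) (nat_lit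 5) (nat_lit 43) (nat_lit 5) (nat_lit 44) (nat_lit 5) (nat_lit 317) (nat_lit 298) (nat_lit 105)) (XT.lf (nat_lit 0) (nat_lit 88269037300) (nat_lit 380) (nat_lit 18071950120) (nat_lit 76) (nat_lit 16098394035) (nat_lit 39) (nat_lit 5) (nat_lit 44) (nat_lit 5) (nat_lit 40) (nat_lit 5) (nat_lit 318) (nat_lit 298) (nat_lit 104))) (XT.nd (nat_lit 78) (nat_lit 0) (nat_lit 0) (XT.lf (nat_lit 0) (nat_lit 30697827245) (nat_lit 228) (nat_lit 71193375828) (nat_lit 304) (nat_lit 24473541452) (nat_lit 36) (nat_lit 5) (nat_lit 39) (nat_lit 5) (nat_lit 40) (nat_lit 5) (nat_lit 319) (nat_lit 298) (nat_lit 103)) (XT.lf (nat_lit 0) (nat_lit 82533168847) (nat_lit 228) (nat_lit 33967059320) (nat_lit 304) (nat_lit 13970861627) (nat_lit 36) (nat_lit 5) (nat_lit 39) (nat_lit 5) (nat_lit 40) (nat_lit 5) (nat_lit 320) (nat_lit 298) (nat_lit 102)))) (XT.nd (nat_lit 156) (nat_lit 228) (nat_lit 0) (XT.nd (nat_lit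 78) (nat_lit 76) (nat_lit 0) (XT.lf (nat_lit 0) (nat_lit 2166581629) (nat_lit 228) (nat_lit 129786603654) (nat_lit 304) (nat_lit 2823894527) (nat_lit 33) (nat_lit 5) (nat_lit 36) (nat_lit 5) (nat_lit 37) (nat_lit 5) (nat_lit 321) (nat_lit 298) (nat_lit 101)) (XT.lf (nat_lit 0) (nat_lit 9977900451) (nat_lit 304) (nat_lit 83526312041) (nat_lit 76) (nat_lit 45718140378) (nat_lit 32) (nat_lit 5) (nat_lit 36) (nat_lit 5) (nat_lit 33) (nat_lit 5) (nat_lit 322) (nat_lit 298) (nat_lit 100))) (XT.nd (nat_lit 78) (nat_lit 228) (nat_lit 0) (XT.lf (nat_lit 0) (nat_lit 23324608074) (nat_lit 304) (nat_lit 32034540106) (nat_lit 76) (nat_lit 88528441835) (nat_lit 32) (nat_lit 5) (nat_lit 36) (nat_lit 5) (nat_lit 33) (nat_lit 5) (nat_lit 323) (nat_lit 298) (nat_lit 99)) (XT.lf (nat_lit 0) (nat_lit 22759967071) (nat_lit 228) (nat_lit 14933768276) (nat_lit 304) (nat_lit 111074600709) (nat_lit 29) (nat_lit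 5) (nat_lit 32) (nat_lit 5) (nat_lit 33) (nat_lit 5) (nat_lit 324) (nat_lit 298) (nat_lit 98))))))) (XT.nd (nat_lit 36504) (nat_lit 0) (nat_lit 228) (XT.nd (nat_lit 35880) (nat_lit 0) (nat_lit 1976) (XT.nd (nat_lit 35568) (nat_lit 0) (nat_lit 2432) (XT.nd (nat_lit 156) (nat_lit 228) (nat_lit 0) (XT.nd (nat_lit 78) (nat_lit 0) (nat_lit 0) (XT.lf (nat_lit 0) (nat_lit 53762030592) (nat_lit 304) (nat_lit 72898396276) (nat_lit 76) (nat_lit 27183658140) (nat_lit 29) (nat_lit 5) (nat_lit 33) (nat_lit 5) (nat_lit 30) (nat_lit 5) (nat_lit 325) (nat_lit 298) (nat_lit 97)) (XT.lf (nat_lit 0) (nat_lit 70878312876) (nat_lit 304) (nat_lit 17378047906) (nat_lit 76) (nat_lit 70905033149) (nat_lit 29) (nat_lit 5) (nat_lit 33) (nat_lit 5) (nat_lit 30) (nat_lit 5) (nat_lit 326) (nat_lit 298) (nat_lit 96))) (XT.nd (nat_lit 35334) (nat_lit 0) (nat_lit 2432) (XT.lf (nat_lit 0) (nat_lit 42270960117) (nat_lit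 228) (nat_lit 47239185311) (nat_lit 304) (nat_lit 75201437145) (nat_lit 26) (nat_lit 5) (nat_lit 29) (nat_lit 5) (nat_lit 30) (nat_lit 5) (nat_lit 327) (nat_lit 298) (nat_lit 95)) (XT.lf (nat_lit 0) (nat_lit 30384188656) (nat_lit 684) (nat_lit 3189425893) (nat_lit 684) (nat_lit 3189425893) (nat_lit 58) (nat_lit 3) (nat_lit 67) (nat_lit 3) (nat_lit 67) (nat_lit 5) (nat_lit 299) (nat_lit 299) (nat_lit 122)))) (XT.nd (nat_lit 156) (nat_lit 0) (nat_lit 76) (XT.nd (nat_lit 78) (nat_lit 0) (nat_lit 0) (XT.lf (nat_lit 76) (nat_lit 22753533052) (nat_lit 0) (nat_lit 39899528652) (nat_lit 684) (nat_lit 12692834419) (nat_lit 59) (nat_lit 5) (nat_lit 58) (nat_lit 3) (nat_lit 67) (nat_lit 5) (nat_lit 300) (nat_lit 299) (nat_lit 121)) (XT.lf (nat_lit 76) (nat_lit 53563639267) (nat_lit 0) (nat_lit 11175709658) (nat_lit 684) (nat_lit 12511988801) (nat_lit 59) (nat_lit 5) (nat_lit 58) (nat_lit 3)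 (nat_lit 67) (nat_lit 5) (nat_lit 301) (nat_lit 299) (nat_lit 120))) (XT.nd (nat_lit 78) (nat_lit 0) (nat_lit 0) (XT.lf (nat_lit 76) (nat_lit 6575890842) (nat_lit 0) (nat_lit 60752501503) (nat_lit 684) (nat_lit 11903740818) (nat_lit 60) (nat_lit 5) (nat_lit 59) (nat_lit 5) (nat_lit 68) (nat_lit 5) (nat_lit 302) (nat_lit 299) (nat_lit 119)) (XT.lf (nat_lit 76) (nat_lit 38985403109) (nat_lit 0) (nat_lit 31642300359) (nat_lit 684) (nat_lit 10655227785) (nat_lit 60) (nat_lit 5) (nat_lit 59) (nat_lit 5) (nat_lit 68) (nat_lit 5) (nat_lit 303) (nat_lit 299) (nat_lit 118))))) (XT.nd (nat_lit 312) (nat_lit 532) (nat_lit 0) (XT.nd (nat_lit 156) (nat_lit 0) (nat_lit 76) (XT.nd (nat_lit 78) (nat_lit 0) (nat_lit 76) (XT.lf (nat_lit 76) (nat_lit 73015034939) (nat_lit 0) (nat_lit 1076373318) (nat_lit 684) (nat_lit 9344893071) (nat_lit 60) (nat_lit 5) (nat_lit 59) (nat_lit 5) (nat_lit 68) (nat_lit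 5) (nat_lit 304) (nat_lit 299) (nat_lit 117)) (XT.lf (nat_lit 76) (nat_lit 23310233060) (nat_lit 0) (nat_lit 55265737412) (nat_lit 684) (nat_lit 7078989147) (nat_lit 61) (nat_lit 5) (nat_lit 60) (nat_lit 5) (nat_lit 69) (nat_lit 5) (nat_lit 305) (nat_lit 299) (nat_lit 116))) (XT.nd (nat_lit 78) (nat_lit 0) (nat_lit 76) (XT.lf (nat_lit 76) (nat_lit 59071514574) (nat_lit 0) (nat_lit 24406574880) (nat_lit 684) (nat_lit 4496798098) (nat_lit 61) (nat_lit 5) (nat_lit 60) (nat_lit 5) (nat_lit 69) (nat_lit 5) (nat_lit 306) (nat_lit 299) (nat_lit 115)) (XT.lf (nat_lit 76) (nat_lit 6286028046) (nat_lit 0) (nat_lit 82561767465) (nat_lit 684) (nat_lit 1551895326) (nat_lit 62) (nat_lit 5) (nat_lit 61) (nat_lit 5) (nat_lit 70) (nat_lit 5) (nat_lit 307) (nat_lit 299) (nat_lit 114)))) (XT.nd (nat_lit 156) (nat_lit 0) (nat_lit 76) (XT.nd (nat_lit 78) (nat_lit 0) (nat_lit 0) (XT.lf (nat_lit 0) (nat_lit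 2388092597) (nat_lit 684) (nat_lit 49115472831) (nat_lit 760) (nat_lit 41396112320) (nat_lit 52) (nat_lit 5) (nat_lit 61) (nat_lit 5) (nat_lit 62) (nat_lit 5) (nat_lit 308) (nat_lit 299) (nat_lit 113)) (XT.lf (nat_lit 0) (nat_lit 6472462107) (nat_lit 684) (nat_lit 12393187832) (nat_lit 760) (nat_lit 76657767818) (nat_lit 52) (nat_lit 5) (nat_lit 61) (nat_lit 5) (nat_lit 62) (nat_lit 5) (nat_lit 309) (nat_lit 299) (nat_lit 112))) (XT.nd (nat_lit 78) (nat_lit 0) (nat_lit 0) (XT.lf (nat_lit 0) (nat_lit 11430043770) (nat_lit 684) (nat_lit 71474706435) (nat_lit 76) (nat_lit 15340147356) (nat_lit 53) (nat_lit 5) (nat_lit 62) (nat_lit 5) (nat_lit 54) (nat_lit 5) (nat_lit 310) (nat_lit 299) (nat_lit 111)) (XT.lf (nat_lit 0) (nat_lit 17157677739) (nat_lit 684) (nat_lit 33083043165) (nat_lit 76) (nat_lit 50835624150) (nat_lit 53) (nat_lit 5) (nat_lit 62) (nat_lit 5) (nat_lit 54) (nat_lit 5)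 (nat_lit 311) (nat_lit 299) (nat_lit 110)))))) (XT.nd (nat_lit 624) (nat_lit 760) (nat_lit 0) (XT.nd (nat_lit 312) (nat_lit 304) (nat_lit 0) (XT.nd (nat_lit 156) (nat_lit 304) (nat_lit 0) (XT.nd (nat_lit 78) (nat_lit 0) (nat_lit 0) (XT.lf (nat_lit 0) (nat_lit 7466831470) (nat_lit 456) (nat_lit 15821035253) (nat_lit 532) (nat_lit 80755691778) (nat_lit 47) (nat_lit 5) (nat_lit 53) (nat_lit 5) (nat_lit 54) (nat_lit 5) (nat_lit 312) (nat_lit 299) (nat_lit 109)) (XT.lf (nat_lit 0) (nat_lit 30610883387) (nat_lit 532) (nat_lit 56265155272) (nat_lit 76) (nat_lit 20238780191) (nat_lit 47) (nat_lit 5) (nat_lit 54) (nat_lit 5) (nat_lit 48) (nat_lit 5) (nat_lit 313) (nat_lit 299) (nat_lit 108))) (XT.nd (nat_lit 78) (nat_lit 304) (nat_lit 0) (XT.lf (nat_lit 0) (nat_lit 38559040276) (nat_lit 532) (nat_lit 14197721961) (nat_lit 76) (nat_lit 57569932547) (nat_lit 47) (nat_lit 5) (nat_lit 54) (nat_lit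 5) (nat_lit 48) (nat_lit 5) (nat_lit 314) (nat_lit 299) (nat_lit 107)) (XT.lf (nat_lit 0) (nat_lit 30963778439) (nat_lit 304) (nat_lit 16423903793) (nat_lit 380) (nat_lit 66287330363) (nat_lit 43) (nat_lit 5) (nat_lit 47) (nat_lit 5) (nat_lit 48) (nat_lit 5) (nat_lit 315) (nat_lit 299) (nat_lit 106)))) (XT.nd (nat_lit 156) (nat_lit 0) (nat_lit 0) (XT.nd (nat_lit 78) (nat_lit 304) (nat_lit 0) (XT.lf (nat_lit 0) (nat_lit 57240998435) (nat_lit 380) (nat_lit 38645949024) (nat_lit 76) (nat_lit 21274638579) (nat_lit 43) (nat_lit 5) (nat_lit 48) (nat_lit 5) (nat_lit 44) (nat_lit 5) (nat_lit 316) (nat_lit 299) (nat_lit 105)) (XT.lf (nat_lit 0) (nat_lit 7596144377) (nat_lit 304) (nat_lit 60378351463) (nat_lit 380) (nat_lit 52828618302) (nat_lit 39) (nat_lit 5) (nat_lit 43) (nat_lit 5) (nat_lit 44) (nat_lit 5) (nat_lit 317) (nat_lit 299) (nat_lit 104))) (XT.nd (nat_lit 78) (nat_lit 0) (nat_lit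 0) (XT.lf (nat_lit 0) (nat_lit 57491712227) (nat_lit 304) (nat_lit 22407128072) (nat_lit 380) (nat_lit 44695171421) (nat_lit 39) (nat_lit 5) (nat_lit 43) (nat_lit 5) (nat_lit 44) (nat_lit 5) (nat_lit 318) (nat_lit 299) (nat_lit 103)) (XT.lf (nat_lit 0) (nat_lit 92691742139) (nat_lit 380) (nat_lit 18965367704) (nat_lit 76) (nat_lit 16903728924) (nat_lit 39) (nat_lit 5) (nat_lit 44) (nat_lit 5) (nat_lit 40) (nat_lit 5) (nat_lit 319) (nat_lit 299) (nat_lit 102))))) (XT.nd (nat_lit 312) (nat_lit 228) (nat_lit 0) (XT.nd (nat_lit 156) (nat_lit 304) (nat_lit 0) (XT.nd (nat_lit 78) (nat_lit 0) (nat_lit 0) (XT.lf (nat_lit 0) (nat_lit 32242734337) (nat_lit 228) (nat_lit 74751997620) (nat_lit 304) (nat_lit 25687754585) (nat_lit 36) (nat_lit 5) (nat_lit 39) (nat_lit 5) (nat_lit 40) (nat_lit 5) (nat_lit 320) (nat_lit 299) (nat_lit 101)) (XT.lf (nat_lit 0) (nat_lit 86669366080) (nat_lit 228) (nat_lit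 35664415143) (nat_lit 304) (nat_lit 14660391432) (nat_lit 36) (nat_lit 5) (nat_lit 39) (nat_lit 5) (nat_lit 40) (nat_lit 5) (nat_lit 321) (nat_lit 299) (nat_lit 100))) (XT.nd (nat_lit 78) (nat_lit 76) (nat_lit 0) (XT.lf (nat_lit 0) (nat_lit 2284744354) (nat_lit 228) (nat_lit 136274403453) (nat_lit 304) (nat_lit 2956328406) (nat_lit 33) (nat_lit 5) (nat_lit 36) (nat_lit 5) (nat_lit 37) (nat_lit 5) (nat_lit 322) (nat_lit 299) (nat_lit 99)) (XT.lf (nat_lit 0) (nat_lit 10484872089) (nat_lit 304) (nat_lit 87692956738) (nat_lit 76) (nat_lit 48005199375) (nat_lit 32) (nat_lit 5) (nat_lit 36) (nat_lit 5) (nat_lit 33) (nat_lit 5) (nat_lit 323) (nat_lit 299) (nat_lit 98)))) (XT.nd (nat_lit 156) (nat_lit 0) (nat_lit 0) (XT.nd (nat_lit 78) (nat_lit 228) (nat_lit 0) (XT.lf (nat_lit 0) (nat_lit 24498530493) (nat_lit 304) (nat_lit 33627056726) (nat_lit 76) (nat_lit 92955961049) (nat_lit 32) (nat_lit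 5) (nat_lit 36) (nat_lit 5) (nat_lit 33) (nat_lit 5) (nat_lit 324) (nat_lit 299) (nat_lit 97)) (XT.lf (nat_lit 0) (nat_lit 23907027256) (nat_lit 228) (nat_lit 15678862067) (nat_lit 304) (nat_lit 116620455272) (nat_lit 29) (nat_lit 5) (nat_lit 32) (nat_lit 5) (nat_lit 33) (nat_lit 5) (nat_lit 325) (nat_lit 299) (nat_lit 96))) (XT.nd (nat_lit 35490) (nat_lit 0) (nat_lit 2204) (XT.lf (nat_lit 0) (nat_lit 56457267461) (nat_lit 304) (nat_lit 76534320664) (nat_lit 76) (nat_lit 28544311127) (nat_lit 29) (nat_lit 5) (nat_lit 33) (nat_lit 5) (nat_lit 30) (nat_lit 5) (nat_lit 326) (nat_lit 299) (nat_lit 95)) (XT.lf (nat_lit 0) (nat_lit 31913466934) (nat_lit 684) (nat_lit 3343580018) (nat_lit 684) (nat_lit 3343580018) (nat_lit 58) (nat_lit 3) (nat_lit 67) (nat_lit 3) (nat_lit 67) (nat_lit 5) (nat_lit 300) (nat_lit 300) (nat_lit 120))))))))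
noncomputable def xc212 : XT := (XT.nd (nat_lit 1248) (nat_lit 1064) (nat_lit 0) (XT.nd (nat_lit 624) (nat_lit 1140) (nat_lit 0) (XT.nd (nat_lit 312) (nat_lit 0) (nat_lit 76) (XT.nd (nat_lit 156) (nat_lit 0) (nat_lit 76) (XT.nd (nat_lit 78) (nat_lit 0) (nat_lit 0) (XT.lf (nat_lit 76) (nat_lit 23901672523) (nat_lit 0) (nat_lit 41903384373) (nat_lit 684) (nat_lit 13307048733) (nat_lit 59) (nat_lit 5) (nat_lit 58) (nat_lit 3) (nat_lit 67) (nat_lit 5) (nat_lit 301) (nat_lit 300) (nat_lit 119)) (XT.lf (nat_lit 76) (nat_lit 56251785819) (nat_lit 0) (nat_lit 11742951607) (nat_lit 684) (nat_lit 13118133568) (nat_lit 59) (nat_lit 5) (nat_lit 58) (nat_lit 3) (nat_lit 67) (nat_lit 5) (nat_lit 302) (nat_lit 300) (nat_lit 118))) (XT.nd (nat_lit 78) (nat_lit 0) (nat_lit 0) (XT.lf (nat_lit 76) (nat_lit 6915636101) (nat_lit 0) (nat_lit 63796764951) (nat_lit 684) (nat_lit 12480352108) (nat_lit 60)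 (nat_lit 5) (nat_lit 59) (nat_lit 5) (nat_lit 68) (nat_lit 5) (nat_lit 303) (nat_lit 300) (nat_lit 117)) (XT.lf (nat_lit 76) (nat_lit 40945102519) (nat_lit 0) (nat_lit 33230737637) (nat_lit 684) (nat_lit 11170297984) (nat_lit 60) (nat_lit 5) (nat_lit 59) (nat_lit 5) (nat_lit 68) (nat_lit 5) (nat_lit 304) (nat_lit 300) (nat_lit 116)))) (XT.nd (nat_lit 156) (nat_lit 0) (nat_lit 76) (XT.nd (nat_lit 78) (nat_lit 0) (nat_lit 76) (XT.lf (nat_lit 76) (nat_lit 76675719309) (nat_lit 0) (nat_lit 1136213185) (nat_lit 684) (nat_lit 9795288971) (nat_lit 60) (nat_lit 5) (nat_lit 59) (nat_lit 5) (nat_lit 68) (nat_lit 5) (nat_lit 305) (nat_lit 300) (nat_lit 115)) (XT.lf (nat_lit 76) (nat_lit 24486490119) (nat_lit 0) (nat_lit 58033551228) (nat_lit 684) (nat_lit 7416810026) (nat_lit 61) (nat_lit 5) (nat_lit 60) (nat_lit 5) (nat_lit 69) (nat_lit 5) (nat_lit 306) (nat_lit 300) (nat_lit 114))) (XT.nd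 (nat_lit 78) (nat_lit 0) (nat_lit 76) (XT.lf (nat_lit 76) (nat_lit 62035324023) (nat_lit 0) (nat_lit 25631215000) (nat_lit 684) (nat_lit 4706277453) (nat_lit 61) (nat_lit 5) (nat_lit 60) (nat_lit 5) (nat_lit 69) (nat_lit 5) (nat_lit 307) (nat_lit 300) (nat_lit 113)) (XT.lf (nat_lit 76) (nat_lit 6611266637) (nat_lit 0) (nat_lit 86692877776) (nat_lit 684) (nat_lit 1614749011) (nat_lit 62) (nat_lit 5) (nat_lit 61) (nat_lit 5) (nat_lit 70) (nat_lit 5) (nat_lit 308) (nat_lit 300) (nat_lit 112))))) (XT.nd (nat_lit 312) (nat_lit 684) (nat_lit 0) (XT.nd (nat_lit 156) (nat_lit 0) (nat_lit 76) (XT.nd (nat_lit 78) (nat_lit 0) (nat_lit 0) (XT.lf (nat_lit 0) (nat_lit 2521087012) (nat_lit 684) (nat_lit 51560304574) (nat_lit 760) (nat_lit 43462514371) (nat_lit 52) (nat_lit 5) (nat_lit 61) (nat_lit 5) (nat_lit 62) (nat_lit 5) (nat_lit 309) (nat_lit 300) (nat_lit 111)) (XT.lf (nat_lit 0) (nat_lit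 6809027866) (nat_lit 684) (nat_lit 13002426368) (nat_lit 760) (nat_lit 80487414718) (nat_lit 52) (nat_lit 5) (nat_lit 61) (nat_lit 5) (nat_lit 62) (nat_lit 5) (nat_lit 310) (nat_lit 300) (nat_lit 110))) (XT.nd (nat_lit 78) (nat_lit 0) (nat_lit 0) (XT.lf (nat_lit 0) (nat_lit 12013997495) (nat_lit 684) (nat_lit 75037460680) (nat_lit 76) (nat_lit 16104992581) (nat_lit 53) (nat_lit 5) (nat_lit 62) (nat_lit 5) (nat_lit 54) (nat_lit 5) (nat_lit 311) (nat_lit 300) (nat_lit 109)) (XT.lf (nat_lit 0) (nat_lit 18027420233) (nat_lit 684) (nat_lit 34726737154) (nat_lit 76) (nat_lit 53375346174) (nat_lit 53) (nat_lit 5) (nat_lit 62) (nat_lit 5) (nat_lit 54) (nat_lit 5) (nat_lit 312) (nat_lit 300) (nat_lit 108)))) (XT.nd (nat_lit 156) (nat_lit 304) (nat_lit 0) (XT.nd (nat_lit 78) (nat_lit 0) (nat_lit 0) (XT.lf (nat_lit 0) (nat_lit 7850462532) (nat_lit 456) (nat_lit 16613252087) (nat_lit 532) (nat_lit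 84781386398) (nat_lit 47) (nat_lit 5) (nat_lit 53) (nat_lit 5) (nat_lit 54) (nat_lit 5) (nat_lit 313) (nat_lit 300) (nat_lit 107)) (XT.lf (nat_lit 0) (nat_lit 32152319336) (nat_lit 532) (nat_lit 59067991048) (nat_lit 76) (nat_lit 21249645123) (nat_lit 47) (nat_lit 5) (nat_lit 54) (nat_lit 5) (nat_lit 48) (nat_lit 5) (nat_lit 314) (nat_lit 300) (nat_lit 106))) (XT.nd (nat_lit 78) (nat_lit 304) (nat_lit 0) (XT.lf (nat_lit 0) (nat_lit 40497365413) (nat_lit 532) (nat_lit 14897682356) (nat_lit 76) (nat_lit 60447406244) (nat_lit 47) (nat_lit 5) (nat_lit 54) (nat_lit 5) (nat_lit 48) (nat_lit 5) (nat_lit 315) (nat_lit 300) (nat_lit 105)) (XT.lf (nat_lit 0) (nat_lit 32521732972) (nat_lit 304) (nat_lit 17245365006) (nat_lit 380) (nat_lit 69591109518) (nat_lit 43) (nat_lit 5) (nat_lit 47) (nat_lit 5) (nat_lit 48) (nat_lit 5) (nat_lit 316) (nat_lit 300) (nat_lit 104)))))) (XT.nd (nat_lit 624)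 (nat_lit 228) (nat_lit 0) (XT.nd (nat_lit 312) (nat_lit 532) (nat_lit 0) (XT.nd (nat_lit 156) (nat_lit 0) (nat_lit 0) (XT.nd (nat_lit 78) (nat_lit 304) (nat_lit 0) (XT.lf (nat_lit 0) (nat_lit 60112598338) (nat_lit 380) (nat_lit 40568412673) (nat_lit 76) (nat_lit 22338125261) (nat_lit 43) (nat_lit 5) (nat_lit 48) (nat_lit 5) (nat_lit 44) (nat_lit 5) (nat_lit 317) (nat_lit 300) (nat_lit 103)) (XT.lf (nat_lit 0) (nat_lit 7985626789) (nat_lit 304) (nat_lit 63396840122) (nat_lit 380) (nat_lit 55460291513) (nat_lit 39) (nat_lit 5) (nat_lit 43) (nat_lit 5) (nat_lit 44) (nat_lit 5) (nat_lit 318) (nat_lit 300) (nat_lit 102))) (XT.nd (nat_lit 78) (nat_lit 0) (nat_lit 0) (XT.lf (nat_lit 0) (nat_lit 60375512308) (nat_lit 304) (nat_lit 23527075986) (nat_lit 380) (nat_lit 46920636941) (nat_lit 39) (nat_lit 5) (nat_lit 43) (nat_lit 5) (nat_lit 44) (nat_lit 5) (nat_lit 319) (nat_lit 300) (nat_lit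 101)) (XT.lf (nat_lit 0) (nat_lit 97334721967) (nat_lit 380) (nat_lit 19904402600) (nat_lit 76) (nat_lit 17749291957) (nat_lit 39) (nat_lit 5) (nat_lit 44) (nat_lit 5) (nat_lit 40) (nat_lit 5) (nat_lit 320) (nat_lit 300) (nat_lit 100)))) (XT.nd (nat_lit 156) (nat_lit 304) (nat_lit 0) (XT.nd (nat_lit 78) (nat_lit 0) (nat_lit 0) (XT.lf (nat_lit 0) (nat_lit 33863955616) (nat_lit 228) (nat_lit 78488647841) (nat_lit 304) (nat_lit 26963558241) (nat_lit 36) (nat_lit 5) (nat_lit 39) (nat_lit 5) (nat_lit 40) (nat_lit 5) (nat_lit 321) (nat_lit 300) (nat_lit 99)) (XT.lf (nat_lit 0) (nat_lit 91011486348) (nat_lit 228) (nat_lit 37446731463) (nat_lit 304) (nat_lit 15385235697) (nat_lit 36) (nat_lit 5) (nat_lit 39) (nat_lit 5) (nat_lit 40) (nat_lit 5) (nat_lit 322) (nat_lit 300) (nat_lit 98))) (XT.nd (nat_lit 78) (nat_lit 76) (nat_lit 0) (XT.lf (nat_lit 0) (nat_lit 2407900976) (nat_lit 228) (nat_lit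 143086735523) (nat_lit 304) (nat_lit 3096198478) (nat_lit 33) (nat_lit 5) (nat_lit 36) (nat_lit 5) (nat_lit 37) (nat_lit 5) (nat_lit 323) (nat_lit 300) (nat_lit 97)) (XT.lf (nat_lit 0) (nat_lit 11016441422) (nat_lit 304) (nat_lit 92068832779) (nat_lit 76) (nat_lit 50406504221) (nat_lit 32) (nat_lit 5) (nat_lit 36) (nat_lit 5) (nat_lit 33) (nat_lit 5) (nat_lit 324) (nat_lit 300) (nat_lit 96))))) (XT.nd (nat_lit 35802) (nat_lit 0) (nat_lit 2204) (XT.nd (nat_lit 35646) (nat_lit 0) (nat_lit 2204) (XT.nd (nat_lit 78) (nat_lit 228) (nat_lit 0) (XT.lf (nat_lit 0) (nat_lit 25730433902) (nat_lit 304) (nat_lit 35300055471) (nat_lit 76) (nat_lit 97604754223) (nat_lit 32) (nat_lit 5) (nat_lit 36) (nat_lit 5) (nat_lit 33) (nat_lit 5) (nat_lit 325) (nat_lit 300) (nat_lit 95)) (XT.lf (nat_lit 0) (nat_lit 25110597966) (nat_lit 228) (nat_lit 16461358801) (nat_lit 304) (nat_lit 122444334750) (nat_lit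 29) (nat_lit 5) (nat_lit 32) (nat_lit 5) (nat_lit 33) (nat_lit 5) (nat_lit 326) (nat_lit 300) (nat_lit 94))) (XT.nd (nat_lit 78) (nat_lit 0) (nat_lit 0) (XT.lf (nat_lit 0) (nat_lit 33518273020) (nat_lit 684) (nat_lit 3505936189) (nat_lit 684) (nat_lit 3505936189) (nat_lit 58) (nat_lit 3) (nat_lit 67) (nat_lit 3) (nat_lit 67) (nat_lit 5) (nat_lit 301) (nat_lit 301) (nat_lit 118)) (XT.lf (nat_lit 76) (nat_lit 25106246233) (nat_lit 0) (nat_lit 44006607368) (nat_lit 684) (nat_lit 13953872910) (nat_lit 59) (nat_lit 5) (nat_lit 58) (nat_lit 3) (nat_lit 67) (nat_lit 5) (nat_lit 302) (nat_lit 301) (nat_lit 117)))) (XT.nd (nat_lit 156) (nat_lit 0) (nat_lit 76) (XT.nd (nat_lit 78) (nat_lit 0) (nat_lit 76) (XT.lf (nat_lit 76) (nat_lit 59073413286) (nat_lit 0) (nat_lit 12337769450) (nat_lit 684) (nat_lit 13756394285) (nat_lit 59) (nat_lit 5) (nat_lit 58) (nat_lit 3) (nat_lit 67) (nat_lit 5) (nat_lit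 303) (nat_lit 301) (nat_lit 116)) (XT.lf (nat_lit 76) (nat_lit 7271350529) (nat_lit 0) (nat_lit 66992624400) (nat_lit 684) (nat_lit 13087520960) (nat_lit 60) (nat_lit 5) (nat_lit 59) (nat_lit 5) (nat_lit 68) (nat_lit 5) (nat_lit 304) (nat_lit 301) (nat_lit 115))) (XT.nd (nat_lit 78) (nat_lit 0) (nat_lit 0) (XT.lf (nat_lit 76) (nat_lit 43001817285) (nat_lit 0) (nat_lit 34898008996) (nat_lit 684) (nat_lit 11712766451) (nat_lit 60) (nat_lit 5) (nat_lit 59) (nat_lit 5) (nat_lit 68) (nat_lit 5) (nat_lit 305) (nat_lit 301) (nat_lit 114)) (XT.lf (nat_lit 76) (nat_lit 80518514456) (nat_lit 0) (nat_lit 1198485251) (nat_lit 684) (nat_lit 10269771104) (nat_lit 60) (nat_lit 5) (nat_lit 59) (nat_lit 5) (nat_lit 68) (nat_lit 5) (nat_lit 306) (nat_lit 301) (nat_lit 113)))))))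
noncomputable def xc213 : XT := (XT.nd (nat_lit 1248) (nat_lit 304) (nat_lit 0) (XT.nd (nat_lit 624) (nat_lit 836) (nat_lit 0) (XT.nd (nat_lit 312) (nat_lit 380) (nat_lit 0) (XT.nd (nat_lit 156) (nat_lit 608) (nat_lit 0) (XT.nd (nat_lit 78) (nat_lit 0) (nat_lit 0) (XT.lf (nat_lit 76) (nat_lit 25720561026) (nat_lit 0) (nat_lit 60939334863) (nat_lit 684) (nat_lit 7773021432) (nat_lit 61) (nat_lit 5) (nat_lit 60) (nat_lit 5) (nat_lit 69) (nat_lit 5) (nat_lit 307) (nat_lit 301) (nat_lit 112)) (XT.lf (nat_lit 76) (nat_lit 65146372510) (nat_lit 0) (nat_lit 26916686296) (nat_lit 684) (nat_lit 4927658853) (nat_lit 61) (nat_lit 5) (nat_lit 60) (nat_lit 5) (nat_lit 69) (nat_lit 5) (nat_lit 308) (nat_lit 301) (nat_lit 111))) (XT.nd (nat_lit 78) (nat_lit 684) (nat_lit 0) (XT.lf (nat_lit 76) (nat_lit 6951750321) (nat_lit 0) (nat_lit 91030262652) (nat_lit 684) (nat_lit 1682115866) (nat_lit 62)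 (nat_lit 5) (nat_lit 61) (nat_lit 5) (nat_lit 70) (nat_lit 5) (nat_lit 309) (nat_lit 301) (nat_lit 110)) (XT.lf (nat_lit 0) (nat_lit 2659467699) (nat_lit 684) (nat_lit 54128395178) (nat_lit 760) (nat_lit 45632552955) (nat_lit 52) (nat_lit 5) (nat_lit 61) (nat_lit 5) (nat_lit 62) (nat_lit 5) (nat_lit 310) (nat_lit 301) (nat_lit 109)))) (XT.nd (nat_lit 156) (nat_lit 380) (nat_lit 0) (XT.nd (nat_lit 78) (nat_lit 0) (nat_lit 76) (XT.lf (nat_lit 0) (nat_lit 7161218627) (nat_lit 684) (nat_lit 13643095662) (nat_lit 760) (nat_lit 84508845327) (nat_lit 52) (nat_lit 5) (nat_lit 61) (nat_lit 5) (nat_lit 62) (nat_lit 5) (nat_lit 311) (nat_lit 301) (nat_lit 108)) (XT.lf (nat_lit 0) (nat_lit 12625991282) (nat_lit 684) (nat_lit 78779373553) (nat_lit 76) (nat_lit 16908281083) (nat_lit 53) (nat_lit 5) (nat_lit 62) (nat_lit 5) (nat_lit 54) (nat_lit 5) (nat_lit 312) (nat_lit 301) (nat_lit 107))) (XT.nd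 (nat_lit 78) (nat_lit 456) (nat_lit 0) (XT.lf (nat_lit 0) (nat_lit 18939547350) (nat_lit 684) (nat_lit 36453588144) (nat_lit 76) (nat_lit 56042245742) (nat_lit 53) (nat_lit 5) (nat_lit 62) (nat_lit 5) (nat_lit 54) (nat_lit 5) (nat_lit 313) (nat_lit 301) (nat_lit 106)) (XT.lf (nat_lit 0) (nat_lit 8252318528) (nat_lit 456) (nat_lit 17444971444) (nat_lit 532) (nat_lit 89009489761) (nat_lit 47) (nat_lit 5) (nat_lit 53) (nat_lit 5) (nat_lit 54) (nat_lit 5) (nat_lit 314) (nat_lit 301) (nat_lit 105))))) (XT.nd (nat_lit 312) (nat_lit 532) (nat_lit 0) (XT.nd (nat_lit 156) (nat_lit 304) (nat_lit 0) (XT.nd (nat_lit 78) (nat_lit 0) (nat_lit 0) (XT.lf (nat_lit 0) (nat_lit 33769814469) (nat_lit 532) (nat_lit 62011937549) (nat_lit 76) (nat_lit 22311153160) (nat_lit 47) (nat_lit 5) (nat_lit 54) (nat_lit 5) (nat_lit 48) (nat_lit 5) (nat_lit 315) (nat_lit 301) (nat_lit 104)) (XT.lf (nat_lit 0) (nat_lit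 42531642413) (nat_lit 532) (nat_lit 15633563568) (nat_lit 76) (nat_lit 63468848728) (nat_lit 47) (nat_lit 5) (nat_lit 54) (nat_lit 5) (nat_lit 48) (nat_lit 5) (nat_lit 316) (nat_lit 301) (nat_lit 103))) (XT.nd (nat_lit 78) (nat_lit 0) (nat_lit 0) (XT.lf (nat_lit 0) (nat_lit 34156677317) (nat_lit 304) (nat_lit 18107874547) (nat_lit 380) (nat_lit 73061061945) (nat_lit 43) (nat_lit 5) (nat_lit 47) (nat_lit 5) (nat_lit 48) (nat_lit 5) (nat_lit 317) (nat_lit 301) (nat_lit 102)) (XT.lf (nat_lit 0) (nat_lit 63126890370) (nat_lit 380) (nat_lit 42587913758) (nat_lit 76) (nat_lit 23454809079) (nat_lit 43) (nat_lit 5) (nat_lit 48) (nat_lit 5) (nat_lit 44) (nat_lit 5) (nat_lit 318) (nat_lit 301) (nat_lit 101)))) (XT.nd (nat_lit 156) (nat_lit 228) (nat_lit 0) (XT.nd (nat_lit 78) (nat_lit 0) (nat_lit 0) (XT.lf (nat_lit 0) (nat_lit 8393683813) (nat_lit 304) (nat_lit 66566293089) (nat_lit 380) (nat_lit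 58224455564) (nat_lit 39) (nat_lit 5) (nat_lit 43) (nat_lit 5) (nat_lit 44) (nat_lit 5) (nat_lit 319) (nat_lit 301) (nat_lit 100)) (XT.lf (nat_lit 0) (nat_lit 63402645719) (nat_lit 304) (nat_lit 24703059272) (nat_lit 380) (nat_lit 49258239717) (nat_lit 39) (nat_lit 5) (nat_lit 43) (nat_lit 5) (nat_lit 44) (nat_lit 5) (nat_lit 320) (nat_lit 301) (nat_lit 99))) (XT.nd (nat_lit 78) (nat_lit 228) (nat_lit 0) (XT.lf (nat_lit 0) (nat_lit 102209070510) (nat_lit 380) (nat_lit 20891247682) (nat_lit 76) (nat_lit 18637098130) (nat_lit 39) (nat_lit 5) (nat_lit 44) (nat_lit 5) (nat_lit 40) (nat_lit 5) (nat_lit 321) (nat_lit 301) (nat_lit 98)) (XT.lf (nat_lit 0) (nat_lit 35565393363) (nat_lit 228) (nat_lit 82412218864) (nat_lit 304) (nat_lit 28303950146) (nat_lit 36) (nat_lit 5) (nat_lit 39) (nat_lit 5) (nat_lit 40) (nat_lit 5) (nat_lit 322) (nat_lit 301) (nat_lit 97)))))) (XT.nd (nat_lit 36270)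 (nat_lit 0) (nat_lit 1140) (XT.nd (nat_lit 35958) (nat_lit 0) (nat_lit 1976) (XT.nd (nat_lit 156) (nat_lit 76) (nat_lit 0) (XT.nd (nat_lit 78) (nat_lit 228) (nat_lit 0) (XT.lf (nat_lit 0) (nat_lit 95569908252) (nat_lit 228) (nat_lit 39318247684) (nat_lit 304) (nat_lit 16147082237) (nat_lit 36) (nat_lit 5) (nat_lit 39) (nat_lit 5) (nat_lit 40) (nat_lit 5) (nat_lit 323) (nat_lit 301) (nat_lit 96)) (XT.lf (nat_lit 0) (nat_lit 2536386188) (nat_lit 228) (nat_lit 150239813249) (nat_lit 304) (nat_lit 3243800831) (nat_lit 33) (nat_lit 5) (nat_lit 36) (nat_lit 5) (nat_lit 37) (nat_lit 5) (nat_lit 324) (nat_lit 301) (nat_lit 95))) (XT.nd (nat_lit 35724) (nat_lit 0) (nat_lit 1976) (XT.lf (nat_lit 0) (nat_lit 11573908145) (nat_lit 304) (nat_lit 96664318140) (nat_lit 76) (nat_lit 52927777168) (nat_lit 32) (nat_lit 5) (nat_lit 36) (nat_lit 5) (nat_lit 33) (nat_lit 5) (nat_lit 325) (nat_lit 301)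 (nat_lit 94)) (XT.lf (nat_lit 0) (nat_lit 35202470335) (nat_lit 684) (nat_lit 3676858550) (nat_lit 684) (nat_lit 3676858550) (nat_lit 58) (nat_lit 3) (nat_lit 67) (nat_lit 3) (nat_lit 67) (nat_lit 5) (nat_lit 302) (nat_lit 302) (nat_lit 116)))) (XT.nd (nat_lit 156) (nat_lit 0) (nat_lit 76) (XT.nd (nat_lit 78) (nat_lit 0) (nat_lit 0) (XT.lf (nat_lit 76) (nat_lit 26370166331) (nat_lit 0) (nat_lit 46214242749) (nat_lit 684) (nat_lit 14634760877) (nat_lit 59) (nat_lit 5) (nat_lit 58) (nat_lit 3) (nat_lit 67) (nat_lit 5) (nat_lit 303) (nat_lit 302) (nat_lit 115)) (XT.lf (nat_lit 76) (nat_lit 62035281842) (nat_lit 0) (nat_lit 12961615078) (nat_lit 684) (nat_lit 14428208592) (nat_lit 59) (nat_lit 5) (nat_lit 58) (nat_lit 3) (nat_lit 67) (nat_lit 5) (nat_lit 304) (nat_lit 302) (nat_lit 114))) (XT.nd (nat_lit 78) (nat_lit 0) (nat_lit 0) (XT.lf (nat_lit 76) (nat_lit 7643927237) (nat_lit 0)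 (nat_lit 70347717026) (nat_lit 684) (nat_lit 13726614692) (nat_lit 60) (nat_lit 5) (nat_lit 59) (nat_lit 5) (nat_lit 68) (nat_lit 5) (nat_lit 305) (nat_lit 302) (nat_lit 113)) (XT.lf (nat_lit 76) (nat_lit 45160488323) (nat_lit 0) (nat_lit 36648110785) (nat_lit 684) (nat_lit 12283850187) (nat_lit 60) (nat_lit 5) (nat_lit 59) (nat_lit 5) (nat_lit 68) (nat_lit 5) (nat_lit 306) (nat_lit 302) (nat_lit 112))))) (XT.nd (nat_lit 312) (nat_lit 912) (nat_lit 0) (XT.nd (nat_lit 156) (nat_lit 0) (nat_lit 76) (XT.nd (nat_lit 78) (nat_lit 0) (nat_lit 76) (XT.lf (nat_lit 76) (nat_lit 84552611772) (nat_lit 0) (nat_lit 1263363170) (nat_lit 684) (nat_lit 10769398148) (nat_lit 60) (nat_lit 5) (nat_lit 59) (nat_lit 5) (nat_lit 68) (nat_lit 5) (nat_lit 307) (nat_lit 302) (nat_lit 111)) (XT.lf (nat_lit 76) (nat_lit 27015429349) (nat_lit 0) (nat_lit 63990025935) (nat_lit 684) (nat_lit 8148403482) (nat_lit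 61) (nat_lit 5) (nat_lit 60) (nat_lit 5) (nat_lit 69) (nat_lit 5) (nat_lit 308) (nat_lit 302) (nat_lit 110))) (XT.nd (nat_lit 78) (nat_lit 0) (nat_lit 76) (XT.lf (nat_lit 76) (nat_lit 68412110443) (nat_lit 0) (nat_lit 28266067592) (nat_lit 684) (nat_lit 5161404633) (nat_lit 61) (nat_lit 5) (nat_lit 60) (nat_lit 5) (nat_lit 69) (nat_lit 5) (nat_lit 309) (nat_lit 302) (nat_lit 109)) (XT.lf (nat_lit 76) (nat_lit 7308335889) (nat_lit 0) (nat_lit 95584261940) (nat_lit 684) (nat_lit 1754094135) (nat_lit 62) (nat_lit 5) (nat_lit 61) (nat_lit 5) (nat_lit 70) (nat_lit 5) (nat_lit 310) (nat_lit 302) (nat_lit 108)))) (XT.nd (nat_lit 156) (nat_lit 380) (nat_lit 0) (XT.nd (nat_lit 78) (nat_lit 0) (nat_lit 0) (XT.lf (nat_lit 0) (nat_lit 2803621434) (nat_lit 684) (nat_lit 56825813010) (nat_lit 760) (nat_lit 47911380481) (nat_lit 52) (nat_lit 5) (nat_lit 61) (nat_lit 5) (nat_lit 62) (nat_lit 5) (nat_lit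 311) (nat_lit 302) (nat_lit 107)) (XT.lf (nat_lit 0) (nat_lit 7529927510) (nat_lit 684) (nat_lit 14316677182) (nat_lit 760) (nat_lit 88731620811) (nat_lit 52) (nat_lit 5) (nat_lit 61) (nat_lit 5) (nat_lit 62) (nat_lit 5) (nat_lit 312) (nat_lit 302) (nat_lit 106))) (XT.nd (nat_lit 78) (nat_lit 456) (nat_lit 0) (XT.lf (nat_lit 0) (nat_lit 13267534756) (nat_lit 684) (nat_lit 82709308071) (nat_lit 76) (nat_lit 17751916337) (nat_lit 53) (nat_lit 5) (nat_lit 62) (nat_lit 5) (nat_lit 54) (nat_lit 5) (nat_lit 313) (nat_lit 302) (nat_lit 105)) (XT.nd (nat_lit 78) (nat_lit 456) (nat_lit 0) (XT.lf (nat_lit 0) (nat_lit 19896280823) (nat_lit 684) (nat_lit 38267663590) (nat_lit 76) (nat_lit 58842663934) (nat_lit 53) (nat_lit 5) (nat_lit 62) (nat_lit 5) (nat_lit 54) (nat_lit 5) (nat_lit 314) (nat_lit 302) (nat_lit 104)) (XT.lf (nat_lit 0) (nat_lit 8673399642) (nat_lit 456) (nat_lit 18318178523)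 (nat_lit 532) (nat_lit 93450017802) (nat_lit 47) (nat_lit 5) (nat_lit 53) (nat_lit 5) (nat_lit 54) (nat_lit 5) (nat_lit 315) (nat_lit 302) (nat_lit 103))))))))
noncomputable def xc214 : XT := (XT.nd (nat_lit 37050) (nat_lit 0) (nat_lit 228) (XT.nd (nat_lit 624) (nat_lit 0) (nat_lit 0) (XT.nd (nat_lit 312) (nat_lit 532) (nat_lit 0) (XT.nd (nat_lit 156) (nat_lit 304) (nat_lit 0) (XT.nd (nat_lit 78) (nat_lit 0) (nat_lit 0) (XT.lf (nat_lit 0) (nat_lit 35467265887) (nat_lit 532) (nat_lit 65103960231) (nat_lit 76) (nat_lit 23425827172) (nat_lit 47) (nat_lit 5) (nat_lit 54) (nat_lit 5) (nat_lit 48) (nat_lit 5) (nat_lit 316) (nat_lit 302) (nat_lit 102)) (XT.lf (nat_lit 0) (nat_lit 44666758529) (nat_lit 532) (nat_lit 16407075846) (nat_lit 76) (nat_lit 66641449597) (nat_lit 47) (nat_lit 5) (nat_lit 54) (nat_lit 5) (nat_lit 48) (nat_lit 5) (nat_lit 317) (nat_lit 302) (nat_lit 101))) (XT.nd (nat_lit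 78) (nat_lit 0) (nat_lit 0) (XT.lf (nat_lit 0) (nat_lit 35872545376) (nat_lit 304) (nat_lit 19013487133) (nat_lit 380) (nat_lit 76705404793) (nat_lit 43) (nat_lit 5) (nat_lit 47) (nat_lit 5) (nat_lit 48) (nat_lit 5) (nat_lit 318) (nat_lit 302) (nat_lit 100)) (XT.lf (nat_lit 0) (nat_lit 66291091682) (nat_lit 380) (nat_lit 44709219152) (nat_lit 76) (nat_lit 24627347768) (nat_lit 43) (nat_lit 5) (nat_lit 48) (nat_lit 5) (nat_lit 44) (nat_lit 5) (nat_lit 319) (nat_lit 302) (nat_lit 99)))) (XT.nd (nat_lit 156) (nat_lit 228) (nat_lit 0) (XT.nd (nat_lit 78) (nat_lit 0) (nat_lit 0) (XT.lf (nat_lit 0) (nat_lit 8821327809) (nat_lit 304) (nat_lit 69894254874) (nat_lit 380) (nat_lit 61127650655) (nat_lit 39) (nat_lit 5) (nat_lit 43) (nat_lit 5) (nat_lit 44) (nat_lit 5) (nat_lit 320) (nat_lit 302) (nat_lit 98)) (XT.lf (nat_lit 0) (nat_lit 66580358771) (nat_lit 304) (nat_lit 25937876169) (nat_lit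 380) (nat_lit 51713506286) (nat_lit 39) (nat_lit 5) (nat_lit 43) (nat_lit 5) (nat_lit 44) (nat_lit 5) (nat_lit 321) (nat_lit 302) (nat_lit 97))) (XT.nd (nat_lit 78) (nat_lit 228) (nat_lit 0) (XT.lf (nat_lit 0) (nat_lit 107326428747) (nat_lit 380) (nat_lit 21928213652) (nat_lit 76) (nat_lit 19569262856) (nat_lit 39) (nat_lit 5) (nat_lit 44) (nat_lit 5) (nat_lit 40) (nat_lit 5) (nat_lit 322) (nat_lit 302) (nat_lit 96)) (XT.lf (nat_lit 0) (nat_lit 37351136923) (nat_lit 228) (nat_lit 86532048520) (nat_lit 304) (nat_lit 29712085516) (nat_lit 36) (nat_lit 5) (nat_lit 39) (nat_lit 5) (nat_lit 40) (nat_lit 5) (nat_lit 323) (nat_lit 302) (nat_lit 95))))) (XT.nd (nat_lit 36114) (nat_lit 0) (nat_lit 1748) (XT.nd (nat_lit 35958) (nat_lit 0) (nat_lit 1672) (XT.nd (nat_lit 35880) (nat_lit 0) (nat_lit 1672) (XT.lf (nat_lit 0) (nat_lit 100355521657) (nat_lit 228) (nat_lit 41283415985) (nat_lit 304)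 (nat_lit 16947710503) (nat_lit 36) (nat_lit 5) (nat_lit 39) (nat_lit 5) (nat_lit 40) (nat_lit 5) (nat_lit 324) (nat_lit 302) (nat_lit 94)) (XT.lf (nat_lit 0) (nat_lit 36970107379) (nat_lit 684) (nat_lit 3856733723) (nat_lit 684) (nat_lit 3856733723) (nat_lit 58) (nat_lit 3) (nat_lit 67) (nat_lit 3) (nat_lit 67) (nat_lit 5) (nat_lit 303) (nat_lit 303) (nat_lit 114))) (XT.nd (nat_lit 78) (nat_lit 0) (nat_lit 0) (XT.lf (nat_lit 76) (nat_lit 27696482164) (nat_lit 0) (nat_lit 48531580749) (nat_lit 684) (nat_lit 15351255676) (nat_lit 59) (nat_lit 5) (nat_lit 58) (nat_lit 3) (nat_lit 67) (nat_lit 5) (nat_lit 304) (nat_lit 303) (nat_lit 113)) (XT.lf (nat_lit 76) (nat_lit 65144481663) (nat_lit 0) (nat_lit 13616006177) (nat_lit 684) (nat_lit 15135101645) (nat_lit 59) (nat_lit 5) (nat_lit 58) (nat_lit 3) (nat_lit 67) (nat_lit 5) (nat_lit 305) (nat_lit 303) (nat_lit 112)))) (XT.nd (nat_lit 156)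 (nat_lit 0) (nat_lit 0) (XT.nd (nat_lit 78) (nat_lit 0) (nat_lit 0) (XT.lf (nat_lit 76) (nat_lit 8034295192) (nat_lit 0) (nat_lit 73870056534) (nat_lit 684) (nat_lit 14399083915) (nat_lit 60) (nat_lit 5) (nat_lit 59) (nat_lit 5) (nat_lit 68) (nat_lit 5) (nat_lit 306) (nat_lit 303) (nat_lit 111)) (XT.lf (nat_lit 76) (nat_lit 47426295209) (nat_lit 0) (nat_lit 38485234093) (nat_lit 684) (nat_lit 12884841257) (nat_lit 60) (nat_lit 5) (nat_lit 59) (nat_lit 5) (nat_lit 68) (nat_lit 5) (nat_lit 307) (nat_lit 303) (nat_lit 110))) (XT.nd (nat_lit 78) (nat_lit 0) (nat_lit 76) (XT.lf (nat_lit 76) (nat_lit 88787654237) (nat_lit 0) (nat_lit 1331024441) (nat_lit 684) (nat_lit 11295295256) (nat_lit 60) (nat_lit 5) (nat_lit 59) (nat_lit 5) (nat_lit 68) (nat_lit 5) (nat_lit 308) (nat_lit 303) (nat_lit 109)) (XT.lf (nat_lit 76) (nat_lit 28374219205) (nat_lit 0) (nat_lit 67192905309) (nat_lit 684) (nat_lit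 8543788263) (nat_lit 61) (nat_lit 5) (nat_lit 60) (nat_lit 5) (nat_lit 69) (nat_lit 5) (nat_lit 309) (nat_lit 303) (nat_lit 108)))))) (XT.nd (nat_lit 624) (nat_lit 608) (nat_lit 0) (XT.nd (nat_lit 312) (nat_lit 380) (nat_lit 0) (XT.nd (nat_lit 156) (nat_lit 608) (nat_lit 0) (XT.nd (nat_lit 78) (nat_lit 0) (nat_lit 76) (XT.lf (nat_lit 76) (nat_lit 71840352525) (nat_lit 0) (nat_lit 29682588187) (nat_lit 684) (nat_lit 5408012585) (nat_lit 61) (nat_lit 5) (nat_lit 60) (nat_lit 5) (nat_lit 69) (nat_lit 5) (nat_lit 310) (nat_lit 303) (nat_lit 107)) (XT.lf (nat_lit 76) (nat_lit 7681914181) (nat_lit 0) (nat_lit 100365730054) (nat_lit 684) (nat_lit 1830798820) (nat_lit 62) (nat_lit 5) (nat_lit 61) (nat_lit 5) (nat_lit 70) (nat_lit 5) (nat_lit 311) (nat_lit 303) (nat_lit 106))) (XT.nd (nat_lit 78) (nat_lit 0) (nat_lit 0) (XT.lf (nat_lit 0) (nat_lit 2953943413) (nat_lit 684) (nat_lit 59658938647)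 (nat_lit 760) (nat_lit 50304409713) (nat_lit 52) (nat_lit 5) (nat_lit 61) (nat_lit 5) (nat_lit 62) (nat_lit 5) (nat_lit 312) (nat_lit 303) (nat_lit 105)) (XT.lf (nat_lit 0) (nat_lit 7916081893) (nat_lit 684) (nat_lit 15024734838) (nat_lit 760) (nat_lit 93165783001) (nat_lit 52) (nat_lit 5) (nat_lit 61) (nat_lit 5) (nat_lit 62) (nat_lit 5) (nat_lit 313) (nat_lit 303) (nat_lit 104)))) (XT.nd (nat_lit 156) (nat_lit 456) (nat_lit 0) (XT.nd (nat_lit 78) (nat_lit 0) (nat_lit 0) (XT.lf (nat_lit 0) (nat_lit 13940203023) (nat_lit 684) (nat_lit 86836579226) (nat_lit 76) (nat_lit 18637898730) (nat_lit 53) (nat_lit 5) (nat_lit 62) (nat_lit 5) (nat_lit 54) (nat_lit 5) (nat_lit 314) (nat_lit 303) (nat_lit 103)) (XT.lf (nat_lit 0) (nat_lit 20899943940) (nat_lit 684) (nat_lit 40173242723) (nat_lit 76) (nat_lit 61783260536) (nat_lit 53) (nat_lit 5) (nat_lit 62) (nat_lit 5) (nat_lit 54) (nat_lit 5)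 (nat_lit 315) (nat_lit 303) (nat_lit 102))) (XT.nd (nat_lit 78) (nat_lit 0) (nat_lit 0) (XT.lf (nat_lit 0) (nat_lit 9114747799) (nat_lit 456) (nat_lit 19234956843) (nat_lit 532) (nat_lit 98113496972) (nat_lit 47) (nat_lit 5) (nat_lit 53) (nat_lit 5) (nat_lit 54) (nat_lit 5) (nat_lit 316) (nat_lit 303) (nat_lit 101)) (XT.lf (nat_lit 0) (nat_lit 37248756795) (nat_lit 532) (nat_lit 68351381195) (nat_lit 76) (nat_lit 24596317037) (nat_lit 47) (nat_lit 5) (nat_lit 54) (nat_lit 5) (nat_lit 48) (nat_lit 5) (nat_lit 317) (nat_lit 303) (nat_lit 100))))) (XT.nd (nat_lit 312) (nat_lit 0) (nat_lit 0) (XT.nd (nat_lit 156) (nat_lit 304) (nat_lit 0) (XT.nd (nat_lit 78) (nat_lit 304) (nat_lit 0) (XT.lf (nat_lit 0) (nat_lit 46907837040) (nat_lit 532) (nat_lit 17220022926) (nat_lit 76) (nat_lit 69972758750) (nat_lit 47) (nat_lit 5) (nat_lit 54) (nat_lit 5) (nat_lit 48) (nat_lit 5) (nat_lit 318) (nat_lit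 303) (nat_lit 99)) (XT.lf (nat_lit 0) (nat_lit 37673459894) (nat_lit 304) (nat_lit 19964360000) (nat_lit 380) (nat_lit 80532774580) (nat_lit 43) (nat_lit 5) (nat_lit 47) (nat_lit 5) (nat_lit 48) (nat_lit 5) (nat_lit 319) (nat_lit 303) (nat_lit 98))) (XT.nd (nat_lit 78) (nat_lit 304) (nat_lit 0) (XT.lf (nat_lit 0) (nat_lit 69612772610) (nat_lit 380) (nat_lit 46937341975) (nat_lit 76) (nat_lit 25858532149) (nat_lit 43) (nat_lit 5) (nat_lit 48) (nat_lit 5) (nat_lit 44) (nat_lit 5) (nat_lit 320) (nat_lit 303) (nat_lit 97)) (XT.lf (nat_lit 0) (nat_lit 9269613977) (nat_lit 304) (nat_lit 73388647555) (nat_lit 380) (nat_lit 64176751839) (nat_lit 39) (nat_lit 5) (nat_lit 43) (nat_lit 5) (nat_lit 44) (nat_lit 5) (nat_lit 321) (nat_lit 303) (nat_lit 96)))) (XT.nd (nat_lit 36114) (nat_lit 0) (nat_lit 1444) (XT.nd (nat_lit 78) (nat_lit 0) (nat_lit 0) (XT.lf (nat_lit 0) (nat_lit 69916252688) (nat_lit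 304) (nat_lit 27234465156) (nat_lit 380) (nat_lit 54292246983) (nat_lit 39) (nat_lit 5) (nat_lit 43) (nat_lit 5) (nat_lit 44) (nat_lit 5) (nat_lit 322) (nat_lit 303) (nat_lit 95)) (XT.lf (nat_lit 0) (nat_lit 112699012961) (nat_lit 380) (nat_lit 23017734162) (nat_lit 76) (nat_lit 20548007014) (nat_lit 39) (nat_lit 5) (nat_lit 44) (nat_lit 5) (nat_lit 40) (nat_lit 5) (nat_lit 323) (nat_lit 303) (nat_lit 94))) (XT.nd (nat_lit 78) (nat_lit 0) (nat_lit 0) (XT.lf (nat_lit 0) (nat_lit 38825427739) (nat_lit 684) (nat_lit 4045971539) (nat_lit 684) (nat_lit 4045971539) (nat_lit 58) (nat_lit 3) (nat_lit 67) (nat_lit 3) (nat_lit 67) (nat_lit 5) (nat_lit 304) (nat_lit 304) (nat_lit 112)) (XT.lf (nat_lit 76) (nat_lit 29088387919) (nat_lit 0) (nat_lit 50964169638) (nat_lit 684) (nat_lit 16104992387) (nat_lit 59) (nat_lit 5) (nat_lit 58) (nat_lit 3) (nat_lit 67) (nat_lit 5) (nat_lit 305) (nat_lit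 304) (nat_lit 111)))))))
noncomputable def xc215 : XT := (XT.nd (nat_lit 1248) (nat_lit 304) (nat_lit 0) (XT.nd (nat_lit 624) (nat_lit 684) (nat_lit 0) (XT.nd (nat_lit 312) (nat_lit 456) (nat_lit 0) (XT.nd (nat_lit 156) (nat_lit 0) (nat_lit 76) (XT.nd (nat_lit 78) (nat_lit 0) (nat_lit 76) (XT.lf (nat_lit 76) (nat_lit 68408450172) (nat_lit 0) (nat_lit 14302530154) (nat_lit 684) (nat_lit 15878689039) (nat_lit 59) (nat_lit 5) (nat_lit 58) (nat_lit 3) (nat_lit 67) (nat_lit 5) (nat_lit 306) (nat_lit 304) (nat_lit 110)) (XT.lf (nat_lit 76) (nat_lit 8443421828) (nat_lit 0) (nat_lit 77568052474) (nat_lit 684) (nat_lit 15106465312) (nat_lit 60) (nat_lit 5) (nat_lit 59) (nat_lit 5) (nat_lit 68) (nat_lit 5) (nat_lit 307) (nat_lit 304) (nat_lit 109))) (XT.nd (nat_lit 78) (nat_lit 0) (nat_lit 0) (XT.lf (nat_lit 76) (nat_lit 49804668899) (nat_lit 0) (nat_lit 40413774952) (nat_lit 684) (nat_lit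 13517109225) (nat_lit 60) (nat_lit 5) (nat_lit 59) (nat_lit 5) (nat_lit 68) (nat_lit 5) (nat_lit 308) (nat_lit 304) (nat_lit 108)) (XT.lf (nat_lit 76) (nat_lit 93233759739) (nat_lit 0) (nat_lit 1401651049) (nat_lit 684) (nat_lit 11848656120) (nat_lit 60) (nat_lit 5) (nat_lit 59) (nat_lit 5) (nat_lit 68) (nat_lit 5) (nat_lit 309) (nat_lit 304) (nat_lit 107)))) (XT.nd (nat_lit 156) (nat_lit 608) (nat_lit 0) (XT.nd (nat_lit 78) (nat_lit 0) (nat_lit 0) (XT.lf (nat_lit 76) (nat_lit 29800203079) (nat_lit 0) (nat_lit 70555614589) (nat_lit 684) (nat_lit 8960061219) (nat_lit 61) (nat_lit 5) (nat_lit 60) (nat_lit 5) (nat_lit 69) (nat_lit 5) (nat_lit 310) (nat_lit 304) (nat_lit 106)) (XT.lf (nat_lit 76) (nat_lit 75439296736) (nat_lit 0) (nat_lit 31169635706) (nat_lit 684) (nat_lit 5668016589) (nat_lit 61) (nat_lit 5) (nat_lit 60) (nat_lit 5) (nat_lit 69) (nat_lit 5) (nat_lit 311) (nat_lit 304)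 (nat_lit 105))) (XT.nd (nat_lit 78) (nat_lit 684) (nat_lit 0) (XT.lf (nat_lit 76) (nat_lit 8073412610) (nat_lit 0) (nat_lit 105386061924) (nat_lit 684) (nat_lit 1912361417) (nat_lit 62) (nat_lit 5) (nat_lit 61) (nat_lit 5) (nat_lit 70) (nat_lit 5) (nat_lit 312) (nat_lit 304) (nat_lit 104)) (XT.lf (nat_lit 0) (nat_lit 3110838685) (nat_lit 684) (nat_lit 62634479671) (nat_lit 760) (nat_lit 52817326531) (nat_lit 52) (nat_lit 5) (nat_lit 61) (nat_lit 5) (nat_lit 62) (nat_lit 5) (nat_lit 313) (nat_lit 304) (nat_lit 103))))) (XT.nd (nat_lit 312) (nat_lit 304) (nat_lit 0) (XT.nd (nat_lit 156) (nat_lit 380) (nat_lit 0) (XT.nd (nat_lit 78) (nat_lit 0) (nat_lit 76) (XT.lf (nat_lit 0) (nat_lit 8320646084) (nat_lit 684) (nat_lit 15768918334) (nat_lit 760) (nat_lit 97821878182) (nat_lit 52) (nat_lit 5) (nat_lit 61) (nat_lit 5) (nat_lit 62) (nat_lit 5) (nat_lit 314) (nat_lit 304) (nat_lit 102))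 (XT.lf (nat_lit 0) (nat_lit 14645640865) (nat_lit 684) (nat_lit 91170975762) (nat_lit 76) (nat_lit 19568330243) (nat_lit 53) (nat_lit 5) (nat_lit 62) (nat_lit 5) (nat_lit 54) (nat_lit 5) (nat_lit 315) (nat_lit 304) (nat_lit 101))) (XT.nd (nat_lit 78) (nat_lit 456) (nat_lit 0) (XT.lf (nat_lit 0) (nat_lit 21952967509) (nat_lit 684) (nat_lit 42174826359) (nat_lit 76) (nat_lit 64871029826) (nat_lit 53) (nat_lit 5) (nat_lit 62) (nat_lit 5) (nat_lit 54) (nat_lit 5) (nat_lit 316) (nat_lit 304) (nat_lit 100)) (XT.lf (nat_lit 0) (nat_lit 9577449520) (nat_lit 456) (nat_lit 20197493250) (nat_lit 532) (nat_lit 103010988854) (nat_lit 47) (nat_lit 5) (nat_lit 53) (nat_lit 5) (nat_lit 54) (nat_lit 5) (nat_lit 317) (nat_lit 304) (nat_lit 99)))) (XT.nd (nat_lit 156) (nat_lit 304) (nat_lit 0) (XT.nd (nat_lit 78) (nat_lit 0) (nat_lit 0) (XT.lf (nat_lit 0) (nat_lit 39118566620) (nat_lit 532) (nat_lit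 71761896243) (nat_lit 76) (nat_lit 25825405912) (nat_lit 47) (nat_lit 5) (nat_lit 54) (nat_lit 5) (nat_lit 48) (nat_lit 5) (nat_lit 318) (nat_lit 304) (nat_lit 98)) (XT.lf (nat_lit 0) (nat_lit 49260249831) (nat_lit 532) (nat_lit 18074305966) (nat_lit 76) (nat_lit 73470704328) (nat_lit 47) (nat_lit 5) (nat_lit 54) (nat_lit 5) (nat_lit 48) (nat_lit 5) (nat_lit 319) (nat_lit 304) (nat_lit 97))) (XT.nd (nat_lit 78) (nat_lit 0) (nat_lit 0) (XT.lf (nat_lit 0) (nat_lit 39563742639) (nat_lit 304) (nat_lit 20962758055) (nat_lit 380) (nat_lit 84552247366) (nat_lit 43) (nat_lit 5) (nat_lit 47) (nat_lit 5) (nat_lit 48) (nat_lit 5) (nat_lit 320) (nat_lit 304) (nat_lit 96)) (XT.lf (nat_lit 0) (nat_lit 73099875044) (nat_lit 380) (nat_lit 49277553169) (nat_lit 76) (nat_lit 27151292765) (nat_lit 43) (nat_lit 5) (nat_lit 48) (nat_lit 5) (nat_lit 44) (nat_lit 5) (nat_lit 321) (nat_lit 304) (nat_lit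 95)))))) (XT.nd (nat_lit 36738) (nat_lit 0) (nat_lit 608) (XT.nd (nat_lit 36426) (nat_lit 0) (nat_lit 1520) (XT.nd (nat_lit 36270) (nat_lit 0) (nat_lit 1444) (XT.nd (nat_lit 36192) (nat_lit 0) (nat_lit 1444) (XT.lf (nat_lit 0) (nat_lit 9739643227) (nat_lit 304) (nat_lit 77057789626) (nat_lit 380) (nat_lit 67378985033) (nat_lit 39) (nat_lit 5) (nat_lit 43) (nat_lit 5) (nat_lit 44) (nat_lit 5) (nat_lit 322) (nat_lit 304) (nat_lit 94)) (XT.lf (nat_lit 0) (nat_lit 40772880523) (nat_lit 684) (nat_lit 4245005835) (nat_lit 684) (nat_lit 4245005835) (nat_lit 58) (nat_lit 3) (nat_lit 67) (nat_lit 3) (nat_lit 67) (nat_lit 5) (nat_lit 305) (nat_lit 305) (nat_lit 110))) (XT.nd (nat_lit 78) (nat_lit 0) (nat_lit 0) (XT.lf (nat_lit 76) (nat_lit 30549230577) (nat_lit 0) (nat_lit 53517829233) (nat_lit 684) (nat_lit 16897701351) (nat_lit 59) (nat_lit 5) (nat_lit 58) (nat_lit 3) (nat_lit 67) (nat_lit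 5) (nat_lit 306) (nat_lit 305) (nat_lit 109)) (XT.lf (nat_lit 76) (nat_lit 71834990074) (nat_lit 0) (nat_lit 15022848198) (nat_lit 684) (nat_lit 16660680009) (nat_lit 59) (nat_lit 5) (nat_lit 58) (nat_lit 3) (nat_lit 67) (nat_lit 5) (nat_lit 307) (nat_lit 305) (nat_lit 108)))) (XT.nd (nat_lit 156) (nat_lit 0) (nat_lit 0) (XT.nd (nat_lit 78) (nat_lit 0) (nat_lit 0) (XT.lf (nat_lit 76) (nat_lit 8872315709) (nat_lit 0) (nat_lit 81450530483) (nat_lit 684) (nat_lit 15850384678) (nat_lit 60) (nat_lit 5) (nat_lit 59) (nat_lit 5) (nat_lit 68) (nat_lit 5) (nat_lit 308) (nat_lit 305) (nat_lit 107)) (XT.lf (nat_lit 76) (nat_lit 52301305001) (nat_lit 0) (nat_lit 42438345020) (nat_lit 684) (nat_lit 14182103830) (nat_lit 60) (nat_lit 5) (nat_lit 59) (nat_lit 5) (nat_lit 68) (nat_lit 5) (nat_lit 309) (nat_lit 305) (nat_lit 106))) (XT.nd (nat_lit 78) (nat_lit 0) (nat_lit 76) (XT.lf (nat_lit 76) (nat_lit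 97901545495) (nat_lit 0) (nat_lit 1475430096) (nat_lit 684) (nat_lit 12430745253) (nat_lit 60) (nat_lit 5) (nat_lit 59) (nat_lit 5) (nat_lit 68) (nat_lit 5) (nat_lit 310) (nat_lit 305) (nat_lit 105)) (XT.lf (nat_lit 76) (nat_lit 31296809980) (nat_lit 0) (nat_lit 74086174471) (nat_lit 684) (nat_lit 9398162733) (nat_lit 61) (nat_lit 5) (nat_lit 60) (nat_lit 5) (nat_lit 69) (nat_lit 5) (nat_lit 311) (nat_lit 305) (nat_lit 104))))) (XT.nd (nat_lit 312) (nat_lit 380) (nat_lit 0) (XT.nd (nat_lit 156) (nat_lit 608) (nat_lit 0) (XT.nd (nat_lit 78) (nat_lit 0) (nat_lit 76) (XT.lf (nat_lit 76) (nat_lit 79217544189) (nat_lit 0) (nat_lit 32730764303) (nat_lit 684) (nat_lit 5941987373) (nat_lit 61) (nat_lit 5) (nat_lit 60) (nat_lit 5) (nat_lit 69) (nat_lit 5) (nat_lit 312) (nat_lit 305) (nat_lit 103)) (XT.lf (nat_lit 76) (nat_lit 8483797725) (nat_lit 0) (nat_lit 110657220228) (nat_lit 684) (nat_lit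 1998929742) (nat_lit 62) (nat_lit 5) (nat_lit 61) (nat_lit 5) (nat_lit 70) (nat_lit 5) (nat_lit 313) (nat_lit 305) (nat_lit 102))) (XT.nd (nat_lit 78) (nat_lit 0) (nat_lit 0) (XT.lf (nat_lit 0) (nat_lit 3274723569) (nat_lit 684) (nat_lit 65759486278) (nat_lit 760) (nat_lit 55456103364) (nat_lit 52) (nat_lit 5) (nat_lit 61) (nat_lit 5) (nat_lit 62) (nat_lit 5) (nat_lit 314) (nat_lit 305) (nat_lit 101)) (XT.lf (nat_lit 0) (nat_lit 8744624055) (nat_lit 684) (nat_lit 16550966749) (nat_lit 760) (nat_lit 102710982097) (nat_lit 52) (nat_lit 5) (nat_lit 61) (nat_lit 5) (nat_lit 62) (nat_lit 5) (nat_lit 315) (nat_lit 305) (nat_lit 100)))) (XT.nd (nat_lit 156) (nat_lit 456) (nat_lit 0) (XT.nd (nat_lit 78) (nat_lit 0) (nat_lit 0) (XT.lf (nat_lit 0) (nat_lit 15385567072) (nat_lit 684) (nat_lit 95722783121) (nat_lit 76) (nat_lit 20545419387) (nat_lit 53) (nat_lit 5) (nat_lit 62) (nat_lit 5) (nat_lit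 54) (nat_lit 5) (nat_lit 316) (nat_lit 305) (nat_lit 99)) (XT.lf (nat_lit 0) (nat_lit 23057896040) (nat_lit 684) (nat_lit 44277147268) (nat_lit 76) (nat_lit 68113317158) (nat_lit 53) (nat_lit 5) (nat_lit 62) (nat_lit 5) (nat_lit 54) (nat_lit 5) (nat_lit 317) (nat_lit 305) (nat_lit 98))) (XT.nd (nat_lit 78) (nat_lit 0) (nat_lit 0) (XT.lf (nat_lit 0) (nat_lit 10062638850) (nat_lit 456) (nat_lit 21208083165) (nat_lit 532) (nat_lit 108154116105) (nat_lit 47) (nat_lit 5) (nat_lit 53) (nat_lit 5) (nat_lit 54) (nat_lit 5) (nat_lit 318) (nat_lit 305) (nat_lit 97)) (XT.nd (nat_lit 78) (nat_lit 0) (nat_lit 0) (XT.lf (nat_lit 0) (nat_lit 41081181560) (nat_lit 532) (nat_lit 75343592858) (nat_lit 76) (nat_lit 27116016817) (nat_lit 47) (nat_lit 5) (nat_lit 54) (nat_lit 5) (nat_lit 48) (nat_lit 5) (nat_lit 319) (nat_lit 305) (nat_lit 96)) (XT.lf (nat_lit 0) (nat_lit 51729630521) (nat_lit 532) (nat_lit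 18971927743) (nat_lit 76) (nat_lit 77143611554) (nat_lit 47) (nat_lit 5) (nat_lit 54) (nat_lit 5) (nat_lit 48) (nat_lit 5) (nat_lit 320) (nat_lit 305) (nat_lit 95))))))))
noncomputable def xc216 : XT := (XT.nd (nat_lit 73944) (nat_lit 0) (nat_lit 684) (XT.nd (nat_lit 36894) (nat_lit 0) (nat_lit 304) (XT.nd (nat_lit 36582) (nat_lit 0) (nat_lit 1216) (XT.nd (nat_lit 36426) (nat_lit 0) (nat_lit 1140) (XT.nd (nat_lit 36348) (nat_lit 0) (nat_lit 1140) (XT.lf (nat_lit 0) (nat_lit 41547925009) (nat_lit 304) (nat_lit 22011059273) (nat_lit 380) (nat_lit 88773360012) (nat_lit 43) (nat_lit 5) (nat_lit 47) (nat_lit 5) (nat_lit 48) (nat_lit 5) (nat_lit 321) (nat_lit 305) (nat_lit 94)) (XT.lf (nat_lit 0) (nat_lit 42817131259) (nat_lit 684) (nat_lit 4454295328) (nat_lit 684) (nat_lit 4454295328) (nat_lit 58) (nat_lit 3) (nat_lit 67) (nat_lit 3) (nat_lit 67) (nat_lit 5) (nat_lit 306) (nat_lit 306)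 (nat_lit 108))) (XT.nd (nat_lit 78) (nat_lit 0) (nat_lit 0) (XT.lf (nat_lit 76) (nat_lit 32082518195) (nat_lit 0) (nat_lit 56198665015) (nat_lit 684) (nat_lit 17731211674) (nat_lit 59) (nat_lit 5) (nat_lit 58) (nat_lit 3) (nat_lit 67) (nat_lit 5) (nat_lit 307) (nat_lit 306) (nat_lit 107)) (XT.lf (nat_lit 76) (nat_lit 75432288233) (nat_lit 0) (nat_lit 15778699484) (nat_lit 684) (nat_lit 17482880920) (nat_lit 59) (nat_lit 5) (nat_lit 58) (nat_lit 3) (nat_lit 67) (nat_lit 5) (nat_lit 308) (nat_lit 306) (nat_lit 106)))) (XT.nd (nat_lit 156) (nat_lit 0) (nat_lit 0) (XT.nd (nat_lit 78) (nat_lit 0) (nat_lit 0) (XT.lf (nat_lit 76) (nat_lit 9322029263) (nat_lit 0) (nat_lit 85526753502) (nat_lit 684) (nat_lit 16632560239) (nat_lit 60) (nat_lit 5) (nat_lit 59) (nat_lit 5) (nat_lit 68) (nat_lit 5) (nat_lit 309) (nat_lit 306) (nat_lit 105)) (XT.lf (nat_lit 76) (nat_lit 54922177650) (nat_lit 0)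 (nat_lit 44563782742) (nat_lit 684) (nat_lit 14881357904) (nat_lit 60) (nat_lit 5) (nat_lit 59) (nat_lit 5) (nat_lit 68) (nat_lit 5) (nat_lit 310) (nat_lit 306) (nat_lit 104))) (XT.nd (nat_lit 78) (nat_lit 0) (nat_lit 76) (XT.lf (nat_lit 76) (nat_lit 102802153626) (nat_lit 0) (nat_lit 1552554430) (nat_lit 684) (nat_lit 13042900499) (nat_lit 60) (nat_lit 5) (nat_lit 59) (nat_lit 5) (nat_lit 68) (nat_lit 5) (nat_lit 311) (nat_lit 306) (nat_lit 103)) (XT.lf (nat_lit 76) (nat_lit 32867633924) (nat_lit 0) (nat_lit 77793003967) (nat_lit 684) (nat_lit 9859089873) (nat_lit 61) (nat_lit 5) (nat_lit 60) (nat_lit 5) (nat_lit 69) (nat_lit 5) (nat_lit 312) (nat_lit 306) (nat_lit 102))))) (XT.nd (nat_lit 312) (nat_lit 380) (nat_lit 0) (XT.nd (nat_lit 156) (nat_lit 608) (nat_lit 0) (XT.nd (nat_lit 78) (nat_lit 0) (nat_lit 76) (XT.lf (nat_lit 76) (nat_lit 83184119917) (nat_lit 0) (nat_lit 34369703254)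 (nat_lit 684) (nat_lit 6230533412) (nat_lit 61) (nat_lit 5) (nat_lit 60) (nat_lit 5) (nat_lit 69) (nat_lit 5) (nat_lit 313) (nat_lit 306) (nat_lit 101)) (XT.lf (nat_lit 76) (nat_lit 8914077847) (nat_lit 0) (nat_lit 116191763968) (nat_lit 684) (nat_lit 2090667844) (nat_lit 62) (nat_lit 5) (nat_lit 61) (nat_lit 5) (nat_lit 70) (nat_lit 5) (nat_lit 314) (nat_lit 306) (nat_lit 100))) (XT.nd (nat_lit 78) (nat_lit 0) (nat_lit 0) (XT.lf (nat_lit 0) (nat_lit 3446027048) (nat_lit 684) (nat_lit 69041367734) (nat_lit 760) (nat_lit 58227013300) (nat_lit 52) (nat_lit 5) (nat_lit 61) (nat_lit 5) (nat_lit 62) (nat_lit 5) (nat_lit 315) (nat_lit 306) (nat_lit 99)) (XT.lf (nat_lit 0) (nat_lit 9189062211) (nat_lit 684) (nat_lit 17372712364) (nat_lit 760) (nat_lit 107844726219) (nat_lit 52) (nat_lit 5) (nat_lit 61) (nat_lit 5) (nat_lit 62) (nat_lit 5) (nat_lit 316) (nat_lit 306) (nat_lit 98)))) (XT.nd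 (nat_lit 156) (nat_lit 456) (nat_lit 0) (XT.nd (nat_lit 78) (nat_lit 0) (nat_lit 0) (XT.lf (nat_lit 0) (nat_lit 16161778907) (nat_lit 684) (nat_lit 100502807603) (nat_lit 76) (nat_lit 21571486394) (nat_lit 53) (nat_lit 5) (nat_lit 62) (nat_lit 5) (nat_lit 54) (nat_lit 5) (nat_lit 317) (nat_lit 306) (nat_lit 97)) (XT.lf (nat_lit 0) (nat_lit 24217394158) (nat_lit 684) (nat_lit 46485181132) (nat_lit 76) (nat_lit 71517836385) (nat_lit 53) (nat_lit 5) (nat_lit 62) (nat_lit 5) (nat_lit 54) (nat_lit 5) (nat_lit 318) (nat_lit 306) (nat_lit 96))) (XT.nd (nat_lit 78) (nat_lit 0) (nat_lit 0) (XT.lf (nat_lit 0) (nat_lit 10571500365) (nat_lit 456) (nat_lit 22269136078) (nat_lit 532) (nat_lit 113555089764) (nat_lit 47) (nat_lit 5) (nat_lit 53) (nat_lit 5) (nat_lit 54) (nat_lit 5) (nat_lit 319) (nat_lit 306) (nat_lit 95)) (XT.lf (nat_lit 0) (nat_lit 43141305588) (nat_lit 532) (nat_lit 79104969148)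 (nat_lit 76) (nat_lit 28471219572) (nat_lit 47) (nat_lit 5) (nat_lit 54) (nat_lit 5) (nat_lit 48) (nat_lit 5) (nat_lit 320) (nat_lit 306) (nat_lit 94)))))) (XT.nd (nat_lit 624) (nat_lit 456) (nat_lit 0) (XT.nd (nat_lit 312) (nat_lit 0) (nat_lit 76) (XT.nd (nat_lit 156) (nat_lit 0) (nat_lit 0) (XT.nd (nat_lit 78) (nat_lit 0) (nat_lit 0) (XT.lf (nat_lit 0) (nat_lit 44963073273) (nat_lit 684) (nat_lit 4674324563) (nat_lit 684) (nat_lit 4674324563) (nat_lit 58) (nat_lit 3) (nat_lit 67) (nat_lit 3) (nat_lit 67) (nat_lit 5) (nat_lit 307) (nat_lit 307) (nat_lit 106)) (XT.lf (nat_lit 76) (nat_lit 33691928539) (nat_lit 0) (nat_lit 59013082910) (nat_lit 684) (nat_lit 18607455030) (nat_lit 59) (nat_lit 5) (nat_lit 58) (nat_lit 3) (nat_lit 67) (nat_lit 5) (nat_lit 308) (nat_lit 307) (nat_lit 105))) (XT.nd (nat_lit 78) (nat_lit 0) (nat_lit 76) (XT.lf (nat_lit 76) (nat_lit 79208935439) (nat_lit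 0) (nat_lit 16571905548) (nat_lit 684) (nat_lit 18347199034) (nat_lit 59) (nat_lit 5) (nat_lit 58) (nat_lit 3) (nat_lit 67) (nat_lit 5) (nat_lit 309) (nat_lit 307) (nat_lit 104)) (XT.lf (nat_lit 76) (nat_lit 9793661583) (nat_lit 0) (nat_lit 89806444007) (nat_lit 684) (nat_lit 17454806234) (nat_lit 60) (nat_lit 5) (nat_lit 59) (nat_lit 5) (nat_lit 68) (nat_lit 5) (nat_lit 310) (nat_lit 307) (nat_lit 103)))) (XT.nd (nat_lit 156) (nat_lit 0) (nat_lit 76) (XT.nd (nat_lit 78) (nat_lit 0) (nat_lit 0) (XT.lf (nat_lit 76) (nat_lit 57673554014) (nat_lit 0) (nat_lit 46795165050) (nat_lit 684) (nat_lit 15616490546) (nat_lit 60) (nat_lit 5) (nat_lit 59) (nat_lit 5) (nat_lit 68) (nat_lit 5) (nat_lit 311) (nat_lit 307) (nat_lit 102)) (XT.lf (nat_lit 76) (nat_lit 107947277956) (nat_lit 0) (nat_lit 1633223267) (nat_lit 684) (nat_lit 13686535758) (nat_lit 60) (nat_lit 5) (nat_lit 59) (nat_lit 5) (nat_lit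 68) (nat_lit 5) (nat_lit 312) (nat_lit 307) (nat_lit 101))) (XT.nd (nat_lit 78) (nat_lit 0) (nat_lit 0) (XT.lf (nat_lit 76) (nat_lit 34516442780) (nat_lit 0) (nat_lit 81684940581) (nat_lit 684) (nat_lit 10343898339) (nat_lit 61) (nat_lit 5) (nat_lit 60) (nat_lit 5) (nat_lit 69) (nat_lit 5) (nat_lit 313) (nat_lit 307) (nat_lit 100)) (XT.lf (nat_lit 76) (nat_lit 87348494637) (nat_lit 0) (nat_lit 36090365955) (nat_lit 684) (nat_lit 6534301960) (nat_lit 61) (nat_lit 5) (nat_lit 60) (nat_lit 5) (nat_lit 69) (nat_lit 5) (nat_lit 314) (nat_lit 307) (nat_lit 99))))) (XT.nd (nat_lit 312) (nat_lit 0) (nat_lit 76) (XT.nd (nat_lit 156) (nat_lit 0) (nat_lit 0) (XT.nd (nat_lit 78) (nat_lit 684) (nat_lit 0) (XT.lf (nat_lit 76) (nat_lit 9365305763) (nat_lit 0) (nat_lit 122002878450) (nat_lit 684) (nat_lit 2187755988) (nat_lit 62) (nat_lit 5) (nat_lit 61) (nat_lit 5) (nat_lit 70) (nat_lit 5) (nat_lit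 315) (nat_lit 307) (nat_lit 98)) (XT.lf (nat_lit 0) (nat_lit 3625192166) (nat_lit 684) (nat_lit 72487909718) (nat_lit 760) (nat_lit 61136644933) (nat_lit 52) (nat_lit 5) (nat_lit 61) (nat_lit 5) (nat_lit 62) (nat_lit 5) (nat_lit 316) (nat_lit 307) (nat_lit 97))) (XT.nd (nat_lit 78) (nat_lit 0) (nat_lit 76) (XT.lf (nat_lit 0) (nat_lit 9655052241) (nat_lit 684) (nat_lit 18236084742) (nat_lit 760) (nat_lit 113235325357) (nat_lit 52) (nat_lit 5) (nat_lit 61) (nat_lit 5) (nat_lit 62) (nat_lit 5) (nat_lit 317) (nat_lit 307) (nat_lit 96)) (XT.lf (nat_lit 0) (nat_lit 16976156725) (nat_lit 684) (nat_lit 105522401793) (nat_lit 76) (nat_lit 22648968685) (nat_lit 53) (nat_lit 5) (nat_lit 62) (nat_lit 5) (nat_lit 54) (nat_lit 5) (nat_lit 318) (nat_lit 307) (nat_lit 95)))) (XT.nd (nat_lit 36738) (nat_lit 0) (nat_lit 380) (XT.nd (nat_lit 36660) (nat_lit 0) (nat_lit 380) (XT.lf (nat_lit 0) (nat_lit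 25434253269) (nat_lit 684) (nat_lit 48804158103) (nat_lit 76) (nat_lit 75092688177) (nat_lit 53) (nat_lit 5) (nat_lit 62) (nat_lit 5) (nat_lit 54) (nat_lit 5) (nat_lit 319) (nat_lit 307) (nat_lit 94)) (XT.lf (nat_lit 0) (nat_lit 47215839591) (nat_lit 684) (nat_lit 4905604934) (nat_lit 684) (nat_lit 4905604934) (nat_lit 58) (nat_lit 3) (nat_lit 67) (nat_lit 3) (nat_lit 67) (nat_lit 5) (nat_lit 308) (nat_lit 308) (nat_lit 104))) (XT.nd (nat_lit 78) (nat_lit 0) (nat_lit 0) (XT.lf (nat_lit 76) (nat_lit 35381318103) (nat_lit 0) (nat_lit 61967804760) (nat_lit 684) (nat_lit 19528469751) (nat_lit 59) (nat_lit 5) (nat_lit 58) (nat_lit 3) (nat_lit 67) (nat_lit 5) (nat_lit 309) (nat_lit 308) (nat_lit 103)) (XT.lf (nat_lit 76) (nat_lit 83173947104) (nat_lit 0) (nat_lit 17404374830) (nat_lit 684) (nat_lit 19255646576) (nat_lit 59) (nat_lit 5) (nat_lit 58) (nat_lit 3) (nat_lit 67) (nat_lit 5) (nat_lit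 310) (nat_lit 308) (nat_lit 102)))))))
noncomputable def xc217 : XT := (XT.nd (nat_lit 37986) (nat_lit 0) (nat_lit 456) (XT.nd (nat_lit 37362) (nat_lit 0) (nat_lit 456) (XT.nd (nat_lit 312) (nat_lit 532) (nat_lit 0) (XT.nd (nat_lit 156) (nat_lit 0) (nat_lit 0) (XT.nd (nat_lit 78) (nat_lit 0) (nat_lit 0) (XT.lf (nat_lit 76) (nat_lit 10288361311) (nat_lit 0) (nat_lit 94299807323) (nat_lit 684) (nat_lit 18319036781) (nat_lit 60) (nat_lit 5) (nat_lit 59) (nat_lit 5) (nat_lit 68) (nat_lit 5) (nat_lit 311) (nat_lit 308) (nat_lit 101)) (XT.lf (nat_lit 76) (nat_lit 60562009476) (nat_lit 0) (nat_lit 49137819603) (nat_lit 684) (nat_lit 16389210535) (nat_lit 60) (nat_lit 5) (nat_lit 59) (nat_lit 5) (nat_lit 68) (nat_lit 5) (nat_lit 312) (nat_lit 308) (nat_lit 100))) (XT.nd (nat_lit 78) (nat_lit 0) (nat_lit 76) (XT.lf (nat_lit 76) (nat_lit 113349192103) (nat_lit 0) (nat_lit 1717642812) (nat_lit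 684) (nat_lit 14363143938) (nat_lit 60) (nat_lit 5) (nat_lit 59) (nat_lit 5) (nat_lit 68) (nat_lit 5) (nat_lit 313) (nat_lit 308) (nat_lit 99)) (XT.lf (nat_lit 76) (nat_lit 36247187514) (nat_lit 0) (nat_lit 85771261456) (nat_lit 684) (nat_lit 10853704568) (nat_lit 61) (nat_lit 5) (nat_lit 60) (nat_lit 5) (nat_lit 69) (nat_lit 5) (nat_lit 314) (nat_lit 308) (nat_lit 98)))) (XT.nd (nat_lit 156) (nat_lit 608) (nat_lit 0) (XT.nd (nat_lit 78) (nat_lit 0) (nat_lit 76) (XT.lf (nat_lit 76) (nat_lit 91720607555) (nat_lit 0) (nat_lit 37896859344) (nat_lit 684) (nat_lit 6853980213) (nat_lit 61) (nat_lit 5) (nat_lit 60) (nat_lit 5) (nat_lit 69) (nat_lit 5) (nat_lit 315) (nat_lit 308) (nat_lit 97)) (XT.lf (nat_lit 76) (nat_lit 9838581503) (nat_lit 0) (nat_lit 128104406757) (nat_lit 684) (nat_lit 2290390728) (nat_lit 62) (nat_lit 5) (nat_lit 61) (nat_lit 5) (nat_lit 70) (nat_lit 5) (nat_lit 316)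 (nat_lit 308) (nat_lit 96))) (XT.nd (nat_lit 78) (nat_lit 0) (nat_lit 0) (XT.lf (nat_lit 0) (nat_lit 3812677411) (nat_lit 684) (nat_lit 76107292594) (nat_lit 760) (nat_lit 64191917968) (nat_lit 52) (nat_lit 5) (nat_lit 61) (nat_lit 5) (nat_lit 62) (nat_lit 5) (nat_lit 317) (nat_lit 308) (nat_lit 95)) (XT.lf (nat_lit 0) (nat_lit 10143734031) (nat_lit 684) (nat_lit 19143115065) (nat_lit 760) (nat_lit 118895606661) (nat_lit 52) (nat_lit 5) (nat_lit 61) (nat_lit 5) (nat_lit 62) (nat_lit 5) (nat_lit 318) (nat_lit 308) (nat_lit 94))))) (XT.nd (nat_lit 312) (nat_lit 0) (nat_lit 76) (XT.nd (nat_lit 156) (nat_lit 0) (nat_lit 0) (XT.nd (nat_lit 78) (nat_lit 0) (nat_lit 0) (XT.lf (nat_lit 0) (nat_lit 49580815384) (nat_lit 684) (nat_lit 5148675787) (nat_lit 684) (nat_lit 5148675787) (nat_lit 58) (nat_lit 3) (nat_lit 67) (nat_lit 3) (nat_lit 67) (nat_lit 5) (nat_lit 309) (nat_lit 309) (nat_lit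 102)) (XT.lf (nat_lit 76) (nat_lit 37154731525) (nat_lit 0) (nat_lit 65069884526) (nat_lit 684) (nat_lit 20496405229) (nat_lit 59) (nat_lit 5) (nat_lit 58) (nat_lit 3) (nat_lit 67) (nat_lit 5) (nat_lit 310) (nat_lit 309) (nat_lit 101))) (XT.nd (nat_lit 78) (nat_lit 0) (nat_lit 76) (XT.lf (nat_lit 76) (nat_lit 87336784952) (nat_lit 0) (nat_lit 18278107408) (nat_lit 684) (nat_lit 20210345087) (nat_lit 59) (nat_lit 5) (nat_lit 58) (nat_lit 3) (nat_lit 67) (nat_lit 5) (nat_lit 311) (nat_lit 309) (nat_lit 100)) (XT.lf (nat_lit 76) (nat_lit 10807329626) (nat_lit 0) (nat_lit 99017556070) (nat_lit 684) (nat_lit 19227270012) (nat_lit 60) (nat_lit 5) (nat_lit 59) (nat_lit 5) (nat_lit 68) (nat_lit 5) (nat_lit 312) (nat_lit 309) (nat_lit 99)))) (XT.nd (nat_lit 156) (nat_lit 0) (nat_lit 76) (XT.nd (nat_lit 78) (nat_lit 0) (nat_lit 0) (XT.lf (nat_lit 76) (nat_lit 63594443520) (nat_lit 0) (nat_lit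 51597337613) (nat_lit 684) (nat_lit 17201320006) (nat_lit 60) (nat_lit 5) (nat_lit 59) (nat_lit 5) (nat_lit 68) (nat_lit 5) (nat_lit 313) (nat_lit 309) (nat_lit 98)) (XT.lf (nat_lit 76) (nat_lit 119020778918) (nat_lit 0) (nat_lit 1806026886) (nat_lit 684) (nat_lit 15074300130) (nat_lit 60) (nat_lit 5) (nat_lit 59) (nat_lit 5) (nat_lit 68) (nat_lit 5) (nat_lit 314) (nat_lit 309) (nat_lit 97))) (XT.nd (nat_lit 78) (nat_lit 0) (nat_lit 0) (XT.lf (nat_lit 76) (nat_lit 38064011828) (nat_lit 0) (nat_lit 90061705568) (nat_lit 684) (nat_lit 11389688040) (nat_lit 61) (nat_lit 5) (nat_lit 60) (nat_lit 5) (nat_lit 69) (nat_lit 5) (nat_lit 315) (nat_lit 309) (nat_lit 96)) (XT.lf (nat_lit 76) (nat_lit 96310890255) (nat_lit 0) (nat_lit 39793493778) (nat_lit 684) (nat_lit 7190296598) (nat_lit 61) (nat_lit 5) (nat_lit 60) (nat_lit 5) (nat_lit 69) (nat_lit 5) (nat_lit 316) (nat_lit 309) (nat_lit 95))))))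 (XT.nd (nat_lit 74568) (nat_lit 0) (nat_lit 0) (XT.nd (nat_lit 37206) (nat_lit 0) (nat_lit 76) (XT.nd (nat_lit 37050) (nat_lit 0) (nat_lit 0) (XT.nd (nat_lit 36972) (nat_lit 228) (nat_lit 0) (XT.lf (nat_lit 76) (nat_lit 10335055206) (nat_lit 0) (nat_lit 134510882773) (nat_lit 684) (nat_lit 2398785041) (nat_lit 62) (nat_lit 5) (nat_lit 61) (nat_lit 5) (nat_lit 70) (nat_lit 5) (nat_lit 317) (nat_lit 309) (nat_lit 94)) (XT.lf (nat_lit 0) (nat_lit 52063650995) (nat_lit 684) (nat_lit 5404105591) (nat_lit 684) (nat_lit 5404105591) (nat_lit 58) (nat_lit 3) (nat_lit 67) (nat_lit 3) (nat_lit 67) (nat_lit 5) (nat_lit 310) (nat_lit 310) (nat_lit 100))) (XT.nd (nat_lit 78) (nat_lit 0) (nat_lit 0) (XT.lf (nat_lit 76) (nat_lit 39016411428) (nat_lit 0) (nat_lit 68326725263) (nat_lit 684) (nat_lit 21513526616) (nat_lit 59) (nat_lit 5) (nat_lit 58) (nat_lit 3) (nat_lit 67) (nat_lit 5) (nat_lit 311)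 (nat_lit 310) (nat_lit 99)) (XT.lf (nat_lit 76) (nat_lit 91707379748) (nat_lit 0) (nat_lit 19195199931) (nat_lit 684) (nat_lit 21213530080) (nat_lit 59) (nat_lit 5) (nat_lit 58) (nat_lit 3) (nat_lit 67) (nat_lit 5) (nat_lit 312) (nat_lit 310) (nat_lit 98)))) (XT.nd (nat_lit 156) (nat_lit 0) (nat_lit 0) (XT.nd (nat_lit 78) (nat_lit 0) (nat_lit 0) (XT.lf (nat_lit 76) (nat_lit 11351823317) (nat_lit 0) (nat_lit 103970935807) (nat_lit 684) (nat_lit 20181632507) (nat_lit 60) (nat_lit 5) (nat_lit 59) (nat_lit 5) (nat_lit 68) (nat_lit 5) (nat_lit 313) (nat_lit 310) (nat_lit 97)) (XT.lf (nat_lit 76) (nat_lit 66778096373) (nat_lit 0) (nat_lit 54179587288) (nat_lit 684) (nat_lit 18054718383) (nat_lit 60) (nat_lit 5) (nat_lit 59) (nat_lit 5) (nat_lit 68) (nat_lit 5) (nat_lit 314) (nat_lit 310) (nat_lit 96))) (XT.nd (nat_lit 78) (nat_lit 0) (nat_lit 76) (XT.lf (nat_lit 76) (nat_lit 124975561365)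 (nat_lit 0) (nat_lit 1898597558) (nat_lit 684) (nat_lit 15821665019) (nat_lit 60) (nat_lit 5) (nat_lit 59) (nat_lit 5) (nat_lit 68) (nat_lit 5) (nat_lit 315) (nat_lit 310) (nat_lit 95)) (XT.lf (nat_lit 76) (nat_lit 39971262250) (nat_lit 0) (nat_lit 94566497005) (nat_lit 684) (nat_lit 11953093750) (nat_lit 61) (nat_lit 5) (nat_lit 60) (nat_lit 5) (nat_lit 69) (nat_lit 5) (nat_lit 316) (nat_lit 310) (nat_lit 94))))) (XT.nd (nat_lit 312) (nat_lit 0) (nat_lit 0) (XT.nd (nat_lit 156) (nat_lit 0) (nat_lit 0) (XT.nd (nat_lit 78) (nat_lit 0) (nat_lit 0) (XT.lf (nat_lit 0) (nat_lit 54670275578) (nat_lit 684) (nat_lit 5672493197) (nat_lit 684) (nat_lit 5672493197) (nat_lit 58) (nat_lit 3) (nat_lit 67) (nat_lit 3) (nat_lit 67) (nat_lit 5) (nat_lit 311) (nat_lit 311) (nat_lit 98)) (XT.lf (nat_lit 76) (nat_lit 40970808712) (nat_lit 0) (nat_lit 71746096910) (nat_lit 684) (nat_lit 22582219841) (nat_lit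 59) (nat_lit 5) (nat_lit 58) (nat_lit 3) (nat_lit 67) (nat_lit 5) (nat_lit 312) (nat_lit 311) (nat_lit 97))) (XT.nd (nat_lit 78) (nat_lit 0) (nat_lit 76) (XT.lf (nat_lit 76) (nat_lit 96296155129) (nat_lit 0) (nat_lit 20157850769) (nat_lit 684) (nat_lit 22267556006) (nat_lit 59) (nat_lit 5) (nat_lit 58) (nat_lit 3) (nat_lit 67) (nat_lit 5) (nat_lit 313) (nat_lit 311) (nat_lit 96)) (XT.lf (nat_lit 76) (nat_lit 11923157984) (nat_lit 0) (nat_lit 109171751925) (nat_lit 684) (nat_lit 21184364015) (nat_lit 60) (nat_lit 5) (nat_lit 59) (nat_lit 5) (nat_lit 68) (nat_lit 5) (nat_lit 314) (nat_lit 311) (nat_lit 95)))) (XT.nd (nat_lit 37362) (nat_lit 0) (nat_lit 0) (XT.nd (nat_lit 37284) (nat_lit 76) (nat_lit 0) (XT.lf (nat_lit 76) (nat_lit 70120566430) (nat_lit 0) (nat_lit 56890727916) (nat_lit 684) (nat_lit 18951406570) (nat_lit 60) (nat_lit 5) (nat_lit 59) (nat_lit 5) (nat_lit 68) (nat_lit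 5) (nat_lit 315) (nat_lit 311) (nat_lit 94)) (XT.lf (nat_lit 0) (nat_lit 57406911383) (nat_lit 684) (nat_lit 5954469173) (nat_lit 684) (nat_lit 5954469173) (nat_lit 58) (nat_lit 3) (nat_lit 67) (nat_lit 3) (nat_lit 67) (nat_lit 5) (nat_lit 312) (nat_lit 312) (nat_lit 96))) (XT.nd (nat_lit 78) (nat_lit 0) (nat_lit 0) (XT.lf (nat_lit 76) (nat_lit 43022593332) (nat_lit 0) (nat_lit 75336154938) (nat_lit 684) (nat_lit 23704996949) (nat_lit 59) (nat_lit 5) (nat_lit 58) (nat_lit 3) (nat_lit 67) (nat_lit 5) (nat_lit 313) (nat_lit 312) (nat_lit 95)) (XT.nd (nat_lit 37440) (nat_lit 0) (nat_lit 0) (XT.lf (nat_lit 76) (nat_lit 101114052584) (nat_lit 0) (nat_lit 21168365386) (nat_lit 684) (nat_lit 23374901537) (nat_lit 59) (nat_lit 5) (nat_lit 58) (nat_lit 3) (nat_lit 67) (nat_lit 5) (nat_lit 314) (nat_lit 312) (nat_lit 94)) (XT.lf (nat_lit 0) (nat_lit 60280088721) (nat_lit 684) (nat_lit 6250697227)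 (nat_lit 684) (nat_lit 6250697227) (nat_lit 58) (nat_lit 3) (nat_lit 67) (nat_lit 3) (nat_lit 67) (nat_lit 5) (nat_lit 313) (nat_lit 313) (nat_lit 94))))))))

set_option maxRecDepth 10000000 in
noncomputable def Tp : PT := (PT.nd (nat_lit 4587180) (PT.nd (nat_lit 4286958) (PT.nd (nat_lit 4024410) (PT.nd (nat_lit 3836742) pc0 pc1) (PT.nd (nat_lit 149994) pc2 pc3)) (PT.nd (nat_lit 187200) (PT.nd (nat_lit 112086) pc4 pc5) (PT.nd (nat_lit 74568) pc6 pc7))) (PT.nd (nat_lit 187746) (PT.nd (nat_lit 112086) (PT.nd (nat_lit 74022) pc8 pc9) (PT.nd (nat_lit 37908) pc10 pc11)) (PT.nd (nat_lit 110370) (PT.nd (nat_lit 72618) pc12 pc13) (PT.nd (nat_lit 74568) pc14 pc15))))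

set_option maxRecDepth 10000000 in
noncomputable def Tx : XT := (XT.nd (nat_lit 6818682) (nat_lit 0) (nat_lit 76) XT.nil (XT.nd (nat_lit 4948944) (nat_lit 0) (nat_lit 0) (XT.nd (nat_lit 2396004) (nat_lit 0) (nat_lit 152) (XT.nd (nat_lit 1649934) (nat_lit 0) (nat_lit 76) (XT.nd (nat_lit 1160016) (nat_lit 0) (nat_lit 0) (XT.nd (nat_lit 787332) (nat_lit 0) (nat_lit 0) (XT.nd (nat_lit 560664) (nat_lit 0) (nat_lit 0) (XT.nd (nat_lit 374322) (nat_lit 0) (nat_lit 0) (XT.nd (nat_lit 261612) (nat_lit 0) (nat_lit 0) xc0 (XT.nd (nat_lit 38532) (nat_lit 0) (nat_lit 0) xc1 xc2)) (XT.nd (nat_lit 75972) (nat_lit 0) (nat_lit 0) xc3 (XT.nd (nat_lit 72852) (nat_lit 0) (nat_lit 0) xc4 xc5))) (XT.nd (nat_lit 113958) (nat_lit 0) (nat_lit 0) (XT.nd (nat_lit 39780) (nat_lit 0) (nat_lit 0) xc6 (XT.nd (nat_lit 37128) (nat_lit 0) (nat_lit 0) xc7 xc8)) (XT.nd (nat_lit 73554) (nat_lit 0) (nat_lit 0) (XT.nd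 (nat_lit 36816) (nat_lit 0) (nat_lit 0) xc9 xc10) (XT.nd (nat_lit 36582) (nat_lit 0) (nat_lit 0) xc11 xc12)))) (XT.nd (nat_lit 221442) (nat_lit 0) (nat_lit 0) (XT.nd (nat_lit 111384) (nat_lit 0) (nat_lit 0) (XT.nd (nat_lit 72696) (nat_lit 0) (nat_lit 0) xc13 (XT.nd (nat_lit 2496) (nat_lit 0) (nat_lit 0) xc14 xc15)) (XT.nd (nat_lit 38532) (nat_lit 0) (nat_lit 0) (XT.nd (nat_lit 35958) (nat_lit 0) (nat_lit 0) xc16 xc17) (XT.nd (nat_lit 35802) (nat_lit 0) (nat_lit 0) xc18 xc19))) (XT.nd (nat_lit 75894) (nat_lit 0) (nat_lit 0) (XT.nd (nat_lit 37986) (nat_lit 0) (nat_lit 0) xc20 (XT.nd (nat_lit 2496) (nat_lit 152) (nat_lit 0) xc21 xc22)) (XT.nd (nat_lit 37752) (nat_lit 0) (nat_lit 0) (XT.nd (nat_lit 2496) (nat_lit 76) (nat_lit 0) xc23 xc24) (XT.nd (nat_lit 2496) (nat_lit 76) (nat_lit 0) xc25 xc26))))) (XT.nd (nat_lit 263718) (nat_lit 0) (nat_lit 0) (XT.nd (nat_lit 148668) (nat_lit 0) (nat_lit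 0) (XT.nd (nat_lit 74646) (nat_lit 0) (nat_lit 0) (XT.nd (nat_lit 37362) (nat_lit 0) (nat_lit 0) xc27 (XT.nd (nat_lit 2496) (nat_lit 76) (nat_lit 0) xc28 xc29)) (XT.nd (nat_lit 37050) (nat_lit 0) (nat_lit 0) xc30 (XT.nd (nat_lit 2496) (nat_lit 152) (nat_lit 0) xc31 xc32))) (XT.nd (nat_lit 41808) (nat_lit 0) (nat_lit 0) (XT.nd (nat_lit 36738) (nat_lit 0) (nat_lit 0) xc33 (XT.nd (nat_lit 2496) (nat_lit 152) (nat_lit 0) xc34 xc35)) (XT.nd (nat_lit 36660) (nat_lit 0) (nat_lit 0) (XT.nd (nat_lit 34086) (nat_lit 0) (nat_lit 152) xc36 xc37) (XT.nd (nat_lit 34008) (nat_lit 0) (nat_lit 152) xc38 xc39)))) (XT.nd (nat_lit 113802) (nat_lit 0) (nat_lit 76) (XT.nd (nat_lit 72618) (nat_lit 0) (nat_lit 76) (XT.nd (nat_lit 36348) (nat_lit 0) (nat_lit 0) xc40 (XT.nd (nat_lit 2496) (nat_lit 152) (nat_lit 0) xc41 xc42)) (XT.nd (nat_lit 36114) (nat_lit 0) (nat_lit 76) (XT.nd (nat_lit 2496) (nat_lit 76)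 (nat_lit 0) xc43 xc44) (XT.nd (nat_lit 2496) (nat_lit 76) (nat_lit 0) xc45 xc46))) (XT.nd (nat_lit 71682) (nat_lit 0) (nat_lit 0) (XT.nd (nat_lit 35880) (nat_lit 0) (nat_lit 0) xc47 (XT.nd (nat_lit 33228) (nat_lit 0) (nat_lit 152) xc48 xc49)) (XT.nd (nat_lit 35646) (nat_lit 0) (nat_lit 76) (XT.nd (nat_lit 2496) (nat_lit 76) (nat_lit 0) xc50 xc51) (XT.nd (nat_lit 2496) (nat_lit 76) (nat_lit 0) xc52 xc53)))))) (XT.nd (nat_lit 407394) (nat_lit 0) (nat_lit 76) (XT.nd (nat_lit 220662) (nat_lit 0) (nat_lit 76) (XT.nd (nat_lit 110916) (nat_lit 0) (nat_lit 76) (XT.nd (nat_lit 70746) (nat_lit 0) (nat_lit 76) (XT.nd (nat_lit 35412) (nat_lit 0) (nat_lit 76) xc54 (XT.nd (nat_lit 2496) (nat_lit 0) (nat_lit 0) xc55 xc56)) (XT.nd (nat_lit 4992) (nat_lit 0) (nat_lit 0) xc57 (XT.nd (nat_lit 32604) (nat_lit 0) (nat_lit 0) xc58 xc59))) (XT.nd (nat_lit 69888) (nat_lit 0) (nat_lit 0) (XT.nd (nat_lit 34944)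 (nat_lit 0) (nat_lit 0) xc60 (XT.nd (nat_lit 2496) (nat_lit 0) (nat_lit 0) xc61 xc62)) (XT.nd (nat_lit 5070) (nat_lit 0) (nat_lit 0) (XT.nd (nat_lit 2496) (nat_lit 456) (nat_lit 0) xc63 xc64) (XT.nd (nat_lit 2496) (nat_lit 0) (nat_lit 0) xc65 xc66)))) (XT.nd (nat_lit 79170) (nat_lit 0) (nat_lit 0) (XT.nd (nat_lit 39624) (nat_lit 0) (nat_lit 0) (XT.nd (nat_lit 4992) (nat_lit 0) (nat_lit 0) xc67 (XT.nd (nat_lit 32058) (nat_lit 0) (nat_lit 76) xc68 xc69)) (XT.nd (nat_lit 34476) (nat_lit 0) (nat_lit 0) (XT.nd (nat_lit 2496) (nat_lit 0) (nat_lit 0) xc70 xc71) (XT.nd (nat_lit 2496) (nat_lit 152) (nat_lit 0) xc72 xc73))) (XT.nd (nat_lit 68406) (nat_lit 0) (nat_lit 0) (XT.nd (nat_lit 34242) (nat_lit 0) (nat_lit 0) xc74 (XT.nd (nat_lit 2496) (nat_lit 0) (nat_lit 0) xc75 xc76)) (XT.nd (nat_lit 5070) (nat_lit 76) (nat_lit 0) (XT.nd (nat_lit 2496) (nat_lit 608) (nat_lit 0) xc77 xc78) (XT.nd (nat_lit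 2496) (nat_lit 0) (nat_lit 0) xc79 xc80))))) (XT.nd (nat_lit 154908) (nat_lit 0) (nat_lit 0) (XT.nd (nat_lit 77766) (nat_lit 0) (nat_lit 0) (XT.nd (nat_lit 38922) (nat_lit 0) (nat_lit 0) (XT.nd (nat_lit 4992) (nat_lit 0) (nat_lit 0) xc81 (XT.nd (nat_lit 31356) (nat_lit 0) (nat_lit 380) xc82 xc83)) (XT.nd (nat_lit 33774) (nat_lit 0) (nat_lit 152) (XT.nd (nat_lit 2496) (nat_lit 76) (nat_lit 0) xc84 xc85) (XT.nd (nat_lit 2496) (nat_lit 988) (nat_lit 0) xc86 xc87))) (XT.nd (nat_lit 38610) (nat_lit 0) (nat_lit 0) (XT.nd (nat_lit 33540) (nat_lit 0) (nat_lit 76) xc88 (XT.nd (nat_lit 2496) (nat_lit 532) (nat_lit 0) xc89 xc90)) (XT.nd (nat_lit 33462) (nat_lit 0) (nat_lit 0) (XT.nd (nat_lit 30888) (nat_lit 0) (nat_lit 1596) xc91 xc92) (XT.nd (nat_lit 2496) (nat_lit 304) (nat_lit 0) xc93 xc94)))) (XT.nd (nat_lit 105924) (nat_lit 0) (nat_lit 0) (XT.nd (nat_lit 38532) (nat_lit 0) (nat_lit 0) (XT.nd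 (nat_lit 33462) (nat_lit 0) (nat_lit 0) xc95 (XT.nd (nat_lit 2496) (nat_lit 76) (nat_lit 0) xc96 xc97)) (XT.nd (nat_lit 33618) (nat_lit 0) (nat_lit 0) (XT.nd (nat_lit 31044) (nat_lit 0) (nat_lit 380) xc98 xc99) (XT.nd (nat_lit 2496) (nat_lit 0) (nat_lit 0) xc100 xc101))) (XT.nd (nat_lit 38844) (nat_lit 0) (nat_lit 0) (XT.nd (nat_lit 4992) (nat_lit 152) (nat_lit 0) xc102 (XT.nd (nat_lit 2496) (nat_lit 0) (nat_lit 0) xc103 xc104)) (XT.nd (nat_lit 5070) (nat_lit 0) (nat_lit 0) (XT.nd (nat_lit 2496) (nat_lit 380) (nat_lit 0) xc105 xc106) (XT.nd (nat_lit 31356) (nat_lit 0) (nat_lit 836) xc107 xc108))))))) (XT.nd (nat_lit 790140) (nat_lit 0) (nat_lit 76) (XT.nd (nat_lit 374322) (nat_lit 0) (nat_lit 0) (XT.nd (nat_lit 185952) (nat_lit 0) (nat_lit 0) (XT.nd (nat_lit 78078) (nat_lit 0) (nat_lit 0) (XT.nd (nat_lit 39000) (nat_lit 0) (nat_lit 0) (XT.nd (nat_lit 33930) (nat_lit 0) (nat_lit 304)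 xc109 (XT.nd (nat_lit 2496) (nat_lit 1444) (nat_lit 0) xc110 xc111)) (XT.nd (nat_lit 34008) (nat_lit 0) (nat_lit 76) xc112 (XT.nd (nat_lit 2496) (nat_lit 608) (nat_lit 0) xc113 xc114))) (XT.nd (nat_lit 39156) (nat_lit 0) (nat_lit 0) (XT.nd (nat_lit 34086) (nat_lit 0) (nat_lit 0) xc115 (XT.nd (nat_lit 2496) (nat_lit 228) (nat_lit 0) xc116 xc117)) (XT.nd (nat_lit 34320) (nat_lit 0) (nat_lit 0) (XT.nd (nat_lit 31746) (nat_lit 0) (nat_lit 380) xc118 xc119) (XT.nd (nat_lit 2496) (nat_lit 0) (nat_lit 0) xc120 xc121)))) (XT.nd (nat_lit 79092) (nat_lit 0) (nat_lit 0) (XT.nd (nat_lit 39468) (nat_lit 0) (nat_lit 0) (XT.nd (nat_lit 4992) (nat_lit 76) (nat_lit 0) xc122 (XT.nd (nat_lit 31902) (nat_lit 0) (nat_lit 988) xc123 xc124)) (XT.nd (nat_lit 34554) (nat_lit 0) (nat_lit 228) (XT.nd (nat_lit 2496) (nat_lit 152) (nat_lit 0) xc125 xc126) (XT.nd (nat_lit 2496) (nat_lit 1064) (nat_lit 0) xc127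 xc128))) (XT.nd (nat_lit 39624) (nat_lit 0) (nat_lit 0) (XT.nd (nat_lit 34554) (nat_lit 0) (nat_lit 0) xc129 (XT.nd (nat_lit 2496) (nat_lit 304) (nat_lit 0) xc130 xc131)) (XT.nd (nat_lit 34788) (nat_lit 0) (nat_lit 0) (XT.nd (nat_lit 32214) (nat_lit 0) (nat_lit 380) xc132 xc133) (XT.nd (nat_lit 2496) (nat_lit 0) (nat_lit 0) xc134 xc135))))) (XT.nd (nat_lit 190866) (nat_lit 0) (nat_lit 0) (XT.nd (nat_lit 80028) (nat_lit 0) (nat_lit 0) (XT.nd (nat_lit 39936) (nat_lit 0) (nat_lit 0) (XT.nd (nat_lit 4992) (nat_lit 76) (nat_lit 0) xc136 (XT.nd (nat_lit 32370) (nat_lit 0) (nat_lit 608) xc137 xc138)) (XT.nd (nat_lit 35022) (nat_lit 0) (nat_lit 76) xc139 (XT.nd (nat_lit 2496) (nat_lit 532) (nat_lit 0) xc140 xc141))) (XT.nd (nat_lit 70434) (nat_lit 0) (nat_lit 0) (XT.nd (nat_lit 35178) (nat_lit 0) (nat_lit 0) xc142 (XT.nd (nat_lit 2496) (nat_lit 76) (nat_lit 0) xc143 xc144)) (XT.nd (nat_lit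 5070) (nat_lit 0) (nat_lit 0) (XT.nd (nat_lit 2496) (nat_lit 380) (nat_lit 0) xc145 xc146) (XT.nd (nat_lit 32760) (nat_lit 0) (nat_lit 304) xc147 xc148)))) (XT.nd (nat_lit 111930) (nat_lit 0) (nat_lit 76) (XT.nd (nat_lit 71136) (nat_lit 0) (nat_lit 76) (XT.nd (nat_lit 35490) (nat_lit 0) (nat_lit 76) xc149 (XT.nd (nat_lit 2496) (nat_lit 228) (nat_lit 0) xc150 xc151)) (XT.nd (nat_lit 5070) (nat_lit 76) (nat_lit 0) (XT.nd (nat_lit 2496) (nat_lit 836) (nat_lit 0) xc152 xc153) (XT.nd (nat_lit 33150) (nat_lit 0) (nat_lit 608) xc154 xc155))) (XT.nd (nat_lit 71838) (nat_lit 0) (nat_lit 0) (XT.nd (nat_lit 35802) (nat_lit 0) (nat_lit 0) xc156 (XT.nd (nat_lit 2496) (nat_lit 304) (nat_lit 0) xc157 xc158)) (XT.nd (nat_lit 5070) (nat_lit 76) (nat_lit 0) (XT.nd (nat_lit 2496) (nat_lit 988) (nat_lit 0) xc159 xc160) (XT.nd (nat_lit 33540) (nat_lit 0) (nat_lit 532) xc161 xc162)))))) (XT.nd (nat_lit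 560196) (nat_lit 0) (nat_lit 304) (XT.nd (nat_lit 260832) (nat_lit 0) (nat_lit 152) (XT.nd (nat_lit 113958) (nat_lit 0) (nat_lit 0) (XT.nd (nat_lit 72540) (nat_lit 0) (nat_lit 0) (XT.nd (nat_lit 36192) (nat_lit 0) (nat_lit 0) xc163 (XT.nd (nat_lit 2496) (nat_lit 228) (nat_lit 0) xc164 xc165)) (XT.nd (nat_lit 36348) (nat_lit 0) (nat_lit 152) xc166 (XT.nd (nat_lit 2496) (nat_lit 1064) (nat_lit 0) xc167 xc168))) (XT.nd (nat_lit 73164) (nat_lit 0) (nat_lit 76) (XT.nd (nat_lit 36504) (nat_lit 0) (nat_lit 76) xc169 (XT.nd (nat_lit 34086) (nat_lit 0) (nat_lit 836) xc170 xc171)) (XT.nd (nat_lit 36816) (nat_lit 0) (nat_lit 0) (XT.nd (nat_lit 34242) (nat_lit 0) (nat_lit 1444) xc172 xc173) (XT.nd (nat_lit 2496) (nat_lit 152) (nat_lit 0) xc174 xc175)))) (XT.nd (nat_lit 148746) (nat_lit 0) (nat_lit 76) (XT.nd (nat_lit 74100) (nat_lit 0) (nat_lit 76) (XT.nd (nat_lit 36972) (nat_lit 0) (nat_lit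 0) xc176 (XT.nd (nat_lit 2496) (nat_lit 456) (nat_lit 0) xc177 xc178)) (XT.nd (nat_lit 37284) (nat_lit 0) (nat_lit 0) (XT.nd (nat_lit 2496) (nat_lit 684) (nat_lit 0) xc179 xc180) (XT.nd (nat_lit 2496) (nat_lit 836) (nat_lit 0) xc181 xc182))) (XT.nd (nat_lit 75036) (nat_lit 0) (nat_lit 0) (XT.nd (nat_lit 37440) (nat_lit 0) (nat_lit 0) xc183 (XT.nd (nat_lit 2496) (nat_lit 1292) (nat_lit 0) xc184 xc185)) (XT.nd (nat_lit 37752) (nat_lit 0) (nat_lit 76) (XT.nd (nat_lit 2496) (nat_lit 1292) (nat_lit 0) xc186 xc187) (XT.nd (nat_lit 2496) (nat_lit 912) (nat_lit 0) xc188 xc189))))) (XT.nd (nat_lit 341094) (nat_lit 0) (nat_lit 608) (XT.nd (nat_lit 152568) (nat_lit 0) (nat_lit 228) (XT.nd (nat_lit 75972) (nat_lit 0) (nat_lit 152) (XT.nd (nat_lit 37908) (nat_lit 0) (nat_lit 0) xc190 (XT.nd (nat_lit 2496) (nat_lit 608) (nat_lit 0) xc191 xc192)) (XT.nd (nat_lit 38220) (nat_lit 0) (nat_lit 76) (XT.nd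 (nat_lit 2496) (nat_lit 152) (nat_lit 0) xc193 xc194) (XT.nd (nat_lit 35802) (nat_lit 0) (nat_lit 684) xc195 xc196))) (XT.nd (nat_lit 110682) (nat_lit 0) (nat_lit 76) (XT.nd (nat_lit 38376) (nat_lit 0) (nat_lit 76) xc197 (XT.nd (nat_lit 36036) (nat_lit 0) (nat_lit 0) xc198 xc199)) (XT.nd (nat_lit 38844) (nat_lit 0) (nat_lit 152) (XT.nd (nat_lit 2496) (nat_lit 456) (nat_lit 0) xc200 xc201) (XT.nd (nat_lit 36426) (nat_lit 0) (nat_lit 152) xc202 xc203)))) (XT.nd (nat_lit 262002) (nat_lit 0) (nat_lit 760) (XT.nd (nat_lit 147420) (nat_lit 0) (nat_lit 304) (XT.nd (nat_lit 73398) (nat_lit 0) (nat_lit 152) xc204 (XT.nd (nat_lit 36894) (nat_lit 0) (nat_lit 0) xc205 xc206)) (XT.nd (nat_lit 39780) (nat_lit 0) (nat_lit 0) (XT.nd (nat_lit 2496) (nat_lit 0) (nat_lit 0) xc207 xc208) (XT.nd (nat_lit 37284) (nat_lit 0) (nat_lit 304) xc209 xc210))) (XT.nd (nat_lit 186966) (nat_lit 0) (nat_lit 760)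 (XT.nd (nat_lit 110760) (nat_lit 0) (nat_lit 228) xc211 (XT.nd (nat_lit 37986) (nat_lit 0) (nat_lit 228) xc212 xc213)) (XT.nd (nat_lit 112944) (nat_lit 0) (nat_lit 532) (XT.nd (nat_lit 74256) (nat_lit 0) (nat_lit 228) xc214 xc215) (XT.nd (nat_lit 111774) (nat_lit 0) (nat_lit 684) xc216 xc217)))))))) XT.nil))

set_option maxRecDepth 10000000 in
noncomputable def Te : XT := XT.nil

set_option maxRecDepth 10000000 in
noncomputable def Tz : ZL := (ZL.cons (nat_lit 76) (nat_lit 6) (nat_lit 158708632360610032220) (ZL.cons (nat_lit 152) (nat_lit 6) (nat_lit 155678380507362528902) (ZL.cons (nat_lit 228) (nat_lit 3) (nat_lit 77752230035828147838) (ZL.cons (nat_lit 304) (nat_lit 6) (nat_lit 152496616061452650416) (ZL.cons (nat_lit 380) (nat_lit 6) (nat_lit 149677938796641468720) (ZL.cons (nat_lit 456) (nat_lit 3) (nat_lit 74756150143222528061) (ZL.cons (nat_lit 532) (nat_lit 6) (nat_lit 146718327668589727936)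 (ZL.cons (nat_lit 608) (nat_lit 6) (nat_lit 144108045892129867456) (ZL.cons (nat_lit 684) (nat_lit 3) (nat_lit 71975147465019022969) (ZL.cons (nat_lit 760) (nat_lit 6) (nat_lit 141675240000454855970) (ZL.cons (nat_lit 836) (nat_lit 6) (nat_lit 141367250026847013954) (ZL.cons (nat_lit 912) (nat_lit 6) (nat_lit 138963042852104272392) (ZL.cons (nat_lit 988) (nat_lit 3) (nat_lit 69406401920294125947) (ZL.cons (nat_lit 1064) (nat_lit 6) (nat_lit 136731949103012814718) (ZL.cons (nat_lit 1140) (nat_lit 6) (nat_lit 136438625318624393748) (ZL.cons (nat_lit 1216) (nat_lit 6) (nat_lit 134239061654950763662) (ZL.cons (nat_lit 1292) (nat_lit 3) (nat_lit 67047988441039181595) (ZL.cons (nat_lit 1368) (nat_lit 6) (nat_lit 132208875793225281564) (ZL.cons (nat_lit 1444) (nat_lit 6) (nat_lit 131929519808093452072) (ZL.cons (nat_lit 1520) (nat_lit 6) (nat_lit 130343233957586696308) (ZL.cons (nat_lit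 1596) (nat_lit 6) (nat_lit 129934095865541124890) (ZL.cons (nat_lit 1672) (nat_lit 3) (nat_lit 64898912326640847935) (ZL.cons (nat_lit 1748) (nat_lit 6) (nat_lit 128637694143664439834) (ZL.cons (nat_lit 1824) (nat_lit 6) (nat_lit 128104954045034352296) (ZL.cons (nat_lit 1900) (nat_lit 6) (nat_lit 127838900725861181350) (ZL.cons (nat_lit 1976) (nat_lit 6) (nat_lit 126437739247000499118) (ZL.cons (nat_lit 2052) (nat_lit 6) (nat_lit 126048083921242812052) (ZL.cons (nat_lit 2128) (nat_lit 3) (nat_lit 62959150907164535063) (ZL.cons (nat_lit 2204) (nat_lit 6) (nat_lit 124928481912396627606) (ZL.cons (nat_lit 2280) (nat_lit 6) (nat_lit 124421110389891782334) (ZL.cons (nat_lit 2356) (nat_lit 6) (nat_lit 124167726276393524288) (ZL.cons (nat_lit 2432) (nat_lit 6) (nat_lit 123573588571378442832) (ZL.cons (nat_lit 2508) (nat_lit 6) (nat_lit 122954106385304875456) (ZL.cons (nat_lit 2584) (nat_lit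 6) (nat_lit 122583006075059459204) (ZL.cons (nat_lit 2660) (nat_lit 3) (nat_lit 61229702034237471542) (ZL.cons (nat_lit 2736) (nat_lit 6) (nat_lit 121643579040804503544) (ZL.cons (nat_lit 2812) (nat_lit 6) (nat_lit 121160368066990365188) (ZL.cons (nat_lit 2888) (nat_lit 6) (nat_lit 120919049863658690862) (ZL.cons (nat_lit 2964) (nat_lit 6) (nat_lit 120486408053189475242) (ZL.cons (nat_lit 3040) (nat_lit 6) (nat_lit 119896425018833696786) (ZL.cons (nat_lit 3116) (nat_lit 6) (nat_lit 119542996151933300356) (ZL.cons (nat_lit 3192) (nat_lit 3) (nat_lit 59712639977593071075) (ZL.cons (nat_lit 3268) (nat_lit 6) (nat_lit 119479838253441659524) (ZL.cons (nat_lit 3344) (nat_lit 6) (nat_lit 118788167542379557166) (ZL.cons (nat_lit 3420) (nat_lit 6) (nat_lit 118327966614937520636) (ZL.cons (nat_lit 3496) (nat_lit 6) (nat_lit 118098139754621640326) (ZL.cons (nat_lit 3572) (nat_lit 6) (nat_lit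 118621473046799752072) (ZL.cons (nat_lit 3648) (nat_lit 6) (nat_lit 117832956929350674568) (ZL.cons (nat_lit 3724) (nat_lit 6) (nat_lit 117271068325202314136) (ZL.cons (nat_lit 3800) (nat_lit 6) (nat_lit 116934469404344793726) (ZL.cons (nat_lit 3876) (nat_lit 3) (nat_lit 58411179370388035811) (ZL.cons (nat_lit 3952) (nat_lit 6) (nat_lit 117341529508166651950) (ZL.cons (nat_lit 4028) (nat_lit 6) (nat_lit 117909268706581272150) (ZL.cons (nat_lit 4104) (nat_lit 6) (nat_lit 117028518868763646886) (ZL.cons (nat_lit 4180) (nat_lit 6) (nat_lit 116369784858228311308) (ZL.cons (nat_lit 4256) (nat_lit 6) (nat_lit 115931498260664466996) (ZL.cons (nat_lit 4332) (nat_lit 6) (nat_lit 115712615536554104792) (ZL.cons (nat_lit 4408) (nat_lit 3) (nat_lit 57606606454472465742) (ZL.cons (nat_lit 4484) (nat_lit 6) (nat_lit 115285480442284423536) (ZL.cons (nat_lit 4560) (nat_lit 6) (nat_lit 115502455107858469910)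 (ZL.cons (nat_lit 4636) (nat_lit 6) (nat_lit 115864653512013675478) (ZL.cons (nat_lit 4712) (nat_lit 6) (nat_lit 116372938031902790728) (ZL.cons (nat_lit 4788) (nat_lit 6) (nat_lit 115621970300998907390) (ZL.cons (nat_lit 4864) (nat_lit 6) (nat_lit 115086838297048087932) (ZL.cons (nat_lit 4940) (nat_lit 6) (nat_lit 114766267896231401826) (ZL.cons (nat_lit 5016) (nat_lit 3) (nat_lit 57329747917844880863) (ZL.cons (nat_lit 5092) (nat_lit 6) (nat_lit 114135188970799426062) (ZL.cons (nat_lit 5168) (nat_lit 6) (nat_lit 114283337414145384768) (ZL.cons (nat_lit 5244) (nat_lit 6) (nat_lit 114579987035226221128) (ZL.cons (nat_lit 5320) (nat_lit 6) (nat_lit 115025844142663556182) (ZL.cons (nat_lit 5396) (nat_lit 6) (nat_lit 114398478418344188964) (ZL.cons (nat_lit 5472) (nat_lit 6) (nat_lit 113981062611140527712) (ZL.cons (nat_lit 5548) (nat_lit 6) (nat_lit 113772602873892563710) (ZL.cons (nat_lit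 5624) (nat_lit 3) (nat_lit 56590383519619218380) (ZL.cons (nat_lit 5700) (nat_lit 6) (nat_lit 113256647949244903414) (ZL.cons (nat_lit 5776) (nat_lit 6) (nat_lit 113484471348097652106) (ZL.cons (nat_lit 5852) (nat_lit 6) (nat_lit 113864779672460617952) (ZL.cons (nat_lit 5928) (nat_lit 6) (nat_lit 113355130144888408940) (ZL.cons (nat_lit 6004) (nat_lit 6) (nat_lit 113049825001253469792) (ZL.cons (nat_lit 6080) (nat_lit 3) (nat_lit 56474068662273572945) (ZL.cons (nat_lit 6156) (nat_lit 6) (nat_lit 112419942214431072318) (ZL.cons (nat_lit 6232) (nat_lit 6) (nat_lit 112575498079944328958) (ZL.cons (nat_lit 6308) (nat_lit 6) (nat_lit 112886980182079207136) (ZL.cons (nat_lit 6384) (nat_lit 6) (nat_lit 112489441318075720228) (ZL.cons (nat_lit 6460) (nat_lit 6) (nat_lit 112290908234982421180) (ZL.cons (nat_lit 6536) (nat_lit 3) (nat_lit 55885614026596214990) (ZL.cons (nat_lit 6612) (nat_lit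 6) (nat_lit 111850903008699219966) (ZL.cons (nat_lit 6688) (nat_lit 6) (nat_lit 112090117577494606092) (ZL.cons (nat_lit 6764) (nat_lit 6) (nat_lit 111799350774032759284) (ZL.cons (nat_lit 6840) (nat_lit 3) (nat_lit 55851252683822892069) (ZL.cons (nat_lit 6916) (nat_lit 6) (nat_lit 111308960908002217728) (ZL.cons (nat_lit 6992) (nat_lit 6) (nat_lit 111472294566791137200) (ZL.cons (nat_lit 7068) (nat_lit 6) (nat_lit 111283215440035614294) (ZL.cons (nat_lit 7144) (nat_lit 3) (nat_lit 55474190719759164689) (ZL.cons (nat_lit 7220) (nat_lit 6) (nat_lit 111032040142800458864) (ZL.cons (nat_lit 7296) (nat_lit 3) (nat_lit 55469903211215955552) (ZL.cons (nat_lit 7372) (nat_lit 6) (nat_lit 110768306080703545660) (ZL.cons (nat_lit 7448) (nat_lit 1) (nat_lit 18446744073709551617) ZL.nil))))))))))))))))))))))))))))))))))))))))))))))))))))))))))))))))))))))))))))))))))))))))))))))))))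

noncomputable def vl : XL := ⟨(nat_lit 0), (nat_lit 76), (nat_lit 48221197), (nat_lit 228), (nat_lit 665807289), (nat_lit 76), (nat_lit 48221197), (nat_lit 1), (nat_lit 5), (nat_lit 3), (nat_lit 4), (nat_lit 1), (nat_lit 4), (nat_lit 0), (nat_lit 0), (nat_lit 0)⟩

noncomputable def cp0 : Nat := (nat_lit 1566193552683923327600039203990679919889924739215620325502587357747109885035791825944148432212941705151363996953809917031213302421059001636978999795454611661638609997192237953612543497108563094636824363247476353406121921834355004153159562453097210556088098219667749759435035027032103143824026726618745888481424106864570063130735166808910273580374085140653547728582073252681790896772651028810603121503390744014722826791575763830844133236404793281581571783395578832970997248693853116993873801355599776402717134454580671876943179528533098637924917525494652068842919571331339828273154681889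35455039994143476284349093716285477222245173110401848225614725343426155512689655167658616815843862703588724295942534799580936157980822208070924439287323089477509243311262176281945076657928864586800710360965552835281496508130800060070010353083201162166773372408026392983039561943745876077663273269122071885417428838250415284022970014984950276087874305451884616112382227360489972352288281572716589413755377902045244569597053771308208352107939006453564550643571815146237952696862670832391322566502328787732383900128648668189123747254114925334155325320755609230244815317704325204610254326134038045287347590515264820403645846394881604856921530340599302170991842474644492165699448470739746868528251373885653399204377521190455300825623996498088599612757029032803697375049293116417329062328578880147715180792453414970947269474716690317715714953159111840027456517544849502418627834917032572472422517781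65030318873257754651921718762918028188801822376611841923621290118631006082896636454264606041802449392623142278788421696718226331166849094718166375751453615458067516021440394046237231499523093321882492956300538599483205134408468594424611223861954266797126294993873813265412567339555881278869280922546294481507092061591663272565941050483693613704107089657324684292851907640973589038887302226790168819936103297511009454195554726087686193805603528478837506775600462621013753332770316013320376422081804226047684046089216905446052848326744041413356764391429925029771030278977924174345493111542086629785865224588672715188265879144227709908366785933854480416611765296663347110573389539064505562504788351812794646467889945506066532873589903506162211511721251751160205946265199693217568653312)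

noncomputable def cp1 : Nat := (nat_lit 22313002050295864143654986466395555078684261111315554302249279313970363200333028515874602887922753170138301254114958144701449606173203941038215239076172097100114112136599320983107748429792018684657109561441932706088078733127804086549795387396137092579079492798700795275932350171540509330645291806399019610991986778441721623748934410141285735713983434902284503629011208569346158107207560164994027679894748513391816769820720266759809537141501996839749915821659383065453773476203603290023520449434416957102176480265100048928119591816850426218963872542420112549814940677897187609192036618845724572351830268413435787808629217122075493744159913573731966704300869258796993204189991606902730275123337908342483235902099944839116441591735298049846348531749534369529877052236572447772829513109584254980841112316921165421481920211463394090285849404176993585649253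77911286247528977826418928031586509230578804001798431806221107957100070283750337550042105262532887369721767304520523495980275452829491971334385441250328483328161110510784909621845655427098240946850178349246247262288926553466172715164688584292864642172799837624405973324032719126678712449437247690029292707465233195236420530918964344356544689742603459400178738692079479780747718068959675262672371127038164163762786004246848890015088485813227129536639353329635720382214026815182115198846957032266557323801310892129541327510897550381534709128032604571890402340741098992750183013359284643667952991484050851958281289872947933292176098312530060717759902070387963310137337712536403207574520889690757589996025779926789294271182943624191656302745531175823588584672921673922827081361397975063549895719058904895216139352066477655840570474417363276210461725068896487197813875165460840230183088228334012793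2821191108052780806083101143276035285874691826969850002224222768564943317915048894786934786022620020045715776906068239515346732132966144133664441644608319571849015452839461073117212237673661585578341706600232740969082525482491898202198407257579838847529915164514886169829366323415272936235717741733223851519584905532004000812192844623995708122958808553729886787870837134191849723079055196737564441826576449151522090316647494378398050536389136761079094822888195460332563467385242821600837569657392531896523647090688000)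

noncomputable def rc0 : Nat := (nat_lit 19002912023843906140037132454257385169717051955427088385015864226770189874556612787033610159660111278349987674545576670812407710356457847071288328387348255050467010236632458223486263627008758800149903961381676379757577259795886537208881280017772317852761709319850807252844020839393693860216757841972249737432838542724220043863325988047909640239553496716925582405121335557865340877350841379602491555871172801140639422635215068632340009685024486978812792181378027028584438715372840827529104196116471777143885328483066851858792306522426335022063579921525019453850214686991295317856433662649917826190954117015622069336598009641042071915981548279599087084945579775760169026462079874493543180885751312914851395874322407717619859258134169587076390359230276958338299870097234071478615336808309708674932452915057457981637087371851509135039156093678448799844996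52905483499524607532461451028021085018918321000409334633980784179211469522609091127048056966512128425964143729862843751513273978093856255667021353008958525835526070240235142849691433200125901575101067437596211770470408007339793225075503938696525606456132388143102981152168832600031026106970322619512776328013427863654978436275305946882266611476285371221243067616522040256574955449441963027300965282351908508919190777727071507815030344575318477280392489873760179606205022554928463446963050016578725398686832264259897300597752635718780133819413690487035952617194941075651329710008882459627588422082473899753355210601114390930163566707257357112514988362761027801047505573007924394353269740700059301218318996548726132022684095905082626343051318198960416649034910871858800257235837448930150099745450462775467813252803160827292243761268094403647788407176544847036357736700023318293248608092460844551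6870061850673297390219708502170734305268355456977251020801791945037141701442445807499585061180916912728071633298281426265811339330692701212638506973409794636409277913112542822399140917543062067073149899501236773719135230323996221603360108067848381528883410623713274423382928607805214465088286729484121550097269010659023631787531930774325588149527745569360038471148938672126128770494451068645262331318585443467276839248034282494966894323883747561114365705516870961486213399998029829752501887148476338142912712668086272)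

noncomputable def rc1 : Nat := (nat_lit 22313002050295864143654986466395555078684261111315554302249279313970363200333028515874602887922753170138301254114958144701449606173203941038215239076172097100114112136599320983107748429792018684657109561441932706088078733127804086549795387396137092579079492798700795275932350171540509330645291806399019610991986778441721623748934410141285735713983434902284503629011208569346158107207560164994027679894748513391816769820720266759809537141501996839749915821659383065453773476203603290023520449434416957102176480265100048928119591816850426218963872542420112549814940677897187609192036618845724572351830268413435787808629217122075493744159913573731966704300869258796993204189991606902730275123337908342483235902099944839116441591735298049846348531749534369529877052236572447772829513109584254980841112316921165421481920211463394090285849404176993585649253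77911286247528977826418928031586509230578804001798431806221107957100070283750337550042105262532887369721767304520523495980275452829491971334385441250328483328161110510784909621845655427098240946850178349246247262288926553466172715164688584292864642172799837624405973324032719126678712449437247690029292707465233195236420530918964344356544689742603459400178738692079479780747718068959675262672371127038164163762786004246848890015088485813227129536639353329635720382214026815182115198846957032266557323801310892129541327510897550381534709128032604571890402340741098992750183013359284643667952991484050851958281289872947933292176098312530060717759902070387963310137337712536403207574520889690757589996025779926789294271182943624191656302745531175823588584672921673922827081361397975063549895719058904895216139352066477655840570474417363276210461725068896487197813875165460840230183088228334012793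2821191108052780806083101143276035285874691826969850002224222768564943317915048894786934786022620020045715776906068239515346732132966144133664441644608319571849015452839461073117212237673661585578341706600232740969082525482491898202198407257579838847529915164514886169829366323415272936235717741733223851519584905532004000812192844623995708122958808553729886787870837134191849723079055196737564441826576449151522090316647494378398050536389136761079094822888195460332563467385242821600837569657392531896523647090688000)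

end Vale.Agent.Lib.P154.PChain.BX.S4
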